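import Vale.Agent.Lib.P154.PChain.BC.R1_0

set_option linter.all false

namespace Vale.Agent.Lib.P154.PChain.BC.S2

open Vale.Agent.Lib.P154.Chain

noncomputable def pc0 : PT := (PT.nd (nat_lit 9951240) (PT.nd (nat_lit 9763806) (PT.nd (nat_lit 9639006) (PT.nd (nat_lit 9576606) (PT.nd (nat_lit 9576528) (PT.nd (nat_lit 9514128) PT.nil (PT.lf (nat_lit 76) (nat_lit 3) (nat_lit 1) (nat_lit 1) (nat_lit 224) (nat_lit 152) (nat_lit 224))) (PT.lf (nat_lit 152) (nat_lit 6) (nat_lit 2) (nat_lit 3) (nat_lit 223) (nat_lit 153) (nat_lit 224))) (PT.nd (nat_lit 62322) (PT.lf (nat_lit 152) (nat_lit 6) (nat_lit 2) (nat_lit 1) (nat_lit 224) (nat_lit 153) (nat_lit 223)) (PT.lf (nat_lit 228) (nat_lit 6) (nat_lit 3) (nat_lit 3) (nat_lit 222) (nat_lit 154) (nat_lit 224)))) (PT.nd (nat_lit 62400) (PT.nd (nat_lit 78) (PT.lf (nat_lit 304) (nat_lit 3) (nat_lit 4) (nat_lit 1) (nat_lit 223) (nat_lit 154) (nat_lit 223))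 (PT.lf (nat_lit 228) (nat_lit 6) (nat_lit 3) (nat_lit 1) (nat_lit 224) (nat_lit 154) (nat_lit 222))) (PT.nd (nat_lit 78) (PT.lf (nat_lit 380) (nat_lit 6) (nat_lit 5) (nat_lit 3) (nat_lit 222) (nat_lit 155) (nat_lit 223)) (PT.lf (nat_lit 380) (nat_lit 6) (nat_lit 5) (nat_lit 1) (nat_lit 223) (nat_lit 155) (nat_lit 222))))) (PT.nd (nat_lit 62556) (PT.nd (nat_lit 156) (PT.nd (nat_lit 78) (PT.lf (nat_lit 456) (nat_lit 6) (nat_lit 6) (nat_lit 3) (nat_lit 221) (nat_lit 156) (nat_lit 223)) (PT.lf (nat_lit 532) (nat_lit 3) (nat_lit 7) (nat_lit 1) (nat_lit 222) (nat_lit 156) (nat_lit 222))) (PT.nd (nat_lit 62322) (PT.lf (nat_lit 456) (nat_lit 6) (nat_lit 6) (nat_lit 1) (nat_lit 223) (nat_lit 156) (nat_lit 221)) (PT.lf (nat_lit 608) (nat_lit 6) (nat_lit 8) (nat_lit 3) (nat_lit 221) (nat_lit 157) (nat_lit 222)))) (PT.nd (nat_lit 62400) (PT.nd (nat_lit 62322) (PT.lf (nat_lit 608) (nat_lit 6) (nat_lit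 8) (nat_lit 1) (nat_lit 222) (nat_lit 157) (nat_lit 221)) (PT.lf (nat_lit 684) (nat_lit 6) (nat_lit 9) (nat_lit 3) (nat_lit 220) (nat_lit 158) (nat_lit 222))) (PT.nd (nat_lit 78) (PT.lf (nat_lit 760) (nat_lit 3) (nat_lit 10) (nat_lit 1) (nat_lit 221) (nat_lit 158) (nat_lit 221)) (PT.nd (nat_lit 62322) (PT.lf (nat_lit 684) (nat_lit 6) (nat_lit 9) (nat_lit 1) (nat_lit 222) (nat_lit 158) (nat_lit 220)) (PT.lf (nat_lit 836) (nat_lit 6) (nat_lit 11) (nat_lit 3) (nat_lit 220) (nat_lit 159) (nat_lit 221))))))) (PT.nd (nat_lit 187356) (PT.nd (nat_lit 124800) (PT.nd (nat_lit 62400) (PT.nd (nat_lit 62322) (PT.lf (nat_lit 836) (nat_lit 6) (nat_lit 11) (nat_lit 1) (nat_lit 221) (nat_lit 159) (nat_lit 220)) (PT.lf (nat_lit 912) (nat_lit 6) (nat_lit 12) (nat_lit 3) (nat_lit 219) (nat_lit 160) (nat_lit 221))) (PT.nd (nat_lit 78) (PT.lf (nat_lit 988) (nat_lit 3) (nat_lit 13) (nat_lit 1) (nat_lit 220) (nat_lit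 160) (nat_lit 220)) (PT.lf (nat_lit 912) (nat_lit 6) (nat_lit 12) (nat_lit 1) (nat_lit 221) (nat_lit 160) (nat_lit 219)))) (PT.nd (nat_lit 62400) (PT.nd (nat_lit 78) (PT.lf (nat_lit 1064) (nat_lit 6) (nat_lit 14) (nat_lit 3) (nat_lit 219) (nat_lit 161) (nat_lit 220)) (PT.lf (nat_lit 1064) (nat_lit 6) (nat_lit 14) (nat_lit 1) (nat_lit 220) (nat_lit 161) (nat_lit 219))) (PT.nd (nat_lit 78) (PT.lf (nat_lit 1140) (nat_lit 6) (nat_lit 15) (nat_lit 3) (nat_lit 218) (nat_lit 162) (nat_lit 220)) (PT.lf (nat_lit 1216) (nat_lit 3) (nat_lit 16) (nat_lit 1) (nat_lit 219) (nat_lit 162) (nat_lit 219))))) (PT.nd (nat_lit 124800) (PT.nd (nat_lit 62400) (PT.nd (nat_lit 62322) (PT.lf (nat_lit 1140) (nat_lit 6) (nat_lit 15) (nat_lit 1) (nat_lit 220) (nat_lit 162) (nat_lit 218)) (PT.lf (nat_lit 1292) (nat_lit 6) (nat_lit 17) (nat_lit 3) (nat_lit 218) (nat_lit 163) (nat_lit 219))) (PT.nd (nat_lit 62322) (PT.lf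 (nat_lit 1292) (nat_lit 6) (nat_lit 17) (nat_lit 1) (nat_lit 219) (nat_lit 163) (nat_lit 218)) (PT.lf (nat_lit 1368) (nat_lit 6) (nat_lit 18) (nat_lit 3) (nat_lit 217) (nat_lit 164) (nat_lit 219)))) (PT.nd (nat_lit 62400) (PT.nd (nat_lit 78) (PT.lf (nat_lit 1444) (nat_lit 3) (nat_lit 19) (nat_lit 1) (nat_lit 218) (nat_lit 164) (nat_lit 218)) (PT.lf (nat_lit 1368) (nat_lit 6) (nat_lit 18) (nat_lit 1) (nat_lit 219) (nat_lit 164) (nat_lit 217))) (PT.nd (nat_lit 78) (PT.lf (nat_lit 1520) (nat_lit 6) (nat_lit 20) (nat_lit 3) (nat_lit 217) (nat_lit 165) (nat_lit 218)) (PT.nd (nat_lit 62322) (PT.lf (nat_lit 1520) (nat_lit 6) (nat_lit 20) (nat_lit 1) (nat_lit 218) (nat_lit 165) (nat_lit 217)) (PT.lf (nat_lit 1596) (nat_lit 6) (nat_lit 21) (nat_lit 3) (nat_lit 216) (nat_lit 166) (nat_lit 218))))))))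
noncomputable def pc1 : PT := (PT.nd (nat_lit 437034) (PT.nd (nat_lit 187356) (PT.nd (nat_lit 124800) (PT.nd (nat_lit 62400) (PT.nd (nat_lit 78) (PT.lf (nat_lit 1672) (nat_lit 3) (nat_lit 22) (nat_lit 1) (nat_lit 217) (nat_lit 166) (nat_lit 217)) (PT.lf (nat_lit 1596) (nat_lit 6) (nat_lit 21) (nat_lit 1) (nat_lit 218) (nat_lit 166) (nat_lit 216))) (PT.nd (nat_lit 78) (PT.lf (nat_lit 1748) (nat_lit 6) (nat_lit 23) (nat_lit 3) (nat_lit 216) (nat_lit 167) (nat_lit 217)) (PT.lf (nat_lit 1748) (nat_lit 6) (nat_lit 23) (nat_lit 1) (nat_lit 217) (nat_lit 167) (nat_lit 216)))) (PT.nd (nat_lit 156) (PT.nd (nat_lit 78) (PT.lf (nat_lit 1824) (nat_lit 6) (nat_lit 24) (nat_lit 3) (nat_lit 215) (nat_lit 168) (nat_lit 217)) (PT.lf (nat_lit 1900) (nat_lit 3) (nat_lit 25) (nat_lit 1) (nat_lit 216) (nat_lit 168) (nat_lit 216))) (PT.nd (nat_lit 62322) (PT.lf (nat_lit 1824) (nat_lit 6) (nat_lit 24) (nat_lit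 1) (nat_lit 217) (nat_lit 168) (nat_lit 215)) (PT.lf (nat_lit 1976) (nat_lit 6) (nat_lit 26) (nat_lit 3) (nat_lit 215) (nat_lit 169) (nat_lit 216))))) (PT.nd (nat_lit 124800) (PT.nd (nat_lit 62400) (PT.nd (nat_lit 62322) (PT.lf (nat_lit 1976) (nat_lit 6) (nat_lit 26) (nat_lit 1) (nat_lit 216) (nat_lit 169) (nat_lit 215)) (PT.lf (nat_lit 2052) (nat_lit 6) (nat_lit 27) (nat_lit 3) (nat_lit 214) (nat_lit 170) (nat_lit 216))) (PT.nd (nat_lit 78) (PT.lf (nat_lit 2128) (nat_lit 3) (nat_lit 28) (nat_lit 1) (nat_lit 215) (nat_lit 170) (nat_lit 215)) (PT.lf (nat_lit 2052) (nat_lit 6) (nat_lit 27) (nat_lit 1) (nat_lit 216) (nat_lit 170) (nat_lit 214)))) (PT.nd (nat_lit 62400) (PT.nd (nat_lit 78) (PT.lf (nat_lit 2204) (nat_lit 6) (nat_lit 29) (nat_lit 3) (nat_lit 214) (nat_lit 171) (nat_lit 215)) (PT.lf (nat_lit 2204) (nat_lit 6) (nat_lit 29) (nat_lit 1) (nat_lit 215) (nat_lit 171) (nat_lit 214)))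 (PT.nd (nat_lit 78) (PT.lf (nat_lit 2280) (nat_lit 6) (nat_lit 30) (nat_lit 3) (nat_lit 213) (nat_lit 172) (nat_lit 215)) (PT.nd (nat_lit 78) (PT.lf (nat_lit 2356) (nat_lit 3) (nat_lit 31) (nat_lit 1) (nat_lit 214) (nat_lit 172) (nat_lit 214)) (PT.lf (nat_lit 2280) (nat_lit 6) (nat_lit 30) (nat_lit 1) (nat_lit 215) (nat_lit 172) (nat_lit 213))))))) (PT.nd (nat_lit 187356) (PT.nd (nat_lit 62556) (PT.nd (nat_lit 62400) (PT.nd (nat_lit 78) (PT.lf (nat_lit 2432) (nat_lit 6) (nat_lit 32) (nat_lit 3) (nat_lit 213) (nat_lit 173) (nat_lit 214)) (PT.lf (nat_lit 2432) (nat_lit 6) (nat_lit 32) (nat_lit 1) (nat_lit 214) (nat_lit 173) (nat_lit 213))) (PT.nd (nat_lit 78) (PT.lf (nat_lit 2508) (nat_lit 6) (nat_lit 33) (nat_lit 3) (nat_lit 212) (nat_lit 174) (nat_lit 214)) (PT.lf (nat_lit 2584) (nat_lit 3) (nat_lit 34) (nat_lit 1) (nat_lit 213) (nat_lit 174) (nat_lit 213)))) (PT.nd (nat_lit 62400) (PT.nd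 (nat_lit 62322) (PT.lf (nat_lit 2508) (nat_lit 6) (nat_lit 33) (nat_lit 1) (nat_lit 214) (nat_lit 174) (nat_lit 212)) (PT.lf (nat_lit 2660) (nat_lit 6) (nat_lit 35) (nat_lit 3) (nat_lit 212) (nat_lit 175) (nat_lit 213))) (PT.nd (nat_lit 62322) (PT.lf (nat_lit 2660) (nat_lit 6) (nat_lit 35) (nat_lit 1) (nat_lit 213) (nat_lit 175) (nat_lit 212)) (PT.lf (nat_lit 2736) (nat_lit 6) (nat_lit 36) (nat_lit 3) (nat_lit 211) (nat_lit 176) (nat_lit 213))))) (PT.nd (nat_lit 124800) (PT.nd (nat_lit 62400) (PT.nd (nat_lit 78) (PT.lf (nat_lit 2812) (nat_lit 3) (nat_lit 37) (nat_lit 1) (nat_lit 212) (nat_lit 176) (nat_lit 212)) (PT.lf (nat_lit 2736) (nat_lit 6) (nat_lit 36) (nat_lit 1) (nat_lit 213) (nat_lit 176) (nat_lit 211))) (PT.nd (nat_lit 78) (PT.lf (nat_lit 2888) (nat_lit 6) (nat_lit 38) (nat_lit 3) (nat_lit 211) (nat_lit 177) (nat_lit 212)) (PT.lf (nat_lit 2888) (nat_lit 6) (nat_lit 38) (nat_lit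 1) (nat_lit 212) (nat_lit 177) (nat_lit 211)))) (PT.nd (nat_lit 156) (PT.nd (nat_lit 78) (PT.lf (nat_lit 2964) (nat_lit 6) (nat_lit 39) (nat_lit 3) (nat_lit 210) (nat_lit 178) (nat_lit 212)) (PT.lf (nat_lit 3040) (nat_lit 3) (nat_lit 40) (nat_lit 1) (nat_lit 211) (nat_lit 178) (nat_lit 211))) (PT.nd (nat_lit 62322) (PT.lf (nat_lit 2964) (nat_lit 6) (nat_lit 39) (nat_lit 1) (nat_lit 212) (nat_lit 178) (nat_lit 210)) (PT.nd (nat_lit 78) (PT.lf (nat_lit 3116) (nat_lit 6) (nat_lit 41) (nat_lit 3) (nat_lit 210) (nat_lit 179) (nat_lit 211)) (PT.lf (nat_lit 3116) (nat_lit 6) (nat_lit 41) (nat_lit 1) (nat_lit 211) (nat_lit 179) (nat_lit 210))))))))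
noncomputable def pc2 : PT := (PT.nd (nat_lit 312156) (PT.nd (nat_lit 124956) (PT.nd (nat_lit 62478) (PT.nd (nat_lit 156) (PT.nd (nat_lit 78) (PT.lf (nat_lit 3192) (nat_lit 6) (nat_lit 42) (nat_lit 3) (nat_lit 209) (nat_lit 180) (nat_lit 211)) (PT.lf (nat_lit 3268) (nat_lit 3) (nat_lit 43) (nat_lit 1) (nat_lit 210) (nat_lit 180) (nat_lit 210))) (PT.nd (nat_lit 62244) (PT.lf (nat_lit 3192) (nat_lit 6) (nat_lit 42) (nat_lit 1) (nat_lit 211) (nat_lit 180) (nat_lit 209)) (PT.lf (nat_lit 3344) (nat_lit 6) (nat_lit 44) (nat_lit 3) (nat_lit 208) (nat_lit 181) (nat_lit 211)))) (PT.nd (nat_lit 156) (PT.nd (nat_lit 78) (PT.lf (nat_lit 3420) (nat_lit 6) (nat_lit 45) (nat_lit 3) (nat_lit 209) (nat_lit 181) (nat_lit 210)) (PT.lf (nat_lit 3420) (nat_lit 6) (nat_lit 45) (nat_lit 1) (nat_lit 210) (nat_lit 181) (nat_lit 209))) (PT.nd (nat_lit 62244) (PT.lf (nat_lit 3344) (nat_lit 6) (nat_lit 44) (nat_lit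 1) (nat_lit 211) (nat_lit 181) (nat_lit 208)) (PT.lf (nat_lit 3496) (nat_lit 6) (nat_lit 46) (nat_lit 3) (nat_lit 208) (nat_lit 182) (nat_lit 210))))) (PT.nd (nat_lit 62478) (PT.nd (nat_lit 62322) (PT.nd (nat_lit 78) (PT.lf (nat_lit 3572) (nat_lit 3) (nat_lit 47) (nat_lit 1) (nat_lit 209) (nat_lit 182) (nat_lit 209)) (PT.lf (nat_lit 3496) (nat_lit 6) (nat_lit 46) (nat_lit 1) (nat_lit 210) (nat_lit 182) (nat_lit 208))) (PT.nd (nat_lit 78) (PT.lf (nat_lit 3648) (nat_lit 6) (nat_lit 48) (nat_lit 3) (nat_lit 207) (nat_lit 183) (nat_lit 210)) (PT.lf (nat_lit 3724) (nat_lit 6) (nat_lit 49) (nat_lit 3) (nat_lit 208) (nat_lit 183) (nat_lit 209)))) (PT.nd (nat_lit 62322) (PT.nd (nat_lit 78) (PT.lf (nat_lit 3724) (nat_lit 6) (nat_lit 49) (nat_lit 1) (nat_lit 209) (nat_lit 183) (nat_lit 208)) (PT.lf (nat_lit 3648) (nat_lit 6) (nat_lit 48) (nat_lit 1) (nat_lit 210) (nat_lit 183) (nat_lit 207))) (PT.nd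 (nat_lit 78) (PT.lf (nat_lit 3800) (nat_lit 6) (nat_lit 50) (nat_lit 3) (nat_lit 207) (nat_lit 184) (nat_lit 209)) (PT.nd (nat_lit 78) (PT.lf (nat_lit 3876) (nat_lit 3) (nat_lit 51) (nat_lit 1) (nat_lit 208) (nat_lit 184) (nat_lit 208)) (PT.lf (nat_lit 3800) (nat_lit 6) (nat_lit 50) (nat_lit 1) (nat_lit 209) (nat_lit 184) (nat_lit 207))))))) (PT.nd (nat_lit 62712) (PT.nd (nat_lit 62400) (PT.nd (nat_lit 156) (PT.nd (nat_lit 78) (PT.lf (nat_lit 3952) (nat_lit 6) (nat_lit 52) (nat_lit 3) (nat_lit 206) (nat_lit 185) (nat_lit 209)) (PT.lf (nat_lit 4028) (nat_lit 6) (nat_lit 53) (nat_lit 3) (nat_lit 207) (nat_lit 185) (nat_lit 208))) (PT.nd (nat_lit 78) (PT.lf (nat_lit 4028) (nat_lit 6) (nat_lit 53) (nat_lit 1) (nat_lit 208) (nat_lit 185) (nat_lit 207)) (PT.lf (nat_lit 3952) (nat_lit 6) (nat_lit 52) (nat_lit 1) (nat_lit 209) (nat_lit 185) (nat_lit 206)))) (PT.nd (nat_lit 156) (PT.nd (nat_lit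 78) (PT.lf (nat_lit 4104) (nat_lit 6) (nat_lit 54) (nat_lit 3) (nat_lit 205) (nat_lit 186) (nat_lit 209)) (PT.lf (nat_lit 4180) (nat_lit 6) (nat_lit 55) (nat_lit 3) (nat_lit 206) (nat_lit 186) (nat_lit 208))) (PT.nd (nat_lit 78) (PT.lf (nat_lit 4256) (nat_lit 3) (nat_lit 56) (nat_lit 1) (nat_lit 207) (nat_lit 186) (nat_lit 207)) (PT.lf (nat_lit 4180) (nat_lit 6) (nat_lit 55) (nat_lit 1) (nat_lit 208) (nat_lit 186) (nat_lit 206))))) (PT.nd (nat_lit 62400) (PT.nd (nat_lit 62244) (PT.nd (nat_lit 62166) (PT.lf (nat_lit 4104) (nat_lit 6) (nat_lit 54) (nat_lit 1) (nat_lit 209) (nat_lit 186) (nat_lit 205)) (PT.lf (nat_lit 4332) (nat_lit 6) (nat_lit 57) (nat_lit 3) (nat_lit 205) (nat_lit 187) (nat_lit 208))) (PT.nd (nat_lit 78) (PT.lf (nat_lit 4408) (nat_lit 6) (nat_lit 58) (nat_lit 3) (nat_lit 206) (nat_lit 187) (nat_lit 207)) (PT.lf (nat_lit 4408) (nat_lit 6) (nat_lit 58) (nat_lit 1) (nat_lit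 207) (nat_lit 187) (nat_lit 206)))) (PT.nd (nat_lit 62244) (PT.nd (nat_lit 62166) (PT.lf (nat_lit 4332) (nat_lit 6) (nat_lit 57) (nat_lit 1) (nat_lit 208) (nat_lit 187) (nat_lit 205)) (PT.lf (nat_lit 4484) (nat_lit 6) (nat_lit 59) (nat_lit 3) (nat_lit 204) (nat_lit 188) (nat_lit 208))) (PT.nd (nat_lit 78) (PT.lf (nat_lit 4560) (nat_lit 6) (nat_lit 60) (nat_lit 3) (nat_lit 205) (nat_lit 188) (nat_lit 207)) (PT.nd (nat_lit 78) (PT.lf (nat_lit 4636) (nat_lit 3) (nat_lit 61) (nat_lit 1) (nat_lit 206) (nat_lit 188) (nat_lit 206)) (PT.lf (nat_lit 4560) (nat_lit 6) (nat_lit 60) (nat_lit 1) (nat_lit 207) (nat_lit 188) (nat_lit 205))))))))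
noncomputable def pc3 : PT := (PT.nd (nat_lit 187356) (PT.nd (nat_lit 124644) (PT.nd (nat_lit 62322) (PT.nd (nat_lit 62166) (PT.nd (nat_lit 62088) (PT.lf (nat_lit 4484) (nat_lit 6) (nat_lit 59) (nat_lit 1) (nat_lit 208) (nat_lit 188) (nat_lit 204)) (PT.lf (nat_lit 4712) (nat_lit 6) (nat_lit 62) (nat_lit 3) (nat_lit 203) (nat_lit 189) (nat_lit 208))) (PT.nd (nat_lit 78) (PT.lf (nat_lit 4788) (nat_lit 6) (nat_lit 63) (nat_lit 3) (nat_lit 204) (nat_lit 189) (nat_lit 207)) (PT.lf (nat_lit 4864) (nat_lit 6) (nat_lit 64) (nat_lit 3) (nat_lit 205) (nat_lit 189) (nat_lit 206)))) (PT.nd (nat_lit 156) (PT.nd (nat_lit 78) (PT.lf (nat_lit 4864) (nat_lit 6) (nat_lit 64) (nat_lit 1) (nat_lit 206) (nat_lit 189) (nat_lit 205)) (PT.lf (nat_lit 4788) (nat_lit 6) (nat_lit 63) (nat_lit 1) (nat_lit 207) (nat_lit 189) (nat_lit 204))) (PT.nd (nat_lit 62088) (PT.lf (nat_lit 4712) (nat_lit 6) (nat_lit 62) (nat_lit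 1) (nat_lit 208) (nat_lit 189) (nat_lit 203)) (PT.lf (nat_lit 4940) (nat_lit 6) (nat_lit 65) (nat_lit 3) (nat_lit 203) (nat_lit 190) (nat_lit 207))))) (PT.nd (nat_lit 62322) (PT.nd (nat_lit 156) (PT.nd (nat_lit 78) (PT.lf (nat_lit 5016) (nat_lit 6) (nat_lit 66) (nat_lit 3) (nat_lit 204) (nat_lit 190) (nat_lit 206)) (PT.lf (nat_lit 5092) (nat_lit 3) (nat_lit 67) (nat_lit 1) (nat_lit 205) (nat_lit 190) (nat_lit 205))) (PT.nd (nat_lit 78) (PT.lf (nat_lit 5016) (nat_lit 6) (nat_lit 66) (nat_lit 1) (nat_lit 206) (nat_lit 190) (nat_lit 204)) (PT.lf (nat_lit 4940) (nat_lit 6) (nat_lit 65) (nat_lit 1) (nat_lit 207) (nat_lit 190) (nat_lit 203)))) (PT.nd (nat_lit 156) (PT.nd (nat_lit 78) (PT.lf (nat_lit 5168) (nat_lit 6) (nat_lit 68) (nat_lit 3) (nat_lit 202) (nat_lit 191) (nat_lit 207)) (PT.lf (nat_lit 5244) (nat_lit 6) (nat_lit 69) (nat_lit 3) (nat_lit 203) (nat_lit 191) (nat_lit 206))) (PT.nd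 (nat_lit 78) (PT.lf (nat_lit 5320) (nat_lit 6) (nat_lit 70) (nat_lit 3) (nat_lit 204) (nat_lit 191) (nat_lit 205)) (PT.nd (nat_lit 78) (PT.lf (nat_lit 5320) (nat_lit 6) (nat_lit 70) (nat_lit 1) (nat_lit 205) (nat_lit 191) (nat_lit 204)) (PT.lf (nat_lit 5244) (nat_lit 6) (nat_lit 69) (nat_lit 1) (nat_lit 206) (nat_lit 191) (nat_lit 203))))))) (PT.nd (nat_lit 124410) (PT.nd (nat_lit 62244) (PT.nd (nat_lit 62088) (PT.nd (nat_lit 62010) (PT.lf (nat_lit 5168) (nat_lit 6) (nat_lit 68) (nat_lit 1) (nat_lit 207) (nat_lit 191) (nat_lit 202)) (PT.lf (nat_lit 5396) (nat_lit 6) (nat_lit 71) (nat_lit 3) (nat_lit 201) (nat_lit 192) (nat_lit 207))) (PT.nd (nat_lit 78) (PT.lf (nat_lit 5472) (nat_lit 6) (nat_lit 72) (nat_lit 3) (nat_lit 202) (nat_lit 192) (nat_lit 206)) (PT.lf (nat_lit 5548) (nat_lit 6) (nat_lit 73) (nat_lit 3) (nat_lit 203) (nat_lit 192) (nat_lit 205)))) (PT.nd (nat_lit 156) (PT.nd (nat_lit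 78) (PT.lf (nat_lit 5624) (nat_lit 3) (nat_lit 74) (nat_lit 1) (nat_lit 204) (nat_lit 192) (nat_lit 204)) (PT.lf (nat_lit 5548) (nat_lit 6) (nat_lit 73) (nat_lit 1) (nat_lit 205) (nat_lit 192) (nat_lit 203))) (PT.nd (nat_lit 78) (PT.lf (nat_lit 5472) (nat_lit 6) (nat_lit 72) (nat_lit 1) (nat_lit 206) (nat_lit 192) (nat_lit 202)) (PT.lf (nat_lit 5396) (nat_lit 6) (nat_lit 71) (nat_lit 1) (nat_lit 207) (nat_lit 192) (nat_lit 201))))) (PT.nd (nat_lit 312) (PT.nd (nat_lit 156) (PT.nd (nat_lit 78) (PT.lf (nat_lit 5852) (nat_lit 6) (nat_lit 77) (nat_lit 3) (nat_lit 200) (nat_lit 193) (nat_lit 207)) (PT.lf (nat_lit 5928) (nat_lit 6) (nat_lit 78) (nat_lit 3) (nat_lit 201) (nat_lit 193) (nat_lit 206))) (PT.nd (nat_lit 78) (PT.lf (nat_lit 6004) (nat_lit 6) (nat_lit 79) (nat_lit 3) (nat_lit 202) (nat_lit 193) (nat_lit 205)) (PT.lf (nat_lit 6080) (nat_lit 6) (nat_lit 80) (nat_lit 3) (nat_lit 203) (nat_lit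 193) (nat_lit 204)))) (PT.nd (nat_lit 156) (PT.nd (nat_lit 78) (PT.lf (nat_lit 6080) (nat_lit 6) (nat_lit 80) (nat_lit 1) (nat_lit 204) (nat_lit 193) (nat_lit 203)) (PT.lf (nat_lit 6004) (nat_lit 6) (nat_lit 79) (nat_lit 1) (nat_lit 205) (nat_lit 193) (nat_lit 202))) (PT.nd (nat_lit 78) (PT.lf (nat_lit 5928) (nat_lit 6) (nat_lit 78) (nat_lit 1) (nat_lit 206) (nat_lit 193) (nat_lit 201)) (PT.nd (nat_lit 61854) (PT.lf (nat_lit 5852) (nat_lit 6) (nat_lit 77) (nat_lit 1) (nat_lit 207) (nat_lit 193) (nat_lit 200)) (PT.lf (nat_lit 5776) (nat_lit 6) (nat_lit 76) (nat_lit 3) (nat_lit 199) (nat_lit 194) (nat_lit 207))))))))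
noncomputable def pc4 : PT := (PT.nd (nat_lit 63024) (PT.nd (nat_lit 62322) (PT.nd (nat_lit 312) (PT.nd (nat_lit 156) (PT.nd (nat_lit 78) (PT.lf (nat_lit 6384) (nat_lit 6) (nat_lit 84) (nat_lit 3) (nat_lit 200) (nat_lit 194) (nat_lit 206)) (PT.lf (nat_lit 6460) (nat_lit 6) (nat_lit 85) (nat_lit 3) (nat_lit 201) (nat_lit 194) (nat_lit 205))) (PT.nd (nat_lit 78) (PT.lf (nat_lit 6536) (nat_lit 6) (nat_lit 86) (nat_lit 3) (nat_lit 202) (nat_lit 194) (nat_lit 204)) (PT.lf (nat_lit 6612) (nat_lit 3) (nat_lit 87) (nat_lit 1) (nat_lit 203) (nat_lit 194) (nat_lit 203)))) (PT.nd (nat_lit 156) (PT.nd (nat_lit 78) (PT.lf (nat_lit 6536) (nat_lit 6) (nat_lit 86) (nat_lit 1) (nat_lit 204) (nat_lit 194) (nat_lit 202)) (PT.lf (nat_lit 6460) (nat_lit 6) (nat_lit 85) (nat_lit 1) (nat_lit 205) (nat_lit 194) (nat_lit 201))) (PT.nd (nat_lit 78) (PT.lf (nat_lit 6384) (nat_lit 6) (nat_lit 84) (nat_lit 1) (nat_lit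 206) (nat_lit 194) (nat_lit 200)) (PT.lf (nat_lit 5776) (nat_lit 6) (nat_lit 76) (nat_lit 1) (nat_lit 207) (nat_lit 194) (nat_lit 199))))) (PT.nd (nat_lit 312) (PT.nd (nat_lit 156) (PT.nd (nat_lit 78) (PT.lf (nat_lit 5700) (nat_lit 6) (nat_lit 75) (nat_lit 3) (nat_lit 198) (nat_lit 195) (nat_lit 207)) (PT.lf (nat_lit 6308) (nat_lit 6) (nat_lit 83) (nat_lit 3) (nat_lit 199) (nat_lit 195) (nat_lit 206))) (PT.nd (nat_lit 78) (PT.lf (nat_lit 6840) (nat_lit 6) (nat_lit 90) (nat_lit 3) (nat_lit 200) (nat_lit 195) (nat_lit 205)) (PT.lf (nat_lit 6916) (nat_lit 6) (nat_lit 91) (nat_lit 3) (nat_lit 201) (nat_lit 195) (nat_lit 204)))) (PT.nd (nat_lit 156) (PT.nd (nat_lit 78) (PT.lf (nat_lit 6992) (nat_lit 6) (nat_lit 92) (nat_lit 3) (nat_lit 202) (nat_lit 195) (nat_lit 203)) (PT.lf (nat_lit 6992) (nat_lit 6) (nat_lit 92) (nat_lit 1) (nat_lit 203) (nat_lit 195) (nat_lit 202))) (PT.nd (nat_lit 78) (PT.lf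 (nat_lit 6916) (nat_lit 6) (nat_lit 91) (nat_lit 1) (nat_lit 204) (nat_lit 195) (nat_lit 201)) (PT.nd (nat_lit 78) (PT.lf (nat_lit 6840) (nat_lit 6) (nat_lit 90) (nat_lit 1) (nat_lit 205) (nat_lit 195) (nat_lit 200)) (PT.lf (nat_lit 6308) (nat_lit 6) (nat_lit 83) (nat_lit 1) (nat_lit 206) (nat_lit 195) (nat_lit 199))))))) (PT.nd (nat_lit 62322) (PT.nd (nat_lit 62010) (PT.nd (nat_lit 61854) (PT.nd (nat_lit 61776) (PT.lf (nat_lit 5700) (nat_lit 6) (nat_lit 75) (nat_lit 1) (nat_lit 207) (nat_lit 195) (nat_lit 198)) (PT.lf (nat_lit 6232) (nat_lit 6) (nat_lit 82) (nat_lit 3) (nat_lit 198) (nat_lit 196) (nat_lit 206))) (PT.nd (nat_lit 78) (PT.lf (nat_lit 6764) (nat_lit 6) (nat_lit 89) (nat_lit 3) (nat_lit 199) (nat_lit 196) (nat_lit 205)) (PT.lf (nat_lit 7220) (nat_lit 6) (nat_lit 95) (nat_lit 3) (nat_lit 200) (nat_lit 196) (nat_lit 204)))) (PT.nd (nat_lit 156) (PT.nd (nat_lit 78) (PT.lf (nat_lit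 7296) (nat_lit 6) (nat_lit 96) (nat_lit 3) (nat_lit 201) (nat_lit 196) (nat_lit 203)) (PT.lf (nat_lit 7372) (nat_lit 3) (nat_lit 97) (nat_lit 1) (nat_lit 202) (nat_lit 196) (nat_lit 202))) (PT.nd (nat_lit 78) (PT.lf (nat_lit 7296) (nat_lit 6) (nat_lit 96) (nat_lit 1) (nat_lit 203) (nat_lit 196) (nat_lit 201)) (PT.lf (nat_lit 7220) (nat_lit 6) (nat_lit 95) (nat_lit 1) (nat_lit 204) (nat_lit 196) (nat_lit 200))))) (PT.nd (nat_lit 62010) (PT.nd (nat_lit 61854) (PT.nd (nat_lit 78) (PT.lf (nat_lit 6764) (nat_lit 6) (nat_lit 89) (nat_lit 1) (nat_lit 205) (nat_lit 196) (nat_lit 199)) (PT.lf (nat_lit 6232) (nat_lit 6) (nat_lit 82) (nat_lit 1) (nat_lit 206) (nat_lit 196) (nat_lit 198))) (PT.nd (nat_lit 78) (PT.lf (nat_lit 6156) (nat_lit 3) (nat_lit 81) (nat_lit 3) (nat_lit 197) (nat_lit 197) (nat_lit 206)) (PT.lf (nat_lit 6688) (nat_lit 6) (nat_lit 88) (nat_lit 3) (nat_lit 198) (nat_lit 197) (nat_lit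 205)))) (PT.nd (nat_lit 156) (PT.nd (nat_lit 78) (PT.lf (nat_lit 7144) (nat_lit 6) (nat_lit 94) (nat_lit 3) (nat_lit 199) (nat_lit 197) (nat_lit 204)) (PT.lf (nat_lit 7524) (nat_lit 6) (nat_lit 99) (nat_lit 3) (nat_lit 200) (nat_lit 197) (nat_lit 203))) (PT.nd (nat_lit 78) (PT.lf (nat_lit 7600) (nat_lit 6) (nat_lit 100) (nat_lit 3) (nat_lit 201) (nat_lit 197) (nat_lit 202)) (PT.nd (nat_lit 78) (PT.lf (nat_lit 7600) (nat_lit 6) (nat_lit 100) (nat_lit 1) (nat_lit 202) (nat_lit 197) (nat_lit 201)) (PT.lf (nat_lit 7524) (nat_lit 6) (nat_lit 99) (nat_lit 1) (nat_lit 203) (nat_lit 197) (nat_lit 200))))))))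
noncomputable def pc5 : PT := (PT.nd (nat_lit 124254) (PT.nd (nat_lit 62166) (PT.nd (nat_lit 61854) (PT.nd (nat_lit 156) (PT.nd (nat_lit 78) (PT.lf (nat_lit 7144) (nat_lit 6) (nat_lit 94) (nat_lit 1) (nat_lit 204) (nat_lit 197) (nat_lit 199)) (PT.lf (nat_lit 6688) (nat_lit 6) (nat_lit 88) (nat_lit 1) (nat_lit 205) (nat_lit 197) (nat_lit 198))) (PT.nd (nat_lit 61620) (PT.lf (nat_lit 6156) (nat_lit 3) (nat_lit 81) (nat_lit 0) (nat_lit 206) (nat_lit 197) (nat_lit 197)) (PT.lf (nat_lit 5700) (nat_lit 6) (nat_lit 75) (nat_lit 5) (nat_lit 195) (nat_lit 198) (nat_lit 207)))) (PT.nd (nat_lit 156) (PT.nd (nat_lit 78) (PT.lf (nat_lit 6232) (nat_lit 6) (nat_lit 82) (nat_lit 5) (nat_lit 196) (nat_lit 198) (nat_lit 206)) (PT.lf (nat_lit 6688) (nat_lit 6) (nat_lit 88) (nat_lit 5) (nat_lit 197) (nat_lit 198) (nat_lit 205))) (PT.nd (nat_lit 78) (PT.lf (nat_lit 7068) (nat_lit 3) (nat_lit 93) (nat_lit 3)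 (nat_lit 198) (nat_lit 198) (nat_lit 204)) (PT.lf (nat_lit 7448) (nat_lit 6) (nat_lit 98) (nat_lit 3) (nat_lit 199) (nat_lit 198) (nat_lit 203))))) (PT.nd (nat_lit 312) (PT.nd (nat_lit 156) (PT.nd (nat_lit 78) (PT.lf (nat_lit 7752) (nat_lit 6) (nat_lit 102) (nat_lit 3) (nat_lit 200) (nat_lit 198) (nat_lit 202)) (PT.lf (nat_lit 7828) (nat_lit 3) (nat_lit 103) (nat_lit 1) (nat_lit 201) (nat_lit 198) (nat_lit 201))) (PT.nd (nat_lit 78) (PT.lf (nat_lit 7752) (nat_lit 6) (nat_lit 102) (nat_lit 1) (nat_lit 202) (nat_lit 198) (nat_lit 200)) (PT.lf (nat_lit 7448) (nat_lit 6) (nat_lit 98) (nat_lit 1) (nat_lit 203) (nat_lit 198) (nat_lit 199)))) (PT.nd (nat_lit 156) (PT.nd (nat_lit 78) (PT.lf (nat_lit 7068) (nat_lit 3) (nat_lit 93) (nat_lit 0) (nat_lit 204) (nat_lit 198) (nat_lit 198)) (PT.lf (nat_lit 6688) (nat_lit 6) (nat_lit 88) (nat_lit 0) (nat_lit 205) (nat_lit 198) (nat_lit 197))) (PT.nd (nat_lit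 78) (PT.lf (nat_lit 6232) (nat_lit 6) (nat_lit 82) (nat_lit 0) (nat_lit 206) (nat_lit 198) (nat_lit 196)) (PT.nd (nat_lit 61464) (PT.lf (nat_lit 5700) (nat_lit 6) (nat_lit 75) (nat_lit 0) (nat_lit 207) (nat_lit 198) (nat_lit 195)) (PT.lf (nat_lit 5776) (nat_lit 6) (nat_lit 76) (nat_lit 5) (nat_lit 194) (nat_lit 199) (nat_lit 207))))))) (PT.nd (nat_lit 624) (PT.nd (nat_lit 312) (PT.nd (nat_lit 156) (PT.nd (nat_lit 78) (PT.lf (nat_lit 6308) (nat_lit 6) (nat_lit 83) (nat_lit 5) (nat_lit 195) (nat_lit 199) (nat_lit 206)) (PT.lf (nat_lit 6764) (nat_lit 6) (nat_lit 89) (nat_lit 5) (nat_lit 196) (nat_lit 199) (nat_lit 205))) (PT.nd (nat_lit 78) (PT.lf (nat_lit 7144) (nat_lit 6) (nat_lit 94) (nat_lit 5) (nat_lit 197) (nat_lit 199) (nat_lit 204)) (PT.lf (nat_lit 7448) (nat_lit 6) (nat_lit 98) (nat_lit 5) (nat_lit 198) (nat_lit 199) (nat_lit 203)))) (PT.nd (nat_lit 156) (PT.nd (nat_lit 78) (PT.lf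 (nat_lit 7676) (nat_lit 3) (nat_lit 101) (nat_lit 3) (nat_lit 199) (nat_lit 199) (nat_lit 202)) (PT.lf (nat_lit 7904) (nat_lit 6) (nat_lit 104) (nat_lit 3) (nat_lit 200) (nat_lit 199) (nat_lit 201))) (PT.nd (nat_lit 78) (PT.lf (nat_lit 7904) (nat_lit 6) (nat_lit 104) (nat_lit 1) (nat_lit 201) (nat_lit 199) (nat_lit 200)) (PT.lf (nat_lit 7676) (nat_lit 3) (nat_lit 101) (nat_lit 0) (nat_lit 202) (nat_lit 199) (nat_lit 199))))) (PT.nd (nat_lit 312) (PT.nd (nat_lit 156) (PT.nd (nat_lit 78) (PT.lf (nat_lit 7448) (nat_lit 6) (nat_lit 98) (nat_lit 0) (nat_lit 203) (nat_lit 199) (nat_lit 198)) (PT.lf (nat_lit 7144) (nat_lit 6) (nat_lit 94) (nat_lit 0) (nat_lit 204) (nat_lit 199) (nat_lit 197))) (PT.nd (nat_lit 78) (PT.lf (nat_lit 6764) (nat_lit 6) (nat_lit 89) (nat_lit 0) (nat_lit 205) (nat_lit 199) (nat_lit 196)) (PT.lf (nat_lit 6308) (nat_lit 6) (nat_lit 83) (nat_lit 0) (nat_lit 206) (nat_lit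 199) (nat_lit 195)))) (PT.nd (nat_lit 61464) (PT.nd (nat_lit 61386) (PT.lf (nat_lit 5776) (nat_lit 6) (nat_lit 76) (nat_lit 0) (nat_lit 207) (nat_lit 199) (nat_lit 194)) (PT.lf (nat_lit 5852) (nat_lit 6) (nat_lit 77) (nat_lit 5) (nat_lit 193) (nat_lit 200) (nat_lit 207))) (PT.nd (nat_lit 78) (PT.lf (nat_lit 6384) (nat_lit 6) (nat_lit 84) (nat_lit 5) (nat_lit 194) (nat_lit 200) (nat_lit 206)) (PT.nd (nat_lit 78) (PT.lf (nat_lit 6840) (nat_lit 6) (nat_lit 90) (nat_lit 5) (nat_lit 195) (nat_lit 200) (nat_lit 205)) (PT.lf (nat_lit 7220) (nat_lit 6) (nat_lit 95) (nat_lit 5) (nat_lit 196) (nat_lit 200) (nat_lit 204))))))))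
noncomputable def pc6 : PT := (PT.nd (nat_lit 62556) (PT.nd (nat_lit 624) (PT.nd (nat_lit 312) (PT.nd (nat_lit 156) (PT.nd (nat_lit 78) (PT.lf (nat_lit 7524) (nat_lit 6) (nat_lit 99) (nat_lit 5) (nat_lit 197) (nat_lit 200) (nat_lit 203)) (PT.lf (nat_lit 7752) (nat_lit 6) (nat_lit 102) (nat_lit 5) (nat_lit 198) (nat_lit 200) (nat_lit 202))) (PT.nd (nat_lit 78) (PT.lf (nat_lit 7904) (nat_lit 6) (nat_lit 104) (nat_lit 5) (nat_lit 199) (nat_lit 200) (nat_lit 201)) (PT.lf (nat_lit 7980) (nat_lit 1) (nat_lit 105) (nat_lit 0) (nat_lit 200) (nat_lit 200) (nat_lit 200)))) (PT.nd (nat_lit 156) (PT.nd (nat_lit 78) (PT.lf (nat_lit 7904) (nat_lit 6) (nat_lit 104) (nat_lit 0) (nat_lit 201) (nat_lit 200) (nat_lit 199)) (PT.lf (nat_lit 7752) (nat_lit 6) (nat_lit 102) (nat_lit 0) (nat_lit 202) (nat_lit 200) (nat_lit 198))) (PT.nd (nat_lit 78) (PT.lf (nat_lit 7524) (nat_lit 6) (nat_lit 99) (nat_lit 0) (nat_lit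 203) (nat_lit 200) (nat_lit 197)) (PT.lf (nat_lit 7220) (nat_lit 6) (nat_lit 95) (nat_lit 0) (nat_lit 204) (nat_lit 200) (nat_lit 196))))) (PT.nd (nat_lit 61542) (PT.nd (nat_lit 156) (PT.nd (nat_lit 78) (PT.lf (nat_lit 6840) (nat_lit 6) (nat_lit 90) (nat_lit 0) (nat_lit 205) (nat_lit 200) (nat_lit 195)) (PT.lf (nat_lit 6384) (nat_lit 6) (nat_lit 84) (nat_lit 0) (nat_lit 206) (nat_lit 200) (nat_lit 194))) (PT.nd (nat_lit 61308) (PT.lf (nat_lit 5852) (nat_lit 6) (nat_lit 77) (nat_lit 0) (nat_lit 207) (nat_lit 200) (nat_lit 193)) (PT.lf (nat_lit 5396) (nat_lit 6) (nat_lit 71) (nat_lit 5) (nat_lit 192) (nat_lit 201) (nat_lit 207)))) (PT.nd (nat_lit 156) (PT.nd (nat_lit 78) (PT.lf (nat_lit 5928) (nat_lit 6) (nat_lit 78) (nat_lit 5) (nat_lit 193) (nat_lit 201) (nat_lit 206)) (PT.lf (nat_lit 6460) (nat_lit 6) (nat_lit 85) (nat_lit 5) (nat_lit 194) (nat_lit 201) (nat_lit 205))) (PT.nd (nat_lit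 78) (PT.lf (nat_lit 6916) (nat_lit 6) (nat_lit 91) (nat_lit 5) (nat_lit 195) (nat_lit 201) (nat_lit 204)) (PT.nd (nat_lit 78) (PT.lf (nat_lit 7296) (nat_lit 6) (nat_lit 96) (nat_lit 5) (nat_lit 196) (nat_lit 201) (nat_lit 203)) (PT.lf (nat_lit 7600) (nat_lit 6) (nat_lit 100) (nat_lit 5) (nat_lit 197) (nat_lit 201) (nat_lit 202))))))) (PT.nd (nat_lit 624) (PT.nd (nat_lit 312) (PT.nd (nat_lit 156) (PT.nd (nat_lit 78) (PT.lf (nat_lit 7828) (nat_lit 3) (nat_lit 103) (nat_lit 4) (nat_lit 198) (nat_lit 201) (nat_lit 201)) (PT.lf (nat_lit 7904) (nat_lit 6) (nat_lit 104) (nat_lit 4) (nat_lit 199) (nat_lit 201) (nat_lit 200))) (PT.nd (nat_lit 78) (PT.lf (nat_lit 7904) (nat_lit 6) (nat_lit 104) (nat_lit 2) (nat_lit 200) (nat_lit 201) (nat_lit 199)) (PT.lf (nat_lit 7828) (nat_lit 3) (nat_lit 103) (nat_lit 0) (nat_lit 201) (nat_lit 201) (nat_lit 198)))) (PT.nd (nat_lit 156) (PT.nd (nat_lit 78) (PT.lf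 (nat_lit 7600) (nat_lit 6) (nat_lit 100) (nat_lit 0) (nat_lit 202) (nat_lit 201) (nat_lit 197)) (PT.lf (nat_lit 7296) (nat_lit 6) (nat_lit 96) (nat_lit 0) (nat_lit 203) (nat_lit 201) (nat_lit 196))) (PT.nd (nat_lit 78) (PT.lf (nat_lit 6916) (nat_lit 6) (nat_lit 91) (nat_lit 0) (nat_lit 204) (nat_lit 201) (nat_lit 195)) (PT.lf (nat_lit 6460) (nat_lit 6) (nat_lit 85) (nat_lit 0) (nat_lit 205) (nat_lit 201) (nat_lit 194))))) (PT.nd (nat_lit 61464) (PT.nd (nat_lit 61308) (PT.nd (nat_lit 78) (PT.lf (nat_lit 5928) (nat_lit 6) (nat_lit 78) (nat_lit 0) (nat_lit 206) (nat_lit 201) (nat_lit 193)) (PT.lf (nat_lit 5396) (nat_lit 6) (nat_lit 71) (nat_lit 0) (nat_lit 207) (nat_lit 201) (nat_lit 192))) (PT.nd (nat_lit 78) (PT.lf (nat_lit 5168) (nat_lit 6) (nat_lit 68) (nat_lit 5) (nat_lit 191) (nat_lit 202) (nat_lit 207)) (PT.lf (nat_lit 5472) (nat_lit 6) (nat_lit 72) (nat_lit 5) (nat_lit 192) (nat_lit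 202) (nat_lit 206)))) (PT.nd (nat_lit 156) (PT.nd (nat_lit 78) (PT.lf (nat_lit 6004) (nat_lit 6) (nat_lit 79) (nat_lit 5) (nat_lit 193) (nat_lit 202) (nat_lit 205)) (PT.lf (nat_lit 6536) (nat_lit 6) (nat_lit 86) (nat_lit 5) (nat_lit 194) (nat_lit 202) (nat_lit 204))) (PT.nd (nat_lit 78) (PT.lf (nat_lit 6992) (nat_lit 6) (nat_lit 92) (nat_lit 5) (nat_lit 195) (nat_lit 202) (nat_lit 203)) (PT.nd (nat_lit 78) (PT.lf (nat_lit 7372) (nat_lit 3) (nat_lit 97) (nat_lit 4) (nat_lit 196) (nat_lit 202) (nat_lit 202)) (PT.lf (nat_lit 7600) (nat_lit 6) (nat_lit 100) (nat_lit 4) (nat_lit 197) (nat_lit 202) (nat_lit 201))))))))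
noncomputable def pc7 : PT := (PT.nd (nat_lit 62322) (PT.nd (nat_lit 624) (PT.nd (nat_lit 312) (PT.nd (nat_lit 156) (PT.nd (nat_lit 78) (PT.lf (nat_lit 7752) (nat_lit 6) (nat_lit 102) (nat_lit 4) (nat_lit 198) (nat_lit 202) (nat_lit 200)) (PT.lf (nat_lit 7676) (nat_lit 3) (nat_lit 101) (nat_lit 2) (nat_lit 199) (nat_lit 202) (nat_lit 199))) (PT.nd (nat_lit 78) (PT.lf (nat_lit 7752) (nat_lit 6) (nat_lit 102) (nat_lit 2) (nat_lit 200) (nat_lit 202) (nat_lit 198)) (PT.lf (nat_lit 7600) (nat_lit 6) (nat_lit 100) (nat_lit 2) (nat_lit 201) (nat_lit 202) (nat_lit 197)))) (PT.nd (nat_lit 156) (PT.nd (nat_lit 78) (PT.lf (nat_lit 7372) (nat_lit 3) (nat_lit 97) (nat_lit 0) (nat_lit 202) (nat_lit 202) (nat_lit 196)) (PT.lf (nat_lit 6992) (nat_lit 6) (nat_lit 92) (nat_lit 0) (nat_lit 203) (nat_lit 202) (nat_lit 195))) (PT.nd (nat_lit 78) (PT.lf (nat_lit 6536) (nat_lit 6) (nat_lit 86) (nat_lit 0) (nat_lit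 204) (nat_lit 202) (nat_lit 194)) (PT.lf (nat_lit 6004) (nat_lit 6) (nat_lit 79) (nat_lit 0) (nat_lit 205) (nat_lit 202) (nat_lit 193))))) (PT.nd (nat_lit 61308) (PT.nd (nat_lit 61152) (PT.nd (nat_lit 78) (PT.lf (nat_lit 5472) (nat_lit 6) (nat_lit 72) (nat_lit 0) (nat_lit 206) (nat_lit 202) (nat_lit 192)) (PT.lf (nat_lit 5168) (nat_lit 6) (nat_lit 68) (nat_lit 0) (nat_lit 207) (nat_lit 202) (nat_lit 191))) (PT.nd (nat_lit 78) (PT.lf (nat_lit 4712) (nat_lit 6) (nat_lit 62) (nat_lit 5) (nat_lit 189) (nat_lit 203) (nat_lit 208)) (PT.lf (nat_lit 4940) (nat_lit 6) (nat_lit 65) (nat_lit 5) (nat_lit 190) (nat_lit 203) (nat_lit 207)))) (PT.nd (nat_lit 156) (PT.nd (nat_lit 78) (PT.lf (nat_lit 5244) (nat_lit 6) (nat_lit 69) (nat_lit 5) (nat_lit 191) (nat_lit 203) (nat_lit 206)) (PT.lf (nat_lit 5548) (nat_lit 6) (nat_lit 73) (nat_lit 5) (nat_lit 192) (nat_lit 203) (nat_lit 205))) (PT.nd (nat_lit 78)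 (PT.lf (nat_lit 6080) (nat_lit 6) (nat_lit 80) (nat_lit 5) (nat_lit 193) (nat_lit 203) (nat_lit 204)) (PT.nd (nat_lit 78) (PT.lf (nat_lit 6612) (nat_lit 3) (nat_lit 87) (nat_lit 4) (nat_lit 194) (nat_lit 203) (nat_lit 203)) (PT.lf (nat_lit 6992) (nat_lit 6) (nat_lit 92) (nat_lit 4) (nat_lit 195) (nat_lit 203) (nat_lit 202))))))) (PT.nd (nat_lit 624) (PT.nd (nat_lit 312) (PT.nd (nat_lit 156) (PT.nd (nat_lit 78) (PT.lf (nat_lit 7296) (nat_lit 6) (nat_lit 96) (nat_lit 4) (nat_lit 196) (nat_lit 203) (nat_lit 201)) (PT.lf (nat_lit 7524) (nat_lit 6) (nat_lit 99) (nat_lit 4) (nat_lit 197) (nat_lit 203) (nat_lit 200))) (PT.nd (nat_lit 78) (PT.lf (nat_lit 7448) (nat_lit 6) (nat_lit 98) (nat_lit 4) (nat_lit 198) (nat_lit 203) (nat_lit 199)) (PT.lf (nat_lit 7448) (nat_lit 6) (nat_lit 98) (nat_lit 2) (nat_lit 199) (nat_lit 203) (nat_lit 198)))) (PT.nd (nat_lit 156) (PT.nd (nat_lit 78) (PT.lf (nat_lit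 7524) (nat_lit 6) (nat_lit 99) (nat_lit 2) (nat_lit 200) (nat_lit 203) (nat_lit 197)) (PT.lf (nat_lit 7296) (nat_lit 6) (nat_lit 96) (nat_lit 2) (nat_lit 201) (nat_lit 203) (nat_lit 196))) (PT.nd (nat_lit 78) (PT.lf (nat_lit 6992) (nat_lit 6) (nat_lit 92) (nat_lit 2) (nat_lit 202) (nat_lit 203) (nat_lit 195)) (PT.lf (nat_lit 6612) (nat_lit 3) (nat_lit 87) (nat_lit 0) (nat_lit 203) (nat_lit 203) (nat_lit 194))))) (PT.nd (nat_lit 312) (PT.nd (nat_lit 156) (PT.nd (nat_lit 78) (PT.lf (nat_lit 6080) (nat_lit 6) (nat_lit 80) (nat_lit 0) (nat_lit 204) (nat_lit 203) (nat_lit 193)) (PT.lf (nat_lit 5548) (nat_lit 6) (nat_lit 73) (nat_lit 0) (nat_lit 205) (nat_lit 203) (nat_lit 192))) (PT.nd (nat_lit 78) (PT.lf (nat_lit 5244) (nat_lit 6) (nat_lit 69) (nat_lit 0) (nat_lit 206) (nat_lit 203) (nat_lit 191)) (PT.lf (nat_lit 4940) (nat_lit 6) (nat_lit 65) (nat_lit 0) (nat_lit 207) (nat_lit 203) (nat_lit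 190)))) (PT.nd (nat_lit 60996) (PT.nd (nat_lit 60918) (PT.lf (nat_lit 4712) (nat_lit 6) (nat_lit 62) (nat_lit 0) (nat_lit 208) (nat_lit 203) (nat_lit 189)) (PT.lf (nat_lit 4484) (nat_lit 6) (nat_lit 59) (nat_lit 5) (nat_lit 188) (nat_lit 204) (nat_lit 208))) (PT.nd (nat_lit 78) (PT.lf (nat_lit 4788) (nat_lit 6) (nat_lit 63) (nat_lit 5) (nat_lit 189) (nat_lit 204) (nat_lit 207)) (PT.nd (nat_lit 78) (PT.lf (nat_lit 5016) (nat_lit 6) (nat_lit 66) (nat_lit 5) (nat_lit 190) (nat_lit 204) (nat_lit 206)) (PT.lf (nat_lit 5320) (nat_lit 6) (nat_lit 70) (nat_lit 5) (nat_lit 191) (nat_lit 204) (nat_lit 205))))))))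
noncomputable def pc8 : PT := (PT.nd (nat_lit 62010) (PT.nd (nat_lit 624) (PT.nd (nat_lit 312) (PT.nd (nat_lit 156) (PT.nd (nat_lit 78) (PT.lf (nat_lit 5624) (nat_lit 3) (nat_lit 74) (nat_lit 4) (nat_lit 192) (nat_lit 204) (nat_lit 204)) (PT.lf (nat_lit 6080) (nat_lit 6) (nat_lit 80) (nat_lit 4) (nat_lit 193) (nat_lit 204) (nat_lit 203))) (PT.nd (nat_lit 78) (PT.lf (nat_lit 6536) (nat_lit 6) (nat_lit 86) (nat_lit 4) (nat_lit 194) (nat_lit 204) (nat_lit 202)) (PT.lf (nat_lit 6916) (nat_lit 6) (nat_lit 91) (nat_lit 4) (nat_lit 195) (nat_lit 204) (nat_lit 201)))) (PT.nd (nat_lit 156) (PT.nd (nat_lit 78) (PT.lf (nat_lit 7220) (nat_lit 6) (nat_lit 95) (nat_lit 4) (nat_lit 196) (nat_lit 204) (nat_lit 200)) (PT.lf (nat_lit 7144) (nat_lit 6) (nat_lit 94) (nat_lit 4) (nat_lit 197) (nat_lit 204) (nat_lit 199))) (PT.nd (nat_lit 78) (PT.lf (nat_lit 7068) (nat_lit 3) (nat_lit 93) (nat_lit 2) (nat_lit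 198) (nat_lit 204) (nat_lit 198)) (PT.lf (nat_lit 7144) (nat_lit 6) (nat_lit 94) (nat_lit 2) (nat_lit 199) (nat_lit 204) (nat_lit 197))))) (PT.nd (nat_lit 312) (PT.nd (nat_lit 156) (PT.nd (nat_lit 78) (PT.lf (nat_lit 7220) (nat_lit 6) (nat_lit 95) (nat_lit 2) (nat_lit 200) (nat_lit 204) (nat_lit 196)) (PT.lf (nat_lit 6916) (nat_lit 6) (nat_lit 91) (nat_lit 2) (nat_lit 201) (nat_lit 204) (nat_lit 195))) (PT.nd (nat_lit 78) (PT.lf (nat_lit 6536) (nat_lit 6) (nat_lit 86) (nat_lit 2) (nat_lit 202) (nat_lit 204) (nat_lit 194)) (PT.lf (nat_lit 6080) (nat_lit 6) (nat_lit 80) (nat_lit 2) (nat_lit 203) (nat_lit 204) (nat_lit 193)))) (PT.nd (nat_lit 156) (PT.nd (nat_lit 78) (PT.lf (nat_lit 5624) (nat_lit 3) (nat_lit 74) (nat_lit 0) (nat_lit 204) (nat_lit 204) (nat_lit 192)) (PT.lf (nat_lit 5320) (nat_lit 6) (nat_lit 70) (nat_lit 0) (nat_lit 205) (nat_lit 204) (nat_lit 191))) (PT.nd (nat_lit 78) (PT.lf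 (nat_lit 5016) (nat_lit 6) (nat_lit 66) (nat_lit 0) (nat_lit 206) (nat_lit 204) (nat_lit 190)) (PT.nd (nat_lit 78) (PT.lf (nat_lit 4788) (nat_lit 6) (nat_lit 63) (nat_lit 0) (nat_lit 207) (nat_lit 204) (nat_lit 189)) (PT.lf (nat_lit 4484) (nat_lit 6) (nat_lit 59) (nat_lit 0) (nat_lit 208) (nat_lit 204) (nat_lit 188))))))) (PT.nd (nat_lit 624) (PT.nd (nat_lit 312) (PT.nd (nat_lit 156) (PT.nd (nat_lit 78) (PT.lf (nat_lit 4104) (nat_lit 6) (nat_lit 54) (nat_lit 5) (nat_lit 186) (nat_lit 205) (nat_lit 209)) (PT.lf (nat_lit 4332) (nat_lit 6) (nat_lit 57) (nat_lit 5) (nat_lit 187) (nat_lit 205) (nat_lit 208))) (PT.nd (nat_lit 78) (PT.lf (nat_lit 4560) (nat_lit 6) (nat_lit 60) (nat_lit 5) (nat_lit 188) (nat_lit 205) (nat_lit 207)) (PT.lf (nat_lit 4864) (nat_lit 6) (nat_lit 64) (nat_lit 5) (nat_lit 189) (nat_lit 205) (nat_lit 206)))) (PT.nd (nat_lit 156) (PT.nd (nat_lit 78) (PT.lf (nat_lit 5092)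 (nat_lit 3) (nat_lit 67) (nat_lit 4) (nat_lit 190) (nat_lit 205) (nat_lit 205)) (PT.lf (nat_lit 5320) (nat_lit 6) (nat_lit 70) (nat_lit 4) (nat_lit 191) (nat_lit 205) (nat_lit 204))) (PT.nd (nat_lit 78) (PT.lf (nat_lit 5548) (nat_lit 6) (nat_lit 73) (nat_lit 4) (nat_lit 192) (nat_lit 205) (nat_lit 203)) (PT.lf (nat_lit 6004) (nat_lit 6) (nat_lit 79) (nat_lit 4) (nat_lit 193) (nat_lit 205) (nat_lit 202))))) (PT.nd (nat_lit 312) (PT.nd (nat_lit 156) (PT.nd (nat_lit 78) (PT.lf (nat_lit 6460) (nat_lit 6) (nat_lit 85) (nat_lit 4) (nat_lit 194) (nat_lit 205) (nat_lit 201)) (PT.lf (nat_lit 6840) (nat_lit 6) (nat_lit 90) (nat_lit 4) (nat_lit 195) (nat_lit 205) (nat_lit 200))) (PT.nd (nat_lit 78) (PT.lf (nat_lit 6764) (nat_lit 6) (nat_lit 89) (nat_lit 4) (nat_lit 196) (nat_lit 205) (nat_lit 199)) (PT.lf (nat_lit 6688) (nat_lit 6) (nat_lit 88) (nat_lit 4) (nat_lit 197) (nat_lit 205) (nat_lit 198))))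 (PT.nd (nat_lit 156) (PT.nd (nat_lit 78) (PT.lf (nat_lit 6688) (nat_lit 6) (nat_lit 88) (nat_lit 2) (nat_lit 198) (nat_lit 205) (nat_lit 197)) (PT.lf (nat_lit 6764) (nat_lit 6) (nat_lit 89) (nat_lit 2) (nat_lit 199) (nat_lit 205) (nat_lit 196))) (PT.nd (nat_lit 78) (PT.lf (nat_lit 6840) (nat_lit 6) (nat_lit 90) (nat_lit 2) (nat_lit 200) (nat_lit 205) (nat_lit 195)) (PT.nd (nat_lit 78) (PT.lf (nat_lit 6460) (nat_lit 6) (nat_lit 85) (nat_lit 2) (nat_lit 201) (nat_lit 205) (nat_lit 194)) (PT.lf (nat_lit 6004) (nat_lit 6) (nat_lit 79) (nat_lit 2) (nat_lit 202) (nat_lit 205) (nat_lit 193))))))))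
noncomputable def pc9 : PT := (PT.nd (nat_lit 61854) (PT.nd (nat_lit 61152) (PT.nd (nat_lit 312) (PT.nd (nat_lit 156) (PT.nd (nat_lit 78) (PT.lf (nat_lit 5548) (nat_lit 6) (nat_lit 73) (nat_lit 2) (nat_lit 203) (nat_lit 205) (nat_lit 192)) (PT.lf (nat_lit 5320) (nat_lit 6) (nat_lit 70) (nat_lit 2) (nat_lit 204) (nat_lit 205) (nat_lit 191))) (PT.nd (nat_lit 78) (PT.lf (nat_lit 5092) (nat_lit 3) (nat_lit 67) (nat_lit 0) (nat_lit 205) (nat_lit 205) (nat_lit 190)) (PT.lf (nat_lit 4864) (nat_lit 6) (nat_lit 64) (nat_lit 0) (nat_lit 206) (nat_lit 205) (nat_lit 189)))) (PT.nd (nat_lit 156) (PT.nd (nat_lit 78) (PT.lf (nat_lit 4560) (nat_lit 6) (nat_lit 60) (nat_lit 0) (nat_lit 207) (nat_lit 205) (nat_lit 188)) (PT.lf (nat_lit 4332) (nat_lit 6) (nat_lit 57) (nat_lit 0) (nat_lit 208) (nat_lit 205) (nat_lit 187))) (PT.nd (nat_lit 60606) (PT.lf (nat_lit 4104) (nat_lit 6) (nat_lit 54) (nat_lit 0) (nat_lit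 209) (nat_lit 205) (nat_lit 186)) (PT.lf (nat_lit 3952) (nat_lit 6) (nat_lit 52) (nat_lit 5) (nat_lit 185) (nat_lit 206) (nat_lit 209))))) (PT.nd (nat_lit 312) (PT.nd (nat_lit 156) (PT.nd (nat_lit 78) (PT.lf (nat_lit 4180) (nat_lit 6) (nat_lit 55) (nat_lit 5) (nat_lit 186) (nat_lit 206) (nat_lit 208)) (PT.lf (nat_lit 4408) (nat_lit 6) (nat_lit 58) (nat_lit 5) (nat_lit 187) (nat_lit 206) (nat_lit 207))) (PT.nd (nat_lit 78) (PT.lf (nat_lit 4636) (nat_lit 3) (nat_lit 61) (nat_lit 4) (nat_lit 188) (nat_lit 206) (nat_lit 206)) (PT.lf (nat_lit 4864) (nat_lit 6) (nat_lit 64) (nat_lit 4) (nat_lit 189) (nat_lit 206) (nat_lit 205)))) (PT.nd (nat_lit 156) (PT.nd (nat_lit 78) (PT.lf (nat_lit 5016) (nat_lit 6) (nat_lit 66) (nat_lit 4) (nat_lit 190) (nat_lit 206) (nat_lit 204)) (PT.lf (nat_lit 5244) (nat_lit 6) (nat_lit 69) (nat_lit 4) (nat_lit 191) (nat_lit 206) (nat_lit 203))) (PT.nd (nat_lit 78) (PT.lf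 (nat_lit 5472) (nat_lit 6) (nat_lit 72) (nat_lit 4) (nat_lit 192) (nat_lit 206) (nat_lit 202)) (PT.nd (nat_lit 78) (PT.lf (nat_lit 5928) (nat_lit 6) (nat_lit 78) (nat_lit 4) (nat_lit 193) (nat_lit 206) (nat_lit 201)) (PT.lf (nat_lit 6384) (nat_lit 6) (nat_lit 84) (nat_lit 4) (nat_lit 194) (nat_lit 206) (nat_lit 200))))))) (PT.nd (nat_lit 624) (PT.nd (nat_lit 312) (PT.nd (nat_lit 156) (PT.nd (nat_lit 78) (PT.lf (nat_lit 6308) (nat_lit 6) (nat_lit 83) (nat_lit 4) (nat_lit 195) (nat_lit 206) (nat_lit 199)) (PT.lf (nat_lit 6232) (nat_lit 6) (nat_lit 82) (nat_lit 4) (nat_lit 196) (nat_lit 206) (nat_lit 198))) (PT.nd (nat_lit 78) (PT.lf (nat_lit 6156) (nat_lit 3) (nat_lit 81) (nat_lit 2) (nat_lit 197) (nat_lit 206) (nat_lit 197)) (PT.lf (nat_lit 6232) (nat_lit 6) (nat_lit 82) (nat_lit 2) (nat_lit 198) (nat_lit 206) (nat_lit 196)))) (PT.nd (nat_lit 156) (PT.nd (nat_lit 78) (PT.lf (nat_lit 6308)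 (nat_lit 6) (nat_lit 83) (nat_lit 2) (nat_lit 199) (nat_lit 206) (nat_lit 195)) (PT.lf (nat_lit 6384) (nat_lit 6) (nat_lit 84) (nat_lit 2) (nat_lit 200) (nat_lit 206) (nat_lit 194))) (PT.nd (nat_lit 78) (PT.lf (nat_lit 5928) (nat_lit 6) (nat_lit 78) (nat_lit 2) (nat_lit 201) (nat_lit 206) (nat_lit 193)) (PT.lf (nat_lit 5472) (nat_lit 6) (nat_lit 72) (nat_lit 2) (nat_lit 202) (nat_lit 206) (nat_lit 192))))) (PT.nd (nat_lit 312) (PT.nd (nat_lit 156) (PT.nd (nat_lit 78) (PT.lf (nat_lit 5244) (nat_lit 6) (nat_lit 69) (nat_lit 2) (nat_lit 203) (nat_lit 206) (nat_lit 191)) (PT.lf (nat_lit 5016) (nat_lit 6) (nat_lit 66) (nat_lit 2) (nat_lit 204) (nat_lit 206) (nat_lit 190))) (PT.nd (nat_lit 78) (PT.lf (nat_lit 4864) (nat_lit 6) (nat_lit 64) (nat_lit 2) (nat_lit 205) (nat_lit 206) (nat_lit 189)) (PT.lf (nat_lit 4636) (nat_lit 3) (nat_lit 61) (nat_lit 0) (nat_lit 206) (nat_lit 206) (nat_lit 188))))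 (PT.nd (nat_lit 156) (PT.nd (nat_lit 78) (PT.lf (nat_lit 4408) (nat_lit 6) (nat_lit 58) (nat_lit 0) (nat_lit 207) (nat_lit 206) (nat_lit 187)) (PT.lf (nat_lit 4180) (nat_lit 6) (nat_lit 55) (nat_lit 0) (nat_lit 208) (nat_lit 206) (nat_lit 186))) (PT.nd (nat_lit 60450) (PT.lf (nat_lit 3952) (nat_lit 6) (nat_lit 52) (nat_lit 0) (nat_lit 209) (nat_lit 206) (nat_lit 185)) (PT.nd (nat_lit 78) (PT.lf (nat_lit 3648) (nat_lit 6) (nat_lit 48) (nat_lit 5) (nat_lit 183) (nat_lit 207) (nat_lit 210)) (PT.lf (nat_lit 3800) (nat_lit 6) (nat_lit 50) (nat_lit 5) (nat_lit 184) (nat_lit 207) (nat_lit 209))))))))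
noncomputable def pc10 : PT := (PT.nd (nat_lit 1482) (PT.nd (nat_lit 624) (PT.nd (nat_lit 312) (PT.nd (nat_lit 156) (PT.nd (nat_lit 78) (PT.lf (nat_lit 4028) (nat_lit 6) (nat_lit 53) (nat_lit 5) (nat_lit 185) (nat_lit 207) (nat_lit 208)) (PT.lf (nat_lit 4256) (nat_lit 3) (nat_lit 56) (nat_lit 4) (nat_lit 186) (nat_lit 207) (nat_lit 207))) (PT.nd (nat_lit 78) (PT.lf (nat_lit 4408) (nat_lit 6) (nat_lit 58) (nat_lit 4) (nat_lit 187) (nat_lit 207) (nat_lit 206)) (PT.lf (nat_lit 4560) (nat_lit 6) (nat_lit 60) (nat_lit 4) (nat_lit 188) (nat_lit 207) (nat_lit 205)))) (PT.nd (nat_lit 156) (PT.nd (nat_lit 78) (PT.lf (nat_lit 4788) (nat_lit 6) (nat_lit 63) (nat_lit 4) (nat_lit 189) (nat_lit 207) (nat_lit 204)) (PT.lf (nat_lit 4940) (nat_lit 6) (nat_lit 65) (nat_lit 4) (nat_lit 190) (nat_lit 207) (nat_lit 203))) (PT.nd (nat_lit 78) (PT.lf (nat_lit 5168) (nat_lit 6) (nat_lit 68) (nat_lit 4) (nat_lit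 191) (nat_lit 207) (nat_lit 202)) (PT.lf (nat_lit 5396) (nat_lit 6) (nat_lit 71) (nat_lit 4) (nat_lit 192) (nat_lit 207) (nat_lit 201))))) (PT.nd (nat_lit 468) (PT.nd (nat_lit 156) (PT.nd (nat_lit 78) (PT.lf (nat_lit 5852) (nat_lit 6) (nat_lit 77) (nat_lit 4) (nat_lit 193) (nat_lit 207) (nat_lit 200)) (PT.lf (nat_lit 5776) (nat_lit 6) (nat_lit 76) (nat_lit 4) (nat_lit 194) (nat_lit 207) (nat_lit 199))) (PT.nd (nat_lit 234) (PT.lf (nat_lit 5700) (nat_lit 6) (nat_lit 75) (nat_lit 4) (nat_lit 195) (nat_lit 207) (nat_lit 198)) (PT.lf (nat_lit 5700) (nat_lit 6) (nat_lit 75) (nat_lit 2) (nat_lit 198) (nat_lit 207) (nat_lit 195)))) (PT.nd (nat_lit 156) (PT.nd (nat_lit 78) (PT.lf (nat_lit 5776) (nat_lit 6) (nat_lit 76) (nat_lit 2) (nat_lit 199) (nat_lit 207) (nat_lit 194)) (PT.lf (nat_lit 5852) (nat_lit 6) (nat_lit 77) (nat_lit 2) (nat_lit 200) (nat_lit 207) (nat_lit 193))) (PT.nd (nat_lit 78)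 (PT.lf (nat_lit 5396) (nat_lit 6) (nat_lit 71) (nat_lit 2) (nat_lit 201) (nat_lit 207) (nat_lit 192)) (PT.nd (nat_lit 78) (PT.lf (nat_lit 5168) (nat_lit 6) (nat_lit 68) (nat_lit 2) (nat_lit 202) (nat_lit 207) (nat_lit 191)) (PT.lf (nat_lit 4940) (nat_lit 6) (nat_lit 65) (nat_lit 2) (nat_lit 203) (nat_lit 207) (nat_lit 190))))))) (PT.nd (nat_lit 60762) (PT.nd (nat_lit 312) (PT.nd (nat_lit 156) (PT.nd (nat_lit 78) (PT.lf (nat_lit 4788) (nat_lit 6) (nat_lit 63) (nat_lit 2) (nat_lit 204) (nat_lit 207) (nat_lit 189)) (PT.lf (nat_lit 4560) (nat_lit 6) (nat_lit 60) (nat_lit 2) (nat_lit 205) (nat_lit 207) (nat_lit 188))) (PT.nd (nat_lit 78) (PT.lf (nat_lit 4408) (nat_lit 6) (nat_lit 58) (nat_lit 2) (nat_lit 206) (nat_lit 207) (nat_lit 187)) (PT.lf (nat_lit 4256) (nat_lit 3) (nat_lit 56) (nat_lit 0) (nat_lit 207) (nat_lit 207) (nat_lit 186)))) (PT.nd (nat_lit 156) (PT.nd (nat_lit 78) (PT.lf (nat_lit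 4028) (nat_lit 6) (nat_lit 53) (nat_lit 0) (nat_lit 208) (nat_lit 207) (nat_lit 185)) (PT.lf (nat_lit 3800) (nat_lit 6) (nat_lit 50) (nat_lit 0) (nat_lit 209) (nat_lit 207) (nat_lit 184))) (PT.nd (nat_lit 60216) (PT.lf (nat_lit 3648) (nat_lit 6) (nat_lit 48) (nat_lit 0) (nat_lit 210) (nat_lit 207) (nat_lit 183)) (PT.lf (nat_lit 3344) (nat_lit 6) (nat_lit 44) (nat_lit 5) (nat_lit 181) (nat_lit 208) (nat_lit 211))))) (PT.nd (nat_lit 312) (PT.nd (nat_lit 156) (PT.nd (nat_lit 78) (PT.lf (nat_lit 3496) (nat_lit 6) (nat_lit 46) (nat_lit 5) (nat_lit 182) (nat_lit 208) (nat_lit 210)) (PT.lf (nat_lit 3724) (nat_lit 6) (nat_lit 49) (nat_lit 5) (nat_lit 183) (nat_lit 208) (nat_lit 209))) (PT.nd (nat_lit 78) (PT.lf (nat_lit 3876) (nat_lit 3) (nat_lit 51) (nat_lit 4) (nat_lit 184) (nat_lit 208) (nat_lit 208)) (PT.lf (nat_lit 4028) (nat_lit 6) (nat_lit 53) (nat_lit 4) (nat_lit 185) (nat_lit 208) (nat_lit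 207)))) (PT.nd (nat_lit 156) (PT.nd (nat_lit 78) (PT.lf (nat_lit 4180) (nat_lit 6) (nat_lit 55) (nat_lit 4) (nat_lit 186) (nat_lit 208) (nat_lit 206)) (PT.lf (nat_lit 4332) (nat_lit 6) (nat_lit 57) (nat_lit 4) (nat_lit 187) (nat_lit 208) (nat_lit 205))) (PT.nd (nat_lit 78) (PT.lf (nat_lit 4484) (nat_lit 6) (nat_lit 59) (nat_lit 4) (nat_lit 188) (nat_lit 208) (nat_lit 204)) (PT.nd (nat_lit 1092) (PT.lf (nat_lit 4712) (nat_lit 6) (nat_lit 62) (nat_lit 4) (nat_lit 189) (nat_lit 208) (nat_lit 203)) (PT.lf (nat_lit 4712) (nat_lit 6) (nat_lit 62) (nat_lit 2) (nat_lit 203) (nat_lit 208) (nat_lit 189))))))))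
noncomputable def pc11 : PT := (PT.nd (nat_lit 62712) (PT.nd (nat_lit 60606) (PT.nd (nat_lit 312) (PT.nd (nat_lit 156) (PT.nd (nat_lit 78) (PT.lf (nat_lit 4484) (nat_lit 6) (nat_lit 59) (nat_lit 2) (nat_lit 204) (nat_lit 208) (nat_lit 188)) (PT.lf (nat_lit 4332) (nat_lit 6) (nat_lit 57) (nat_lit 2) (nat_lit 205) (nat_lit 208) (nat_lit 187))) (PT.nd (nat_lit 78) (PT.lf (nat_lit 4180) (nat_lit 6) (nat_lit 55) (nat_lit 2) (nat_lit 206) (nat_lit 208) (nat_lit 186)) (PT.lf (nat_lit 4028) (nat_lit 6) (nat_lit 53) (nat_lit 2) (nat_lit 207) (nat_lit 208) (nat_lit 185)))) (PT.nd (nat_lit 156) (PT.nd (nat_lit 78) (PT.lf (nat_lit 3876) (nat_lit 3) (nat_lit 51) (nat_lit 0) (nat_lit 208) (nat_lit 208) (nat_lit 184)) (PT.lf (nat_lit 3724) (nat_lit 6) (nat_lit 49) (nat_lit 0) (nat_lit 209) (nat_lit 208) (nat_lit 183))) (PT.nd (nat_lit 78) (PT.lf (nat_lit 3496) (nat_lit 6) (nat_lit 46) (nat_lit 0) (nat_lit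 210) (nat_lit 208) (nat_lit 182)) (PT.lf (nat_lit 3344) (nat_lit 6) (nat_lit 44) (nat_lit 0) (nat_lit 211) (nat_lit 208) (nat_lit 181))))) (PT.nd (nat_lit 312) (PT.nd (nat_lit 156) (PT.nd (nat_lit 78) (PT.lf (nat_lit 3192) (nat_lit 6) (nat_lit 42) (nat_lit 5) (nat_lit 180) (nat_lit 209) (nat_lit 211)) (PT.lf (nat_lit 3420) (nat_lit 6) (nat_lit 45) (nat_lit 5) (nat_lit 181) (nat_lit 209) (nat_lit 210))) (PT.nd (nat_lit 78) (PT.lf (nat_lit 3572) (nat_lit 3) (nat_lit 47) (nat_lit 4) (nat_lit 182) (nat_lit 209) (nat_lit 209)) (PT.lf (nat_lit 3724) (nat_lit 6) (nat_lit 49) (nat_lit 4) (nat_lit 183) (nat_lit 209) (nat_lit 208)))) (PT.nd (nat_lit 156) (PT.nd (nat_lit 78) (PT.lf (nat_lit 3800) (nat_lit 6) (nat_lit 50) (nat_lit 4) (nat_lit 184) (nat_lit 209) (nat_lit 207)) (PT.lf (nat_lit 3952) (nat_lit 6) (nat_lit 52) (nat_lit 4) (nat_lit 185) (nat_lit 209) (nat_lit 206))) (PT.nd (nat_lit 1482)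 (PT.lf (nat_lit 4104) (nat_lit 6) (nat_lit 54) (nat_lit 4) (nat_lit 186) (nat_lit 209) (nat_lit 205)) (PT.nd (nat_lit 78) (PT.lf (nat_lit 4104) (nat_lit 6) (nat_lit 54) (nat_lit 2) (nat_lit 205) (nat_lit 209) (nat_lit 186)) (PT.lf (nat_lit 3952) (nat_lit 6) (nat_lit 52) (nat_lit 2) (nat_lit 206) (nat_lit 209) (nat_lit 185))))))) (PT.nd (nat_lit 60450) (PT.nd (nat_lit 312) (PT.nd (nat_lit 156) (PT.nd (nat_lit 78) (PT.lf (nat_lit 3800) (nat_lit 6) (nat_lit 50) (nat_lit 2) (nat_lit 207) (nat_lit 209) (nat_lit 184)) (PT.lf (nat_lit 3724) (nat_lit 6) (nat_lit 49) (nat_lit 2) (nat_lit 208) (nat_lit 209) (nat_lit 183))) (PT.nd (nat_lit 78) (PT.lf (nat_lit 3572) (nat_lit 3) (nat_lit 47) (nat_lit 0) (nat_lit 209) (nat_lit 209) (nat_lit 182)) (PT.lf (nat_lit 3420) (nat_lit 6) (nat_lit 45) (nat_lit 0) (nat_lit 210) (nat_lit 209) (nat_lit 181)))) (PT.nd (nat_lit 59982) (PT.nd (nat_lit 59904) (PT.lf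 (nat_lit 3192) (nat_lit 6) (nat_lit 42) (nat_lit 0) (nat_lit 211) (nat_lit 209) (nat_lit 180)) (PT.lf (nat_lit 2964) (nat_lit 6) (nat_lit 39) (nat_lit 5) (nat_lit 178) (nat_lit 210) (nat_lit 212))) (PT.nd (nat_lit 78) (PT.lf (nat_lit 3116) (nat_lit 6) (nat_lit 41) (nat_lit 5) (nat_lit 179) (nat_lit 210) (nat_lit 211)) (PT.lf (nat_lit 3268) (nat_lit 3) (nat_lit 43) (nat_lit 4) (nat_lit 180) (nat_lit 210) (nat_lit 210))))) (PT.nd (nat_lit 2106) (PT.nd (nat_lit 156) (PT.nd (nat_lit 78) (PT.lf (nat_lit 3420) (nat_lit 6) (nat_lit 45) (nat_lit 4) (nat_lit 181) (nat_lit 210) (nat_lit 209)) (PT.lf (nat_lit 3496) (nat_lit 6) (nat_lit 46) (nat_lit 4) (nat_lit 182) (nat_lit 210) (nat_lit 208))) (PT.nd (nat_lit 1872) (PT.lf (nat_lit 3648) (nat_lit 6) (nat_lit 48) (nat_lit 4) (nat_lit 183) (nat_lit 210) (nat_lit 207)) (PT.lf (nat_lit 3648) (nat_lit 6) (nat_lit 48) (nat_lit 2) (nat_lit 207) (nat_lit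 210) (nat_lit 183)))) (PT.nd (nat_lit 156) (PT.nd (nat_lit 78) (PT.lf (nat_lit 3496) (nat_lit 6) (nat_lit 46) (nat_lit 2) (nat_lit 208) (nat_lit 210) (nat_lit 182)) (PT.lf (nat_lit 3420) (nat_lit 6) (nat_lit 45) (nat_lit 2) (nat_lit 209) (nat_lit 210) (nat_lit 181))) (PT.nd (nat_lit 78) (PT.lf (nat_lit 3268) (nat_lit 3) (nat_lit 43) (nat_lit 0) (nat_lit 210) (nat_lit 210) (nat_lit 180)) (PT.nd (nat_lit 78) (PT.lf (nat_lit 3116) (nat_lit 6) (nat_lit 41) (nat_lit 0) (nat_lit 211) (nat_lit 210) (nat_lit 179)) (PT.lf (nat_lit 2964) (nat_lit 6) (nat_lit 39) (nat_lit 0) (nat_lit 212) (nat_lit 210) (nat_lit 178))))))))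
noncomputable def pc12 : PT := (PT.nd (nat_lit 65130) (PT.nd (nat_lit 2652) (PT.nd (nat_lit 312) (PT.nd (nat_lit 156) (PT.nd (nat_lit 78) (PT.lf (nat_lit 2736) (nat_lit 6) (nat_lit 36) (nat_lit 5) (nat_lit 176) (nat_lit 211) (nat_lit 213)) (PT.lf (nat_lit 2888) (nat_lit 6) (nat_lit 38) (nat_lit 5) (nat_lit 177) (nat_lit 211) (nat_lit 212))) (PT.nd (nat_lit 78) (PT.lf (nat_lit 3040) (nat_lit 3) (nat_lit 40) (nat_lit 4) (nat_lit 178) (nat_lit 211) (nat_lit 211)) (PT.lf (nat_lit 3116) (nat_lit 6) (nat_lit 41) (nat_lit 4) (nat_lit 179) (nat_lit 211) (nat_lit 210)))) (PT.nd (nat_lit 2184) (PT.nd (nat_lit 78) (PT.lf (nat_lit 3192) (nat_lit 6) (nat_lit 42) (nat_lit 4) (nat_lit 180) (nat_lit 211) (nat_lit 209)) (PT.lf (nat_lit 3344) (nat_lit 6) (nat_lit 44) (nat_lit 4) (nat_lit 181) (nat_lit 211) (nat_lit 208))) (PT.nd (nat_lit 78) (PT.lf (nat_lit 3344) (nat_lit 6) (nat_lit 44) (nat_lit 2) (nat_lit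 208) (nat_lit 211) (nat_lit 181)) (PT.lf (nat_lit 3192) (nat_lit 6) (nat_lit 42) (nat_lit 2) (nat_lit 209) (nat_lit 211) (nat_lit 180))))) (PT.nd (nat_lit 59670) (PT.nd (nat_lit 156) (PT.nd (nat_lit 78) (PT.lf (nat_lit 3116) (nat_lit 6) (nat_lit 41) (nat_lit 2) (nat_lit 210) (nat_lit 211) (nat_lit 179)) (PT.lf (nat_lit 3040) (nat_lit 3) (nat_lit 40) (nat_lit 0) (nat_lit 211) (nat_lit 211) (nat_lit 178))) (PT.nd (nat_lit 78) (PT.lf (nat_lit 2888) (nat_lit 6) (nat_lit 38) (nat_lit 0) (nat_lit 212) (nat_lit 211) (nat_lit 177)) (PT.lf (nat_lit 2736) (nat_lit 6) (nat_lit 36) (nat_lit 0) (nat_lit 213) (nat_lit 211) (nat_lit 176)))) (PT.nd (nat_lit 156) (PT.nd (nat_lit 78) (PT.lf (nat_lit 2508) (nat_lit 6) (nat_lit 33) (nat_lit 5) (nat_lit 174) (nat_lit 212) (nat_lit 214)) (PT.lf (nat_lit 2660) (nat_lit 6) (nat_lit 35) (nat_lit 5) (nat_lit 175) (nat_lit 212) (nat_lit 213))) (PT.nd (nat_lit 78)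 (PT.lf (nat_lit 2812) (nat_lit 3) (nat_lit 37) (nat_lit 4) (nat_lit 176) (nat_lit 212) (nat_lit 212)) (PT.nd (nat_lit 78) (PT.lf (nat_lit 2888) (nat_lit 6) (nat_lit 38) (nat_lit 4) (nat_lit 177) (nat_lit 212) (nat_lit 211)) (PT.lf (nat_lit 2964) (nat_lit 6) (nat_lit 39) (nat_lit 4) (nat_lit 178) (nat_lit 212) (nat_lit 210))))))) (PT.nd (nat_lit 59748) (PT.nd (nat_lit 312) (PT.nd (nat_lit 156) (PT.nd (nat_lit 78) (PT.lf (nat_lit 2964) (nat_lit 6) (nat_lit 39) (nat_lit 2) (nat_lit 210) (nat_lit 212) (nat_lit 178)) (PT.lf (nat_lit 2888) (nat_lit 6) (nat_lit 38) (nat_lit 2) (nat_lit 211) (nat_lit 212) (nat_lit 177))) (PT.nd (nat_lit 78) (PT.lf (nat_lit 2812) (nat_lit 3) (nat_lit 37) (nat_lit 0) (nat_lit 212) (nat_lit 212) (nat_lit 176)) (PT.lf (nat_lit 2660) (nat_lit 6) (nat_lit 35) (nat_lit 0) (nat_lit 213) (nat_lit 212) (nat_lit 175)))) (PT.nd (nat_lit 59280) (PT.nd (nat_lit 59202) (PT.lf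 (nat_lit 2508) (nat_lit 6) (nat_lit 33) (nat_lit 0) (nat_lit 214) (nat_lit 212) (nat_lit 174)) (PT.lf (nat_lit 2280) (nat_lit 6) (nat_lit 30) (nat_lit 5) (nat_lit 172) (nat_lit 213) (nat_lit 215))) (PT.nd (nat_lit 78) (PT.lf (nat_lit 2432) (nat_lit 6) (nat_lit 32) (nat_lit 5) (nat_lit 173) (nat_lit 213) (nat_lit 214)) (PT.lf (nat_lit 2584) (nat_lit 3) (nat_lit 34) (nat_lit 4) (nat_lit 174) (nat_lit 213) (nat_lit 213))))) (PT.nd (nat_lit 2964) (PT.nd (nat_lit 2808) (PT.nd (nat_lit 78) (PT.lf (nat_lit 2660) (nat_lit 6) (nat_lit 35) (nat_lit 4) (nat_lit 175) (nat_lit 213) (nat_lit 212)) (PT.lf (nat_lit 2736) (nat_lit 6) (nat_lit 36) (nat_lit 4) (nat_lit 176) (nat_lit 213) (nat_lit 211))) (PT.nd (nat_lit 78) (PT.lf (nat_lit 2736) (nat_lit 6) (nat_lit 36) (nat_lit 2) (nat_lit 211) (nat_lit 213) (nat_lit 176)) (PT.lf (nat_lit 2660) (nat_lit 6) (nat_lit 35) (nat_lit 2) (nat_lit 212) (nat_lit 213)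 (nat_lit 175)))) (PT.nd (nat_lit 156) (PT.nd (nat_lit 78) (PT.lf (nat_lit 2584) (nat_lit 3) (nat_lit 34) (nat_lit 0) (nat_lit 213) (nat_lit 213) (nat_lit 174)) (PT.lf (nat_lit 2432) (nat_lit 6) (nat_lit 32) (nat_lit 0) (nat_lit 214) (nat_lit 213) (nat_lit 173))) (PT.nd (nat_lit 58968) (PT.lf (nat_lit 2280) (nat_lit 6) (nat_lit 30) (nat_lit 0) (nat_lit 215) (nat_lit 213) (nat_lit 172)) (PT.nd (nat_lit 78) (PT.lf (nat_lit 2052) (nat_lit 6) (nat_lit 27) (nat_lit 5) (nat_lit 170) (nat_lit 214) (nat_lit 216)) (PT.lf (nat_lit 2204) (nat_lit 6) (nat_lit 29) (nat_lit 5) (nat_lit 171) (nat_lit 214) (nat_lit 215))))))))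
noncomputable def pc13 : PT := (PT.nd (nat_lit 65988) (PT.nd (nat_lit 62166) (PT.nd (nat_lit 3198) (PT.nd (nat_lit 156) (PT.nd (nat_lit 78) (PT.lf (nat_lit 2356) (nat_lit 3) (nat_lit 31) (nat_lit 4) (nat_lit 172) (nat_lit 214) (nat_lit 214)) (PT.lf (nat_lit 2432) (nat_lit 6) (nat_lit 32) (nat_lit 4) (nat_lit 173) (nat_lit 214) (nat_lit 213))) (PT.nd (nat_lit 2964) (PT.lf (nat_lit 2508) (nat_lit 6) (nat_lit 33) (nat_lit 4) (nat_lit 174) (nat_lit 214) (nat_lit 212)) (PT.lf (nat_lit 2508) (nat_lit 6) (nat_lit 33) (nat_lit 2) (nat_lit 212) (nat_lit 214) (nat_lit 174)))) (PT.nd (nat_lit 156) (PT.nd (nat_lit 78) (PT.lf (nat_lit 2432) (nat_lit 6) (nat_lit 32) (nat_lit 2) (nat_lit 213) (nat_lit 214) (nat_lit 173)) (PT.lf (nat_lit 2356) (nat_lit 3) (nat_lit 31) (nat_lit 0) (nat_lit 214) (nat_lit 214) (nat_lit 172))) (PT.nd (nat_lit 78) (PT.lf (nat_lit 2204) (nat_lit 6) (nat_lit 29) (nat_lit 0) (nat_lit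 215) (nat_lit 214) (nat_lit 171)) (PT.lf (nat_lit 2052) (nat_lit 6) (nat_lit 27) (nat_lit 0) (nat_lit 216) (nat_lit 214) (nat_lit 170))))) (PT.nd (nat_lit 312) (PT.nd (nat_lit 156) (PT.nd (nat_lit 78) (PT.lf (nat_lit 1824) (nat_lit 6) (nat_lit 24) (nat_lit 5) (nat_lit 168) (nat_lit 215) (nat_lit 217)) (PT.lf (nat_lit 1976) (nat_lit 6) (nat_lit 26) (nat_lit 5) (nat_lit 169) (nat_lit 215) (nat_lit 216))) (PT.nd (nat_lit 78) (PT.lf (nat_lit 2128) (nat_lit 3) (nat_lit 28) (nat_lit 4) (nat_lit 170) (nat_lit 215) (nat_lit 215)) (PT.lf (nat_lit 2204) (nat_lit 6) (nat_lit 29) (nat_lit 4) (nat_lit 171) (nat_lit 215) (nat_lit 214)))) (PT.nd (nat_lit 3276) (PT.nd (nat_lit 3198) (PT.lf (nat_lit 2280) (nat_lit 6) (nat_lit 30) (nat_lit 4) (nat_lit 172) (nat_lit 215) (nat_lit 213)) (PT.lf (nat_lit 2280) (nat_lit 6) (nat_lit 30) (nat_lit 2) (nat_lit 213) (nat_lit 215) (nat_lit 172))) (PT.nd (nat_lit 78)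 (PT.lf (nat_lit 2204) (nat_lit 6) (nat_lit 29) (nat_lit 2) (nat_lit 214) (nat_lit 215) (nat_lit 171)) (PT.nd (nat_lit 78) (PT.lf (nat_lit 2128) (nat_lit 3) (nat_lit 28) (nat_lit 0) (nat_lit 215) (nat_lit 215) (nat_lit 170)) (PT.lf (nat_lit 1976) (nat_lit 6) (nat_lit 26) (nat_lit 0) (nat_lit 216) (nat_lit 215) (nat_lit 169))))))) (PT.nd (nat_lit 62400) (PT.nd (nat_lit 58734) (PT.nd (nat_lit 58578) (PT.nd (nat_lit 58500) (PT.lf (nat_lit 1824) (nat_lit 6) (nat_lit 24) (nat_lit 0) (nat_lit 217) (nat_lit 215) (nat_lit 168)) (PT.lf (nat_lit 1596) (nat_lit 6) (nat_lit 21) (nat_lit 5) (nat_lit 166) (nat_lit 216) (nat_lit 218))) (PT.nd (nat_lit 78) (PT.lf (nat_lit 1748) (nat_lit 6) (nat_lit 23) (nat_lit 5) (nat_lit 167) (nat_lit 216) (nat_lit 217)) (PT.lf (nat_lit 1900) (nat_lit 3) (nat_lit 25) (nat_lit 4) (nat_lit 168) (nat_lit 216) (nat_lit 216)))) (PT.nd (nat_lit 3510) (PT.nd (nat_lit 78) (PT.lf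 (nat_lit 1976) (nat_lit 6) (nat_lit 26) (nat_lit 4) (nat_lit 169) (nat_lit 216) (nat_lit 215)) (PT.lf (nat_lit 2052) (nat_lit 6) (nat_lit 27) (nat_lit 4) (nat_lit 170) (nat_lit 216) (nat_lit 214))) (PT.nd (nat_lit 78) (PT.lf (nat_lit 2052) (nat_lit 6) (nat_lit 27) (nat_lit 2) (nat_lit 214) (nat_lit 216) (nat_lit 170)) (PT.lf (nat_lit 1976) (nat_lit 6) (nat_lit 26) (nat_lit 2) (nat_lit 215) (nat_lit 216) (nat_lit 169))))) (PT.nd (nat_lit 58500) (PT.nd (nat_lit 156) (PT.nd (nat_lit 78) (PT.lf (nat_lit 1900) (nat_lit 3) (nat_lit 25) (nat_lit 0) (nat_lit 216) (nat_lit 216) (nat_lit 168)) (PT.lf (nat_lit 1748) (nat_lit 6) (nat_lit 23) (nat_lit 0) (nat_lit 217) (nat_lit 216) (nat_lit 167))) (PT.nd (nat_lit 58266) (PT.lf (nat_lit 1596) (nat_lit 6) (nat_lit 21) (nat_lit 0) (nat_lit 218) (nat_lit 216) (nat_lit 166)) (PT.lf (nat_lit 1368) (nat_lit 6) (nat_lit 18) (nat_lit 5) (nat_lit 164) (nat_lit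 217) (nat_lit 219)))) (PT.nd (nat_lit 156) (PT.nd (nat_lit 78) (PT.lf (nat_lit 1520) (nat_lit 6) (nat_lit 20) (nat_lit 5) (nat_lit 165) (nat_lit 217) (nat_lit 218)) (PT.lf (nat_lit 1672) (nat_lit 3) (nat_lit 22) (nat_lit 4) (nat_lit 166) (nat_lit 217) (nat_lit 217))) (PT.nd (nat_lit 78) (PT.lf (nat_lit 1748) (nat_lit 6) (nat_lit 23) (nat_lit 4) (nat_lit 167) (nat_lit 217) (nat_lit 216)) (PT.nd (nat_lit 3666) (PT.lf (nat_lit 1824) (nat_lit 6) (nat_lit 24) (nat_lit 4) (nat_lit 168) (nat_lit 217) (nat_lit 215)) (PT.lf (nat_lit 1824) (nat_lit 6) (nat_lit 24) (nat_lit 2) (nat_lit 215) (nat_lit 217) (nat_lit 168))))))))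
noncomputable def pc14 : PT := (PT.nd (nat_lit 120822) (PT.nd (nat_lit 58578) (PT.nd (nat_lit 58266) (PT.nd (nat_lit 156) (PT.nd (nat_lit 78) (PT.lf (nat_lit 1748) (nat_lit 6) (nat_lit 23) (nat_lit 2) (nat_lit 216) (nat_lit 217) (nat_lit 167)) (PT.lf (nat_lit 1672) (nat_lit 3) (nat_lit 22) (nat_lit 0) (nat_lit 217) (nat_lit 217) (nat_lit 166))) (PT.nd (nat_lit 78) (PT.lf (nat_lit 1520) (nat_lit 6) (nat_lit 20) (nat_lit 0) (nat_lit 218) (nat_lit 217) (nat_lit 165)) (PT.lf (nat_lit 1368) (nat_lit 6) (nat_lit 18) (nat_lit 0) (nat_lit 219) (nat_lit 217) (nat_lit 164)))) (PT.nd (nat_lit 156) (PT.nd (nat_lit 78) (PT.lf (nat_lit 1140) (nat_lit 6) (nat_lit 15) (nat_lit 5) (nat_lit 162) (nat_lit 218) (nat_lit 220)) (PT.lf (nat_lit 1292) (nat_lit 6) (nat_lit 17) (nat_lit 5) (nat_lit 163) (nat_lit 218) (nat_lit 219))) (PT.nd (nat_lit 78) (PT.lf (nat_lit 1444) (nat_lit 3) (nat_lit 19) (nat_lit 4) (nat_lit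 164) (nat_lit 218) (nat_lit 218)) (PT.lf (nat_lit 1520) (nat_lit 6) (nat_lit 20) (nat_lit 4) (nat_lit 165) (nat_lit 218) (nat_lit 217))))) (PT.nd (nat_lit 4134) (PT.nd (nat_lit 3978) (PT.nd (nat_lit 3900) (PT.lf (nat_lit 1596) (nat_lit 6) (nat_lit 21) (nat_lit 4) (nat_lit 166) (nat_lit 218) (nat_lit 216)) (PT.lf (nat_lit 1596) (nat_lit 6) (nat_lit 21) (nat_lit 2) (nat_lit 216) (nat_lit 218) (nat_lit 166))) (PT.nd (nat_lit 78) (PT.lf (nat_lit 1520) (nat_lit 6) (nat_lit 20) (nat_lit 2) (nat_lit 217) (nat_lit 218) (nat_lit 165)) (PT.lf (nat_lit 1444) (nat_lit 3) (nat_lit 19) (nat_lit 0) (nat_lit 218) (nat_lit 218) (nat_lit 164)))) (PT.nd (nat_lit 57876) (PT.nd (nat_lit 78) (PT.lf (nat_lit 1292) (nat_lit 6) (nat_lit 17) (nat_lit 0) (nat_lit 219) (nat_lit 218) (nat_lit 163)) (PT.lf (nat_lit 1140) (nat_lit 6) (nat_lit 15) (nat_lit 0) (nat_lit 220) (nat_lit 218) (nat_lit 162))) (PT.nd (nat_lit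 78) (PT.lf (nat_lit 912) (nat_lit 6) (nat_lit 12) (nat_lit 5) (nat_lit 160) (nat_lit 219) (nat_lit 221)) (PT.nd (nat_lit 78) (PT.lf (nat_lit 1064) (nat_lit 6) (nat_lit 14) (nat_lit 5) (nat_lit 161) (nat_lit 219) (nat_lit 220)) (PT.lf (nat_lit 1216) (nat_lit 3) (nat_lit 16) (nat_lit 4) (nat_lit 162) (nat_lit 219) (nat_lit 219))))))) (PT.nd (nat_lit 62166) (PT.nd (nat_lit 4368) (PT.nd (nat_lit 4212) (PT.nd (nat_lit 78) (PT.lf (nat_lit 1292) (nat_lit 6) (nat_lit 17) (nat_lit 4) (nat_lit 163) (nat_lit 219) (nat_lit 218)) (PT.lf (nat_lit 1368) (nat_lit 6) (nat_lit 18) (nat_lit 4) (nat_lit 164) (nat_lit 219) (nat_lit 217))) (PT.nd (nat_lit 78) (PT.lf (nat_lit 1368) (nat_lit 6) (nat_lit 18) (nat_lit 2) (nat_lit 217) (nat_lit 219) (nat_lit 164)) (PT.lf (nat_lit 1292) (nat_lit 6) (nat_lit 17) (nat_lit 2) (nat_lit 218) (nat_lit 219) (nat_lit 163)))) (PT.nd (nat_lit 156) (PT.nd (nat_lit 78) (PT.lf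 (nat_lit 1216) (nat_lit 3) (nat_lit 16) (nat_lit 0) (nat_lit 219) (nat_lit 219) (nat_lit 162)) (PT.lf (nat_lit 1064) (nat_lit 6) (nat_lit 14) (nat_lit 0) (nat_lit 220) (nat_lit 219) (nat_lit 161))) (PT.nd (nat_lit 57564) (PT.lf (nat_lit 912) (nat_lit 6) (nat_lit 12) (nat_lit 0) (nat_lit 221) (nat_lit 219) (nat_lit 160)) (PT.lf (nat_lit 684) (nat_lit 6) (nat_lit 9) (nat_lit 5) (nat_lit 158) (nat_lit 220) (nat_lit 222))))) (PT.nd (nat_lit 4602) (PT.nd (nat_lit 156) (PT.nd (nat_lit 78) (PT.lf (nat_lit 836) (nat_lit 6) (nat_lit 11) (nat_lit 5) (nat_lit 159) (nat_lit 220) (nat_lit 221)) (PT.lf (nat_lit 988) (nat_lit 3) (nat_lit 13) (nat_lit 4) (nat_lit 160) (nat_lit 220) (nat_lit 220))) (PT.nd (nat_lit 78) (PT.lf (nat_lit 1064) (nat_lit 6) (nat_lit 14) (nat_lit 4) (nat_lit 161) (nat_lit 220) (nat_lit 219)) (PT.lf (nat_lit 1140) (nat_lit 6) (nat_lit 15) (nat_lit 4) (nat_lit 162) (nat_lit 220)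 (nat_lit 218)))) (PT.nd (nat_lit 156) (PT.nd (nat_lit 78) (PT.lf (nat_lit 1140) (nat_lit 6) (nat_lit 15) (nat_lit 2) (nat_lit 218) (nat_lit 220) (nat_lit 162)) (PT.lf (nat_lit 1064) (nat_lit 6) (nat_lit 14) (nat_lit 2) (nat_lit 219) (nat_lit 220) (nat_lit 161))) (PT.nd (nat_lit 78) (PT.lf (nat_lit 988) (nat_lit 3) (nat_lit 13) (nat_lit 0) (nat_lit 220) (nat_lit 220) (nat_lit 160)) (PT.nd (nat_lit 78) (PT.lf (nat_lit 836) (nat_lit 6) (nat_lit 11) (nat_lit 0) (nat_lit 221) (nat_lit 220) (nat_lit 159)) (PT.lf (nat_lit 684) (nat_lit 6) (nat_lit 9) (nat_lit 0) (nat_lit 222) (nat_lit 220) (nat_lit 158))))))))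
noncomputable def pc15 : PT := (PT.nd (nat_lit 67626) (PT.nd (nat_lit 5148) (PT.nd (nat_lit 312) (PT.nd (nat_lit 156) (PT.nd (nat_lit 78) (PT.lf (nat_lit 456) (nat_lit 6) (nat_lit 6) (nat_lit 5) (nat_lit 156) (nat_lit 221) (nat_lit 223)) (PT.lf (nat_lit 608) (nat_lit 6) (nat_lit 8) (nat_lit 5) (nat_lit 157) (nat_lit 221) (nat_lit 222))) (PT.nd (nat_lit 78) (PT.lf (nat_lit 760) (nat_lit 3) (nat_lit 10) (nat_lit 4) (nat_lit 158) (nat_lit 221) (nat_lit 221)) (PT.lf (nat_lit 836) (nat_lit 6) (nat_lit 11) (nat_lit 4) (nat_lit 159) (nat_lit 221) (nat_lit 220)))) (PT.nd (nat_lit 4680) (PT.nd (nat_lit 4602) (PT.lf (nat_lit 912) (nat_lit 6) (nat_lit 12) (nat_lit 4) (nat_lit 160) (nat_lit 221) (nat_lit 219)) (PT.lf (nat_lit 912) (nat_lit 6) (nat_lit 12) (nat_lit 2) (nat_lit 219) (nat_lit 221) (nat_lit 160))) (PT.nd (nat_lit 78) (PT.lf (nat_lit 836) (nat_lit 6) (nat_lit 11) (nat_lit 2) (nat_lit 220)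 (nat_lit 221) (nat_lit 159)) (PT.lf (nat_lit 760) (nat_lit 3) (nat_lit 10) (nat_lit 0) (nat_lit 221) (nat_lit 221) (nat_lit 158))))) (PT.nd (nat_lit 57330) (PT.nd (nat_lit 57174) (PT.nd (nat_lit 78) (PT.lf (nat_lit 608) (nat_lit 6) (nat_lit 8) (nat_lit 0) (nat_lit 222) (nat_lit 221) (nat_lit 157)) (PT.lf (nat_lit 456) (nat_lit 6) (nat_lit 6) (nat_lit 0) (nat_lit 223) (nat_lit 221) (nat_lit 156))) (PT.nd (nat_lit 78) (PT.lf (nat_lit 228) (nat_lit 6) (nat_lit 3) (nat_lit 5) (nat_lit 154) (nat_lit 222) (nat_lit 224)) (PT.lf (nat_lit 380) (nat_lit 6) (nat_lit 5) (nat_lit 5) (nat_lit 155) (nat_lit 222) (nat_lit 223)))) (PT.nd (nat_lit 156) (PT.nd (nat_lit 78) (PT.lf (nat_lit 532) (nat_lit 3) (nat_lit 7) (nat_lit 4) (nat_lit 156) (nat_lit 222) (nat_lit 222)) (PT.lf (nat_lit 608) (nat_lit 6) (nat_lit 8) (nat_lit 4) (nat_lit 157) (nat_lit 222) (nat_lit 221))) (PT.nd (nat_lit 4836) (PT.lf (nat_lit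 684) (nat_lit 6) (nat_lit 9) (nat_lit 4) (nat_lit 158) (nat_lit 222) (nat_lit 220)) (PT.nd (nat_lit 78) (PT.lf (nat_lit 684) (nat_lit 6) (nat_lit 9) (nat_lit 2) (nat_lit 220) (nat_lit 222) (nat_lit 158)) (PT.lf (nat_lit 608) (nat_lit 6) (nat_lit 8) (nat_lit 2) (nat_lit 221) (nat_lit 222) (nat_lit 157))))))) (PT.nd (nat_lit 62478) (PT.nd (nat_lit 57174) (PT.nd (nat_lit 156) (PT.nd (nat_lit 78) (PT.lf (nat_lit 532) (nat_lit 3) (nat_lit 7) (nat_lit 0) (nat_lit 222) (nat_lit 222) (nat_lit 156)) (PT.lf (nat_lit 380) (nat_lit 6) (nat_lit 5) (nat_lit 0) (nat_lit 223) (nat_lit 222) (nat_lit 155))) (PT.nd (nat_lit 56940) (PT.lf (nat_lit 228) (nat_lit 6) (nat_lit 3) (nat_lit 0) (nat_lit 224) (nat_lit 222) (nat_lit 154)) (PT.lf (nat_lit 152) (nat_lit 6) (nat_lit 2) (nat_lit 5) (nat_lit 153) (nat_lit 223) (nat_lit 224)))) (PT.nd (nat_lit 156) (PT.nd (nat_lit 78) (PT.lf (nat_lit 304) (nat_lit 3) (nat_lit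 4) (nat_lit 4) (nat_lit 154) (nat_lit 223) (nat_lit 223)) (PT.lf (nat_lit 380) (nat_lit 6) (nat_lit 5) (nat_lit 4) (nat_lit 155) (nat_lit 223) (nat_lit 222))) (PT.nd (nat_lit 5070) (PT.lf (nat_lit 456) (nat_lit 6) (nat_lit 6) (nat_lit 4) (nat_lit 156) (nat_lit 223) (nat_lit 221)) (PT.lf (nat_lit 456) (nat_lit 6) (nat_lit 6) (nat_lit 2) (nat_lit 221) (nat_lit 223) (nat_lit 156))))) (PT.nd (nat_lit 57096) (PT.nd (nat_lit 156) (PT.nd (nat_lit 78) (PT.lf (nat_lit 380) (nat_lit 6) (nat_lit 5) (nat_lit 2) (nat_lit 222) (nat_lit 223) (nat_lit 155)) (PT.lf (nat_lit 304) (nat_lit 3) (nat_lit 4) (nat_lit 0) (nat_lit 223) (nat_lit 223) (nat_lit 154))) (PT.nd (nat_lit 56862) (PT.lf (nat_lit 152) (nat_lit 6) (nat_lit 2) (nat_lit 0) (nat_lit 224) (nat_lit 223) (nat_lit 153)) (PT.lf (nat_lit 76) (nat_lit 3) (nat_lit 1) (nat_lit 4) (nat_lit 152) (nat_lit 224) (nat_lit 224)))) (PT.nd (nat_lit 5382) (PT.nd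 (nat_lit 78) (PT.lf (nat_lit 152) (nat_lit 6) (nat_lit 2) (nat_lit 4) (nat_lit 153) (nat_lit 224) (nat_lit 223)) (PT.lf (nat_lit 228) (nat_lit 6) (nat_lit 3) (nat_lit 4) (nat_lit 154) (nat_lit 224) (nat_lit 222))) (PT.nd (nat_lit 78) (PT.lf (nat_lit 228) (nat_lit 6) (nat_lit 3) (nat_lit 2) (nat_lit 222) (nat_lit 224) (nat_lit 154)) (PT.nd (nat_lit 78) (PT.lf (nat_lit 152) (nat_lit 6) (nat_lit 2) (nat_lit 2) (nat_lit 223) (nat_lit 224) (nat_lit 153)) (PT.lf (nat_lit 76) (nat_lit 3) (nat_lit 1) (nat_lit 0) (nat_lit 224) (nat_lit 224) (nat_lit 152))))))))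
noncomputable def xc0 : XT := (XT.nd (nat_lit 249678) (nat_lit 0) (nat_lit 0) (XT.nd (nat_lit 186966) (nat_lit 0) (nat_lit 0) (XT.nd (nat_lit 124644) (nat_lit 0) (nat_lit 0) (XT.nd (nat_lit 62400) (nat_lit 0) (nat_lit 0) (XT.nd (nat_lit 78) (nat_lit 0) (nat_lit 0) (XT.lf (nat_lit 0) (nat_lit 7288457836383) (nat_lit 76) (nat_lit 838809390203) (nat_lit 76) (nat_lit 838809390203) (nat_lit 1) (nat_lit 4) (nat_lit 2) (nat_lit 5) (nat_lit 2) (nat_lit 4) (nat_lit 536) (nat_lit 332) (nat_lit 332)) (XT.nd (nat_lit 62244) (nat_lit 0) (nat_lit 0) (XT.lf (nat_lit 0) (nat_lit 15744394354544) (nat_lit 76) (nat_lit 1811141261898) (nat_lit 76) (nat_lit 1811138567747) (nat_lit 1) (nat_lit 4) (nat_lit 2) (nat_lit 5) (nat_lit 2) (nat_lit 4) (nat_lit 537) (nat_lit 332) (nat_lit 331)) (XT.lf (nat_lit 0) (nat_lit 6247417040017) (nat_lit 76) (nat_lit 719798657887) (nat_lit 76) (nat_lit 719798657887) (nat_lit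 1) (nat_lit 4) (nat_lit 2) (nat_lit 5) (nat_lit 2) (nat_lit 4) (nat_lit 534) (nat_lit 333) (nat_lit 333)))) (XT.nd (nat_lit 78) (nat_lit 0) (nat_lit 0) (XT.lf (nat_lit 0) (nat_lit 13495852268631) (nat_lit 76) (nat_lit 1554023118419) (nat_lit 76) (nat_lit 1554020208736) (nat_lit 1) (nat_lit 4) (nat_lit 2) (nat_lit 5) (nat_lit 2) (nat_lit 4) (nat_lit 535) (nat_lit 333) (nat_lit 332)) (XT.nd (nat_lit 78) (nat_lit 0) (nat_lit 0) (XT.lf (nat_lit 0) (nat_lit 14576882117628) (nat_lit 76) (nat_lit 1677639009363) (nat_lit 76) (nat_lit 1677633405528) (nat_lit 1) (nat_lit 4) (nat_lit 2) (nat_lit 5) (nat_lit 2) (nat_lit 4) (nat_lit 536) (nat_lit 333) (nat_lit 331)) (XT.lf (nat_lit 0) (nat_lit 15744329729834) (nat_lit 76) (nat_lit 1811177527217) (nat_lit 76) (nat_lit 1811169428798) (nat_lit 1) (nat_lit 4) (nat_lit 2) (nat_lit 5) (nat_lit 2) (nat_lit 4) (nat_lit 537) (nat_lit 333) (nat_lit 330))))) (XT.nd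 (nat_lit 234) (nat_lit 0) (nat_lit 0) (XT.nd (nat_lit 78) (nat_lit 0) (nat_lit 0) (XT.lf (nat_lit 0) (nat_lit 5354791487515) (nat_lit 76) (nat_lit 617818521426) (nat_lit 76) (nat_lit 617818521426) (nat_lit 1) (nat_lit 4) (nat_lit 2) (nat_lit 5) (nat_lit 2) (nat_lit 4) (nat_lit 532) (nat_lit 334) (nat_lit 334)) (XT.nd (nat_lit 78) (nat_lit 0) (nat_lit 0) (XT.lf (nat_lit 0) (nat_lit 11567895592202) (nat_lit 76) (nat_lit 1333686665054) (nat_lit 76) (nat_lit 1333683522596) (nat_lit 1) (nat_lit 4) (nat_lit 2) (nat_lit 5) (nat_lit 2) (nat_lit 4) (nat_lit 533) (nat_lit 334) (nat_lit 333)) (XT.lf (nat_lit 0) (nat_lit 12494797840485) (nat_lit 76) (nat_lit 1439619163046) (nat_lit 76) (nat_lit 1439613110904) (nat_lit 1) (nat_lit 4) (nat_lit 2) (nat_lit 5) (nat_lit 2) (nat_lit 4) (nat_lit 534) (nat_lit 334) (nat_lit 332)))) (XT.nd (nat_lit 78) (nat_lit 0) (nat_lit 0) (XT.lf (nat_lit 0) (nat_lit 13495782473943)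 (nat_lit 76) (nat_lit 1554062284964) (nat_lit 76) (nat_lit 1554053538671) (nat_lit 1) (nat_lit 4) (nat_lit 2) (nat_lit 5) (nat_lit 2) (nat_lit 4) (nat_lit 535) (nat_lit 334) (nat_lit 331)) (XT.nd (nat_lit 78) (nat_lit 0) (nat_lit 0) (XT.lf (nat_lit 0) (nat_lit 14576781253368) (nat_lit 76) (nat_lit 1677694212271) (nat_lit 76) (nat_lit 1677682971393) (nat_lit 1) (nat_lit 4) (nat_lit 2) (nat_lit 5) (nat_lit 2) (nat_lit 4) (nat_lit 536) (nat_lit 334) (nat_lit 330)) (XT.lf (nat_lit 0) (nat_lit 15744200097451) (nat_lit 76) (nat_lit 1811247578610) (nat_lit 76) (nat_lit 1811234027931) (nat_lit 1) (nat_lit 4) (nat_lit 2) (nat_lit 5) (nat_lit 2) (nat_lit 4) (nat_lit 537) (nat_lit 334) (nat_lit 329)))))) (XT.nd (nat_lit 468) (nat_lit 0) (nat_lit 0) (XT.nd (nat_lit 234) (nat_lit 0) (nat_lit 0) (XT.nd (nat_lit 78) (nat_lit 0) (nat_lit 0) (XT.lf (nat_lit 0) (nat_lit 4589400015961) (nat_lit 76) (nat_lit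 530443566676) (nat_lit 76) (nat_lit 530443566676) (nat_lit 1) (nat_lit 4) (nat_lit 2) (nat_lit 5) (nat_lit 2) (nat_lit 4) (nat_lit 530) (nat_lit 335) (nat_lit 335)) (XT.nd (nat_lit 78) (nat_lit 0) (nat_lit 0) (XT.lf (nat_lit 0) (nat_lit 9914773691979) (nat_lit 76) (nat_lit 1144892655496) (nat_lit 76) (nat_lit 1144889261641) (nat_lit 1) (nat_lit 4) (nat_lit 2) (nat_lit 5) (nat_lit 2) (nat_lit 4) (nat_lit 531) (nat_lit 335) (nat_lit 334)) (XT.lf (nat_lit 0) (nat_lit 10709543836317) (nat_lit 76) (nat_lit 1235660637906) (nat_lit 76) (nat_lit 1235654101593) (nat_lit 1) (nat_lit 4) (nat_lit 2) (nat_lit 5) (nat_lit 2) (nat_lit 4) (nat_lit 532) (nat_lit 335) (nat_lit 333)))) (XT.nd (nat_lit 78) (nat_lit 0) (nat_lit 0) (XT.lf (nat_lit 0) (nat_lit 11567820213939) (nat_lit 76) (nat_lit 1333728964923) (nat_lit 76) (nat_lit 1333719518926) (nat_lit 1) (nat_lit 4) (nat_lit 2) (nat_lit 5) (nat_lit 2) (nat_lit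 4) (nat_lit 533) (nat_lit 335) (nat_lit 332)) (XT.nd (nat_lit 78) (nat_lit 0) (nat_lit 0) (XT.lf (nat_lit 0) (nat_lit 12494688907084) (nat_lit 76) (nat_lit 1439678782187) (nat_lit 76) (nat_lit 1439666642039) (nat_lit 1) (nat_lit 4) (nat_lit 2) (nat_lit 5) (nat_lit 2) (nat_lit 4) (nat_lit 534) (nat_lit 335) (nat_lit 331)) (XT.lf (nat_lit 0) (nat_lit 13495642470970) (nat_lit 76) (nat_lit 1554137940468) (nat_lit 76) (nat_lit 1554123305735) (nat_lit 1) (nat_lit 4) (nat_lit 2) (nat_lit 5) (nat_lit 2) (nat_lit 4) (nat_lit 535) (nat_lit 335) (nat_lit 330))))) (XT.nd (nat_lit 61932) (nat_lit 0) (nat_lit 0) (XT.nd (nat_lit 78) (nat_lit 0) (nat_lit 0) (XT.lf (nat_lit 0) (nat_lit 14576612482272) (nat_lit 76) (nat_lit 1677784716259) (nat_lit 76) (nat_lit 1677767771726) (nat_lit 1) (nat_lit 4) (nat_lit 2) (nat_lit 5) (nat_lit 2) (nat_lit 4) (nat_lit 536) (nat_lit 335) (nat_lit 329)) (XT.nd (nat_lit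 61776) (nat_lit 0) (nat_lit 0) (XT.lf (nat_lit 0) (nat_lit 15744004689205) (nat_lit 76) (nat_lit 1811351831195) (nat_lit 76) (nat_lit 1811332747957) (nat_lit 1) (nat_lit 4) (nat_lit 2) (nat_lit 5) (nat_lit 2) (nat_lit 4) (nat_lit 537) (nat_lit 335) (nat_lit 328)) (XT.lf (nat_lit 0) (nat_lit 3933082546597) (nat_lit 76) (nat_lit 455594727195) (nat_lit 76) (nat_lit 455594727195) (nat_lit 1) (nat_lit 4) (nat_lit 2) (nat_lit 5) (nat_lit 2) (nat_lit 4) (nat_lit 528) (nat_lit 336) (nat_lit 336)))) (XT.nd (nat_lit 156) (nat_lit 0) (nat_lit 0) (XT.nd (nat_lit 78) (nat_lit 0) (nat_lit 0) (XT.lf (nat_lit 0) (nat_lit 8497261530754) (nat_lit 76) (nat_lit 983149926335) (nat_lit 76) (nat_lit 983146260972) (nat_lit 1) (nat_lit 4) (nat_lit 2) (nat_lit 5) (nat_lit 2) (nat_lit 4) (nat_lit 529) (nat_lit 336) (nat_lit 335)) (XT.lf (nat_lit 0) (nat_lit 9178757762112) (nat_lit 76) (nat_lit 1060912616010) (nat_lit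 76) (nat_lit 1060905556792) (nat_lit 1) (nat_lit 4) (nat_lit 2) (nat_lit 5) (nat_lit 2) (nat_lit 4) (nat_lit 530) (nat_lit 336) (nat_lit 334))) (XT.nd (nat_lit 78) (nat_lit 0) (nat_lit 0) (XT.lf (nat_lit 0) (nat_lit 9914692283456) (nat_lit 76) (nat_lit 1144938339354) (nat_lit 76) (nat_lit 1144928137677) (nat_lit 1) (nat_lit 4) (nat_lit 2) (nat_lit 5) (nat_lit 2) (nat_lit 4) (nat_lit 531) (nat_lit 336) (nat_lit 333)) (XT.lf (nat_lit 0) (nat_lit 10709426188244) (nat_lit 76) (nat_lit 1235725026578) (nat_lit 76) (nat_lit 1235711915218) (nat_lit 1) (nat_lit 4) (nat_lit 2) (nat_lit 5) (nat_lit 2) (nat_lit 4) (nat_lit 532) (nat_lit 336) (nat_lit 332))))))) (XT.nd (nat_lit 62478) (nat_lit 0) (nat_lit 0) (XT.nd (nat_lit 62010) (nat_lit 0) (nat_lit 0) (XT.nd (nat_lit 234) (nat_lit 0) (nat_lit 0) (XT.nd (nat_lit 78) (nat_lit 0) (nat_lit 0) (XT.lf (nat_lit 0) (nat_lit 11567669010729) (nat_lit 76) (nat_lit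 1333810672867) (nat_lit 76) (nat_lit 1333794867355) (nat_lit 1) (nat_lit 4) (nat_lit 2) (nat_lit 5) (nat_lit 2) (nat_lit 4) (nat_lit 533) (nat_lit 336) (nat_lit 331)) (XT.nd (nat_lit 78) (nat_lit 0) (nat_lit 0) (XT.lf (nat_lit 0) (nat_lit 12494506634301) (nat_lit 76) (nat_lit 1439776526494) (nat_lit 76) (nat_lit 1439758226398) (nat_lit 1) (nat_lit 4) (nat_lit 2) (nat_lit 5) (nat_lit 2) (nat_lit 4) (nat_lit 534) (nat_lit 336) (nat_lit 330)) (XT.lf (nat_lit 0) (nat_lit 13495431430065) (nat_lit 76) (nat_lit 1554250533260) (nat_lit 76) (nat_lit 1554229923363) (nat_lit 1) (nat_lit 4) (nat_lit 2) (nat_lit 5) (nat_lit 2) (nat_lit 4) (nat_lit 535) (nat_lit 336) (nat_lit 329)))) (XT.nd (nat_lit 78) (nat_lit 0) (nat_lit 0) (XT.lf (nat_lit 0) (nat_lit 14576374804216) (nat_lit 76) (nat_lit 1677911057648) (nat_lit 76) (nat_lit 1677888309047) (nat_lit 1) (nat_lit 4) (nat_lit 2) (nat_lit 5) (nat_lit 2)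 (nat_lit 4) (nat_lit 536) (nat_lit 336) (nat_lit 328)) (XT.nd (nat_lit 61620) (nat_lit 0) (nat_lit 0) (XT.lf (nat_lit 0) (nat_lit 15743742347121) (nat_lit 76) (nat_lit 1811490902766) (nat_lit 76) (nat_lit 1811466173883) (nat_lit 1) (nat_lit 4) (nat_lit 2) (nat_lit 5) (nat_lit 2) (nat_lit 4) (nat_lit 537) (nat_lit 336) (nat_lit 327)) (XT.lf (nat_lit 0) (nat_lit 3370269041751) (nat_lit 76) (nat_lit 391489900693) (nat_lit 76) (nat_lit 391489900693) (nat_lit 1) (nat_lit 4) (nat_lit 2) (nat_lit 5) (nat_lit 2) (nat_lit 4) (nat_lit 526) (nat_lit 337) (nat_lit 337))))) (XT.nd (nat_lit 234) (nat_lit 0) (nat_lit 0) (XT.nd (nat_lit 78) (nat_lit 0) (nat_lit 0) (XT.lf (nat_lit 0) (nat_lit 7281728618695) (nat_lit 76) (nat_lit 844608726340) (nat_lit 76) (nat_lit 844604767748) (nat_lit 1) (nat_lit 4) (nat_lit 2) (nat_lit 5) (nat_lit 2) (nat_lit 4) (nat_lit 527) (nat_lit 337) (nat_lit 336)) (XT.nd (nat_lit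 78) (nat_lit 0) (nat_lit 0) (XT.lf (nat_lit 0) (nat_lit 7866119441800) (nat_lit 76) (nat_lit 911216975661) (nat_lit 76) (nat_lit 911209351705) (nat_lit 1) (nat_lit 4) (nat_lit 2) (nat_lit 5) (nat_lit 2) (nat_lit 4) (nat_lit 528) (nat_lit 337) (nat_lit 335)) (XT.lf (nat_lit 0) (nat_lit 8497173609549) (nat_lit 76) (nat_lit 983199264902) (nat_lit 76) (nat_lit 983188247091) (nat_lit 1) (nat_lit 4) (nat_lit 2) (nat_lit 5) (nat_lit 2) (nat_lit 4) (nat_lit 529) (nat_lit 337) (nat_lit 334)))) (XT.nd (nat_lit 78) (nat_lit 0) (nat_lit 0) (XT.lf (nat_lit 0) (nat_lit 9178630702194) (nat_lit 76) (nat_lit 1060982155776) (nat_lit 76) (nat_lit 1060967995507) (nat_lit 1) (nat_lit 4) (nat_lit 2) (nat_lit 5) (nat_lit 2) (nat_lit 4) (nat_lit 530) (nat_lit 337) (nat_lit 333)) (XT.nd (nat_lit 78) (nat_lit 0) (nat_lit 0) (XT.lf (nat_lit 0) (nat_lit 9914528983988) (nat_lit 76) (nat_lit 1145026583934) (nat_lit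 76) (nat_lit 1145009513981) (nat_lit 1) (nat_lit 4) (nat_lit 2) (nat_lit 5) (nat_lit 2) (nat_lit 4) (nat_lit 531) (nat_lit 337) (nat_lit 332)) (XT.lf (nat_lit 0) (nat_lit 10709229333639) (nat_lit 76) (nat_lit 1235830590430) (nat_lit 76) (nat_lit 1235810826326) (nat_lit 1) (nat_lit 4) (nat_lit 2) (nat_lit 5) (nat_lit 2) (nat_lit 4) (nat_lit 532) (nat_lit 337) (nat_lit 331)))))) (XT.nd (nat_lit 61854) (nat_lit 0) (nat_lit 0) (XT.nd (nat_lit 234) (nat_lit 0) (nat_lit 0) (XT.nd (nat_lit 78) (nat_lit 0) (nat_lit 0) (XT.lf (nat_lit 0) (nat_lit 11567441086551) (nat_lit 76) (nat_lit 1333932273082) (nat_lit 76) (nat_lit 1333910014394) (nat_lit 1) (nat_lit 4) (nat_lit 2) (nat_lit 5) (nat_lit 2) (nat_lit 4) (nat_lit 533) (nat_lit 337) (nat_lit 330)) (XT.nd (nat_lit 78) (nat_lit 0) (nat_lit 0) (XT.lf (nat_lit 0) (nat_lit 12494249942001) (nat_lit 76) (nat_lit 1439912975194) (nat_lit 76) (nat_lit 1439888406705)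 (nat_lit 1) (nat_lit 4) (nat_lit 2) (nat_lit 5) (nat_lit 2) (nat_lit 4) (nat_lit 534) (nat_lit 337) (nat_lit 329)) (XT.lf (nat_lit 0) (nat_lit 13495148100614) (nat_lit 76) (nat_lit 1554400730557) (nat_lit 76) (nat_lit 1554374023363) (nat_lit 1) (nat_lit 4) (nat_lit 2) (nat_lit 5) (nat_lit 2) (nat_lit 4) (nat_lit 535) (nat_lit 337) (nat_lit 328)))) (XT.nd (nat_lit 78) (nat_lit 0) (nat_lit 0) (XT.lf (nat_lit 0) (nat_lit 14576066810737) (nat_lit 76) (nat_lit 1678073985127) (nat_lit 76) (nat_lit 1678045297652) (nat_lit 1) (nat_lit 4) (nat_lit 2) (nat_lit 5) (nat_lit 2) (nat_lit 4) (nat_lit 536) (nat_lit 337) (nat_lit 327)) (XT.nd (nat_lit 61464) (nat_lit 0) (nat_lit 0) (XT.lf (nat_lit 0) (nat_lit 15743411516578) (nat_lit 76) (nat_lit 1811665617451) (nat_lit 76) (nat_lit 1811635096382) (nat_lit 1) (nat_lit 4) (nat_lit 2) (nat_lit 5) (nat_lit 2) (nat_lit 4) (nat_lit 537) (nat_lit 337) (nat_lit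 326)) (XT.lf (nat_lit 0) (nat_lit 2887609950745) (nat_lit 76) (nat_lit 336601612745) (nat_lit 76) (nat_lit 336601612745) (nat_lit 1) (nat_lit 4) (nat_lit 2) (nat_lit 5) (nat_lit 2) (nat_lit 4) (nat_lit 524) (nat_lit 338) (nat_lit 338))))) (XT.nd (nat_lit 234) (nat_lit 0) (nat_lit 0) (XT.nd (nat_lit 78) (nat_lit 0) (nat_lit 0) (XT.lf (nat_lit 0) (nat_lit 6239340781202) (nat_lit 76) (nat_lit 725969267639) (nat_lit 76) (nat_lit 725964992359) (nat_lit 1) (nat_lit 4) (nat_lit 2) (nat_lit 5) (nat_lit 2) (nat_lit 4) (nat_lit 525) (nat_lit 338) (nat_lit 337)) (XT.nd (nat_lit 78) (nat_lit 0) (nat_lit 0) (XT.lf (nat_lit 0) (nat_lit 6740488779997) (nat_lit 76) (nat_lit 783009524360) (nat_lit 76) (nat_lit 783001290488) (nat_lit 1) (nat_lit 4) (nat_lit 2) (nat_lit 5) (nat_lit 2) (nat_lit 4) (nat_lit 526) (nat_lit 338) (nat_lit 336)) (XT.lf (nat_lit 0) (nat_lit 7281633663793) (nat_lit 76) (nat_lit 844662011992)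 (nat_lit 76) (nat_lit 844650112756) (nat_lit 1) (nat_lit 4) (nat_lit 2) (nat_lit 5) (nat_lit 2) (nat_lit 4) (nat_lit 527) (nat_lit 338) (nat_lit 335)))) (XT.nd (nat_lit 156) (nat_lit 0) (nat_lit 0) (XT.nd (nat_lit 78) (nat_lit 0) (nat_lit 0) (XT.lf (nat_lit 0) (nat_lit 7865982217088) (nat_lit 76) (nat_lit 911292078608) (nat_lit 76) (nat_lit 911276785518) (nat_lit 1) (nat_lit 4) (nat_lit 2) (nat_lit 5) (nat_lit 2) (nat_lit 4) (nat_lit 528) (nat_lit 338) (nat_lit 334)) (XT.lf (nat_lit 0) (nat_lit 8496997246124) (nat_lit 76) (nat_lit 983294569048) (nat_lit 76) (nat_lit 983276133499) (nat_lit 1) (nat_lit 4) (nat_lit 2) (nat_lit 5) (nat_lit 2) (nat_lit 4) (nat_lit 529) (nat_lit 338) (nat_lit 333))) (XT.nd (nat_lit 78) (nat_lit 0) (nat_lit 0) (XT.lf (nat_lit 0) (nat_lit 9178418099220) (nat_lit 76) (nat_lit 1061096164736) (nat_lit 76) (nat_lit 1061074819504) (nat_lit 1) (nat_lit 4) (nat_lit 2)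 (nat_lit 5) (nat_lit 2) (nat_lit 4) (nat_lit 530) (nat_lit 338) (nat_lit 332)) (XT.lf (nat_lit 0) (nat_lit 9914282825876) (nat_lit 76) (nat_lit 1145157912166) (nat_lit 76) (nat_lit 1145133872783) (nat_lit 1) (nat_lit 4) (nat_lit 2) (nat_lit 5) (nat_lit 2) (nat_lit 4) (nat_lit 531) (nat_lit 338) (nat_lit 331))))))))
noncomputable def xc1 : XT := (XT.nd (nat_lit 124254) (nat_lit 0) (nat_lit 0) (XT.nd (nat_lit 62166) (nat_lit 0) (nat_lit 0) (XT.nd (nat_lit 61698) (nat_lit 0) (nat_lit 0) (XT.nd (nat_lit 234) (nat_lit 0) (nat_lit 0) (XT.nd (nat_lit 78) (nat_lit 0) (nat_lit 0) (XT.lf (nat_lit 0) (nat_lit 10708952105954) (nat_lit 76) (nat_lit 1235977955026) (nat_lit 76) (nat_lit 1235951421058) (nat_lit 1) (nat_lit 4) (nat_lit 2) (nat_lit 5) (nat_lit 2) (nat_lit 4) (nat_lit 532) (nat_lit 338) (nat_lit 330)) (XT.nd (nat_lit 78) (nat_lit 0) (nat_lit 0) (XT.lf (nat_lit 0) (nat_lit 11567135090743)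 (nat_lit 76) (nat_lit 1334094486163) (nat_lit 76) (nat_lit 1334065642394) (nat_lit 1) (nat_lit 4) (nat_lit 2) (nat_lit 5) (nat_lit 2) (nat_lit 4) (nat_lit 533) (nat_lit 338) (nat_lit 329)) (XT.lf (nat_lit 0) (nat_lit 12493917309043) (nat_lit 76) (nat_lit 1440088936872) (nat_lit 76) (nat_lit 1440057954399) (nat_lit 1) (nat_lit 4) (nat_lit 2) (nat_lit 5) (nat_lit 2) (nat_lit 4) (nat_lit 534) (nat_lit 338) (nat_lit 328)))) (XT.nd (nat_lit 78) (nat_lit 0) (nat_lit 0) (XT.lf (nat_lit 0) (nat_lit 13494790803628) (nat_lit 76) (nat_lit 1554589422416) (nat_lit 76) (nat_lit 1554556459661) (nat_lit 1) (nat_lit 4) (nat_lit 2) (nat_lit 5) (nat_lit 2) (nat_lit 4) (nat_lit 535) (nat_lit 338) (nat_lit 327)) (XT.nd (nat_lit 78) (nat_lit 0) (nat_lit 0) (XT.lf (nat_lit 0) (nat_lit 14575686676688) (nat_lit 76) (nat_lit 1678274464192) (nat_lit 76) (nat_lit 1678239667843) (nat_lit 1) (nat_lit 4) (nat_lit 2)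 (nat_lit 5) (nat_lit 2) (nat_lit 4) (nat_lit 536) (nat_lit 338) (nat_lit 326)) (XT.lf (nat_lit 0) (nat_lit 15743010237100) (nat_lit 76) (nat_lit 1811877010595) (nat_lit 76) (nat_lit 1811840516474) (nat_lit 1) (nat_lit 4) (nat_lit 2) (nat_lit 5) (nat_lit 2) (nat_lit 4) (nat_lit 537) (nat_lit 338) (nat_lit 325))))) (XT.nd (nat_lit 234) (nat_lit 0) (nat_lit 0) (XT.nd (nat_lit 78) (nat_lit 0) (nat_lit 0) (XT.lf (nat_lit 0) (nat_lit 2473659372365) (nat_lit 76) (nat_lit 289620722557) (nat_lit 76) (nat_lit 289620722557) (nat_lit 1) (nat_lit 4) (nat_lit 2) (nat_lit 5) (nat_lit 2) (nat_lit 4) (nat_lit 522) (nat_lit 339) (nat_lit 339)) (XT.nd (nat_lit 78) (nat_lit 0) (nat_lit 0) (XT.lf (nat_lit 0) (nat_lit 5345375794908) (nat_lit 76) (nat_lit 624403327561) (nat_lit 76) (nat_lit 624398710258) (nat_lit 1) (nat_lit 4) (nat_lit 2) (nat_lit 5) (nat_lit 2) (nat_lit 4) (nat_lit 523) (nat_lit 339) (nat_lit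 338)) (XT.lf (nat_lit 0) (nat_lit 5775166653703) (nat_lit 76) (nat_lit 673235326301) (nat_lit 76) (nat_lit 673226433719) (nat_lit 1) (nat_lit 4) (nat_lit 2) (nat_lit 5) (nat_lit 2) (nat_lit 4) (nat_lit 524) (nat_lit 339) (nat_lit 337)))) (XT.nd (nat_lit 78) (nat_lit 0) (nat_lit 0) (XT.lf (nat_lit 0) (nat_lit 6239238229908) (nat_lit 76) (nat_lit 726026816142) (nat_lit 76) (nat_lit 726013964968) (nat_lit 1) (nat_lit 4) (nat_lit 2) (nat_lit 5) (nat_lit 2) (nat_lit 4) (nat_lit 525) (nat_lit 339) (nat_lit 336)) (XT.nd (nat_lit 78) (nat_lit 0) (nat_lit 0) (XT.lf (nat_lit 0) (nat_lit 6740340577308) (nat_lit 76) (nat_lit 783090635543) (nat_lit 76) (nat_lit 783074119005) (nat_lit 1) (nat_lit 4) (nat_lit 2) (nat_lit 5) (nat_lit 2) (nat_lit 4) (nat_lit 526) (nat_lit 339) (nat_lit 335)) (XT.lf (nat_lit 0) (nat_lit 7281443191294) (nat_lit 76) (nat_lit 844764940470) (nat_lit 76) (nat_lit 844745030077)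 (nat_lit 1) (nat_lit 4) (nat_lit 2) (nat_lit 5) (nat_lit 2) (nat_lit 4) (nat_lit 527) (nat_lit 339) (nat_lit 334)))))) (XT.nd (nat_lit 468) (nat_lit 0) (nat_lit 0) (XT.nd (nat_lit 234) (nat_lit 0) (nat_lit 0) (XT.nd (nat_lit 78) (nat_lit 0) (nat_lit 0) (XT.lf (nat_lit 0) (nat_lit 7865752605876) (nat_lit 76) (nat_lit 911415208285) (nat_lit 76) (nat_lit 911392155434) (nat_lit 1) (nat_lit 4) (nat_lit 2) (nat_lit 5) (nat_lit 2) (nat_lit 4) (nat_lit 528) (nat_lit 339) (nat_lit 333)) (XT.nd (nat_lit 78) (nat_lit 0) (nat_lit 0) (XT.lf (nat_lit 0) (nat_lit 8496731395362) (nat_lit 76) (nat_lit 983436403539) (nat_lit 76) (nat_lit 983410441005) (nat_lit 1) (nat_lit 4) (nat_lit 2) (nat_lit 5) (nat_lit 2) (nat_lit 4) (nat_lit 529) (nat_lit 339) (nat_lit 332)) (XT.lf (nat_lit 0) (nat_lit 9178118693320) (nat_lit 76) (nat_lit 1061255318500) (nat_lit 76) (nat_lit 1061226661814) (nat_lit 1) (nat_lit 4) (nat_lit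 2) (nat_lit 5) (nat_lit 2) (nat_lit 4) (nat_lit 530) (nat_lit 339) (nat_lit 331)))) (XT.nd (nat_lit 78) (nat_lit 0) (nat_lit 0) (XT.lf (nat_lit 0) (nat_lit 9913952350404) (nat_lit 76) (nat_lit 1145333102293) (nat_lit 76) (nat_lit 1145301951023) (nat_lit 1) (nat_lit 4) (nat_lit 2) (nat_lit 5) (nat_lit 2) (nat_lit 4) (nat_lit 531) (nat_lit 339) (nat_lit 330)) (XT.nd (nat_lit 78) (nat_lit 0) (nat_lit 0) (XT.lf (nat_lit 0) (nat_lit 10708592862359) (nat_lit 76) (nat_lit 1236167993638) (nat_lit 76) (nat_lit 1236134532567) (nat_lit 1) (nat_lit 4) (nat_lit 2) (nat_lit 5) (nat_lit 2) (nat_lit 4) (nat_lit 532) (nat_lit 339) (nat_lit 329)) (XT.lf (nat_lit 0) (nat_lit 11566749209998) (nat_lit 76) (nat_lit 1334298273371) (nat_lit 76) (nat_lit 1334262673596) (nat_lit 1) (nat_lit 4) (nat_lit 2) (nat_lit 5) (nat_lit 2) (nat_lit 4) (nat_lit 533) (nat_lit 339) (nat_lit 328))))) (XT.nd (nat_lit 234) (nat_lit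 0) (nat_lit 0) (XT.nd (nat_lit 78) (nat_lit 0) (nat_lit 0) (XT.lf (nat_lit 0) (nat_lit 12493506764270) (nat_lit 76) (nat_lit 1440305454262) (nat_lit 76) (nat_lit 1440267874205) (nat_lit 1) (nat_lit 4) (nat_lit 2) (nat_lit 5) (nat_lit 2) (nat_lit 4) (nat_lit 534) (nat_lit 339) (nat_lit 327)) (XT.nd (nat_lit 78) (nat_lit 0) (nat_lit 0) (XT.lf (nat_lit 0) (nat_lit 13494357421791) (nat_lit 76) (nat_lit 1554817727012) (nat_lit 76) (nat_lit 1554778313361) (nat_lit 1) (nat_lit 4) (nat_lit 2) (nat_lit 5) (nat_lit 2) (nat_lit 4) (nat_lit 535) (nat_lit 339) (nat_lit 326)) (XT.lf (nat_lit 0) (nat_lit 14575232149422) (nat_lit 76) (nat_lit 1678513682868) (nat_lit 76) (nat_lit 1678472571444) (nat_lit 1) (nat_lit 4) (nat_lit 2) (nat_lit 5) (nat_lit 2) (nat_lit 4) (nat_lit 536) (nat_lit 339) (nat_lit 325)))) (XT.nd (nat_lit 61230) (nat_lit 0) (nat_lit 0) (XT.nd (nat_lit 61152) (nat_lit 0) (nat_lit 0) (XT.lf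 (nat_lit 0) (nat_lit 15742536130734) (nat_lit 76) (nat_lit 1812126334900) (nat_lit 76) (nat_lit 1812083651465) (nat_lit 1) (nat_lit 4) (nat_lit 2) (nat_lit 5) (nat_lit 2) (nat_lit 4) (nat_lit 537) (nat_lit 339) (nat_lit 324)) (XT.lf (nat_lit 0) (nat_lit 2118603412929) (nat_lit 76) (nat_lit 249425309024) (nat_lit 76) (nat_lit 249425309024) (nat_lit 1) (nat_lit 4) (nat_lit 2) (nat_lit 5) (nat_lit 2) (nat_lit 4) (nat_lit 520) (nat_lit 340) (nat_lit 340))) (XT.nd (nat_lit 78) (nat_lit 0) (nat_lit 0) (XT.lf (nat_lit 0) (nat_lit 4578636646575) (nat_lit 76) (nat_lit 537487039677) (nat_lit 76) (nat_lit 537482052990) (nat_lit 1) (nat_lit 4) (nat_lit 2) (nat_lit 5) (nat_lit 2) (nat_lit 4) (nat_lit 521) (nat_lit 340) (nat_lit 339)) (XT.lf (nat_lit 0) (nat_lit 4947261237120) (nat_lit 76) (nat_lit 579276113989) (nat_lit 76) (nat_lit 579266510001) (nat_lit 1) (nat_lit 4) (nat_lit 2) (nat_lit 5) (nat_lit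 2) (nat_lit 4) (nat_lit 522) (nat_lit 340) (nat_lit 338))))))) (XT.nd (nat_lit 936) (nat_lit 0) (nat_lit 0) (XT.nd (nat_lit 468) (nat_lit 0) (nat_lit 0) (XT.nd (nat_lit 234) (nat_lit 0) (nat_lit 0) (XT.nd (nat_lit 78) (nat_lit 0) (nat_lit 0) (XT.lf (nat_lit 0) (nat_lit 5345265039511) (nat_lit 76) (nat_lit 624465479945) (nat_lit 76) (nat_lit 624451600676) (nat_lit 1) (nat_lit 4) (nat_lit 2) (nat_lit 5) (nat_lit 2) (nat_lit 4) (nat_lit 523) (nat_lit 340) (nat_lit 337)) (XT.nd (nat_lit 78) (nat_lit 0) (nat_lit 0) (XT.lf (nat_lit 0) (nat_lit 5775006594799) (nat_lit 76) (nat_lit 673322926378) (nat_lit 76) (nat_lit 673305088518) (nat_lit 1) (nat_lit 4) (nat_lit 2) (nat_lit 5) (nat_lit 2) (nat_lit 4) (nat_lit 524) (nat_lit 340) (nat_lit 336)) (XT.lf (nat_lit 0) (nat_lit 6239032519609) (nat_lit 76) (nat_lit 726137978898) (nat_lit 76) (nat_lit 726116475675) (nat_lit 1) (nat_lit 4) (nat_lit 2) (nat_lit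 5) (nat_lit 2) (nat_lit 4) (nat_lit 525) (nat_lit 340) (nat_lit 335)))) (XT.nd (nat_lit 78) (nat_lit 0) (nat_lit 0) (XT.lf (nat_lit 0) (nat_lit 6740092597199) (nat_lit 76) (nat_lit 783223615594) (nat_lit 76) (nat_lit 783198718516) (nat_lit 1) (nat_lit 4) (nat_lit 2) (nat_lit 5) (nat_lit 2) (nat_lit 4) (nat_lit 526) (nat_lit 340) (nat_lit 334)) (XT.nd (nat_lit 78) (nat_lit 0) (nat_lit 0) (XT.lf (nat_lit 0) (nat_lit 7281156072472) (nat_lit 76) (nat_lit 844918121720) (nat_lit 76) (nat_lit 844890082183) (nat_lit 1) (nat_lit 4) (nat_lit 2) (nat_lit 5) (nat_lit 2) (nat_lit 4) (nat_lit 527) (nat_lit 340) (nat_lit 333)) (XT.lf (nat_lit 0) (nat_lit 7865429247505) (nat_lit 76) (nat_lit 911587094350) (nat_lit 76) (nat_lit 911556145129) (nat_lit 1) (nat_lit 4) (nat_lit 2) (nat_lit 5) (nat_lit 2) (nat_lit 4) (nat_lit 528) (nat_lit 340) (nat_lit 332))))) (XT.nd (nat_lit 234) (nat_lit 0) (nat_lit 0) (XT.nd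 (nat_lit 78) (nat_lit 0) (nat_lit 0) (XT.lf (nat_lit 0) (nat_lit 8496374481853) (nat_lit 76) (nat_lit 983625608876) (nat_lit 76) (nat_lit 983591965504) (nat_lit 1) (nat_lit 4) (nat_lit 2) (nat_lit 5) (nat_lit 2) (nat_lit 4) (nat_lit 529) (nat_lit 340) (nat_lit 331)) (XT.nd (nat_lit 78) (nat_lit 0) (nat_lit 0) (XT.lf (nat_lit 0) (nat_lit 9177730710238) (nat_lit 76) (nat_lit 1061460560200) (nat_lit 76) (nat_lit 1061424422244) (nat_lit 1) (nat_lit 4) (nat_lit 2) (nat_lit 5) (nat_lit 2) (nat_lit 4) (nat_lit 530) (nat_lit 340) (nat_lit 330)) (XT.lf (nat_lit 0) (nat_lit 9913535599199) (nat_lit 76) (nat_lit 1145553192478) (nat_lit 76) (nat_lit 1145514744721) (nat_lit 1) (nat_lit 4) (nat_lit 2) (nat_lit 5) (nat_lit 2) (nat_lit 4) (nat_lit 531) (nat_lit 340) (nat_lit 329)))) (XT.nd (nat_lit 78) (nat_lit 0) (nat_lit 0) (XT.lf (nat_lit 0) (nat_lit 10708149474004) (nat_lit 76) (nat_lit 1236401832419)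 (nat_lit 76) (nat_lit 1236361245958) (nat_lit 1) (nat_lit 4) (nat_lit 2) (nat_lit 5) (nat_lit 2) (nat_lit 4) (nat_lit 532) (nat_lit 340) (nat_lit 328)) (XT.nd (nat_lit 78) (nat_lit 0) (nat_lit 0) (XT.lf (nat_lit 0) (nat_lit 11566281157615) (nat_lit 76) (nat_lit 1334544842335) (nat_lit 76) (nat_lit 1334502275592) (nat_lit 1) (nat_lit 4) (nat_lit 2) (nat_lit 5) (nat_lit 2) (nat_lit 4) (nat_lit 533) (nat_lit 340) (nat_lit 327)) (XT.lf (nat_lit 0) (nat_lit 12493015874823) (nat_lit 76) (nat_lit 1440563810432) (nat_lit 76) (nat_lit 1440519410094) (nat_lit 1) (nat_lit 4) (nat_lit 2) (nat_lit 5) (nat_lit 2) (nat_lit 4) (nat_lit 534) (nat_lit 340) (nat_lit 326)))))) (XT.nd (nat_lit 61386) (nat_lit 0) (nat_lit 0) (XT.nd (nat_lit 61152) (nat_lit 0) (nat_lit 0) (XT.nd (nat_lit 78) (nat_lit 0) (nat_lit 0) (XT.lf (nat_lit 0) (nat_lit 13493845386916) (nat_lit 76) (nat_lit 1555086997261) (nat_lit 76) (nat_lit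 1555040899151) (nat_lit 1) (nat_lit 4) (nat_lit 2) (nat_lit 5) (nat_lit 2) (nat_lit 4) (nat_lit 535) (nat_lit 340) (nat_lit 325)) (XT.nd (nat_lit 78) (nat_lit 0) (nat_lit 0) (XT.lf (nat_lit 0) (nat_lit 14574700535446) (nat_lit 76) (nat_lit 1678793058746) (nat_lit 76) (nat_lit 1678745388624) (nat_lit 1) (nat_lit 4) (nat_lit 2) (nat_lit 5) (nat_lit 2) (nat_lit 4) (nat_lit 536) (nat_lit 340) (nat_lit 324)) (XT.lf (nat_lit 0) (nat_lit 15741986387961) (nat_lit 76) (nat_lit 1812415067842) (nat_lit 76) (nat_lit 1812365942155) (nat_lit 1) (nat_lit 4) (nat_lit 2) (nat_lit 5) (nat_lit 2) (nat_lit 4) (nat_lit 537) (nat_lit 340) (nat_lit 323)))) (XT.nd (nat_lit 78) (nat_lit 0) (nat_lit 0) (XT.lf (nat_lit 0) (nat_lit 1814027291910) (nat_lit 76) (nat_lit 215053998237) (nat_lit 76) (nat_lit 215053998237) (nat_lit 1) (nat_lit 4) (nat_lit 2) (nat_lit 5) (nat_lit 2) (nat_lit 4) (nat_lit 518) (nat_lit 341)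 (nat_lit 341)) (XT.nd (nat_lit 78) (nat_lit 0) (nat_lit 0) (XT.lf (nat_lit 0) (nat_lit 3920948487145) (nat_lit 76) (nat_lit 463143278152) (nat_lit 76) (nat_lit 463137892531) (nat_lit 1) (nat_lit 4) (nat_lit 2) (nat_lit 5) (nat_lit 2) (nat_lit 4) (nat_lit 519) (nat_lit 341) (nat_lit 340)) (XT.lf (nat_lit 0) (nat_lit 4237144717640) (nat_lit 76) (nat_lit 498888060434) (nat_lit 76) (nat_lit 498877688126) (nat_lit 1) (nat_lit 4) (nat_lit 2) (nat_lit 5) (nat_lit 2) (nat_lit 4) (nat_lit 520) (nat_lit 341) (nat_lit 339))))) (XT.nd (nat_lit 234) (nat_lit 0) (nat_lit 0) (XT.nd (nat_lit 78) (nat_lit 0) (nat_lit 0) (XT.lf (nat_lit 0) (nat_lit 4578517030746) (nat_lit 76) (nat_lit 537554164252) (nat_lit 76) (nat_lit 537539174642) (nat_lit 1) (nat_lit 4) (nat_lit 2) (nat_lit 5) (nat_lit 2) (nat_lit 4) (nat_lit 521) (nat_lit 341) (nat_lit 338)) (XT.nd (nat_lit 78) (nat_lit 0) (nat_lit 0) (XT.lf (nat_lit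 0) (nat_lit 4947088373504) (nat_lit 76) (nat_lit 579370722073) (nat_lit 76) (nat_lit 579351457183) (nat_lit 1) (nat_lit 4) (nat_lit 2) (nat_lit 5) (nat_lit 2) (nat_lit 4) (nat_lit 522) (nat_lit 341) (nat_lit 337)) (XT.lf (nat_lit 0) (nat_lit 5345042872388) (nat_lit 76) (nat_lit 624585535721) (nat_lit 76) (nat_lit 624562312240) (nat_lit 1) (nat_lit 4) (nat_lit 2) (nat_lit 5) (nat_lit 2) (nat_lit 4) (nat_lit 523) (nat_lit 341) (nat_lit 336)))) (XT.nd (nat_lit 156) (nat_lit 0) (nat_lit 0) (XT.nd (nat_lit 78) (nat_lit 0) (nat_lit 0) (XT.lf (nat_lit 0) (nat_lit 5774738776282) (nat_lit 76) (nat_lit 673466544834) (nat_lit 76) (nat_lit 673439655989) (nat_lit 1) (nat_lit 4) (nat_lit 2) (nat_lit 5) (nat_lit 2) (nat_lit 4) (nat_lit 524) (nat_lit 341) (nat_lit 335)) (XT.lf (nat_lit 0) (nat_lit 6238722431281) (nat_lit 76) (nat_lit 726303414649) (nat_lit 76) (nat_lit 726273131949) (nat_lit 1) (nat_lit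 4) (nat_lit 2) (nat_lit 5) (nat_lit 2) (nat_lit 4) (nat_lit 525) (nat_lit 341) (nat_lit 334))) (XT.nd (nat_lit 78) (nat_lit 0) (nat_lit 0) (XT.lf (nat_lit 0) (nat_lit 6739743370158) (nat_lit 76) (nat_lit 783409252544) (nat_lit 76) (nat_lit 783375827386) (nat_lit 1) (nat_lit 4) (nat_lit 2) (nat_lit 5) (nat_lit 2) (nat_lit 4) (nat_lit 526) (nat_lit 341) (nat_lit 333)) (XT.lf (nat_lit 0) (nat_lit 7280770605882) (nat_lit 76) (nat_lit 845122463484) (nat_lit 76) (nat_lit 845086128643) (nat_lit 1) (nat_lit 4) (nat_lit 2) (nat_lit 5) (nat_lit 2) (nat_lit 4) (nat_lit 527) (nat_lit 341) (nat_lit 332))))))))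
noncomputable def xc2 : XT := (XT.nd (nat_lit 62712) (nat_lit 0) (nat_lit 0) (XT.nd (nat_lit 61698) (nat_lit 0) (nat_lit 0) (XT.nd (nat_lit 468) (nat_lit 0) (nat_lit 0) (XT.nd (nat_lit 234) (nat_lit 0) (nat_lit 0) (XT.nd (nat_lit 78) (nat_lit 0) (nat_lit 0) (XT.lf (nat_lit 0) (nat_lit 7865010225776) (nat_lit 76) (nat_lit 911808755386) (nat_lit 76) (nat_lit 911769726393) (nat_lit 1) (nat_lit 4) (nat_lit 2) (nat_lit 5) (nat_lit 2) (nat_lit 4) (nat_lit 528) (nat_lit 341) (nat_lit 331)) (XT.nd (nat_lit 78) (nat_lit 0) (nat_lit 0) (XT.lf (nat_lit 0) (nat_lit 8495924390552) (nat_lit 76) (nat_lit 983863306276) (nat_lit 76) (nat_lit 983821782698) (nat_lit 1) (nat_lit 4) (nat_lit 2) (nat_lit 5) (nat_lit 2) (nat_lit 4) (nat_lit 529) (nat_lit 341) (nat_lit 330)) (XT.lf (nat_lit 0) (nat_lit 9177251850815) (nat_lit 76) (nat_lit 1061713106084) (nat_lit 76) (nat_lit 1061669272706) (nat_lit 1) (nat_lit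 4) (nat_lit 2) (nat_lit 5) (nat_lit 2) (nat_lit 4) (nat_lit 530) (nat_lit 341) (nat_lit 329)))) (XT.nd (nat_lit 78) (nat_lit 0) (nat_lit 0) (XT.lf (nat_lit 0) (nat_lit 9913030102625) (nat_lit 76) (nat_lit 1145819486959) (nat_lit 76) (nat_lit 1145773514876) (nat_lit 1) (nat_lit 4) (nat_lit 2) (nat_lit 5) (nat_lit 2) (nat_lit 4) (nat_lit 531) (nat_lit 341) (nat_lit 328)) (XT.nd (nat_lit 78) (nat_lit 0) (nat_lit 0) (XT.lf (nat_lit 0) (nat_lit 10707619313402) (nat_lit 76) (nat_lit 1236680857082) (nat_lit 76) (nat_lit 1236632904718) (nat_lit 1) (nat_lit 4) (nat_lit 2) (nat_lit 5) (nat_lit 2) (nat_lit 4) (nat_lit 532) (nat_lit 341) (nat_lit 327)) (XT.lf (nat_lit 0) (nat_lit 11565728159950) (nat_lit 76) (nat_lit 1334835654204) (nat_lit 76) (nat_lit 1334785868245) (nat_lit 1) (nat_lit 4) (nat_lit 2) (nat_lit 5) (nat_lit 2) (nat_lit 4) (nat_lit 533) (nat_lit 341) (nat_lit 326))))) (XT.nd (nat_lit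 234) (nat_lit 0) (nat_lit 0) (XT.nd (nat_lit 78) (nat_lit 0) (nat_lit 0) (XT.lf (nat_lit 0) (nat_lit 12492441731729) (nat_lit 76) (nat_lit 1440865536380) (nat_lit 76) (nat_lit 1440814052649) (nat_lit 1) (nat_lit 4) (nat_lit 2) (nat_lit 5) (nat_lit 2) (nat_lit 4) (nat_lit 534) (nat_lit 341) (nat_lit 325)) (XT.nd (nat_lit 78) (nat_lit 0) (nat_lit 0) (XT.lf (nat_lit 0) (nat_lit 13493251664721) (nat_lit 76) (nat_lit 1555398828839) (nat_lit 76) (nat_lit 1555345773096) (nat_lit 1) (nat_lit 4) (nat_lit 2) (nat_lit 5) (nat_lit 2) (nat_lit 4) (nat_lit 535) (nat_lit 341) (nat_lit 324)) (XT.lf (nat_lit 0) (nat_lit 14574088684454) (nat_lit 76) (nat_lit 1679114247387) (nat_lit 76) (nat_lit 1679059736078) (nat_lit 1) (nat_lit 4) (nat_lit 2) (nat_lit 5) (nat_lit 2) (nat_lit 4) (nat_lit 536) (nat_lit 341) (nat_lit 323)))) (XT.nd (nat_lit 60840) (nat_lit 0) (nat_lit 0) (XT.lf (nat_lit 0) (nat_lit 15741357751045)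 (nat_lit 76) (nat_lit 1812744920431) (nat_lit 76) (nat_lit 1812689061376) (nat_lit 1) (nat_lit 4) (nat_lit 2) (nat_lit 5) (nat_lit 2) (nat_lit 4) (nat_lit 537) (nat_lit 341) (nat_lit 322)) (XT.nd (nat_lit 78) (nat_lit 0) (nat_lit 0) (XT.lf (nat_lit 0) (nat_lit 1552715666917) (nat_lit 76) (nat_lit 185683099038) (nat_lit 76) (nat_lit 185683099038) (nat_lit 1) (nat_lit 4) (nat_lit 2) (nat_lit 5) (nat_lit 2) (nat_lit 4) (nat_lit 516) (nat_lit 342) (nat_lit 342)) (XT.lf (nat_lit 0) (nat_lit 3356727340090) (nat_lit 76) (nat_lit 399592267240) (nat_lit 76) (nat_lit 399586450769) (nat_lit 1) (nat_lit 4) (nat_lit 2) (nat_lit 5) (nat_lit 2) (nat_lit 4) (nat_lit 517) (nat_lit 342) (nat_lit 341)))))) (XT.nd (nat_lit 468) (nat_lit 0) (nat_lit 0) (XT.nd (nat_lit 234) (nat_lit 0) (nat_lit 0) (XT.nd (nat_lit 78) (nat_lit 0) (nat_lit 0) (XT.lf (nat_lit 0) (nat_lit 3627987506943) (nat_lit 76) (nat_lit 430148434251)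 (nat_lit 76) (nat_lit 430137232159) (nat_lit 1) (nat_lit 4) (nat_lit 2) (nat_lit 5) (nat_lit 2) (nat_lit 4) (nat_lit 518) (nat_lit 342) (nat_lit 340)) (XT.nd (nat_lit 78) (nat_lit 0) (nat_lit 0) (XT.lf (nat_lit 0) (nat_lit 3920819302049) (nat_lit 76) (nat_lit 463215772693) (nat_lit 76) (nat_lit 463199583914) (nat_lit 1) (nat_lit 4) (nat_lit 2) (nat_lit 5) (nat_lit 2) (nat_lit 4) (nat_lit 519) (nat_lit 342) (nat_lit 339)) (XT.lf (nat_lit 0) (nat_lit 4236958024935) (nat_lit 76) (nat_lit 498990237164) (nat_lit 76) (nat_lit 498969431083) (nat_lit 1) (nat_lit 4) (nat_lit 2) (nat_lit 5) (nat_lit 2) (nat_lit 4) (nat_lit 520) (nat_lit 342) (nat_lit 338)))) (XT.nd (nat_lit 78) (nat_lit 0) (nat_lit 0) (XT.lf (nat_lit 0) (nat_lit 4578277090254) (nat_lit 76) (nat_lit 537683824490) (nat_lit 76) (nat_lit 537658743130) (nat_lit 1) (nat_lit 4) (nat_lit 2) (nat_lit 5) (nat_lit 2) (nat_lit 4) (nat_lit 521)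 (nat_lit 342) (nat_lit 337)) (XT.nd (nat_lit 78) (nat_lit 0) (nat_lit 0) (XT.lf (nat_lit 0) (nat_lit 4946799129505) (nat_lit 76) (nat_lit 579525830005) (nat_lit 76) (nat_lit 579496790052) (nat_lit 1) (nat_lit 4) (nat_lit 2) (nat_lit 5) (nat_lit 2) (nat_lit 4) (nat_lit 522) (nat_lit 342) (nat_lit 336)) (XT.lf (nat_lit 0) (nat_lit 5344707976994) (nat_lit 76) (nat_lit 624764206332) (nat_lit 76) (nat_lit 624731501016) (nat_lit 1) (nat_lit 4) (nat_lit 2) (nat_lit 5) (nat_lit 2) (nat_lit 4) (nat_lit 523) (nat_lit 342) (nat_lit 335))))) (XT.nd (nat_lit 234) (nat_lit 0) (nat_lit 0) (XT.nd (nat_lit 78) (nat_lit 0) (nat_lit 0) (XT.lf (nat_lit 0) (nat_lit 5774361611077) (nat_lit 76) (nat_lit 673667032739) (nat_lit 76) (nat_lit 673630933569) (nat_lit 1) (nat_lit 4) (nat_lit 2) (nat_lit 5) (nat_lit 2) (nat_lit 4) (nat_lit 524) (nat_lit 342) (nat_lit 334)) (XT.nd (nat_lit 78) (nat_lit 0) (nat_lit 0)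 (XT.lf (nat_lit 0) (nat_lit 6238306127364) (nat_lit 76) (nat_lit 726524103754) (nat_lit 76) (nat_lit 726484862125) (nat_lit 1) (nat_lit 4) (nat_lit 2) (nat_lit 5) (nat_lit 2) (nat_lit 4) (nat_lit 525) (nat_lit 342) (nat_lit 333)) (XT.lf (nat_lit 0) (nat_lit 6739290826691) (nat_lit 76) (nat_lit 783648646463) (nat_lit 76) (nat_lit 783606495151) (nat_lit 1) (nat_lit 4) (nat_lit 2) (nat_lit 5) (nat_lit 2) (nat_lit 4) (nat_lit 526) (nat_lit 342) (nat_lit 332)))) (XT.nd (nat_lit 156) (nat_lit 0) (nat_lit 0) (XT.nd (nat_lit 78) (nat_lit 0) (nat_lit 0) (XT.lf (nat_lit 0) (nat_lit 7280284507277) (nat_lit 76) (nat_lit 845379176676) (nat_lit 76) (nat_lit 845334331212) (nat_lit 1) (nat_lit 4) (nat_lit 2) (nat_lit 5) (nat_lit 2) (nat_lit 4) (nat_lit 527) (nat_lit 342) (nat_lit 331)) (XT.lf (nat_lit 0) (nat_lit 7864493057599) (nat_lit 76) (nat_lit 912081504941) (nat_lit 76) (nat_lit 912034164892) (nat_lit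 1) (nat_lit 4) (nat_lit 2) (nat_lit 5) (nat_lit 2) (nat_lit 4) (nat_lit 528) (nat_lit 342) (nat_lit 330))) (XT.nd (nat_lit 78) (nat_lit 0) (nat_lit 0) (XT.lf (nat_lit 0) (nat_lit 8495378454252) (nat_lit 76) (nat_lit 984150904315) (nat_lit 76) (nat_lit 984101254466) (nat_lit 1) (nat_lit 4) (nat_lit 2) (nat_lit 5) (nat_lit 2) (nat_lit 4) (nat_lit 529) (nat_lit 342) (nat_lit 329)) (XT.lf (nat_lit 0) (nat_lit 9176679277364) (nat_lit 76) (nat_lit 1062014452720) (nat_lit 76) (nat_lit 1061962664167) (nat_lit 1) (nat_lit 4) (nat_lit 2) (nat_lit 5) (nat_lit 2) (nat_lit 4) (nat_lit 530) (nat_lit 342) (nat_lit 328))))))) (XT.nd (nat_lit 61542) (nat_lit 0) (nat_lit 0) (XT.nd (nat_lit 468) (nat_lit 0) (nat_lit 0) (XT.nd (nat_lit 234) (nat_lit 0) (nat_lit 0) (XT.nd (nat_lit 78) (nat_lit 0) (nat_lit 0) (XT.lf (nat_lit 0) (nat_lit 9912432865147) (nat_lit 76) (nat_lit 1146133563777) (nat_lit 76) (nat_lit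 1146079794942) (nat_lit 1) (nat_lit 4) (nat_lit 2) (nat_lit 5) (nat_lit 2) (nat_lit 4) (nat_lit 531) (nat_lit 342) (nat_lit 327)) (XT.nd (nat_lit 78) (nat_lit 0) (nat_lit 0) (XT.lf (nat_lit 0) (nat_lit 10706999238860) (nat_lit 76) (nat_lit 1237006721107) (nat_lit 76) (nat_lit 1236951118677) (nat_lit 1) (nat_lit 4) (nat_lit 2) (nat_lit 5) (nat_lit 2) (nat_lit 4) (nat_lit 532) (nat_lit 342) (nat_lit 326)) (XT.lf (nat_lit 0) (nat_lit 11565086939979) (nat_lit 76) (nat_lit 1335172432307) (nat_lit 76) (nat_lit 1335115132105) (nat_lit 1) (nat_lit 4) (nat_lit 2) (nat_lit 5) (nat_lit 2) (nat_lit 4) (nat_lit 533) (nat_lit 342) (nat_lit 325)))) (XT.nd (nat_lit 78) (nat_lit 0) (nat_lit 0) (XT.lf (nat_lit 0) (nat_lit 12491780932657) (nat_lit 76) (nat_lit 1441212420112) (nat_lit 76) (nat_lit 1441153547899) (nat_lit 1) (nat_lit 4) (nat_lit 2) (nat_lit 5) (nat_lit 2) (nat_lit 4) (nat_lit 534) (nat_lit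 342) (nat_lit 324)) (XT.nd (nat_lit 78) (nat_lit 0) (nat_lit 0) (XT.lf (nat_lit 0) (nat_lit 13492572736852) (nat_lit 76) (nat_lit 1555755069635) (nat_lit 76) (nat_lit 1555694741856) (nat_lit 1) (nat_lit 4) (nat_lit 2) (nat_lit 5) (nat_lit 2) (nat_lit 4) (nat_lit 535) (nat_lit 342) (nat_lit 323)) (XT.lf (nat_lit 0) (nat_lit 14573392970662) (nat_lit 76) (nat_lit 1679479152132) (nat_lit 76) (nat_lit 1679417476606) (nat_lit 1) (nat_lit 4) (nat_lit 2) (nat_lit 5) (nat_lit 2) (nat_lit 4) (nat_lit 536) (nat_lit 342) (nat_lit 322))))) (XT.nd (nat_lit 60840) (nat_lit 0) (nat_lit 0) (XT.nd (nat_lit 60684) (nat_lit 0) (nat_lit 0) (XT.lf (nat_lit 0) (nat_lit 15740646494732) (nat_lit 76) (nat_lit 1813117847350) (nat_lit 76) (nat_lit 1813054923911) (nat_lit 1) (nat_lit 4) (nat_lit 2) (nat_lit 5) (nat_lit 2) (nat_lit 4) (nat_lit 537) (nat_lit 342) (nat_lit 321)) (XT.nd (nat_lit 78) (nat_lit 0) (nat_lit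 0) (XT.lf (nat_lit 0) (nat_lit 1328481438493) (nat_lit 76) (nat_lit 160607003599) (nat_lit 76) (nat_lit 160607003599) (nat_lit 1) (nat_lit 4) (nat_lit 2) (nat_lit 5) (nat_lit 2) (nat_lit 4) (nat_lit 514) (nat_lit 343) (nat_lit 343)) (XT.lf (nat_lit 0) (nat_lit 2872610326657) (nat_lit 76) (nat_lit 345309242957) (nat_lit 76) (nat_lit 345302961168) (nat_lit 1) (nat_lit 4) (nat_lit 2) (nat_lit 5) (nat_lit 2) (nat_lit 4) (nat_lit 515) (nat_lit 343) (nat_lit 342)))) (XT.nd (nat_lit 78) (nat_lit 0) (nat_lit 0) (XT.lf (nat_lit 0) (nat_lit 3105358890808) (nat_lit 76) (nat_lit 371409870876) (nat_lit 76) (nat_lit 371397772616) (nat_lit 1) (nat_lit 4) (nat_lit 2) (nat_lit 5) (nat_lit 2) (nat_lit 4) (nat_lit 516) (nat_lit 343) (nat_lit 341)) (XT.nd (nat_lit 78) (nat_lit 0) (nat_lit 0) (XT.lf (nat_lit 0) (nat_lit 3356587820187) (nat_lit 76) (nat_lit 399670561344) (nat_lit 76) (nat_lit 399653077463) (nat_lit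 1) (nat_lit 4) (nat_lit 2) (nat_lit 5) (nat_lit 2) (nat_lit 4) (nat_lit 517) (nat_lit 343) (nat_lit 340)) (XT.lf (nat_lit 0) (nat_lit 3627785878821) (nat_lit 76) (nat_lit 430258785119) (nat_lit 76) (nat_lit 430236314553) (nat_lit 1) (nat_lit 4) (nat_lit 2) (nat_lit 5) (nat_lit 2) (nat_lit 4) (nat_lit 518) (nat_lit 343) (nat_lit 339)))))) (XT.nd (nat_lit 468) (nat_lit 0) (nat_lit 0) (XT.nd (nat_lit 234) (nat_lit 0) (nat_lit 0) (XT.nd (nat_lit 78) (nat_lit 0) (nat_lit 0) (XT.lf (nat_lit 0) (nat_lit 3920560166317) (nat_lit 76) (nat_lit 463355805751) (nat_lit 76) (nat_lit 463328717882) (nat_lit 1) (nat_lit 4) (nat_lit 2) (nat_lit 5) (nat_lit 2) (nat_lit 4) (nat_lit 519) (nat_lit 343) (nat_lit 338)) (XT.nd (nat_lit 78) (nat_lit 0) (nat_lit 0) (XT.lf (nat_lit 0) (nat_lit 4236645641416) (nat_lit 76) (nat_lit 499157753730) (nat_lit 76) (nat_lit 499126390581) (nat_lit 1) (nat_lit 4) (nat_lit 2)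 (nat_lit 5) (nat_lit 2) (nat_lit 4) (nat_lit 520) (nat_lit 343) (nat_lit 337)) (XT.lf (nat_lit 0) (nat_lit 4577915403228) (nat_lit 76) (nat_lit 537876788750) (nat_lit 76) (nat_lit 537841467009) (nat_lit 1) (nat_lit 4) (nat_lit 2) (nat_lit 5) (nat_lit 2) (nat_lit 4) (nat_lit 521) (nat_lit 343) (nat_lit 336)))) (XT.nd (nat_lit 78) (nat_lit 0) (nat_lit 0) (XT.lf (nat_lit 0) (nat_lit 4946391791084) (nat_lit 76) (nat_lit 579742356943) (nat_lit 76) (nat_lit 579703369838) (nat_lit 1) (nat_lit 4) (nat_lit 2) (nat_lit 5) (nat_lit 2) (nat_lit 4) (nat_lit 522) (nat_lit 343) (nat_lit 335)) (XT.nd (nat_lit 78) (nat_lit 0) (nat_lit 0) (XT.lf (nat_lit 0) (nat_lit 5344258368763) (nat_lit 76) (nat_lit 625002550565) (nat_lit 76) (nat_lit 624960169606) (nat_lit 1) (nat_lit 4) (nat_lit 2) (nat_lit 5) (nat_lit 2) (nat_lit 4) (nat_lit 523) (nat_lit 343) (nat_lit 334)) (XT.lf (nat_lit 0) (nat_lit 5773872864133)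 (nat_lit 76) (nat_lit 673925578172) (nat_lit 76) (nat_lit 673880054755) (nat_lit 1) (nat_lit 4) (nat_lit 2) (nat_lit 5) (nat_lit 2) (nat_lit 4) (nat_lit 524) (nat_lit 343) (nat_lit 333))))) (XT.nd (nat_lit 234) (nat_lit 0) (nat_lit 0) (XT.nd (nat_lit 78) (nat_lit 0) (nat_lit 0) (XT.lf (nat_lit 0) (nat_lit 6237781140870) (nat_lit 76) (nat_lit 726801354001) (nat_lit 76) (nat_lit 726752920900) (nat_lit 1) (nat_lit 4) (nat_lit 2) (nat_lit 5) (nat_lit 2) (nat_lit 4) (nat_lit 525) (nat_lit 343) (nat_lit 332)) (XT.nd (nat_lit 78) (nat_lit 0) (nat_lit 0) (XT.lf (nat_lit 0) (nat_lit 6738732285059) (nat_lit 76) (nat_lit 783943215983) (nat_lit 76) (nat_lit 783892088730) (nat_lit 1) (nat_lit 4) (nat_lit 2) (nat_lit 5) (nat_lit 2) (nat_lit 4) (nat_lit 526) (nat_lit 343) (nat_lit 331)) (XT.lf (nat_lit 0) (nat_lit 7279694896073) (nat_lit 76) (nat_lit 845689782558) (nat_lit 76) (nat_lit 845636160721) (nat_lit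 1) (nat_lit 4) (nat_lit 2) (nat_lit 5) (nat_lit 2) (nat_lit 4) (nat_lit 527) (nat_lit 343) (nat_lit 330)))) (XT.nd (nat_lit 156) (nat_lit 0) (nat_lit 0) (XT.nd (nat_lit 78) (nat_lit 0) (nat_lit 0) (XT.lf (nat_lit 0) (nat_lit 7863874678272) (nat_lit 76) (nat_lit 912406959308) (nat_lit 76) (nat_lit 912351027670) (nat_lit 1) (nat_lit 4) (nat_lit 2) (nat_lit 5) (nat_lit 2) (nat_lit 4) (nat_lit 528) (nat_lit 343) (nat_lit 329)) (XT.lf (nat_lit 0) (nat_lit 8494733437775) (nat_lit 76) (nat_lit 984490107279) (nat_lit 76) (nat_lit 984432036937) (nat_lit 1) (nat_lit 4) (nat_lit 2) (nat_lit 5) (nat_lit 2) (nat_lit 4) (nat_lit 529) (nat_lit 343) (nat_lit 328))) (XT.nd (nat_lit 78) (nat_lit 0) (nat_lit 0) (XT.lf (nat_lit 0) (nat_lit 9176009596859) (nat_lit 76) (nat_lit 1062366385867) (nat_lit 76) (nat_lit 1062306335243) (nat_lit 1) (nat_lit 4) (nat_lit 2) (nat_lit 5) (nat_lit 2) (nat_lit 4) (nat_lit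 530) (nat_lit 343) (nat_lit 327)) (XT.lf (nat_lit 0) (nat_lit 9911740347578) (nat_lit 76) (nat_lit 1146497284129) (nat_lit 76) (nat_lit 1146435399911) (nat_lit 1) (nat_lit 4) (nat_lit 2) (nat_lit 5) (nat_lit 2) (nat_lit 4) (nat_lit 531) (nat_lit 343) (nat_lit 326))))))))
noncomputable def xc3 : XT := (XT.nd (nat_lit 62400) (nat_lit 0) (nat_lit 0) (XT.nd (nat_lit 61386) (nat_lit 0) (nat_lit 0) (XT.nd (nat_lit 60918) (nat_lit 0) (nat_lit 0) (XT.nd (nat_lit 234) (nat_lit 0) (nat_lit 0) (XT.nd (nat_lit 78) (nat_lit 0) (nat_lit 0) (XT.lf (nat_lit 0) (nat_lit 10706285575863) (nat_lit 76) (nat_lit 1237381355538) (nat_lit 76) (nat_lit 1237317773547) (nat_lit 1) (nat_lit 4) (nat_lit 2) (nat_lit 5) (nat_lit 2) (nat_lit 4) (nat_lit 532) (nat_lit 343) (nat_lit 325)) (XT.nd (nat_lit 78) (nat_lit 0) (nat_lit 0) (XT.lf (nat_lit 0) (nat_lit 11564353697881) (nat_lit 76) (nat_lit 1335557172367) (nat_lit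 76) (nat_lit 1335492018365) (nat_lit 1) (nat_lit 4) (nat_lit 2) (nat_lit 5) (nat_lit 2) (nat_lit 4) (nat_lit 533) (nat_lit 343) (nat_lit 324)) (XT.lf (nat_lit 0) (nat_lit 12491029561762) (nat_lit 76) (nat_lit 1441606517237) (nat_lit 76) (nat_lit 1441539907669) (nat_lit 1) (nat_lit 4) (nat_lit 2) (nat_lit 5) (nat_lit 2) (nat_lit 4) (nat_lit 534) (nat_lit 343) (nat_lit 323)))) (XT.nd (nat_lit 78) (nat_lit 0) (nat_lit 0) (XT.lf (nat_lit 0) (nat_lit 13491804580033) (nat_lit 76) (nat_lit 1556157830707) (nat_lit 76) (nat_lit 1556089873393) (nat_lit 1) (nat_lit 4) (nat_lit 2) (nat_lit 5) (nat_lit 2) (nat_lit 4) (nat_lit 535) (nat_lit 343) (nat_lit 322)) (XT.nd (nat_lit 78) (nat_lit 0) (nat_lit 0) (XT.lf (nat_lit 0) (nat_lit 14572609271322) (nat_lit 76) (nat_lit 1679889935378) (nat_lit 76) (nat_lit 1679820730150) (nat_lit 1) (nat_lit 4) (nat_lit 2) (nat_lit 5) (nat_lit 2) (nat_lit 4) (nat_lit 536)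 (nat_lit 343) (nat_lit 321)) (XT.lf (nat_lit 0) (nat_lit 15739848404168) (nat_lit 76) (nat_lit 1813536058536) (nat_lit 76) (nat_lit 1813465697832) (nat_lit 1) (nat_lit 4) (nat_lit 2) (nat_lit 5) (nat_lit 2) (nat_lit 4) (nat_lit 537) (nat_lit 343) (nat_lit 320))))) (XT.nd (nat_lit 234) (nat_lit 0) (nat_lit 0) (XT.nd (nat_lit 78) (nat_lit 0) (nat_lit 0) (XT.lf (nat_lit 0) (nat_lit 1136018971252) (nat_lit 76) (nat_lit 139221387480) (nat_lit 76) (nat_lit 139221387480) (nat_lit 1) (nat_lit 4) (nat_lit 2) (nat_lit 5) (nat_lit 2) (nat_lit 4) (nat_lit 512) (nat_lit 344) (nat_lit 344)) (XT.nd (nat_lit 78) (nat_lit 0) (nat_lit 0) (XT.lf (nat_lit 0) (nat_lit 2457138630980) (nat_lit 76) (nat_lit 298988161353) (nat_lit 76) (nat_lit 298981377021) (nat_lit 1) (nat_lit 4) (nat_lit 2) (nat_lit 5) (nat_lit 2) (nat_lit 4) (nat_lit 513) (nat_lit 344) (nat_lit 343)) (XT.lf (nat_lit 0) (nat_lit 2656884638517)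 (nat_lit 76) (nat_lit 321261173822) (nat_lit 76) (nat_lit 321248107702) (nat_lit 1) (nat_lit 4) (nat_lit 2) (nat_lit 5) (nat_lit 2) (nat_lit 4) (nat_lit 514) (nat_lit 344) (nat_lit 342)))) (XT.nd (nat_lit 78) (nat_lit 0) (nat_lit 0) (XT.lf (nat_lit 0) (nat_lit 2872459645162) (nat_lit 76) (nat_lit 345393800589) (nat_lit 76) (nat_lit 345374917998) (nat_lit 1) (nat_lit 4) (nat_lit 2) (nat_lit 5) (nat_lit 2) (nat_lit 4) (nat_lit 515) (nat_lit 344) (nat_lit 341)) (XT.nd (nat_lit 78) (nat_lit 0) (nat_lit 0) (XT.lf (nat_lit 0) (nat_lit 3105141132436) (nat_lit 76) (nat_lit 371529049814) (nat_lit 76) (nat_lit 371504781602) (nat_lit 1) (nat_lit 4) (nat_lit 2) (nat_lit 5) (nat_lit 2) (nat_lit 4) (nat_lit 516) (nat_lit 344) (nat_lit 340)) (XT.lf (nat_lit 0) (nat_lit 3356307953596) (nat_lit 76) (nat_lit 399821797046) (nat_lit 76) (nat_lit 399792542148) (nat_lit 1) (nat_lit 4) (nat_lit 2) (nat_lit 5)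 (nat_lit 2) (nat_lit 4) (nat_lit 517) (nat_lit 344) (nat_lit 339)))))) (XT.nd (nat_lit 468) (nat_lit 0) (nat_lit 0) (XT.nd (nat_lit 234) (nat_lit 0) (nat_lit 0) (XT.nd (nat_lit 78) (nat_lit 0) (nat_lit 0) (XT.lf (nat_lit 0) (nat_lit 3627448504620) (nat_lit 76) (nat_lit 430439703011) (nat_lit 76) (nat_lit 430405830810) (nat_lit 1) (nat_lit 4) (nat_lit 2) (nat_lit 5) (nat_lit 2) (nat_lit 4) (nat_lit 518) (nat_lit 344) (nat_lit 338)) (XT.nd (nat_lit 78) (nat_lit 0) (nat_lit 0) (XT.lf (nat_lit 0) (nat_lit 3920169544329) (nat_lit 76) (nat_lit 463564207151) (nat_lit 76) (nat_lit 463526059670) (nat_lit 1) (nat_lit 4) (nat_lit 2) (nat_lit 5) (nat_lit 2) (nat_lit 4) (nat_lit 519) (nat_lit 344) (nat_lit 337)) (XT.lf (nat_lit 0) (nat_lit 4236205715921) (nat_lit 76) (nat_lit 499391602824) (nat_lit 76) (nat_lit 499349496751) (nat_lit 1) (nat_lit 4) (nat_lit 2) (nat_lit 5) (nat_lit 2) (nat_lit 4) (nat_lit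 520) (nat_lit 344) (nat_lit 336)))) (XT.nd (nat_lit 78) (nat_lit 0) (nat_lit 0) (XT.lf (nat_lit 0) (nat_lit 4577429826338) (nat_lit 76) (nat_lit 538134200522) (nat_lit 76) (nat_lit 538088429086) (nat_lit 1) (nat_lit 4) (nat_lit 2) (nat_lit 5) (nat_lit 2) (nat_lit 4) (nat_lit 521) (nat_lit 344) (nat_lit 335)) (XT.nd (nat_lit 78) (nat_lit 0) (nat_lit 0) (XT.lf (nat_lit 0) (nat_lit 4945863944384) (nat_lit 76) (nat_lit 580021586010) (nat_lit 76) (nat_lit 579972420719) (nat_lit 1) (nat_lit 4) (nat_lit 2) (nat_lit 5) (nat_lit 2) (nat_lit 4) (nat_lit 522) (nat_lit 344) (nat_lit 334)) (XT.lf (nat_lit 0) (nat_lit 5343691383350) (nat_lit 76) (nat_lit 625301980832) (nat_lit 76) (nat_lit 625249673083) (nat_lit 1) (nat_lit 4) (nat_lit 2) (nat_lit 5) (nat_lit 2) (nat_lit 4) (nat_lit 523) (nat_lit 344) (nat_lit 333))))) (XT.nd (nat_lit 234) (nat_lit 0) (nat_lit 0) (XT.nd (nat_lit 78) (nat_lit 0) (nat_lit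 0) (XT.lf (nat_lit 0) (nat_lit 5773269639171) (nat_lit 76) (nat_lit 674243713253) (nat_lit 76) (nat_lit 674188495820) (nat_lit 1) (nat_lit 4) (nat_lit 2) (nat_lit 5) (nat_lit 2) (nat_lit 4) (nat_lit 524) (nat_lit 344) (nat_lit 332)) (XT.nd (nat_lit 78) (nat_lit 0) (nat_lit 0) (XT.lf (nat_lit 0) (nat_lit 6237144360770) (nat_lit 76) (nat_lit 727136808354) (nat_lit 76) (nat_lit 727078896770) (nat_lit 1) (nat_lit 4) (nat_lit 2) (nat_lit 5) (nat_lit 2) (nat_lit 4) (nat_lit 525) (nat_lit 344) (nat_lit 331)) (XT.lf (nat_lit 0) (nat_lit 6738064435387) (nat_lit 76) (nat_lit 784294706699) (nat_lit 76) (nat_lit 784234300530) (nat_lit 1) (nat_lit 4) (nat_lit 2) (nat_lit 5) (nat_lit 2) (nat_lit 4) (nat_lit 526) (nat_lit 344) (nat_lit 330)))) (XT.nd (nat_lit 156) (nat_lit 0) (nat_lit 0) (XT.nd (nat_lit 78) (nat_lit 0) (nat_lit 0) (XT.lf (nat_lit 0) (nat_lit 7278998278278) (nat_lit 76) (nat_lit 846056121759)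 (nat_lit 76) (nat_lit 845993405790) (nat_lit 1) (nat_lit 4) (nat_lit 2) (nat_lit 5) (nat_lit 2) (nat_lit 4) (nat_lit 527) (nat_lit 344) (nat_lit 329)) (XT.lf (nat_lit 0) (nat_lit 7863151423327) (nat_lit 76) (nat_lit 912787047106) (nat_lit 76) (nat_lit 912722192432) (nat_lit 1) (nat_lit 4) (nat_lit 2) (nat_lit 5) (nat_lit 2) (nat_lit 4) (nat_lit 528) (nat_lit 344) (nat_lit 328))) (XT.nd (nat_lit 78) (nat_lit 0) (nat_lit 0) (XT.lf (nat_lit 0) (nat_lit 8493985518801) (nat_lit 76) (nat_lit 984882925259) (nat_lit 76) (nat_lit 984816090303) (nat_lit 1) (nat_lit 4) (nat_lit 2) (nat_lit 5) (nat_lit 2) (nat_lit 4) (nat_lit 529) (nat_lit 344) (nat_lit 327)) (XT.lf (nat_lit 0) (nat_lit 9175238840822) (nat_lit 76) (nat_lit 1062770991052) (nat_lit 76) (nat_lit 1062702322503) (nat_lit 1) (nat_lit 4) (nat_lit 2) (nat_lit 5) (nat_lit 2) (nat_lit 4) (nat_lit 530) (nat_lit 344) (nat_lit 326))))))) (XT.nd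 (nat_lit 61230) (nat_lit 0) (nat_lit 0) (XT.nd (nat_lit 468) (nat_lit 0) (nat_lit 0) (XT.nd (nat_lit 234) (nat_lit 0) (nat_lit 0) (XT.nd (nat_lit 78) (nat_lit 0) (nat_lit 0) (XT.lf (nat_lit 0) (nat_lit 9910948446112) (nat_lit 76) (nat_lit 1146912803394) (nat_lit 76) (nat_lit 1146842437072) (nat_lit 1) (nat_lit 4) (nat_lit 2) (nat_lit 5) (nat_lit 2) (nat_lit 4) (nat_lit 531) (nat_lit 344) (nat_lit 325)) (XT.nd (nat_lit 78) (nat_lit 0) (nat_lit 0) (XT.lf (nat_lit 0) (nat_lit 10705474095296) (nat_lit 76) (nat_lit 1237806980432) (nat_lit 76) (nat_lit 1237735042098) (nat_lit 1) (nat_lit 4) (nat_lit 2) (nat_lit 5) (nat_lit 2) (nat_lit 4) (nat_lit 532) (nat_lit 344) (nat_lit 324)) (XT.lf (nat_lit 0) (nat_lit 11563524088517) (nat_lit 76) (nat_lit 1335992154326) (nat_lit 76) (nat_lit 1335918760426) (nat_lit 1) (nat_lit 4) (nat_lit 2) (nat_lit 5) (nat_lit 2) (nat_lit 4) (nat_lit 533) (nat_lit 344)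 (nat_lit 323)))) (XT.nd (nat_lit 78) (nat_lit 0) (nat_lit 0) (XT.lf (nat_lit 0) (nat_lit 12490183166475) (nat_lit 76) (nat_lit 1442050163143) (nat_lit 76) (nat_lit 1441975421497) (nat_lit 1) (nat_lit 4) (nat_lit 2) (nat_lit 5) (nat_lit 2) (nat_lit 4) (nat_lit 534) (nat_lit 344) (nat_lit 322)) (XT.nd (nat_lit 78) (nat_lit 0) (nat_lit 0) (XT.lf (nat_lit 0) (nat_lit 13490942642225) (nat_lit 76) (nat_lit 1556609498788) (nat_lit 76) (nat_lit 1556533509228) (nat_lit 1) (nat_lit 4) (nat_lit 2) (nat_lit 5) (nat_lit 2) (nat_lit 4) (nat_lit 535) (nat_lit 344) (nat_lit 321)) (XT.lf (nat_lit 0) (nat_lit 14571732942290) (nat_lit 76) (nat_lit 1680349031398) (nat_lit 76) (nat_lit 1680271886363) (nat_lit 1) (nat_lit 4) (nat_lit 2) (nat_lit 5) (nat_lit 2) (nat_lit 4) (nat_lit 536) (nat_lit 344) (nat_lit 320))))) (XT.nd (nat_lit 60528) (nat_lit 0) (nat_lit 0) (XT.nd (nat_lit 60372) (nat_lit 0) (nat_lit 0)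 (XT.lf (nat_lit 0) (nat_lit 15738958749929) (nat_lit 76) (nat_lit 1814002032277) (nat_lit 76) (nat_lit 1813923817357) (nat_lit 1) (nat_lit 4) (nat_lit 2) (nat_lit 5) (nat_lit 2) (nat_lit 4) (nat_lit 537) (nat_lit 344) (nat_lit 319)) (XT.nd (nat_lit 78) (nat_lit 0) (nat_lit 0) (XT.lf (nat_lit 0) (nat_lit 970778247595) (nat_lit 76) (nat_lit 121008810063) (nat_lit 76) (nat_lit 121008810063) (nat_lit 1) (nat_lit 4) (nat_lit 2) (nat_lit 5) (nat_lit 2) (nat_lit 4) (nat_lit 510) (nat_lit 345) (nat_lit 345)) (XT.lf (nat_lit 0) (nat_lit 2100485680125) (nat_lit 76) (nat_lit 259510591283) (nat_lit 76) (nat_lit 259503264205) (nat_lit 1) (nat_lit 4) (nat_lit 2) (nat_lit 5) (nat_lit 2) (nat_lit 4) (nat_lit 511) (nat_lit 345) (nat_lit 344)))) (XT.nd (nat_lit 78) (nat_lit 0) (nat_lit 0) (XT.lf (nat_lit 0) (nat_lit 2271953444959) (nat_lit 76) (nat_lit 278493714912) (nat_lit 76) (nat_lit 278479603502) (nat_lit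 1) (nat_lit 4) (nat_lit 2) (nat_lit 5) (nat_lit 2) (nat_lit 4) (nat_lit 512) (nat_lit 345) (nat_lit 343)) (XT.nd (nat_lit 78) (nat_lit 0) (nat_lit 0) (XT.lf (nat_lit 0) (nat_lit 2456975894965) (nat_lit 76) (nat_lit 299079483596) (nat_lit 76) (nat_lit 299059090397) (nat_lit 1) (nat_lit 4) (nat_lit 2) (nat_lit 5) (nat_lit 2) (nat_lit 4) (nat_lit 513) (nat_lit 345) (nat_lit 342)) (XT.lf (nat_lit 0) (nat_lit 2656649459476) (nat_lit 76) (nat_lit 321389887075) (nat_lit 76) (nat_lit 321363677406) (nat_lit 1) (nat_lit 4) (nat_lit 2) (nat_lit 5) (nat_lit 2) (nat_lit 4) (nat_lit 514) (nat_lit 345) (nat_lit 341)))))) (XT.nd (nat_lit 468) (nat_lit 0) (nat_lit 0) (XT.nd (nat_lit 234) (nat_lit 0) (nat_lit 0) (XT.nd (nat_lit 78) (nat_lit 0) (nat_lit 0) (XT.lf (nat_lit 0) (nat_lit 2872157389244) (nat_lit 76) (nat_lit 345557135148) (nat_lit 76) (nat_lit 345525539858) (nat_lit 1) (nat_lit 4) (nat_lit 2)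 (nat_lit 5) (nat_lit 2) (nat_lit 4) (nat_lit 515) (nat_lit 345) (nat_lit 340)) (XT.nd (nat_lit 78) (nat_lit 0) (nat_lit 0) (XT.lf (nat_lit 0) (nat_lit 3104776768299) (nat_lit 76) (nat_lit 371724441137) (nat_lit 76) (nat_lit 371687859160) (nat_lit 1) (nat_lit 4) (nat_lit 2) (nat_lit 5) (nat_lit 2) (nat_lit 4) (nat_lit 516) (nat_lit 345) (nat_lit 339)) (XT.lf (nat_lit 0) (nat_lit 3355886081849) (nat_lit 76) (nat_lit 400046870559) (nat_lit 76) (nat_lit 400005671280) (nat_lit 1) (nat_lit 4) (nat_lit 2) (nat_lit 5) (nat_lit 2) (nat_lit 4) (nat_lit 517) (nat_lit 345) (nat_lit 338)))) (XT.nd (nat_lit 78) (nat_lit 0) (nat_lit 0) (XT.lf (nat_lit 0) (nat_lit 3626973385086) (nat_lit 76) (nat_lit 430692260032) (nat_lit 76) (nat_lit 430646785473) (nat_lit 1) (nat_lit 4) (nat_lit 2) (nat_lit 5) (nat_lit 2) (nat_lit 4) (nat_lit 518) (nat_lit 345) (nat_lit 337)) (XT.nd (nat_lit 78) (nat_lit 0) (nat_lit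 0) (XT.lf (nat_lit 0) (nat_lit 3919645121289) (nat_lit 76) (nat_lit 463842211865) (nat_lit 76) (nat_lit 463792778714) (nat_lit 1) (nat_lit 4) (nat_lit 2) (nat_lit 5) (nat_lit 2) (nat_lit 4) (nat_lit 519) (nat_lit 345) (nat_lit 336)) (XT.lf (nat_lit 0) (nat_lit 4235635641485) (nat_lit 76) (nat_lit 499693170216) (nat_lit 76) (nat_lit 499640071702) (nat_lit 1) (nat_lit 4) (nat_lit 2) (nat_lit 5) (nat_lit 2) (nat_lit 4) (nat_lit 520) (nat_lit 345) (nat_lit 335))))) (XT.nd (nat_lit 234) (nat_lit 0) (nat_lit 0) (XT.nd (nat_lit 78) (nat_lit 0) (nat_lit 0) (XT.lf (nat_lit 0) (nat_lit 4576817482093) (nat_lit 76) (nat_lit 538457585210) (nat_lit 76) (nat_lit 538401092841) (nat_lit 1) (nat_lit 4) (nat_lit 2) (nat_lit 5) (nat_lit 2) (nat_lit 4) (nat_lit 521) (nat_lit 345) (nat_lit 334)) (XT.nd (nat_lit 78) (nat_lit 0) (nat_lit 0) (XT.lf (nat_lit 0) (nat_lit 4945212461425) (nat_lit 76) (nat_lit 580365171898)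 (nat_lit 76) (nat_lit 580305537070) (nat_lit 1) (nat_lit 4) (nat_lit 2) (nat_lit 5) (nat_lit 2) (nat_lit 4) (nat_lit 522) (nat_lit 345) (nat_lit 333)) (XT.lf (nat_lit 0) (nat_lit 5343003660842) (nat_lit 76) (nat_lit 625664271534) (nat_lit 76) (nat_lit 625601727023) (nat_lit 1) (nat_lit 4) (nat_lit 2) (nat_lit 5) (nat_lit 2) (nat_lit 4) (nat_lit 523) (nat_lit 345) (nat_lit 332)))) (XT.nd (nat_lit 156) (nat_lit 0) (nat_lit 0) (XT.nd (nat_lit 78) (nat_lit 0) (nat_lit 0) (XT.lf (nat_lit 0) (nat_lit 5772548361525) (nat_lit 76) (nat_lit 674623323227) (nat_lit 76) (nat_lit 674558084564) (nat_lit 1) (nat_lit 4) (nat_lit 2) (nat_lit 5) (nat_lit 2) (nat_lit 4) (nat_lit 524) (nat_lit 345) (nat_lit 331)) (XT.lf (nat_lit 0) (nat_lit 6236392013551) (nat_lit 76) (nat_lit 727532454691) (nat_lit 76) (nat_lit 727464721444) (nat_lit 1) (nat_lit 4) (nat_lit 2) (nat_lit 5) (nat_lit 2) (nat_lit 4) (nat_lit 525)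 (nat_lit 345) (nat_lit 330))) (XT.nd (nat_lit 78) (nat_lit 0) (nat_lit 0) (XT.lf (nat_lit 0) (nat_lit 6737283320045) (nat_lit 76) (nat_lit 784705201521) (nat_lit 76) (nat_lit 784635158473) (nat_lit 1) (nat_lit 4) (nat_lit 2) (nat_lit 5) (nat_lit 2) (nat_lit 4) (nat_lit 526) (nat_lit 345) (nat_lit 329)) (XT.lf (nat_lit 0) (nat_lit 7278190525786) (nat_lit 76) (nat_lit 846480365178) (nat_lit 76) (nat_lit 846408183426) (nat_lit 1) (nat_lit 4) (nat_lit 2) (nat_lit 5) (nat_lit 2) (nat_lit 4) (nat_lit 527) (nat_lit 345) (nat_lit 328))))))))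
noncomputable def xc4 : XT := (XT.nd (nat_lit 62088) (nat_lit 0) (nat_lit 0) (XT.nd (nat_lit 61074) (nat_lit 0) (nat_lit 0) (XT.nd (nat_lit 468) (nat_lit 0) (nat_lit 0) (XT.nd (nat_lit 234) (nat_lit 0) (nat_lit 0) (XT.nd (nat_lit 78) (nat_lit 0) (nat_lit 0) (XT.lf (nat_lit 0) (nat_lit 7862319006807) (nat_lit 76) (nat_lit 913224020706) (nat_lit 76) (nat_lit 913149858673) (nat_lit 1) (nat_lit 4) (nat_lit 2) (nat_lit 5) (nat_lit 2) (nat_lit 4) (nat_lit 528) (nat_lit 345) (nat_lit 327)) (XT.nd (nat_lit 78) (nat_lit 0) (nat_lit 0) (XT.lf (nat_lit 0) (nat_lit 8493130265218) (nat_lit 76) (nat_lit 985331686065) (nat_lit 76) (nat_lit 985255690437) (nat_lit 1) (nat_lit 4) (nat_lit 2) (nat_lit 5) (nat_lit 2) (nat_lit 4) (nat_lit 529) (nat_lit 345) (nat_lit 326)) (XT.lf (nat_lit 0) (nat_lit 9174362441810) (nat_lit 76) (nat_lit 1063230665938) (nat_lit 76) (nat_lit 1063152972538) (nat_lit 1) (nat_lit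 4) (nat_lit 2) (nat_lit 5) (nat_lit 2) (nat_lit 4) (nat_lit 530) (nat_lit 345) (nat_lit 325)))) (XT.nd (nat_lit 78) (nat_lit 0) (nat_lit 0) (XT.lf (nat_lit 0) (nat_lit 9910052467999) (nat_lit 76) (nat_lit 1147382583909) (nat_lit 76) (nat_lit 1147303318497) (nat_lit 1) (nat_lit 4) (nat_lit 2) (nat_lit 5) (nat_lit 2) (nat_lit 4) (nat_lit 531) (nat_lit 345) (nat_lit 324)) (XT.nd (nat_lit 78) (nat_lit 0) (nat_lit 0) (XT.lf (nat_lit 0) (nat_lit 10704559988386) (nat_lit 76) (nat_lit 1238286118011) (nat_lit 76) (nat_lit 1238205397033) (nat_lit 1) (nat_lit 4) (nat_lit 2) (nat_lit 5) (nat_lit 2) (nat_lit 4) (nat_lit 532) (nat_lit 345) (nat_lit 323)) (XT.lf (nat_lit 0) (nat_lit 11562593195683) (nat_lit 76) (nat_lit 1336479955852) (nat_lit 76) (nat_lit 1336397887128) (nat_lit 1) (nat_lit 4) (nat_lit 2) (nat_lit 5) (nat_lit 2) (nat_lit 4) (nat_lit 533) (nat_lit 345) (nat_lit 322))))) (XT.nd (nat_lit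 234) (nat_lit 0) (nat_lit 0) (XT.nd (nat_lit 78) (nat_lit 0) (nat_lit 0) (XT.lf (nat_lit 0) (nat_lit 12489236731120) (nat_lit 76) (nat_lit 1442545986844) (nat_lit 76) (nat_lit 1442462670206) (nat_lit 1) (nat_lit 4) (nat_lit 2) (nat_lit 5) (nat_lit 2) (nat_lit 4) (nat_lit 534) (nat_lit 345) (nat_lit 321)) (XT.nd (nat_lit 78) (nat_lit 0) (nat_lit 0) (XT.lf (nat_lit 0) (nat_lit 13489981815646) (nat_lit 76) (nat_lit 1557112750428) (nat_lit 76) (nat_lit 1557028278315) (nat_lit 1) (nat_lit 4) (nat_lit 2) (nat_lit 5) (nat_lit 2) (nat_lit 4) (nat_lit 535) (nat_lit 345) (nat_lit 320)) (XT.lf (nat_lit 0) (nat_lit 14570758790504) (nat_lit 76) (nat_lit 1680859160759) (nat_lit 76) (nat_lit 1680773618761) (nat_lit 1) (nat_lit 4) (nat_lit 2) (nat_lit 5) (nat_lit 2) (nat_lit 4) (nat_lit 536) (nat_lit 345) (nat_lit 319)))) (XT.nd (nat_lit 60216) (nat_lit 0) (nat_lit 0) (XT.lf (nat_lit 0) (nat_lit 15737972259989)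 (nat_lit 76) (nat_lit 1814518529898) (nat_lit 76) (nat_lit 1814431997267) (nat_lit 1) (nat_lit 4) (nat_lit 2) (nat_lit 5) (nat_lit 2) (nat_lit 4) (nat_lit 537) (nat_lit 345) (nat_lit 318)) (XT.nd (nat_lit 78) (nat_lit 0) (nat_lit 0) (XT.lf (nat_lit 0) (nat_lit 828856967144) (nat_lit 76) (nat_lit 105526373222) (nat_lit 76) (nat_lit 105526373222) (nat_lit 1) (nat_lit 4) (nat_lit 2) (nat_lit 5) (nat_lit 2) (nat_lit 4) (nat_lit 508) (nat_lit 346) (nat_lit 346)) (XT.lf (nat_lit 0) (nat_lit 1794224087577) (nat_lit 76) (nat_lit 225919052631) (nat_lit 76) (nat_lit 225911139387) (nat_lit 1) (nat_lit 4) (nat_lit 2) (nat_lit 5) (nat_lit 2) (nat_lit 4) (nat_lit 509) (nat_lit 346) (nat_lit 345)))))) (XT.nd (nat_lit 468) (nat_lit 0) (nat_lit 0) (XT.nd (nat_lit 234) (nat_lit 0) (nat_lit 0) (XT.nd (nat_lit 78) (nat_lit 0) (nat_lit 0) (XT.lf (nat_lit 0) (nat_lit 1941465237840) (nat_lit 76) (nat_lit 242072635274)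 (nat_lit 76) (nat_lit 242057394951) (nat_lit 1) (nat_lit 4) (nat_lit 2) (nat_lit 5) (nat_lit 2) (nat_lit 4) (nat_lit 510) (nat_lit 346) (nat_lit 344)) (XT.nd (nat_lit 78) (nat_lit 0) (nat_lit 0) (XT.lf (nat_lit 0) (nat_lit 2100309925229) (nat_lit 76) (nat_lit 259609219306) (nat_lit 76) (nat_lit 259587194652) (nat_lit 1) (nat_lit 4) (nat_lit 2) (nat_lit 5) (nat_lit 2) (nat_lit 4) (nat_lit 511) (nat_lit 346) (nat_lit 343)) (XT.lf (nat_lit 0) (nat_lit 2271699451594) (nat_lit 76) (nat_lit 278632725225) (nat_lit 76) (nat_lit 278604418782) (nat_lit 1) (nat_lit 4) (nat_lit 2) (nat_lit 5) (nat_lit 2) (nat_lit 4) (nat_lit 512) (nat_lit 346) (nat_lit 342)))) (XT.nd (nat_lit 78) (nat_lit 0) (nat_lit 0) (XT.lf (nat_lit 0) (nat_lit 2456649458573) (nat_lit 76) (nat_lit 299255884919) (nat_lit 76) (nat_lit 299221762005) (nat_lit 1) (nat_lit 4) (nat_lit 2) (nat_lit 5) (nat_lit 2) (nat_lit 4) (nat_lit 513)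 (nat_lit 346) (nat_lit 341)) (XT.nd (nat_lit 78) (nat_lit 0) (nat_lit 0) (XT.lf (nat_lit 0) (nat_lit 2656255946208) (nat_lit 76) (nat_lit 321600909704) (nat_lit 76) (nat_lit 321561401169) (nat_lit 1) (nat_lit 4) (nat_lit 2) (nat_lit 5) (nat_lit 2) (nat_lit 4) (nat_lit 514) (nat_lit 346) (nat_lit 340)) (XT.lf (nat_lit 0) (nat_lit 2871701767758) (nat_lit 76) (nat_lit 345800214541) (nat_lit 76) (nat_lit 345755719320) (nat_lit 1) (nat_lit 4) (nat_lit 2) (nat_lit 5) (nat_lit 2) (nat_lit 4) (nat_lit 515) (nat_lit 346) (nat_lit 339))))) (XT.nd (nat_lit 234) (nat_lit 0) (nat_lit 0) (XT.nd (nat_lit 78) (nat_lit 0) (nat_lit 0) (XT.lf (nat_lit 0) (nat_lit 3104263639202) (nat_lit 76) (nat_lit 371997202720) (nat_lit 76) (nat_lit 371948090196) (nat_lit 1) (nat_lit 4) (nat_lit 2) (nat_lit 5) (nat_lit 2) (nat_lit 4) (nat_lit 516) (nat_lit 346) (nat_lit 338)) (XT.nd (nat_lit 78) (nat_lit 0) (nat_lit 0)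 (XT.lf (nat_lit 0) (nat_lit 3355319704966) (nat_lit 76) (nat_lit 400347115650) (nat_lit 76) (nat_lit 400293727847) (nat_lit 1) (nat_lit 4) (nat_lit 2) (nat_lit 5) (nat_lit 2) (nat_lit 4) (nat_lit 517) (nat_lit 346) (nat_lit 337)) (XT.lf (nat_lit 0) (nat_lit 3626357704696) (nat_lit 76) (nat_lit 431017952816) (nat_lit 76) (nat_lit 430960606421) (nat_lit 1) (nat_lit 4) (nat_lit 2) (nat_lit 5) (nat_lit 2) (nat_lit 4) (nat_lit 518) (nat_lit 346) (nat_lit 336)))) (XT.nd (nat_lit 156) (nat_lit 0) (nat_lit 0) (XT.nd (nat_lit 78) (nat_lit 0) (nat_lit 0) (XT.lf (nat_lit 0) (nat_lit 3918983789503) (nat_lit 76) (nat_lit 464191467328) (nat_lit 76) (nat_lit 464130455569) (nat_lit 1) (nat_lit 4) (nat_lit 2) (nat_lit 5) (nat_lit 2) (nat_lit 4) (nat_lit 519) (nat_lit 346) (nat_lit 335)) (XT.lf (nat_lit 0) (nat_lit 4234932039890) (nat_lit 76) (nat_lit 500064242975) (nat_lit 76) (nat_lit 499999837361) (nat_lit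 1) (nat_lit 4) (nat_lit 2) (nat_lit 5) (nat_lit 2) (nat_lit 4) (nat_lit 520) (nat_lit 346) (nat_lit 334))) (XT.nd (nat_lit 78) (nat_lit 0) (nat_lit 0) (XT.lf (nat_lit 0) (nat_lit 4576074741784) (nat_lit 76) (nat_lit 538848859168) (nat_lit 76) (nat_lit 538781311096) (nat_lit 1) (nat_lit 4) (nat_lit 2) (nat_lit 5) (nat_lit 2) (nat_lit 4) (nat_lit 521) (nat_lit 346) (nat_lit 333)) (XT.lf (nat_lit 0) (nat_lit 4944433481567) (nat_lit 76) (nat_lit 580775150669) (nat_lit 76) (nat_lit 580704692914) (nat_lit 1) (nat_lit 4) (nat_lit 2) (nat_lit 5) (nat_lit 2) (nat_lit 4) (nat_lit 522) (nat_lit 346) (nat_lit 332))))))) (XT.nd (nat_lit 936) (nat_lit 0) (nat_lit 0) (XT.nd (nat_lit 468) (nat_lit 0) (nat_lit 0) (XT.nd (nat_lit 234) (nat_lit 0) (nat_lit 0) (XT.nd (nat_lit 78) (nat_lit 0) (nat_lit 0) (XT.lf (nat_lit 0) (nat_lit 5342191125846) (nat_lit 76) (nat_lit 626091569578) (nat_lit 76) (nat_lit 626018417671)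 (nat_lit 1) (nat_lit 4) (nat_lit 2) (nat_lit 5) (nat_lit 2) (nat_lit 4) (nat_lit 523) (nat_lit 346) (nat_lit 331)) (XT.nd (nat_lit 78) (nat_lit 0) (nat_lit 0) (XT.lf (nat_lit 0) (nat_lit 5771704756956) (nat_lit 76) (nat_lit 675066657634) (nat_lit 76) (nat_lit 674991011143) (nat_lit 1) (nat_lit 4) (nat_lit 2) (nat_lit 5) (nat_lit 2) (nat_lit 4) (nat_lit 524) (nat_lit 346) (nat_lit 330)) (XT.lf (nat_lit 0) (nat_lit 6235519640860) (nat_lit 76) (nat_lit 727990637583) (nat_lit 76) (nat_lit 727912681291) (nat_lit 1) (nat_lit 4) (nat_lit 2) (nat_lit 5) (nat_lit 2) (nat_lit 4) (nat_lit 525) (nat_lit 346) (nat_lit 329)))) (XT.nd (nat_lit 78) (nat_lit 0) (nat_lit 0) (XT.lf (nat_lit 0) (nat_lit 6736384310204) (nat_lit 76) (nat_lit 785177133009) (nat_lit 76) (nat_lit 785097038013) (nat_lit 1) (nat_lit 4) (nat_lit 2) (nat_lit 5) (nat_lit 2) (nat_lit 4) (nat_lit 526) (nat_lit 346) (nat_lit 328)) (XT.nd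 (nat_lit 78) (nat_lit 0) (nat_lit 0) (XT.lf (nat_lit 0) (nat_lit 7277266851916) (nat_lit 76) (nat_lit 846965026849) (nat_lit 76) (nat_lit 846882951570) (nat_lit 1) (nat_lit 4) (nat_lit 2) (nat_lit 5) (nat_lit 2) (nat_lit 4) (nat_lit 527) (nat_lit 346) (nat_lit 327)) (XT.lf (nat_lit 0) (nat_lit 7861372495874) (nat_lit 76) (nat_lit 913720469583) (nat_lit 76) (nat_lit 913636560711) (nat_lit 1) (nat_lit 4) (nat_lit 2) (nat_lit 5) (nat_lit 2) (nat_lit 4) (nat_lit 528) (nat_lit 346) (nat_lit 326))))) (XT.nd (nat_lit 234) (nat_lit 0) (nat_lit 0) (XT.nd (nat_lit 78) (nat_lit 0) (nat_lit 0) (XT.lf (nat_lit 0) (nat_lit 8492162608856) (nat_lit 76) (nat_lit 985839049021) (nat_lit 76) (nat_lit 985753442376) (nat_lit 1) (nat_lit 4) (nat_lit 2) (nat_lit 5) (nat_lit 2) (nat_lit 4) (nat_lit 529) (nat_lit 346) (nat_lit 325)) (XT.nd (nat_lit 78) (nat_lit 0) (nat_lit 0) (XT.lf (nat_lit 0) (nat_lit 9173375206347)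 (nat_lit 76) (nat_lit 1063748134523) (nat_lit 76) (nat_lit 1063660955867) (nat_lit 1) (nat_lit 4) (nat_lit 2) (nat_lit 5) (nat_lit 2) (nat_lit 4) (nat_lit 530) (nat_lit 346) (nat_lit 324)) (XT.lf (nat_lit 0) (nat_lit 9909047103739) (nat_lit 76) (nat_lit 1147909409558) (nat_lit 76) (nat_lit 1147820775335) (nat_lit 1) (nat_lit 4) (nat_lit 2) (nat_lit 5) (nat_lit 2) (nat_lit 4) (nat_lit 531) (nat_lit 346) (nat_lit 323)))) (XT.nd (nat_lit 78) (nat_lit 0) (nat_lit 0) (XT.lf (nat_lit 0) (nat_lit 10703537838203) (nat_lit 76) (nat_lit 1238821607608) (nat_lit 76) (nat_lit 1238731625639) (nat_lit 1) (nat_lit 4) (nat_lit 2) (nat_lit 5) (nat_lit 2) (nat_lit 4) (nat_lit 532) (nat_lit 346) (nat_lit 322)) (XT.nd (nat_lit 78) (nat_lit 0) (nat_lit 0) (XT.lf (nat_lit 0) (nat_lit 11561555502979) (nat_lit 76) (nat_lit 1337023467624) (nat_lit 76) (nat_lit 1336932237741) (nat_lit 1) (nat_lit 4) (nat_lit 2) (nat_lit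 5) (nat_lit 2) (nat_lit 4) (nat_lit 533) (nat_lit 346) (nat_lit 321)) (XT.lf (nat_lit 0) (nat_lit 12488184647192) (nat_lit 76) (nat_lit 1443096926554) (nat_lit 76) (nat_lit 1443004541196) (nat_lit 1) (nat_lit 4) (nat_lit 2) (nat_lit 5) (nat_lit 2) (nat_lit 4) (nat_lit 534) (nat_lit 346) (nat_lit 320)))))) (XT.nd (nat_lit 60450) (nat_lit 0) (nat_lit 0) (XT.nd (nat_lit 60216) (nat_lit 0) (nat_lit 0) (XT.nd (nat_lit 78) (nat_lit 0) (nat_lit 0) (XT.lf (nat_lit 0) (nat_lit 13488916406511) (nat_lit 76) (nat_lit 1557670567860) (nat_lit 76) (nat_lit 1557577112617) (nat_lit 1) (nat_lit 4) (nat_lit 2) (nat_lit 5) (nat_lit 2) (nat_lit 4) (nat_lit 535) (nat_lit 346) (nat_lit 319)) (XT.nd (nat_lit 78) (nat_lit 0) (nat_lit 0) (XT.lf (nat_lit 0) (nat_lit 14569681043214) (nat_lit 76) (nat_lit 1681423346451) (nat_lit 76) (nat_lit 1681328900575) (nat_lit 1) (nat_lit 4) (nat_lit 2) (nat_lit 5) (nat_lit 2)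 (nat_lit 4) (nat_lit 536) (nat_lit 346) (nat_lit 318)) (XT.lf (nat_lit 0) (nat_lit 15736883088482) (nat_lit 76) (nat_lit 1815088612128) (nat_lit 76) (nat_lit 1814993248998) (nat_lit 1) (nat_lit 4) (nat_lit 2) (nat_lit 5) (nat_lit 2) (nat_lit 4) (nat_lit 537) (nat_lit 346) (nat_lit 317)))) (XT.nd (nat_lit 78) (nat_lit 0) (nat_lit 0) (XT.lf (nat_lit 0) (nat_lit 706908031152) (nat_lit 76) (nat_lit 92395144906) (nat_lit 76) (nat_lit 92395144906) (nat_lit 1) (nat_lit 4) (nat_lit 2) (nat_lit 5) (nat_lit 2) (nat_lit 4) (nat_lit 506) (nat_lit 347) (nat_lit 347)) (XT.nd (nat_lit 78) (nat_lit 0) (nat_lit 0) (XT.lf (nat_lit 0) (nat_lit 1531125828918) (nat_lit 76) (nat_lit 197394166387) (nat_lit 76) (nat_lit 197385620083) (nat_lit 1) (nat_lit 4) (nat_lit 2) (nat_lit 5) (nat_lit 2) (nat_lit 4) (nat_lit 507) (nat_lit 347) (nat_lit 346)) (XT.lf (nat_lit 0) (nat_lit 1657615376350) (nat_lit 76) (nat_lit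 211112162805) (nat_lit 76) (nat_lit 211095703256) (nat_lit 1) (nat_lit 4) (nat_lit 2) (nat_lit 5) (nat_lit 2) (nat_lit 4) (nat_lit 508) (nat_lit 347) (nat_lit 345))))) (XT.nd (nat_lit 234) (nat_lit 0) (nat_lit 0) (XT.nd (nat_lit 78) (nat_lit 0) (nat_lit 0) (XT.lf (nat_lit 0) (nat_lit 1794034272289) (nat_lit 76) (nat_lit 226025570896) (nat_lit 76) (nat_lit 226001784269) (nat_lit 1) (nat_lit 4) (nat_lit 2) (nat_lit 5) (nat_lit 2) (nat_lit 4) (nat_lit 509) (nat_lit 347) (nat_lit 344)) (XT.nd (nat_lit 78) (nat_lit 0) (nat_lit 0) (XT.lf (nat_lit 0) (nat_lit 1941190925006) (nat_lit 76) (nat_lit 242222766412) (nat_lit 76) (nat_lit 242192195454) (nat_lit 1) (nat_lit 4) (nat_lit 2) (nat_lit 5) (nat_lit 2) (nat_lit 4) (nat_lit 510) (nat_lit 347) (nat_lit 343)) (XT.lf (nat_lit 0) (nat_lit 2099957373927) (nat_lit 76) (nat_lit 259799732735) (nat_lit 76) (nat_lit 259762879988) (nat_lit 1) (nat_lit 4)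 (nat_lit 2) (nat_lit 5) (nat_lit 2) (nat_lit 4) (nat_lit 511) (nat_lit 347) (nat_lit 342)))) (XT.nd (nat_lit 156) (nat_lit 0) (nat_lit 0) (XT.nd (nat_lit 78) (nat_lit 0) (nat_lit 0) (XT.lf (nat_lit 0) (nat_lit 2271274457265) (nat_lit 76) (nat_lit 278860629664) (nat_lit 76) (nat_lit 278817960447) (nat_lit 1) (nat_lit 4) (nat_lit 2) (nat_lit 5) (nat_lit 2) (nat_lit 4) (nat_lit 512) (nat_lit 347) (nat_lit 341)) (XT.lf (nat_lit 0) (nat_lit 2456157387368) (nat_lit 76) (nat_lit 299518410664) (nat_lit 76) (nat_lit 299470355825) (nat_lit 1) (nat_lit 4) (nat_lit 2) (nat_lit 5) (nat_lit 2) (nat_lit 4) (nat_lit 513) (nat_lit 347) (nat_lit 340))) (XT.nd (nat_lit 78) (nat_lit 0) (nat_lit 0) (XT.lf (nat_lit 0) (nat_lit 2655701766783) (nat_lit 76) (nat_lit 321895492213) (nat_lit 76) (nat_lit 321842450688) (nat_lit 1) (nat_lit 4) (nat_lit 2) (nat_lit 5) (nat_lit 2) (nat_lit 4) (nat_lit 514) (nat_lit 347)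 (nat_lit 339)) (XT.lf (nat_lit 0) (nat_lit 2871090080723) (nat_lit 76) (nat_lit 346124479240) (nat_lit 76) (nat_lit 346066820412) (nat_lit 1) (nat_lit 4) (nat_lit 2) (nat_lit 5) (nat_lit 2) (nat_lit 4) (nat_lit 515) (nat_lit 347) (nat_lit 338))))))))
noncomputable def xc5 : XT := (XT.nd (nat_lit 61776) (nat_lit 0) (nat_lit 0) (XT.nd (nat_lit 936) (nat_lit 0) (nat_lit 0) (XT.nd (nat_lit 468) (nat_lit 0) (nat_lit 0) (XT.nd (nat_lit 234) (nat_lit 0) (nat_lit 0) (XT.nd (nat_lit 78) (nat_lit 0) (nat_lit 0) (XT.lf (nat_lit 0) (nat_lit 3103598704381) (nat_lit 76) (nat_lit 372348950926) (nat_lit 76) (nat_lit 372287016819) (nat_lit 1) (nat_lit 4) (nat_lit 2) (nat_lit 5) (nat_lit 2) (nat_lit 4) (nat_lit 516) (nat_lit 347) (nat_lit 337)) (XT.nd (nat_lit 78) (nat_lit 0) (nat_lit 0) (XT.lf (nat_lit 0) (nat_lit 3354605466637) (nat_lit 76) (nat_lit 400724311550) (nat_lit 76) (nat_lit 400658418851) (nat_lit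 1) (nat_lit 4) (nat_lit 2) (nat_lit 5) (nat_lit 2) (nat_lit 4) (nat_lit 517) (nat_lit 347) (nat_lit 336)) (XT.lf (nat_lit 0) (nat_lit 3625597814973) (nat_lit 76) (nat_lit 431418711395) (nat_lit 76) (nat_lit 431349153332) (nat_lit 1) (nat_lit 4) (nat_lit 2) (nat_lit 5) (nat_lit 2) (nat_lit 4) (nat_lit 518) (nat_lit 347) (nat_lit 335)))) (XT.nd (nat_lit 78) (nat_lit 0) (nat_lit 0) (XT.lf (nat_lit 0) (nat_lit 3918181629970) (nat_lit 76) (nat_lit 464614043202) (nat_lit 76) (nat_lit 464541091284) (nat_lit 1) (nat_lit 4) (nat_lit 2) (nat_lit 5) (nat_lit 2) (nat_lit 4) (nat_lit 519) (nat_lit 347) (nat_lit 334)) (XT.nd (nat_lit 78) (nat_lit 0) (nat_lit 0) (XT.lf (nat_lit 0) (nat_lit 4234090741643) (nat_lit 76) (nat_lit 500507020048) (nat_lit 76) (nat_lit 500430925672) (nat_lit 1) (nat_lit 4) (nat_lit 2) (nat_lit 5) (nat_lit 2) (nat_lit 4) (nat_lit 520) (nat_lit 347) (nat_lit 333)) (XT.lf (nat_lit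 0) (nat_lit 4575197203988) (nat_lit 76) (nat_lit 539310341055) (nat_lit 76) (nat_lit 539231336996) (nat_lit 1) (nat_lit 4) (nat_lit 2) (nat_lit 5) (nat_lit 2) (nat_lit 4) (nat_lit 521) (nat_lit 347) (nat_lit 332))))) (XT.nd (nat_lit 234) (nat_lit 0) (nat_lit 0) (XT.nd (nat_lit 78) (nat_lit 0) (nat_lit 0) (XT.lf (nat_lit 0) (nat_lit 4943522388633) (nat_lit 76) (nat_lit 581253951829) (nat_lit 76) (nat_lit 581172253618) (nat_lit 1) (nat_lit 4) (nat_lit 2) (nat_lit 5) (nat_lit 2) (nat_lit 4) (nat_lit 522) (nat_lit 347) (nat_lit 331)) (XT.nd (nat_lit 78) (nat_lit 0) (nat_lit 0) (XT.lf (nat_lit 0) (nat_lit 5341248963339) (nat_lit 76) (nat_lit 626586407101) (nat_lit 76) (nat_lit 626502214305) (nat_lit 1) (nat_lit 4) (nat_lit 2) (nat_lit 5) (nat_lit 2) (nat_lit 4) (nat_lit 523) (nat_lit 347) (nat_lit 330)) (XT.lf (nat_lit 0) (nat_lit 5770733826327) (nat_lit 76) (nat_lit 675576343642) (nat_lit 76)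 (nat_lit 675489841046) (nat_lit 1) (nat_lit 4) (nat_lit 2) (nat_lit 5) (nat_lit 2) (nat_lit 4) (nat_lit 524) (nat_lit 347) (nat_lit 329)))) (XT.nd (nat_lit 78) (nat_lit 0) (nat_lit 0) (XT.lf (nat_lit 0) (nat_lit 6234522073081) (nat_lit 76) (nat_lit 728514072188) (nat_lit 76) (nat_lit 728425430887) (nat_lit 1) (nat_lit 4) (nat_lit 2) (nat_lit 5) (nat_lit 2) (nat_lit 4) (nat_lit 525) (nat_lit 347) (nat_lit 328)) (XT.nd (nat_lit 78) (nat_lit 0) (nat_lit 0) (XT.lf (nat_lit 0) (nat_lit 6735362078396) (nat_lit 76) (nat_lit 785713297796) (nat_lit 76) (nat_lit 785622676214) (nat_lit 1) (nat_lit 4) (nat_lit 2) (nat_lit 5) (nat_lit 2) (nat_lit 4) (nat_lit 526) (nat_lit 347) (nat_lit 327)) (XT.lf (nat_lit 0) (nat_lit 7276221783045) (nat_lit 76) (nat_lit 847512978841) (nat_lit 76) (nat_lit 847420523665) (nat_lit 1) (nat_lit 4) (nat_lit 2) (nat_lit 5) (nat_lit 2) (nat_lit 4) (nat_lit 527) (nat_lit 347)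 (nat_lit 326)))))) (XT.nd (nat_lit 468) (nat_lit 0) (nat_lit 0) (XT.nd (nat_lit 234) (nat_lit 0) (nat_lit 0) (XT.nd (nat_lit 78) (nat_lit 0) (nat_lit 0) (XT.lf (nat_lit 0) (nat_lit 7860306281574) (nat_lit 76) (nat_lit 914279335655) (nat_lit 76) (nat_lit 914185182706) (nat_lit 1) (nat_lit 4) (nat_lit 2) (nat_lit 5) (nat_lit 2) (nat_lit 4) (nat_lit 528) (nat_lit 347) (nat_lit 325)) (XT.nd (nat_lit 78) (nat_lit 0) (nat_lit 0) (XT.lf (nat_lit 0) (nat_lit 8491076815455) (nat_lit 76) (nat_lit 986408020722) (nat_lit 76) (nat_lit 986312295762) (nat_lit 1) (nat_lit 4) (nat_lit 2) (nat_lit 5) (nat_lit 2) (nat_lit 4) (nat_lit 529) (nat_lit 347) (nat_lit 324)) (XT.lf (nat_lit 0) (nat_lit 9172271284149) (nat_lit 76) (nat_lit 1064326463288) (nat_lit 76) (nat_lit 1064229282761) (nat_lit 1) (nat_lit 4) (nat_lit 2) (nat_lit 5) (nat_lit 2) (nat_lit 4) (nat_lit 530) (nat_lit 347) (nat_lit 323)))) (XT.nd (nat_lit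 78) (nat_lit 0) (nat_lit 0) (XT.lf (nat_lit 0) (nat_lit 9907926395618) (nat_lit 76) (nat_lit 1148496402271) (nat_lit 76) (nat_lit 1148397873998) (nat_lit 1) (nat_lit 4) (nat_lit 2) (nat_lit 5) (nat_lit 2) (nat_lit 4) (nat_lit 531) (nat_lit 347) (nat_lit 322)) (XT.nd (nat_lit 78) (nat_lit 0) (nat_lit 0) (XT.lf (nat_lit 0) (nat_lit 10702401587560) (nat_lit 76) (nat_lit 1239416622495) (nat_lit 76) (nat_lit 1239316846308) (nat_lit 1) (nat_lit 4) (nat_lit 2) (nat_lit 5) (nat_lit 2) (nat_lit 4) (nat_lit 532) (nat_lit 347) (nat_lit 321)) (XT.lf (nat_lit 0) (nat_lit 11560404861113) (nat_lit 76) (nat_lit 1337625910450) (nat_lit 76) (nat_lit 1337524978788) (nat_lit 1) (nat_lit 4) (nat_lit 2) (nat_lit 5) (nat_lit 2) (nat_lit 4) (nat_lit 533) (nat_lit 347) (nat_lit 320))))) (XT.nd (nat_lit 234) (nat_lit 0) (nat_lit 0) (XT.nd (nat_lit 78) (nat_lit 0) (nat_lit 0) (XT.lf (nat_lit 0) (nat_lit 12487020680119)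 (nat_lit 76) (nat_lit 1443706247102) (nat_lit 76) (nat_lit 1443604245555) (nat_lit 1) (nat_lit 4) (nat_lit 2) (nat_lit 5) (nat_lit 2) (nat_lit 4) (nat_lit 534) (nat_lit 347) (nat_lit 319)) (XT.nd (nat_lit 78) (nat_lit 0) (nat_lit 0) (XT.lf (nat_lit 0) (nat_lit 13487740101283) (nat_lit 76) (nat_lit 1558286256668) (nat_lit 76) (nat_lit 1558183264487) (nat_lit 1) (nat_lit 4) (nat_lit 2) (nat_lit 5) (nat_lit 2) (nat_lit 4) (nat_lit 535) (nat_lit 347) (nat_lit 318)) (XT.lf (nat_lit 0) (nat_lit 14568493313769) (nat_lit 76) (nat_lit 1682044931797) (nat_lit 76) (nat_lit 1681941022363) (nat_lit 1) (nat_lit 4) (nat_lit 2) (nat_lit 5) (nat_lit 2) (nat_lit 4) (nat_lit 536) (nat_lit 347) (nat_lit 317)))) (XT.nd (nat_lit 59982) (nat_lit 0) (nat_lit 0) (XT.nd (nat_lit 59904) (nat_lit 0) (nat_lit 0) (XT.lf (nat_lit 0) (nat_lit 15735684781058) (nat_lit 76) (nat_lit 1815715657231) (nat_lit 76) (nat_lit 1815610898488)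 (nat_lit 1) (nat_lit 4) (nat_lit 2) (nat_lit 5) (nat_lit 2) (nat_lit 4) (nat_lit 537) (nat_lit 347) (nat_lit 316)) (XT.lf (nat_lit 0) (nat_lit 602060216372) (nat_lit 76) (nat_lit 81291096199) (nat_lit 76) (nat_lit 81291096199) (nat_lit 1) (nat_lit 4) (nat_lit 2) (nat_lit 5) (nat_lit 2) (nat_lit 4) (nat_lit 504) (nat_lit 348) (nat_lit 348))) (XT.nd (nat_lit 78) (nat_lit 0) (nat_lit 0) (XT.lf (nat_lit 0) (nat_lit 1304990907523) (nat_lit 76) (nat_lit 173235073451) (nat_lit 76) (nat_lit 173225843442) (nat_lit 1) (nat_lit 4) (nat_lit 2) (nat_lit 5) (nat_lit 2) (nat_lit 4) (nat_lit 505) (nat_lit 348) (nat_lit 347)) (XT.lf (nat_lit 0) (nat_lit 1413709619732) (nat_lit 76) (nat_lit 184854459482) (nat_lit 76) (nat_lit 184836683170) (nat_lit 1) (nat_lit 4) (nat_lit 2) (nat_lit 5) (nat_lit 2) (nat_lit 4) (nat_lit 506) (nat_lit 348) (nat_lit 346))))))) (XT.nd (nat_lit 936) (nat_lit 0) (nat_lit 0) (XT.nd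 (nat_lit 468) (nat_lit 0) (nat_lit 0) (XT.nd (nat_lit 234) (nat_lit 0) (nat_lit 0) (XT.nd (nat_lit 78) (nat_lit 0) (nat_lit 0) (XT.lf (nat_lit 0) (nat_lit 1530920828408) (nat_lit 76) (nat_lit 197509206113) (nat_lit 76) (nat_lit 197483516556) (nat_lit 1) (nat_lit 4) (nat_lit 2) (nat_lit 5) (nat_lit 2) (nat_lit 4) (nat_lit 507) (nat_lit 348) (nat_lit 345)) (XT.nd (nat_lit 78) (nat_lit 0) (nat_lit 0) (XT.lf (nat_lit 0) (nat_lit 1657319118490) (nat_lit 76) (nat_lit 211274304434) (nat_lit 76) (nat_lit 211241287799) (nat_lit 1) (nat_lit 4) (nat_lit 2) (nat_lit 5) (nat_lit 2) (nat_lit 4) (nat_lit 508) (nat_lit 348) (nat_lit 344)) (XT.lf (nat_lit 0) (nat_lit 1793653516882) (nat_lit 76) (nat_lit 226231325399) (nat_lit 76) (nat_lit 226191524433) (nat_lit 1) (nat_lit 4) (nat_lit 2) (nat_lit 5) (nat_lit 2) (nat_lit 4) (nat_lit 509) (nat_lit 348) (nat_lit 343)))) (XT.nd (nat_lit 78) (nat_lit 0) (nat_lit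 0) (XT.lf (nat_lit 0) (nat_lit 1940731931131) (nat_lit 76) (nat_lit 242468903207) (nat_lit 76) (nat_lit 242422820452) (nat_lit 1) (nat_lit 4) (nat_lit 2) (nat_lit 5) (nat_lit 2) (nat_lit 4) (nat_lit 510) (nat_lit 348) (nat_lit 342)) (XT.nd (nat_lit 78) (nat_lit 0) (nat_lit 0) (XT.lf (nat_lit 0) (nat_lit 2099425937025) (nat_lit 76) (nat_lit 260083260539) (nat_lit 76) (nat_lit 260031361313) (nat_lit 1) (nat_lit 4) (nat_lit 2) (nat_lit 5) (nat_lit 2) (nat_lit 4) (nat_lit 511) (nat_lit 348) (nat_lit 341)) (XT.lf (nat_lit 0) (nat_lit 2270675943487) (nat_lit 76) (nat_lit 279178778774) (nat_lit 76) (nat_lit 279121493927) (nat_lit 1) (nat_lit 4) (nat_lit 2) (nat_lit 5) (nat_lit 2) (nat_lit 4) (nat_lit 512) (nat_lit 348) (nat_lit 340))))) (XT.nd (nat_lit 234) (nat_lit 0) (nat_lit 0) (XT.nd (nat_lit 78) (nat_lit 0) (nat_lit 0) (XT.lf (nat_lit 0) (nat_lit 2455496765371) (nat_lit 76) (nat_lit 299868616538)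 (nat_lit 76) (nat_lit 299806345004) (nat_lit 1) (nat_lit 4) (nat_lit 2) (nat_lit 5) (nat_lit 2) (nat_lit 4) (nat_lit 513) (nat_lit 348) (nat_lit 339)) (XT.nd (nat_lit 78) (nat_lit 0) (nat_lit 0) (XT.lf (nat_lit 0) (nat_lit 2654983637176) (nat_lit 76) (nat_lit 322275380276) (nat_lit 76) (nat_lit 322208491441) (nat_lit 1) (nat_lit 4) (nat_lit 2) (nat_lit 5) (nat_lit 2) (nat_lit 4) (nat_lit 514) (nat_lit 348) (nat_lit 338)) (XT.lf (nat_lit 0) (nat_lit 2870318703328) (nat_lit 76) (nat_lit 346531850812) (nat_lit 76) (nat_lit 346460686696) (nat_lit 1) (nat_lit 4) (nat_lit 2) (nat_lit 5) (nat_lit 2) (nat_lit 4) (nat_lit 515) (nat_lit 348) (nat_lit 337)))) (XT.nd (nat_lit 78) (nat_lit 0) (nat_lit 0) (XT.lf (nat_lit 0) (nat_lit 3102778023479) (nat_lit 76) (nat_lit 372781770192) (nat_lit 76) (nat_lit 372706647484) (nat_lit 1) (nat_lit 4) (nat_lit 2) (nat_lit 5) (nat_lit 2) (nat_lit 4) (nat_lit 516)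 (nat_lit 348) (nat_lit 336)) (XT.nd (nat_lit 78) (nat_lit 0) (nat_lit 0) (XT.lf (nat_lit 0) (nat_lit 3353739134341) (nat_lit 76) (nat_lit 401180693494) (nat_lit 76) (nat_lit 401101905423) (nat_lit 1) (nat_lit 4) (nat_lit 2) (nat_lit 5) (nat_lit 2) (nat_lit 4) (nat_lit 517) (nat_lit 348) (nat_lit 335)) (XT.lf (nat_lit 0) (nat_lit 3624689212866) (nat_lit 76) (nat_lit 431896910634) (nat_lit 76) (nat_lit 431814728709) (nat_lit 1) (nat_lit 4) (nat_lit 2) (nat_lit 5) (nat_lit 2) (nat_lit 4) (nat_lit 518) (nat_lit 348) (nat_lit 334)))))) (XT.nd (nat_lit 468) (nat_lit 0) (nat_lit 0) (XT.nd (nat_lit 234) (nat_lit 0) (nat_lit 0) (XT.nd (nat_lit 78) (nat_lit 0) (nat_lit 0) (XT.lf (nat_lit 0) (nat_lit 3917233889150) (nat_lit 76) (nat_lit 465112443641) (nat_lit 76) (nat_lit 465027119256) (nat_lit 1) (nat_lit 4) (nat_lit 2) (nat_lit 5) (nat_lit 2) (nat_lit 4) (nat_lit 519) (nat_lit 348) (nat_lit 333))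 (XT.nd (nat_lit 78) (nat_lit 0) (nat_lit 0) (XT.lf (nat_lit 0) (nat_lit 4233106761274) (nat_lit 76) (nat_lit 501024125301) (nat_lit 76) (nat_lit 500935891233) (nat_lit 1) (nat_lit 4) (nat_lit 2) (nat_lit 5) (nat_lit 2) (nat_lit 4) (nat_lit 520) (nat_lit 348) (nat_lit 332)) (XT.lf (nat_lit 0) (nat_lit 4574179668481) (nat_lit 76) (nat_lit 539844765580) (nat_lit 76) (nat_lit 539753837361) (nat_lit 1) (nat_lit 4) (nat_lit 2) (nat_lit 5) (nat_lit 2) (nat_lit 4) (nat_lit 521) (nat_lit 348) (nat_lit 331)))) (XT.nd (nat_lit 78) (nat_lit 0) (nat_lit 0) (XT.lf (nat_lit 0) (nat_lit 4942473783554) (nat_lit 76) (nat_lit 581804412717) (nat_lit 76) (nat_lit 581710989914) (nat_lit 1) (nat_lit 4) (nat_lit 2) (nat_lit 5) (nat_lit 2) (nat_lit 4) (nat_lit 522) (nat_lit 348) (nat_lit 330)) (XT.nd (nat_lit 78) (nat_lit 0) (nat_lit 0) (XT.lf (nat_lit 0) (nat_lit 5340171590137) (nat_lit 76) (nat_lit 627151716474)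 (nat_lit 76) (nat_lit 627055983869) (nat_lit 1) (nat_lit 4) (nat_lit 2) (nat_lit 5) (nat_lit 2) (nat_lit 4) (nat_lit 523) (nat_lit 348) (nat_lit 329)) (XT.lf (nat_lit 0) (nat_lit 5769629815974) (nat_lit 76) (nat_lit 676155401612) (nat_lit 76) (nat_lit 676057530303) (nat_lit 1) (nat_lit 4) (nat_lit 2) (nat_lit 5) (nat_lit 2) (nat_lit 4) (nat_lit 524) (nat_lit 348) (nat_lit 328))))) (XT.nd (nat_lit 234) (nat_lit 0) (nat_lit 0) (XT.nd (nat_lit 78) (nat_lit 0) (nat_lit 0) (XT.lf (nat_lit 0) (nat_lit 6233393398700) (nat_lit 76) (nat_lit 729105860339) (nat_lit 76) (nat_lit 729006008749) (nat_lit 1) (nat_lit 4) (nat_lit 2) (nat_lit 5) (nat_lit 2) (nat_lit 4) (nat_lit 525) (nat_lit 348) (nat_lit 327)) (XT.nd (nat_lit 78) (nat_lit 0) (nat_lit 0) (XT.lf (nat_lit 0) (nat_lit 6734210566952) (nat_lit 76) (nat_lit 786316873154) (nat_lit 76) (nat_lit 786215187969) (nat_lit 1) (nat_lit 4) (nat_lit 2) (nat_lit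 5) (nat_lit 2) (nat_lit 4) (nat_lit 526) (nat_lit 348) (nat_lit 326)) (XT.lf (nat_lit 0) (nat_lit 7275049126172) (nat_lit 76) (nat_lit 848127468278) (nat_lit 76) (nat_lit 848024085321) (nat_lit 1) (nat_lit 4) (nat_lit 2) (nat_lit 5) (nat_lit 2) (nat_lit 4) (nat_lit 527) (nat_lit 348) (nat_lit 325)))) (XT.nd (nat_lit 156) (nat_lit 0) (nat_lit 0) (XT.nd (nat_lit 78) (nat_lit 0) (nat_lit 0) (XT.lf (nat_lit 0) (nat_lit 7859114045600) (nat_lit 76) (nat_lit 914903930721) (nat_lit 76) (nat_lit 914798975752) (nat_lit 1) (nat_lit 4) (nat_lit 2) (nat_lit 5) (nat_lit 2) (nat_lit 4) (nat_lit 528) (nat_lit 348) (nat_lit 324)) (XT.lf (nat_lit 0) (nat_lit 8489866450684) (nat_lit 76) (nat_lit 987041972852) (nat_lit 76) (nat_lit 986935562317) (nat_lit 1) (nat_lit 4) (nat_lit 2) (nat_lit 5) (nat_lit 2) (nat_lit 4) (nat_lit 529) (nat_lit 348) (nat_lit 323))) (XT.nd (nat_lit 78) (nat_lit 0) (nat_lit 0) (XT.lf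 (nat_lit 0) (nat_lit 9171044133455) (nat_lit 76) (nat_lit 1064969079366) (nat_lit 76) (nat_lit 1064861321085) (nat_lit 1) (nat_lit 4) (nat_lit 2) (nat_lit 5) (nat_lit 2) (nat_lit 4) (nat_lit 530) (nat_lit 348) (nat_lit 322)) (XT.lf (nat_lit 0) (nat_lit 9906683702403) (nat_lit 76) (nat_lit 1149147040523) (nat_lit 76) (nat_lit 1149038034328) (nat_lit 1) (nat_lit 4) (nat_lit 2) (nat_lit 5) (nat_lit 2) (nat_lit 4) (nat_lit 531) (nat_lit 348) (nat_lit 321))))))))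
noncomputable def xc6 : XT := (XT.nd (nat_lit 61620) (nat_lit 0) (nat_lit 0) (XT.nd (nat_lit 60606) (nat_lit 0) (nat_lit 0) (XT.nd (nat_lit 60138) (nat_lit 0) (nat_lit 0) (XT.nd (nat_lit 234) (nat_lit 0) (nat_lit 0) (XT.nd (nat_lit 78) (nat_lit 0) (nat_lit 0) (XT.lf (nat_lit 0) (nat_lit 10701144503121) (nat_lit 76) (nat_lit 1240074688686) (nat_lit 76) (nat_lit 1239964527016) (nat_lit 1) (nat_lit 4) (nat_lit 2) (nat_lit 5) (nat_lit 2) (nat_lit 4) (nat_lit 532) (nat_lit 348) (nat_lit 320)) (XT.nd (nat_lit 78) (nat_lit 0) (nat_lit 0) (XT.lf (nat_lit 0) (nat_lit 11559134451467) (nat_lit 76) (nat_lit 1338290854363) (nat_lit 76) (nat_lit 1338179622808) (nat_lit 1) (nat_lit 4) (nat_lit 2) (nat_lit 5) (nat_lit 2) (nat_lit 4) (nat_lit 533) (nat_lit 348) (nat_lit 319)) (XT.lf (nat_lit 0) (nat_lit 12485737932318) (nat_lit 76) (nat_lit 1444377559275) (nat_lit 76) (nat_lit 1444265337086) (nat_lit 1)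 (nat_lit 4) (nat_lit 2) (nat_lit 5) (nat_lit 2) (nat_lit 4) (nat_lit 534) (nat_lit 348) (nat_lit 318)))) (XT.nd (nat_lit 78) (nat_lit 0) (nat_lit 0) (XT.lf (nat_lit 0) (nat_lit 13486445929265) (nat_lit 76) (nat_lit 1558963465378) (nat_lit 76) (nat_lit 1558850325936) (nat_lit 1) (nat_lit 4) (nat_lit 2) (nat_lit 5) (nat_lit 2) (nat_lit 4) (nat_lit 535) (nat_lit 348) (nat_lit 317)) (XT.nd (nat_lit 78) (nat_lit 0) (nat_lit 0) (XT.lf (nat_lit 0) (nat_lit 14567188563772) (nat_lit 76) (nat_lit 1682727600264) (nat_lit 76) (nat_lit 1682613611513) (nat_lit 1) (nat_lit 4) (nat_lit 2) (nat_lit 5) (nat_lit 2) (nat_lit 4) (nat_lit 536) (nat_lit 348) (nat_lit 316)) (XT.lf (nat_lit 0) (nat_lit 15734370236636) (nat_lit 76) (nat_lit 1816403381029) (nat_lit 76) (nat_lit 1816288605880) (nat_lit 1) (nat_lit 4) (nat_lit 2) (nat_lit 5) (nat_lit 2) (nat_lit 4) (nat_lit 537) (nat_lit 348) (nat_lit 315))))) (XT.nd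 (nat_lit 234) (nat_lit 0) (nat_lit 0) (XT.nd (nat_lit 78) (nat_lit 0) (nat_lit 0) (XT.lf (nat_lit 0) (nat_lit 511850156047) (nat_lit 76) (nat_lit 71937336313) (nat_lit 76) (nat_lit 71937336313) (nat_lit 1) (nat_lit 4) (nat_lit 2) (nat_lit 5) (nat_lit 2) (nat_lit 4) (nat_lit 502) (nat_lit 349) (nat_lit 349)) (XT.nd (nat_lit 78) (nat_lit 0) (nat_lit 0) (XT.lf (nat_lit 0) (nat_lit 1110500444434) (nat_lit 76) (nat_lit 152842656550) (nat_lit 76) (nat_lit 152832688141) (nat_lit 1) (nat_lit 4) (nat_lit 2) (nat_lit 5) (nat_lit 2) (nat_lit 4) (nat_lit 503) (nat_lit 349) (nat_lit 348)) (XT.lf (nat_lit 0) (nat_lit 1204005474765) (nat_lit 76) (nat_lit 162651495641) (nat_lit 76) (nat_lit 162632297224) (nat_lit 1) (nat_lit 4) (nat_lit 2) (nat_lit 5) (nat_lit 2) (nat_lit 4) (nat_lit 504) (nat_lit 349) (nat_lit 347)))) (XT.nd (nat_lit 78) (nat_lit 0) (nat_lit 0) (XT.lf (nat_lit 0) (nat_lit 1304769506971)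 (nat_lit 76) (nat_lit 173359316354) (nat_lit 76) (nat_lit 173331571633) (nat_lit 1) (nat_lit 4) (nat_lit 2) (nat_lit 5) (nat_lit 2) (nat_lit 4) (nat_lit 505) (nat_lit 349) (nat_lit 346)) (XT.nd (nat_lit 78) (nat_lit 0) (nat_lit 0) (XT.lf (nat_lit 0) (nat_lit 1413389661243) (nat_lit 76) (nat_lit 185029572442) (nat_lit 76) (nat_lit 184993914476) (nat_lit 1) (nat_lit 4) (nat_lit 2) (nat_lit 5) (nat_lit 2) (nat_lit 4) (nat_lit 506) (nat_lit 349) (nat_lit 345)) (XT.lf (nat_lit 0) (nat_lit 1530509612568) (nat_lit 76) (nat_lit 197731420976) (nat_lit 76) (nat_lit 197688435932) (nat_lit 1) (nat_lit 4) (nat_lit 2) (nat_lit 5) (nat_lit 2) (nat_lit 4) (nat_lit 507) (nat_lit 349) (nat_lit 344)))))) (XT.nd (nat_lit 468) (nat_lit 0) (nat_lit 0) (XT.nd (nat_lit 234) (nat_lit 0) (nat_lit 0) (XT.nd (nat_lit 78) (nat_lit 0) (nat_lit 0) (XT.lf (nat_lit 0) (nat_lit 1656823405104) (nat_lit 76) (nat_lit 211540132172)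 (nat_lit 76) (nat_lit 211490362796) (nat_lit 1) (nat_lit 4) (nat_lit 2) (nat_lit 5) (nat_lit 2) (nat_lit 4) (nat_lit 508) (nat_lit 349) (nat_lit 343)) (XT.nd (nat_lit 78) (nat_lit 0) (nat_lit 0) (XT.lf (nat_lit 0) (nat_lit 1793079565028) (nat_lit 76) (nat_lit 226537535428) (nat_lit 76) (nat_lit 226481484264) (nat_lit 1) (nat_lit 4) (nat_lit 2) (nat_lit 5) (nat_lit 2) (nat_lit 4) (nat_lit 509) (nat_lit 349) (nat_lit 342)) (XT.lf (nat_lit 0) (nat_lit 1940085536250) (nat_lit 76) (nat_lit 242812504245) (nat_lit 76) (nat_lit 242750636610) (nat_lit 1) (nat_lit 4) (nat_lit 2) (nat_lit 5) (nat_lit 2) (nat_lit 4) (nat_lit 510) (nat_lit 349) (nat_lit 341)))) (XT.nd (nat_lit 78) (nat_lit 0) (nat_lit 0) (XT.lf (nat_lit 0) (nat_lit 2098712465267) (nat_lit 76) (nat_lit 260461482884) (nat_lit 76) (nat_lit 260394229627) (nat_lit 1) (nat_lit 4) (nat_lit 2) (nat_lit 5) (nat_lit 2) (nat_lit 4) (nat_lit 511)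 (nat_lit 349) (nat_lit 340)) (XT.nd (nat_lit 78) (nat_lit 0) (nat_lit 0) (XT.lf (nat_lit 0) (nat_lit 2269900363511) (nat_lit 76) (nat_lit 279589057883) (nat_lit 76) (nat_lit 279516817940) (nat_lit 1) (nat_lit 4) (nat_lit 2) (nat_lit 5) (nat_lit 2) (nat_lit 4) (nat_lit 512) (nat_lit 349) (nat_lit 339)) (XT.lf (nat_lit 0) (nat_lit 2454663677784) (nat_lit 76) (nat_lit 300308577836) (nat_lit 76) (nat_lit 300231720591) (nat_lit 1) (nat_lit 4) (nat_lit 2) (nat_lit 5) (nat_lit 2) (nat_lit 4) (nat_lit 513) (nat_lit 349) (nat_lit 338))))) (XT.nd (nat_lit 234) (nat_lit 0) (nat_lit 0) (XT.nd (nat_lit 78) (nat_lit 0) (nat_lit 0) (XT.lf (nat_lit 0) (nat_lit 2654097301803) (nat_lit 76) (nat_lit 322742825083) (nat_lit 76) (nat_lit 322661692559) (nat_lit 1) (nat_lit 4) (nat_lit 2) (nat_lit 5) (nat_lit 2) (nat_lit 4) (nat_lit 514) (nat_lit 349) (nat_lit 337)) (XT.nd (nat_lit 78) (nat_lit 0) (nat_lit 0)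 (XT.lf (nat_lit 0) (nat_lit 2869383064448) (nat_lit 76) (nat_lit 347024743311) (nat_lit 76) (nat_lit 346939652195) (nat_lit 1) (nat_lit 4) (nat_lit 2) (nat_lit 5) (nat_lit 2) (nat_lit 4) (nat_lit 515) (nat_lit 349) (nat_lit 336)) (XT.lf (nat_lit 0) (nat_lit 3101796733204) (nat_lit 76) (nat_lit 373298225370) (nat_lit 76) (nat_lit 373209468890) (nat_lit 1) (nat_lit 4) (nat_lit 2) (nat_lit 5) (nat_lit 2) (nat_lit 4) (nat_lit 516) (nat_lit 349) (nat_lit 335)))) (XT.nd (nat_lit 156) (nat_lit 0) (nat_lit 0) (XT.nd (nat_lit 78) (nat_lit 0) (nat_lit 0) (XT.lf (nat_lit 0) (nat_lit 3352715574256) (nat_lit 76) (nat_lit 401718965968) (nat_lit 76) (nat_lit 401626815633) (nat_lit 1) (nat_lit 4) (nat_lit 2) (nat_lit 5) (nat_lit 2) (nat_lit 4) (nat_lit 517) (nat_lit 349) (nat_lit 334)) (XT.lf (nat_lit 0) (nat_lit 3623626514068) (nat_lit 76) (nat_lit 432455384307) (nat_lit 76) (nat_lit 432360091514) (nat_lit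 1) (nat_lit 4) (nat_lit 2) (nat_lit 5) (nat_lit 2) (nat_lit 4) (nat_lit 518) (nat_lit 349) (nat_lit 333))) (XT.nd (nat_lit 78) (nat_lit 0) (nat_lit 0) (XT.lf (nat_lit 0) (nat_lit 3916134950802) (nat_lit 76) (nat_lit 465689622128) (nat_lit 76) (nat_lit 465591419651) (nat_lit 1) (nat_lit 4) (nat_lit 2) (nat_lit 5) (nat_lit 2) (nat_lit 4) (nat_lit 519) (nat_lit 349) (nat_lit 332)) (XT.lf (nat_lit 0) (nat_lit 4231974267788) (nat_lit 76) (nat_lit 501618623060) (nat_lit 76) (nat_lit 501517726432) (nat_lit 1) (nat_lit 4) (nat_lit 2) (nat_lit 5) (nat_lit 2) (nat_lit 4) (nat_lit 520) (nat_lit 349) (nat_lit 331))))))) (XT.nd (nat_lit 936) (nat_lit 0) (nat_lit 0) (XT.nd (nat_lit 468) (nat_lit 0) (nat_lit 0) (XT.nd (nat_lit 234) (nat_lit 0) (nat_lit 0) (XT.nd (nat_lit 78) (nat_lit 0) (nat_lit 0) (XT.lf (nat_lit 0) (nat_lit 4573016105423) (nat_lit 76) (nat_lit 540455299703) (nat_lit 76) (nat_lit 540351908490)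 (nat_lit 1) (nat_lit 4) (nat_lit 2) (nat_lit 5) (nat_lit 2) (nat_lit 4) (nat_lit 521) (nat_lit 349) (nat_lit 330)) (XT.nd (nat_lit 78) (nat_lit 0) (nat_lit 0) (XT.lf (nat_lit 0) (nat_lit 4941281452373) (nat_lit 76) (nat_lit 582429795325) (nat_lit 76) (nat_lit 582324094311) (nat_lit 1) (nat_lit 4) (nat_lit 2) (nat_lit 5) (nat_lit 2) (nat_lit 4) (nat_lit 522) (nat_lit 349) (nat_lit 329)) (XT.lf (nat_lit 0) (nat_lit 5338952621806) (nat_lit 76) (nat_lit 627790847678) (nat_lit 76) (nat_lit 627683007960) (nat_lit 1) (nat_lit 4) (nat_lit 2) (nat_lit 5) (nat_lit 2) (nat_lit 4) (nat_lit 523) (nat_lit 349) (nat_lit 328)))) (XT.nd (nat_lit 78) (nat_lit 0) (nat_lit 0) (XT.lf (nat_lit 0) (nat_lit 5768386183615) (nat_lit 76) (nat_lit 676807262998) (nat_lit 76) (nat_lit 676697442998) (nat_lit 1) (nat_lit 4) (nat_lit 2) (nat_lit 5) (nat_lit 2) (nat_lit 4) (nat_lit 524) (nat_lit 349) (nat_lit 327)) (XT.nd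 (nat_lit 78) (nat_lit 0) (nat_lit 0) (XT.lf (nat_lit 0) (nat_lit 6232126929277) (nat_lit 76) (nat_lit 729769508931) (nat_lit 76) (nat_lit 729657855338) (nat_lit 1) (nat_lit 4) (nat_lit 2) (nat_lit 5) (nat_lit 2) (nat_lit 4) (nat_lit 525) (nat_lit 349) (nat_lit 326)) (XT.lf (nat_lit 0) (nat_lit 6732922952100) (nat_lit 76) (nat_lit 786991435825) (nat_lit 76) (nat_lit 786878084459) (nat_lit 1) (nat_lit 4) (nat_lit 2) (nat_lit 5) (nat_lit 2) (nat_lit 4) (nat_lit 526) (nat_lit 349) (nat_lit 325))))) (XT.nd (nat_lit 234) (nat_lit 0) (nat_lit 0) (XT.nd (nat_lit 78) (nat_lit 0) (nat_lit 0) (XT.lf (nat_lit 0) (nat_lit 7273741932220) (nat_lit 76) (nat_lit 848812136578) (nat_lit 76) (nat_lit 848697213201) (nat_lit 1) (nat_lit 4) (nat_lit 2) (nat_lit 5) (nat_lit 2) (nat_lit 4) (nat_lit 527) (nat_lit 349) (nat_lit 324)) (XT.nd (nat_lit 78) (nat_lit 0) (nat_lit 0) (XT.lf (nat_lit 0) (nat_lit 7857788722851)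 (nat_lit 76) (nat_lit 915597956085) (nat_lit 76) (nat_lit 915481577141) (nat_lit 1) (nat_lit 4) (nat_lit 2) (nat_lit 5) (nat_lit 2) (nat_lit 4) (nat_lit 528) (nat_lit 349) (nat_lit 323)) (XT.lf (nat_lit 0) (nat_lit 8488524342012) (nat_lit 76) (nat_lit 987744662165) (nat_lit 76) (nat_lit 987626935474) (nat_lit 1) (nat_lit 4) (nat_lit 2) (nat_lit 5) (nat_lit 2) (nat_lit 4) (nat_lit 529) (nat_lit 349) (nat_lit 322)))) (XT.nd (nat_lit 78) (nat_lit 0) (nat_lit 0) (XT.lf (nat_lit 0) (nat_lit 9169686482261) (nat_lit 76) (nat_lit 1065679790852) (nat_lit 76) (nat_lit 1065560816249) (nat_lit 1) (nat_lit 4) (nat_lit 2) (nat_lit 5) (nat_lit 2) (nat_lit 4) (nat_lit 530) (nat_lit 349) (nat_lit 321)) (XT.nd (nat_lit 78) (nat_lit 0) (nat_lit 0) (XT.lf (nat_lit 0) (nat_lit 9905311659985) (nat_lit 76) (nat_lit 1149865179949) (nat_lit 76) (nat_lit 1149745049870) (nat_lit 1) (nat_lit 4) (nat_lit 2) (nat_lit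 5) (nat_lit 2) (nat_lit 4) (nat_lit 531) (nat_lit 349) (nat_lit 320)) (XT.lf (nat_lit 0) (nat_lit 10699759135497) (nat_lit 76) (nat_lit 1240799705833) (nat_lit 76) (nat_lit 1240678505869) (nat_lit 1) (nat_lit 4) (nat_lit 2) (nat_lit 5) (nat_lit 2) (nat_lit 4) (nat_lit 532) (nat_lit 349) (nat_lit 319)))))) (XT.nd (nat_lit 59982) (nat_lit 0) (nat_lit 0) (XT.nd (nat_lit 234) (nat_lit 0) (nat_lit 0) (XT.nd (nat_lit 78) (nat_lit 0) (nat_lit 0) (XT.lf (nat_lit 0) (nat_lit 11557736745687) (nat_lit 76) (nat_lit 1339022239770) (nat_lit 76) (nat_lit 1338900049172) (nat_lit 1) (nat_lit 4) (nat_lit 2) (nat_lit 5) (nat_lit 2) (nat_lit 4) (nat_lit 533) (nat_lit 349) (nat_lit 318)) (XT.nd (nat_lit 78) (nat_lit 0) (nat_lit 0) (XT.lf (nat_lit 0) (nat_lit 12484328802321) (nat_lit 76) (nat_lit 1445114841220) (nat_lit 76) (nat_lit 1444991733369) (nat_lit 1) (nat_lit 4) (nat_lit 2) (nat_lit 5) (nat_lit 2) (nat_lit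 4) (nat_lit 534) (nat_lit 349) (nat_lit 317)) (XT.lf (nat_lit 0) (nat_lit 13485026221290) (nat_lit 76) (nat_lit 1559706207080) (nat_lit 76) (nat_lit 1559582249920) (nat_lit 1) (nat_lit 4) (nat_lit 2) (nat_lit 5) (nat_lit 2) (nat_lit 4) (nat_lit 535) (nat_lit 349) (nat_lit 316)))) (XT.nd (nat_lit 78) (nat_lit 0) (nat_lit 0) (XT.lf (nat_lit 0) (nat_lit 14565759061372) (nat_lit 76) (nat_lit 1683475397297) (nat_lit 76) (nat_lit 1683350653740) (nat_lit 1) (nat_lit 4) (nat_lit 2) (nat_lit 5) (nat_lit 2) (nat_lit 4) (nat_lit 536) (nat_lit 349) (nat_lit 315)) (XT.nd (nat_lit 59592) (nat_lit 0) (nat_lit 0) (XT.lf (nat_lit 0) (nat_lit 15732931665323) (nat_lit 76) (nat_lit 1817155858923) (nat_lit 76) (nat_lit 1817030387220) (nat_lit 1) (nat_lit 4) (nat_lit 2) (nat_lit 5) (nat_lit 2) (nat_lit 4) (nat_lit 537) (nat_lit 349) (nat_lit 314)) (XT.lf (nat_lit 0) (nat_lit 434164014180) (nat_lit 76) (nat_lit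 64097460750) (nat_lit 76) (nat_lit 64097460750) (nat_lit 1) (nat_lit 4) (nat_lit 2) (nat_lit 5) (nat_lit 2) (nat_lit 4) (nat_lit 500) (nat_lit 350) (nat_lit 350))))) (XT.nd (nat_lit 234) (nat_lit 0) (nat_lit 0) (XT.nd (nat_lit 78) (nat_lit 0) (nat_lit 0) (XT.lf (nat_lit 0) (nat_lit 943090706591) (nat_lit 76) (nat_lit 135705166144) (nat_lit 76) (nat_lit 135694400262) (nat_lit 1) (nat_lit 4) (nat_lit 2) (nat_lit 5) (nat_lit 2) (nat_lit 4) (nat_lit 501) (nat_lit 350) (nat_lit 349)) (XT.nd (nat_lit 78) (nat_lit 0) (nat_lit 0) (XT.lf (nat_lit 0) (nat_lit 1023576157477) (nat_lit 76) (nat_lit 143949520128) (nat_lit 76) (nat_lit 143928785838) (nat_lit 1) (nat_lit 4) (nat_lit 2) (nat_lit 5) (nat_lit 2) (nat_lit 4) (nat_lit 502) (nat_lit 350) (nat_lit 348)) (XT.lf (nat_lit 0) (nat_lit 1110261331838) (nat_lit 76) (nat_lit 152976838885) (nat_lit 76) (nat_lit 152946874586) (nat_lit 1) (nat_lit 4) (nat_lit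 2) (nat_lit 5) (nat_lit 2) (nat_lit 4) (nat_lit 503) (nat_lit 350) (nat_lit 347)))) (XT.nd (nat_lit 156) (nat_lit 0) (nat_lit 0) (XT.nd (nat_lit 78) (nat_lit 0) (nat_lit 0) (XT.lf (nat_lit 0) (nat_lit 1203659919596) (nat_lit 76) (nat_lit 162840617638) (nat_lit 76) (nat_lit 162802107035) (nat_lit 1) (nat_lit 4) (nat_lit 2) (nat_lit 5) (nat_lit 2) (nat_lit 4) (nat_lit 504) (nat_lit 350) (nat_lit 346)) (XT.lf (nat_lit 0) (nat_lit 1304325393865) (nat_lit 76) (nat_lit 173599308407) (nat_lit 76) (nat_lit 173552884560) (nat_lit 1) (nat_lit 4) (nat_lit 2) (nat_lit 5) (nat_lit 2) (nat_lit 4) (nat_lit 505) (nat_lit 350) (nat_lit 345))) (XT.nd (nat_lit 78) (nat_lit 0) (nat_lit 0) (XT.lf (nat_lit 0) (nat_lit 1412854290786) (nat_lit 76) (nat_lit 185316666399) (nat_lit 76) (nat_lit 185262915473) (nat_lit 1) (nat_lit 4) (nat_lit 2) (nat_lit 5) (nat_lit 2) (nat_lit 4) (nat_lit 506) (nat_lit 350) (nat_lit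 344)) (XT.lf (nat_lit 0) (nat_lit 1529889744566) (nat_lit 76) (nat_lit 198062127807) (nat_lit 76) (nat_lit 198001592550) (nat_lit 1) (nat_lit 4) (nat_lit 2) (nat_lit 5) (nat_lit 2) (nat_lit 4) (nat_lit 507) (nat_lit 350) (nat_lit 343))))))))
noncomputable def xc7 : XT := (XT.nd (nat_lit 1950) (nat_lit 0) (nat_lit 0) (XT.nd (nat_lit 936) (nat_lit 0) (nat_lit 0) (XT.nd (nat_lit 468) (nat_lit 0) (nat_lit 0) (XT.nd (nat_lit 234) (nat_lit 0) (nat_lit 0) (XT.nd (nat_lit 78) (nat_lit 0) (nat_lit 0) (XT.lf (nat_lit 0) (nat_lit 1656125298633) (nat_lit 76) (nat_lit 211911221294) (nat_lit 76) (nat_lit 211844404248) (nat_lit 1) (nat_lit 4) (nat_lit 2) (nat_lit 5) (nat_lit 2) (nat_lit 4) (nat_lit 508) (nat_lit 350) (nat_lit 342)) (XT.nd (nat_lit 78) (nat_lit 0) (nat_lit 0) (XT.lf (nat_lit 0) (nat_lit 1792309015530) (nat_lit 76) (nat_lit 226946015560) (nat_lit 76) (nat_lit 226873382043) (nat_lit 1) (nat_lit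 4) (nat_lit 2) (nat_lit 5) (nat_lit 2) (nat_lit 4) (nat_lit 509) (nat_lit 350) (nat_lit 341)) (XT.lf (nat_lit 0) (nat_lit 1939247909876) (nat_lit 76) (nat_lit 243255605683) (nat_lit 76) (nat_lit 243177586545) (nat_lit 1) (nat_lit 4) (nat_lit 2) (nat_lit 5) (nat_lit 2) (nat_lit 4) (nat_lit 510) (nat_lit 350) (nat_lit 340)))) (XT.nd (nat_lit 78) (nat_lit 0) (nat_lit 0) (XT.lf (nat_lit 0) (nat_lit 2097812730674) (nat_lit 76) (nat_lit 260936641085) (nat_lit 76) (nat_lit 260853635261) (nat_lit 1) (nat_lit 4) (nat_lit 2) (nat_lit 5) (nat_lit 2) (nat_lit 4) (nat_lit 511) (nat_lit 350) (nat_lit 339)) (XT.nd (nat_lit 78) (nat_lit 0) (nat_lit 0) (XT.lf (nat_lit 0) (nat_lit 2268943121307) (nat_lit 76) (nat_lit 280093898274) (nat_lit 76) (nat_lit 280006275148) (nat_lit 1) (nat_lit 4) (nat_lit 2) (nat_lit 5) (nat_lit 2) (nat_lit 4) (nat_lit 512) (nat_lit 350) (nat_lit 338)) (XT.lf (nat_lit 0) (nat_lit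 2453653187794) (nat_lit 76) (nat_lit 300840901735) (nat_lit 76) (nat_lit 300749003329) (nat_lit 1) (nat_lit 4) (nat_lit 2) (nat_lit 5) (nat_lit 2) (nat_lit 4) (nat_lit 513) (nat_lit 350) (nat_lit 337))))) (XT.nd (nat_lit 234) (nat_lit 0) (nat_lit 0) (XT.nd (nat_lit 78) (nat_lit 0) (nat_lit 0) (XT.lf (nat_lit 0) (nat_lit 2653037508306) (nat_lit 76) (nat_lit 323300596676) (nat_lit 76) (nat_lit 323204739677) (nat_lit 1) (nat_lit 4) (nat_lit 2) (nat_lit 5) (nat_lit 2) (nat_lit 4) (nat_lit 514) (nat_lit 350) (nat_lit 336)) (XT.nd (nat_lit 78) (nat_lit 0) (nat_lit 0) (XT.lf (nat_lit 0) (nat_lit 2868277619556) (nat_lit 76) (nat_lit 347606077583) (nat_lit 76) (nat_lit 347506555221) (nat_lit 1) (nat_lit 4) (nat_lit 2) (nat_lit 5) (nat_lit 2) (nat_lit 4) (nat_lit 515) (nat_lit 350) (nat_lit 335)) (XT.lf (nat_lit 0) (nat_lit 3100649018502) (nat_lit 76) (nat_lit 373901376937) (nat_lit 76) (nat_lit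 373798460720) (nat_lit 1) (nat_lit 4) (nat_lit 2) (nat_lit 5) (nat_lit 2) (nat_lit 4) (nat_lit 516) (nat_lit 350) (nat_lit 334)))) (XT.nd (nat_lit 78) (nat_lit 0) (nat_lit 0) (XT.lf (nat_lit 0) (nat_lit 3351528720840) (nat_lit 76) (nat_lit 402342318734) (nat_lit 76) (nat_lit 402236260059) (nat_lit 1) (nat_lit 4) (nat_lit 2) (nat_lit 5) (nat_lit 2) (nat_lit 4) (nat_lit 517) (nat_lit 350) (nat_lit 333)) (XT.nd (nat_lit 78) (nat_lit 0) (nat_lit 0) (XT.lf (nat_lit 0) (nat_lit 3622403421103) (nat_lit 76) (nat_lit 433097441888) (nat_lit 76) (nat_lit 432988473529) (nat_lit 1) (nat_lit 4) (nat_lit 2) (nat_lit 5) (nat_lit 2) (nat_lit 4) (nat_lit 518) (nat_lit 350) (nat_lit 332)) (XT.lf (nat_lit 0) (nat_lit 3914878302700) (nat_lit 76) (nat_lit 466348998980) (nat_lit 76) (nat_lit 466237336470) (nat_lit 1) (nat_lit 4) (nat_lit 2) (nat_lit 5) (nat_lit 2) (nat_lit 4) (nat_lit 519) (nat_lit 350) (nat_lit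 331)))))) (XT.nd (nat_lit 468) (nat_lit 0) (nat_lit 0) (XT.nd (nat_lit 234) (nat_lit 0) (nat_lit 0) (XT.nd (nat_lit 78) (nat_lit 0) (nat_lit 0) (XT.lf (nat_lit 0) (nat_lit 4230686550113) (nat_lit 76) (nat_lit 502294036276) (nat_lit 76) (nat_lit 502179879181) (nat_lit 1) (nat_lit 4) (nat_lit 2) (nat_lit 5) (nat_lit 2) (nat_lit 4) (nat_lit 520) (nat_lit 350) (nat_lit 330)) (XT.nd (nat_lit 78) (nat_lit 0) (nat_lit 0) (XT.lf (nat_lit 0) (nat_lit 4571699619625) (nat_lit 76) (nat_lit 541145561403) (nat_lit 76) (nat_lit 541029094508) (nat_lit 1) (nat_lit 4) (nat_lit 2) (nat_lit 5) (nat_lit 2) (nat_lit 4) (nat_lit 521) (nat_lit 350) (nat_lit 329)) (XT.lf (nat_lit 0) (nat_lit 4939938329425) (nat_lit 76) (nat_lit 583133805622) (nat_lit 76) (nat_lit 583015200022) (nat_lit 1) (nat_lit 4) (nat_lit 2) (nat_lit 5) (nat_lit 2) (nat_lit 4) (nat_lit 522) (nat_lit 350) (nat_lit 328)))) (XT.nd (nat_lit 78)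 (nat_lit 0) (nat_lit 0) (XT.lf (nat_lit 0) (nat_lit 5337584834830) (nat_lit 76) (nat_lit 628507588157) (nat_lit 76) (nat_lit 628387002276) (nat_lit 1) (nat_lit 4) (nat_lit 2) (nat_lit 5) (nat_lit 2) (nat_lit 4) (nat_lit 523) (nat_lit 350) (nat_lit 327)) (XT.nd (nat_lit 78) (nat_lit 0) (nat_lit 0) (XT.lf (nat_lit 0) (nat_lit 5766995559575) (nat_lit 76) (nat_lit 677535790683) (nat_lit 76) (nat_lit 677413371207) (nat_lit 1) (nat_lit 4) (nat_lit 2) (nat_lit 5) (nat_lit 2) (nat_lit 4) (nat_lit 524) (nat_lit 350) (nat_lit 326)) (XT.lf (nat_lit 0) (nat_lit 6230715159809) (nat_lit 76) (nat_lit 730508950696) (nat_lit 76) (nat_lit 730384833448) (nat_lit 1) (nat_lit 4) (nat_lit 2) (nat_lit 5) (nat_lit 2) (nat_lit 4) (nat_lit 525) (nat_lit 350) (nat_lit 325))))) (XT.nd (nat_lit 234) (nat_lit 0) (nat_lit 0) (XT.nd (nat_lit 78) (nat_lit 0) (nat_lit 0) (XT.lf (nat_lit 0) (nat_lit 6731491603531) (nat_lit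 76) (nat_lit 787740983218) (nat_lit 76) (nat_lit 787615293959) (nat_lit 1) (nat_lit 4) (nat_lit 2) (nat_lit 5) (nat_lit 2) (nat_lit 4) (nat_lit 526) (nat_lit 350) (nat_lit 324)) (XT.nd (nat_lit 78) (nat_lit 0) (nat_lit 0) (XT.lf (nat_lit 0) (nat_lit 7272292454853) (nat_lit 76) (nat_lit 849571041036) (nat_lit 76) (nat_lit 849443896210) (nat_lit 1) (nat_lit 4) (nat_lit 2) (nat_lit 5) (nat_lit 2) (nat_lit 4) (nat_lit 527) (nat_lit 350) (nat_lit 323)) (XT.lf (nat_lit 0) (nat_lit 7856322459561) (nat_lit 76) (nat_lit 916365524491) (nat_lit 76) (nat_lit 916237031919) (nat_lit 1) (nat_lit 4) (nat_lit 2) (nat_lit 5) (nat_lit 2) (nat_lit 4) (nat_lit 528) (nat_lit 350) (nat_lit 322)))) (XT.nd (nat_lit 156) (nat_lit 0) (nat_lit 0) (XT.nd (nat_lit 78) (nat_lit 0) (nat_lit 0) (XT.lf (nat_lit 0) (nat_lit 8487042536201) (nat_lit 76) (nat_lit 988520252744) (nat_lit 76) (nat_lit 988390512259) (nat_lit 1)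 (nat_lit 4) (nat_lit 2) (nat_lit 5) (nat_lit 2) (nat_lit 4) (nat_lit 529) (nat_lit 350) (nat_lit 321)) (XT.lf (nat_lit 0) (nat_lit 9168190285226) (nat_lit 76) (nat_lit 1066462809371) (nat_lit 76) (nat_lit 1066331913411) (nat_lit 1) (nat_lit 4) (nat_lit 2) (nat_lit 5) (nat_lit 2) (nat_lit 4) (nat_lit 530) (nat_lit 350) (nat_lit 320))) (XT.nd (nat_lit 78) (nat_lit 0) (nat_lit 0) (XT.lf (nat_lit 0) (nat_lit 9903802137743) (nat_lit 76) (nat_lit 1150655076189) (nat_lit 76) (nat_lit 1150523110344) (nat_lit 1) (nat_lit 4) (nat_lit 2) (nat_lit 5) (nat_lit 2) (nat_lit 4) (nat_lit 531) (nat_lit 350) (nat_lit 319)) (XT.lf (nat_lit 0) (nat_lit 10698237275100) (nat_lit 76) (nat_lit 1241595970334) (nat_lit 76) (nat_lit 1241463013854) (nat_lit 1) (nat_lit 4) (nat_lit 2) (nat_lit 5) (nat_lit 2) (nat_lit 4) (nat_lit 532) (nat_lit 350) (nat_lit 318))))))) (XT.nd (nat_lit 60372) (nat_lit 0) (nat_lit 0) (XT.nd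 (nat_lit 59904) (nat_lit 0) (nat_lit 0) (XT.nd (nat_lit 234) (nat_lit 0) (nat_lit 0) (XT.nd (nat_lit 78) (nat_lit 0) (nat_lit 0) (XT.lf (nat_lit 0) (nat_lit 11556203461074) (nat_lit 76) (nat_lit 1339824400808) (nat_lit 76) (nat_lit 1339690527075) (nat_lit 1) (nat_lit 4) (nat_lit 2) (nat_lit 5) (nat_lit 2) (nat_lit 4) (nat_lit 533) (nat_lit 350) (nat_lit 317)) (XT.nd (nat_lit 78) (nat_lit 0) (nat_lit 0) (XT.lf (nat_lit 0) (nat_lit 12482784939729) (nat_lit 76) (nat_lit 1445922462015) (nat_lit 76) (nat_lit 1445787738973) (nat_lit 1) (nat_lit 4) (nat_lit 2) (nat_lit 5) (nat_lit 2) (nat_lit 4) (nat_lit 534) (nat_lit 350) (nat_lit 316)) (XT.lf (nat_lit 0) (nat_lit 13483472564272) (nat_lit 76) (nat_lit 1560518883206) (nat_lit 76) (nat_lit 1560383373767) (nat_lit 1) (nat_lit 4) (nat_lit 2) (nat_lit 5) (nat_lit 2) (nat_lit 4) (nat_lit 535) (nat_lit 350) (nat_lit 315)))) (XT.nd (nat_lit 59514) (nat_lit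 0) (nat_lit 0) (XT.lf (nat_lit 0) (nat_lit 14564196335442) (nat_lit 76) (nat_lit 1684292754284) (nat_lit 76) (nat_lit 1684156516699) (nat_lit 1) (nat_lit 4) (nat_lit 2) (nat_lit 5) (nat_lit 2) (nat_lit 4) (nat_lit 536) (nat_lit 350) (nat_lit 314)) (XT.nd (nat_lit 78) (nat_lit 0) (nat_lit 0) (XT.lf (nat_lit 0) (nat_lit 367187469376) (nat_lit 76) (nat_lit 57569854260) (nat_lit 76) (nat_lit 57569854260) (nat_lit 1) (nat_lit 4) (nat_lit 2) (nat_lit 5) (nat_lit 2) (nat_lit 4) (nat_lit 498) (nat_lit 351) (nat_lit 351)) (XT.lf (nat_lit 0) (nat_lit 798845084692) (nat_lit 76) (nat_lit 121385908199) (nat_lit 76) (nat_lit 121374281047) (nat_lit 1) (nat_lit 4) (nat_lit 2) (nat_lit 5) (nat_lit 2) (nat_lit 4) (nat_lit 499) (nat_lit 351) (nat_lit 350))))) (XT.nd (nat_lit 234) (nat_lit 0) (nat_lit 0) (XT.nd (nat_lit 78) (nat_lit 0) (nat_lit 0) (XT.lf (nat_lit 0) (nat_lit 868193941374) (nat_lit 76) (nat_lit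 128275756804) (nat_lit 76) (nat_lit 128253363770) (nat_lit 1) (nat_lit 4) (nat_lit 2) (nat_lit 5) (nat_lit 2) (nat_lit 4) (nat_lit 500) (nat_lit 351) (nat_lit 349)) (XT.nd (nat_lit 78) (nat_lit 0) (nat_lit 0) (XT.lf (nat_lit 0) (nat_lit 942832464988) (nat_lit 76) (nat_lit 135850083067) (nat_lit 76) (nat_lit 135817721624) (nat_lit 1) (nat_lit 4) (nat_lit 2) (nat_lit 5) (nat_lit 2) (nat_lit 4) (nat_lit 501) (nat_lit 351) (nat_lit 348)) (XT.lf (nat_lit 0) (nat_lit 1023202957895) (nat_lit 76) (nat_lit 144153771885) (nat_lit 76) (nat_lit 144112180433) (nat_lit 1) (nat_lit 4) (nat_lit 2) (nat_lit 5) (nat_lit 2) (nat_lit 4) (nat_lit 502) (nat_lit 351) (nat_lit 347)))) (XT.nd (nat_lit 78) (nat_lit 0) (nat_lit 0) (XT.lf (nat_lit 0) (nat_lit 1109781689683) (nat_lit 76) (nat_lit 153236030303) (nat_lit 76) (nat_lit 153185892547) (nat_lit 1) (nat_lit 4) (nat_lit 2) (nat_lit 5) (nat_lit 2) (nat_lit 4)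 (nat_lit 503) (nat_lit 351) (nat_lit 346)) (XT.nd (nat_lit 78) (nat_lit 0) (nat_lit 0) (XT.lf (nat_lit 0) (nat_lit 1203081719504) (nat_lit 76) (nat_lit 163150679111) (nat_lit 76) (nat_lit 163092628111) (nat_lit 1) (nat_lit 4) (nat_lit 2) (nat_lit 5) (nat_lit 2) (nat_lit 4) (nat_lit 504) (nat_lit 351) (nat_lit 345)) (XT.lf (nat_lit 0) (nat_lit 1303655936422) (nat_lit 76) (nat_lit 173956471785) (nat_lit 76) (nat_lit 173891093707) (nat_lit 1) (nat_lit 4) (nat_lit 2) (nat_lit 5) (nat_lit 2) (nat_lit 4) (nat_lit 505) (nat_lit 351) (nat_lit 344)))))) (XT.nd (nat_lit 468) (nat_lit 0) (nat_lit 0) (XT.nd (nat_lit 234) (nat_lit 0) (nat_lit 0) (XT.nd (nat_lit 78) (nat_lit 0) (nat_lit 0) (XT.lf (nat_lit 0) (nat_lit 1412100335797) (nat_lit 76) (nat_lit 185717442650) (nat_lit 76) (nat_lit 185645280241) (nat_lit 1) (nat_lit 4) (nat_lit 2) (nat_lit 5) (nat_lit 2) (nat_lit 4) (nat_lit 506) (nat_lit 351)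 (nat_lit 343)) (XT.nd (nat_lit 78) (nat_lit 0) (nat_lit 0) (XT.lf (nat_lit 0) (nat_lit 1529057551108) (nat_lit 76) (nat_lit 198503286350) (nat_lit 76) (nat_lit 198424842152) (nat_lit 1) (nat_lit 4) (nat_lit 2) (nat_lit 5) (nat_lit 2) (nat_lit 4) (nat_lit 507) (nat_lit 351) (nat_lit 342)) (XT.lf (nat_lit 0) (nat_lit 1655220662149) (nat_lit 76) (nat_lit 212389770846) (nat_lit 76) (nat_lit 212305510177) (nat_lit 1) (nat_lit 4) (nat_lit 2) (nat_lit 5) (nat_lit 2) (nat_lit 4) (nat_lit 508) (nat_lit 351) (nat_lit 341)))) (XT.nd (nat_lit 78) (nat_lit 0) (nat_lit 0) (XT.lf (nat_lit 0) (nat_lit 1791337302170) (nat_lit 76) (nat_lit 227459186418) (nat_lit 76) (nat_lit 227369540127) (nat_lit 1) (nat_lit 4) (nat_lit 2) (nat_lit 5) (nat_lit 2) (nat_lit 4) (nat_lit 509) (nat_lit 351) (nat_lit 340)) (XT.nd (nat_lit 78) (nat_lit 0) (nat_lit 0) (XT.lf (nat_lit 0) (nat_lit 1938214088297) (nat_lit 76) (nat_lit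 243800833305) (nat_lit 76) (nat_lit 243706200328) (nat_lit 1) (nat_lit 4) (nat_lit 2) (nat_lit 5) (nat_lit 2) (nat_lit 4) (nat_lit 510) (nat_lit 351) (nat_lit 339)) (XT.lf (nat_lit 0) (nat_lit 2096721401485) (nat_lit 76) (nat_lit 261511550897) (nat_lit 76) (nat_lit 261412300618) (nat_lit 1) (nat_lit 4) (nat_lit 2) (nat_lit 5) (nat_lit 2) (nat_lit 4) (nat_lit 511) (nat_lit 351) (nat_lit 338))))) (XT.nd (nat_lit 234) (nat_lit 0) (nat_lit 0) (XT.nd (nat_lit 78) (nat_lit 0) (nat_lit 0) (XT.lf (nat_lit 0) (nat_lit 2267798544331) (nat_lit 76) (nat_lit 280696291594) (nat_lit 76) (nat_lit 280592766036) (nat_lit 1) (nat_lit 4) (nat_lit 2) (nat_lit 5) (nat_lit 2) (nat_lit 4) (nat_lit 512) (nat_lit 351) (nat_lit 337)) (XT.nd (nat_lit 78) (nat_lit 0) (nat_lit 0) (XT.lf (nat_lit 0) (nat_lit 2452459307311) (nat_lit 76) (nat_lit 301468742749) (nat_lit 76) (nat_lit 301361258598) (nat_lit 1) (nat_lit 4)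 (nat_lit 2) (nat_lit 5) (nat_lit 2) (nat_lit 4) (nat_lit 513) (nat_lit 351) (nat_lit 336)) (XT.lf (nat_lit 0) (nat_lit 2651797976427) (nat_lit 76) (nat_lit 323952000368) (nat_lit 76) (nat_lit 323840850854) (nat_lit 1) (nat_lit 4) (nat_lit 2) (nat_lit 5) (nat_lit 2) (nat_lit 4) (nat_lit 514) (nat_lit 351) (nat_lit 335)))) (XT.nd (nat_lit 156) (nat_lit 0) (nat_lit 0) (XT.nd (nat_lit 78) (nat_lit 0) (nat_lit 0) (XT.lf (nat_lit 0) (nat_lit 2866995817868) (nat_lit 76) (nat_lit 348279298570) (nat_lit 76) (nat_lit 348164755201) (nat_lit 1) (nat_lit 4) (nat_lit 2) (nat_lit 5) (nat_lit 2) (nat_lit 4) (nat_lit 515) (nat_lit 351) (nat_lit 334)) (XT.lf (nat_lit 0) (nat_lit 3099328078101) (nat_lit 76) (nat_lit 374594799123) (nat_lit 76) (nat_lit 374477113296) (nat_lit 1) (nat_lit 4) (nat_lit 2) (nat_lit 5) (nat_lit 2) (nat_lit 4) (nat_lit 516) (nat_lit 351) (nat_lit 333))) (XT.nd (nat_lit 78) (nat_lit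 0) (nat_lit 0) (XT.lf (nat_lit 0) (nat_lit 3350171540889) (nat_lit 76) (nat_lit 403054445734) (nat_lit 76) (nat_lit 402933850224) (nat_lit 1) (nat_lit 4) (nat_lit 2) (nat_lit 5) (nat_lit 2) (nat_lit 4) (nat_lit 517) (nat_lit 351) (nat_lit 332)) (XT.lf (nat_lit 0) (nat_lit 3621012686014) (nat_lit 76) (nat_lit 433826888161) (nat_lit 76) (nat_lit 433703598498) (nat_lit 1) (nat_lit 4) (nat_lit 2) (nat_lit 5) (nat_lit 2) (nat_lit 4) (nat_lit 518) (nat_lit 351) (nat_lit 331))))))))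
noncomputable def xc8 : XT := (XT.nd (nat_lit 61230) (nat_lit 0) (nat_lit 0) (XT.nd (nat_lit 936) (nat_lit 0) (nat_lit 0) (XT.nd (nat_lit 468) (nat_lit 0) (nat_lit 0) (XT.nd (nat_lit 234) (nat_lit 0) (nat_lit 0) (XT.nd (nat_lit 78) (nat_lit 0) (nat_lit 0) (XT.lf (nat_lit 0) (nat_lit 3913456498038) (nat_lit 76) (nat_lit 467094481616) (nat_lit 76) (nat_lit 466968697370) (nat_lit 1) (nat_lit 4) (nat_lit 2) (nat_lit 5) (nat_lit 2) (nat_lit 4) (nat_lit 519) (nat_lit 351) (nat_lit 330)) (XT.nd (nat_lit 78) (nat_lit 0) (nat_lit 0) (XT.lf (nat_lit 0) (nat_lit 4229235977329) (nat_lit 76) (nat_lit 503054367397) (nat_lit 76) (nat_lit 502926273349) (nat_lit 1) (nat_lit 4) (nat_lit 2) (nat_lit 5) (nat_lit 2) (nat_lit 4) (nat_lit 520) (nat_lit 351) (nat_lit 329)) (XT.lf (nat_lit 0) (nat_lit 4570222409691) (nat_lit 76) (nat_lit 541919641121) (nat_lit 76) (nat_lit 541789408369) (nat_lit 1) (nat_lit 4)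 (nat_lit 2) (nat_lit 5) (nat_lit 2) (nat_lit 4) (nat_lit 521) (nat_lit 351) (nat_lit 328)))) (XT.nd (nat_lit 78) (nat_lit 0) (nat_lit 0) (XT.lf (nat_lit 0) (nat_lit 4938436455462) (nat_lit 76) (nat_lit 583920615522) (nat_lit 76) (nat_lit 583788402488) (nat_lit 1) (nat_lit 4) (nat_lit 2) (nat_lit 5) (nat_lit 2) (nat_lit 4) (nat_lit 522) (nat_lit 351) (nat_lit 327)) (XT.nd (nat_lit 78) (nat_lit 0) (nat_lit 0) (XT.lf (nat_lit 0) (nat_lit 5336060123804) (nat_lit 76) (nat_lit 629306185262) (nat_lit 76) (nat_lit 629172138635) (nat_lit 1) (nat_lit 4) (nat_lit 2) (nat_lit 5) (nat_lit 2) (nat_lit 4) (nat_lit 523) (nat_lit 351) (nat_lit 326)) (XT.lf (nat_lit 0) (nat_lit 5765449703120) (nat_lit 76) (nat_lit 678345301868) (nat_lit 76) (nat_lit 678209557468) (nat_lit 1) (nat_lit 4) (nat_lit 2) (nat_lit 5) (nat_lit 2) (nat_lit 4) (nat_lit 524) (nat_lit 351) (nat_lit 325))))) (XT.nd (nat_lit 234) (nat_lit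 0) (nat_lit 0) (XT.nd (nat_lit 78) (nat_lit 0) (nat_lit 0) (XT.lf (nat_lit 0) (nat_lit 6229149724253) (nat_lit 76) (nat_lit 731328567510) (nat_lit 76) (nat_lit 731191251098) (nat_lit 1) (nat_lit 4) (nat_lit 2) (nat_lit 5) (nat_lit 2) (nat_lit 4) (nat_lit 525) (nat_lit 351) (nat_lit 324)) (XT.nd (nat_lit 78) (nat_lit 0) (nat_lit 0) (XT.lf (nat_lit 0) (nat_lit 6729908039178) (nat_lit 76) (nat_lit 788569957096) (nat_lit 76) (nat_lit 788431185119) (nat_lit 1) (nat_lit 4) (nat_lit 2) (nat_lit 5) (nat_lit 2) (nat_lit 4) (nat_lit 526) (nat_lit 351) (nat_lit 323)) (XT.lf (nat_lit 0) (nat_lit 7270692104577) (nat_lit 76) (nat_lit 850408678862) (nat_lit 76) (nat_lit 850268559138) (nat_lit 1) (nat_lit 4) (nat_lit 2) (nat_lit 5) (nat_lit 2) (nat_lit 4) (nat_lit 527) (nat_lit 351) (nat_lit 322)))) (XT.nd (nat_lit 78) (nat_lit 0) (nat_lit 0) (XT.lf (nat_lit 0) (nat_lit 7854706566763) (nat_lit 76) (nat_lit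 917211184491) (nat_lit 76) (nat_lit 917069816853) (nat_lit 1) (nat_lit 4) (nat_lit 2) (nat_lit 5) (nat_lit 2) (nat_lit 4) (nat_lit 528) (nat_lit 351) (nat_lit 321)) (XT.nd (nat_lit 78) (nat_lit 0) (nat_lit 0) (XT.lf (nat_lit 0) (nat_lit 8485412252179) (nat_lit 76) (nat_lit 989373340683) (nat_lit 76) (nat_lit 989230817571) (nat_lit 1) (nat_lit 4) (nat_lit 2) (nat_lit 5) (nat_lit 2) (nat_lit 4) (nat_lit 529) (nat_lit 351) (nat_lit 320)) (XT.lf (nat_lit 0) (nat_lit 9166546675998) (nat_lit 76) (nat_lit 1067322775032) (nat_lit 76) (nat_lit 1067179182034) (nat_lit 1) (nat_lit 4) (nat_lit 2) (nat_lit 5) (nat_lit 2) (nat_lit 4) (nat_lit 530) (nat_lit 351) (nat_lit 319)))))) (XT.nd (nat_lit 59748) (nat_lit 0) (nat_lit 0) (XT.nd (nat_lit 234) (nat_lit 0) (nat_lit 0) (XT.nd (nat_lit 78) (nat_lit 0) (nat_lit 0) (XT.lf (nat_lit 0) (nat_lit 9902146190361) (nat_lit 76) (nat_lit 1151521410110) (nat_lit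 76) (nat_lit 1151376826479) (nat_lit 1) (nat_lit 4) (nat_lit 2) (nat_lit 5) (nat_lit 2) (nat_lit 4) (nat_lit 531) (nat_lit 351) (nat_lit 318)) (XT.nd (nat_lit 78) (nat_lit 0) (nat_lit 0) (XT.lf (nat_lit 0) (nat_lit 10696569903500) (nat_lit 76) (nat_lit 1242468200792) (nat_lit 76) (nat_lit 1242322699907) (nat_lit 1) (nat_lit 4) (nat_lit 2) (nat_lit 5) (nat_lit 2) (nat_lit 4) (nat_lit 532) (nat_lit 351) (nat_lit 317)) (XT.lf (nat_lit 0) (nat_lit 11554525511495) (nat_lit 76) (nat_lit 1340702091024) (nat_lit 76) (nat_lit 1340555740830) (nat_lit 1) (nat_lit 4) (nat_lit 2) (nat_lit 5) (nat_lit 2) (nat_lit 4) (nat_lit 533) (nat_lit 351) (nat_lit 316)))) (XT.nd (nat_lit 78) (nat_lit 0) (nat_lit 0) (XT.lf (nat_lit 0) (nat_lit 12481097195725) (nat_lit 76) (nat_lit 1446805207561) (nat_lit 76) (nat_lit 1446658070970) (nat_lit 1) (nat_lit 4) (nat_lit 2) (nat_lit 5) (nat_lit 2) (nat_lit 4) (nat_lit 534)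 (nat_lit 351) (nat_lit 315)) (XT.nd (nat_lit 78) (nat_lit 0) (nat_lit 0) (XT.lf (nat_lit 0) (nat_lit 13481775751356) (nat_lit 76) (nat_lit 1561406309613) (nat_lit 76) (nat_lit 1561258444877) (nat_lit 1) (nat_lit 4) (nat_lit 2) (nat_lit 5) (nat_lit 2) (nat_lit 4) (nat_lit 535) (nat_lit 351) (nat_lit 314)) (XT.lf (nat_lit 0) (nat_lit 14562491125385) (nat_lit 76) (nat_lit 1685184514823) (nat_lit 76) (nat_lit 1685035975877) (nat_lit 1) (nat_lit 4) (nat_lit 2) (nat_lit 5) (nat_lit 2) (nat_lit 4) (nat_lit 536) (nat_lit 351) (nat_lit 313))))) (XT.nd (nat_lit 234) (nat_lit 0) (nat_lit 0) (XT.nd (nat_lit 78) (nat_lit 0) (nat_lit 0) (XT.lf (nat_lit 0) (nat_lit 309362821917) (nat_lit 76) (nat_lit 52182812843) (nat_lit 76) (nat_lit 52182812843) (nat_lit 1) (nat_lit 4) (nat_lit 2) (nat_lit 5) (nat_lit 2) (nat_lit 4) (nat_lit 496) (nat_lit 352) (nat_lit 352)) (XT.nd (nat_lit 78) (nat_lit 0) (nat_lit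 0) (XT.lf (nat_lit 0) (nat_lit 674401458248) (nat_lit 76) (nat_lit 109512700578) (nat_lit 76) (nat_lit 109500143253) (nat_lit 1) (nat_lit 4) (nat_lit 2) (nat_lit 5) (nat_lit 2) (nat_lit 4) (nat_lit 497) (nat_lit 352) (nat_lit 351)) (XT.lf (nat_lit 0) (nat_lit 734230124808) (nat_lit 76) (nat_lit 115227010648) (nat_lit 76) (nat_lit 115202826171) (nat_lit 1) (nat_lit 4) (nat_lit 2) (nat_lit 5) (nat_lit 2) (nat_lit 4) (nat_lit 498) (nat_lit 352) (nat_lit 350)))) (XT.nd (nat_lit 156) (nat_lit 0) (nat_lit 0) (XT.nd (nat_lit 78) (nat_lit 0) (nat_lit 0) (XT.lf (nat_lit 0) (nat_lit 798566183760) (nat_lit 76) (nat_lit 121542418476) (nat_lit 76) (nat_lit 121507468118) (nat_lit 1) (nat_lit 4) (nat_lit 2) (nat_lit 5) (nat_lit 2) (nat_lit 4) (nat_lit 499) (nat_lit 352) (nat_lit 349)) (XT.lf (nat_lit 0) (nat_lit 867790885826) (nat_lit 76) (nat_lit 128496348700) (nat_lit 76) (nat_lit 128451429933) (nat_lit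 1) (nat_lit 4) (nat_lit 2) (nat_lit 5) (nat_lit 2) (nat_lit 4) (nat_lit 500) (nat_lit 352) (nat_lit 348))) (XT.nd (nat_lit 78) (nat_lit 0) (nat_lit 0) (XT.lf (nat_lit 0) (nat_lit 942314451461) (nat_lit 76) (nat_lit 136130009797) (nat_lit 76) (nat_lit 136075861021) (nat_lit 1) (nat_lit 4) (nat_lit 2) (nat_lit 5) (nat_lit 2) (nat_lit 4) (nat_lit 501) (nat_lit 352) (nat_lit 347)) (XT.lf (nat_lit 0) (nat_lit 1022578501795) (nat_lit 76) (nat_lit 144488638276) (nat_lit 76) (nat_lit 144425943196) (nat_lit 1) (nat_lit 4) (nat_lit 2) (nat_lit 5) (nat_lit 2) (nat_lit 4) (nat_lit 502) (nat_lit 352) (nat_lit 346))))))) (XT.nd (nat_lit 936) (nat_lit 0) (nat_lit 0) (XT.nd (nat_lit 468) (nat_lit 0) (nat_lit 0) (XT.nd (nat_lit 234) (nat_lit 0) (nat_lit 0) (XT.nd (nat_lit 78) (nat_lit 0) (nat_lit 0) (XT.lf (nat_lit 0) (nat_lit 1109058675645) (nat_lit 76) (nat_lit 153621766750) (nat_lit 76) (nat_lit 153551158426)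 (nat_lit 1) (nat_lit 4) (nat_lit 2) (nat_lit 5) (nat_lit 2) (nat_lit 4) (nat_lit 503) (nat_lit 352) (nat_lit 345)) (XT.nd (nat_lit 78) (nat_lit 0) (nat_lit 0) (XT.lf (nat_lit 0) (nat_lit 1202267448116) (nat_lit 76) (nat_lit 163583517463) (nat_lit 76) (nat_lit 163505582060) (nat_lit 1) (nat_lit 4) (nat_lit 2) (nat_lit 5) (nat_lit 2) (nat_lit 4) (nat_lit 504) (nat_lit 352) (nat_lit 344)) (XT.lf (nat_lit 0) (nat_lit 1302757167488) (nat_lit 76) (nat_lit 174432923010) (nat_lit 76) (nat_lit 174348203276) (nat_lit 1) (nat_lit 4) (nat_lit 2) (nat_lit 5) (nat_lit 2) (nat_lit 4) (nat_lit 505) (nat_lit 352) (nat_lit 343)))) (XT.nd (nat_lit 78) (nat_lit 0) (nat_lit 0) (XT.lf (nat_lit 0) (nat_lit 1411123328395) (nat_lit 76) (nat_lit 186234276167) (nat_lit 76) (nat_lit 186143274644) (nat_lit 1) (nat_lit 4) (nat_lit 2) (nat_lit 5) (nat_lit 2) (nat_lit 4) (nat_lit 506) (nat_lit 352) (nat_lit 342)) (XT.nd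 (nat_lit 78) (nat_lit 0) (nat_lit 0) (XT.lf (nat_lit 0) (nat_lit 1528008100679) (nat_lit 76) (nat_lit 199057510876) (nat_lit 76) (nat_lit 198960692883) (nat_lit 1) (nat_lit 4) (nat_lit 2) (nat_lit 5) (nat_lit 2) (nat_lit 4) (nat_lit 507) (nat_lit 352) (nat_lit 341)) (XT.lf (nat_lit 0) (nat_lit 1654104134843) (nat_lit 76) (nat_lit 212978616678) (nat_lit 76) (nat_lit 212876413063) (nat_lit 1) (nat_lit 4) (nat_lit 2) (nat_lit 5) (nat_lit 2) (nat_lit 4) (nat_lit 508) (nat_lit 352) (nat_lit 340))))) (XT.nd (nat_lit 234) (nat_lit 0) (nat_lit 0) (XT.nd (nat_lit 78) (nat_lit 0) (nat_lit 0) (XT.lf (nat_lit 0) (nat_lit 1790158666645) (nat_lit 76) (nat_lit 228080089014) (nat_lit 76) (nat_lit 227972898713) (nat_lit 1) (nat_lit 4) (nat_lit 2) (nat_lit 5) (nat_lit 2) (nat_lit 4) (nat_lit 509) (nat_lit 352) (nat_lit 339)) (XT.nd (nat_lit 78) (nat_lit 0) (nat_lit 0) (XT.lf (nat_lit 0) (nat_lit 1936977945162)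 (nat_lit 76) (nat_lit 244451418091) (nat_lit 76) (nat_lit 244339610488) (nat_lit 1) (nat_lit 4) (nat_lit 2) (nat_lit 5) (nat_lit 2) (nat_lit 4) (nat_lit 510) (nat_lit 352) (nat_lit 338)) (XT.lf (nat_lit 0) (nat_lit 2095432010563) (nat_lit 76) (nat_lit 262189619191) (nat_lit 76) (nat_lit 262073536308) (nat_lit 1) (nat_lit 4) (nat_lit 2) (nat_lit 5) (nat_lit 2) (nat_lit 4) (nat_lit 511) (nat_lit 352) (nat_lit 337)))) (XT.nd (nat_lit 78) (nat_lit 0) (nat_lit 0) (XT.lf (nat_lit 0) (nat_lit 2266459849902) (nat_lit 76) (nat_lit 281399807581) (nat_lit 76) (nat_lit 281279766106) (nat_lit 1) (nat_lit 4) (nat_lit 2) (nat_lit 5) (nat_lit 2) (nat_lit 4) (nat_lit 512) (nat_lit 352) (nat_lit 336)) (XT.nd (nat_lit 78) (nat_lit 0) (nat_lit 0) (XT.lf (nat_lit 0) (nat_lit 2451074961487) (nat_lit 76) (nat_lit 302195821415) (nat_lit 76) (nat_lit 302072114577) (nat_lit 1) (nat_lit 4) (nat_lit 2) (nat_lit 5)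 (nat_lit 2) (nat_lit 4) (nat_lit 513) (nat_lit 352) (nat_lit 335)) (XT.lf (nat_lit 0) (nat_lit 2650371360793) (nat_lit 76) (nat_lit 324700896329) (nat_lit 76) (nat_lit 324573795636) (nat_lit 1) (nat_lit 4) (nat_lit 2) (nat_lit 5) (nat_lit 2) (nat_lit 4) (nat_lit 514) (nat_lit 352) (nat_lit 334)))))) (XT.nd (nat_lit 468) (nat_lit 0) (nat_lit 0) (XT.nd (nat_lit 234) (nat_lit 0) (nat_lit 0) (XT.nd (nat_lit 78) (nat_lit 0) (nat_lit 0) (XT.lf (nat_lit 0) (nat_lit 2865530063521) (nat_lit 76) (nat_lit 349048395731) (nat_lit 76) (nat_lit 348918152579) (nat_lit 1) (nat_lit 4) (nat_lit 2) (nat_lit 5) (nat_lit 2) (nat_lit 4) (nat_lit 515) (nat_lit 352) (nat_lit 333)) (XT.nd (nat_lit 78) (nat_lit 0) (nat_lit 0) (XT.lf (nat_lit 0) (nat_lit 3097826084204) (nat_lit 76) (nat_lit 375382601098) (nat_lit 76) (nat_lit 375249448263) (nat_lit 1) (nat_lit 4) (nat_lit 2) (nat_lit 5) (nat_lit 2) (nat_lit 4) (nat_lit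 516) (nat_lit 352) (nat_lit 332)) (XT.lf (nat_lit 0) (nat_lit 3348635991855) (nat_lit 76) (nat_lit 403859566982) (nat_lit 76) (nat_lit 403723719995) (nat_lit 1) (nat_lit 4) (nat_lit 2) (nat_lit 5) (nat_lit 2) (nat_lit 4) (nat_lit 517) (nat_lit 352) (nat_lit 331)))) (XT.nd (nat_lit 78) (nat_lit 0) (nat_lit 0) (XT.lf (nat_lit 0) (nat_lit 3619446067407) (nat_lit 76) (nat_lit 434648045771) (nat_lit 76) (nat_lit 434509704200) (nat_lit 1) (nat_lit 4) (nat_lit 2) (nat_lit 5) (nat_lit 2) (nat_lit 4) (nat_lit 518) (nat_lit 352) (nat_lit 330)) (XT.nd (nat_lit 78) (nat_lit 0) (nat_lit 0) (XT.lf (nat_lit 0) (nat_lit 3911861111309) (nat_lit 76) (nat_lit 467930487712) (nat_lit 76) (nat_lit 467789836340) (nat_lit 1) (nat_lit 4) (nat_lit 2) (nat_lit 5) (nat_lit 2) (nat_lit 4) (nat_lit 519) (nat_lit 352) (nat_lit 329)) (XT.lf (nat_lit 0) (nat_lit 4227613953449) (nat_lit 76) (nat_lit 503904122089) (nat_lit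 76) (nat_lit 503761332012) (nat_lit 1) (nat_lit 4) (nat_lit 2) (nat_lit 5) (nat_lit 2) (nat_lit 4) (nat_lit 520) (nat_lit 352) (nat_lit 328))))) (XT.nd (nat_lit 234) (nat_lit 0) (nat_lit 0) (XT.nd (nat_lit 78) (nat_lit 0) (nat_lit 0) (XT.lf (nat_lit 0) (nat_lit 4568575721782) (nat_lit 76) (nat_lit 542782125995) (nat_lit 76) (nat_lit 542637355637) (nat_lit 1) (nat_lit 4) (nat_lit 2) (nat_lit 5) (nat_lit 2) (nat_lit 4) (nat_lit 521) (nat_lit 352) (nat_lit 327)) (XT.nd (nat_lit 78) (nat_lit 0) (nat_lit 0) (XT.lf (nat_lit 0) (nat_lit 4936766930491) (nat_lit 76) (nat_lit 584794887601) (nat_lit 76) (nat_lit 584648283649) (nat_lit 1) (nat_lit 4) (nat_lit 2) (nat_lit 5) (nat_lit 2) (nat_lit 4) (nat_lit 522) (nat_lit 352) (nat_lit 326)) (XT.lf (nat_lit 0) (nat_lit 5334369453403) (nat_lit 76) (nat_lit 630191371422) (nat_lit 76) (nat_lit 630043069697) (nat_lit 1) (nat_lit 4) (nat_lit 2) (nat_lit 5)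 (nat_lit 2) (nat_lit 4) (nat_lit 523) (nat_lit 352) (nat_lit 325)))) (XT.nd (nat_lit 156) (nat_lit 0) (nat_lit 0) (XT.nd (nat_lit 78) (nat_lit 0) (nat_lit 0) (XT.lf (nat_lit 0) (nat_lit 5763739453619) (nat_lit 76) (nat_lit 679240593656) (nat_lit 76) (nat_lit 679090719920) (nat_lit 1) (nat_lit 4) (nat_lit 2) (nat_lit 5) (nat_lit 2) (nat_lit 4) (nat_lit 524) (nat_lit 352) (nat_lit 324)) (XT.lf (nat_lit 0) (nat_lit 6227421345955) (nat_lit 76) (nat_lit 732233216362) (nat_lit 76) (nat_lit 732081887060) (nat_lit 1) (nat_lit 4) (nat_lit 2) (nat_lit 5) (nat_lit 2) (nat_lit 4) (nat_lit 525) (nat_lit 352) (nat_lit 323))) (XT.nd (nat_lit 78) (nat_lit 0) (nat_lit 0) (XT.lf (nat_lit 0) (nat_lit 6728162874957) (nat_lit 76) (nat_lit 789483269897) (nat_lit 76) (nat_lit 789330592848) (nat_lit 1) (nat_lit 4) (nat_lit 2) (nat_lit 5) (nat_lit 2) (nat_lit 4) (nat_lit 526) (nat_lit 352) (nat_lit 322)) (XT.lf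 (nat_lit 0) (nat_lit 7268931397834) (nat_lit 76) (nat_lit 851330013836) (nat_lit 76) (nat_lit 851176088874) (nat_lit 1) (nat_lit 4) (nat_lit 2) (nat_lit 5) (nat_lit 2) (nat_lit 4) (nat_lit 527) (nat_lit 352) (nat_lit 321))))))))
noncomputable def xc9 : XT := (XT.nd (nat_lit 61074) (nat_lit 0) (nat_lit 0) (XT.nd (nat_lit 60060) (nat_lit 0) (nat_lit 0) (XT.nd (nat_lit 468) (nat_lit 0) (nat_lit 0) (XT.nd (nat_lit 234) (nat_lit 0) (nat_lit 0) (XT.nd (nat_lit 78) (nat_lit 0) (nat_lit 0) (XT.lf (nat_lit 0) (nat_lit 7852931468797) (nat_lit 76) (nat_lit 918139947404) (nat_lit 76) (nat_lit 917984866967) (nat_lit 1) (nat_lit 4) (nat_lit 2) (nat_lit 5) (nat_lit 2) (nat_lit 4) (nat_lit 528) (nat_lit 352) (nat_lit 320)) (XT.nd (nat_lit 78) (nat_lit 0) (nat_lit 0) (XT.lf (nat_lit 0) (nat_lit 8483623829006) (nat_lit 76) (nat_lit 990308981318) (nat_lit 76) (nat_lit 990152830996) (nat_lit 1) (nat_lit 4)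 (nat_lit 2) (nat_lit 5) (nat_lit 2) (nat_lit 4) (nat_lit 529) (nat_lit 352) (nat_lit 319)) (XT.lf (nat_lit 0) (nat_lit 9164745914670) (nat_lit 76) (nat_lit 1068264783927) (nat_lit 76) (nat_lit 1068107642971) (nat_lit 1) (nat_lit 4) (nat_lit 2) (nat_lit 5) (nat_lit 2) (nat_lit 4) (nat_lit 530) (nat_lit 352) (nat_lit 318)))) (XT.nd (nat_lit 78) (nat_lit 0) (nat_lit 0) (XT.lf (nat_lit 0) (nat_lit 9900334004815) (nat_lit 76) (nat_lit 1152469315543) (nat_lit 76) (nat_lit 1152311257333) (nat_lit 1) (nat_lit 4) (nat_lit 2) (nat_lit 5) (nat_lit 2) (nat_lit 4) (nat_lit 531) (nat_lit 352) (nat_lit 317)) (XT.nd (nat_lit 78) (nat_lit 0) (nat_lit 0) (XT.lf (nat_lit 0) (nat_lit 10694747139976) (nat_lit 76) (nat_lit 1243421565982) (nat_lit 76) (nat_lit 1243262658464) (nat_lit 1) (nat_lit 4) (nat_lit 2) (nat_lit 5) (nat_lit 2) (nat_lit 4) (nat_lit 532) (nat_lit 352) (nat_lit 316)) (XT.lf (nat_lit 0) (nat_lit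 11552692953545) (nat_lit 76) (nat_lit 1341660511544) (nat_lit 76) (nat_lit 1341500817628) (nat_lit 1) (nat_lit 4) (nat_lit 2) (nat_lit 5) (nat_lit 2) (nat_lit 4) (nat_lit 533) (nat_lit 352) (nat_lit 315))))) (XT.nd (nat_lit 59358) (nat_lit 0) (nat_lit 0) (XT.nd (nat_lit 78) (nat_lit 0) (nat_lit 0) (XT.lf (nat_lit 0) (nat_lit 12479255568863) (nat_lit 76) (nat_lit 1447768308943) (nat_lit 76) (nat_lit 1447607886882) (nat_lit 1) (nat_lit 4) (nat_lit 2) (nat_lit 5) (nat_lit 2) (nat_lit 4) (nat_lit 534) (nat_lit 352) (nat_lit 314)) (XT.nd (nat_lit 78) (nat_lit 0) (nat_lit 0) (XT.lf (nat_lit 0) (nat_lit 13479925727354) (nat_lit 76) (nat_lit 1562373745126) (nat_lit 76) (nat_lit 1562212648857) (nat_lit 1) (nat_lit 4) (nat_lit 2) (nat_lit 5) (nat_lit 2) (nat_lit 4) (nat_lit 535) (nat_lit 352) (nat_lit 313)) (XT.lf (nat_lit 0) (nat_lit 14560633326253) (nat_lit 76) (nat_lit 1686155963420) (nat_lit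 76) (nat_lit 1685994242883) (nat_lit 1) (nat_lit 4) (nat_lit 2) (nat_lit 5) (nat_lit 2) (nat_lit 4) (nat_lit 536) (nat_lit 352) (nat_lit 312)))) (XT.nd (nat_lit 78) (nat_lit 0) (nat_lit 0) (XT.lf (nat_lit 0) (nat_lit 259352206888) (nat_lit 76) (nat_lit 47790368462) (nat_lit 76) (nat_lit 47790368462) (nat_lit 1) (nat_lit 4) (nat_lit 2) (nat_lit 5) (nat_lit 2) (nat_lit 4) (nat_lit 494) (nat_lit 353) (nat_lit 353)) (XT.nd (nat_lit 78) (nat_lit 0) (nat_lit 0) (XT.lf (nat_lit 0) (nat_lit 566872750817) (nat_lit 76) (nat_lit 99768846701) (nat_lit 76) (nat_lit 99755284791) (nat_lit 1) (nat_lit 4) (nat_lit 2) (nat_lit 5) (nat_lit 2) (nat_lit 4) (nat_lit 495) (nat_lit 353) (nat_lit 352)) (XT.lf (nat_lit 0) (nat_lit 618569244774) (nat_lit 76) (nat_lit 104459911983) (nat_lit 76) (nat_lit 104433792748) (nat_lit 1) (nat_lit 4) (nat_lit 2) (nat_lit 5) (nat_lit 2) (nat_lit 4) (nat_lit 496) (nat_lit 353)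 (nat_lit 351)))))) (XT.nd (nat_lit 468) (nat_lit 0) (nat_lit 0) (XT.nd (nat_lit 234) (nat_lit 0) (nat_lit 0) (XT.nd (nat_lit 78) (nat_lit 0) (nat_lit 0) (XT.lf (nat_lit 0) (nat_lit 674100245242) (nat_lit 76) (nat_lit 109681731676) (nat_lit 76) (nat_lit 109643985289) (nat_lit 1) (nat_lit 4) (nat_lit 2) (nat_lit 5) (nat_lit 2) (nat_lit 4) (nat_lit 497) (nat_lit 353) (nat_lit 350)) (XT.nd (nat_lit 78) (nat_lit 0) (nat_lit 0) (XT.lf (nat_lit 0) (nat_lit 733794824815) (nat_lit 76) (nat_lit 115465249896) (nat_lit 76) (nat_lit 115416737628) (nat_lit 1) (nat_lit 4) (nat_lit 2) (nat_lit 5) (nat_lit 2) (nat_lit 4) (nat_lit 498) (nat_lit 353) (nat_lit 349)) (XT.lf (nat_lit 0) (nat_lit 798006729151) (nat_lit 76) (nat_lit 121844739345) (nat_lit 76) (nat_lit 121786258667) (nat_lit 1) (nat_lit 4) (nat_lit 2) (nat_lit 5) (nat_lit 2) (nat_lit 4) (nat_lit 499) (nat_lit 353) (nat_lit 348)))) (XT.nd (nat_lit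 78) (nat_lit 0) (nat_lit 0) (XT.lf (nat_lit 0) (nat_lit 867116473237) (nat_lit 76) (nat_lit 128858004403) (nat_lit 76) (nat_lit 128790293717) (nat_lit 1) (nat_lit 4) (nat_lit 2) (nat_lit 5) (nat_lit 2) (nat_lit 4) (nat_lit 500) (nat_lit 353) (nat_lit 347)) (XT.nd (nat_lit 78) (nat_lit 0) (nat_lit 0) (XT.lf (nat_lit 0) (nat_lit 941533596300) (nat_lit 76) (nat_lit 136546605160) (nat_lit 76) (nat_lit 136470348170) (nat_lit 1) (nat_lit 4) (nat_lit 2) (nat_lit 5) (nat_lit 2) (nat_lit 4) (nat_lit 501) (nat_lit 353) (nat_lit 346)) (XT.lf (nat_lit 0) (nat_lit 1021699088696) (nat_lit 76) (nat_lit 144956103696) (nat_lit 76) (nat_lit 144871933461) (nat_lit 1) (nat_lit 4) (nat_lit 2) (nat_lit 5) (nat_lit 2) (nat_lit 4) (nat_lit 502) (nat_lit 353) (nat_lit 345))))) (XT.nd (nat_lit 234) (nat_lit 0) (nat_lit 0) (XT.nd (nat_lit 78) (nat_lit 0) (nat_lit 0) (XT.lf (nat_lit 0) (nat_lit 1108088005196) (nat_lit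 76) (nat_lit 154136334074) (nat_lit 76) (nat_lit 154044836761) (nat_lit 1) (nat_lit 4) (nat_lit 2) (nat_lit 5) (nat_lit 2) (nat_lit 4) (nat_lit 503) (nat_lit 353) (nat_lit 344)) (XT.nd (nat_lit 78) (nat_lit 0) (nat_lit 0) (XT.lf (nat_lit 0) (nat_lit 1201212280120) (nat_lit 76) (nat_lit 164141697660) (nat_lit 76) (nat_lit 164043416016) (nat_lit 1) (nat_lit 4) (nat_lit 2) (nat_lit 5) (nat_lit 2) (nat_lit 4) (nat_lit 504) (nat_lit 353) (nat_lit 343)) (XT.lf (nat_lit 0) (nat_lit 1301623761024) (nat_lit 76) (nat_lit 175031485499) (nat_lit 76) (nat_lit 174926922066) (nat_lit 1) (nat_lit 4) (nat_lit 2) (nat_lit 5) (nat_lit 2) (nat_lit 4) (nat_lit 505) (nat_lit 353) (nat_lit 342)))) (XT.nd (nat_lit 156) (nat_lit 0) (nat_lit 0) (XT.nd (nat_lit 78) (nat_lit 0) (nat_lit 0) (XT.lf (nat_lit 0) (nat_lit 1409917478904) (nat_lit 76) (nat_lit 186870229665) (nat_lit 76) (nat_lit 186759849761) (nat_lit 1)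 (nat_lit 4) (nat_lit 2) (nat_lit 5) (nat_lit 2) (nat_lit 4) (nat_lit 506) (nat_lit 353) (nat_lit 341)) (XT.lf (nat_lit 0) (nat_lit 1526735174312) (nat_lit 76) (nat_lit 199728085680) (nat_lit 76) (nat_lit 199612320155) (nat_lit 1) (nat_lit 4) (nat_lit 2) (nat_lit 5) (nat_lit 2) (nat_lit 4) (nat_lit 507) (nat_lit 353) (nat_lit 340))) (XT.nd (nat_lit 78) (nat_lit 0) (nat_lit 0) (XT.lf (nat_lit 0) (nat_lit 1652769100257) (nat_lit 76) (nat_lit 213681248247) (nat_lit 76) (nat_lit 213560496035) (nat_lit 1) (nat_lit 4) (nat_lit 2) (nat_lit 5) (nat_lit 2) (nat_lit 4) (nat_lit 508) (nat_lit 353) (nat_lit 339)) (XT.lf (nat_lit 0) (nat_lit 1788766124449) (nat_lit 76) (nat_lit 228812402772) (nat_lit 76) (nat_lit 228687033259) (nat_lit 1) (nat_lit 4) (nat_lit 2) (nat_lit 5) (nat_lit 2) (nat_lit 4) (nat_lit 509) (nat_lit 353) (nat_lit 338))))))) (XT.nd (nat_lit 936) (nat_lit 0) (nat_lit 0) (XT.nd (nat_lit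 468) (nat_lit 0) (nat_lit 0) (XT.nd (nat_lit 234) (nat_lit 0) (nat_lit 0) (XT.nd (nat_lit 78) (nat_lit 0) (nat_lit 0) (XT.lf (nat_lit 0) (nat_lit 1935532155179) (nat_lit 76) (nat_lit 245211215357) (nat_lit 76) (nat_lit 245081570564) (nat_lit 1) (nat_lit 4) (nat_lit 2) (nat_lit 5) (nat_lit 2) (nat_lit 4) (nat_lit 510) (nat_lit 353) (nat_lit 337)) (XT.nd (nat_lit 78) (nat_lit 0) (nat_lit 0) (XT.lf (nat_lit 0) (nat_lit 2093936917073) (nat_lit 76) (nat_lit 262974864151) (nat_lit 76) (nat_lit 262841260765) (nat_lit 1) (nat_lit 4) (nat_lit 2) (nat_lit 5) (nat_lit 2) (nat_lit 4) (nat_lit 511) (nat_lit 353) (nat_lit 336)) (XT.lf (nat_lit 0) (nat_lit 2264919105017) (nat_lit 76) (nat_lit 282208615220) (nat_lit 76) (nat_lit 282071346471) (nat_lit 1) (nat_lit 4) (nat_lit 2) (nat_lit 5) (nat_lit 2) (nat_lit 4) (nat_lit 512) (nat_lit 353) (nat_lit 335)))) (XT.nd (nat_lit 78) (nat_lit 0) (nat_lit 0) (XT.lf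 (nat_lit 0) (nat_lit 2449491946792) (nat_lit 76) (nat_lit 303026446349) (nat_lit 76) (nat_lit 302885783745) (nat_lit 1) (nat_lit 4) (nat_lit 2) (nat_lit 5) (nat_lit 2) (nat_lit 4) (nat_lit 513) (nat_lit 353) (nat_lit 334)) (XT.nd (nat_lit 78) (nat_lit 0) (nat_lit 0) (XT.lf (nat_lit 0) (nat_lit 2648749207385) (nat_lit 76) (nat_lit 325551722462) (nat_lit 76) (nat_lit 325407917400) (nat_lit 1) (nat_lit 4) (nat_lit 2) (nat_lit 5) (nat_lit 2) (nat_lit 4) (nat_lit 514) (nat_lit 353) (nat_lit 333)) (XT.lf (nat_lit 0) (nat_lit 2863871670564) (nat_lit 76) (nat_lit 349917926678) (nat_lit 76) (nat_lit 349771211933) (nat_lit 1) (nat_lit 4) (nat_lit 2) (nat_lit 5) (nat_lit 2) (nat_lit 4) (nat_lit 515) (nat_lit 353) (nat_lit 332))))) (XT.nd (nat_lit 234) (nat_lit 0) (nat_lit 0) (XT.nd (nat_lit 78) (nat_lit 0) (nat_lit 0) (XT.lf (nat_lit 0) (nat_lit 3096134136109) (nat_lit 76) (nat_lit 376269451318) (nat_lit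 76) (nat_lit 376120042421) (nat_lit 1) (nat_lit 4) (nat_lit 2) (nat_lit 5) (nat_lit 2) (nat_lit 4) (nat_lit 516) (nat_lit 353) (nat_lit 331)) (XT.nd (nat_lit 78) (nat_lit 0) (nat_lit 0) (XT.lf (nat_lit 0) (nat_lit 3346912974187) (nat_lit 76) (nat_lit 404762453564) (nat_lit 76) (nat_lit 404610550083) (nat_lit 1) (nat_lit 4) (nat_lit 2) (nat_lit 5) (nat_lit 2) (nat_lit 4) (nat_lit 517) (nat_lit 353) (nat_lit 330)) (XT.lf (nat_lit 0) (nat_lit 3617694281617) (nat_lit 76) (nat_lit 435565780838) (nat_lit 76) (nat_lit 435411567556) (nat_lit 1) (nat_lit 4) (nat_lit 2) (nat_lit 5) (nat_lit 2) (nat_lit 4) (nat_lit 518) (nat_lit 353) (nat_lit 329)))) (XT.nd (nat_lit 78) (nat_lit 0) (nat_lit 0) (XT.lf (nat_lit 0) (nat_lit 3910082688368) (nat_lit 76) (nat_lit 468861971375) (nat_lit 76) (nat_lit 468705619389) (nat_lit 1) (nat_lit 4) (nat_lit 2) (nat_lit 5) (nat_lit 2) (nat_lit 4) (nat_lit 519) (nat_lit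 353) (nat_lit 328)) (XT.nd (nat_lit 78) (nat_lit 0) (nat_lit 0) (XT.lf (nat_lit 0) (nat_lit 4225810866480) (nat_lit 76) (nat_lit 504848335935) (nat_lit 76) (nat_lit 504690003667) (nat_lit 1) (nat_lit 4) (nat_lit 2) (nat_lit 5) (nat_lit 2) (nat_lit 4) (nat_lit 520) (nat_lit 353) (nat_lit 327)) (XT.lf (nat_lit 0) (nat_lit 4566749797750) (nat_lit 76) (nat_lit 543738127047) (nat_lit 76) (nat_lit 543577961184) (nat_lit 1) (nat_lit 4) (nat_lit 2) (nat_lit 5) (nat_lit 2) (nat_lit 4) (nat_lit 521) (nat_lit 353) (nat_lit 326)))))) (XT.nd (nat_lit 468) (nat_lit 0) (nat_lit 0) (XT.nd (nat_lit 234) (nat_lit 0) (nat_lit 0) (XT.nd (nat_lit 78) (nat_lit 0) (nat_lit 0) (XT.lf (nat_lit 0) (nat_lit 4934919861030) (nat_lit 76) (nat_lit 585761802733) (nat_lit 76) (nat_lit 585599939098) (nat_lit 1) (nat_lit 4) (nat_lit 2) (nat_lit 5) (nat_lit 2) (nat_lit 4) (nat_lit 522) (nat_lit 353) (nat_lit 325)) (XT.nd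 (nat_lit 78) (nat_lit 0) (nat_lit 0) (XT.lf (nat_lit 0) (nat_lit 5332502804841) (nat_lit 76) (nat_lit 631168392182) (nat_lit 76) (nat_lit 631004956536) (nat_lit 1) (nat_lit 4) (nat_lit 2) (nat_lit 5) (nat_lit 2) (nat_lit 4) (nat_lit 523) (nat_lit 353) (nat_lit 324)) (XT.lf (nat_lit 0) (nat_lit 5761854676260) (nat_lit 76) (nat_lit 680226971480) (nat_lit 76) (nat_lit 680062080268) (nat_lit 1) (nat_lit 4) (nat_lit 2) (nat_lit 5) (nat_lit 2) (nat_lit 4) (nat_lit 524) (nat_lit 353) (nat_lit 323)))) (XT.nd (nat_lit 78) (nat_lit 0) (nat_lit 0) (XT.lf (nat_lit 0) (nat_lit 6225519782673) (nat_lit 76) (nat_lit 733228258134) (nat_lit 76) (nat_lit 733062019175) (nat_lit 1) (nat_lit 4) (nat_lit 2) (nat_lit 5) (nat_lit 2) (nat_lit 4) (nat_lit 525) (nat_lit 353) (nat_lit 322)) (XT.nd (nat_lit 78) (nat_lit 0) (nat_lit 0) (XT.lf (nat_lit 0) (nat_lit 6726245769153) (nat_lit 76) (nat_lit 790486333843) (nat_lit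 76) (nat_lit 790318846971) (nat_lit 1) (nat_lit 4) (nat_lit 2) (nat_lit 5) (nat_lit 2) (nat_lit 4) (nat_lit 526) (nat_lit 353) (nat_lit 321)) (XT.lf (nat_lit 0) (nat_lit 7266999900807) (nat_lit 76) (nat_lit 852340505722) (nat_lit 76) (nat_lit 852171863374) (nat_lit 1) (nat_lit 4) (nat_lit 2) (nat_lit 5) (nat_lit 2) (nat_lit 4) (nat_lit 527) (nat_lit 353) (nat_lit 320))))) (XT.nd (nat_lit 234) (nat_lit 0) (nat_lit 0) (XT.nd (nat_lit 78) (nat_lit 0) (nat_lit 0) (XT.lf (nat_lit 0) (nat_lit 7850986646563) (nat_lit 76) (nat_lit 919157317011) (nat_lit 76) (nat_lit 918987604779) (nat_lit 1) (nat_lit 4) (nat_lit 2) (nat_lit 5) (nat_lit 2) (nat_lit 4) (nat_lit 528) (nat_lit 353) (nat_lit 319)) (XT.nd (nat_lit 78) (nat_lit 0) (nat_lit 0) (XT.lf (nat_lit 0) (nat_lit 8481666668617) (nat_lit 76) (nat_lit 991332719186) (nat_lit 76) (nat_lit 991162016320) (nat_lit 1) (nat_lit 4) (nat_lit 2) (nat_lit 5)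 (nat_lit 2) (nat_lit 4) (nat_lit 529) (nat_lit 353) (nat_lit 318)) (XT.lf (nat_lit 0) (nat_lit 9162777330064) (nat_lit 76) (nat_lit 1069294418332) (nat_lit 76) (nat_lit 1069122798212) (nat_lit 1) (nat_lit 4) (nat_lit 2) (nat_lit 5) (nat_lit 2) (nat_lit 4) (nat_lit 530) (nat_lit 353) (nat_lit 317)))) (XT.nd (nat_lit 156) (nat_lit 0) (nat_lit 0) (XT.nd (nat_lit 78) (nat_lit 0) (nat_lit 0) (XT.lf (nat_lit 0) (nat_lit 9898354842230) (nat_lit 76) (nat_lit 1153504409705) (nat_lit 76) (nat_lit 1153331940276) (nat_lit 1) (nat_lit 4) (nat_lit 2) (nat_lit 5) (nat_lit 2) (nat_lit 4) (nat_lit 531) (nat_lit 353) (nat_lit 316)) (XT.lf (nat_lit 0) (nat_lit 10692758182966) (nat_lit 76) (nat_lit 1244461715474) (nat_lit 76) (nat_lit 1244288459649) (nat_lit 1) (nat_lit 4) (nat_lit 2) (nat_lit 5) (nat_lit 2) (nat_lit 4) (nat_lit 532) (nat_lit 353) (nat_lit 315))) (XT.nd (nat_lit 78) (nat_lit 0) (nat_lit 0)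 (XT.lf (nat_lit 0) (nat_lit 11550694927623) (nat_lit 76) (nat_lit 1342705341898) (nat_lit 76) (nat_lit 1342531357927) (nat_lit 1) (nat_lit 4) (nat_lit 2) (nat_lit 5) (nat_lit 2) (nat_lit 4) (nat_lit 533) (nat_lit 353) (nat_lit 314)) (XT.lf (nat_lit 0) (nat_lit 12477249145800) (nat_lit 76) (nat_lit 1448817473428) (nat_lit 76) (nat_lit 1448642815248) (nat_lit 1) (nat_lit 4) (nat_lit 2) (nat_lit 5) (nat_lit 2) (nat_lit 4) (nat_lit 534) (nat_lit 353) (nat_lit 313))))))))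
noncomputable def xc10 : XT := (XT.nd (nat_lit 60918) (nat_lit 0) (nat_lit 0) (XT.nd (nat_lit 59904) (nat_lit 0) (nat_lit 0) (XT.nd (nat_lit 59436) (nat_lit 0) (nat_lit 0) (XT.nd (nat_lit 59202) (nat_lit 0) (nat_lit 0) (XT.nd (nat_lit 78) (nat_lit 0) (nat_lit 0) (XT.lf (nat_lit 0) (nat_lit 13477911529161) (nat_lit 76) (nat_lit 1563426922696) (nat_lit 76) (nat_lit 1563251640248) (nat_lit 1) (nat_lit 4) (nat_lit 2) (nat_lit 5) (nat_lit 2) (nat_lit 4) (nat_lit 535) (nat_lit 353) (nat_lit 312)) (XT.nd (nat_lit 59046) (nat_lit 0) (nat_lit 0) (XT.lf (nat_lit 0) (nat_lit 14558611928865) (nat_lit 76) (nat_lit 1687212856808) (nat_lit 76) (nat_lit 1687036996335) (nat_lit 1) (nat_lit 4) (nat_lit 2) (nat_lit 5) (nat_lit 2) (nat_lit 4) (nat_lit 536) (nat_lit 353) (nat_lit 311)) (XT.lf (nat_lit 0) (nat_lit 216006041204) (nat_lit 76) (nat_lit 44268716759) (nat_lit 76) (nat_lit 44268716759) (nat_lit 1)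 (nat_lit 4) (nat_lit 2) (nat_lit 5) (nat_lit 2) (nat_lit 4) (nat_lit 492) (nat_lit 354) (nat_lit 354)))) (XT.nd (nat_lit 78) (nat_lit 0) (nat_lit 0) (XT.lf (nat_lit 0) (nat_lit 473778791656) (nat_lit 76) (nat_lit 91885411088) (nat_lit 76) (nat_lit 91870764225) (nat_lit 1) (nat_lit 4) (nat_lit 2) (nat_lit 5) (nat_lit 2) (nat_lit 4) (nat_lit 493) (nat_lit 354) (nat_lit 353)) (XT.nd (nat_lit 78) (nat_lit 0) (nat_lit 0) (XT.lf (nat_lit 0) (nat_lit 518535502791) (nat_lit 76) (nat_lit 95682566125) (nat_lit 76) (nat_lit 95654357351) (nat_lit 1) (nat_lit 4) (nat_lit 2) (nat_lit 5) (nat_lit 2) (nat_lit 4) (nat_lit 494) (nat_lit 354) (nat_lit 352)) (XT.lf (nat_lit 0) (nat_lit 566547440771) (nat_lit 76) (nat_lit 99951400288) (nat_lit 76) (nat_lit 99910634190) (nat_lit 1) (nat_lit 4) (nat_lit 2) (nat_lit 5) (nat_lit 2) (nat_lit 4) (nat_lit 495) (nat_lit 354) (nat_lit 351))))) (XT.nd (nat_lit 234) (nat_lit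 0) (nat_lit 0) (XT.nd (nat_lit 78) (nat_lit 0) (nat_lit 0) (XT.lf (nat_lit 0) (nat_lit 618099120782) (nat_lit 76) (nat_lit 104717210372) (nat_lit 76) (nat_lit 104664817122) (nat_lit 1) (nat_lit 4) (nat_lit 2) (nat_lit 5) (nat_lit 2) (nat_lit 4) (nat_lit 496) (nat_lit 354) (nat_lit 350)) (XT.nd (nat_lit 78) (nat_lit 0) (nat_lit 0) (XT.lf (nat_lit 0) (nat_lit 673496034263) (nat_lit 76) (nat_lit 110008238215) (nat_lit 76) (nat_lit 109945079083) (nat_lit 1) (nat_lit 4) (nat_lit 2) (nat_lit 5) (nat_lit 2) (nat_lit 4) (nat_lit 497) (nat_lit 354) (nat_lit 349)) (XT.lf (nat_lit 0) (nat_lit 733066459220) (nat_lit 76) (nat_lit 115855838055) (nat_lit 76) (nat_lit 115782710514) (nat_lit 1) (nat_lit 4) (nat_lit 2) (nat_lit 5) (nat_lit 2) (nat_lit 4) (nat_lit 498) (nat_lit 354) (nat_lit 348)))) (XT.nd (nat_lit 78) (nat_lit 0) (nat_lit 0) (XT.lf (nat_lit 0) (nat_lit 797163405577) (nat_lit 76) (nat_lit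 122294662337) (nat_lit 76) (nat_lit 122212304788) (nat_lit 1) (nat_lit 4) (nat_lit 2) (nat_lit 5) (nat_lit 2) (nat_lit 4) (nat_lit 499) (nat_lit 354) (nat_lit 347)) (XT.nd (nat_lit 78) (nat_lit 0) (nat_lit 0) (XT.lf (nat_lit 0) (nat_lit 866166707090) (nat_lit 76) (nat_lit 129362867056) (nat_lit 76) (nat_lit 129271963203) (nat_lit 1) (nat_lit 4) (nat_lit 2) (nat_lit 5) (nat_lit 2) (nat_lit 4) (nat_lit 500) (nat_lit 354) (nat_lit 346)) (XT.lf (nat_lit 0) (nat_lit 940485272215) (nat_lit 76) (nat_lit 137102337870) (nat_lit 76) (nat_lit 137003520773) (nat_lit 1) (nat_lit 4) (nat_lit 2) (nat_lit 5) (nat_lit 2) (nat_lit 4) (nat_lit 501) (nat_lit 354) (nat_lit 345)))))) (XT.nd (nat_lit 468) (nat_lit 0) (nat_lit 0) (XT.nd (nat_lit 234) (nat_lit 0) (nat_lit 0) (XT.nd (nat_lit 78) (nat_lit 0) (nat_lit 0) (XT.lf (nat_lit 0) (nat_lit 1020559507261) (nat_lit 76) (nat_lit 145558938309) (nat_lit 76) (nat_lit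 145452794133) (nat_lit 1) (nat_lit 4) (nat_lit 2) (nat_lit 5) (nat_lit 2) (nat_lit 4) (nat_lit 502) (nat_lit 354) (nat_lit 344)) (XT.nd (nat_lit 78) (nat_lit 0) (nat_lit 0) (XT.lf (nat_lit 0) (nat_lit 1106863926215) (nat_lit 76) (nat_lit 154782781562) (nat_lit 76) (nat_lit 154669853054) (nat_lit 1) (nat_lit 4) (nat_lit 2) (nat_lit 5) (nat_lit 2) (nat_lit 4) (nat_lit 503) (nat_lit 354) (nat_lit 343)) (XT.lf (nat_lit 0) (nat_lit 1199909962671) (nat_lit 76) (nat_lit 164828527439) (nat_lit 76) (nat_lit 164709317143) (nat_lit 1) (nat_lit 4) (nat_lit 2) (nat_lit 5) (nat_lit 2) (nat_lit 4) (nat_lit 504) (nat_lit 354) (nat_lit 342)))) (XT.nd (nat_lit 78) (nat_lit 0) (nat_lit 0) (XT.lf (nat_lit 0) (nat_lit 1300249000548) (nat_lit 76) (nat_lit 175755706287) (nat_lit 76) (nat_lit 175630679520) (nat_lit 1) (nat_lit 4) (nat_lit 2) (nat_lit 5) (nat_lit 2) (nat_lit 4) (nat_lit 505) (nat_lit 354) (nat_lit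 341)) (XT.nd (nat_lit 78) (nat_lit 0) (nat_lit 0) (XT.lf (nat_lit 0) (nat_lit 1408475641552) (nat_lit 76) (nat_lit 187629071759) (nat_lit 76) (nat_lit 187498659371) (nat_lit 1) (nat_lit 4) (nat_lit 2) (nat_lit 5) (nat_lit 2) (nat_lit 4) (nat_lit 506) (nat_lit 354) (nat_lit 340)) (XT.lf (nat_lit 0) (nat_lit 1525231228741) (nat_lit 76) (nat_lit 200518984539) (nat_lit 76) (nat_lit 200383585464) (nat_lit 1) (nat_lit 4) (nat_lit 2) (nat_lit 5) (nat_lit 2) (nat_lit 4) (nat_lit 507) (nat_lit 354) (nat_lit 339))))) (XT.nd (nat_lit 234) (nat_lit 0) (nat_lit 0) (XT.nd (nat_lit 78) (nat_lit 0) (nat_lit 0) (XT.lf (nat_lit 0) (nat_lit 1651207647076) (nat_lit 76) (nat_lit 214501829294) (nat_lit 76) (nat_lit 214361812918) (nat_lit 1) (nat_lit 4) (nat_lit 2) (nat_lit 5) (nat_lit 2) (nat_lit 4) (nat_lit 508) (nat_lit 354) (nat_lit 338)) (XT.nd (nat_lit 78) (nat_lit 0) (nat_lit 0) (XT.lf (nat_lit 0) (nat_lit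 1787151423480) (nat_lit 76) (nat_lit 229660467328) (nat_lit 76) (nat_lit 229516175672) (nat_lit 1) (nat_lit 4) (nat_lit 2) (nat_lit 5) (nat_lit 2) (nat_lit 4) (nat_lit 509) (nat_lit 354) (nat_lit 337)) (XT.lf (nat_lit 0) (nat_lit 1933868150703) (nat_lit 76) (nat_lit 246084727607) (nat_lit 76) (nat_lit 245936477358) (nat_lit 1) (nat_lit 4) (nat_lit 2) (nat_lit 5) (nat_lit 2) (nat_lit 4) (nat_lit 510) (nat_lit 354) (nat_lit 336)))) (XT.nd (nat_lit 156) (nat_lit 0) (nat_lit 0) (XT.nd (nat_lit 78) (nat_lit 0) (nat_lit 0) (XT.lf (nat_lit 0) (nat_lit 2092227261203) (nat_lit 76) (nat_lit 263871939079) (nat_lit 76) (nat_lit 263720023467) (nat_lit 1) (nat_lit 4) (nat_lit 2) (nat_lit 5) (nat_lit 2) (nat_lit 4) (nat_lit 511) (nat_lit 354) (nat_lit 335)) (XT.lf (nat_lit 0) (nat_lit 2263167179337) (nat_lit 76) (nat_lit 283127507443) (nat_lit 76) (nat_lit 282972197977) (nat_lit 1) (nat_lit 4) (nat_lit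 2) (nat_lit 5) (nat_lit 2) (nat_lit 4) (nat_lit 512) (nat_lit 354) (nat_lit 334))) (XT.nd (nat_lit 78) (nat_lit 0) (nat_lit 0) (XT.lf (nat_lit 0) (nat_lit 2447700882398) (nat_lit 76) (nat_lit 303965539771) (nat_lit 76) (nat_lit 303807087846) (nat_lit 1) (nat_lit 4) (nat_lit 2) (nat_lit 5) (nat_lit 2) (nat_lit 4) (nat_lit 513) (nat_lit 354) (nat_lit 333)) (XT.lf (nat_lit 0) (nat_lit 2646921903442) (nat_lit 76) (nat_lit 326509520699) (nat_lit 76) (nat_lit 326348159090) (nat_lit 1) (nat_lit 4) (nat_lit 2) (nat_lit 5) (nat_lit 2) (nat_lit 4) (nat_lit 514) (nat_lit 354) (nat_lit 332))))))) (XT.nd (nat_lit 936) (nat_lit 0) (nat_lit 0) (XT.nd (nat_lit 468) (nat_lit 0) (nat_lit 0) (XT.nd (nat_lit 234) (nat_lit 0) (nat_lit 0) (XT.nd (nat_lit 78) (nat_lit 0) (nat_lit 0) (XT.lf (nat_lit 0) (nat_lit 2862010811483) (nat_lit 76) (nat_lit 350893044187) (nat_lit 76) (nat_lit 350728988427) (nat_lit 1) (nat_lit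 4) (nat_lit 2) (nat_lit 5) (nat_lit 2) (nat_lit 4) (nat_lit 515) (nat_lit 354) (nat_lit 331)) (XT.nd (nat_lit 78) (nat_lit 0) (nat_lit 0) (XT.lf (nat_lit 0) (nat_lit 3094242207456) (nat_lit 76) (nat_lit 377260605190) (nat_lit 76) (nat_lit 377094054845) (nat_lit 1) (nat_lit 4) (nat_lit 2) (nat_lit 5) (nat_lit 2) (nat_lit 4) (nat_lit 516) (nat_lit 354) (nat_lit 330)) (XT.lf (nat_lit 0) (nat_lit 3344992277411) (nat_lit 76) (nat_lit 405768455921) (nat_lit 76) (nat_lit 405599595776) (nat_lit 1) (nat_lit 4) (nat_lit 2) (nat_lit 5) (nat_lit 2) (nat_lit 4) (nat_lit 517) (nat_lit 354) (nat_lit 329)))) (XT.nd (nat_lit 78) (nat_lit 0) (nat_lit 0) (XT.lf (nat_lit 0) (nat_lit 3615746947691) (nat_lit 76) (nat_lit 436585531792) (nat_lit 76) (nat_lit 436414532942) (nat_lit 1) (nat_lit 4) (nat_lit 2) (nat_lit 5) (nat_lit 2) (nat_lit 4) (nat_lit 518) (nat_lit 354) (nat_lit 328)) (XT.nd (nat_lit 78) (nat_lit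 0) (nat_lit 0) (XT.lf (nat_lit 0) (nat_lit 3908110690413) (nat_lit 76) (nat_lit 469894452511) (nat_lit 76) (nat_lit 469721473380) (nat_lit 1) (nat_lit 4) (nat_lit 2) (nat_lit 5) (nat_lit 2) (nat_lit 4) (nat_lit 519) (nat_lit 354) (nat_lit 327)) (XT.lf (nat_lit 0) (nat_lit 4223816031462) (nat_lit 76) (nat_lit 505892604276) (nat_lit 76) (nat_lit 505717791551) (nat_lit 1) (nat_lit 4) (nat_lit 2) (nat_lit 5) (nat_lit 2) (nat_lit 4) (nat_lit 520) (nat_lit 354) (nat_lit 326))))) (XT.nd (nat_lit 234) (nat_lit 0) (nat_lit 0) (XT.nd (nat_lit 78) (nat_lit 0) (nat_lit 0) (XT.lf (nat_lit 0) (nat_lit 4564733817303) (nat_lit 76) (nat_lit 544793309468) (nat_lit 76) (nat_lit 544616798970) (nat_lit 1) (nat_lit 4) (nat_lit 2) (nat_lit 5) (nat_lit 2) (nat_lit 4) (nat_lit 521) (nat_lit 354) (nat_lit 325)) (XT.nd (nat_lit 78) (nat_lit 0) (nat_lit 0) (XT.lf (nat_lit 0) (nat_lit 4932884301482) (nat_lit 76) (nat_lit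 586827090783) (nat_lit 76) (nat_lit 586649008273) (nat_lit 1) (nat_lit 4) (nat_lit 2) (nat_lit 5) (nat_lit 2) (nat_lit 4) (nat_lit 522) (nat_lit 354) (nat_lit 324)) (XT.lf (nat_lit 0) (nat_lit 5330449116497) (nat_lit 76) (nat_lit 632243037296) (nat_lit 76) (nat_lit 632063499220) (nat_lit 1) (nat_lit 4) (nat_lit 2) (nat_lit 5) (nat_lit 2) (nat_lit 4) (nat_lit 523) (nat_lit 354) (nat_lit 323)))) (XT.nd (nat_lit 78) (nat_lit 0) (nat_lit 0) (XT.lf (nat_lit 0) (nat_lit 5759784201992) (nat_lit 76) (nat_lit 681310280542) (nat_lit 76) (nat_lit 681129394720) (nat_lit 1) (nat_lit 4) (nat_lit 2) (nat_lit 5) (nat_lit 2) (nat_lit 4) (nat_lit 524) (nat_lit 354) (nat_lit 322)) (XT.nd (nat_lit 78) (nat_lit 0) (nat_lit 0) (XT.lf (nat_lit 0) (nat_lit 6223433765883) (nat_lit 76) (nat_lit 734319589371) (nat_lit 76) (nat_lit 734137455635) (nat_lit 1) (nat_lit 4) (nat_lit 2) (nat_lit 5) (nat_lit 2) (nat_lit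 4) (nat_lit 525) (nat_lit 354) (nat_lit 321)) (XT.lf (nat_lit 0) (nat_lit 6724145361140) (nat_lit 76) (nat_lit 791585093019) (nat_lit 76) (nat_lit 791401803808) (nat_lit 1) (nat_lit 4) (nat_lit 2) (nat_lit 5) (nat_lit 2) (nat_lit 4) (nat_lit 526) (nat_lit 354) (nat_lit 320)))))) (XT.nd (nat_lit 468) (nat_lit 0) (nat_lit 0) (XT.nd (nat_lit 234) (nat_lit 0) (nat_lit 0) (XT.nd (nat_lit 78) (nat_lit 0) (nat_lit 0) (XT.lf (nat_lit 0) (nat_lit 7264886167587) (nat_lit 76) (nat_lit 853446142619) (nat_lit 76) (nat_lit 853261783523) (nat_lit 1) (nat_lit 4) (nat_lit 2) (nat_lit 5) (nat_lit 2) (nat_lit 4) (nat_lit 527) (nat_lit 354) (nat_lit 319)) (XT.nd (nat_lit 78) (nat_lit 0) (nat_lit 0) (XT.lf (nat_lit 0) (nat_lit 7848860575188) (nat_lit 76) (nat_lit 920269322169) (nat_lit 76) (nat_lit 920083972439) (nat_lit 1) (nat_lit 4) (nat_lit 2) (nat_lit 5) (nat_lit 2) (nat_lit 4) (nat_lit 528) (nat_lit 354)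 (nat_lit 318)) (XT.lf (nat_lit 0) (nat_lit 8479529173025) (nat_lit 76) (nat_lit 992450620881) (nat_lit 76) (nat_lit 992264353898) (nat_lit 1) (nat_lit 4) (nat_lit 2) (nat_lit 5) (nat_lit 2) (nat_lit 4) (nat_lit 529) (nat_lit 354) (nat_lit 317)))) (XT.nd (nat_lit 78) (nat_lit 0) (nat_lit 0) (XT.lf (nat_lit 0) (nat_lit 9160629256493) (nat_lit 76) (nat_lit 1070417779784) (nat_lit 76) (nat_lit 1070230663492) (nat_lit 1) (nat_lit 4) (nat_lit 2) (nat_lit 5) (nat_lit 2) (nat_lit 4) (nat_lit 530) (nat_lit 354) (nat_lit 316)) (XT.nd (nat_lit 78) (nat_lit 0) (nat_lit 0) (XT.lf (nat_lit 0) (nat_lit 9896196974234) (nat_lit 76) (nat_lit 1154632826487) (nat_lit 76) (nat_lit 1154444923798) (nat_lit 1) (nat_lit 4) (nat_lit 2) (nat_lit 5) (nat_lit 2) (nat_lit 4) (nat_lit 531) (nat_lit 354) (nat_lit 315)) (XT.lf (nat_lit 0) (nat_lit 10690591246058) (nat_lit 76) (nat_lit 1245594813118) (nat_lit 76) (nat_lit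 1245406182284) (nat_lit 1) (nat_lit 4) (nat_lit 2) (nat_lit 5) (nat_lit 2) (nat_lit 4) (nat_lit 532) (nat_lit 354) (nat_lit 314))))) (XT.nd (nat_lit 234) (nat_lit 0) (nat_lit 0) (XT.nd (nat_lit 78) (nat_lit 0) (nat_lit 0) (XT.lf (nat_lit 0) (nat_lit 11548519593574) (nat_lit 76) (nat_lit 1343842773673) (nat_lit 76) (nat_lit 1343653468629) (nat_lit 1) (nat_lit 4) (nat_lit 2) (nat_lit 5) (nat_lit 2) (nat_lit 4) (nat_lit 533) (nat_lit 354) (nat_lit 313)) (XT.nd (nat_lit 78) (nat_lit 0) (nat_lit 0) (XT.lf (nat_lit 0) (nat_lit 12475066036621) (nat_lit 76) (nat_lit 1449958918287) (nat_lit 76) (nat_lit 1449768988976) (nat_lit 1) (nat_lit 4) (nat_lit 2) (nat_lit 5) (nat_lit 2) (nat_lit 4) (nat_lit 534) (nat_lit 354) (nat_lit 312)) (XT.lf (nat_lit 0) (nat_lit 13475721220787) (nat_lit 76) (nat_lit 1564572083374) (nat_lit 76) (nat_lit 1564381576038) (nat_lit 1) (nat_lit 4) (nat_lit 2) (nat_lit 5) (nat_lit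 2) (nat_lit 4) (nat_lit 535) (nat_lit 354) (nat_lit 311)))) (XT.nd (nat_lit 58968) (nat_lit 0) (nat_lit 0) (XT.nd (nat_lit 58890) (nat_lit 0) (nat_lit 0) (XT.lf (nat_lit 0) (nat_lit 14556414954570) (nat_lit 76) (nat_lit 1688361458059) (nat_lit 76) (nat_lit 1688170415514) (nat_lit 1) (nat_lit 4) (nat_lit 2) (nat_lit 5) (nat_lit 2) (nat_lit 4) (nat_lit 536) (nat_lit 354) (nat_lit 310)) (XT.lf (nat_lit 0) (nat_lit 178335956741) (nat_lit 76) (nat_lit 41513162333) (nat_lit 76) (nat_lit 41513162333) (nat_lit 1) (nat_lit 4) (nat_lit 2) (nat_lit 5) (nat_lit 2) (nat_lit 4) (nat_lit 490) (nat_lit 355) (nat_lit 355))) (XT.nd (nat_lit 78) (nat_lit 0) (nat_lit 0) (XT.lf (nat_lit 0) (nat_lit 392987868627) (nat_lit 76) (nat_lit 85634612160) (nat_lit 76) (nat_lit 85618793547) (nat_lit 1) (nat_lit 4) (nat_lit 2) (nat_lit 5) (nat_lit 2) (nat_lit 4) (nat_lit 491) (nat_lit 355) (nat_lit 354)) (XT.lf (nat_lit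 0) (nat_lit 431829658545) (nat_lit 76) (nat_lit 88647409054) (nat_lit 76) (nat_lit 88616943579) (nat_lit 1) (nat_lit 4) (nat_lit 2) (nat_lit 5) (nat_lit 2) (nat_lit 4) (nat_lit 492) (nat_lit 355) (nat_lit 353))))))))
noncomputable def xc11 : XT := (XT.nd (nat_lit 1950) (nat_lit 0) (nat_lit 0) (XT.nd (nat_lit 936) (nat_lit 0) (nat_lit 0) (XT.nd (nat_lit 468) (nat_lit 0) (nat_lit 0) (XT.nd (nat_lit 234) (nat_lit 0) (nat_lit 0) (XT.nd (nat_lit 78) (nat_lit 0) (nat_lit 0) (XT.lf (nat_lit 0) (nat_lit 473427456805) (nat_lit 76) (nat_lit 92082568961) (nat_lit 76) (nat_lit 92038541575) (nat_lit 1) (nat_lit 4) (nat_lit 2) (nat_lit 5) (nat_lit 2) (nat_lit 4) (nat_lit 493) (nat_lit 355) (nat_lit 352)) (XT.nd (nat_lit 78) (nat_lit 0) (nat_lit 0) (XT.lf (nat_lit 0) (nat_lit 518027768880) (nat_lit 76) (nat_lit 95960448384) (nat_lit 76) (nat_lit 95903863674) (nat_lit 1) (nat_lit 4) (nat_lit 2) (nat_lit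 5) (nat_lit 2) (nat_lit 4) (nat_lit 494) (nat_lit 355) (nat_lit 351)) (XT.lf (nat_lit 0) (nat_lit 565894892914) (nat_lit 76) (nat_lit 100304027349) (nat_lit 76) (nat_lit 100235815487) (nat_lit 1) (nat_lit 4) (nat_lit 2) (nat_lit 5) (nat_lit 2) (nat_lit 4) (nat_lit 495) (nat_lit 355) (nat_lit 350)))) (XT.nd (nat_lit 78) (nat_lit 0) (nat_lit 0) (XT.lf (nat_lit 0) (nat_lit 617312485939) (nat_lit 76) (nat_lit 105139045583) (nat_lit 76) (nat_lit 105060067839) (nat_lit 1) (nat_lit 4) (nat_lit 2) (nat_lit 5) (nat_lit 2) (nat_lit 4) (nat_lit 496) (nat_lit 355) (nat_lit 349)) (XT.nd (nat_lit 78) (nat_lit 0) (nat_lit 0) (XT.lf (nat_lit 0) (nat_lit 672585244803) (nat_lit 76) (nat_lit 110494155046) (nat_lit 76) (nat_lit 110405208893) (nat_lit 1) (nat_lit 4) (nat_lit 2) (nat_lit 5) (nat_lit 2) (nat_lit 4) (nat_lit 497) (nat_lit 355) (nat_lit 348)) (XT.lf (nat_lit 0) (nat_lit 732040711781) (nat_lit 76)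 (nat_lit 116401089721) (nat_lit 76) (nat_lit 116302913559) (nat_lit 1) (nat_lit 4) (nat_lit 2) (nat_lit 5) (nat_lit 2) (nat_lit 4) (nat_lit 498) (nat_lit 355) (nat_lit 347))))) (XT.nd (nat_lit 234) (nat_lit 0) (nat_lit 0) (XT.nd (nat_lit 78) (nat_lit 0) (nat_lit 0) (XT.lf (nat_lit 0) (nat_lit 796031215565) (nat_lit 76) (nat_lit 122894853664) (nat_lit 76) (nat_lit 122788131198) (nat_lit 1) (nat_lit 4) (nat_lit 2) (nat_lit 5) (nat_lit 2) (nat_lit 4) (nat_lit 499) (nat_lit 355) (nat_lit 346)) (XT.nd (nat_lit 78) (nat_lit 0) (nat_lit 0) (XT.lf (nat_lit 0) (nat_lit 864935959141) (nat_lit 76) (nat_lit 130013928439) (nat_lit 76) (nat_lit 129899292729) (nat_lit 1) (nat_lit 4) (nat_lit 2) (nat_lit 5) (nat_lit 2) (nat_lit 4) (nat_lit 500) (nat_lit 355) (nat_lit 345)) (XT.lf (nat_lit 0) (nat_lit 939163266915) (nat_lit 76) (nat_lit 137800501157) (nat_lit 76) (nat_lit 137678538369) (nat_lit 1) (nat_lit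 4) (nat_lit 2) (nat_lit 5) (nat_lit 2) (nat_lit 4) (nat_lit 501) (nat_lit 355) (nat_lit 344)))) (XT.nd (nat_lit 78) (nat_lit 0) (nat_lit 0) (XT.lf (nat_lit 0) (nat_lit 1019153004416) (nat_lit 76) (nat_lit 146300714470) (nat_lit 76) (nat_lit 146171967350) (nat_lit 1) (nat_lit 4) (nat_lit 2) (nat_lit 5) (nat_lit 2) (nat_lit 4) (nat_lit 502) (nat_lit 355) (nat_lit 343)) (XT.nd (nat_lit 78) (nat_lit 0) (nat_lit 0) (XT.lf (nat_lit 0) (nat_lit 1105379184901) (nat_lit 76) (nat_lit 155564940013) (nat_lit 76) (nat_lit 155429911105) (nat_lit 1) (nat_lit 4) (nat_lit 2) (nat_lit 5) (nat_lit 2) (nat_lit 4) (nat_lit 503) (nat_lit 355) (nat_lit 342)) (XT.lf (nat_lit 0) (nat_lit 1198352778330) (nat_lit 76) (nat_lit 165648076901) (nat_lit 76) (nat_lit 165507231521) (nat_lit 1) (nat_lit 4) (nat_lit 2) (nat_lit 5) (nat_lit 2) (nat_lit 4) (nat_lit 504) (nat_lit 355) (nat_lit 341)))))) (XT.nd (nat_lit 468)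 (nat_lit 0) (nat_lit 0) (XT.nd (nat_lit 234) (nat_lit 0) (nat_lit 0) (XT.nd (nat_lit 78) (nat_lit 0) (nat_lit 0) (XT.lf (nat_lit 0) (nat_lit 1298624739331) (nat_lit 76) (nat_lit 176609877055) (nat_lit 76) (nat_lit 176463646054) (nat_lit 1) (nat_lit 4) (nat_lit 2) (nat_lit 5) (nat_lit 2) (nat_lit 4) (nat_lit 505) (nat_lit 355) (nat_lit 340)) (XT.nd (nat_lit 78) (nat_lit 0) (nat_lit 0) (XT.lf (nat_lit 0) (nat_lit 1406789272116) (nat_lit 76) (nat_lit 188515299291) (nat_lit 76) (nat_lit 188364081604) (nat_lit 1) (nat_lit 4) (nat_lit 2) (nat_lit 5) (nat_lit 2) (nat_lit 4) (nat_lit 506) (nat_lit 355) (nat_lit 339)) (XT.lf (nat_lit 0) (nat_lit 1523487351694) (nat_lit 76) (nat_lit 201434894260) (nat_lit 76) (nat_lit 201279059271) (nat_lit 1) (nat_lit 4) (nat_lit 2) (nat_lit 5) (nat_lit 2) (nat_lit 4) (nat_lit 507) (nat_lit 355) (nat_lit 338)))) (XT.nd (nat_lit 78) (nat_lit 0) (nat_lit 0) (XT.lf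 (nat_lit 0) (nat_lit 1649410522242) (nat_lit 76) (nat_lit 215445222524) (nat_lit 76) (nat_lit 215285112255) (nat_lit 1) (nat_lit 4) (nat_lit 2) (nat_lit 5) (nat_lit 2) (nat_lit 4) (nat_lit 508) (nat_lit 355) (nat_lit 337)) (XT.nd (nat_lit 78) (nat_lit 0) (nat_lit 0) (XT.lf (nat_lit 0) (nat_lit 1785304995140) (nat_lit 76) (nat_lit 230629308251) (nat_lit 76) (nat_lit 230465239390) (nat_lit 1) (nat_lit 4) (nat_lit 2) (nat_lit 5) (nat_lit 2) (nat_lit 4) (nat_lit 509) (nat_lit 355) (nat_lit 336)) (XT.lf (nat_lit 0) (nat_lit 1931976070968) (nat_lit 76) (nat_lit 247077131208) (nat_lit 76) (nat_lit 246909396984) (nat_lit 1) (nat_lit 4) (nat_lit 2) (nat_lit 5) (nat_lit 2) (nat_lit 4) (nat_lit 510) (nat_lit 355) (nat_lit 335))))) (XT.nd (nat_lit 234) (nat_lit 0) (nat_lit 0) (XT.nd (nat_lit 78) (nat_lit 0) (nat_lit 0) (XT.lf (nat_lit 0) (nat_lit 2090292911658) (nat_lit 76) (nat_lit 264886159976) (nat_lit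 76) (nat_lit 264715031897) (nat_lit 1) (nat_lit 4) (nat_lit 2) (nat_lit 5) (nat_lit 2) (nat_lit 4) (nat_lit 511) (nat_lit 355) (nat_lit 334)) (XT.nd (nat_lit 78) (nat_lit 0) (nat_lit 0) (XT.lf (nat_lit 0) (nat_lit 2261193691079) (nat_lit 76) (nat_lit 284161929539) (nat_lit 76) (nat_lit 283987659002) (nat_lit 1) (nat_lit 4) (nat_lit 2) (nat_lit 5) (nat_lit 2) (nat_lit 4) (nat_lit 512) (nat_lit 355) (nat_lit 333)) (XT.lf (nat_lit 0) (nat_lit 2445691154591) (nat_lit 76) (nat_lit 305018666681) (nat_lit 76) (nat_lit 304841486460) (nat_lit 1) (nat_lit 4) (nat_lit 2) (nat_lit 5) (nat_lit 2) (nat_lit 4) (nat_lit 513) (nat_lit 355) (nat_lit 332)))) (XT.nd (nat_lit 156) (nat_lit 0) (nat_lit 0) (XT.nd (nat_lit 78) (nat_lit 0) (nat_lit 0) (XT.lf (nat_lit 0) (nat_lit 2644878620497) (nat_lit 76) (nat_lit 327579966881) (nat_lit 76) (nat_lit 327400092509) (nat_lit 1) (nat_lit 4) (nat_lit 2) (nat_lit 5)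 (nat_lit 2) (nat_lit 4) (nat_lit 514) (nat_lit 355) (nat_lit 331)) (XT.lf (nat_lit 0) (nat_lit 2859936458965) (nat_lit 76) (nat_lit 351979526733) (nat_lit 76) (nat_lit 351797157776) (nat_lit 1) (nat_lit 4) (nat_lit 2) (nat_lit 5) (nat_lit 2) (nat_lit 4) (nat_lit 515) (nat_lit 355) (nat_lit 330))) (XT.nd (nat_lit 78) (nat_lit 0) (nat_lit 0) (XT.lf (nat_lit 0) (nat_lit 3092139086815) (nat_lit 76) (nat_lit 378361936220) (nat_lit 76) (nat_lit 378177257463) (nat_lit 1) (nat_lit 4) (nat_lit 2) (nat_lit 5) (nat_lit 2) (nat_lit 4) (nat_lit 516) (nat_lit 355) (nat_lit 329)) (XT.lf (nat_lit 0) (nat_lit 3342862519620) (nat_lit 76) (nat_lit 406883535548) (nat_lit 76) (nat_lit 406696718086) (nat_lit 1) (nat_lit 4) (nat_lit 2) (nat_lit 5) (nat_lit 2) (nat_lit 4) (nat_lit 517) (nat_lit 355) (nat_lit 328))))))) (XT.nd (nat_lit 936) (nat_lit 0) (nat_lit 0) (XT.nd (nat_lit 468) (nat_lit 0) (nat_lit 0) (XT.nd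 (nat_lit 234) (nat_lit 0) (nat_lit 0) (XT.nd (nat_lit 78) (nat_lit 0) (nat_lit 0) (XT.lf (nat_lit 0) (nat_lit 3613592525871) (nat_lit 76) (nat_lit 437713341601) (nat_lit 76) (nat_lit 437524543858) (nat_lit 1) (nat_lit 4) (nat_lit 2) (nat_lit 5) (nat_lit 2) (nat_lit 4) (nat_lit 518) (nat_lit 355) (nat_lit 327)) (XT.nd (nat_lit 78) (nat_lit 0) (nat_lit 0) (XT.lf (nat_lit 0) (nat_lit 3905933431531) (nat_lit 76) (nat_lit 471034049526) (nat_lit 76) (nat_lit 470843418189) (nat_lit 1) (nat_lit 4) (nat_lit 2) (nat_lit 5) (nat_lit 2) (nat_lit 4) (nat_lit 519) (nat_lit 355) (nat_lit 326)) (XT.lf (nat_lit 0) (nat_lit 4221617627151) (nat_lit 76) (nat_lit 507043115371) (nat_lit 76) (nat_lit 506850786260) (nat_lit 1) (nat_lit 4) (nat_lit 2) (nat_lit 5) (nat_lit 2) (nat_lit 4) (nat_lit 520) (nat_lit 355) (nat_lit 325)))) (XT.nd (nat_lit 78) (nat_lit 0) (nat_lit 0) (XT.lf (nat_lit 0) (nat_lit 4562515833891)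 (nat_lit 76) (nat_lit 545953926191) (nat_lit 76) (nat_lit 545760025069) (nat_lit 1) (nat_lit 4) (nat_lit 2) (nat_lit 5) (nat_lit 2) (nat_lit 4) (nat_lit 521) (nat_lit 355) (nat_lit 324)) (XT.nd (nat_lit 78) (nat_lit 0) (nat_lit 0) (XT.lf (nat_lit 0) (nat_lit 4930648189272) (nat_lit 76) (nat_lit 587997064570) (nat_lit 76) (nat_lit 587801707882) (nat_lit 1) (nat_lit 4) (nat_lit 2) (nat_lit 5) (nat_lit 2) (nat_lit 4) (nat_lit 522) (nat_lit 355) (nat_lit 323)) (XT.lf (nat_lit 0) (nat_lit 5328196218364) (nat_lit 76) (nat_lit 633421675031) (nat_lit 76) (nat_lit 633224970597) (nat_lit 1) (nat_lit 4) (nat_lit 2) (nat_lit 5) (nat_lit 2) (nat_lit 4) (nat_lit 523) (nat_lit 355) (nat_lit 322))))) (XT.nd (nat_lit 234) (nat_lit 0) (nat_lit 0) (XT.nd (nat_lit 78) (nat_lit 0) (nat_lit 0) (XT.lf (nat_lit 0) (nat_lit 5757515761338) (nat_lit 76) (nat_lit 682496940452) (nat_lit 76) (nat_lit 682298988104) (nat_lit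 1) (nat_lit 4) (nat_lit 2) (nat_lit 5) (nat_lit 2) (nat_lit 4) (nat_lit 524) (nat_lit 355) (nat_lit 321)) (XT.nd (nat_lit 78) (nat_lit 0) (nat_lit 0) (XT.lf (nat_lit 0) (nat_lit 6221150934006) (nat_lit 76) (nat_lit 735513677219) (nat_lit 76) (nat_lit 735314569396) (nat_lit 1) (nat_lit 4) (nat_lit 2) (nat_lit 5) (nat_lit 2) (nat_lit 4) (nat_lit 525) (nat_lit 355) (nat_lit 320)) (XT.lf (nat_lit 0) (nat_lit 6721849204055) (nat_lit 76) (nat_lit 792786058589) (nat_lit 76) (nat_lit 792585880881) (nat_lit 1) (nat_lit 4) (nat_lit 2) (nat_lit 5) (nat_lit 2) (nat_lit 4) (nat_lit 526) (nat_lit 355) (nat_lit 319)))) (XT.nd (nat_lit 78) (nat_lit 0) (nat_lit 0) (XT.lf (nat_lit 0) (nat_lit 7262577672348) (nat_lit 76) (nat_lit 854653476449) (nat_lit 76) (nat_lit 854452308108) (nat_lit 1) (nat_lit 4) (nat_lit 2) (nat_lit 5) (nat_lit 2) (nat_lit 4) (nat_lit 527) (nat_lit 355) (nat_lit 318)) (XT.nd (nat_lit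 78) (nat_lit 0) (nat_lit 0) (XT.lf (nat_lit 0) (nat_lit 7846540655731) (nat_lit 76) (nat_lit 921482552537) (nat_lit 76) (nat_lit 921280466941) (nat_lit 1) (nat_lit 4) (nat_lit 2) (nat_lit 5) (nat_lit 2) (nat_lit 4) (nat_lit 528) (nat_lit 355) (nat_lit 317)) (XT.lf (nat_lit 0) (nat_lit 8477198675589) (nat_lit 76) (nat_lit 993669311005) (nat_lit 76) (nat_lit 993466376101) (nat_lit 1) (nat_lit 4) (nat_lit 2) (nat_lit 5) (nat_lit 2) (nat_lit 4) (nat_lit 529) (nat_lit 355) (nat_lit 316)))))) (XT.nd (nat_lit 468) (nat_lit 0) (nat_lit 0) (XT.nd (nat_lit 234) (nat_lit 0) (nat_lit 0) (XT.nd (nat_lit 78) (nat_lit 0) (nat_lit 0) (XT.lf (nat_lit 0) (nat_lit 9158288964632) (nat_lit 76) (nat_lit 1071641525239) (nat_lit 76) (nat_lit 1071437803938) (nat_lit 1) (nat_lit 4) (nat_lit 2) (nat_lit 5) (nat_lit 2) (nat_lit 4) (nat_lit 530) (nat_lit 355) (nat_lit 315)) (XT.nd (nat_lit 78) (nat_lit 0) (nat_lit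 0) (XT.lf (nat_lit 0) (nat_lit 9893847613461) (nat_lit 76) (nat_lit 1155861252804) (nat_lit 76) (nat_lit 1155656803357) (nat_lit 1) (nat_lit 4) (nat_lit 2) (nat_lit 5) (nat_lit 2) (nat_lit 4) (nat_lit 531) (nat_lit 355) (nat_lit 314)) (XT.lf (nat_lit 0) (nat_lit 10688233488144) (nat_lit 76) (nat_lit 1246827573566) (nat_lit 76) (nat_lit 1246622449911) (nat_lit 1) (nat_lit 4) (nat_lit 2) (nat_lit 5) (nat_lit 2) (nat_lit 4) (nat_lit 532) (nat_lit 355) (nat_lit 313)))) (XT.nd (nat_lit 78) (nat_lit 0) (nat_lit 0) (XT.lf (nat_lit 0) (nat_lit 11546154060531) (nat_lit 76) (nat_lit 1345079547205) (nat_lit 76) (nat_lit 1344873799282) (nat_lit 1) (nat_lit 4) (nat_lit 2) (nat_lit 5) (nat_lit 2) (nat_lit 4) (nat_lit 533) (nat_lit 355) (nat_lit 312)) (XT.nd (nat_lit 78) (nat_lit 0) (nat_lit 0) (XT.lf (nat_lit 0) (nat_lit 12472693304383) (nat_lit 76) (nat_lit 1451199407638) (nat_lit 76) (nat_lit 1450993081690)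 (nat_lit 1) (nat_lit 4) (nat_lit 2) (nat_lit 5) (nat_lit 2) (nat_lit 4) (nat_lit 534) (nat_lit 355) (nat_lit 311)) (XT.lf (nat_lit 0) (nat_lit 13473341822628) (nat_lit 76) (nat_lit 1565816013298) (nat_lit 76) (nat_lit 1565609152141) (nat_lit 1) (nat_lit 4) (nat_lit 2) (nat_lit 5) (nat_lit 2) (nat_lit 4) (nat_lit 535) (nat_lit 355) (nat_lit 310))))) (XT.nd (nat_lit 58890) (nat_lit 0) (nat_lit 0) (XT.nd (nat_lit 58734) (nat_lit 0) (nat_lit 0) (XT.lf (nat_lit 0) (nat_lit 14554029384262) (nat_lit 76) (nat_lit 1689608573699) (nat_lit 76) (nat_lit 1689401216979) (nat_lit 1) (nat_lit 4) (nat_lit 2) (nat_lit 5) (nat_lit 2) (nat_lit 4) (nat_lit 536) (nat_lit 355) (nat_lit 309)) (XT.nd (nat_lit 78) (nat_lit 0) (nat_lit 0) (XT.lf (nat_lit 0) (nat_lit 145491578343) (nat_lit 76) (nat_lit 39435508387) (nat_lit 76) (nat_lit 39435508387) (nat_lit 1) (nat_lit 4) (nat_lit 2) (nat_lit 5) (nat_lit 2) (nat_lit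 4) (nat_lit 488) (nat_lit 356) (nat_lit 356)) (XT.lf (nat_lit 0) (nat_lit 322666587451) (nat_lit 76) (nat_lit 80824174158) (nat_lit 76) (nat_lit 80807090057) (nat_lit 1) (nat_lit 4) (nat_lit 2) (nat_lit 5) (nat_lit 2) (nat_lit 4) (nat_lit 489) (nat_lit 356) (nat_lit 355)))) (XT.nd (nat_lit 156) (nat_lit 0) (nat_lit 0) (XT.nd (nat_lit 78) (nat_lit 0) (nat_lit 0) (XT.lf (nat_lit 0) (nat_lit 356474895709) (nat_lit 76) (nat_lit 83145098246) (nat_lit 76) (nat_lit 83112195532) (nat_lit 1) (nat_lit 4) (nat_lit 2) (nat_lit 5) (nat_lit 2) (nat_lit 4) (nat_lit 490) (nat_lit 356) (nat_lit 354)) (XT.lf (nat_lit 0) (nat_lit 392608426989) (nat_lit 76) (nat_lit 85847542663) (nat_lit 76) (nat_lit 85799993086) (nat_lit 1) (nat_lit 4) (nat_lit 2) (nat_lit 5) (nat_lit 2) (nat_lit 4) (nat_lit 491) (nat_lit 356) (nat_lit 353))) (XT.nd (nat_lit 78) (nat_lit 0) (nat_lit 0) (XT.lf (nat_lit 0) (nat_lit 431281305920)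 (nat_lit 76) (nat_lit 88947521894) (nat_lit 76) (nat_lit 88886410407) (nat_lit 1) (nat_lit 4) (nat_lit 2) (nat_lit 5) (nat_lit 2) (nat_lit 4) (nat_lit 492) (nat_lit 356) (nat_lit 352)) (XT.lf (nat_lit 0) (nat_lit 472722705120) (nat_lit 76) (nat_lit 92463406188) (nat_lit 76) (nat_lit 92389737376) (nat_lit 1) (nat_lit 4) (nat_lit 2) (nat_lit 5) (nat_lit 2) (nat_lit 4) (nat_lit 493) (nat_lit 356) (nat_lit 351))))))))
noncomputable def xc12 : XT := (XT.nd (nat_lit 1950) (nat_lit 0) (nat_lit 0) (XT.nd (nat_lit 936) (nat_lit 0) (nat_lit 0) (XT.nd (nat_lit 468) (nat_lit 0) (nat_lit 0) (XT.nd (nat_lit 234) (nat_lit 0) (nat_lit 0) (XT.nd (nat_lit 78) (nat_lit 0) (nat_lit 0) (XT.lf (nat_lit 0) (nat_lit 517178203249) (nat_lit 76) (nat_lit 96416030413) (nat_lit 76) (nat_lit 96330734449) (nat_lit 1) (nat_lit 4) (nat_lit 2) (nat_lit 5) (nat_lit 2) (nat_lit 4) (nat_lit 494) (nat_lit 356) (nat_lit 350))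 (XT.nd (nat_lit 78) (nat_lit 0) (nat_lit 0) (XT.lf (nat_lit 0) (nat_lit 564911240297) (nat_lit 76) (nat_lit 100828817528) (nat_lit 76) (nat_lit 100732755682) (nat_lit 1) (nat_lit 4) (nat_lit 2) (nat_lit 5) (nat_lit 2) (nat_lit 4) (nat_lit 495) (nat_lit 356) (nat_lit 349)) (XT.lf (nat_lit 0) (nat_lit 616204678706) (nat_lit 76) (nat_lit 105727917382) (nat_lit 76) (nat_lit 105621887128) (nat_lit 1) (nat_lit 4) (nat_lit 2) (nat_lit 5) (nat_lit 2) (nat_lit 4) (nat_lit 496) (nat_lit 356) (nat_lit 348)))) (XT.nd (nat_lit 78) (nat_lit 0) (nat_lit 0) (XT.lf (nat_lit 0) (nat_lit 671362479591) (nat_lit 76) (nat_lit 111142361679) (nat_lit 76) (nat_lit 111027101416) (nat_lit 1) (nat_lit 4) (nat_lit 2) (nat_lit 5) (nat_lit 2) (nat_lit 4) (nat_lit 497) (nat_lit 356) (nat_lit 347)) (XT.nd (nat_lit 78) (nat_lit 0) (nat_lit 0) (XT.lf (nat_lit 0) (nat_lit 730711503995) (nat_lit 76) (nat_lit 117104236014)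 (nat_lit 76) (nat_lit 116980429448) (nat_lit 1) (nat_lit 4) (nat_lit 2) (nat_lit 5) (nat_lit 2) (nat_lit 4) (nat_lit 498) (nat_lit 356) (nat_lit 346)) (XT.lf (nat_lit 0) (nat_lit 794603449842) (nat_lit 76) (nat_lit 123648870013) (nat_lit 76) (nat_lit 123517150202) (nat_lit 1) (nat_lit 4) (nat_lit 2) (nat_lit 5) (nat_lit 2) (nat_lit 4) (nat_lit 499) (nat_lit 356) (nat_lit 345))))) (XT.nd (nat_lit 234) (nat_lit 0) (nat_lit 0) (XT.nd (nat_lit 78) (nat_lit 0) (nat_lit 0) (XT.lf (nat_lit 0) (nat_lit 863416936068) (nat_lit 76) (nat_lit 130815046693) (nat_lit 76) (nat_lit 130675999804) (nat_lit 1) (nat_lit 4) (nat_lit 2) (nat_lit 5) (nat_lit 2) (nat_lit 4) (nat_lit 500) (nat_lit 356) (nat_lit 344)) (XT.nd (nat_lit 78) (nat_lit 0) (nat_lit 0) (XT.lf (nat_lit 0) (nat_lit 937559746296) (nat_lit 76) (nat_lit 138645232285) (nat_lit 76) (nat_lit 138499401064) (nat_lit 1) (nat_lit 4) (nat_lit 2) (nat_lit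 5) (nat_lit 2) (nat_lit 4) (nat_lit 501) (nat_lit 356) (nat_lit 343)) (XT.lf (nat_lit 0) (nat_lit 1017471245328) (nat_lit 76) (nat_lit 147185827889) (nat_lit 76) (nat_lit 147033714879) (nat_lit 1) (nat_lit 4) (nat_lit 2) (nat_lit 5) (nat_lit 2) (nat_lit 4) (nat_lit 502) (nat_lit 356) (nat_lit 342)))) (XT.nd (nat_lit 78) (nat_lit 0) (nat_lit 0) (XT.lf (nat_lit 0) (nat_lit 1103624982787) (nat_lit 76) (nat_lit 156487444442) (nat_lit 76) (nat_lit 156329514961) (nat_lit 1) (nat_lit 4) (nat_lit 2) (nat_lit 5) (nat_lit 2) (nat_lit 4) (nat_lit 503) (nat_lit 356) (nat_lit 341)) (XT.nd (nat_lit 78) (nat_lit 0) (nat_lit 0) (XT.lf (nat_lit 0) (nat_lit 1196531499339) (nat_lit 76) (nat_lit 166605202635) (nat_lit 76) (nat_lit 166441887533) (nat_lit 1) (nat_lit 4) (nat_lit 2) (nat_lit 5) (nat_lit 2) (nat_lit 4) (nat_lit 504) (nat_lit 356) (nat_lit 340)) (XT.lf (nat_lit 0) (nat_lit 1296741352121) (nat_lit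 76) (nat_lit 177599059553) (nat_lit 76) (nat_lit 177430757765) (nat_lit 1) (nat_lit 4) (nat_lit 2) (nat_lit 5) (nat_lit 2) (nat_lit 4) (nat_lit 505) (nat_lit 356) (nat_lit 339)))))) (XT.nd (nat_lit 468) (nat_lit 0) (nat_lit 0) (XT.nd (nat_lit 234) (nat_lit 0) (nat_lit 0) (XT.nd (nat_lit 78) (nat_lit 0) (nat_lit 0) (XT.lf (nat_lit 0) (nat_lit 1404848377296) (nat_lit 76) (nat_lit 189534163979) (nat_lit 76) (nat_lit 189361244889) (nat_lit 1) (nat_lit 4) (nat_lit 2) (nat_lit 5) (nat_lit 2) (nat_lit 4) (nat_lit 506) (nat_lit 356) (nat_lit 338)) (XT.nd (nat_lit 78) (nat_lit 0) (nat_lit 0) (XT.lf (nat_lit 0) (nat_lit 1521493209087) (nat_lit 76) (nat_lit 202481242456) (nat_lit 76) (nat_lit 202304048086) (nat_lit 1) (nat_lit 4) (nat_lit 2) (nat_lit 5) (nat_lit 2) (nat_lit 4) (nat_lit 507) (nat_lit 356) (nat_lit 337)) (XT.lf (nat_lit 0) (nat_lit 1647367076129) (nat_lit 76) (nat_lit 216517018413)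 (nat_lit 76) (nat_lit 216335865451) (nat_lit 1) (nat_lit 4) (nat_lit 2) (nat_lit 5) (nat_lit 2) (nat_lit 4) (nat_lit 508) (nat_lit 356) (nat_lit 336)))) (XT.nd (nat_lit 78) (nat_lit 0) (nat_lit 0) (XT.lf (nat_lit 0) (nat_lit 1783215897631) (nat_lit 76) (nat_lit 231724666819) (nat_lit 76) (nat_lit 231539848494) (nat_lit 1) (nat_lit 4) (nat_lit 2) (nat_lit 5) (nat_lit 2) (nat_lit 4) (nat_lit 509) (nat_lit 356) (nat_lit 335)) (XT.nd (nat_lit 78) (nat_lit 0) (nat_lit 0) (XT.lf (nat_lit 0) (nat_lit 1929844703649) (nat_lit 76) (nat_lit 248194307071) (nat_lit 76) (nat_lit 248006094891) (nat_lit 1) (nat_lit 4) (nat_lit 2) (nat_lit 5) (nat_lit 2) (nat_lit 4) (nat_lit 510) (nat_lit 356) (nat_lit 334)) (XT.lf (nat_lit 0) (nat_lit 2088122405625) (nat_lit 76) (nat_lit 266023537038) (nat_lit 76) (nat_lit 265832182400) (nat_lit 1) (nat_lit 4) (nat_lit 2) (nat_lit 5) (nat_lit 2) (nat_lit 4) (nat_lit 511)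 (nat_lit 356) (nat_lit 333))))) (XT.nd (nat_lit 234) (nat_lit 0) (nat_lit 0) (XT.nd (nat_lit 78) (nat_lit 0) (nat_lit 0) (XT.lf (nat_lit 0) (nat_lit 2258986945497) (nat_lit 76) (nat_lit 285318011416) (nat_lit 76) (nat_lit 285123747094) (nat_lit 1) (nat_lit 4) (nat_lit 2) (nat_lit 5) (nat_lit 2) (nat_lit 4) (nat_lit 512) (nat_lit 356) (nat_lit 332)) (XT.nd (nat_lit 78) (nat_lit 0) (nat_lit 0) (XT.lf (nat_lit 0) (nat_lit 2443450853871) (nat_lit 76) (nat_lit 306192067831) (nat_lit 76) (nat_lit 305995109357) (nat_lit 1) (nat_lit 4) (nat_lit 2) (nat_lit 5) (nat_lit 2) (nat_lit 4) (nat_lit 513) (nat_lit 356) (nat_lit 331)) (XT.lf (nat_lit 0) (nat_lit 2642607250205) (nat_lit 76) (nat_lit 328769404394) (nat_lit 76) (nat_lit 328569951336) (nat_lit 1) (nat_lit 4) (nat_lit 2) (nat_lit 5) (nat_lit 2) (nat_lit 4) (nat_lit 514) (nat_lit 356) (nat_lit 330)))) (XT.nd (nat_lit 156) (nat_lit 0) (nat_lit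 0) (XT.nd (nat_lit 78) (nat_lit 0) (nat_lit 0) (XT.lf (nat_lit 0) (nat_lit 2857636320550) (nat_lit 76) (nat_lit 353183812730) (nat_lit 76) (nat_lit 352982049871) (nat_lit 1) (nat_lit 4) (nat_lit 2) (nat_lit 5) (nat_lit 2) (nat_lit 4) (nat_lit 515) (nat_lit 356) (nat_lit 329)) (XT.lf (nat_lit 0) (nat_lit 3089812311250) (nat_lit 76) (nat_lit 379579970814) (nat_lit 76) (nat_lit 379376069251) (nat_lit 1) (nat_lit 4) (nat_lit 2) (nat_lit 5) (nat_lit 2) (nat_lit 4) (nat_lit 516) (nat_lit 356) (nat_lit 328))) (XT.nd (nat_lit 78) (nat_lit 0) (nat_lit 0) (XT.lf (nat_lit 0) (nat_lit 3340511080027) (nat_lit 76) (nat_lit 408114300324) (nat_lit 76) (nat_lit 407908418479) (nat_lit 1) (nat_lit 4) (nat_lit 2) (nat_lit 5) (nat_lit 2) (nat_lit 4) (nat_lit 517) (nat_lit 356) (nat_lit 327)) (XT.lf (nat_lit 0) (nat_lit 3611218249215) (nat_lit 76) (nat_lit 438955893583) (nat_lit 76) (nat_lit 438748178144) (nat_lit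 1) (nat_lit 4) (nat_lit 2) (nat_lit 5) (nat_lit 2) (nat_lit 4) (nat_lit 518) (nat_lit 356) (nat_lit 326))))))) (XT.nd (nat_lit 936) (nat_lit 0) (nat_lit 0) (XT.nd (nat_lit 468) (nat_lit 0) (nat_lit 0) (XT.nd (nat_lit 234) (nat_lit 0) (nat_lit 0) (XT.nd (nat_lit 78) (nat_lit 0) (nat_lit 0) (XT.lf (nat_lit 0) (nat_lit 3903538009445) (nat_lit 76) (nat_lit 472287515587) (nat_lit 76) (nat_lit 472078102376) (nat_lit 1) (nat_lit 4) (nat_lit 2) (nat_lit 5) (nat_lit 2) (nat_lit 4) (nat_lit 519) (nat_lit 356) (nat_lit 325)) (XT.nd (nat_lit 78) (nat_lit 0) (nat_lit 0) (XT.lf (nat_lit 0) (nat_lit 4219202625965) (nat_lit 76) (nat_lit 508306687061) (nat_lit 76) (nat_lit 508095701838) (nat_lit 1) (nat_lit 4) (nat_lit 2) (nat_lit 5) (nat_lit 2) (nat_lit 4) (nat_lit 520) (nat_lit 356) (nat_lit 324)) (XT.lf (nat_lit 0) (nat_lit 4560082703908) (nat_lit 76) (nat_lit 547226854945) (nat_lit 76) (nat_lit 547014414156)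 (nat_lit 1) (nat_lit 4) (nat_lit 2) (nat_lit 5) (nat_lit 2) (nat_lit 4) (nat_lit 521) (nat_lit 356) (nat_lit 323)))) (XT.nd (nat_lit 78) (nat_lit 0) (nat_lit 0) (XT.lf (nat_lit 0) (nat_lit 4928198273366) (nat_lit 76) (nat_lit 589278657272) (nat_lit 76) (nat_lit 589064868737) (nat_lit 1) (nat_lit 4) (nat_lit 2) (nat_lit 5) (nat_lit 2) (nat_lit 4) (nat_lit 522) (nat_lit 356) (nat_lit 322)) (XT.nd (nat_lit 78) (nat_lit 0) (nat_lit 0) (XT.lf (nat_lit 0) (nat_lit 5325730759936) (nat_lit 76) (nat_lit 634711289908) (nat_lit 76) (nat_lit 634496253459) (nat_lit 1) (nat_lit 4) (nat_lit 2) (nat_lit 5) (nat_lit 2) (nat_lit 4) (nat_lit 523) (nat_lit 356) (nat_lit 321)) (XT.lf (nat_lit 0) (nat_lit 5755035911687) (nat_lit 76) (nat_lit 683793983267) (nat_lit 76) (nat_lit 683577791343) (nat_lit 1) (nat_lit 4) (nat_lit 2) (nat_lit 5) (nat_lit 2) (nat_lit 4) (nat_lit 524) (nat_lit 356) (nat_lit 320))))) (XT.nd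 (nat_lit 234) (nat_lit 0) (nat_lit 0) (XT.nd (nat_lit 78) (nat_lit 0) (nat_lit 0) (XT.lf (nat_lit 0) (nat_lit 6218657759147) (nat_lit 76) (nat_lit 736817597756) (nat_lit 76) (nat_lit 736600335947) (nat_lit 1) (nat_lit 4) (nat_lit 2) (nat_lit 5) (nat_lit 2) (nat_lit 4) (nat_lit 525) (nat_lit 356) (nat_lit 319)) (XT.nd (nat_lit 78) (nat_lit 0) (nat_lit 0) (XT.lf (nat_lit 0) (nat_lit 6719343691042) (nat_lit 76) (nat_lit 794096347386) (nat_lit 76) (nat_lit 793878094943) (nat_lit 1) (nat_lit 4) (nat_lit 2) (nat_lit 5) (nat_lit 2) (nat_lit 4) (nat_lit 526) (nat_lit 356) (nat_lit 318)) (XT.lf (nat_lit 0) (nat_lit 7260060735117) (nat_lit 76) (nat_lit 855969661784) (nat_lit 76) (nat_lit 855750492088) (nat_lit 1) (nat_lit 4) (nat_lit 2) (nat_lit 5) (nat_lit 2) (nat_lit 4) (nat_lit 527) (nat_lit 356) (nat_lit 317)))) (XT.nd (nat_lit 78) (nat_lit 0) (nat_lit 0) (XT.lf (nat_lit 0) (nat_lit 7844013140522)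 (nat_lit 76) (nat_lit 922804197628) (nat_lit 76) (nat_lit 922584178623) (nat_lit 1) (nat_lit 4) (nat_lit 2) (nat_lit 5) (nat_lit 2) (nat_lit 4) (nat_lit 528) (nat_lit 356) (nat_lit 316)) (XT.nd (nat_lit 78) (nat_lit 0) (nat_lit 0) (XT.lf (nat_lit 0) (nat_lit 8474661365955) (nat_lit 76) (nat_lit 994996011428) (nat_lit 76) (nat_lit 994775206025) (nat_lit 1) (nat_lit 4) (nat_lit 2) (nat_lit 5) (nat_lit 2) (nat_lit 4) (nat_lit 529) (nat_lit 356) (nat_lit 315)) (XT.lf (nat_lit 0) (nat_lit 9155742586086) (nat_lit 76) (nat_lit 1072972906523) (nat_lit 76) (nat_lit 1072751372975) (nat_lit 1) (nat_lit 4) (nat_lit 2) (nat_lit 5) (nat_lit 2) (nat_lit 4) (nat_lit 530) (nat_lit 356) (nat_lit 314)))))) (XT.nd (nat_lit 58968) (nat_lit 0) (nat_lit 0) (XT.nd (nat_lit 234) (nat_lit 0) (nat_lit 0) (XT.nd (nat_lit 78) (nat_lit 0) (nat_lit 0) (XT.lf (nat_lit 0) (nat_lit 9891292837774) (nat_lit 76) (nat_lit 1157196968219)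 (nat_lit 76) (nat_lit 1156974760462) (nat_lit 1) (nat_lit 4) (nat_lit 2) (nat_lit 5) (nat_lit 2) (nat_lit 4) (nat_lit 531) (nat_lit 356) (nat_lit 313)) (XT.nd (nat_lit 78) (nat_lit 0) (nat_lit 0) (XT.lf (nat_lit 0) (nat_lit 10685670937327) (nat_lit 76) (nat_lit 1248167302066) (nat_lit 76) (nat_lit 1247944470041) (nat_lit 1) (nat_lit 4) (nat_lit 2) (nat_lit 5) (nat_lit 2) (nat_lit 4) (nat_lit 532) (nat_lit 356) (nat_lit 312)) (XT.lf (nat_lit 0) (nat_lit 11543584310519) (nat_lit 76) (nat_lit 1346422991523) (nat_lit 76) (nat_lit 1346199581474) (nat_lit 1) (nat_lit 4) (nat_lit 2) (nat_lit 5) (nat_lit 2) (nat_lit 4) (nat_lit 533) (nat_lit 356) (nat_lit 311)))) (XT.nd (nat_lit 78) (nat_lit 0) (nat_lit 0) (XT.lf (nat_lit 0) (nat_lit 12470116888450) (nat_lit 76) (nat_lit 1452546292529) (nat_lit 76) (nat_lit 1452322347271) (nat_lit 1) (nat_lit 4) (nat_lit 2) (nat_lit 5) (nat_lit 2) (nat_lit 4) (nat_lit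 534) (nat_lit 356) (nat_lit 310)) (XT.nd (nat_lit 78) (nat_lit 0) (nat_lit 0) (XT.lf (nat_lit 0) (nat_lit 13470759234545) (nat_lit 76) (nat_lit 1567166083905) (nat_lit 76) (nat_lit 1566941643083) (nat_lit 1) (nat_lit 4) (nat_lit 2) (nat_lit 5) (nat_lit 2) (nat_lit 4) (nat_lit 535) (nat_lit 356) (nat_lit 309)) (XT.lf (nat_lit 0) (nat_lit 14551441081226) (nat_lit 76) (nat_lit 1690961594043) (nat_lit 76) (nat_lit 1690736694366) (nat_lit 1) (nat_lit 4) (nat_lit 2) (nat_lit 5) (nat_lit 2) (nat_lit 4) (nat_lit 536) (nat_lit 356) (nat_lit 308))))) (XT.nd (nat_lit 234) (nat_lit 0) (nat_lit 0) (XT.nd (nat_lit 78) (nat_lit 0) (nat_lit 0) (XT.lf (nat_lit 0) (nat_lit 116740596879) (nat_lit 76) (nat_lit 37961828025) (nat_lit 76) (nat_lit 37961828025) (nat_lit 1) (nat_lit 4) (nat_lit 2) (nat_lit 5) (nat_lit 2) (nat_lit 4) (nat_lit 486) (nat_lit 357) (nat_lit 357)) (XT.nd (nat_lit 78) (nat_lit 0) (nat_lit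 0) (XT.lf (nat_lit 0) (nat_lit 261236849748) (nat_lit 76) (nat_lit 77292502660) (nat_lit 76) (nat_lit 77274051830) (nat_lit 1) (nat_lit 4) (nat_lit 2) (nat_lit 5) (nat_lit 2) (nat_lit 4) (nat_lit 487) (nat_lit 357) (nat_lit 356)) (XT.lf (nat_lit 0) (nat_lit 290770377490) (nat_lit 76) (nat_lit 78999292240) (nat_lit 76) (nat_lit 78963757310) (nat_lit 1) (nat_lit 4) (nat_lit 2) (nat_lit 5) (nat_lit 2) (nat_lit 4) (nat_lit 488) (nat_lit 357) (nat_lit 355)))) (XT.nd (nat_lit 156) (nat_lit 0) (nat_lit 0) (XT.nd (nat_lit 78) (nat_lit 0) (nat_lit 0) (XT.lf (nat_lit 0) (nat_lit 322256790482) (nat_lit 76) (nat_lit 81054139101) (nat_lit 76) (nat_lit 81002785559) (nat_lit 1) (nat_lit 4) (nat_lit 2) (nat_lit 5) (nat_lit 2) (nat_lit 4) (nat_lit 489) (nat_lit 357) (nat_lit 354)) (XT.lf (nat_lit 0) (nat_lit 355882674875) (nat_lit 76) (nat_lit 83469220113) (nat_lit 76) (nat_lit 83403219707) (nat_lit 1)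 (nat_lit 4) (nat_lit 2) (nat_lit 5) (nat_lit 2) (nat_lit 4) (nat_lit 490) (nat_lit 357) (nat_lit 353))) (XT.nd (nat_lit 78) (nat_lit 0) (nat_lit 0) (XT.lf (nat_lit 0) (nat_lit 391847295169) (nat_lit 76) (nat_lit 86258846867) (nat_lit 76) (nat_lit 86179284551) (nat_lit 1) (nat_lit 4) (nat_lit 2) (nat_lit 5) (nat_lit 2) (nat_lit 4) (nat_lit 491) (nat_lit 357) (nat_lit 352)) (XT.lf (nat_lit 0) (nat_lit 430363775040) (nat_lit 76) (nat_lit 89439550485) (nat_lit 76) (nat_lit 89347430844) (nat_lit 1) (nat_lit 4) (nat_lit 2) (nat_lit 5) (nat_lit 2) (nat_lit 4) (nat_lit 492) (nat_lit 357) (nat_lit 351))))))))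
noncomputable def xc13 : XT := (XT.nd (nat_lit 1950) (nat_lit 0) (nat_lit 0) (XT.nd (nat_lit 936) (nat_lit 0) (nat_lit 0) (XT.nd (nat_lit 468) (nat_lit 0) (nat_lit 0) (XT.nd (nat_lit 234) (nat_lit 0) (nat_lit 0) (XT.nd (nat_lit 78) (nat_lit 0) (nat_lit 0) (XT.lf (nat_lit 0) (nat_lit 471660360294) (nat_lit 76) (nat_lit 93030179580) (nat_lit 76) (nat_lit 92926432787) (nat_lit 1) (nat_lit 4) (nat_lit 2) (nat_lit 5) (nat_lit 2) (nat_lit 4) (nat_lit 493) (nat_lit 357) (nat_lit 350)) (XT.nd (nat_lit 78) (nat_lit 0) (nat_lit 0) (XT.lf (nat_lit 0) (nat_lit 515981771437) (nat_lit 76) (nat_lit 97052011955) (nat_lit 76) (nat_lit 96937499281) (nat_lit 1) (nat_lit 4) (nat_lit 2) (nat_lit 5) (nat_lit 2) (nat_lit 4) (nat_lit 494) (nat_lit 357) (nat_lit 349)) (XT.lf (nat_lit 0) (nat_lit 563590653868) (nat_lit 76) (nat_lit 101528880691) (nat_lit 76) (nat_lit 101404399607) (nat_lit 1) (nat_lit 4) (nat_lit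 2) (nat_lit 5) (nat_lit 2) (nat_lit 4) (nat_lit 495) (nat_lit 357) (nat_lit 348)))) (XT.nd (nat_lit 78) (nat_lit 0) (nat_lit 0) (XT.lf (nat_lit 0) (nat_lit 614769134297) (nat_lit 76) (nat_lit 106487315379) (nat_lit 76) (nat_lit 106353604287) (nat_lit 1) (nat_lit 4) (nat_lit 2) (nat_lit 5) (nat_lit 2) (nat_lit 4) (nat_lit 496) (nat_lit 357) (nat_lit 347)) (XT.nd (nat_lit 78) (nat_lit 0) (nat_lit 0) (XT.lf (nat_lit 0) (nat_lit 669820492610) (nat_lit 76) (nat_lit 111956699337) (nat_lit 76) (nat_lit 111814441941) (nat_lit 1) (nat_lit 4) (nat_lit 2) (nat_lit 5) (nat_lit 2) (nat_lit 4) (nat_lit 497) (nat_lit 357) (nat_lit 346)) (XT.lf (nat_lit 0) (nat_lit 729070959076) (nat_lit 76) (nat_lit 117969443728) (nat_lit 76) (nat_lit 117819273088) (nat_lit 1) (nat_lit 4) (nat_lit 2) (nat_lit 5) (nat_lit 2) (nat_lit 4) (nat_lit 498) (nat_lit 357) (nat_lit 345))))) (XT.nd (nat_lit 234) (nat_lit 0) (nat_lit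 0) (XT.nd (nat_lit 78) (nat_lit 0) (nat_lit 0) (XT.lf (nat_lit 0) (nat_lit 792871647573) (nat_lit 76) (nat_lit 124561179631) (nat_lit 76) (nat_lit 124403681913) (nat_lit 1) (nat_lit 4) (nat_lit 2) (nat_lit 5) (nat_lit 2) (nat_lit 4) (nat_lit 499) (nat_lit 357) (nat_lit 344)) (XT.nd (nat_lit 78) (nat_lit 0) (nat_lit 0) (XT.lf (nat_lit 0) (nat_lit 861600636253) (nat_lit 76) (nat_lit 131770969185) (nat_lit 76) (nat_lit 131606687135) (nat_lit 1) (nat_lit 4) (nat_lit 2) (nat_lit 5) (nat_lit 2) (nat_lit 4) (nat_lit 500) (nat_lit 357) (nat_lit 343)) (XT.lf (nat_lit 0) (nat_lit 935665208012) (nat_lit 76) (nat_lit 139641537067) (nat_lit 76) (nat_lit 139470973229) (nat_lit 1) (nat_lit 4) (nat_lit 2) (nat_lit 5) (nat_lit 2) (nat_lit 4) (nat_lit 501) (nat_lit 357) (nat_lit 342)))) (XT.nd (nat_lit 78) (nat_lit 0) (nat_lit 0) (XT.lf (nat_lit 0) (nat_lit 1015504264017) (nat_lit 76) (nat_lit 148219523681)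 (nat_lit 76) (nat_lit 148043143372) (nat_lit 1) (nat_lit 4) (nat_lit 2) (nat_lit 5) (nat_lit 2) (nat_lit 4) (nat_lit 502) (nat_lit 357) (nat_lit 341)) (XT.nd (nat_lit 78) (nat_lit 0) (nat_lit 0) (XT.lf (nat_lit 0) (nat_lit 1101590924600) (nat_lit 76) (nat_lit 157555761540) (nat_lit 76) (nat_lit 157373995609) (nat_lit 1) (nat_lit 4) (nat_lit 2) (nat_lit 5) (nat_lit 2) (nat_lit 4) (nat_lit 503) (nat_lit 357) (nat_lit 340)) (XT.lf (nat_lit 0) (nat_lit 1194435332934) (nat_lit 76) (nat_lit 167705576497) (nat_lit 76) (nat_lit 167518823880) (nat_lit 1) (nat_lit 4) (nat_lit 2) (nat_lit 5) (nat_lit 2) (nat_lit 4) (nat_lit 504) (nat_lit 357) (nat_lit 339)))))) (XT.nd (nat_lit 468) (nat_lit 0) (nat_lit 0) (XT.nd (nat_lit 234) (nat_lit 0) (nat_lit 0) (XT.nd (nat_lit 78) (nat_lit 0) (nat_lit 0) (XT.lf (nat_lit 0) (nat_lit 1294587678105) (nat_lit 76) (nat_lit 178729115605) (nat_lit 76) (nat_lit 178537745686)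 (nat_lit 1) (nat_lit 4) (nat_lit 2) (nat_lit 5) (nat_lit 2) (nat_lit 4) (nat_lit 505) (nat_lit 357) (nat_lit 338)) (XT.nd (nat_lit 78) (nat_lit 0) (nat_lit 0) (XT.lf (nat_lit 0) (nat_lit 1402641455493) (nat_lit 76) (nat_lit 190691703539) (nat_lit 76) (nat_lit 190496058340) (nat_lit 1) (nat_lit 4) (nat_lit 2) (nat_lit 5) (nat_lit 2) (nat_lit 4) (nat_lit 506) (nat_lit 357) (nat_lit 337)) (XT.lf (nat_lit 0) (nat_lit 1519236983778) (nat_lit 76) (nat_lit 203664229710) (nat_lit 76) (nat_lit 203464625918) (nat_lit 1) (nat_lit 4) (nat_lit 2) (nat_lit 5) (nat_lit 2) (nat_lit 4) (nat_lit 507) (nat_lit 357) (nat_lit 336)))) (XT.nd (nat_lit 78) (nat_lit 0) (nat_lit 0) (XT.lf (nat_lit 0) (nat_lit 1645065199424) (nat_lit 76) (nat_lit 217723568346) (nat_lit 76) (nat_lit 217520299191) (nat_lit 1) (nat_lit 4) (nat_lit 2) (nat_lit 5) (nat_lit 2) (nat_lit 4) (nat_lit 508) (nat_lit 357) (nat_lit 335)) (XT.nd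 (nat_lit 78) (nat_lit 0) (nat_lit 0) (XT.lf (nat_lit 0) (nat_lit 1780871751117) (nat_lit 76) (nat_lit 232953034047) (nat_lit 76) (nat_lit 232746371037) (nat_lit 1) (nat_lit 4) (nat_lit 2) (nat_lit 5) (nat_lit 2) (nat_lit 4) (nat_lit 509) (nat_lit 357) (nat_lit 334)) (XT.lf (nat_lit 0) (nat_lit 1927461418422) (nat_lit 76) (nat_lit 249442875498) (nat_lit 76) (nat_lit 249233070031) (nat_lit 1) (nat_lit 4) (nat_lit 2) (nat_lit 5) (nat_lit 2) (nat_lit 4) (nat_lit 510) (nat_lit 357) (nat_lit 333))))) (XT.nd (nat_lit 234) (nat_lit 0) (nat_lit 0) (XT.nd (nat_lit 78) (nat_lit 0) (nat_lit 0) (XT.lf (nat_lit 0) (nat_lit 2085702880848) (nat_lit 76) (nat_lit 267290810280) (nat_lit 76) (nat_lit 267078095128) (nat_lit 1) (nat_lit 4) (nat_lit 2) (nat_lit 5) (nat_lit 2) (nat_lit 4) (nat_lit 511) (nat_lit 357) (nat_lit 332)) (XT.nd (nat_lit 78) (nat_lit 0) (nat_lit 0) (XT.lf (nat_lit 0) (nat_lit 2256533865582)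 (nat_lit 76) (nat_lit 286602603930) (nat_lit 76) (nat_lit 286387194627) (nat_lit 1) (nat_lit 4) (nat_lit 2) (nat_lit 5) (nat_lit 2) (nat_lit 4) (nat_lit 512) (nat_lit 357) (nat_lit 331)) (XT.lf (nat_lit 0) (nat_lit 2440966704384) (nat_lit 76) (nat_lit 307492696707) (nat_lit 76) (nat_lit 307274792820) (nat_lit 1) (nat_lit 4) (nat_lit 2) (nat_lit 5) (nat_lit 2) (nat_lit 4) (nat_lit 513) (nat_lit 357) (nat_lit 330)))) (XT.nd (nat_lit 156) (nat_lit 0) (nat_lit 0) (XT.nd (nat_lit 78) (nat_lit 0) (nat_lit 0) (XT.lf (nat_lit 0) (nat_lit 2640094332595) (nat_lit 76) (nat_lit 330084881755) (nat_lit 76) (nat_lit 329864668067) (nat_lit 1) (nat_lit 4) (nat_lit 2) (nat_lit 5) (nat_lit 2) (nat_lit 4) (nat_lit 514) (nat_lit 357) (nat_lit 329)) (XT.lf (nat_lit 0) (nat_lit 2855096765789) (nat_lit 76) (nat_lit 354513038688) (nat_lit 76) (nat_lit 354290686296) (nat_lit 1) (nat_lit 4) (nat_lit 2) (nat_lit 5)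 (nat_lit 2) (nat_lit 4) (nat_lit 515) (nat_lit 357) (nat_lit 328))) (XT.nd (nat_lit 78) (nat_lit 0) (nat_lit 0) (XT.lf (nat_lit 0) (nat_lit 3087248092461) (nat_lit 76) (nat_lit 380921926954) (nat_lit 76) (nat_lit 380697594280) (nat_lit 1) (nat_lit 4) (nat_lit 2) (nat_lit 5) (nat_lit 2) (nat_lit 4) (nat_lit 516) (nat_lit 357) (nat_lit 327)) (XT.lf (nat_lit 0) (nat_lit 3337924024175) (nat_lit 76) (nat_lit 409468043670) (nat_lit 76) (nat_lit 409241877402) (nat_lit 1) (nat_lit 4) (nat_lit 2) (nat_lit 5) (nat_lit 2) (nat_lit 4) (nat_lit 517) (nat_lit 357) (nat_lit 326))))))) (XT.nd (nat_lit 936) (nat_lit 0) (nat_lit 0) (XT.nd (nat_lit 468) (nat_lit 0) (nat_lit 0) (XT.nd (nat_lit 234) (nat_lit 0) (nat_lit 0) (XT.nd (nat_lit 78) (nat_lit 0) (nat_lit 0) (XT.lf (nat_lit 0) (nat_lit 3608610047934) (nat_lit 76) (nat_lit 440320551008) (nat_lit 76) (nat_lit 440092686968) (nat_lit 1) (nat_lit 4) (nat_lit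 2) (nat_lit 5) (nat_lit 2) (nat_lit 4) (nat_lit 518) (nat_lit 357) (nat_lit 325)) (XT.nd (nat_lit 78) (nat_lit 0) (nat_lit 0) (XT.lf (nat_lit 0) (nat_lit 3900910229063) (nat_lit 76) (nat_lit 473662278642) (nat_lit 76) (nat_lit 473432842590) (nat_lit 1) (nat_lit 4) (nat_lit 2) (nat_lit 5) (nat_lit 2) (nat_lit 4) (nat_lit 519) (nat_lit 357) (nat_lit 324)) (XT.lf (nat_lit 0) (nat_lit 4216556716786) (nat_lit 76) (nat_lit 509690807179) (nat_lit 76) (nat_lit 509459915561) (nat_lit 1) (nat_lit 4) (nat_lit 2) (nat_lit 5) (nat_lit 2) (nat_lit 4) (nat_lit 520) (nat_lit 357) (nat_lit 323)))) (XT.nd (nat_lit 78) (nat_lit 0) (nat_lit 0) (XT.lf (nat_lit 0) (nat_lit 4557420008806) (nat_lit 76) (nat_lit 548619639012) (nat_lit 76) (nat_lit 548387399647) (nat_lit 1) (nat_lit 4) (nat_lit 2) (nat_lit 5) (nat_lit 2) (nat_lit 4) (nat_lit 521) (nat_lit 357) (nat_lit 322)) (XT.nd (nat_lit 78) (nat_lit 0) (nat_lit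 0) (XT.lf (nat_lit 0) (nat_lit 4925520035742) (nat_lit 76) (nat_lit 590679463513) (nat_lit 76) (nat_lit 590445976235) (nat_lit 1) (nat_lit 4) (nat_lit 2) (nat_lit 5) (nat_lit 2) (nat_lit 4) (nat_lit 522) (nat_lit 357) (nat_lit 321)) (XT.lf (nat_lit 0) (nat_lit 5323038131089) (nat_lit 76) (nat_lit 636119524088) (nat_lit 76) (nat_lit 635884881334) (nat_lit 1) (nat_lit 4) (nat_lit 2) (nat_lit 5) (nat_lit 2) (nat_lit 4) (nat_lit 523) (nat_lit 357) (nat_lit 320))))) (XT.nd (nat_lit 234) (nat_lit 0) (nat_lit 0) (XT.nd (nat_lit 78) (nat_lit 0) (nat_lit 0) (XT.lf (nat_lit 0) (nat_lit 5752329957633) (nat_lit 76) (nat_lit 685209095169) (nat_lit 76) (nat_lit 684973382530) (nat_lit 1) (nat_lit 4) (nat_lit 2) (nat_lit 5) (nat_lit 2) (nat_lit 4) (nat_lit 524) (nat_lit 357) (nat_lit 319)) (XT.nd (nat_lit 78) (nat_lit 0) (nat_lit 0) (XT.lf (nat_lit 0) (nat_lit 6215939466938) (nat_lit 76) (nat_lit 738239077918)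 (nat_lit 76) (nat_lit 738002374646) (nat_lit 1) (nat_lit 4) (nat_lit 2) (nat_lit 5) (nat_lit 2) (nat_lit 4) (nat_lit 525) (nat_lit 357) (nat_lit 318)) (XT.lf (nat_lit 0) (nat_lit 6716613974616) (nat_lit 76) (nat_lit 795523724085) (nat_lit 76) (nat_lit 795286103559) (nat_lit 1) (nat_lit 4) (nat_lit 2) (nat_lit 5) (nat_lit 2) (nat_lit 4) (nat_lit 526) (nat_lit 357) (nat_lit 317)))) (XT.nd (nat_lit 78) (nat_lit 0) (nat_lit 0) (XT.lf (nat_lit 0) (nat_lit 7257320440712) (nat_lit 76) (nat_lit 857402498240) (nat_lit 76) (nat_lit 857164028405) (nat_lit 1) (nat_lit 4) (nat_lit 2) (nat_lit 5) (nat_lit 2) (nat_lit 4) (nat_lit 527) (nat_lit 357) (nat_lit 316)) (XT.nd (nat_lit 78) (nat_lit 0) (nat_lit 0) (XT.lf (nat_lit 0) (nat_lit 7841263051692) (nat_lit 76) (nat_lit 924242089415) (nat_lit 76) (nat_lit 924002833183) (nat_lit 1) (nat_lit 4) (nat_lit 2) (nat_lit 5) (nat_lit 2) (nat_lit 4) (nat_lit 528)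 (nat_lit 357) (nat_lit 315)) (XT.lf (nat_lit 0) (nat_lit 8471902208213) (nat_lit 76) (nat_lit 996438584076) (nat_lit 76) (nat_lit 996198599699) (nat_lit 1) (nat_lit 4) (nat_lit 2) (nat_lit 5) (nat_lit 2) (nat_lit 4) (nat_lit 529) (nat_lit 357) (nat_lit 314)))))) (XT.nd (nat_lit 468) (nat_lit 0) (nat_lit 0) (XT.nd (nat_lit 234) (nat_lit 0) (nat_lit 0) (XT.nd (nat_lit 78) (nat_lit 0) (nat_lit 0) (XT.lf (nat_lit 0) (nat_lit 9152975031203) (nat_lit 76) (nat_lit 1074419813302) (nat_lit 76) (nat_lit 1074179154716) (nat_lit 1) (nat_lit 4) (nat_lit 2) (nat_lit 5) (nat_lit 2) (nat_lit 4) (nat_lit 530) (nat_lit 357) (nat_lit 313)) (XT.nd (nat_lit 78) (nat_lit 0) (nat_lit 0) (XT.lf (nat_lit 0) (nat_lit 9888517507761) (nat_lit 76) (nat_lit 1158647888082) (nat_lit 76) (nat_lit 1158406605229) (nat_lit 1) (nat_lit 4) (nat_lit 2) (nat_lit 5) (nat_lit 2) (nat_lit 4) (nat_lit 531) (nat_lit 357) (nat_lit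 312)) (XT.lf (nat_lit 0) (nat_lit 10682888408119) (nat_lit 76) (nat_lit 1249621937748) (nat_lit 76) (nat_lit 1249380076869) (nat_lit 1) (nat_lit 4) (nat_lit 2) (nat_lit 5) (nat_lit 2) (nat_lit 4) (nat_lit 532) (nat_lit 357) (nat_lit 311)))) (XT.nd (nat_lit 78) (nat_lit 0) (nat_lit 0) (XT.lf (nat_lit 0) (nat_lit 11540795115389) (nat_lit 76) (nat_lit 1347881067779) (nat_lit 76) (nat_lit 1347638671691) (nat_lit 1) (nat_lit 4) (nat_lit 2) (nat_lit 5) (nat_lit 2) (nat_lit 4) (nat_lit 533) (nat_lit 357) (nat_lit 310)) (XT.nd (nat_lit 78) (nat_lit 0) (nat_lit 0) (XT.lf (nat_lit 0) (nat_lit 12467321521172) (nat_lit 76) (nat_lit 1454007554501) (nat_lit 76) (nat_lit 1453764662850) (nat_lit 1) (nat_lit 4) (nat_lit 2) (nat_lit 5) (nat_lit 2) (nat_lit 4) (nat_lit 534) (nat_lit 357) (nat_lit 309)) (XT.lf (nat_lit 0) (nat_lit 13467958152314) (nat_lit 76) (nat_lit 1568630295613) (nat_lit 76) (nat_lit 1568386945107)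 (nat_lit 1) (nat_lit 4) (nat_lit 2) (nat_lit 5) (nat_lit 2) (nat_lit 4) (nat_lit 535) (nat_lit 357) (nat_lit 308))))) (XT.nd (nat_lit 58578) (nat_lit 0) (nat_lit 0) (XT.nd (nat_lit 58422) (nat_lit 0) (nat_lit 0) (XT.lf (nat_lit 0) (nat_lit 14548634707372) (nat_lit 76) (nat_lit 1692428536988) (nat_lit 76) (nat_lit 1692184761616) (nat_lit 1) (nat_lit 4) (nat_lit 2) (nat_lit 5) (nat_lit 2) (nat_lit 4) (nat_lit 536) (nat_lit 357) (nat_lit 307)) (XT.nd (nat_lit 78) (nat_lit 0) (nat_lit 0) (XT.lf (nat_lit 0) (nat_lit 91451665847) (nat_lit 76) (nat_lit 37030563505) (nat_lit 76) (nat_lit 37030563505) (nat_lit 1) (nat_lit 4) (nat_lit 2) (nat_lit 5) (nat_lit 2) (nat_lit 4) (nat_lit 484) (nat_lit 358) (nat_lit 358)) (XT.lf (nat_lit 0) (nat_lit 207338931558) (nat_lit 76) (nat_lit 74904567626) (nat_lit 76) (nat_lit 74884640731) (nat_lit 1) (nat_lit 4) (nat_lit 2) (nat_lit 5) (nat_lit 2) (nat_lit 4)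 (nat_lit 485) (nat_lit 358) (nat_lit 357)))) (XT.nd (nat_lit 156) (nat_lit 0) (nat_lit 0) (XT.nd (nat_lit 78) (nat_lit 0) (nat_lit 0) (XT.lf (nat_lit 0) (nat_lit 233251392226) (nat_lit 76) (nat_lit 76062193554) (nat_lit 76) (nat_lit 76023815829) (nat_lit 1) (nat_lit 4) (nat_lit 2) (nat_lit 5) (nat_lit 2) (nat_lit 4) (nat_lit 486) (nat_lit 358) (nat_lit 356)) (XT.lf (nat_lit 0) (nat_lit 260794269021) (nat_lit 76) (nat_lit 77540864798) (nat_lit 76) (nat_lit 77485402972) (nat_lit 1) (nat_lit 4) (nat_lit 2) (nat_lit 5) (nat_lit 2) (nat_lit 4) (nat_lit 487) (nat_lit 358) (nat_lit 355))) (XT.nd (nat_lit 78) (nat_lit 0) (nat_lit 0) (XT.lf (nat_lit 0) (nat_lit 290130778989) (nat_lit 76) (nat_lit 79349343857) (nat_lit 76) (nat_lit 79278063419) (nat_lit 1) (nat_lit 4) (nat_lit 2) (nat_lit 5) (nat_lit 2) (nat_lit 4) (nat_lit 488) (nat_lit 358) (nat_lit 354)) (XT.lf (nat_lit 0) (nat_lit 321434768116)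 (nat_lit 76) (nat_lit 81498347642) (nat_lit 76) (nat_lit 81412420341) (nat_lit 1) (nat_lit 4) (nat_lit 2) (nat_lit 5) (nat_lit 2) (nat_lit 4) (nat_lit 489) (nat_lit 358) (nat_lit 353))))))))
noncomputable def xc14 : XT := (XT.nd (nat_lit 1950) (nat_lit 0) (nat_lit 0) (XT.nd (nat_lit 936) (nat_lit 0) (nat_lit 0) (XT.nd (nat_lit 468) (nat_lit 0) (nat_lit 0) (XT.nd (nat_lit 234) (nat_lit 0) (nat_lit 0) (XT.nd (nat_lit 78) (nat_lit 0) (nat_lit 0) (XT.lf (nat_lit 0) (nat_lit 354891741524) (nat_lit 76) (nat_lit 84000610991) (nat_lit 76) (nat_lit 83901121779) (nat_lit 1) (nat_lit 4) (nat_lit 2) (nat_lit 5) (nat_lit 2) (nat_lit 4) (nat_lit 490) (nat_lit 358) (nat_lit 352)) (XT.nd (nat_lit 78) (nat_lit 0) (nat_lit 0) (XT.lf (nat_lit 0) (nat_lit 390699962757) (nat_lit 76) (nat_lit 86870962132) (nat_lit 76) (nat_lit 86758915595) (nat_lit 1) (nat_lit 4) (nat_lit 2) (nat_lit 5) (nat_lit 2) (nat_lit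 4) (nat_lit 491) (nat_lit 358) (nat_lit 351)) (XT.lf (nat_lit 0) (nat_lit 429071628682) (nat_lit 76) (nat_lit 90126410551) (nat_lit 76) (nat_lit 90002736863) (nat_lit 1) (nat_lit 4) (nat_lit 2) (nat_lit 5) (nat_lit 2) (nat_lit 4) (nat_lit 492) (nat_lit 358) (nat_lit 350)))) (XT.nd (nat_lit 78) (nat_lit 0) (nat_lit 0) (XT.lf (nat_lit 0) (nat_lit 470234126950) (nat_lit 76) (nat_lit 93786247797) (nat_lit 76) (nat_lit 93651808226) (nat_lit 1) (nat_lit 4) (nat_lit 2) (nat_lit 5) (nat_lit 2) (nat_lit 4) (nat_lit 493) (nat_lit 358) (nat_lit 349)) (XT.nd (nat_lit 78) (nat_lit 0) (nat_lit 0) (XT.lf (nat_lit 0) (nat_lit 514431383476) (nat_lit 76) (nat_lit 97872161792) (nat_lit 76) (nat_lit 97727753813) (nat_lit 1) (nat_lit 4) (nat_lit 2) (nat_lit 5) (nat_lit 2) (nat_lit 4) (nat_lit 494) (nat_lit 358) (nat_lit 348)) (XT.lf (nat_lit 0) (nat_lit 561925307928) (nat_lit 76) (nat_lit 102408365361) (nat_lit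 76) (nat_lit 102254727373) (nat_lit 1) (nat_lit 4) (nat_lit 2) (nat_lit 5) (nat_lit 2) (nat_lit 4) (nat_lit 495) (nat_lit 358) (nat_lit 347))))) (XT.nd (nat_lit 234) (nat_lit 0) (nat_lit 0) (XT.nd (nat_lit 78) (nat_lit 0) (nat_lit 0) (XT.lf (nat_lit 0) (nat_lit 612997345785) (nat_lit 76) (nat_lit 107421739710) (nat_lit 76) (nat_lit 107259555418) (nat_lit 1) (nat_lit 4) (nat_lit 2) (nat_lit 5) (nat_lit 2) (nat_lit 4) (nat_lit 496) (nat_lit 358) (nat_lit 346)) (XT.nd (nat_lit 78) (nat_lit 0) (nat_lit 0) (XT.lf (nat_lit 0) (nat_lit 667950146159) (nat_lit 76) (nat_lit 112941993724) (nat_lit 76) (nat_lit 112771896188) (nat_lit 1) (nat_lit 4) (nat_lit 2) (nat_lit 5) (nat_lit 2) (nat_lit 4) (nat_lit 497) (nat_lit 358) (nat_lit 345)) (XT.lf (nat_lit 0) (nat_lit 727109355276) (nat_lit 76) (nat_lit 119001840020) (nat_lit 76) (nat_lit 118824415405) (nat_lit 1) (nat_lit 4) (nat_lit 2) (nat_lit 5) (nat_lit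 2) (nat_lit 4) (nat_lit 498) (nat_lit 358) (nat_lit 344)))) (XT.nd (nat_lit 78) (nat_lit 0) (nat_lit 0) (XT.lf (nat_lit 0) (nat_lit 790825546226) (nat_lit 76) (nat_lit 125637188797) (nat_lit 76) (nat_lit 125452979851) (nat_lit 1) (nat_lit 4) (nat_lit 2) (nat_lit 5) (nat_lit 2) (nat_lit 4) (nat_lit 499) (nat_lit 358) (nat_lit 343)) (XT.nd (nat_lit 78) (nat_lit 0) (nat_lit 0) (XT.lf (nat_lit 0) (nat_lit 859476296438) (nat_lit 76) (nat_lit 132887360641) (nat_lit 76) (nat_lit 132696869907) (nat_lit 1) (nat_lit 4) (nat_lit 2) (nat_lit 5) (nat_lit 2) (nat_lit 4) (nat_lit 500) (nat_lit 358) (nat_lit 342)) (XT.lf (nat_lit 0) (nat_lit 933468425171) (nat_lit 76) (nat_lit 140795319534) (nat_lit 76) (nat_lit 140599012328) (nat_lit 1) (nat_lit 4) (nat_lit 2) (nat_lit 5) (nat_lit 2) (nat_lit 4) (nat_lit 501) (nat_lit 358) (nat_lit 341)))))) (XT.nd (nat_lit 468) (nat_lit 0) (nat_lit 0) (XT.nd (nat_lit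 234) (nat_lit 0) (nat_lit 0) (XT.nd (nat_lit 78) (nat_lit 0) (nat_lit 0) (XT.lf (nat_lit 0) (nat_lit 1013240404299) (nat_lit 76) (nat_lit 149407927453) (nat_lit 76) (nat_lit 149206234627) (nat_lit 1) (nat_lit 4) (nat_lit 2) (nat_lit 5) (nat_lit 2) (nat_lit 4) (nat_lit 502) (nat_lit 358) (nat_lit 340)) (XT.nd (nat_lit 78) (nat_lit 0) (nat_lit 0) (XT.lf (nat_lit 0) (nat_lit 1099264956663) (nat_lit 76) (nat_lit 158776222076) (nat_lit 76) (nat_lit 158569542563) (nat_lit 1) (nat_lit 4) (nat_lit 2) (nat_lit 5) (nat_lit 2) (nat_lit 4) (nat_lit 503) (nat_lit 358) (nat_lit 339)) (XT.lf (nat_lit 0) (nat_lit 1192051857386) (nat_lit 76) (nat_lit 168955719223) (nat_lit 76) (nat_lit 168744422408) (nat_lit 1) (nat_lit 4) (nat_lit 2) (nat_lit 5) (nat_lit 2) (nat_lit 4) (nat_lit 504) (nat_lit 358) (nat_lit 338)))) (XT.nd (nat_lit 78) (nat_lit 0) (nat_lit 0) (XT.lf (nat_lit 0) (nat_lit 1292150954771) (nat_lit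 76) (nat_lit 180006741839) (nat_lit 76) (nat_lit 179791169744) (nat_lit 1) (nat_lit 4) (nat_lit 2) (nat_lit 5) (nat_lit 2) (nat_lit 4) (nat_lit 505) (nat_lit 358) (nat_lit 337)) (XT.nd (nat_lit 78) (nat_lit 0) (nat_lit 0) (XT.lf (nat_lit 0) (nat_lit 1400155428652) (nat_lit 76) (nat_lit 191994777466) (nat_lit 76) (nat_lit 191775246779) (nat_lit 1) (nat_lit 4) (nat_lit 2) (nat_lit 5) (nat_lit 2) (nat_lit 4) (nat_lit 506) (nat_lit 358) (nat_lit 336)) (XT.lf (nat_lit 0) (nat_lit 1516705305542) (nat_lit 76) (nat_lit 204990866316) (nat_lit 76) (nat_lit 204767670265) (nat_lit 1) (nat_lit 4) (nat_lit 2) (nat_lit 5) (nat_lit 2) (nat_lit 4) (nat_lit 507) (nat_lit 358) (nat_lit 335))))) (XT.nd (nat_lit 234) (nat_lit 0) (nat_lit 0) (XT.nd (nat_lit 78) (nat_lit 0) (nat_lit 0) (XT.lf (nat_lit 0) (nat_lit 1642491251378) (nat_lit 76) (nat_lit 219072022247) (nat_lit 76) (nat_lit 218845432342) (nat_lit 1)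 (nat_lit 4) (nat_lit 2) (nat_lit 5) (nat_lit 2) (nat_lit 4) (nat_lit 508) (nat_lit 358) (nat_lit 334)) (XT.nd (nat_lit 78) (nat_lit 0) (nat_lit 0) (XT.lf (nat_lit 0) (nat_lit 1778258664357) (nat_lit 76) (nat_lit 234321689147) (nat_lit 76) (nat_lit 234091956784) (nat_lit 1) (nat_lit 4) (nat_lit 2) (nat_lit 5) (nat_lit 2) (nat_lit 4) (nat_lit 509) (nat_lit 358) (nat_lit 333)) (XT.lf (nat_lit 0) (nat_lit 1924812092113) (nat_lit 76) (nat_lit 250830235413) (nat_lit 76) (nat_lit 250597593366) (nat_lit 1) (nat_lit 4) (nat_lit 2) (nat_lit 5) (nat_lit 2) (nat_lit 4) (nat_lit 510) (nat_lit 358) (nat_lit 332)))) (XT.nd (nat_lit 156) (nat_lit 0) (nat_lit 0) (XT.nd (nat_lit 78) (nat_lit 0) (nat_lit 0) (XT.lf (nat_lit 0) (nat_lit 2083019999402) (nat_lit 76) (nat_lit 268695489466) (nat_lit 76) (nat_lit 268460153268) (nat_lit 1) (nat_lit 4) (nat_lit 2) (nat_lit 5) (nat_lit 2) (nat_lit 4) (nat_lit 511)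 (nat_lit 358) (nat_lit 331)) (XT.lf (nat_lit 0) (nat_lit 2253819914563) (nat_lit 76) (nat_lit 288023319480) (nat_lit 76) (nat_lit 287785488697) (nat_lit 1) (nat_lit 4) (nat_lit 2) (nat_lit 5) (nat_lit 2) (nat_lit 4) (nat_lit 512) (nat_lit 358) (nat_lit 330))) (XT.nd (nat_lit 78) (nat_lit 0) (nat_lit 0) (XT.lf (nat_lit 0) (nat_lit 2438223985242) (nat_lit 76) (nat_lit 308928260742) (nat_lit 76) (nat_lit 308688120158) (nat_lit 1) (nat_lit 4) (nat_lit 2) (nat_lit 5) (nat_lit 2) (nat_lit 4) (nat_lit 513) (nat_lit 358) (nat_lit 329)) (XT.lf (nat_lit 0) (nat_lit 2637324976303) (nat_lit 76) (nat_lit 331534194387) (nat_lit 76) (nat_lit 331291915099) (nat_lit 1) (nat_lit 4) (nat_lit 2) (nat_lit 5) (nat_lit 2) (nat_lit 4) (nat_lit 514) (nat_lit 358) (nat_lit 328))))))) (XT.nd (nat_lit 936) (nat_lit 0) (nat_lit 0) (XT.nd (nat_lit 468) (nat_lit 0) (nat_lit 0) (XT.nd (nat_lit 234) (nat_lit 0) (nat_lit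 0) (XT.nd (nat_lit 78) (nat_lit 0) (nat_lit 0) (XT.lf (nat_lit 0) (nat_lit 2852302745469) (nat_lit 76) (nat_lit 355975081502) (nat_lit 76) (nat_lit 355730821932) (nat_lit 1) (nat_lit 4) (nat_lit 2) (nat_lit 5) (nat_lit 2) (nat_lit 4) (nat_lit 515) (nat_lit 358) (nat_lit 327)) (XT.nd (nat_lit 78) (nat_lit 0) (nat_lit 0) (XT.lf (nat_lit 0) (nat_lit 3084431235077) (nat_lit 76) (nat_lit 382395756974) (nat_lit 76) (nat_lit 382149663810) (nat_lit 1) (nat_lit 4) (nat_lit 2) (nat_lit 5) (nat_lit 2) (nat_lit 4) (nat_lit 516) (nat_lit 358) (nat_lit 326)) (XT.lf (nat_lit 0) (nat_lit 3335086021362) (nat_lit 76) (nat_lit 410952787769) (nat_lit 76) (nat_lit 410704996833) (nat_lit 1) (nat_lit 4) (nat_lit 2) (nat_lit 5) (nat_lit 2) (nat_lit 4) (nat_lit 517) (nat_lit 358) (nat_lit 325)))) (XT.nd (nat_lit 78) (nat_lit 0) (nat_lit 0) (XT.lf (nat_lit 0) (nat_lit 3605752466020) (nat_lit 76) (nat_lit 441815400736)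 (nat_lit 76) (nat_lit 441566037788) (nat_lit 1) (nat_lit 4) (nat_lit 2) (nat_lit 5) (nat_lit 2) (nat_lit 4) (nat_lit 518) (nat_lit 358) (nat_lit 324)) (XT.nd (nat_lit 78) (nat_lit 0) (nat_lit 0) (XT.lf (nat_lit 0) (nat_lit 3898034518353) (nat_lit 76) (nat_lit 475166485434) (nat_lit 76) (nat_lit 474915666920) (nat_lit 1) (nat_lit 4) (nat_lit 2) (nat_lit 5) (nat_lit 2) (nat_lit 4) (nat_lit 519) (nat_lit 358) (nat_lit 323)) (XT.lf (nat_lit 0) (nat_lit 4213664220152) (nat_lit 76) (nat_lit 511203677919) (nat_lit 76) (nat_lit 510951511659) (nat_lit 1) (nat_lit 4) (nat_lit 2) (nat_lit 5) (nat_lit 2) (nat_lit 4) (nat_lit 520) (nat_lit 358) (nat_lit 322))))) (XT.nd (nat_lit 234) (nat_lit 0) (nat_lit 0) (XT.nd (nat_lit 78) (nat_lit 0) (nat_lit 0) (XT.lf (nat_lit 0) (nat_lit 4554511969651) (nat_lit 76) (nat_lit 550140531926) (nat_lit 76) (nat_lit 549887117752) (nat_lit 1) (nat_lit 4) (nat_lit 2) (nat_lit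 5) (nat_lit 2) (nat_lit 4) (nat_lit 521) (nat_lit 358) (nat_lit 321)) (XT.nd (nat_lit 78) (nat_lit 0) (nat_lit 0) (XT.lf (nat_lit 0) (nat_lit 4922597605364) (nat_lit 76) (nat_lit 592207784366) (nat_lit 76) (nat_lit 591953214717) (nat_lit 1) (nat_lit 4) (nat_lit 2) (nat_lit 5) (nat_lit 2) (nat_lit 4) (nat_lit 522) (nat_lit 358) (nat_lit 320)) (XT.lf (nat_lit 0) (nat_lit 5320102375503) (nat_lit 76) (nat_lit 637654722662) (nat_lit 76) (nat_lit 637399083128) (nat_lit 1) (nat_lit 4) (nat_lit 2) (nat_lit 5) (nat_lit 2) (nat_lit 4) (nat_lit 523) (nat_lit 358) (nat_lit 319)))) (XT.nd (nat_lit 78) (nat_lit 0) (nat_lit 0) (XT.lf (nat_lit 0) (nat_lit 5749381863892) (nat_lit 76) (nat_lit 686750662004) (nat_lit 76) (nat_lit 686494031836) (nat_lit 1) (nat_lit 4) (nat_lit 2) (nat_lit 5) (nat_lit 2) (nat_lit 4) (nat_lit 524) (nat_lit 358) (nat_lit 318)) (XT.nd (nat_lit 78) (nat_lit 0) (nat_lit 0) (XT.lf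 (nat_lit 0) (nat_lit 6212979948980) (nat_lit 76) (nat_lit 739786541290) (nat_lit 76) (nat_lit 739528993869) (nat_lit 1) (nat_lit 4) (nat_lit 2) (nat_lit 5) (nat_lit 2) (nat_lit 4) (nat_lit 525) (nat_lit 358) (nat_lit 317)) (XT.lf (nat_lit 0) (nat_lit 6713643878679) (nat_lit 76) (nat_lit 797076647215) (nat_lit 76) (nat_lit 796818250484) (nat_lit 1) (nat_lit 4) (nat_lit 2) (nat_lit 5) (nat_lit 2) (nat_lit 4) (nat_lit 526) (nat_lit 358) (nat_lit 316)))))) (XT.nd (nat_lit 468) (nat_lit 0) (nat_lit 0) (XT.nd (nat_lit 234) (nat_lit 0) (nat_lit 0) (XT.nd (nat_lit 78) (nat_lit 0) (nat_lit 0) (XT.lf (nat_lit 0) (nat_lit 7254340550350) (nat_lit 76) (nat_lit 858960476700) (nat_lit 76) (nat_lit 858701293573) (nat_lit 1) (nat_lit 4) (nat_lit 2) (nat_lit 5) (nat_lit 2) (nat_lit 4) (nat_lit 527) (nat_lit 358) (nat_lit 315)) (XT.nd (nat_lit 78) (nat_lit 0) (nat_lit 0) (XT.lf (nat_lit 0) (nat_lit 7838274092418)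 (nat_lit 76) (nat_lit 925804748737) (nat_lit 76) (nat_lit 925544837464) (nat_lit 1) (nat_lit 4) (nat_lit 2) (nat_lit 5) (nat_lit 2) (nat_lit 4) (nat_lit 528) (nat_lit 358) (nat_lit 314)) (XT.lf (nat_lit 0) (nat_lit 8468904851799) (nat_lit 76) (nat_lit 998005577529) (nat_lit 76) (nat_lit 997744992047) (nat_lit 1) (nat_lit 4) (nat_lit 2) (nat_lit 5) (nat_lit 2) (nat_lit 4) (nat_lit 529) (nat_lit 358) (nat_lit 313)))) (XT.nd (nat_lit 78) (nat_lit 0) (nat_lit 0) (XT.lf (nat_lit 0) (nat_lit 9149969899658) (nat_lit 76) (nat_lit 1075990819839) (nat_lit 76) (nat_lit 1075729610090) (nat_lit 1) (nat_lit 4) (nat_lit 2) (nat_lit 5) (nat_lit 2) (nat_lit 4) (nat_lit 530) (nat_lit 358) (nat_lit 312)) (XT.nd (nat_lit 78) (nat_lit 0) (nat_lit 0) (XT.lf (nat_lit 0) (nat_lit 9885505177022) (nat_lit 76) (nat_lit 1160222610438) (nat_lit 76) (nat_lit 1159960822664) (nat_lit 1) (nat_lit 4) (nat_lit 2) (nat_lit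 5) (nat_lit 2) (nat_lit 4) (nat_lit 531) (nat_lit 358) (nat_lit 311)) (XT.lf (nat_lit 0) (nat_lit 10679869411458) (nat_lit 76) (nat_lit 1251200100677) (nat_lit 76) (nat_lit 1250937777694) (nat_lit 1) (nat_lit 4) (nat_lit 2) (nat_lit 5) (nat_lit 2) (nat_lit 4) (nat_lit 532) (nat_lit 358) (nat_lit 310))))) (XT.nd (nat_lit 234) (nat_lit 0) (nat_lit 0) (XT.nd (nat_lit 78) (nat_lit 0) (nat_lit 0) (XT.lf (nat_lit 0) (nat_lit 11537769946580) (nat_lit 76) (nat_lit 1349462416423) (nat_lit 76) (nat_lit 1349199597877) (nat_lit 1) (nat_lit 4) (nat_lit 2) (nat_lit 5) (nat_lit 2) (nat_lit 4) (nat_lit 533) (nat_lit 358) (nat_lit 309)) (XT.nd (nat_lit 78) (nat_lit 0) (nat_lit 0) (XT.lf (nat_lit 0) (nat_lit 12464290637409) (nat_lit 76) (nat_lit 1455591852882) (nat_lit 76) (nat_lit 1455328575480) (nat_lit 1) (nat_lit 4) (nat_lit 2) (nat_lit 5) (nat_lit 2) (nat_lit 4) (nat_lit 534) (nat_lit 358) (nat_lit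 308)) (XT.lf (nat_lit 0) (nat_lit 13464921976929) (nat_lit 76) (nat_lit 1570217325232) (nat_lit 76) (nat_lit 1569953622964) (nat_lit 1) (nat_lit 4) (nat_lit 2) (nat_lit 5) (nat_lit 2) (nat_lit 4) (nat_lit 535) (nat_lit 358) (nat_lit 307)))) (XT.nd (nat_lit 58344) (nat_lit 0) (nat_lit 0) (XT.nd (nat_lit 58266) (nat_lit 0) (nat_lit 0) (XT.lf (nat_lit 0) (nat_lit 14545593632336) (nat_lit 76) (nat_lit 1694018095531) (nat_lit 76) (nat_lit 1693753999869) (nat_lit 1) (nat_lit 4) (nat_lit 2) (nat_lit 5) (nat_lit 2) (nat_lit 4) (nat_lit 536) (nat_lit 358) (nat_lit 306)) (XT.lf (nat_lit 0) (nat_lit 69079717168) (nat_lit 76) (nat_lit 36590907452) (nat_lit 76) (nat_lit 36590907452) (nat_lit 1) (nat_lit 4) (nat_lit 2) (nat_lit 5) (nat_lit 2) (nat_lit 4) (nat_lit 482) (nat_lit 359) (nat_lit 359))) (XT.nd (nat_lit 78) (nat_lit 0) (nat_lit 0) (XT.lf (nat_lit 0) (nat_lit 159799789079) (nat_lit 76) (nat_lit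 73548394588) (nat_lit 76) (nat_lit 73526873541) (nat_lit 1) (nat_lit 4) (nat_lit 2) (nat_lit 5) (nat_lit 2) (nat_lit 4) (nat_lit 483) (nat_lit 359) (nat_lit 358)) (XT.lf (nat_lit 0) (nat_lit 182655146040) (nat_lit 76) (nat_lit 74210747514) (nat_lit 76) (nat_lit 74169299571) (nat_lit 1) (nat_lit 4) (nat_lit 2) (nat_lit 5) (nat_lit 2) (nat_lit 4) (nat_lit 484) (nat_lit 359) (nat_lit 357))))))))
noncomputable def xc15 : XT := (XT.nd (nat_lit 1950) (nat_lit 0) (nat_lit 0) (XT.nd (nat_lit 936) (nat_lit 0) (nat_lit 0) (XT.nd (nat_lit 468) (nat_lit 0) (nat_lit 0) (XT.nd (nat_lit 234) (nat_lit 0) (nat_lit 0) (XT.nd (nat_lit 78) (nat_lit 0) (nat_lit 0) (XT.lf (nat_lit 0) (nat_lit 206860944373) (nat_lit 76) (nat_lit 75172798736) (nat_lit 76) (nat_lit 75112899964) (nat_lit 1) (nat_lit 4) (nat_lit 2) (nat_lit 5) (nat_lit 2) (nat_lit 4) (nat_lit 485) (nat_lit 359) (nat_lit 356)) (XT.nd (nat_lit 78)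 (nat_lit 0) (nat_lit 0) (XT.lf (nat_lit 0) (nat_lit 232560625845) (nat_lit 76) (nat_lit 76440249300) (nat_lit 76) (nat_lit 76363266426) (nat_lit 1) (nat_lit 4) (nat_lit 2) (nat_lit 5) (nat_lit 2) (nat_lit 4) (nat_lit 486) (nat_lit 359) (nat_lit 355)) (XT.lf (nat_lit 0) (nat_lit 259906484866) (nat_lit 76) (nat_lit 78020610023) (nat_lit 76) (nat_lit 77927808537) (nat_lit 1) (nat_lit 4) (nat_lit 2) (nat_lit 5) (nat_lit 2) (nat_lit 4) (nat_lit 487) (nat_lit 359) (nat_lit 354)))) (XT.nd (nat_lit 78) (nat_lit 0) (nat_lit 0) (XT.lf (nat_lit 0) (nat_lit 289060570970) (nat_lit 76) (nat_lit 79923246005) (nat_lit 76) (nat_lit 79815797656) (nat_lit 1) (nat_lit 4) (nat_lit 2) (nat_lit 5) (nat_lit 2) (nat_lit 4) (nat_lit 488) (nat_lit 359) (nat_lit 353)) (XT.nd (nat_lit 78) (nat_lit 0) (nat_lit 0) (XT.lf (nat_lit 0) (nat_lit 320195649111) (nat_lit 76) (nat_lit 82159432128) (nat_lit 76) (nat_lit 82038421868)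 (nat_lit 1) (nat_lit 4) (nat_lit 2) (nat_lit 5) (nat_lit 2) (nat_lit 4) (nat_lit 489) (nat_lit 359) (nat_lit 352)) (XT.lf (nat_lit 0) (nat_lit 353496223457) (nat_lit 76) (nat_lit 84742419863) (nat_lit 76) (nat_lit 84608852279) (nat_lit 1) (nat_lit 4) (nat_lit 2) (nat_lit 5) (nat_lit 2) (nat_lit 4) (nat_lit 490) (nat_lit 359) (nat_lit 351))))) (XT.nd (nat_lit 234) (nat_lit 0) (nat_lit 0) (XT.nd (nat_lit 78) (nat_lit 0) (nat_lit 0) (XT.lf (nat_lit 0) (nat_lit 389159630745) (nat_lit 76) (nat_lit 87687515805) (nat_lit 76) (nat_lit 87542321069) (nat_lit 1) (nat_lit 4) (nat_lit 2) (nat_lit 5) (nat_lit 2) (nat_lit 4) (nat_lit 491) (nat_lit 359) (nat_lit 350)) (XT.nd (nat_lit 78) (nat_lit 0) (nat_lit 0) (XT.lf (nat_lit 0) (nat_lit 427397209684) (nat_lit 76) (nat_lit 91012172375) (nat_lit 76) (nat_lit 90856211757) (nat_lit 1) (nat_lit 4) (nat_lit 2) (nat_lit 5) (nat_lit 2) (nat_lit 4) (nat_lit 492)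 (nat_lit 359) (nat_lit 349)) (XT.lf (nat_lit 0) (nat_lit 468435553335) (nat_lit 76) (nat_lit 94736091240) (nat_lit 76) (nat_lit 94570162214) (nat_lit 1) (nat_lit 4) (nat_lit 2) (nat_lit 5) (nat_lit 2) (nat_lit 4) (nat_lit 493) (nat_lit 359) (nat_lit 348)))) (XT.nd (nat_lit 78) (nat_lit 0) (nat_lit 0) (XT.lf (nat_lit 0) (nat_lit 512517851882) (nat_lit 76) (nat_lit 98881340069) (nat_lit 76) (nat_lit 98706181035) (nat_lit 1) (nat_lit 4) (nat_lit 2) (nat_lit 5) (nat_lit 2) (nat_lit 4) (nat_lit 494) (nat_lit 359) (nat_lit 347)) (XT.nd (nat_lit 78) (nat_lit 0) (nat_lit 0) (XT.lf (nat_lit 0) (nat_lit 559905333762) (nat_lit 76) (nat_lit 103472483299) (nat_lit 76) (nat_lit 103288777960) (nat_lit 1) (nat_lit 4) (nat_lit 2) (nat_lit 5) (nat_lit 2) (nat_lit 4) (nat_lit 495) (nat_lit 359) (nat_lit 346)) (XT.lf (nat_lit 0) (nat_lit 610878813681) (nat_lit 76) (nat_lit 108536727705) (nat_lit 76) (nat_lit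 108345109121) (nat_lit 1) (nat_lit 4) (nat_lit 2) (nat_lit 5) (nat_lit 2) (nat_lit 4) (nat_lit 496) (nat_lit 359) (nat_lit 345)))))) (XT.nd (nat_lit 468) (nat_lit 0) (nat_lit 0) (XT.nd (nat_lit 234) (nat_lit 0) (nat_lit 0) (XT.nd (nat_lit 78) (nat_lit 0) (nat_lit 0) (XT.lf (nat_lit 0) (nat_lit 665740356705) (nat_lit 76) (nat_lit 114104083623) (nat_lit 76) (nat_lit 113905137961) (nat_lit 1) (nat_lit 4) (nat_lit 2) (nat_lit 5) (nat_lit 2) (nat_lit 4) (nat_lit 497) (nat_lit 359) (nat_lit 344)) (XT.nd (nat_lit 78) (nat_lit 0) (nat_lit 0) (XT.lf (nat_lit 0) (nat_lit 724815068276) (nat_lit 76) (nat_lit 120207542792) (nat_lit 76) (nat_lit 120001812799) (nat_lit 1) (nat_lit 4) (nat_lit 2) (nat_lit 5) (nat_lit 2) (nat_lit 4) (nat_lit 498) (nat_lit 359) (nat_lit 343)) (XT.lf (nat_lit 0) (nat_lit 788453020757) (nat_lit 76) (nat_lit 126883273860) (nat_lit 76) (nat_lit 126671262079) (nat_lit 1) (nat_lit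 4) (nat_lit 2) (nat_lit 5) (nat_lit 2) (nat_lit 4) (nat_lit 499) (nat_lit 359) (nat_lit 342)))) (XT.nd (nat_lit 78) (nat_lit 0) (nat_lit 0) (XT.lf (nat_lit 0) (nat_lit 857031327942) (nat_lit 76) (nat_lit 134170836715) (nat_lit 76) (nat_lit 133953008462) (nat_lit 1) (nat_lit 4) (nat_lit 2) (nat_lit 5) (nat_lit 2) (nat_lit 4) (nat_lit 500) (nat_lit 359) (nat_lit 341)) (XT.nd (nat_lit 78) (nat_lit 0) (nat_lit 0) (XT.lf (nat_lit 0) (nat_lit 930956379799) (nat_lit 76) (nat_lit 142113416913) (nat_lit 76) (nat_lit 141890203039) (nat_lit 1) (nat_lit 4) (nat_lit 2) (nat_lit 5) (nat_lit 2) (nat_lit 4) (nat_lit 501) (nat_lit 359) (nat_lit 340)) (XT.lf (nat_lit 0) (nat_lit 1010666250708) (nat_lit 76) (nat_lit 150758081597) (nat_lit 76) (nat_lit 150529881037) (nat_lit 1) (nat_lit 4) (nat_lit 2) (nat_lit 5) (nat_lit 2) (nat_lit 4) (nat_lit 502) (nat_lit 359) (nat_lit 339))))) (XT.nd (nat_lit 234) (nat_lit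 0) (nat_lit 0) (XT.nd (nat_lit 78) (nat_lit 0) (nat_lit 0) (XT.lf (nat_lit 0) (nat_lit 1096633295462) (nat_lit 76) (nat_lit 160156058409) (nat_lit 76) (nat_lit 159923240547) (nat_lit 1) (nat_lit 4) (nat_lit 2) (nat_lit 5) (nat_lit 2) (nat_lit 4) (nat_lit 503) (nat_lit 359) (nat_lit 338)) (XT.nd (nat_lit 78) (nat_lit 0) (nat_lit 0) (XT.lf (nat_lit 0) (nat_lit 1189366948398) (nat_lit 76) (nat_lit 170363039064) (nat_lit 76) (nat_lit 170125945922) (nat_lit 1) (nat_lit 4) (nat_lit 2) (nat_lit 5) (nat_lit 2) (nat_lit 4) (nat_lit 504) (nat_lit 359) (nat_lit 337)) (XT.lf (nat_lit 0) (nat_lit 1289416742276) (nat_lit 76) (nat_lit 181439509374) (nat_lit 76) (nat_lit 181198457639) (nat_lit 1) (nat_lit 4) (nat_lit 2) (nat_lit 5) (nat_lit 2) (nat_lit 4) (nat_lit 505) (nat_lit 359) (nat_lit 336)))) (XT.nd (nat_lit 156) (nat_lit 0) (nat_lit 0) (XT.nd (nat_lit 78) (nat_lit 0) (nat_lit 0) (XT.lf (nat_lit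 0) (nat_lit 1397375564762) (nat_lit 76) (nat_lit 193451107680) (nat_lit 76) (nat_lit 193206390582) (nat_lit 1) (nat_lit 4) (nat_lit 2) (nat_lit 5) (nat_lit 2) (nat_lit 4) (nat_lit 506) (nat_lit 359) (nat_lit 335)) (XT.lf (nat_lit 0) (nat_lit 1513883171842) (nat_lit 76) (nat_lit 206469013824) (nat_lit 76) (nat_lit 206220902872) (nat_lit 1) (nat_lit 4) (nat_lit 2) (nat_lit 5) (nat_lit 2) (nat_lit 4) (nat_lit 507) (nat_lit 359) (nat_lit 334))) (XT.nd (nat_lit 78) (nat_lit 0) (nat_lit 0) (XT.lf (nat_lit 0) (nat_lit 1639629978965) (nat_lit 76) (nat_lit 220570370955) (nat_lit 76) (nat_lit 220319117544) (nat_lit 1) (nat_lit 4) (nat_lit 2) (nat_lit 5) (nat_lit 2) (nat_lit 4) (nat_lit 508) (nat_lit 359) (nat_lit 333)) (XT.lf (nat_lit 0) (nat_lit 1775361152395) (nat_lit 76) (nat_lit 235838742669) (nat_lit 76) (nat_lit 235584579575) (nat_lit 1) (nat_lit 4) (nat_lit 2) (nat_lit 5) (nat_lit 2) (nat_lit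 4) (nat_lit 509) (nat_lit 359) (nat_lit 332))))))) (XT.nd (nat_lit 1014) (nat_lit 0) (nat_lit 0) (XT.nd (nat_lit 468) (nat_lit 0) (nat_lit 0) (XT.nd (nat_lit 234) (nat_lit 0) (nat_lit 0) (XT.nd (nat_lit 78) (nat_lit 0) (nat_lit 0) (XT.lf (nat_lit 0) (nat_lit 1921881025013) (nat_lit 76) (nat_lit 252364608207) (nat_lit 76) (nat_lit 252107750962) (nat_lit 1) (nat_lit 4) (nat_lit 2) (nat_lit 5) (nat_lit 2) (nat_lit 4) (nat_lit 510) (nat_lit 359) (nat_lit 331)) (XT.nd (nat_lit 78) (nat_lit 0) (nat_lit 0) (XT.lf (nat_lit 0) (nat_lit 2080057862729) (nat_lit 76) (nat_lit 270245898624) (nat_lit 76) (nat_lit 269986546794) (nat_lit 1) (nat_lit 4) (nat_lit 2) (nat_lit 5) (nat_lit 2) (nat_lit 4) (nat_lit 511) (nat_lit 359) (nat_lit 330)) (XT.lf (nat_lit 0) (nat_lit 2250829009767) (nat_lit 76) (nat_lit 289588577122) (nat_lit 76) (nat_lit 289326915491) (nat_lit 1) (nat_lit 4) (nat_lit 2) (nat_lit 5) (nat_lit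 2) (nat_lit 4) (nat_lit 512) (nat_lit 359) (nat_lit 329)))) (XT.nd (nat_lit 78) (nat_lit 0) (nat_lit 0) (XT.lf (nat_lit 0) (nat_lit 2435206443296) (nat_lit 76) (nat_lit 310507266981) (nat_lit 76) (nat_lit 310243466646) (nat_lit 1) (nat_lit 4) (nat_lit 2) (nat_lit 5) (nat_lit 2) (nat_lit 4) (nat_lit 513) (nat_lit 359) (nat_lit 328)) (XT.nd (nat_lit 78) (nat_lit 0) (nat_lit 0) (XT.lf (nat_lit 0) (nat_lit 2634282770328) (nat_lit 76) (nat_lit 333125930808) (nat_lit 76) (nat_lit 332860150191) (nat_lit 1) (nat_lit 4) (nat_lit 2) (nat_lit 5) (nat_lit 2) (nat_lit 4) (nat_lit 514) (nat_lit 359) (nat_lit 327)) (XT.lf (nat_lit 0) (nat_lit 2849237702432) (nat_lit 76) (nat_lit 357578605129) (nat_lit 76) (nat_lit 357310990917) (nat_lit 1) (nat_lit 4) (nat_lit 2) (nat_lit 5) (nat_lit 2) (nat_lit 4) (nat_lit 515) (nat_lit 359) (nat_lit 326))))) (XT.nd (nat_lit 234) (nat_lit 0) (nat_lit 0) (XT.nd (nat_lit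 78) (nat_lit 0) (nat_lit 0) (XT.lf (nat_lit 0) (nat_lit 3081345046611) (nat_lit 76) (nat_lit 384010194680) (nat_lit 76) (nat_lit 383740882696) (nat_lit 1) (nat_lit 4) (nat_lit 2) (nat_lit 5) (nat_lit 2) (nat_lit 4) (nat_lit 516) (nat_lit 359) (nat_lit 325)) (XT.nd (nat_lit 78) (nat_lit 0) (nat_lit 0) (XT.lf (nat_lit 0) (nat_lit 3331980253795) (nat_lit 76) (nat_lit 412577331104) (nat_lit 76) (nat_lit 412306447109) (nat_lit 1) (nat_lit 4) (nat_lit 2) (nat_lit 5) (nat_lit 2) (nat_lit 4) (nat_lit 517) (nat_lit 359) (nat_lit 324)) (XT.lf (nat_lit 0) (nat_lit 3602628569656) (nat_lit 76) (nat_lit 443449301136) (nat_lit 76) (nat_lit 443176961574) (nat_lit 1) (nat_lit 4) (nat_lit 2) (nat_lit 5) (nat_lit 2) (nat_lit 4) (nat_lit 518) (nat_lit 359) (nat_lit 323)))) (XT.nd (nat_lit 156) (nat_lit 0) (nat_lit 0) (XT.nd (nat_lit 78) (nat_lit 0) (nat_lit 0) (XT.lf (nat_lit 0) (nat_lit 3894893836066) (nat_lit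 76) (nat_lit 476809049781) (nat_lit 76) (nat_lit 476535362473) (nat_lit 1) (nat_lit 4) (nat_lit 2) (nat_lit 5) (nat_lit 2) (nat_lit 4) (nat_lit 519) (nat_lit 359) (nat_lit 322)) (XT.lf (nat_lit 0) (nat_lit 4210507995343) (nat_lit 76) (nat_lit 512854264441) (nat_lit 76) (nat_lit 512579329220) (nat_lit 1) (nat_lit 4) (nat_lit 2) (nat_lit 5) (nat_lit 2) (nat_lit 4) (nat_lit 520) (nat_lit 359) (nat_lit 321))) (XT.nd (nat_lit 78) (nat_lit 0) (nat_lit 0) (XT.lf (nat_lit 0) (nat_lit 4551341353618) (nat_lit 76) (nat_lit 551798546386) (nat_lit 76) (nat_lit 551522455690) (nat_lit 1) (nat_lit 4) (nat_lit 2) (nat_lit 5) (nat_lit 2) (nat_lit 4) (nat_lit 521) (nat_lit 359) (nat_lit 320)) (XT.lf (nat_lit 0) (nat_lit 4919413664124) (nat_lit 76) (nat_lit 593872676548) (nat_lit 76) (nat_lit 593595515967) (nat_lit 1) (nat_lit 4) (nat_lit 2) (nat_lit 5) (nat_lit 2) (nat_lit 4) (nat_lit 522) (nat_lit 359) (nat_lit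 319)))))) (XT.nd (nat_lit 468) (nat_lit 0) (nat_lit 0) (XT.nd (nat_lit 234) (nat_lit 0) (nat_lit 0) (XT.nd (nat_lit 78) (nat_lit 0) (nat_lit 0) (XT.lf (nat_lit 0) (nat_lit 5316906096109) (nat_lit 76) (nat_lit 639325983105) (nat_lit 76) (nat_lit 639047831889) (nat_lit 1) (nat_lit 4) (nat_lit 2) (nat_lit 5) (nat_lit 2) (nat_lit 4) (nat_lit 523) (nat_lit 359) (nat_lit 318)) (XT.nd (nat_lit 78) (nat_lit 0) (nat_lit 0) (XT.lf (nat_lit 0) (nat_lit 5746174160281) (nat_lit 76) (nat_lit 688427818984) (nat_lit 76) (nat_lit 688148750515) (nat_lit 1) (nat_lit 4) (nat_lit 2) (nat_lit 5) (nat_lit 2) (nat_lit 4) (nat_lit 524) (nat_lit 359) (nat_lit 317)) (XT.lf (nat_lit 0) (nat_lit 6209761667390) (nat_lit 76) (nat_lit 741469158027) (nat_lit 76) (nat_lit 741189240250) (nat_lit 1) (nat_lit 4) (nat_lit 2) (nat_lit 5) (nat_lit 2) (nat_lit 4) (nat_lit 525) (nat_lit 359) (nat_lit 316)))) (XT.nd (nat_lit 78)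 (nat_lit 0) (nat_lit 0) (XT.lf (nat_lit 0) (nat_lit 6710415802664) (nat_lit 76) (nat_lit 798764319282) (nat_lit 76) (nat_lit 798483615107) (nat_lit 1) (nat_lit 4) (nat_lit 2) (nat_lit 5) (nat_lit 2) (nat_lit 4) (nat_lit 526) (nat_lit 359) (nat_lit 315)) (XT.nd (nat_lit 78) (nat_lit 0) (nat_lit 0) (XT.lf (nat_lit 0) (nat_lit 7251103405423) (nat_lit 76) (nat_lit 860652829629) (nat_lit 76) (nat_lit 860371397309) (nat_lit 1) (nat_lit 4) (nat_lit 2) (nat_lit 5) (nat_lit 2) (nat_lit 4) (nat_lit 527) (nat_lit 359) (nat_lit 314)) (XT.lf (nat_lit 0) (nat_lit 7835028550350) (nat_lit 76) (nat_lit 927501435797) (nat_lit 76) (nat_lit 927219329267) (nat_lit 1) (nat_lit 4) (nat_lit 2) (nat_lit 5) (nat_lit 2) (nat_lit 4) (nat_lit 528) (nat_lit 359) (nat_lit 313))))) (XT.nd (nat_lit 234) (nat_lit 0) (nat_lit 0) (XT.nd (nat_lit 78) (nat_lit 0) (nat_lit 0) (XT.lf (nat_lit 0) (nat_lit 8465651534600) (nat_lit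 76) (nat_lit 999706277673) (nat_lit 76) (nat_lit 999423546876) (nat_lit 1) (nat_lit 4) (nat_lit 2) (nat_lit 5) (nat_lit 2) (nat_lit 4) (nat_lit 529) (nat_lit 359) (nat_lit 312)) (XT.nd (nat_lit 78) (nat_lit 0) (nat_lit 0) (XT.lf (nat_lit 0) (nat_lit 9146709383265) (nat_lit 76) (nat_lit 1077695235803) (nat_lit 76) (nat_lit 1077411926981) (nat_lit 1) (nat_lit 4) (nat_lit 2) (nat_lit 5) (nat_lit 2) (nat_lit 4) (nat_lit 530) (nat_lit 359) (nat_lit 311)) (XT.lf (nat_lit 0) (nat_lit 9882237994707) (nat_lit 76) (nat_lit 1161930466974) (nat_lit 76) (nat_lit 1161646622944) (nat_lit 1) (nat_lit 4) (nat_lit 2) (nat_lit 5) (nat_lit 2) (nat_lit 4) (nat_lit 531) (nat_lit 359) (nat_lit 310)))) (XT.nd (nat_lit 156) (nat_lit 0) (nat_lit 0) (XT.nd (nat_lit 78) (nat_lit 0) (nat_lit 0) (XT.lf (nat_lit 0) (nat_lit 10676596056995) (nat_lit 76) (nat_lit 1252911142929) (nat_lit 76) (nat_lit 1252626803335) (nat_lit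 1) (nat_lit 4) (nat_lit 2) (nat_lit 5) (nat_lit 2) (nat_lit 4) (nat_lit 532) (nat_lit 359) (nat_lit 309)) (XT.lf (nat_lit 0) (nat_lit 11534490877164) (nat_lit 76) (nat_lit 1351176408412) (nat_lit 76) (nat_lit 1350891609963) (nat_lit 1) (nat_lit 4) (nat_lit 2) (nat_lit 5) (nat_lit 2) (nat_lit 4) (nat_lit 533) (nat_lit 359) (nat_lit 308))) (XT.nd (nat_lit 78) (nat_lit 0) (nat_lit 0) (XT.lf (nat_lit 0) (nat_lit 12461006276370) (nat_lit 76) (nat_lit 1457308576108) (nat_lit 76) (nat_lit 1457023352793) (nat_lit 1) (nat_lit 4) (nat_lit 2) (nat_lit 5) (nat_lit 2) (nat_lit 4) (nat_lit 534) (nat_lit 359) (nat_lit 307)) (XT.lf (nat_lit 0) (nat_lit 13461632716238) (nat_lit 76) (nat_lit 1571936577382) (nat_lit 76) (nat_lit 1571650960673) (nat_lit 1) (nat_lit 4) (nat_lit 2) (nat_lit 5) (nat_lit 2) (nat_lit 4) (nat_lit 535) (nat_lit 359) (nat_lit 306))))))))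
noncomputable def xc16 : XT := (XT.nd (nat_lit 59982) (nat_lit 0) (nat_lit 0) (XT.nd (nat_lit 58968) (nat_lit 0) (nat_lit 0) (XT.nd (nat_lit 58500) (nat_lit 0) (nat_lit 0) (XT.nd (nat_lit 58266) (nat_lit 0) (nat_lit 0) (XT.nd (nat_lit 58110) (nat_lit 0) (nat_lit 0) (XT.lf (nat_lit 0) (nat_lit 14542299834932) (nat_lit 76) (nat_lit 1695739689278) (nat_lit 76) (nat_lit 1695453708314) (nat_lit 1) (nat_lit 4) (nat_lit 2) (nat_lit 5) (nat_lit 2) (nat_lit 4) (nat_lit 536) (nat_lit 359) (nat_lit 305)) (XT.nd (nat_lit 78) (nat_lit 0) (nat_lit 0) (XT.lf (nat_lit 0) (nat_lit 49153349389) (nat_lit 76) (nat_lit 36601426676) (nat_lit 76) (nat_lit 36601426676) (nat_lit 1) (nat_lit 4) (nat_lit 2) (nat_lit 5) (nat_lit 2) (nat_lit 4) (nat_lit 480) (nat_lit 360) (nat_lit 360)) (XT.lf (nat_lit 0) (nat_lit 117605842675) (nat_lit 76) (nat_lit 73132078871) (nat_lit 76) (nat_lit 73108836140) (nat_lit 1) (nat_lit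 4) (nat_lit 2) (nat_lit 5) (nat_lit 2) (nat_lit 4) (nat_lit 481) (nat_lit 360) (nat_lit 359)))) (XT.nd (nat_lit 78) (nat_lit 0) (nat_lit 0) (XT.lf (nat_lit 0) (nat_lit 137891393831) (nat_lit 76) (nat_lit 73343405048) (nat_lit 76) (nat_lit 73298641270) (nat_lit 1) (nat_lit 4) (nat_lit 2) (nat_lit 5) (nat_lit 2) (nat_lit 4) (nat_lit 482) (nat_lit 360) (nat_lit 358)) (XT.nd (nat_lit 78) (nat_lit 0) (nat_lit 0) (XT.lf (nat_lit 0) (nat_lit 159283562919) (nat_lit 76) (nat_lit 73838084187) (nat_lit 76) (nat_lit 73773393513) (nat_lit 1) (nat_lit 4) (nat_lit 2) (nat_lit 5) (nat_lit 2) (nat_lit 4) (nat_lit 483) (nat_lit 360) (nat_lit 357)) (XT.lf (nat_lit 0) (nat_lit 181909118349) (nat_lit 76) (nat_lit 74619047720) (nat_lit 76) (nat_lit 74535906216) (nat_lit 1) (nat_lit 4) (nat_lit 2) (nat_lit 5) (nat_lit 2) (nat_lit 4) (nat_lit 484) (nat_lit 360) (nat_lit 356))))) (XT.nd (nat_lit 234) (nat_lit 0)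 (nat_lit 0) (XT.nd (nat_lit 78) (nat_lit 0) (nat_lit 0) (XT.lf (nat_lit 0) (nat_lit 205902137486) (nat_lit 76) (nat_lit 75690923578) (nat_lit 76) (nat_lit 75590697974) (nat_lit 1) (nat_lit 4) (nat_lit 2) (nat_lit 5) (nat_lit 2) (nat_lit 4) (nat_lit 485) (nat_lit 360) (nat_lit 355)) (XT.nd (nat_lit 78) (nat_lit 0) (nat_lit 0) (XT.lf (nat_lit 0) (nat_lit 231404801184) (nat_lit 76) (nat_lit 77060063620) (nat_lit 76) (nat_lit 76944019403) (nat_lit 1) (nat_lit 4) (nat_lit 2) (nat_lit 5) (nat_lit 2) (nat_lit 4) (nat_lit 486) (nat_lit 360) (nat_lit 354)) (XT.lf (nat_lit 0) (nat_lit 258568236340) (nat_lit 76) (nat_lit 78734581267) (nat_lit 76) (nat_lit 78603890187) (nat_lit 1) (nat_lit 4) (nat_lit 2) (nat_lit 5) (nat_lit 2) (nat_lit 4) (nat_lit 487) (nat_lit 360) (nat_lit 353)))) (XT.nd (nat_lit 78) (nat_lit 0) (nat_lit 0) (XT.lf (nat_lit 0) (nat_lit 287553411458) (nat_lit 76) (nat_lit 80724399586)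 (nat_lit 76) (nat_lit 80580146596) (nat_lit 1) (nat_lit 4) (nat_lit 2) (nat_lit 5) (nat_lit 2) (nat_lit 4) (nat_lit 488) (nat_lit 360) (nat_lit 352)) (XT.nd (nat_lit 78) (nat_lit 0) (nat_lit 0) (XT.lf (nat_lit 0) (nat_lit 318532090539) (nat_lit 76) (nat_lit 83041310095) (nat_lit 76) (nat_lit 82884499780) (nat_lit 1) (nat_lit 4) (nat_lit 2) (nat_lit 5) (nat_lit 2) (nat_lit 4) (nat_lit 489) (nat_lit 360) (nat_lit 351)) (XT.lf (nat_lit 0) (nat_lit 351687850940) (nat_lit 76) (nat_lit 85699042632) (nat_lit 76) (nat_lit 85530605165) (nat_lit 1) (nat_lit 4) (nat_lit 2) (nat_lit 5) (nat_lit 2) (nat_lit 4) (nat_lit 490) (nat_lit 360) (nat_lit 350)))))) (XT.nd (nat_lit 468) (nat_lit 0) (nat_lit 0) (XT.nd (nat_lit 234) (nat_lit 0) (nat_lit 0) (XT.nd (nat_lit 78) (nat_lit 0) (nat_lit 0) (XT.lf (nat_lit 0) (nat_lit 387217171241) (nat_lit 76) (nat_lit 88713346724) (nat_lit 76) (nat_lit 88534143376) (nat_lit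 1) (nat_lit 4) (nat_lit 2) (nat_lit 5) (nat_lit 2) (nat_lit 4) (nat_lit 491) (nat_lit 360) (nat_lit 349)) (XT.nd (nat_lit 78) (nat_lit 0) (nat_lit 0) (XT.lf (nat_lit 0) (nat_lit 425330595563) (nat_lit 76) (nat_lit 92102084915) (nat_lit 76) (nat_lit 91912913157) (nat_lit 1) (nat_lit 4) (nat_lit 2) (nat_lit 5) (nat_lit 2) (nat_lit 4) (nat_lit 492) (nat_lit 360) (nat_lit 348)) (XT.lf (nat_lit 0) (nat_lit 466253981235) (nat_lit 76) (nat_lit 95885338614) (nat_lit 76) (nat_lit 95686936848) (nat_lit 1) (nat_lit 4) (nat_lit 2) (nat_lit 5) (nat_lit 2) (nat_lit 4) (nat_lit 493) (nat_lit 360) (nat_lit 347)))) (XT.nd (nat_lit 78) (nat_lit 0) (nat_lit 0) (XT.lf (nat_lit 0) (nat_lit 510229837210) (nat_lit 76) (nat_lit 100085527104) (nat_lit 76) (nat_lit 99878579034) (nat_lit 1) (nat_lit 4) (nat_lit 2) (nat_lit 5) (nat_lit 2) (nat_lit 4) (nat_lit 494) (nat_lit 360) (nat_lit 346)) (XT.nd (nat_lit 78) (nat_lit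 0) (nat_lit 0) (XT.lf (nat_lit 0) (nat_lit 557518761151) (nat_lit 76) (nat_lit 104727540390) (nat_lit 76) (nat_lit 104512679075) (nat_lit 1) (nat_lit 4) (nat_lit 2) (nat_lit 5) (nat_lit 2) (nat_lit 4) (nat_lit 495) (nat_lit 360) (nat_lit 345)) (XT.lf (nat_lit 0) (nat_lit 608400983720) (nat_lit 76) (nat_lit 109838886699) (nat_lit 76) (nat_lit 109616698307) (nat_lit 1) (nat_lit 4) (nat_lit 2) (nat_lit 5) (nat_lit 2) (nat_lit 4) (nat_lit 496) (nat_lit 360) (nat_lit 344))))) (XT.nd (nat_lit 234) (nat_lit 0) (nat_lit 0) (XT.nd (nat_lit 78) (nat_lit 0) (nat_lit 0) (XT.lf (nat_lit 0) (nat_lit 663178029199) (nat_lit 76) (nat_lit 115449855491) (nat_lit 76) (nat_lit 115220882767) (nat_lit 1) (nat_lit 4) (nat_lit 2) (nat_lit 5) (nat_lit 2) (nat_lit 4) (nat_lit 497) (nat_lit 360) (nat_lit 343)) (XT.nd (nat_lit 78) (nat_lit 0) (nat_lit 0) (XT.lf (nat_lit 0) (nat_lit 722174502301) (nat_lit 76) (nat_lit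 121593696952) (nat_lit 76) (nat_lit 121358442439) (nat_lit 1) (nat_lit 4) (nat_lit 2) (nat_lit 5) (nat_lit 2) (nat_lit 4) (nat_lit 498) (nat_lit 360) (nat_lit 342)) (XT.lf (nat_lit 0) (nat_lit 785740011756) (nat_lit 76) (nat_lit 128306819030) (nat_lit 76) (nat_lit 128065748046) (nat_lit 1) (nat_lit 4) (nat_lit 2) (nat_lit 5) (nat_lit 2) (nat_lit 4) (nat_lit 499) (nat_lit 360) (nat_lit 341)))) (XT.nd (nat_lit 156) (nat_lit 0) (nat_lit 0) (XT.nd (nat_lit 78) (nat_lit 0) (nat_lit 0) (XT.lf (nat_lit 0) (nat_lit 854251242064) (nat_lit 76) (nat_lit 135629003190) (nat_lit 76) (nat_lit 135382546585) (nat_lit 1) (nat_lit 4) (nat_lit 2) (nat_lit 5) (nat_lit 2) (nat_lit 4) (nat_lit 500) (nat_lit 360) (nat_lit 340)) (XT.lf (nat_lit 0) (nat_lit 928114185702) (nat_lit 76) (nat_lit 143603640152) (nat_lit 76) (nat_lit 143352196861) (nat_lit 1) (nat_lit 4) (nat_lit 2) (nat_lit 5) (nat_lit 2) (nat_lit 4)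 (nat_lit 501) (nat_lit 360) (nat_lit 339))) (XT.nd (nat_lit 78) (nat_lit 0) (nat_lit 0) (XT.lf (nat_lit 0) (nat_lit 1007766549001) (nat_lit 76) (nat_lit 152277987025) (nat_lit 76) (nat_lit 152021926432) (nat_lit 1) (nat_lit 4) (nat_lit 2) (nat_lit 5) (nat_lit 2) (nat_lit 4) (nat_lit 502) (nat_lit 360) (nat_lit 338)) (XT.lf (nat_lit 0) (nat_lit 1093680345967) (nat_lit 76) (nat_lit 161703447346) (nat_lit 76) (nat_lit 161443111473) (nat_lit 1) (nat_lit 4) (nat_lit 2) (nat_lit 5) (nat_lit 2) (nat_lit 4) (nat_lit 503) (nat_lit 360) (nat_lit 337))))))) (XT.nd (nat_lit 936) (nat_lit 0) (nat_lit 0) (XT.nd (nat_lit 468) (nat_lit 0) (nat_lit 0) (XT.nd (nat_lit 234) (nat_lit 0) (nat_lit 0) (XT.nd (nat_lit 78) (nat_lit 0) (nat_lit 0) (XT.lf (nat_lit 0) (nat_lit 1186364695397) (nat_lit 76) (nat_lit 171935875695) (nat_lit 76) (nat_lit 171671581229) (nat_lit 1) (nat_lit 4) (nat_lit 2) (nat_lit 5) (nat_lit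 2) (nat_lit 4) (nat_lit 504) (nat_lit 360) (nat_lit 336)) (XT.nd (nat_lit 78) (nat_lit 0) (nat_lit 0) (XT.lf (nat_lit 0) (nat_lit 1286368837880) (nat_lit 76) (nat_lit 183035908683) (nat_lit 76) (nat_lit 182767948854) (nat_lit 1) (nat_lit 4) (nat_lit 2) (nat_lit 5) (nat_lit 2) (nat_lit 4) (nat_lit 505) (nat_lit 360) (nat_lit 335)) (XT.lf (nat_lit 0) (nat_lit 1394285390556) (nat_lit 76) (nat_lit 195069324284) (nat_lit 76) (nat_lit 194797970600) (nat_lit 1) (nat_lit 4) (nat_lit 2) (nat_lit 5) (nat_lit 2) (nat_lit 4) (nat_lit 506) (nat_lit 360) (nat_lit 334)))) (XT.nd (nat_lit 78) (nat_lit 0) (nat_lit 0) (XT.lf (nat_lit 0) (nat_lit 1510753858922) (nat_lit 76) (nat_lit 208107431628) (nat_lit 76) (nat_lit 207832935486) (nat_lit 1) (nat_lit 4) (nat_lit 2) (nat_lit 5) (nat_lit 2) (nat_lit 4) (nat_lit 507) (nat_lit 360) (nat_lit 333)) (XT.nd (nat_lit 78) (nat_lit 0) (nat_lit 0) (XT.lf (nat_lit 0)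 (nat_lit 1636464426496) (nat_lit 76) (nat_lit 222227493573) (nat_lit 76) (nat_lit 221950087747) (nat_lit 1) (nat_lit 4) (nat_lit 2) (nat_lit 5) (nat_lit 2) (nat_lit 4) (nat_lit 508) (nat_lit 360) (nat_lit 332)) (XT.lf (nat_lit 0) (nat_lit 1772162044788) (nat_lit 76) (nat_lit 237513184559) (nat_lit 76) (nat_lit 237233084582) (nat_lit 1) (nat_lit 4) (nat_lit 2) (nat_lit 5) (nat_lit 2) (nat_lit 4) (nat_lit 509) (nat_lit 360) (nat_lit 331))))) (XT.nd (nat_lit 234) (nat_lit 0) (nat_lit 0) (XT.nd (nat_lit 78) (nat_lit 0) (nat_lit 0) (XT.lf (nat_lit 0) (nat_lit 1918650847833) (nat_lit 76) (nat_lit 254055086461) (nat_lit 76) (nat_lit 253772491899) (nat_lit 1) (nat_lit 4) (nat_lit 2) (nat_lit 5) (nat_lit 2) (nat_lit 4) (nat_lit 510) (nat_lit 360) (nat_lit 330)) (XT.nd (nat_lit 78) (nat_lit 0) (nat_lit 0) (XT.lf (nat_lit 0) (nat_lit 2076798917427) (nat_lit 76) (nat_lit 271951225362) (nat_lit 76)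 (nat_lit 271666321000) (nat_lit 1) (nat_lit 4) (nat_lit 2) (nat_lit 5) (nat_lit 2) (nat_lit 4) (nat_lit 511) (nat_lit 360) (nat_lit 329)) (XT.lf (nat_lit 0) (nat_lit 2247543427315) (nat_lit 76) (nat_lit 291307652457) (nat_lit 76) (nat_lit 291020609390) (nat_lit 1) (nat_lit 4) (nat_lit 2) (nat_lit 5) (nat_lit 2) (nat_lit 4) (nat_lit 512) (nat_lit 360) (nat_lit 328)))) (XT.nd (nat_lit 78) (nat_lit 0) (nat_lit 0) (XT.lf (nat_lit 0) (nat_lit 2431896196816) (nat_lit 76) (nat_lit 312239072498) (nat_lit 76) (nat_lit 311950049150) (nat_lit 1) (nat_lit 4) (nat_lit 2) (nat_lit 5) (nat_lit 2) (nat_lit 4) (nat_lit 513) (nat_lit 360) (nat_lit 327)) (XT.nd (nat_lit 78) (nat_lit 0) (nat_lit 0) (XT.lf (nat_lit 0) (nat_lit 2630949686785) (nat_lit 76) (nat_lit 334869523530) (nat_lit 76) (nat_lit 334578666588) (nat_lit 1) (nat_lit 4) (nat_lit 2) (nat_lit 5) (nat_lit 2) (nat_lit 4) (nat_lit 514) (nat_lit 360)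 (nat_lit 326)) (XT.lf (nat_lit 0) (nat_lit 2845883473459) (nat_lit 76) (nat_lit 359333111931) (nat_lit 76) (nat_lit 359040557216) (nat_lit 1) (nat_lit 4) (nat_lit 2) (nat_lit 5) (nat_lit 2) (nat_lit 4) (nat_lit 515) (nat_lit 360) (nat_lit 325)))))) (XT.nd (nat_lit 468) (nat_lit 0) (nat_lit 0) (XT.nd (nat_lit 234) (nat_lit 0) (nat_lit 0) (XT.nd (nat_lit 78) (nat_lit 0) (nat_lit 0) (XT.lf (nat_lit 0) (nat_lit 3077971238538) (nat_lit 76) (nat_lit 385774807111) (nat_lit 76) (nat_lit 385480680385) (nat_lit 1) (nat_lit 4) (nat_lit 2) (nat_lit 5) (nat_lit 2) (nat_lit 4) (nat_lit 516) (nat_lit 360) (nat_lit 324)) (XT.nd (nat_lit 78) (nat_lit 0) (nat_lit 0) (XT.lf (nat_lit 0) (nat_lit 3328588316925) (nat_lit 76) (nat_lit 414351300599) (nat_lit 76) (nat_lit 414055718307) (nat_lit 1) (nat_lit 4) (nat_lit 2) (nat_lit 5) (nat_lit 2) (nat_lit 4) (nat_lit 517) (nat_lit 360) (nat_lit 323)) (XT.lf (nat_lit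 0) (nat_lit 3599219846863) (nat_lit 76) (nat_lit 445231934579) (nat_lit 76) (nat_lit 444935004540) (nat_lit 1) (nat_lit 4) (nat_lit 2) (nat_lit 5) (nat_lit 2) (nat_lit 4) (nat_lit 518) (nat_lit 360) (nat_lit 322)))) (XT.nd (nat_lit 78) (nat_lit 0) (nat_lit 0) (XT.lf (nat_lit 0) (nat_lit 3891469570751) (nat_lit 76) (nat_lit 478599705399) (nat_lit 76) (nat_lit 478301527446) (nat_lit 1) (nat_lit 4) (nat_lit 2) (nat_lit 5) (nat_lit 2) (nat_lit 4) (nat_lit 519) (nat_lit 360) (nat_lit 321)) (XT.nd (nat_lit 78) (nat_lit 0) (nat_lit 0) (XT.lf (nat_lit 0) (nat_lit 4207069338805) (nat_lit 76) (nat_lit 514652347997) (nat_lit 76) (nat_lit 514353014570) (nat_lit 1) (nat_lit 4) (nat_lit 2) (nat_lit 5) (nat_lit 2) (nat_lit 4) (nat_lit 520) (nat_lit 360) (nat_lit 320)) (XT.lf (nat_lit 0) (nat_lit 4547889371872) (nat_lit 76) (nat_lit 553603507664) (nat_lit 76) (nat_lit 553303104352) (nat_lit 1) (nat_lit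 4) (nat_lit 2) (nat_lit 5) (nat_lit 2) (nat_lit 4) (nat_lit 521) (nat_lit 360) (nat_lit 319))))) (XT.nd (nat_lit 234) (nat_lit 0) (nat_lit 0) (XT.nd (nat_lit 78) (nat_lit 0) (nat_lit 0) (XT.lf (nat_lit 0) (nat_lit 4915949344224) (nat_lit 76) (nat_lit 595684006086) (nat_lit 76) (nat_lit 595382612140) (nat_lit 1) (nat_lit 4) (nat_lit 2) (nat_lit 5) (nat_lit 2) (nat_lit 4) (nat_lit 522) (nat_lit 360) (nat_lit 318)) (XT.nd (nat_lit 78) (nat_lit 0) (nat_lit 0) (XT.lf (nat_lit 0) (nat_lit 5313430351991) (nat_lit 76) (nat_lit 641143209180) (nat_lit 76) (nat_lit 640840897981) (nat_lit 1) (nat_lit 4) (nat_lit 2) (nat_lit 5) (nat_lit 2) (nat_lit 4) (nat_lit 523) (nat_lit 360) (nat_lit 317)) (XT.lf (nat_lit 0) (nat_lit 5742687838184) (nat_lit 76) (nat_lit 690250504816) (nat_lit 76) (nat_lit 689947344307) (nat_lit 1) (nat_lit 4) (nat_lit 2) (nat_lit 5) (nat_lit 2) (nat_lit 4) (nat_lit 524) (nat_lit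 360) (nat_lit 316)))) (XT.nd (nat_lit 156) (nat_lit 0) (nat_lit 0) (XT.nd (nat_lit 78) (nat_lit 0) (nat_lit 0) (XT.lf (nat_lit 0) (nat_lit 6206265550868) (nat_lit 76) (nat_lit 743296899190) (nat_lit 76) (nat_lit 742992952285) (nat_lit 1) (nat_lit 4) (nat_lit 2) (nat_lit 5) (nat_lit 2) (nat_lit 4) (nat_lit 525) (nat_lit 360) (nat_lit 315)) (XT.lf (nat_lit 0) (nat_lit 6706910617230) (nat_lit 76) (nat_lit 800596741307) (nat_lit 76) (nat_lit 800292066255) (nat_lit 1) (nat_lit 4) (nat_lit 2) (nat_lit 5) (nat_lit 2) (nat_lit 4) (nat_lit 526) (nat_lit 360) (nat_lit 314))) (XT.nd (nat_lit 78) (nat_lit 0) (nat_lit 0) (XT.lf (nat_lit 0) (nat_lit 7247589822849) (nat_lit 76) (nat_lit 862489585785) (nat_lit 76) (nat_lit 862184236525) (nat_lit 1) (nat_lit 4) (nat_lit 2) (nat_lit 5) (nat_lit 2) (nat_lit 4) (nat_lit 527) (nat_lit 360) (nat_lit 313)) (XT.lf (nat_lit 0) (nat_lit 7831507192645) (nat_lit 76)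 (nat_lit 929342205037) (nat_lit 76) (nat_lit 929036231509) (nat_lit 1) (nat_lit 4) (nat_lit 2) (nat_lit 5) (nat_lit 2) (nat_lit 4) (nat_lit 528) (nat_lit 360) (nat_lit 312))))))))
noncomputable def xc17 : XT := (XT.nd (nat_lit 59826) (nat_lit 0) (nat_lit 0) (XT.nd (nat_lit 58812) (nat_lit 0) (nat_lit 0) (XT.nd (nat_lit 468) (nat_lit 0) (nat_lit 0) (XT.nd (nat_lit 234) (nat_lit 0) (nat_lit 0) (XT.nd (nat_lit 78) (nat_lit 0) (nat_lit 0) (XT.lf (nat_lit 0) (nat_lit 8462122977701) (nat_lit 76) (nat_lit 1001550762732) (nat_lit 76) (nat_lit 1001244211179) (nat_lit 1) (nat_lit 4) (nat_lit 2) (nat_lit 5) (nat_lit 2) (nat_lit 4) (nat_lit 529) (nat_lit 360) (nat_lit 311)) (XT.nd (nat_lit 78) (nat_lit 0) (nat_lit 0) (XT.lf (nat_lit 0) (nat_lit 9143174160445) (nat_lit 76) (nat_lit 1079543161435) (nat_lit 76) (nat_lit 1079236074673) (nat_lit 1) (nat_lit 4) (nat_lit 2) (nat_lit 5) (nat_lit 2) (nat_lit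 4) (nat_lit 530) (nat_lit 360) (nat_lit 310)) (XT.lf (nat_lit 0) (nat_lit 9878696599738) (nat_lit 76) (nat_lit 1163781578322) (nat_lit 76) (nat_lit 1163473995997) (nat_lit 1) (nat_lit 4) (nat_lit 2) (nat_lit 5) (nat_lit 2) (nat_lit 4) (nat_lit 531) (nat_lit 360) (nat_lit 309)))) (XT.nd (nat_lit 78) (nat_lit 0) (nat_lit 0) (XT.lf (nat_lit 0) (nat_lit 10673048947073) (nat_lit 76) (nat_lit 1254765204013) (nat_lit 76) (nat_lit 1254457162833) (nat_lit 1) (nat_lit 4) (nat_lit 2) (nat_lit 5) (nat_lit 2) (nat_lit 4) (nat_lit 532) (nat_lit 360) (nat_lit 308)) (XT.nd (nat_lit 78) (nat_lit 0) (nat_lit 0) (XT.lf (nat_lit 0) (nat_lit 11530938475618) (nat_lit 76) (nat_lit 1353033200734) (nat_lit 76) (nat_lit 1352724734688) (nat_lit 1) (nat_lit 4) (nat_lit 2) (nat_lit 5) (nat_lit 2) (nat_lit 4) (nat_lit 533) (nat_lit 360) (nat_lit 307)) (XT.lf (nat_lit 0) (nat_lit 12457448975173) (nat_lit 76) (nat_lit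 1459167897355) (nat_lit 76) (nat_lit 1458859037914) (nat_lit 1) (nat_lit 4) (nat_lit 2) (nat_lit 5) (nat_lit 2) (nat_lit 4) (nat_lit 534) (nat_lit 360) (nat_lit 306))))) (XT.nd (nat_lit 58110) (nat_lit 0) (nat_lit 0) (XT.nd (nat_lit 78) (nat_lit 0) (nat_lit 0) (XT.lf (nat_lit 0) (nat_lit 13458070878328) (nat_lit 76) (nat_lit 1573798240225) (nat_lit 76) (nat_lit 1573489016530) (nat_lit 1) (nat_lit 4) (nat_lit 2) (nat_lit 5) (nat_lit 2) (nat_lit 4) (nat_lit 535) (nat_lit 360) (nat_lit 305)) (XT.nd (nat_lit 57954) (nat_lit 0) (nat_lit 0) (XT.lf (nat_lit 0) (nat_lit 14538733796360) (nat_lit 76) (nat_lit 1697603520265) (nat_lit 76) (nat_lit 1697293959298) (nat_lit 1) (nat_lit 4) (nat_lit 2) (nat_lit 5) (nat_lit 2) (nat_lit 4) (nat_lit 536) (nat_lit 360) (nat_lit 304)) (XT.lf (nat_lit 0) (nat_lit 31263990838) (nat_lit 76) (nat_lit 37028894915) (nat_lit 76) (nat_lit 37028894915) (nat_lit 1) (nat_lit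 4) (nat_lit 2) (nat_lit 5) (nat_lit 2) (nat_lit 4) (nat_lit 478) (nat_lit 361) (nat_lit 361)))) (XT.nd (nat_lit 78) (nat_lit 0) (nat_lit 0) (XT.lf (nat_lit 0) (nat_lit 79879596844) (nat_lit 76) (nat_lit 73581250047) (nat_lit 76) (nat_lit 73556147897) (nat_lit 1) (nat_lit 4) (nat_lit 2) (nat_lit 5) (nat_lit 2) (nat_lit 4) (nat_lit 479) (nat_lit 361) (nat_lit 360)) (XT.nd (nat_lit 78) (nat_lit 0) (nat_lit 0) (XT.lf (nat_lit 0) (nat_lit 98017215032) (nat_lit 76) (nat_lit 73377370707) (nat_lit 76) (nat_lit 73329025827) (nat_lit 1) (nat_lit 4) (nat_lit 2) (nat_lit 5) (nat_lit 2) (nat_lit 4) (nat_lit 480) (nat_lit 361) (nat_lit 359)) (XT.lf (nat_lit 0) (nat_lit 117048318423) (nat_lit 76) (nat_lit 73444943638) (nat_lit 76) (nat_lit 73375077710) (nat_lit 1) (nat_lit 4) (nat_lit 2) (nat_lit 5) (nat_lit 2) (nat_lit 4) (nat_lit 481) (nat_lit 361) (nat_lit 358)))))) (XT.nd (nat_lit 468) (nat_lit 0)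 (nat_lit 0) (XT.nd (nat_lit 234) (nat_lit 0) (nat_lit 0) (XT.nd (nat_lit 78) (nat_lit 0) (nat_lit 0) (XT.lf (nat_lit 0) (nat_lit 137085683924) (nat_lit 76) (nat_lit 73784369271) (nat_lit 76) (nat_lit 73694576447) (nat_lit 1) (nat_lit 4) (nat_lit 2) (nat_lit 5) (nat_lit 2) (nat_lit 4) (nat_lit 482) (nat_lit 361) (nat_lit 357)) (XT.nd (nat_lit 78) (nat_lit 0) (nat_lit 0) (XT.lf (nat_lit 0) (nat_lit 158248051481) (nat_lit 76) (nat_lit 74397659017) (nat_lit 76) (nat_lit 74289415364) (nat_lit 1) (nat_lit 4) (nat_lit 2) (nat_lit 5) (nat_lit 2) (nat_lit 4) (nat_lit 483) (nat_lit 361) (nat_lit 356)) (XT.lf (nat_lit 0) (nat_lit 180660827715) (nat_lit 76) (nat_lit 75288447185) (nat_lit 76) (nat_lit 75163119431) (nat_lit 1) (nat_lit 4) (nat_lit 2) (nat_lit 5) (nat_lit 2) (nat_lit 4) (nat_lit 484) (nat_lit 361) (nat_lit 355)))) (XT.nd (nat_lit 78) (nat_lit 0) (nat_lit 0) (XT.lf (nat_lit 0) (nat_lit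 204456829078) (nat_lit 76) (nat_lit 76462012522) (nat_lit 76) (nat_lit 76320866156) (nat_lit 1) (nat_lit 4) (nat_lit 2) (nat_lit 5) (nat_lit 2) (nat_lit 4) (nat_lit 485) (nat_lit 361) (nat_lit 354)) (XT.nd (nat_lit 78) (nat_lit 0) (nat_lit 0) (XT.lf (nat_lit 0) (nat_lit 229777068912) (nat_lit 76) (nat_lit 77925309488) (nat_lit 76) (nat_lit 77769516258) (nat_lit 1) (nat_lit 4) (nat_lit 2) (nat_lit 5) (nat_lit 2) (nat_lit 4) (nat_lit 486) (nat_lit 361) (nat_lit 353)) (XT.lf (nat_lit 0) (nat_lit 256771593082) (nat_lit 76) (nat_lit 79687009472) (nat_lit 76) (nat_lit 79517654331) (nat_lit 1) (nat_lit 4) (nat_lit 2) (nat_lit 5) (nat_lit 2) (nat_lit 4) (nat_lit 487) (nat_lit 361) (nat_lit 352))))) (XT.nd (nat_lit 234) (nat_lit 0) (nat_lit 0) (XT.nd (nat_lit 78) (nat_lit 0) (nat_lit 0) (XT.lf (nat_lit 0) (nat_lit 285600369139) (nat_lit 76) (nat_lit 81757552177) (nat_lit 76) (nat_lit 81575639713)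 (nat_lit 1) (nat_lit 4) (nat_lit 2) (nat_lit 5) (nat_lit 2) (nat_lit 4) (nat_lit 488) (nat_lit 361) (nat_lit 351)) (XT.nd (nat_lit 78) (nat_lit 0) (nat_lit 0) (XT.lf (nat_lit 0) (nat_lit 316434234275) (nat_lit 76) (nat_lit 84149207488) (nat_lit 76) (nat_lit 83955667871) (nat_lit 1) (nat_lit 4) (nat_lit 2) (nat_lit 5) (nat_lit 2) (nat_lit 4) (nat_lit 489) (nat_lit 361) (nat_lit 350)) (XT.lf (nat_lit 0) (nat_lit 349455907689) (nat_lit 76) (nat_lit 86876148175) (nat_lit 76) (nat_lit 86671842677) (nat_lit 1) (nat_lit 4) (nat_lit 2) (nat_lit 5) (nat_lit 2) (nat_lit 4) (nat_lit 490) (nat_lit 361) (nat_lit 349)))) (XT.nd (nat_lit 156) (nat_lit 0) (nat_lit 0) (XT.nd (nat_lit 78) (nat_lit 0) (nat_lit 0) (XT.lf (nat_lit 0) (nat_lit 384861073373) (nat_lit 76) (nat_lit 89954533888) (nat_lit 76) (nat_lit 89740259980) (nat_lit 1) (nat_lit 4) (nat_lit 2) (nat_lit 5) (nat_lit 2) (nat_lit 4) (nat_lit 491)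 (nat_lit 361) (nat_lit 348)) (XT.lf (nat_lit 0) (nat_lit 422859539717) (nat_lit 76) (nat_lit 93402606912) (nat_lit 76) (nat_lit 93179102996) (nat_lit 1) (nat_lit 4) (nat_lit 2) (nat_lit 5) (nat_lit 2) (nat_lit 4) (nat_lit 492) (nat_lit 361) (nat_lit 347))) (XT.nd (nat_lit 78) (nat_lit 0) (nat_lit 0) (XT.lf (nat_lit 0) (nat_lit 463676482816) (nat_lit 76) (nat_lit 97240800272) (nat_lit 76) (nat_lit 97008750052) (nat_lit 1) (nat_lit 4) (nat_lit 2) (nat_lit 5) (nat_lit 2) (nat_lit 4) (nat_lit 493) (nat_lit 361) (nat_lit 346)) (XT.lf (nat_lit 0) (nat_lit 507553780852) (nat_lit 76) (nat_lit 101491858818) (nat_lit 76) (nat_lit 101251895354) (nat_lit 1) (nat_lit 4) (nat_lit 2) (nat_lit 5) (nat_lit 2) (nat_lit 4) (nat_lit 494) (nat_lit 361) (nat_lit 345))))))) (XT.nd (nat_lit 936) (nat_lit 0) (nat_lit 0) (XT.nd (nat_lit 468) (nat_lit 0) (nat_lit 0) (XT.nd (nat_lit 234) (nat_lit 0) (nat_lit 0) (XT.nd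 (nat_lit 78) (nat_lit 0) (nat_lit 0) (XT.lf (nat_lit 0) (nat_lit 554751447444) (nat_lit 76) (nat_lit 106180974008) (nat_lit 76) (nat_lit 105933683466) (nat_lit 1) (nat_lit 4) (nat_lit 2) (nat_lit 5) (nat_lit 2) (nat_lit 4) (nat_lit 495) (nat_lit 361) (nat_lit 344)) (XT.nd (nat_lit 78) (nat_lit 0) (nat_lit 0) (XT.lf (nat_lit 0) (nat_lit 605549172467) (nat_lit 76) (nat_lit 111335933191) (nat_lit 76) (nat_lit 111081858317) (nat_lit 1) (nat_lit 4) (nat_lit 2) (nat_lit 5) (nat_lit 2) (nat_lit 4) (nat_lit 496) (nat_lit 361) (nat_lit 343)) (XT.lf (nat_lit 0) (nat_lit 660247979477) (nat_lit 76) (nat_lit 116987284274) (nat_lit 76) (nat_lit 116726927612) (nat_lit 1) (nat_lit 4) (nat_lit 2) (nat_lit 5) (nat_lit 2) (nat_lit 4) (nat_lit 497) (nat_lit 361) (nat_lit 342)))) (XT.nd (nat_lit 78) (nat_lit 0) (nat_lit 0) (XT.lf (nat_lit 0) (nat_lit 719172009552) (nat_lit 76) (nat_lit 123168516745) (nat_lit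 76) (nat_lit 122902343611) (nat_lit 1) (nat_lit 4) (nat_lit 2) (nat_lit 5) (nat_lit 2) (nat_lit 4) (nat_lit 498) (nat_lit 361) (nat_lit 341)) (XT.nd (nat_lit 78) (nat_lit 0) (nat_lit 0) (XT.lf (nat_lit 0) (nat_lit 782670442131) (nat_lit 76) (nat_lit 129916260128) (nat_lit 76) (nat_lit 129644701374) (nat_lit 1) (nat_lit 4) (nat_lit 2) (nat_lit 5) (nat_lit 2) (nat_lit 4) (nat_lit 499) (nat_lit 361) (nat_lit 340)) (XT.lf (nat_lit 0) (nat_lit 851119564220) (nat_lit 76) (nat_lit 137270501052) (nat_lit 76) (nat_lit 136993955612) (nat_lit 1) (nat_lit 4) (nat_lit 2) (nat_lit 5) (nat_lit 2) (nat_lit 4) (nat_lit 500) (nat_lit 361) (nat_lit 339))))) (XT.nd (nat_lit 234) (nat_lit 0) (nat_lit 0) (XT.nd (nat_lit 78) (nat_lit 0) (nat_lit 0) (XT.lf (nat_lit 0) (nat_lit 924925000248) (nat_lit 76) (nat_lit 145274820204) (nat_lit 76) (nat_lit 144993657461) (nat_lit 1) (nat_lit 4) (nat_lit 2) (nat_lit 5) (nat_lit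 2) (nat_lit 4) (nat_lit 501) (nat_lit 361) (nat_lit 338)) (XT.nd (nat_lit 78) (nat_lit 0) (nat_lit 0) (XT.lf (nat_lit 0) (nat_lit 1004524115760) (nat_lit 76) (nat_lit 153976650586) (nat_lit 76) (nat_lit 153691212563) (nat_lit 1) (nat_lit 4) (nat_lit 2) (nat_lit 5) (nat_lit 2) (nat_lit 4) (nat_lit 502) (nat_lit 361) (nat_lit 337)) (XT.lf (nat_lit 0) (nat_lit 1090388609220) (nat_lit 76) (nat_lit 163427558600) (nat_lit 76) (nat_lit 163138161985) (nat_lit 1) (nat_lit 4) (nat_lit 2) (nat_lit 5) (nat_lit 2) (nat_lit 4) (nat_lit 503) (nat_lit 361) (nat_lit 336)))) (XT.nd (nat_lit 78) (nat_lit 0) (nat_lit 0) (XT.lf (nat_lit 0) (nat_lit 1183027307255) (nat_lit 76) (nat_lit 173683549627) (nat_lit 76) (nat_lit 173390487649) (nat_lit 1) (nat_lit 4) (nat_lit 2) (nat_lit 5) (nat_lit 2) (nat_lit 4) (nat_lit 504) (nat_lit 361) (nat_lit 335)) (XT.nd (nat_lit 78) (nat_lit 0) (nat_lit 0) (XT.lf (nat_lit 0)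 (nat_lit 1282989179927) (nat_lit 76) (nat_lit 184805399911) (nat_lit 76) (nat_lit 184508944078) (nat_lit 1) (nat_lit 4) (nat_lit 2) (nat_lit 5) (nat_lit 2) (nat_lit 4) (nat_lit 505) (nat_lit 361) (nat_lit 334)) (XT.lf (nat_lit 0) (nat_lit 1390866593890) (nat_lit 76) (nat_lit 196859016711) (nat_lit 76) (nat_lit 196559418420) (nat_lit 1) (nat_lit 4) (nat_lit 2) (nat_lit 5) (nat_lit 2) (nat_lit 4) (nat_lit 506) (nat_lit 361) (nat_lit 333)))))) (XT.nd (nat_lit 468) (nat_lit 0) (nat_lit 0) (XT.nd (nat_lit 234) (nat_lit 0) (nat_lit 0) (XT.nd (nat_lit 78) (nat_lit 0) (nat_lit 0) (XT.lf (nat_lit 0) (nat_lit 1507298822707) (nat_lit 76) (nat_lit 209915828869) (nat_lit 76) (nat_lit 209613320894) (nat_lit 1) (nat_lit 4) (nat_lit 2) (nat_lit 5) (nat_lit 2) (nat_lit 4) (nat_lit 507) (nat_lit 361) (nat_lit 332)) (XT.nd (nat_lit 78) (nat_lit 0) (nat_lit 0) (XT.lf (nat_lit 0) (nat_lit 1632975835143) (nat_lit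 76) (nat_lit 224053210086) (nat_lit 76) (nat_lit 223748007960) (nat_lit 1) (nat_lit 4) (nat_lit 2) (nat_lit 5) (nat_lit 2) (nat_lit 4) (nat_lit 508) (nat_lit 361) (nat_lit 331)) (XT.lf (nat_lit 0) (nat_lit 1768642383863) (nat_lit 76) (nat_lit 239354937436) (nat_lit 76) (nat_lit 239047240725) (nat_lit 1) (nat_lit 4) (nat_lit 2) (nat_lit 5) (nat_lit 2) (nat_lit 4) (nat_lit 509) (nat_lit 361) (nat_lit 330)))) (XT.nd (nat_lit 78) (nat_lit 0) (nat_lit 0) (XT.lf (nat_lit 0) (nat_lit 1915102418785) (nat_lit 76) (nat_lit 255911687822) (nat_lit 76) (nat_lit 255601681310) (nat_lit 1) (nat_lit 4) (nat_lit 2) (nat_lit 5) (nat_lit 2) (nat_lit 4) (nat_lit 510) (nat_lit 361) (nat_lit 329)) (XT.nd (nat_lit 78) (nat_lit 0) (nat_lit 0) (XT.lf (nat_lit 0) (nat_lit 2073223851228) (nat_lit 76) (nat_lit 273821575320) (nat_lit 76) (nat_lit 273509430104) (nat_lit 1) (nat_lit 4) (nat_lit 2) (nat_lit 5) (nat_lit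 2) (nat_lit 4) (nat_lit 511) (nat_lit 361) (nat_lit 328)) (XT.lf (nat_lit 0) (nat_lit 2243943697088) (nat_lit 76) (nat_lit 293190732597) (nat_lit 76) (nat_lit 292876607099) (nat_lit 1) (nat_lit 4) (nat_lit 2) (nat_lit 5) (nat_lit 2) (nat_lit 4) (nat_lit 512) (nat_lit 361) (nat_lit 327))))) (XT.nd (nat_lit 234) (nat_lit 0) (nat_lit 0) (XT.nd (nat_lit 78) (nat_lit 0) (nat_lit 0) (XT.lf (nat_lit 0) (nat_lit 2428273629525) (nat_lit 76) (nat_lit 314133939844) (nat_lit 76) (nat_lit 313817980752) (nat_lit 1) (nat_lit 4) (nat_lit 2) (nat_lit 5) (nat_lit 2) (nat_lit 4) (nat_lit 513) (nat_lit 361) (nat_lit 326)) (XT.nd (nat_lit 78) (nat_lit 0) (nat_lit 0) (XT.lf (nat_lit 0) (nat_lit 2627305974065) (nat_lit 76) (nat_lit 336775304956) (nat_lit 76) (nat_lit 336457648092) (nat_lit 1) (nat_lit 4) (nat_lit 2) (nat_lit 5) (nat_lit 2) (nat_lit 4) (nat_lit 514) (nat_lit 361) (nat_lit 325)) (XT.lf (nat_lit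 0) (nat_lit 2842220181639) (nat_lit 76) (nat_lit 361248998985) (nat_lit 76) (nat_lit 360929770109) (nat_lit 1) (nat_lit 4) (nat_lit 2) (nat_lit 5) (nat_lit 2) (nat_lit 4) (nat_lit 515) (nat_lit 361) (nat_lit 324)))) (XT.nd (nat_lit 156) (nat_lit 0) (nat_lit 0) (XT.nd (nat_lit 78) (nat_lit 0) (nat_lit 0) (XT.lf (nat_lit 0) (nat_lit 3074289817921) (nat_lit 76) (nat_lit 387700051230) (nat_lit 76) (nat_lit 387379366788) (nat_lit 1) (nat_lit 4) (nat_lit 2) (nat_lit 5) (nat_lit 2) (nat_lit 4) (nat_lit 516) (nat_lit 361) (nat_lit 323)) (XT.lf (nat_lit 0) (nat_lit 3324890110384) (nat_lit 76) (nat_lit 416285208666) (nat_lit 76) (nat_lit 415963176478) (nat_lit 1) (nat_lit 4) (nat_lit 2) (nat_lit 5) (nat_lit 2) (nat_lit 4) (nat_lit 517) (nat_lit 361) (nat_lit 322))) (XT.nd (nat_lit 78) (nat_lit 0) (nat_lit 0) (XT.lf (nat_lit 0) (nat_lit 3595506097801) (nat_lit 76) (nat_lit 447173864820) (nat_lit 76)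 (nat_lit 446850584718) (nat_lit 1) (nat_lit 4) (nat_lit 2) (nat_lit 5) (nat_lit 2) (nat_lit 4) (nat_lit 518) (nat_lit 361) (nat_lit 321)) (XT.lf (nat_lit 0) (nat_lit 3887741430465) (nat_lit 76) (nat_lit 480549063579) (nat_lit 76) (nat_lit 480224628001) (nat_lit 1) (nat_lit 4) (nat_lit 2) (nat_lit 5) (nat_lit 2) (nat_lit 4) (nat_lit 519) (nat_lit 361) (nat_lit 320))))))))
noncomputable def xc18 : XT := (XT.nd (nat_lit 59670) (nat_lit 0) (nat_lit 0) (XT.nd (nat_lit 936) (nat_lit 0) (nat_lit 0) (XT.nd (nat_lit 468) (nat_lit 0) (nat_lit 0) (XT.nd (nat_lit 234) (nat_lit 0) (nat_lit 0) (XT.nd (nat_lit 78) (nat_lit 0) (nat_lit 0) (XT.lf (nat_lit 0) (nat_lit 4203327873312) (nat_lit 76) (nat_lit 516608583899) (nat_lit 76) (nat_lit 516283078437) (nat_lit 1) (nat_lit 4) (nat_lit 2) (nat_lit 5) (nat_lit 2) (nat_lit 4) (nat_lit 520) (nat_lit 361) (nat_lit 319)) (XT.nd (nat_lit 78) (nat_lit 0) (nat_lit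 0) (XT.lf (nat_lit 0) (nat_lit 4544135568225) (nat_lit 76) (nat_lit 555566111826) (nat_lit 76) (nat_lit 555239615730) (nat_lit 1) (nat_lit 4) (nat_lit 2) (nat_lit 5) (nat_lit 2) (nat_lit 4) (nat_lit 521) (nat_lit 361) (nat_lit 318)) (XT.lf (nat_lit 0) (nat_lit 4912184116359) (nat_lit 76) (nat_lit 597652506786) (nat_lit 76) (nat_lit 597325093436) (nat_lit 1) (nat_lit 4) (nat_lit 2) (nat_lit 5) (nat_lit 2) (nat_lit 4) (nat_lit 522) (nat_lit 361) (nat_lit 317)))) (XT.nd (nat_lit 78) (nat_lit 0) (nat_lit 0) (XT.lf (nat_lit 0) (nat_lit 5309654546148) (nat_lit 76) (nat_lit 643117169637) (nat_lit 76) (nat_lit 642788906978) (nat_lit 1) (nat_lit 4) (nat_lit 2) (nat_lit 5) (nat_lit 2) (nat_lit 4) (nat_lit 523) (nat_lit 361) (nat_lit 316)) (XT.nd (nat_lit 78) (nat_lit 0) (nat_lit 0) (XT.lf (nat_lit 0) (nat_lit 5738902237916) (nat_lit 76) (nat_lit 692229520603) (nat_lit 76) (nat_lit 691900471548) (nat_lit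 1) (nat_lit 4) (nat_lit 2) (nat_lit 5) (nat_lit 2) (nat_lit 4) (nat_lit 524) (nat_lit 361) (nat_lit 315)) (XT.lf (nat_lit 0) (nat_lit 6202470881688) (nat_lit 76) (nat_lit 745280595839) (nat_lit 76) (nat_lit 744950818638) (nat_lit 1) (nat_lit 4) (nat_lit 2) (nat_lit 5) (nat_lit 2) (nat_lit 4) (nat_lit 525) (nat_lit 361) (nat_lit 314))))) (XT.nd (nat_lit 234) (nat_lit 0) (nat_lit 0) (XT.nd (nat_lit 78) (nat_lit 0) (nat_lit 0) (XT.lf (nat_lit 0) (nat_lit 6703107550909) (nat_lit 76) (nat_lit 802584772086) (nat_lit 76) (nat_lit 802254320676) (nat_lit 1) (nat_lit 4) (nat_lit 2) (nat_lit 5) (nat_lit 2) (nat_lit 4) (nat_lit 526) (nat_lit 361) (nat_lit 313)) (XT.nd (nat_lit 78) (nat_lit 0) (nat_lit 0) (XT.lf (nat_lit 0) (nat_lit 7243778981397) (nat_lit 76) (nat_lit 864481629649) (nat_lit 76) (nat_lit 864150553972) (nat_lit 1) (nat_lit 4) (nat_lit 2) (nat_lit 5) (nat_lit 2) (nat_lit 4) (nat_lit 527)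 (nat_lit 361) (nat_lit 312)) (XT.lf (nat_lit 0) (nat_lit 7827689151999) (nat_lit 76) (nat_lit 931337964719) (nat_lit 76) (nat_lit 931006311017) (nat_lit 1) (nat_lit 4) (nat_lit 2) (nat_lit 5) (nat_lit 2) (nat_lit 4) (nat_lit 528) (nat_lit 361) (nat_lit 311)))) (XT.nd (nat_lit 78) (nat_lit 0) (nat_lit 0) (XT.lf (nat_lit 0) (nat_lit 8458298271133) (nat_lit 76) (nat_lit 1003549962988) (nat_lit 76) (nat_lit 1003217774076) (nat_lit 1) (nat_lit 4) (nat_lit 2) (nat_lit 5) (nat_lit 2) (nat_lit 4) (nat_lit 529) (nat_lit 361) (nat_lit 310)) (XT.nd (nat_lit 78) (nat_lit 0) (nat_lit 0) (XT.lf (nat_lit 0) (nat_lit 9139343281728) (nat_lit 76) (nat_lit 1081545547406) (nat_lit 76) (nat_lit 1081212862931) (nat_lit 1) (nat_lit 4) (nat_lit 2) (nat_lit 5) (nat_lit 2) (nat_lit 4) (nat_lit 530) (nat_lit 361) (nat_lit 309)) (XT.lf (nat_lit 0) (nat_lit 9874860006069) (nat_lit 76) (nat_lit 1165786914030) (nat_lit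 76) (nat_lit 1165453770700) (nat_lit 1) (nat_lit 4) (nat_lit 2) (nat_lit 5) (nat_lit 2) (nat_lit 4) (nat_lit 531) (nat_lit 361) (nat_lit 308)))))) (XT.nd (nat_lit 58188) (nat_lit 0) (nat_lit 0) (XT.nd (nat_lit 234) (nat_lit 0) (nat_lit 0) (XT.nd (nat_lit 78) (nat_lit 0) (nat_lit 0) (XT.lf (nat_lit 0) (nat_lit 10669207061780) (nat_lit 76) (nat_lit 1256773270959) (nat_lit 76) (nat_lit 1256439702763) (nat_lit 1) (nat_lit 4) (nat_lit 2) (nat_lit 5) (nat_lit 2) (nat_lit 4) (nat_lit 532) (nat_lit 361) (nat_lit 307)) (XT.nd (nat_lit 78) (nat_lit 0) (nat_lit 0) (XT.lf (nat_lit 0) (nat_lit 11527091690675) (nat_lit 76) (nat_lit 1355043796604) (nat_lit 76) (nat_lit 1354709835014) (nat_lit 1) (nat_lit 4) (nat_lit 2) (nat_lit 5) (nat_lit 2) (nat_lit 4) (nat_lit 533) (nat_lit 361) (nat_lit 306)) (XT.lf (nat_lit 0) (nat_lit 12453597653516) (nat_lit 76) (nat_lit 1461180834821) (nat_lit 76) (nat_lit 1460846508976)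 (nat_lit 1) (nat_lit 4) (nat_lit 2) (nat_lit 5) (nat_lit 2) (nat_lit 4) (nat_lit 534) (nat_lit 361) (nat_lit 305)))) (XT.nd (nat_lit 78) (nat_lit 0) (nat_lit 0) (XT.lf (nat_lit 0) (nat_lit 13454215356010) (nat_lit 76) (nat_lit 1575813345835) (nat_lit 76) (nat_lit 1575478682719) (nat_lit 1) (nat_lit 4) (nat_lit 2) (nat_lit 5) (nat_lit 2) (nat_lit 4) (nat_lit 535) (nat_lit 361) (nat_lit 304)) (XT.nd (nat_lit 57798) (nat_lit 0) (nat_lit 0) (XT.lf (nat_lit 0) (nat_lit 14534874384541) (nat_lit 76) (nat_lit 1699620633417) (nat_lit 76) (nat_lit 1699285658011) (nat_lit 1) (nat_lit 4) (nat_lit 2) (nat_lit 5) (nat_lit 2) (nat_lit 4) (nat_lit 536) (nat_lit 361) (nat_lit 303)) (XT.lf (nat_lit 0) (nat_lit 15056582582) (nat_lit 76) (nat_lit 37847305706) (nat_lit 76) (nat_lit 37847305706) (nat_lit 1) (nat_lit 4) (nat_lit 2) (nat_lit 5) (nat_lit 2) (nat_lit 4) (nat_lit 476) (nat_lit 362) (nat_lit 362)))))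 (XT.nd (nat_lit 234) (nat_lit 0) (nat_lit 0) (XT.nd (nat_lit 78) (nat_lit 0) (nat_lit 0) (XT.lf (nat_lit 0) (nat_lit 45859545142) (nat_lit 76) (nat_lit 74836924319) (nat_lit 76) (nat_lit 74809813997) (nat_lit 1) (nat_lit 4) (nat_lit 2) (nat_lit 5) (nat_lit 2) (nat_lit 4) (nat_lit 477) (nat_lit 362) (nat_lit 361)) (XT.nd (nat_lit 78) (nat_lit 0) (nat_lit 0) (XT.lf (nat_lit 0) (nat_lit 62215339229) (nat_lit 76) (nat_lit 74246268573) (nat_lit 76) (nat_lit 74194056102) (nat_lit 1) (nat_lit 4) (nat_lit 2) (nat_lit 5) (nat_lit 2) (nat_lit 4) (nat_lit 478) (nat_lit 362) (nat_lit 360)) (XT.lf (nat_lit 0) (nat_lit 79277470650) (nat_lit 76) (nat_lit 73919143995) (nat_lit 76) (nat_lit 73843688793) (nat_lit 1) (nat_lit 4) (nat_lit 2) (nat_lit 5) (nat_lit 2) (nat_lit 4) (nat_lit 479) (nat_lit 362) (nat_lit 359)))) (XT.nd (nat_lit 156) (nat_lit 0) (nat_lit 0) (XT.nd (nat_lit 78) (nat_lit 0) (nat_lit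 0) (XT.lf (nat_lit 0) (nat_lit 97147048333) (nat_lit 76) (nat_lit 73853612068) (nat_lit 76) (nat_lit 73756635818) (nat_lit 1) (nat_lit 4) (nat_lit 2) (nat_lit 5) (nat_lit 2) (nat_lit 4) (nat_lit 480) (nat_lit 362) (nat_lit 358)) (XT.lf (nat_lit 0) (nat_lit 115929966069) (nat_lit 76) (nat_lit 74049284454) (nat_lit 76) (nat_lit 73932381308) (nat_lit 1) (nat_lit 4) (nat_lit 2) (nat_lit 5) (nat_lit 2) (nat_lit 4) (nat_lit 481) (nat_lit 362) (nat_lit 357))) (XT.nd (nat_lit 78) (nat_lit 0) (nat_lit 0) (XT.lf (nat_lit 0) (nat_lit 135737530040) (nat_lit 76) (nat_lit 74507320693) (nat_lit 76) (nat_lit 74371966719) (nat_lit 1) (nat_lit 4) (nat_lit 2) (nat_lit 5) (nat_lit 2) (nat_lit 4) (nat_lit 482) (nat_lit 362) (nat_lit 356)) (XT.lf (nat_lit 0) (nat_lit 156687118401) (nat_lit 76) (nat_lit 75230435076) (nat_lit 76) (nat_lit 75077997000) (nat_lit 1) (nat_lit 4) (nat_lit 2) (nat_lit 5) (nat_lit 2)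 (nat_lit 4) (nat_lit 483) (nat_lit 362) (nat_lit 355))))))) (XT.nd (nat_lit 936) (nat_lit 0) (nat_lit 0) (XT.nd (nat_lit 468) (nat_lit 0) (nat_lit 0) (XT.nd (nat_lit 234) (nat_lit 0) (nat_lit 0) (XT.nd (nat_lit 78) (nat_lit 0) (nat_lit 0) (XT.lf (nat_lit 0) (nat_lit 178902876861) (nat_lit 76) (nat_lit 76222912723) (nat_lit 76) (nat_lit 76054656035) (nat_lit 1) (nat_lit 4) (nat_lit 2) (nat_lit 5) (nat_lit 2) (nat_lit 4) (nat_lit 484) (nat_lit 362) (nat_lit 354)) (XT.nd (nat_lit 78) (nat_lit 0) (nat_lit 0) (XT.lf (nat_lit 0) (nat_lit 202516454359) (nat_lit 76) (nat_lit 77490634983) (nat_lit 76) (nat_lit 77307731432) (nat_lit 1) (nat_lit 4) (nat_lit 2) (nat_lit 5) (nat_lit 2) (nat_lit 4) (nat_lit 485) (nat_lit 362) (nat_lit 353)) (XT.lf (nat_lit 0) (nat_lit 227667783207) (nat_lit 76) (nat_lit 79041114286) (nat_lit 76) (nat_lit 78844648824) (nat_lit 1) (nat_lit 4) (nat_lit 2) (nat_lit 5) (nat_lit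 2) (nat_lit 4) (nat_lit 486) (nat_lit 362) (nat_lit 352)))) (XT.nd (nat_lit 78) (nat_lit 0) (nat_lit 0) (XT.lf (nat_lit 0) (nat_lit 254505908317) (nat_lit 76) (nat_lit 80883538656) (nat_lit 76) (nat_lit 80674515870) (nat_lit 1) (nat_lit 4) (nat_lit 2) (nat_lit 5) (nat_lit 2) (nat_lit 4) (nat_lit 487) (nat_lit 362) (nat_lit 351)) (XT.nd (nat_lit 78) (nat_lit 0) (nat_lit 0) (XT.lf (nat_lit 0) (nat_lit 283189870428) (nat_lit 76) (nat_lit 83028826164) (nat_lit 76) (nat_lit 82808176225) (nat_lit 1) (nat_lit 4) (nat_lit 2) (nat_lit 5) (nat_lit 2) (nat_lit 4) (nat_lit 488) (nat_lit 362) (nat_lit 350)) (XT.lf (nat_lit 0) (nat_lit 313889648577) (nat_lit 76) (nat_lit 85489689624) (nat_lit 76) (nat_lit 85258273804) (nat_lit 1) (nat_lit 4) (nat_lit 2) (nat_lit 5) (nat_lit 2) (nat_lit 4) (nat_lit 489) (nat_lit 362) (nat_lit 349))))) (XT.nd (nat_lit 234) (nat_lit 0) (nat_lit 0) (XT.nd (nat_lit 78) (nat_lit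 0) (nat_lit 0) (XT.lf (nat_lit 0) (nat_lit 346787167375) (nat_lit 76) (nat_lit 88280711932) (nat_lit 76) (nat_lit 88039327703) (nat_lit 1) (nat_lit 4) (nat_lit 2) (nat_lit 5) (nat_lit 2) (nat_lit 4) (nat_lit 490) (nat_lit 362) (nat_lit 348)) (XT.nd (nat_lit 78) (nat_lit 0) (nat_lit 0) (XT.lf (nat_lit 0) (nat_lit 382077375081) (nat_lit 76) (nat_lit 91418432478) (nat_lit 76) (nat_lit 91167818241) (nat_lit 1) (nat_lit 4) (nat_lit 2) (nat_lit 5) (nat_lit 2) (nat_lit 4) (nat_lit 491) (nat_lit 362) (nat_lit 347)) (XT.lf (nat_lit 0) (nat_lit 419969398851) (nat_lit 76) (nat_lit 94921445163) (nat_lit 76) (nat_lit 94662284622) (nat_lit 1) (nat_lit 4) (nat_lit 2) (nat_lit 5) (nat_lit 2) (nat_lit 4) (nat_lit 492) (nat_lit 362) (nat_lit 346)))) (XT.nd (nat_lit 78) (nat_lit 0) (nat_lit 0) (XT.lf (nat_lit 0) (nat_lit 460687784012) (nat_lit 76) (nat_lit 98810508579) (nat_lit 76) (nat_lit 98543434794) (nat_lit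 1) (nat_lit 4) (nat_lit 2) (nat_lit 5) (nat_lit 2) (nat_lit 4) (nat_lit 493) (nat_lit 362) (nat_lit 345)) (XT.nd (nat_lit 78) (nat_lit 0) (nat_lit 0) (XT.lf (nat_lit 0) (nat_lit 504473824699) (nat_lit 76) (nat_lit 103108669029) (nat_lit 76) (nat_lit 102834268166) (nat_lit 1) (nat_lit 4) (nat_lit 2) (nat_lit 5) (nat_lit 2) (nat_lit 4) (nat_lit 494) (nat_lit 362) (nat_lit 344)) (XT.lf (nat_lit 0) (nat_lit 551586993744) (nat_lit 76) (nat_lit 107841397094) (nat_lit 76) (nat_lit 107560211898) (nat_lit 1) (nat_lit 4) (nat_lit 2) (nat_lit 5) (nat_lit 2) (nat_lit 4) (nat_lit 495) (nat_lit 362) (nat_lit 343)))))) (XT.nd (nat_lit 468) (nat_lit 0) (nat_lit 0) (XT.nd (nat_lit 234) (nat_lit 0) (nat_lit 0) (XT.nd (nat_lit 78) (nat_lit 0) (nat_lit 0) (XT.lf (nat_lit 0) (nat_lit 602306480299) (nat_lit 76) (nat_lit 113036738568) (nat_lit 76) (nat_lit 112749271584) (nat_lit 1) (nat_lit 4) (nat_lit 2) (nat_lit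 5) (nat_lit 2) (nat_lit 4) (nat_lit 496) (nat_lit 362) (nat_lit 342)) (XT.nd (nat_lit 78) (nat_lit 0) (nat_lit 0) (XT.lf (nat_lit 0) (nat_lit 656932844282) (nat_lit 76) (nat_lit 118725480661) (nat_lit 76) (nat_lit 118432197206) (nat_lit 1) (nat_lit 4) (nat_lit 2) (nat_lit 5) (nat_lit 2) (nat_lit 4) (nat_lit 497) (nat_lit 362) (nat_lit 341)) (XT.lf (nat_lit 0) (nat_lit 715789797481) (nat_lit 76) (nat_lit 124941334437) (nat_lit 76) (nat_lit 124642665361) (nat_lit 1) (nat_lit 4) (nat_lit 2) (nat_lit 5) (nat_lit 2) (nat_lit 4) (nat_lit 498) (nat_lit 362) (nat_lit 340)))) (XT.nd (nat_lit 78) (nat_lit 0) (nat_lit 0) (XT.lf (nat_lit 0) (nat_lit 779226121841) (nat_lit 76) (nat_lit 131721134585) (nat_lit 76) (nat_lit 131417478822) (nat_lit 1) (nat_lit 4) (nat_lit 2) (nat_lit 5) (nat_lit 2) (nat_lit 4) (nat_lit 499) (nat_lit 362) (nat_lit 339)) (XT.nd (nat_lit 78) (nat_lit 0) (nat_lit 0) (XT.lf (nat_lit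 0) (nat_lit 847617736320) (nat_lit 76) (nat_lit 139105057698) (nat_lit 76) (nat_lit 138796784634) (nat_lit 1) (nat_lit 4) (nat_lit 2) (nat_lit 5) (nat_lit 2) (nat_lit 4) (nat_lit 500) (nat_lit 362) (nat_lit 338)) (XT.lf (nat_lit 0) (nat_lit 921369924560) (nat_lit 76) (nat_lit 147136860359) (nat_lit 76) (nat_lit 146824312014) (nat_lit 1) (nat_lit 4) (nat_lit 2) (nat_lit 5) (nat_lit 2) (nat_lit 4) (nat_lit 501) (nat_lit 362) (nat_lit 337))))) (XT.nd (nat_lit 234) (nat_lit 0) (nat_lit 0) (XT.nd (nat_lit 78) (nat_lit 0) (nat_lit 0) (XT.lf (nat_lit 0) (nat_lit 1000919736566) (nat_lit 76) (nat_lit 155864138434) (nat_lit 76) (nat_lit 155547631497) (nat_lit 1) (nat_lit 4) (nat_lit 2) (nat_lit 5) (nat_lit 2) (nat_lit 4) (nat_lit 502) (nat_lit 362) (nat_lit 336)) (XT.nd (nat_lit 78) (nat_lit 0) (nat_lit 0) (XT.lf (nat_lit 0) (nat_lit 1086738578631) (nat_lit 76) (nat_lit 165338609126) (nat_lit 76)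 (nat_lit 165018436827) (nat_lit 1) (nat_lit 4) (nat_lit 2) (nat_lit 5) (nat_lit 2) (nat_lit 4) (nat_lit 503) (nat_lit 362) (nat_lit 335)) (XT.lf (nat_lit 0) (nat_lit 1179335006855) (nat_lit 76) (nat_lit 175616417449) (nat_lit 76) (nat_lit 175292851294) (nat_lit 1) (nat_lit 4) (nat_lit 2) (nat_lit 5) (nat_lit 2) (nat_lit 4) (nat_lit 504) (nat_lit 362) (nat_lit 334)))) (XT.nd (nat_lit 156) (nat_lit 0) (nat_lit 0) (XT.nd (nat_lit 78) (nat_lit 0) (nat_lit 0) (XT.lf (nat_lit 0) (nat_lit 1279257740814) (nat_lit 76) (nat_lit 186758468931) (nat_lit 76) (nat_lit 186431760318) (nat_lit 1) (nat_lit 4) (nat_lit 2) (nat_lit 5) (nat_lit 2) (nat_lit 4) (nat_lit 505) (nat_lit 362) (nat_lit 333)) (XT.lf (nat_lit 0) (nat_lit 1387098915228) (nat_lit 76) (nat_lit 198830790546) (nat_lit 76) (nat_lit 198501172250) (nat_lit 1) (nat_lit 4) (nat_lit 2) (nat_lit 5) (nat_lit 2) (nat_lit 4) (nat_lit 506) (nat_lit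 362) (nat_lit 332))) (XT.nd (nat_lit 78) (nat_lit 0) (nat_lit 0) (XT.lf (nat_lit 0) (nat_lit 1503497588907) (nat_lit 76) (nat_lit 211904921976) (nat_lit 76) (nat_lit 211572609528) (nat_lit 1) (nat_lit 4) (nat_lit 2) (nat_lit 5) (nat_lit 2) (nat_lit 4) (nat_lit 507) (nat_lit 362) (nat_lit 331)) (XT.lf (nat_lit 0) (nat_lit 1629143531771) (nat_lit 76) (nat_lit 226058339557) (nat_lit 76) (nat_lit 225723532524) (nat_lit 1) (nat_lit 4) (nat_lit 2) (nat_lit 5) (nat_lit 2) (nat_lit 4) (nat_lit 508) (nat_lit 362) (nat_lit 330))))))))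
noncomputable def xc19 : XT := (XT.nd (nat_lit 1950) (nat_lit 0) (nat_lit 0) (XT.nd (nat_lit 936) (nat_lit 0) (nat_lit 0) (XT.nd (nat_lit 468) (nat_lit 0) (nat_lit 0) (XT.nd (nat_lit 234) (nat_lit 0) (nat_lit 0) (XT.nd (nat_lit 78) (nat_lit 0) (nat_lit 0) (XT.lf (nat_lit 0) (nat_lit 1764781312368) (nat_lit 76) (nat_lit 241374915391) (nat_lit 76) (nat_lit 241037798558) (nat_lit 1) (nat_lit 4) (nat_lit 2) (nat_lit 5) (nat_lit 2) (nat_lit 4) (nat_lit 509) (nat_lit 362) (nat_lit 329)) (XT.nd (nat_lit 78) (nat_lit 0) (nat_lit 0) (XT.lf (nat_lit 0) (nat_lit 1911214710140) (nat_lit 76) (nat_lit 257945414374) (nat_lit 76) (nat_lit 257606158836) (nat_lit 1) (nat_lit 4) (nat_lit 2) (nat_lit 5) (nat_lit 2) (nat_lit 4) (nat_lit 510) (nat_lit 362) (nat_lit 328)) (XT.lf (nat_lit 0) (nat_lit 2069311478555) (nat_lit 76) (nat_lit 275868032054) (nat_lit 76) (nat_lit 275526796235) (nat_lit 1) (nat_lit 4)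 (nat_lit 2) (nat_lit 5) (nat_lit 2) (nat_lit 4) (nat_lit 511) (nat_lit 362) (nat_lit 327)))) (XT.nd (nat_lit 78) (nat_lit 0) (nat_lit 0) (XT.lf (nat_lit 0) (nat_lit 2240008487351) (nat_lit 76) (nat_lit 295248976537) (nat_lit 76) (nat_lit 294905907123) (nat_lit 1) (nat_lit 4) (nat_lit 2) (nat_lit 5) (nat_lit 2) (nat_lit 4) (nat_lit 512) (nat_lit 362) (nat_lit 326)) (XT.nd (nat_lit 78) (nat_lit 0) (nat_lit 0) (XT.lf (nat_lit 0) (nat_lit 2424317274360) (nat_lit 76) (nat_lit 316203097863) (nat_lit 76) (nat_lit 315858330677) (nat_lit 1) (nat_lit 4) (nat_lit 2) (nat_lit 5) (nat_lit 2) (nat_lit 4) (nat_lit 513) (nat_lit 362) (nat_lit 325)) (XT.lf (nat_lit 0) (nat_lit 2623330039799) (nat_lit 76) (nat_lit 338854568604) (nat_lit 76) (nat_lit 338508229407) (nat_lit 1) (nat_lit 4) (nat_lit 2) (nat_lit 5) (nat_lit 2) (nat_lit 4) (nat_lit 514) (nat_lit 362) (nat_lit 324))))) (XT.nd (nat_lit 234) (nat_lit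 0) (nat_lit 0) (XT.nd (nat_lit 78) (nat_lit 0) (nat_lit 0) (XT.lf (nat_lit 0) (nat_lit 2838226118576) (nat_lit 76) (nat_lit 363337619697) (nat_lit 76) (nat_lit 362989824934) (nat_lit 1) (nat_lit 4) (nat_lit 2) (nat_lit 5) (nat_lit 2) (nat_lit 4) (nat_lit 515) (nat_lit 362) (nat_lit 323)) (XT.nd (nat_lit 78) (nat_lit 0) (nat_lit 0) (XT.lf (nat_lit 0) (nat_lit 3070278968934) (nat_lit 76) (nat_lit 389797335890) (nat_lit 76) (nat_lit 389448193380) (nat_lit 1) (nat_lit 4) (nat_lit 2) (nat_lit 5) (nat_lit 2) (nat_lit 4) (nat_lit 516) (nat_lit 362) (nat_lit 322)) (XT.lf (nat_lit 0) (nat_lit 3320863718876) (nat_lit 76) (nat_lit 418390515501) (nat_lit 76) (nat_lit 418040125077) (nat_lit 1) (nat_lit 4) (nat_lit 2) (nat_lit 5) (nat_lit 2) (nat_lit 4) (nat_lit 517) (nat_lit 362) (nat_lit 321)))) (XT.nd (nat_lit 78) (nat_lit 0) (nat_lit 0) (XT.lf (nat_lit 0) (nat_lit 3591465315069) (nat_lit 76) (nat_lit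 449286599593) (nat_lit 76) (nat_lit 448935053694) (nat_lit 1) (nat_lit 4) (nat_lit 2) (nat_lit 5) (nat_lit 2) (nat_lit 4) (nat_lit 518) (nat_lit 362) (nat_lit 320)) (XT.nd (nat_lit 78) (nat_lit 0) (nat_lit 0) (XT.lf (nat_lit 0) (nat_lit 3883687322526) (nat_lit 76) (nat_lit 482668676073) (nat_lit 76) (nat_lit 482316060290) (nat_lit 1) (nat_lit 4) (nat_lit 2) (nat_lit 5) (nat_lit 2) (nat_lit 4) (nat_lit 519) (nat_lit 362) (nat_lit 319)) (XT.lf (nat_lit 0) (nat_lit 4199261427219) (nat_lit 76) (nat_lit 518734564654) (nat_lit 76) (nat_lit 518380958236) (nat_lit 1) (nat_lit 4) (nat_lit 2) (nat_lit 5) (nat_lit 2) (nat_lit 4) (nat_lit 520) (nat_lit 362) (nat_lit 318)))))) (XT.nd (nat_lit 468) (nat_lit 0) (nat_lit 0) (XT.nd (nat_lit 234) (nat_lit 0) (nat_lit 0) (XT.nd (nat_lit 78) (nat_lit 0) (nat_lit 0) (XT.lf (nat_lit 0) (nat_lit 4540057697914) (nat_lit 76) (nat_lit 557697989119) (nat_lit 76)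 (nat_lit 557343465448) (nat_lit 1) (nat_lit 4) (nat_lit 2) (nat_lit 5) (nat_lit 2) (nat_lit 4) (nat_lit 521) (nat_lit 362) (nat_lit 317)) (XT.nd (nat_lit 78) (nat_lit 0) (nat_lit 0) (XT.lf (nat_lit 0) (nat_lit 4908095668070) (nat_lit 76) (nat_lit 599789843835) (nat_lit 76) (nat_lit 599434470856) (nat_lit 1) (nat_lit 4) (nat_lit 2) (nat_lit 5) (nat_lit 2) (nat_lit 4) (nat_lit 522) (nat_lit 362) (nat_lit 316)) (XT.lf (nat_lit 0) (nat_lit 5305556303433) (nat_lit 76) (nat_lit 645259562017) (nat_lit 76) (nat_lit 644903402640) (nat_lit 1) (nat_lit 4) (nat_lit 2) (nat_lit 5) (nat_lit 2) (nat_lit 4) (nat_lit 523) (nat_lit 362) (nat_lit 315)))) (XT.nd (nat_lit 78) (nat_lit 0) (nat_lit 0) (XT.lf (nat_lit 0) (nat_lit 5734794926289) (nat_lit 76) (nat_lit 694376593845) (nat_lit 76) (nat_lit 694019706322) (nat_lit 1) (nat_lit 4) (nat_lit 2) (nat_lit 5) (nat_lit 2) (nat_lit 4) (nat_lit 524) (nat_lit 362)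 (nat_lit 314)) (XT.nd (nat_lit 78) (nat_lit 0) (nat_lit 0) (XT.lf (nat_lit 0) (nat_lit 6198355172921) (nat_lit 76) (nat_lit 747432003212) (nat_lit 76) (nat_lit 747074441480) (nat_lit 1) (nat_lit 4) (nat_lit 2) (nat_lit 5) (nat_lit 2) (nat_lit 4) (nat_lit 525) (nat_lit 362) (nat_lit 313)) (XT.lf (nat_lit 0) (nat_lit 6698984067012) (nat_lit 76) (nat_lit 804740192543) (nat_lit 76) (nat_lit 804382006545) (nat_lit 1) (nat_lit 4) (nat_lit 2) (nat_lit 5) (nat_lit 2) (nat_lit 4) (nat_lit 526) (nat_lit 362) (nat_lit 312))))) (XT.nd (nat_lit 234) (nat_lit 0) (nat_lit 0) (XT.nd (nat_lit 78) (nat_lit 0) (nat_lit 0) (XT.lf (nat_lit 0) (nat_lit 7239648298305) (nat_lit 76) (nat_lit 866640765925) (nat_lit 76) (nat_lit 866282001901) (nat_lit 1) (nat_lit 4) (nat_lit 2) (nat_lit 5) (nat_lit 2) (nat_lit 4) (nat_lit 527) (nat_lit 362) (nat_lit 311)) (XT.nd (nat_lit 78) (nat_lit 0) (nat_lit 0) (XT.lf (nat_lit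 0) (nat_lit 7823551802986) (nat_lit 76) (nat_lit 933500541568) (nat_lit 76) (nat_lit 933141242336) (nat_lit 1) (nat_lit 4) (nat_lit 2) (nat_lit 5) (nat_lit 2) (nat_lit 4) (nat_lit 528) (nat_lit 362) (nat_lit 310)) (XT.lf (nat_lit 0) (nat_lit 8454154749971) (nat_lit 76) (nat_lit 1005715725552) (nat_lit 76) (nat_lit 1005355930756) (nat_lit 1) (nat_lit 4) (nat_lit 2) (nat_lit 5) (nat_lit 2) (nat_lit 4) (nat_lit 529) (nat_lit 362) (nat_lit 309)))) (XT.nd (nat_lit 156) (nat_lit 0) (nat_lit 0) (XT.nd (nat_lit 78) (nat_lit 0) (nat_lit 0) (XT.lf (nat_lit 0) (nat_lit 9135194045613) (nat_lit 76) (nat_lit 1083714259708) (nat_lit 76) (nat_lit 1083354006056) (nat_lit 1) (nat_lit 4) (nat_lit 2) (nat_lit 5) (nat_lit 2) (nat_lit 4) (nat_lit 530) (nat_lit 362) (nat_lit 308)) (XT.lf (nat_lit 0) (nat_lit 9870705478330) (nat_lit 76) (nat_lit 1167958357570) (nat_lit 76) (nat_lit 1167597679052) (nat_lit 1) (nat_lit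 4) (nat_lit 2) (nat_lit 5) (nat_lit 2) (nat_lit 4) (nat_lit 531) (nat_lit 362) (nat_lit 307))) (XT.nd (nat_lit 78) (nat_lit 0) (nat_lit 0) (XT.lf (nat_lit 0) (nat_lit 10665047634391) (nat_lit 76) (nat_lit 1258947243422) (nat_lit 76) (nat_lit 1258586171511) (nat_lit 1) (nat_lit 4) (nat_lit 2) (nat_lit 5) (nat_lit 2) (nat_lit 4) (nat_lit 532) (nat_lit 362) (nat_lit 306)) (XT.lf (nat_lit 0) (nat_lit 11522927726571) (nat_lit 76) (nat_lit 1357220110663) (nat_lit 76) (nat_lit 1356858674498) (nat_lit 1) (nat_lit 4) (nat_lit 2) (nat_lit 5) (nat_lit 2) (nat_lit 4) (nat_lit 533) (nat_lit 362) (nat_lit 305))))))) (XT.nd (nat_lit 58500) (nat_lit 0) (nat_lit 0) (XT.nd (nat_lit 58032) (nat_lit 0) (nat_lit 0) (XT.nd (nat_lit 57798) (nat_lit 0) (nat_lit 0) (XT.nd (nat_lit 78) (nat_lit 0) (nat_lit 0) (XT.lf (nat_lit 0) (nat_lit 12449429488752) (nat_lit 76) (nat_lit 1463359317025) (nat_lit 76) (nat_lit 1462997543587)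 (nat_lit 1) (nat_lit 4) (nat_lit 2) (nat_lit 5) (nat_lit 2) (nat_lit 4) (nat_lit 534) (nat_lit 362) (nat_lit 304)) (XT.nd (nat_lit 78) (nat_lit 0) (nat_lit 0) (XT.lf (nat_lit 0) (nat_lit 13450043301745) (nat_lit 76) (nat_lit 1577993835580) (nat_lit 76) (nat_lit 1577631749853) (nat_lit 1) (nat_lit 4) (nat_lit 2) (nat_lit 5) (nat_lit 2) (nat_lit 4) (nat_lit 535) (nat_lit 362) (nat_lit 303)) (XT.lf (nat_lit 0) (nat_lit 14530698728886) (nat_lit 76) (nat_lit 1701802981997) (nat_lit 76) (nat_lit 1701440607113) (nat_lit 1) (nat_lit 4) (nat_lit 2) (nat_lit 5) (nat_lit 2) (nat_lit 4) (nat_lit 536) (nat_lit 362) (nat_lit 302)))) (XT.nd (nat_lit 78) (nat_lit 0) (nat_lit 0) (XT.lf (nat_lit 0) (nat_lit 221562272) (nat_lit 76) (nat_lit 39037040778) (nat_lit 76) (nat_lit 39037040778) (nat_lit 1) (nat_lit 4) (nat_lit 2) (nat_lit 5) (nat_lit 2) (nat_lit 4) (nat_lit 474) (nat_lit 363) (nat_lit 363)) (XT.nd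 (nat_lit 78) (nat_lit 0) (nat_lit 0) (XT.lf (nat_lit 0) (nat_lit 14882887414) (nat_lit 76) (nat_lit 76853691594) (nat_lit 76) (nat_lit 76824412447) (nat_lit 1) (nat_lit 4) (nat_lit 2) (nat_lit 5) (nat_lit 2) (nat_lit 4) (nat_lit 475) (nat_lit 363) (nat_lit 362)) (XT.lf (nat_lit 0) (nat_lit 29775511322) (nat_lit 76) (nat_lit 75898168456) (nat_lit 76) (nat_lit 75841778987) (nat_lit 1) (nat_lit 4) (nat_lit 2) (nat_lit 5) (nat_lit 2) (nat_lit 4) (nat_lit 476) (nat_lit 363) (nat_lit 361))))) (XT.nd (nat_lit 234) (nat_lit 0) (nat_lit 0) (XT.nd (nat_lit 78) (nat_lit 0) (nat_lit 0) (XT.lf (nat_lit 0) (nat_lit 45209248853) (nat_lit 76) (nat_lit 75201849783) (nat_lit 76) (nat_lit 75120358164) (nat_lit 1) (nat_lit 4) (nat_lit 2) (nat_lit 5) (nat_lit 2) (nat_lit 4) (nat_lit 477) (nat_lit 363) (nat_lit 360)) (XT.nd (nat_lit 78) (nat_lit 0) (nat_lit 0) (XT.lf (nat_lit 0) (nat_lit 61275559194) (nat_lit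 76) (nat_lit 74760609242) (nat_lit 76) (nat_lit 74655874893) (nat_lit 1) (nat_lit 4) (nat_lit 2) (nat_lit 5) (nat_lit 2) (nat_lit 4) (nat_lit 478) (nat_lit 363) (nat_lit 359)) (XT.lf (nat_lit 0) (nat_lit 78069650109) (nat_lit 76) (nat_lit 74571832076) (nat_lit 76) (nat_lit 74445576679) (nat_lit 1) (nat_lit 4) (nat_lit 2) (nat_lit 5) (nat_lit 2) (nat_lit 4) (nat_lit 479) (nat_lit 363) (nat_lit 358)))) (XT.nd (nat_lit 78) (nat_lit 0) (nat_lit 0) (XT.lf (nat_lit 0) (nat_lit 95691042137) (nat_lit 76) (nat_lit 74634399604) (nat_lit 76) (nat_lit 74488217312) (nat_lit 1) (nat_lit 4) (nat_lit 2) (nat_lit 5) (nat_lit 2) (nat_lit 4) (nat_lit 480) (nat_lit 363) (nat_lit 357)) (XT.nd (nat_lit 78) (nat_lit 0) (nat_lit 0) (XT.lf (nat_lit 0) (nat_lit 114244158343) (nat_lit 76) (nat_lit 74948682598) (nat_lit 76) (nat_lit 74784049476) (nat_lit 1) (nat_lit 4) (nat_lit 2) (nat_lit 5) (nat_lit 2) (nat_lit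 4) (nat_lit 481) (nat_lit 363) (nat_lit 356)) (XT.lf (nat_lit 0) (nat_lit 133838943117) (nat_lit 76) (nat_lit 75516543474) (nat_lit 76) (nat_lit 75334826250) (nat_lit 1) (nat_lit 4) (nat_lit 2) (nat_lit 5) (nat_lit 2) (nat_lit 4) (nat_lit 482) (nat_lit 363) (nat_lit 355)))))) (XT.nd (nat_lit 468) (nat_lit 0) (nat_lit 0) (XT.nd (nat_lit 234) (nat_lit 0) (nat_lit 0) (XT.nd (nat_lit 78) (nat_lit 0) (nat_lit 0) (XT.lf (nat_lit 0) (nat_lit 154591513704) (nat_lit 76) (nat_lit 76341347334) (nat_lit 76) (nat_lit 76143811498) (nat_lit 1) (nat_lit 4) (nat_lit 2) (nat_lit 5) (nat_lit 2) (nat_lit 4) (nat_lit 483) (nat_lit 363) (nat_lit 354)) (XT.nd (nat_lit 78) (nat_lit 0) (nat_lit 0) (XT.lf (nat_lit 0) (nat_lit 176624848300) (nat_lit 76) (nat_lit 77427981905) (nat_lit 76) (nat_lit 77215799206) (nat_lit 1) (nat_lit 4) (nat_lit 2) (nat_lit 5) (nat_lit 2) (nat_lit 4) (nat_lit 484) (nat_lit 363) (nat_lit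 353)) (XT.lf (nat_lit 0) (nat_lit 200069514813) (nat_lit 76) (nat_lit 78782886502) (nat_lit 76) (nat_lit 78557141893) (nat_lit 1) (nat_lit 4) (nat_lit 2) (nat_lit 5) (nat_lit 2) (nat_lit 4) (nat_lit 485) (nat_lit 363) (nat_lit 352)))) (XT.nd (nat_lit 78) (nat_lit 0) (nat_lit 0) (XT.lf (nat_lit 0) (nat_lit 225064444600) (nat_lit 76) (nat_lit 80414090191) (nat_lit 76) (nat_lit 80175788258) (nat_lit 1) (nat_lit 4) (nat_lit 2) (nat_lit 5) (nat_lit 2) (nat_lit 4) (nat_lit 486) (nat_lit 363) (nat_lit 351)) (XT.nd (nat_lit 78) (nat_lit 0) (nat_lit 0) (XT.lf (nat_lit 0) (nat_lit 251757755764) (nat_lit 76) (nat_lit 82331259363) (nat_lit 76) (nat_lit 82081330278) (nat_lit 1) (nat_lit 4) (nat_lit 2) (nat_lit 5) (nat_lit 2) (nat_lit 4) (nat_lit 487) (nat_lit 363) (nat_lit 350)) (XT.lf (nat_lit 0) (nat_lit 280307630889) (nat_lit 76) (nat_lit 84545755021) (nat_lit 76) (nat_lit 84285060054) (nat_lit 1)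 (nat_lit 4) (nat_lit 2) (nat_lit 5) (nat_lit 2) (nat_lit 4) (nat_lit 488) (nat_lit 363) (nat_lit 349))))) (XT.nd (nat_lit 234) (nat_lit 0) (nat_lit 0) (XT.nd (nat_lit 78) (nat_lit 0) (nat_lit 0) (XT.lf (nat_lit 0) (nat_lit 310883254421) (nat_lit 76) (nat_lit 87070700102) (nat_lit 76) (nat_lit 86800036726) (nat_lit 1) (nat_lit 4) (nat_lit 2) (nat_lit 5) (nat_lit 2) (nat_lit 4) (nat_lit 489) (nat_lit 363) (nat_lit 348)) (XT.nd (nat_lit 78) (nat_lit 0) (nat_lit 0) (XT.lf (nat_lit 0) (nat_lit 343665815240) (nat_lit 76) (nat_lit 89921057243) (nat_lit 76) (nat_lit 89641163859) (nat_lit 1) (nat_lit 4) (nat_lit 2) (nat_lit 5) (nat_lit 2) (nat_lit 4) (nat_lit 490) (nat_lit 363) (nat_lit 347)) (XT.lf (nat_lit 0) (nat_lit 378849580373) (nat_lit 76) (nat_lit 93113717450) (nat_lit 76) (nat_lit 92825277762) (nat_lit 1) (nat_lit 4) (nat_lit 2) (nat_lit 5) (nat_lit 2) (nat_lit 4) (nat_lit 491) (nat_lit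 363) (nat_lit 346)))) (XT.nd (nat_lit 156) (nat_lit 0) (nat_lit 0) (XT.nd (nat_lit 78) (nat_lit 0) (nat_lit 0) (XT.lf (nat_lit 0) (nat_lit 416643046205) (nat_lit 76) (nat_lit 96667600191) (nat_lit 76) (nat_lit 96371247258) (nat_lit 1) (nat_lit 4) (nat_lit 2) (nat_lit 5) (nat_lit 2) (nat_lit 4) (nat_lit 492) (nat_lit 363) (nat_lit 345)) (XT.lf (nat_lit 0) (nat_lit 457270174017) (nat_lit 76) (nat_lit 100603765512) (nat_lit 76) (nat_lit 100300085501) (nat_lit 1) (nat_lit 4) (nat_lit 2) (nat_lit 5) (nat_lit 2) (nat_lit 4) (nat_lit 493) (nat_lit 363) (nat_lit 344))) (XT.nd (nat_lit 78) (nat_lit 0) (nat_lit 0) (XT.lf (nat_lit 0) (nat_lit 500971717157) (nat_lit 76) (nat_lit 104945538836) (nat_lit 76) (nat_lit 104635074493) (nat_lit 1) (nat_lit 4) (nat_lit 2) (nat_lit 5) (nat_lit 2) (nat_lit 4) (nat_lit 494) (nat_lit 363) (nat_lit 343)) (XT.lf (nat_lit 0) (nat_lit 548006647734) (nat_lit 76) (nat_lit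 109718649191) (nat_lit 76) (nat_lit 109401903060) (nat_lit 1) (nat_lit 4) (nat_lit 2) (nat_lit 5) (nat_lit 2) (nat_lit 4) (nat_lit 495) (nat_lit 363) (nat_lit 342))))))))
noncomputable def xc20 : XT := (XT.nd (nat_lit 1950) (nat_lit 0) (nat_lit 0) (XT.nd (nat_lit 936) (nat_lit 0) (nat_lit 0) (XT.nd (nat_lit 468) (nat_lit 0) (nat_lit 0) (XT.nd (nat_lit 234) (nat_lit 0) (nat_lit 0) (XT.nd (nat_lit 78) (nat_lit 0) (nat_lit 0) (XT.lf (nat_lit 0) (nat_lit 598653691262) (nat_lit 76) (nat_lit 114951381675) (nat_lit 76) (nat_lit 114628819073) (nat_lit 1) (nat_lit 4) (nat_lit 2) (nat_lit 5) (nat_lit 2) (nat_lit 4) (nat_lit 496) (nat_lit 363) (nat_lit 341)) (XT.nd (nat_lit 78) (nat_lit 0) (nat_lit 0) (XT.lf (nat_lit 0) (nat_lit 653212978369) (nat_lit 76) (nat_lit 120674745074) (nat_lit 76) (nat_lit 120346796850) (nat_lit 1) (nat_lit 4) (nat_lit 2) (nat_lit 5) (nat_lit 2) (nat_lit 4) (nat_lit 497)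 (nat_lit 363) (nat_lit 340)) (XT.lf (nat_lit 0) (nat_lit 712007823349) (nat_lit 76) (nat_lit 126922655614) (nat_lit 76) (nat_lit 126589720704) (nat_lit 1) (nat_lit 4) (nat_lit 2) (nat_lit 5) (nat_lit 2) (nat_lit 4) (nat_lit 498) (nat_lit 363) (nat_lit 339)))) (XT.nd (nat_lit 78) (nat_lit 0) (nat_lit 0) (XT.lf (nat_lit 0) (nat_lit 775386640098) (nat_lit 76) (nat_lit 133732137951) (nat_lit 76) (nat_lit 133394585739) (nat_lit 1) (nat_lit 4) (nat_lit 2) (nat_lit 5) (nat_lit 2) (nat_lit 4) (nat_lit 499) (nat_lit 363) (nat_lit 338)) (XT.nd (nat_lit 78) (nat_lit 0) (nat_lit 0) (XT.lf (nat_lit 0) (nat_lit 843725006790) (nat_lit 76) (nat_lit 141143544573) (nat_lit 76) (nat_lit 140801717082) (nat_lit 1) (nat_lit 4) (nat_lit 2) (nat_lit 5) (nat_lit 2) (nat_lit 4) (nat_lit 500) (nat_lit 363) (nat_lit 337)) (XT.lf (nat_lit 0) (nat_lit 917427891524) (nat_lit 76) (nat_lit 149200794927) (nat_lit 76) (nat_lit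 148855008843) (nat_lit 1) (nat_lit 4) (nat_lit 2) (nat_lit 5) (nat_lit 2) (nat_lit 4) (nat_lit 501) (nat_lit 363) (nat_lit 336))))) (XT.nd (nat_lit 234) (nat_lit 0) (nat_lit 0) (XT.nd (nat_lit 78) (nat_lit 0) (nat_lit 0) (XT.lf (nat_lit 0) (nat_lit 996932052135) (nat_lit 76) (nat_lit 157951635681) (nat_lit 76) (nat_lit 157602184233) (nat_lit 1) (nat_lit 4) (nat_lit 2) (nat_lit 5) (nat_lit 2) (nat_lit 4) (nat_lit 502) (nat_lit 363) (nat_lit 335)) (XT.nd (nat_lit 78) (nat_lit 0) (nat_lit 0) (XT.lf (nat_lit 0) (nat_lit 1082708624389) (nat_lit 76) (nat_lit 167447923669) (nat_lit 76) (nat_lit 167095078367) (nat_lit 1) (nat_lit 4) (nat_lit 2) (nat_lit 5) (nat_lit 2) (nat_lit 4) (nat_lit 503) (nat_lit 363) (nat_lit 334)) (XT.lf (nat_lit 0) (nat_lit 1175265913901) (nat_lit 76) (nat_lit 177745933190) (nat_lit 76) (nat_lit 177389945430) (nat_lit 1) (nat_lit 4) (nat_lit 2) (nat_lit 5) (nat_lit 2)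 (nat_lit 4) (nat_lit 504) (nat_lit 363) (nat_lit 333)))) (XT.nd (nat_lit 78) (nat_lit 0) (nat_lit 0) (XT.lf (nat_lit 0) (nat_lit 1275152408311) (nat_lit 76) (nat_lit 188906689487) (nat_lit 76) (nat_lit 188547792043) (nat_lit 1) (nat_lit 4) (nat_lit 2) (nat_lit 5) (nat_lit 2) (nat_lit 4) (nat_lit 505) (nat_lit 363) (nat_lit 332)) (XT.nd (nat_lit 78) (nat_lit 0) (nat_lit 0) (XT.lf (nat_lit 0) (nat_lit 1382960027586) (nat_lit 76) (nat_lit 200996330374) (nat_lit 76) (nat_lit 200634738779) (nat_lit 1) (nat_lit 4) (nat_lit 2) (nat_lit 5) (nat_lit 2) (nat_lit 4) (nat_lit 506) (nat_lit 363) (nat_lit 331)) (XT.lf (nat_lit 0) (nat_lit 1499327631693) (nat_lit 76) (nat_lit 214086498168) (nat_lit 76) (nat_lit 213722411988) (nat_lit 1) (nat_lit 4) (nat_lit 2) (nat_lit 5) (nat_lit 2) (nat_lit 4) (nat_lit 507) (nat_lit 363) (nat_lit 330)))))) (XT.nd (nat_lit 468) (nat_lit 0) (nat_lit 0) (XT.nd (nat_lit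 234) (nat_lit 0) (nat_lit 0) (XT.nd (nat_lit 78) (nat_lit 0) (nat_lit 0) (XT.lf (nat_lit 0) (nat_lit 1624944806434) (nat_lit 76) (nat_lit 228254764233) (nat_lit 76) (nat_lit 227888368252) (nat_lit 1) (nat_lit 4) (nat_lit 2) (nat_lit 5) (nat_lit 2) (nat_lit 4) (nat_lit 508) (nat_lit 363) (nat_lit 329)) (XT.nd (nat_lit 78) (nat_lit 0) (nat_lit 0) (XT.lf (nat_lit 0) (nat_lit 1760555949880) (nat_lit 76) (nat_lit 243585088664) (nat_lit 76) (nat_lit 243216553979) (nat_lit 1) (nat_lit 4) (nat_lit 2) (nat_lit 5) (nat_lit 2) (nat_lit 4) (nat_lit 509) (nat_lit 363) (nat_lit 328)) (XT.lf (nat_lit 0) (nat_lit 1906964683624) (nat_lit 76) (nat_lit 260168317829) (nat_lit 76) (nat_lit 259797802862) (nat_lit 1) (nat_lit 4) (nat_lit 2) (nat_lit 5) (nat_lit 2) (nat_lit 4) (nat_lit 510) (nat_lit 363) (nat_lit 327)))) (XT.nd (nat_lit 78) (nat_lit 0) (nat_lit 0) (XT.lf (nat_lit 0) (nat_lit 2065038614976) (nat_lit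 76) (nat_lit 278102722715) (nat_lit 76) (nat_lit 277730374154) (nat_lit 1) (nat_lit 4) (nat_lit 2) (nat_lit 5) (nat_lit 2) (nat_lit 4) (nat_lit 511) (nat_lit 363) (nat_lit 326)) (XT.nd (nat_lit 78) (nat_lit 0) (nat_lit 0) (XT.lf (nat_lit 0) (nat_lit 2235714478344) (nat_lit 76) (nat_lit 297494581277) (nat_lit 76) (nat_lit 297120534944) (nat_lit 1) (nat_lit 4) (nat_lit 2) (nat_lit 5) (nat_lit 2) (nat_lit 4) (nat_lit 512) (nat_lit 363) (nat_lit 325)) (XT.lf (nat_lit 0) (nat_lit 2420003686251) (nat_lit 76) (nat_lit 318458808232) (nat_lit 76) (nat_lit 318083189888) (nat_lit 1) (nat_lit 4) (nat_lit 2) (nat_lit 5) (nat_lit 2) (nat_lit 4) (nat_lit 513) (nat_lit 363) (nat_lit 324))))) (XT.nd (nat_lit 234) (nat_lit 0) (nat_lit 0) (XT.nd (nat_lit 78) (nat_lit 0) (nat_lit 0) (XT.lf (nat_lit 0) (nat_lit 2618998322893) (nat_lit 76) (nat_lit 341119636037) (nat_lit 76) (nat_lit 340742562126) (nat_lit 1)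 (nat_lit 4) (nat_lit 2) (nat_lit 5) (nat_lit 2) (nat_lit 4) (nat_lit 514) (nat_lit 363) (nat_lit 323)) (XT.nd (nat_lit 78) (nat_lit 0) (nat_lit 0) (XT.lf (nat_lit 0) (nat_lit 2833877615747) (nat_lit 76) (nat_lit 365611351079) (nat_lit 76) (nat_lit 365232929421) (nat_lit 1) (nat_lit 4) (nat_lit 2) (nat_lit 5) (nat_lit 2) (nat_lit 4) (nat_lit 515) (nat_lit 363) (nat_lit 322)) (XT.lf (nat_lit 0) (nat_lit 3065914923584) (nat_lit 76) (nat_lit 392079089445) (nat_lit 76) (nat_lit 391699419875) (nat_lit 1) (nat_lit 4) (nat_lit 2) (nat_lit 5) (nat_lit 2) (nat_lit 4) (nat_lit 516) (nat_lit 363) (nat_lit 321)))) (XT.nd (nat_lit 156) (nat_lit 0) (nat_lit 0) (XT.nd (nat_lit 78) (nat_lit 0) (nat_lit 0) (XT.lf (nat_lit 0) (nat_lit 3316485282302) (nat_lit 76) (nat_lit 420679696995) (nat_lit 76) (nat_lit 420298871949) (nat_lit 1) (nat_lit 4) (nat_lit 2) (nat_lit 5) (nat_lit 2) (nat_lit 4) (nat_lit 517)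 (nat_lit 363) (nat_lit 320)) (XT.lf (nat_lit 0) (nat_lit 3587073553288) (nat_lit 76) (nat_lit 451582658809) (nat_lit 76) (nat_lit 451200763878) (nat_lit 1) (nat_lit 4) (nat_lit 2) (nat_lit 5) (nat_lit 2) (nat_lit 4) (nat_lit 518) (nat_lit 363) (nat_lit 319))) (XT.nd (nat_lit 78) (nat_lit 0) (nat_lit 0) (XT.lf (nat_lit 0) (nat_lit 3879283222591) (nat_lit 76) (nat_lit 484971103550) (nat_lit 76) (nat_lit 484588217985) (nat_lit 1) (nat_lit 4) (nat_lit 2) (nat_lit 5) (nat_lit 2) (nat_lit 4) (nat_lit 519) (nat_lit 363) (nat_lit 318)) (XT.lf (nat_lit 0) (nat_lit 4194845903066) (nat_lit 76) (nat_lit 521042888668) (nat_lit 76) (nat_lit 520659085849) (nat_lit 1) (nat_lit 4) (nat_lit 2) (nat_lit 5) (nat_lit 2) (nat_lit 4) (nat_lit 520) (nat_lit 363) (nat_lit 317))))))) (XT.nd (nat_lit 936) (nat_lit 0) (nat_lit 0) (XT.nd (nat_lit 468) (nat_lit 0) (nat_lit 0) (XT.nd (nat_lit 234) (nat_lit 0) (nat_lit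 0) (XT.nd (nat_lit 78) (nat_lit 0) (nat_lit 0) (XT.lf (nat_lit 0) (nat_lit 4535631595783) (nat_lit 76) (nat_lit 560011772889) (nat_lit 76) (nat_lit 559627120762) (nat_lit 1) (nat_lit 4) (nat_lit 2) (nat_lit 5) (nat_lit 2) (nat_lit 4) (nat_lit 521) (nat_lit 363) (nat_lit 316)) (XT.nd (nat_lit 78) (nat_lit 0) (nat_lit 0) (XT.lf (nat_lit 0) (nat_lit 4903659771513) (nat_lit 76) (nat_lit 602108682937) (nat_lit 76) (nat_lit 601723244412) (nat_lit 1) (nat_lit 4) (nat_lit 2) (nat_lit 5) (nat_lit 2) (nat_lit 4) (nat_lit 522) (nat_lit 363) (nat_lit 315)) (XT.lf (nat_lit 0) (nat_lit 5301111337964) (nat_lit 76) (nat_lit 647583081980) (nat_lit 76) (nat_lit 647196915310) (nat_lit 1) (nat_lit 4) (nat_lit 2) (nat_lit 5) (nat_lit 2) (nat_lit 4) (nat_lit 523) (nat_lit 363) (nat_lit 314)))) (XT.nd (nat_lit 78) (nat_lit 0) (nat_lit 0) (XT.lf (nat_lit 0) (nat_lit 5730341563679) (nat_lit 76) (nat_lit 696704447939)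 (nat_lit 76) (nat_lit 696317607060) (nat_lit 1) (nat_lit 4) (nat_lit 2) (nat_lit 5) (nat_lit 2) (nat_lit 4) (nat_lit 524) (nat_lit 363) (nat_lit 313)) (XT.nd (nat_lit 78) (nat_lit 0) (nat_lit 0) (XT.lf (nat_lit 0) (nat_lit 6193894035181) (nat_lit 76) (nat_lit 749763870390) (nat_lit 76) (nat_lit 749376405244) (nat_lit 1) (nat_lit 4) (nat_lit 2) (nat_lit 5) (nat_lit 2) (nat_lit 4) (nat_lit 525) (nat_lit 363) (nat_lit 312)) (XT.lf (nat_lit 0) (nat_lit 6694515730077) (nat_lit 76) (nat_lit 807075775540) (nat_lit 76) (nat_lit 806687732369) (nat_lit 1) (nat_lit 4) (nat_lit 2) (nat_lit 5) (nat_lit 2) (nat_lit 4) (nat_lit 526) (nat_lit 363) (nat_lit 311))))) (XT.nd (nat_lit 234) (nat_lit 0) (nat_lit 0) (XT.nd (nat_lit 78) (nat_lit 0) (nat_lit 0) (XT.lf (nat_lit 0) (nat_lit 7235173295449) (nat_lit 76) (nat_lit 868979789495) (nat_lit 76) (nat_lit 868591211115) (nat_lit 1) (nat_lit 4) (nat_lit 2) (nat_lit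 5) (nat_lit 2) (nat_lit 4) (nat_lit 527) (nat_lit 363) (nat_lit 310)) (XT.nd (nat_lit 78) (nat_lit 0) (nat_lit 0) (XT.lf (nat_lit 0) (nat_lit 7819070627981) (nat_lit 76) (nat_lit 935842750854) (nat_lit 76) (nat_lit 935453676911) (nat_lit 1) (nat_lit 4) (nat_lit 2) (nat_lit 5) (nat_lit 2) (nat_lit 4) (nat_lit 528) (nat_lit 363) (nat_lit 309)) (XT.lf (nat_lit 0) (nat_lit 8449667860013) (nat_lit 76) (nat_lit 1008060884575) (nat_lit 76) (nat_lit 1007671351776) (nat_lit 1) (nat_lit 4) (nat_lit 2) (nat_lit 5) (nat_lit 2) (nat_lit 4) (nat_lit 529) (nat_lit 363) (nat_lit 308)))) (XT.nd (nat_lit 78) (nat_lit 0) (nat_lit 0) (XT.lf (nat_lit 0) (nat_lit 9130701864032) (nat_lit 76) (nat_lit 1086062149968) (nat_lit 76) (nat_lit 1085672192303) (nat_lit 1) (nat_lit 4) (nat_lit 2) (nat_lit 5) (nat_lit 2) (nat_lit 4) (nat_lit 530) (nat_lit 363) (nat_lit 307)) (XT.nd (nat_lit 78) (nat_lit 0) (nat_lit 0) (XT.lf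 (nat_lit 0) (nat_lit 9866208397098) (nat_lit 76) (nat_lit 1170308776754) (nat_lit 76) (nat_lit 1169918425695) (nat_lit 1) (nat_lit 4) (nat_lit 2) (nat_lit 5) (nat_lit 2) (nat_lit 4) (nat_lit 531) (nat_lit 363) (nat_lit 306)) (XT.lf (nat_lit 0) (nat_lit 10660546016445) (nat_lit 76) (nat_lit 1261300004203) (nat_lit 76) (nat_lit 1260909288890) (nat_lit 1) (nat_lit 4) (nat_lit 2) (nat_lit 5) (nat_lit 2) (nat_lit 4) (nat_lit 532) (nat_lit 363) (nat_lit 305)))))) (XT.nd (nat_lit 57876) (nat_lit 0) (nat_lit 0) (XT.nd (nat_lit 234) (nat_lit 0) (nat_lit 0) (XT.nd (nat_lit 78) (nat_lit 0) (nat_lit 0) (XT.lf (nat_lit 0) (nat_lit 11518421907965) (nat_lit 76) (nat_lit 1359575039588) (nat_lit 76) (nat_lit 1359183987003) (nat_lit 1) (nat_lit 4) (nat_lit 2) (nat_lit 5) (nat_lit 2) (nat_lit 4) (nat_lit 533) (nat_lit 363) (nat_lit 304)) (XT.nd (nat_lit 78) (nat_lit 0) (nat_lit 0) (XT.lf (nat_lit 0) (nat_lit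 12444919780644) (nat_lit 76) (nat_lit 1465716253491) (nat_lit 76) (nat_lit 1465324888616) (nat_lit 1) (nat_lit 4) (nat_lit 2) (nat_lit 5) (nat_lit 2) (nat_lit 4) (nat_lit 534) (nat_lit 363) (nat_lit 303)) (XT.lf (nat_lit 0) (nat_lit 13445529992247) (nat_lit 76) (nat_lit 1580352630881) (nat_lit 76) (nat_lit 1579960976850) (nat_lit 1) (nat_lit 4) (nat_lit 2) (nat_lit 5) (nat_lit 2) (nat_lit 4) (nat_lit 535) (nat_lit 363) (nat_lit 302)))) (XT.nd (nat_lit 57486) (nat_lit 0) (nat_lit 76) (XT.lf (nat_lit 0) (nat_lit 14526182084769) (nat_lit 76) (nat_lit 1704163498440) (nat_lit 76) (nat_lit 1703771576672) (nat_lit 1) (nat_lit 4) (nat_lit 2) (nat_lit 5) (nat_lit 2) (nat_lit 4) (nat_lit 536) (nat_lit 363) (nat_lit 301)) (XT.nd (nat_lit 78) (nat_lit 0) (nat_lit 0) (XT.lf (nat_lit 0) (nat_lit 27397098836) (nat_lit 152) (nat_lit 12836112063) (nat_lit 0) (nat_lit 27397098836) (nat_lit 2) (nat_lit 5)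 (nat_lit 4) (nat_lit 4) (nat_lit 2) (nat_lit 4) (nat_lit 472) (nat_lit 364) (nat_lit 364)) (XT.lf (nat_lit 0) (nat_lit 66296631619) (nat_lit 152) (nat_lit 12947551152) (nat_lit 0) (nat_lit 66265010140) (nat_lit 2) (nat_lit 5) (nat_lit 4) (nat_lit 4) (nat_lit 2) (nat_lit 4) (nat_lit 473) (nat_lit 364) (nat_lit 363))))) (XT.nd (nat_lit 234) (nat_lit 0) (nat_lit 0) (XT.nd (nat_lit 78) (nat_lit 0) (nat_lit 0) (XT.lf (nat_lit 0) (nat_lit 78458395) (nat_lit 76) (nat_lit 78293923163) (nat_lit 76) (nat_lit 78233022537) (nat_lit 1) (nat_lit 4) (nat_lit 2) (nat_lit 5) (nat_lit 2) (nat_lit 4) (nat_lit 474) (nat_lit 364) (nat_lit 362)) (XT.nd (nat_lit 78) (nat_lit 0) (nat_lit 0) (XT.lf (nat_lit 0) (nat_lit 14180567423) (nat_lit 76) (nat_lit 77247811095) (nat_lit 76) (nat_lit 77159800147) (nat_lit 1) (nat_lit 4) (nat_lit 2) (nat_lit 5) (nat_lit 2) (nat_lit 4) (nat_lit 475) (nat_lit 364) (nat_lit 361))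 (XT.lf (nat_lit 0) (nat_lit 28760548883) (nat_lit 76) (nat_lit 76453656378) (nat_lit 76) (nat_lit 76340543281) (nat_lit 1) (nat_lit 4) (nat_lit 2) (nat_lit 5) (nat_lit 2) (nat_lit 4) (nat_lit 476) (nat_lit 364) (nat_lit 360)))) (XT.nd (nat_lit 156) (nat_lit 0) (nat_lit 0) (XT.nd (nat_lit 78) (nat_lit 0) (nat_lit 0) (XT.lf (nat_lit 0) (nat_lit 43904802668) (nat_lit 76) (nat_lit 75906752910) (nat_lit 76) (nat_lit 75770397082) (nat_lit 1) (nat_lit 4) (nat_lit 2) (nat_lit 5) (nat_lit 2) (nat_lit 4) (nat_lit 477) (nat_lit 364) (nat_lit 359)) (XT.lf (nat_lit 0) (nat_lit 59703072503) (nat_lit 76) (nat_lit 75603859782) (nat_lit 76) (nat_lit 75445982906) (nat_lit 1) (nat_lit 4) (nat_lit 2) (nat_lit 5) (nat_lit 2) (nat_lit 4) (nat_lit 478) (nat_lit 364) (nat_lit 358))) (XT.nd (nat_lit 78) (nat_lit 0) (nat_lit 0) (XT.lf (nat_lit 0) (nat_lit 76248977764) (nat_lit 76) (nat_lit 75543182072) (nat_lit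 76) (nat_lit 75365378300) (nat_lit 1) (nat_lit 4) (nat_lit 2) (nat_lit 5) (nat_lit 2) (nat_lit 4) (nat_lit 479) (nat_lit 364) (nat_lit 357)) (XT.lf (nat_lit 0) (nat_lit 93640568261) (nat_lit 76) (nat_lit 75724360207) (nat_lit 76) (nat_lit 75528105606) (nat_lit 1) (nat_lit 4) (nat_lit 2) (nat_lit 5) (nat_lit 2) (nat_lit 4) (nat_lit 480) (nat_lit 364) (nat_lit 356))))))))
noncomputable def xc21 : XT := (XT.nd (nat_lit 1950) (nat_lit 0) (nat_lit 0) (XT.nd (nat_lit 936) (nat_lit 0) (nat_lit 0) (XT.nd (nat_lit 468) (nat_lit 0) (nat_lit 0) (XT.nd (nat_lit 234) (nat_lit 0) (nat_lit 0) (XT.nd (nat_lit 78) (nat_lit 0) (nat_lit 0) (XT.lf (nat_lit 0) (nat_lit 111980905271) (nat_lit 76) (nat_lit 76148467836) (nat_lit 76) (nat_lit 75935129134) (nat_lit 1) (nat_lit 4) (nat_lit 2) (nat_lit 5) (nat_lit 2) (nat_lit 4) (nat_lit 481) (nat_lit 364) (nat_lit 355)) (XT.nd (nat_lit 78) (nat_lit 0) (nat_lit 0)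 (XT.lf (nat_lit 0) (nat_lit 131378672271) (nat_lit 76) (nat_lit 76818018190) (nat_lit 76) (nat_lit 76588860876) (nat_lit 1) (nat_lit 4) (nat_lit 2) (nat_lit 5) (nat_lit 2) (nat_lit 4) (nat_lit 482) (nat_lit 364) (nat_lit 354)) (XT.lf (nat_lit 0) (nat_lit 151948818994) (nat_lit 76) (nat_lit 77736978974) (nat_lit 76) (nat_lit 77493174797) (nat_lit 1) (nat_lit 4) (nat_lit 2) (nat_lit 5) (nat_lit 2) (nat_lit 4) (nat_lit 483) (nat_lit 364) (nat_lit 353)))) (XT.nd (nat_lit 78) (nat_lit 0) (nat_lit 0) (XT.lf (nat_lit 0) (nat_lit 173813242604) (nat_lit 76) (nat_lit 78910795882) (nat_lit 76) (nat_lit 78653429794) (nat_lit 1) (nat_lit 4) (nat_lit 2) (nat_lit 5) (nat_lit 2) (nat_lit 4) (nat_lit 484) (nat_lit 364) (nat_lit 352)) (XT.nd (nat_lit 78) (nat_lit 0) (nat_lit 0) (XT.lf (nat_lit 0) (nat_lit 197101510056) (nat_lit 76) (nat_lit 80346424866) (nat_lit 76) (nat_lit 80076501454) (nat_lit 1) (nat_lit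 4) (nat_lit 2) (nat_lit 5) (nat_lit 2) (nat_lit 4) (nat_lit 485) (nat_lit 364) (nat_lit 351)) (XT.lf (nat_lit 0) (nat_lit 221951625897) (nat_lit 76) (nat_lit 82052373357) (nat_lit 76) (nat_lit 81770822792) (nat_lit 1) (nat_lit 4) (nat_lit 2) (nat_lit 5) (nat_lit 2) (nat_lit 4) (nat_lit 486) (nat_lit 364) (nat_lit 350))))) (XT.nd (nat_lit 234) (nat_lit 0) (nat_lit 0) (XT.nd (nat_lit 78) (nat_lit 0) (nat_lit 0) (XT.lf (nat_lit 0) (nat_lit 248510850075) (nat_lit 76) (nat_lit 84038750679) (nat_lit 76) (nat_lit 83746434233) (nat_lit 1) (nat_lit 4) (nat_lit 2) (nat_lit 5) (nat_lit 2) (nat_lit 4) (nat_lit 487) (nat_lit 364) (nat_lit 349)) (XT.nd (nat_lit 78) (nat_lit 0) (nat_lit 0) (XT.lf (nat_lit 0) (nat_lit 276936570583) (nat_lit 76) (nat_lit 86317327957) (nat_lit 76) (nat_lit 86015043102) (nat_lit 1) (nat_lit 4) (nat_lit 2) (nat_lit 5) (nat_lit 2) (nat_lit 4) (nat_lit 488) (nat_lit 364) (nat_lit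 348)) (XT.lf (nat_lit 0) (nat_lit 307397236137) (nat_lit 76) (nat_lit 88901607872) (nat_lit 76) (nat_lit 88590093008) (nat_lit 1) (nat_lit 4) (nat_lit 2) (nat_lit 5) (nat_lit 2) (nat_lit 4) (nat_lit 489) (nat_lit 364) (nat_lit 347)))) (XT.nd (nat_lit 78) (nat_lit 0) (nat_lit 0) (XT.lf (nat_lit 0) (nat_lit 340073354383) (nat_lit 76) (nat_lit 91806904674) (nat_lit 76) (nat_lit 91486843506) (nat_lit 1) (nat_lit 4) (nat_lit 2) (nat_lit 5) (nat_lit 2) (nat_lit 4) (nat_lit 490) (nat_lit 364) (nat_lit 346)) (XT.nd (nat_lit 78) (nat_lit 0) (nat_lit 0) (XT.lf (nat_lit 0) (nat_lit 375158561577) (nat_lit 76) (nat_lit 95050434937) (nat_lit 76) (nat_lit 94722460526) (nat_lit 1) (nat_lit 4) (nat_lit 2) (nat_lit 5) (nat_lit 2) (nat_lit 4) (nat_lit 491) (nat_lit 364) (nat_lit 345)) (XT.lf (nat_lit 0) (nat_lit 412860770060) (nat_lit 76) (nat_lit 98651419582) (nat_lit 76) (nat_lit 98316118092) (nat_lit 1)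 (nat_lit 4) (nat_lit 2) (nat_lit 5) (nat_lit 2) (nat_lit 4) (nat_lit 492) (nat_lit 364) (nat_lit 344)))))) (XT.nd (nat_lit 468) (nat_lit 0) (nat_lit 0) (XT.nd (nat_lit 234) (nat_lit 0) (nat_lit 0) (XT.nd (nat_lit 78) (nat_lit 0) (nat_lit 0) (XT.lf (nat_lit 0) (nat_lit 453403400326) (nat_lit 76) (nat_lit 102631197777) (nat_lit 76) (nat_lit 102289111955) (nat_lit 1) (nat_lit 4) (nat_lit 2) (nat_lit 5) (nat_lit 2) (nat_lit 4) (nat_lit 493) (nat_lit 364) (nat_lit 343)) (XT.nd (nat_lit 78) (nat_lit 0) (nat_lit 0) (XT.lf (nat_lit 0) (nat_lit 497026704997) (nat_lit 76) (nat_lit 107013353392) (nat_lit 76) (nat_lit 106664985782) (nat_lit 1) (nat_lit 4) (nat_lit 2) (nat_lit 5) (nat_lit 2) (nat_lit 4) (nat_lit 494) (nat_lit 364) (nat_lit 342)) (XT.lf (nat_lit 0) (nat_lit 543989192547) (nat_lit 76) (nat_lit 111823854757) (nat_lit 76) (nat_lit 111469670676) (nat_lit 1) (nat_lit 4) (nat_lit 2) (nat_lit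 5) (nat_lit 2) (nat_lit 4) (nat_lit 495) (nat_lit 364) (nat_lit 341)))) (XT.nd (nat_lit 78) (nat_lit 0) (nat_lit 0) (XT.lf (nat_lit 0) (nat_lit 594569159199) (nat_lit 76) (nat_lit 117091208547) (nat_lit 76) (nat_lit 116731638844) (nat_lit 1) (nat_lit 4) (nat_lit 2) (nat_lit 5) (nat_lit 2) (nat_lit 4) (nat_lit 496) (nat_lit 364) (nat_lit 340)) (XT.nd (nat_lit 78) (nat_lit 0) (nat_lit 0) (XT.lf (nat_lit 0) (nat_lit 649066338087) (nat_lit 76) (nat_lit 122846628710) (nat_lit 76) (nat_lit 122482072321) (nat_lit 1) (nat_lit 4) (nat_lit 2) (nat_lit 5) (nat_lit 2) (nat_lit 4) (nat_lit 497) (nat_lit 364) (nat_lit 339)) (XT.lf (nat_lit 0) (nat_lit 707803675457) (nat_lit 76) (nat_lit 129124221439) (nat_lit 76) (nat_lit 128755047748) (nat_lit 1) (nat_lit 4) (nat_lit 2) (nat_lit 5) (nat_lit 2) (nat_lit 4) (nat_lit 498) (nat_lit 364) (nat_lit 338))))) (XT.nd (nat_lit 234) (nat_lit 0) (nat_lit 0) (XT.nd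 (nat_lit 78) (nat_lit 0) (nat_lit 0) (XT.lf (nat_lit 0) (nat_lit 771129244419) (nat_lit 76) (nat_lit 135961187285) (nat_lit 76) (nat_lit 135587738314) (nat_lit 1) (nat_lit 4) (nat_lit 2) (nat_lit 5) (nat_lit 2) (nat_lit 4) (nat_lit 499) (nat_lit 364) (nat_lit 337)) (XT.nd (nat_lit 78) (nat_lit 0) (nat_lit 0) (XT.lf (nat_lit 0) (nat_lit 839418307604) (nat_lit 76) (nat_lit 143398041600) (nat_lit 76) (nat_lit 143020634037) (nat_lit 1) (nat_lit 4) (nat_lit 2) (nat_lit 5) (nat_lit 2) (nat_lit 4) (nat_lit 500) (nat_lit 364) (nat_lit 336)) (XT.lf (nat_lit 0) (nat_lit 913075540943) (nat_lit 76) (nat_lit 151478854633) (nat_lit 76) (nat_lit 151097781706) (nat_lit 1) (nat_lit 4) (nat_lit 2) (nat_lit 5) (nat_lit 2) (nat_lit 4) (nat_lit 501) (nat_lit 364) (nat_lit 335)))) (XT.nd (nat_lit 156) (nat_lit 0) (nat_lit 0) (XT.nd (nat_lit 78) (nat_lit 0) (nat_lit 0) (XT.lf (nat_lit 0) (nat_lit 992537431744)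 (nat_lit 76) (nat_lit 160251512682) (nat_lit 76) (nat_lit 159867045900) (nat_lit 1) (nat_lit 4) (nat_lit 2) (nat_lit 5) (nat_lit 2) (nat_lit 4) (nat_lit 502) (nat_lit 364) (nat_lit 334)) (XT.lf (nat_lit 0) (nat_lit 1078274865285) (nat_lit 76) (nat_lit 169768001869) (nat_lit 76) (nat_lit 169380392630) (nat_lit 1) (nat_lit 4) (nat_lit 2) (nat_lit 5) (nat_lit 2) (nat_lit 4) (nat_lit 503) (nat_lit 364) (nat_lit 333))) (XT.nd (nat_lit 78) (nat_lit 0) (nat_lit 0) (XT.lf (nat_lit 0) (nat_lit 1170795915247) (nat_lit 76) (nat_lit 180084716205) (nat_lit 76) (nat_lit 179694197282) (nat_lit 1) (nat_lit 4) (nat_lit 2) (nat_lit 5) (nat_lit 2) (nat_lit 4) (nat_lit 504) (nat_lit 364) (nat_lit 332)) (XT.lf (nat_lit 0) (nat_lit 1270648854519) (nat_lit 76) (nat_lit 191262791774) (nat_lit 76) (nat_lit 190869578699) (nat_lit 1) (nat_lit 4) (nat_lit 2) (nat_lit 5) (nat_lit 2) (nat_lit 4) (nat_lit 505) (nat_lit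 364) (nat_lit 331))))))) (XT.nd (nat_lit 936) (nat_lit 0) (nat_lit 0) (XT.nd (nat_lit 468) (nat_lit 0) (nat_lit 0) (XT.nd (nat_lit 234) (nat_lit 0) (nat_lit 0) (XT.nd (nat_lit 78) (nat_lit 0) (nat_lit 0) (XT.lf (nat_lit 0) (nat_lit 1378425404222) (nat_lit 76) (nat_lit 203368469024) (nat_lit 76) (nat_lit 202972761365) (nat_lit 1) (nat_lit 4) (nat_lit 2) (nat_lit 5) (nat_lit 2) (nat_lit 4) (nat_lit 506) (nat_lit 364) (nat_lit 330)) (XT.nd (nat_lit 78) (nat_lit 0) (nat_lit 0) (XT.lf (nat_lit 0) (nat_lit 1494764240207) (nat_lit 76) (nat_lit 216473485302) (nat_lit 76) (nat_lit 216075467843) (nat_lit 1) (nat_lit 4) (nat_lit 2) (nat_lit 5) (nat_lit 2) (nat_lit 4) (nat_lit 507) (nat_lit 364) (nat_lit 329)) (XT.lf (nat_lit 0) (nat_lit 1620354777797) (nat_lit 76) (nat_lit 230655499964) (nat_lit 76) (nat_lit 230255343800) (nat_lit 1) (nat_lit 4) (nat_lit 2) (nat_lit 5) (nat_lit 2) (nat_lit 4) (nat_lit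 508) (nat_lit 364) (nat_lit 328)))) (XT.nd (nat_lit 78) (nat_lit 0) (nat_lit 0) (XT.lf (nat_lit 0) (nat_lit 1755941257215) (nat_lit 76) (nat_lit 245998554577) (nat_lit 76) (nat_lit 245596418132) (nat_lit 1) (nat_lit 4) (nat_lit 2) (nat_lit 5) (nat_lit 2) (nat_lit 4) (nat_lit 509) (nat_lit 364) (nat_lit 327)) (XT.nd (nat_lit 78) (nat_lit 0) (nat_lit 0) (XT.lf (nat_lit 0) (nat_lit 1902327153896) (nat_lit 76) (nat_lit 262593570948) (nat_lit 76) (nat_lit 262189600908) (nat_lit 1) (nat_lit 4) (nat_lit 2) (nat_lit 5) (nat_lit 2) (nat_lit 4) (nat_lit 510) (nat_lit 364) (nat_lit 326)) (XT.lf (nat_lit 0) (nat_lit 2060379939819) (nat_lit 76) (nat_lit 280538889913) (nat_lit 76) (nat_lit 280133222101) (nat_lit 1) (nat_lit 4) (nat_lit 2) (nat_lit 5) (nat_lit 2) (nat_lit 4) (nat_lit 511) (nat_lit 364) (nat_lit 325))))) (XT.nd (nat_lit 234) (nat_lit 0) (nat_lit 0) (XT.nd (nat_lit 78) (nat_lit 0) (nat_lit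 0) (XT.lf (nat_lit 0) (nat_lit 2231036224086) (nat_lit 76) (nat_lit 299940854105) (nat_lit 76) (nat_lit 299533614281) (nat_lit 1) (nat_lit 4) (nat_lit 2) (nat_lit 5) (nat_lit 2) (nat_lit 4) (nat_lit 512) (nat_lit 364) (nat_lit 324)) (XT.nd (nat_lit 78) (nat_lit 0) (nat_lit 0) (XT.lf (nat_lit 0) (nat_lit 2415307303196) (nat_lit 76) (nat_lit 320914438124) (nat_lit 76) (nat_lit 320505742734) (nat_lit 1) (nat_lit 4) (nat_lit 2) (nat_lit 5) (nat_lit 2) (nat_lit 4) (nat_lit 513) (nat_lit 364) (nat_lit 323)) (XT.lf (nat_lit 0) (nat_lit 2614285153915) (nat_lit 76) (nat_lit 343583929877) (nat_lit 76) (nat_lit 343173886740) (nat_lit 1) (nat_lit 4) (nat_lit 2) (nat_lit 5) (nat_lit 2) (nat_lit 4) (nat_lit 514) (nat_lit 364) (nat_lit 322)))) (XT.nd (nat_lit 78) (nat_lit 0) (nat_lit 0) (XT.lf (nat_lit 0) (nat_lit 2829148904247) (nat_lit 76) (nat_lit 368083667092) (nat_lit 76) (nat_lit 367672376043) (nat_lit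 1) (nat_lit 4) (nat_lit 2) (nat_lit 5) (nat_lit 2) (nat_lit 4) (nat_lit 515) (nat_lit 364) (nat_lit 321)) (XT.nd (nat_lit 78) (nat_lit 0) (nat_lit 0) (XT.lf (nat_lit 0) (nat_lit 3061171820860) (nat_lit 76) (nat_lit 394558833398) (nat_lit 76) (nat_lit 394146386873) (nat_lit 1) (nat_lit 4) (nat_lit 2) (nat_lit 5) (nat_lit 2) (nat_lit 4) (nat_lit 516) (nat_lit 364) (nat_lit 320)) (XT.lf (nat_lit 0) (nat_lit 3311728854372) (nat_lit 76) (nat_lit 423166318669) (nat_lit 76) (nat_lit 422752802259) (nat_lit 1) (nat_lit 4) (nat_lit 2) (nat_lit 5) (nat_lit 2) (nat_lit 4) (nat_lit 517) (nat_lit 364) (nat_lit 319)))))) (XT.nd (nat_lit 468) (nat_lit 0) (nat_lit 0) (XT.nd (nat_lit 234) (nat_lit 0) (nat_lit 0) (XT.nd (nat_lit 78) (nat_lit 0) (nat_lit 0) (XT.lf (nat_lit 0) (nat_lit 3582304787203) (nat_lit 76) (nat_lit 454075648744) (nat_lit 76) (nat_lit 453661141700) (nat_lit 1) (nat_lit 4) (nat_lit 2)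 (nat_lit 5) (nat_lit 2) (nat_lit 4) (nat_lit 518) (nat_lit 364) (nat_lit 318)) (XT.nd (nat_lit 78) (nat_lit 0) (nat_lit 0) (XT.lf (nat_lit 0) (nat_lit 3874503032288) (nat_lit 76) (nat_lit 487469990022) (nat_lit 76) (nat_lit 487054565724) (nat_lit 1) (nat_lit 4) (nat_lit 2) (nat_lit 5) (nat_lit 2) (nat_lit 4) (nat_lit 519) (nat_lit 364) (nat_lit 317)) (XT.lf (nat_lit 0) (nat_lit 4190055134784) (nat_lit 76) (nat_lit 523547234897) (nat_lit 76) (nat_lit 523130961291) (nat_lit 1) (nat_lit 4) (nat_lit 2) (nat_lit 5) (nat_lit 2) (nat_lit 4) (nat_lit 520) (nat_lit 364) (nat_lit 316)))) (XT.nd (nat_lit 78) (nat_lit 0) (nat_lit 0) (XT.lf (nat_lit 0) (nat_lit 4530831033076) (nat_lit 76) (nat_lit 562521174449) (nat_lit 76) (nat_lit 562104114446) (nat_lit 1) (nat_lit 4) (nat_lit 2) (nat_lit 5) (nat_lit 2) (nat_lit 4) (nat_lit 521) (nat_lit 364) (nat_lit 315)) (XT.nd (nat_lit 78) (nat_lit 0) (nat_lit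 0) (XT.lf (nat_lit 0) (nat_lit 4898850139894) (nat_lit 76) (nat_lit 604622765358) (nat_lit 76) (nat_lit 604204977209) (nat_lit 1) (nat_lit 4) (nat_lit 2) (nat_lit 5) (nat_lit 2) (nat_lit 4) (nat_lit 522) (nat_lit 364) (nat_lit 314)) (XT.lf (nat_lit 0) (nat_lit 5296293309205) (nat_lit 76) (nat_lit 650101498532) (nat_lit 76) (nat_lit 649683036174) (nat_lit 1) (nat_lit 4) (nat_lit 2) (nat_lit 5) (nat_lit 2) (nat_lit 4) (nat_lit 523) (nat_lit 364) (nat_lit 313))))) (XT.nd (nat_lit 234) (nat_lit 0) (nat_lit 0) (XT.nd (nat_lit 78) (nat_lit 0) (nat_lit 0) (XT.lf (nat_lit 0) (nat_lit 5725515759790) (nat_lit 76) (nat_lit 699226877575) (nat_lit 76) (nat_lit 698807790950) (nat_lit 1) (nat_lit 4) (nat_lit 2) (nat_lit 5) (nat_lit 2) (nat_lit 4) (nat_lit 524) (nat_lit 364) (nat_lit 312)) (XT.nd (nat_lit 78) (nat_lit 0) (nat_lit 0) (XT.lf (nat_lit 0) (nat_lit 6189061032096) (nat_lit 76) (nat_lit 752290015845)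 (nat_lit 76) (nat_lit 751870351195) (nat_lit 1) (nat_lit 4) (nat_lit 2) (nat_lit 5) (nat_lit 2) (nat_lit 4) (nat_lit 525) (nat_lit 364) (nat_lit 311)) (XT.lf (nat_lit 0) (nat_lit 6689676061072) (nat_lit 76) (nat_lit 809605361569) (nat_lit 76) (nat_lit 809185161710) (nat_lit 1) (nat_lit 4) (nat_lit 2) (nat_lit 5) (nat_lit 2) (nat_lit 4) (nat_lit 526) (nat_lit 364) (nat_lit 310)))) (XT.nd (nat_lit 156) (nat_lit 0) (nat_lit 0) (XT.nd (nat_lit 78) (nat_lit 0) (nat_lit 0) (XT.lf (nat_lit 0) (nat_lit 7230327454295) (nat_lit 76) (nat_lit 871512561239) (nat_lit 76) (nat_lit 871091865816) (nat_lit 1) (nat_lit 4) (nat_lit 2) (nat_lit 5) (nat_lit 2) (nat_lit 4) (nat_lit 527) (nat_lit 364) (nat_lit 309)) (XT.lf (nat_lit 0) (nat_lit 7814219071873) (nat_lit 76) (nat_lit 938378472335) (nat_lit 76) (nat_lit 937957318057) (nat_lit 1) (nat_lit 4) (nat_lit 2) (nat_lit 5) (nat_lit 2) (nat_lit 4) (nat_lit 528)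 (nat_lit 364) (nat_lit 308))) (XT.nd (nat_lit 78) (nat_lit 0) (nat_lit 0) (XT.lf (nat_lit 0) (nat_lit 8444811012283) (nat_lit 76) (nat_lit 1010599337294) (nat_lit 76) (nat_lit 1010177758150) (nat_lit 1) (nat_lit 4) (nat_lit 2) (nat_lit 5) (nat_lit 2) (nat_lit 4) (nat_lit 529) (nat_lit 364) (nat_lit 307)) (XT.lf (nat_lit 0) (nat_lit 9125840116651) (nat_lit 76) (nat_lit 1088603131610) (nat_lit 76) (nat_lit 1088181159072) (nat_lit 1) (nat_lit 4) (nat_lit 2) (nat_lit 5) (nat_lit 2) (nat_lit 4) (nat_lit 530) (nat_lit 364) (nat_lit 306))))))))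
noncomputable def xc22 : XT := (XT.nd (nat_lit 59202) (nat_lit 0) (nat_lit 0) (XT.nd (nat_lit 58188) (nat_lit 0) (nat_lit 0) (XT.nd (nat_lit 57720) (nat_lit 0) (nat_lit 0) (XT.nd (nat_lit 234) (nat_lit 0) (nat_lit 0) (XT.nd (nat_lit 78) (nat_lit 0) (nat_lit 0) (XT.lf (nat_lit 0) (nat_lit 9861342113003) (nat_lit 76) (nat_lit 1172852099993) (nat_lit 76) (nat_lit 1172429763201) (nat_lit 1) (nat_lit 4) (nat_lit 2) (nat_lit 5) (nat_lit 2) (nat_lit 4) (nat_lit 531) (nat_lit 364) (nat_lit 305)) (XT.nd (nat_lit 78) (nat_lit 0) (nat_lit 0) (XT.lf (nat_lit 0) (nat_lit 10655675531689) (nat_lit 76) (nat_lit 1263845495586) (nat_lit 76) (nat_lit 1263422821522) (nat_lit 1) (nat_lit 4) (nat_lit 2) (nat_lit 5) (nat_lit 2) (nat_lit 4) (nat_lit 532) (nat_lit 364) (nat_lit 304)) (XT.lf (nat_lit 0) (nat_lit 11513547533708) (nat_lit 76) (nat_lit 1362122538513) (nat_lit 76) (nat_lit 1361699552160) (nat_lit 1)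 (nat_lit 4) (nat_lit 2) (nat_lit 5) (nat_lit 2) (nat_lit 4) (nat_lit 533) (nat_lit 364) (nat_lit 303)))) (XT.nd (nat_lit 78) (nat_lit 0) (nat_lit 0) (XT.lf (nat_lit 0) (nat_lit 12440041804997) (nat_lit 76) (nat_lit 1468265611250) (nat_lit 76) (nat_lit 1467842335740) (nat_lit 1) (nat_lit 4) (nat_lit 2) (nat_lit 5) (nat_lit 2) (nat_lit 4) (nat_lit 534) (nat_lit 364) (nat_lit 302)) (XT.nd (nat_lit 78) (nat_lit 0) (nat_lit 0) (XT.lf (nat_lit 0) (nat_lit 13440648681980) (nat_lit 76) (nat_lit 1582903709784) (nat_lit 76) (nat_lit 1582480166536) (nat_lit 1) (nat_lit 4) (nat_lit 2) (nat_lit 5) (nat_lit 2) (nat_lit 4) (nat_lit 535) (nat_lit 364) (nat_lit 301)) (XT.lf (nat_lit 0) (nat_lit 14521297686891) (nat_lit 76) (nat_lit 1706716170994) (nat_lit 76) (nat_lit 1706292379841) (nat_lit 1) (nat_lit 4) (nat_lit 2) (nat_lit 5) (nat_lit 2) (nat_lit 4) (nat_lit 536) (nat_lit 364) (nat_lit 300))))) (XT.nd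 (nat_lit 234) (nat_lit 76) (nat_lit 0) (XT.nd (nat_lit 78) (nat_lit 0) (nat_lit 0) (XT.lf (nat_lit 0) (nat_lit 16731838626) (nat_lit 152) (nat_lit 25062786007) (nat_lit 0) (nat_lit 16731838626) (nat_lit 2) (nat_lit 5) (nat_lit 4) (nat_lit 4) (nat_lit 2) (nat_lit 4) (nat_lit 470) (nat_lit 365) (nat_lit 365)) (XT.nd (nat_lit 78) (nat_lit 0) (nat_lit 0) (XT.lf (nat_lit 0) (nat_lit 43829181416) (nat_lit 152) (nat_lit 38174890800) (nat_lit 0) (nat_lit 43795030219) (nat_lit 2) (nat_lit 5) (nat_lit 4) (nat_lit 4) (nat_lit 2) (nat_lit 4) (nat_lit 471) (nat_lit 365) (nat_lit 364)) (XT.lf (nat_lit 0) (nat_lit 54647259012) (nat_lit 152) (nat_lit 26046362123) (nat_lit 0) (nat_lit 54581486336) (nat_lit 2) (nat_lit 5) (nat_lit 4) (nat_lit 4) (nat_lit 2) (nat_lit 4) (nat_lit 472) (nat_lit 365) (nat_lit 363)))) (XT.nd (nat_lit 78) (nat_lit 76) (nat_lit 0) (XT.lf (nat_lit 0) (nat_lit 65982017167) (nat_lit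 152) (nat_lit 13668113222) (nat_lit 0) (nat_lit 65886965343) (nat_lit 2) (nat_lit 5) (nat_lit 4) (nat_lit 4) (nat_lit 2) (nat_lit 4) (nat_lit 473) (nat_lit 365) (nat_lit 362)) (XT.nd (nat_lit 78) (nat_lit 76) (nat_lit 0) (XT.lf (nat_lit 0) (nat_lit 77900624817) (nat_lit 152) (nat_lit 966791509) (nat_lit 0) (nat_lit 77778462671) (nat_lit 2) (nat_lit 5) (nat_lit 4) (nat_lit 4) (nat_lit 2) (nat_lit 4) (nat_lit 474) (nat_lit 365) (nat_lit 361)) (XT.lf (nat_lit 0) (nat_lit 12771765543) (nat_lit 76) (nat_lit 78009106473) (nat_lit 76) (nat_lit 77861842178) (nat_lit 1) (nat_lit 4) (nat_lit 2) (nat_lit 5) (nat_lit 2) (nat_lit 4) (nat_lit 475) (nat_lit 365) (nat_lit 360)))))) (XT.nd (nat_lit 468) (nat_lit 0) (nat_lit 0) (XT.nd (nat_lit 234) (nat_lit 0) (nat_lit 0) (XT.nd (nat_lit 78) (nat_lit 0) (nat_lit 0) (XT.lf (nat_lit 0) (nat_lit 27062263257) (nat_lit 76) (nat_lit 77364366961) (nat_lit 76) (nat_lit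 77193859935) (nat_lit 1) (nat_lit 4) (nat_lit 2) (nat_lit 5) (nat_lit 2) (nat_lit 4) (nat_lit 476) (nat_lit 365) (nat_lit 359)) (XT.nd (nat_lit 78) (nat_lit 0) (nat_lit 0) (XT.lf (nat_lit 0) (nat_lit 41938476536) (nat_lit 76) (nat_lit 76955810905) (nat_lit 76) (nat_lit 76763782832) (nat_lit 1) (nat_lit 4) (nat_lit 2) (nat_lit 5) (nat_lit 2) (nat_lit 4) (nat_lit 477) (nat_lit 365) (nat_lit 358)) (XT.lf (nat_lit 0) (nat_lit 57488560716) (nat_lit 76) (nat_lit 76781017233) (nat_lit 76) (nat_lit 76569062264) (nat_lit 1) (nat_lit 4) (nat_lit 2) (nat_lit 5) (nat_lit 2) (nat_lit 4) (nat_lit 478) (nat_lit 365) (nat_lit 357)))) (XT.nd (nat_lit 78) (nat_lit 0) (nat_lit 0) (XT.lf (nat_lit 0) (nat_lit 73804664446) (nat_lit 76) (nat_lit 76838950129) (nat_lit 76) (nat_lit 76608544331) (nat_lit 1) (nat_lit 4) (nat_lit 2) (nat_lit 5) (nat_lit 2) (nat_lit 4) (nat_lit 479) (nat_lit 365) (nat_lit 356)) (XT.nd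 (nat_lit 78) (nat_lit 0) (nat_lit 0) (XT.lf (nat_lit 0) (nat_lit 90983475748) (nat_lit 76) (nat_lit 77129952901) (nat_lit 76) (nat_lit 76882463001) (nat_lit 1) (nat_lit 4) (nat_lit 2) (nat_lit 5) (nat_lit 2) (nat_lit 4) (nat_lit 480) (nat_lit 365) (nat_lit 355)) (XT.lf (nat_lit 0) (nat_lit 109126794983) (nat_lit 76) (nat_lit 77655750008) (nat_lit 76) (nat_lit 77392441496) (nat_lit 1) (nat_lit 4) (nat_lit 2) (nat_lit 5) (nat_lit 2) (nat_lit 4) (nat_lit 481) (nat_lit 365) (nat_lit 354))))) (XT.nd (nat_lit 234) (nat_lit 0) (nat_lit 0) (XT.nd (nat_lit 78) (nat_lit 0) (nat_lit 0) (XT.lf (nat_lit 0) (nat_lit 128342138120) (nat_lit 76) (nat_lit 78419457286) (nat_lit 76) (nat_lit 78141501911) (nat_lit 1) (nat_lit 4) (nat_lit 2) (nat_lit 5) (nat_lit 2) (nat_lit 4) (nat_lit 482) (nat_lit 365) (nat_lit 353)) (XT.nd (nat_lit 78) (nat_lit 0) (nat_lit 0) (XT.lf (nat_lit 0) (nat_lit 148743373856) (nat_lit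 76) (nat_lit 79425600407) (nat_lit 76) (nat_lit 79134083122) (nat_lit 1) (nat_lit 4) (nat_lit 2) (nat_lit 5) (nat_lit 2) (nat_lit 4) (nat_lit 483) (nat_lit 365) (nat_lit 352)) (XT.lf (nat_lit 0) (nat_lit 170451398405) (nat_lit 76) (nat_lit 80680141701) (nat_lit 76) (nat_lit 80376067092) (nat_lit 1) (nat_lit 4) (nat_lit 2) (nat_lit 5) (nat_lit 2) (nat_lit 4) (nat_lit 484) (nat_lit 365) (nat_lit 351)))) (XT.nd (nat_lit 156) (nat_lit 0) (nat_lit 0) (XT.nd (nat_lit 78) (nat_lit 0) (nat_lit 0) (XT.lf (nat_lit 0) (nat_lit 193594851912) (nat_lit 76) (nat_lit 82190515487) (nat_lit 76) (nat_lit 81874813725) (nat_lit 1) (nat_lit 4) (nat_lit 2) (nat_lit 5) (nat_lit 2) (nat_lit 4) (nat_lit 485) (nat_lit 365) (nat_lit 350)) (XT.lf (nat_lit 0) (nat_lit 218310880767) (nat_lit 76) (nat_lit 83965672128) (nat_lit 76) (nat_lit 83639204484) (nat_lit 1) (nat_lit 4) (nat_lit 2) (nat_lit 5) (nat_lit 2) (nat_lit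 4) (nat_lit 486) (nat_lit 365) (nat_lit 349))) (XT.nd (nat_lit 78) (nat_lit 0) (nat_lit 0) (XT.lf (nat_lit 0) (nat_lit 244745950328) (nat_lit 76) (nat_lit 86016131071) (nat_lit 76) (nat_lit 85679695018) (nat_lit 1) (nat_lit 4) (nat_lit 2) (nat_lit 5) (nat_lit 2) (nat_lit 4) (nat_lit 487) (nat_lit 365) (nat_lit 348)) (XT.lf (nat_lit 0) (nat_lit 273056712857) (nat_lit 76) (nat_lit 88354043182) (nat_lit 76) (nat_lit 88008377122) (nat_lit 1) (nat_lit 4) (nat_lit 2) (nat_lit 5) (nat_lit 2) (nat_lit 4) (nat_lit 488) (nat_lit 365) (nat_lit 347))))))) (XT.nd (nat_lit 936) (nat_lit 0) (nat_lit 0) (XT.nd (nat_lit 468) (nat_lit 0) (nat_lit 0) (XT.nd (nat_lit 234) (nat_lit 0) (nat_lit 0) (XT.nd (nat_lit 78) (nat_lit 0) (nat_lit 0) (XT.lf (nat_lit 0) (nat_lit 303410935838) (nat_lit 76) (nat_lit 90993262758) (nat_lit 76) (nat_lit 90639050393) (nat_lit 1) (nat_lit 4) (nat_lit 2) (nat_lit 5) (nat_lit 2)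 (nat_lit 4) (nat_lit 489) (nat_lit 365) (nat_lit 346)) (XT.nd (nat_lit 78) (nat_lit 0) (nat_lit 0) (XT.lf (nat_lit 0) (nat_lit 335988496146) (nat_lit 76) (nat_lit 93949429616) (nat_lit 76) (nat_lit 93587304007) (nat_lit 1) (nat_lit 4) (nat_lit 2) (nat_lit 5) (nat_lit 2) (nat_lit 4) (nat_lit 490) (nat_lit 365) (nat_lit 345)) (XT.lf (nat_lit 0) (nat_lit 370982445991) (nat_lit 76) (nat_lit 97240061784) (nat_lit 76) (nat_lit 96870609096) (nat_lit 1) (nat_lit 4) (nat_lit 2) (nat_lit 5) (nat_lit 2) (nat_lit 4) (nat_lit 491) (nat_lit 365) (nat_lit 344)))) (XT.nd (nat_lit 78) (nat_lit 0) (nat_lit 0) (XT.lf (nat_lit 0) (nat_lit 408600156927) (nat_lit 76) (nat_lit 100884659303) (nat_lit 76) (nat_lit 100508422284) (nat_lit 1) (nat_lit 4) (nat_lit 2) (nat_lit 5) (nat_lit 2) (nat_lit 4) (nat_lit 492) (nat_lit 365) (nat_lit 343)) (XT.nd (nat_lit 78) (nat_lit 0) (nat_lit 0) (XT.lf (nat_lit 0) (nat_lit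 449064548724) (nat_lit 76) (nat_lit 104904819788) (nat_lit 76) (nat_lit 104522300980) (nat_lit 1) (nat_lit 4) (nat_lit 2) (nat_lit 5) (nat_lit 2) (nat_lit 4) (nat_lit 493) (nat_lit 365) (nat_lit 342)) (XT.lf (nat_lit 0) (nat_lit 492615410369) (nat_lit 76) (nat_lit 109324366413) (nat_lit 76) (nat_lit 108936031135) (nat_lit 1) (nat_lit 4) (nat_lit 2) (nat_lit 5) (nat_lit 2) (nat_lit 4) (nat_lit 494) (nat_lit 365) (nat_lit 341))))) (XT.nd (nat_lit 234) (nat_lit 0) (nat_lit 0) (XT.nd (nat_lit 78) (nat_lit 0) (nat_lit 0) (XT.lf (nat_lit 0) (nat_lit 539510821043) (nat_lit 76) (nat_lit 114169489084) (nat_lit 76) (nat_lit 113775768184) (nat_lit 1) (nat_lit 4) (nat_lit 2) (nat_lit 5) (nat_lit 2) (nat_lit 4) (nat_lit 495) (nat_lit 365) (nat_lit 340)) (XT.nd (nat_lit 78) (nat_lit 0) (nat_lit 0) (XT.lf (nat_lit 0) (nat_lit 590028679475) (nat_lit 76) (nat_lit 119468899638) (nat_lit 76) (nat_lit 119070192052)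 (nat_lit 1) (nat_lit 4) (nat_lit 2) (nat_lit 5) (nat_lit 2) (nat_lit 4) (nat_lit 496) (nat_lit 365) (nat_lit 339)) (XT.lf (nat_lit 0) (nat_lit 644468350753) (nat_lit 76) (nat_lit 125254001990) (nat_lit 76) (nat_lit 124850677102) (nat_lit 1) (nat_lit 4) (nat_lit 2) (nat_lit 5) (nat_lit 2) (nat_lit 4) (nat_lit 497) (nat_lit 365) (nat_lit 338)))) (XT.nd (nat_lit 78) (nat_lit 0) (nat_lit 0) (XT.lf (nat_lit 0) (nat_lit 703152440336) (nat_lit 76) (nat_lit 131559078228) (nat_lit 76) (nat_lit 131151478060) (nat_lit 1) (nat_lit 4) (nat_lit 2) (nat_lit 5) (nat_lit 2) (nat_lit 4) (nat_lit 498) (nat_lit 365) (nat_lit 337)) (XT.nd (nat_lit 78) (nat_lit 0) (nat_lit 0) (XT.lf (nat_lit 0) (nat_lit 766428705792) (nat_lit 76) (nat_lit 138421491767) (nat_lit 76) (nat_lit 138009933007) (nat_lit 1) (nat_lit 4) (nat_lit 2) (nat_lit 5) (nat_lit 2) (nat_lit 4) (nat_lit 499) (nat_lit 365) (nat_lit 336)) (XT.lf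 (nat_lit 0) (nat_lit 834672117582) (nat_lit 76) (nat_lit 145881908761) (nat_lit 76) (nat_lit 145466684638) (nat_lit 1) (nat_lit 4) (nat_lit 2) (nat_lit 5) (nat_lit 2) (nat_lit 4) (nat_lit 500) (nat_lit 365) (nat_lit 335)))))) (XT.nd (nat_lit 468) (nat_lit 0) (nat_lit 0) (XT.nd (nat_lit 234) (nat_lit 0) (nat_lit 0) (XT.nd (nat_lit 78) (nat_lit 0) (nat_lit 0) (XT.lf (nat_lit 0) (nat_lit 908287081111) (nat_lit 76) (nat_lit 153984539089) (nat_lit 76) (nat_lit 153565921110) (nat_lit 1) (nat_lit 4) (nat_lit 2) (nat_lit 5) (nat_lit 2) (nat_lit 4) (nat_lit 501) (nat_lit 365) (nat_lit 334)) (XT.nd (nat_lit 78) (nat_lit 0) (nat_lit 0) (XT.lf (nat_lit 0) (nat_lit 987709833198) (nat_lit 76) (nat_lit 162777398337) (nat_lit 76) (nat_lit 162355637900) (nat_lit 1) (nat_lit 4) (nat_lit 2) (nat_lit 5) (nat_lit 2) (nat_lit 4) (nat_lit 502) (nat_lit 365) (nat_lit 333)) (XT.lf (nat_lit 0) (nat_lit 1073411027190)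 (nat_lit 76) (nat_lit 172312592339) (nat_lit 76) (nat_lit 171887922218) (nat_lit 1) (nat_lit 4) (nat_lit 2) (nat_lit 5) (nat_lit 2) (nat_lit 4) (nat_lit 503) (nat_lit 365) (nat_lit 332)))) (XT.nd (nat_lit 78) (nat_lit 0) (nat_lit 0) (XT.lf (nat_lit 0) (nat_lit 1165898522014) (nat_lit 76) (nat_lit 182646625947) (nat_lit 76) (nat_lit 182219261675) (nat_lit 1) (nat_lit 4) (nat_lit 2) (nat_lit 5) (nat_lit 2) (nat_lit 4) (nat_lit 504) (nat_lit 365) (nat_lit 331)) (XT.nd (nat_lit 78) (nat_lit 0) (nat_lit 0) (XT.lf (nat_lit 0) (nat_lit 1265720391714) (nat_lit 76) (nat_lit 193840737879) (nat_lit 76) (nat_lit 193410879023) (nat_lit 1) (nat_lit 4) (nat_lit 2) (nat_lit 5) (nat_lit 2) (nat_lit 4) (nat_lit 505) (nat_lit 365) (nat_lit 330)) (XT.lf (nat_lit 0) (nat_lit 1373468173294) (nat_lit 76) (nat_lit 205961263614) (nat_lit 76) (nat_lit 205529094957) (nat_lit 1) (nat_lit 4) (nat_lit 2) (nat_lit 5)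 (nat_lit 2) (nat_lit 4) (nat_lit 506) (nat_lit 365) (nat_lit 329))))) (XT.nd (nat_lit 234) (nat_lit 0) (nat_lit 0) (XT.nd (nat_lit 78) (nat_lit 0) (nat_lit 0) (XT.lf (nat_lit 0) (nat_lit 1489780372128) (nat_lit 76) (nat_lit 219080028489) (nat_lit 76) (nat_lit 218645721127) (nat_lit 1) (nat_lit 4) (nat_lit 2) (nat_lit 5) (nat_lit 2) (nat_lit 4) (nat_lit 507) (nat_lit 365) (nat_lit 328)) (XT.nd (nat_lit 78) (nat_lit 0) (nat_lit 0) (XT.lf (nat_lit 0) (nat_lit 1615346245690) (nat_lit 76) (nat_lit 233274773333) (nat_lit 76) (nat_lit 232838485690) (nat_lit 1) (nat_lit 4) (nat_lit 2) (nat_lit 5) (nat_lit 2) (nat_lit 4) (nat_lit 508) (nat_lit 365) (nat_lit 327)) (XT.lf (nat_lit 0) (nat_lit 1750909888045) (nat_lit 76) (nat_lit 248629615152) (nat_lit 76) (nat_lit 248191493915) (nat_lit 1) (nat_lit 4) (nat_lit 2) (nat_lit 5) (nat_lit 2) (nat_lit 4) (nat_lit 509) (nat_lit 365) (nat_lit 326)))) (XT.nd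 (nat_lit 156) (nat_lit 0) (nat_lit 0) (XT.nd (nat_lit 78) (nat_lit 0) (nat_lit 0) (XT.lf (nat_lit 0) (nat_lit 1897274639297) (nat_lit 76) (nat_lit 265235545602) (nat_lit 76) (nat_lit 264795726592) (nat_lit 1) (nat_lit 4) (nat_lit 2) (nat_lit 5) (nat_lit 2) (nat_lit 4) (nat_lit 510) (nat_lit 365) (nat_lit 325)) (XT.lf (nat_lit 0) (nat_lit 2055307846119) (nat_lit 76) (nat_lit 283190970196) (nat_lit 76) (nat_lit 282749579175) (nat_lit 1) (nat_lit 4) (nat_lit 2) (nat_lit 5) (nat_lit 2) (nat_lit 4) (nat_lit 511) (nat_lit 365) (nat_lit 324))) (XT.nd (nat_lit 78) (nat_lit 0) (nat_lit 0) (XT.lf (nat_lit 0) (nat_lit 2225946001589) (nat_lit 76) (nat_lit 302602291451) (nat_lit 76) (nat_lit 302159444864) (nat_lit 1) (nat_lit 4) (nat_lit 2) (nat_lit 5) (nat_lit 2) (nat_lit 4) (nat_lit 512) (nat_lit 365) (nat_lit 323)) (XT.lf (nat_lit 0) (nat_lit 2410200294776) (nat_lit 76) (nat_lit 323584539419) (nat_lit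 76) (nat_lit 323140345085) (nat_lit 1) (nat_lit 4) (nat_lit 2) (nat_lit 5) (nat_lit 2) (nat_lit 4) (nat_lit 513) (nat_lit 365) (nat_lit 322))))))))
noncomputable def xc23 : XT := (XT.nd (nat_lit 59046) (nat_lit 0) (nat_lit 0) (XT.nd (nat_lit 936) (nat_lit 0) (nat_lit 0) (XT.nd (nat_lit 468) (nat_lit 0) (nat_lit 0) (XT.nd (nat_lit 234) (nat_lit 0) (nat_lit 0) (XT.nd (nat_lit 78) (nat_lit 0) (nat_lit 0) (XT.lf (nat_lit 0) (nat_lit 2609162602974) (nat_lit 76) (nat_lit 346262053346) (nat_lit 76) (nat_lit 345816611099) (nat_lit 1) (nat_lit 4) (nat_lit 2) (nat_lit 5) (nat_lit 2) (nat_lit 4) (nat_lit 514) (nat_lit 365) (nat_lit 321)) (XT.nd (nat_lit 78) (nat_lit 0) (nat_lit 0) (XT.lf (nat_lit 0) (nat_lit 2824011962082) (nat_lit 76) (nat_lit 370769218501) (nat_lit 76) (nat_lit 370322620778) (nat_lit 1) (nat_lit 4) (nat_lit 2) (nat_lit 5) (nat_lit 2) (nat_lit 4) (nat_lit 515) (nat_lit 365) (nat_lit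 320)) (XT.lf (nat_lit 0) (nat_lit 3056021553488) (nat_lit 76) (nat_lit 397251262528) (nat_lit 76) (nat_lit 396803594921) (nat_lit 1) (nat_lit 4) (nat_lit 2) (nat_lit 5) (nat_lit 2) (nat_lit 4) (nat_lit 516) (nat_lit 365) (nat_lit 319)))) (XT.nd (nat_lit 78) (nat_lit 0) (nat_lit 0) (XT.lf (nat_lit 0) (nat_lit 3306566248845) (nat_lit 76) (nat_lit 425865116059) (nat_lit 76) (nat_lit 425416457818) (nat_lit 1) (nat_lit 4) (nat_lit 2) (nat_lit 5) (nat_lit 2) (nat_lit 4) (nat_lit 517) (nat_lit 365) (nat_lit 318)) (XT.nd (nat_lit 78) (nat_lit 0) (nat_lit 0) (XT.lf (nat_lit 0) (nat_lit 3577130757459) (nat_lit 76) (nat_lit 456780342671) (nat_lit 76) (nat_lit 456330767176) (nat_lit 1) (nat_lit 4) (nat_lit 2) (nat_lit 5) (nat_lit 2) (nat_lit 4) (nat_lit 518) (nat_lit 365) (nat_lit 317)) (XT.lf (nat_lit 0) (nat_lit 3869318424565) (nat_lit 76) (nat_lit 490180143706) (nat_lit 76) (nat_lit 489729718903)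 (nat_lit 1) (nat_lit 4) (nat_lit 2) (nat_lit 5) (nat_lit 2) (nat_lit 4) (nat_lit 519) (nat_lit 365) (nat_lit 316))))) (XT.nd (nat_lit 234) (nat_lit 0) (nat_lit 0) (XT.nd (nat_lit 78) (nat_lit 0) (nat_lit 0) (XT.lf (nat_lit 0) (nat_lit 4184860732636) (nat_lit 76) (nat_lit 526262443912) (nat_lit 76) (nat_lit 525811232711) (nat_lit 1) (nat_lit 4) (nat_lit 2) (nat_lit 5) (nat_lit 2) (nat_lit 4) (nat_lit 520) (nat_lit 365) (nat_lit 315)) (XT.nd (nat_lit 78) (nat_lit 0) (nat_lit 0) (XT.lf (nat_lit 0) (nat_lit 4525627562016) (nat_lit 76) (nat_lit 565241064326) (nat_lit 76) (nat_lit 564789124979) (nat_lit 1) (nat_lit 4) (nat_lit 2) (nat_lit 5) (nat_lit 2) (nat_lit 4) (nat_lit 521) (nat_lit 365) (nat_lit 314)) (XT.lf (nat_lit 0) (nat_lit 4893638271694) (nat_lit 76) (nat_lit 607346989365) (nat_lit 76) (nat_lit 606894375810) (nat_lit 1) (nat_lit 4) (nat_lit 2) (nat_lit 5) (nat_lit 2) (nat_lit 4) (nat_lit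 522) (nat_lit 365) (nat_lit 313)))) (XT.nd (nat_lit 78) (nat_lit 0) (nat_lit 0) (XT.lf (nat_lit 0) (nat_lit 5291073665874) (nat_lit 76) (nat_lit 652829735624) (nat_lit 76) (nat_lit 652376497801) (nat_lit 1) (nat_lit 4) (nat_lit 2) (nat_lit 5) (nat_lit 2) (nat_lit 4) (nat_lit 523) (nat_lit 365) (nat_lit 312)) (XT.nd (nat_lit 78) (nat_lit 0) (nat_lit 0) (XT.lf (nat_lit 0) (nat_lit 5720288917264) (nat_lit 76) (nat_lit 701958830486) (nat_lit 76) (nat_lit 701505014638) (nat_lit 1) (nat_lit 4) (nat_lit 2) (nat_lit 5) (nat_lit 2) (nat_lit 4) (nat_lit 524) (nat_lit 365) (nat_lit 311)) (XT.lf (nat_lit 0) (nat_lit 6183827523650) (nat_lit 76) (nat_lit 755025409329) (nat_lit 76) (nat_lit 754571058273) (nat_lit 1) (nat_lit 4) (nat_lit 2) (nat_lit 5) (nat_lit 2) (nat_lit 4) (nat_lit 525) (nat_lit 365) (nat_lit 310)))))) (XT.nd (nat_lit 468) (nat_lit 0) (nat_lit 0) (XT.nd (nat_lit 234) (nat_lit 0) (nat_lit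 0) (XT.nd (nat_lit 78) (nat_lit 0) (nat_lit 0) (XT.lf (nat_lit 0) (nat_lit 6684436380476) (nat_lit 76) (nat_lit 812343940768) (nat_lit 76) (nat_lit 811889094148) (nat_lit 1) (nat_lit 4) (nat_lit 2) (nat_lit 5) (nat_lit 2) (nat_lit 4) (nat_lit 526) (nat_lit 365) (nat_lit 309)) (XT.nd (nat_lit 78) (nat_lit 0) (nat_lit 0) (XT.lf (nat_lit 0) (nat_lit 7225082058746) (nat_lit 76) (nat_lit 874254090175) (nat_lit 76) (nat_lit 873798784700) (nat_lit 1) (nat_lit 4) (nat_lit 2) (nat_lit 5) (nat_lit 2) (nat_lit 4) (nat_lit 527) (nat_lit 365) (nat_lit 308)) (XT.lf (nat_lit 0) (nat_lit 7808968384702) (nat_lit 76) (nat_lit 941122732509) (nat_lit 76) (nat_lit 940667002168) (nat_lit 1) (nat_lit 4) (nat_lit 2) (nat_lit 5) (nat_lit 2) (nat_lit 4) (nat_lit 528) (nat_lit 365) (nat_lit 307)))) (XT.nd (nat_lit 78) (nat_lit 0) (nat_lit 0) (XT.lf (nat_lit 0) (nat_lit 8439555425460) (nat_lit 76) (nat_lit 1013346126392)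 (nat_lit 76) (nat_lit 1012890002656) (nat_lit 1) (nat_lit 4) (nat_lit 2) (nat_lit 5) (nat_lit 2) (nat_lit 4) (nat_lit 529) (nat_lit 365) (nat_lit 306)) (XT.nd (nat_lit 78) (nat_lit 0) (nat_lit 0) (XT.lf (nat_lit 0) (nat_lit 9120579993114) (nat_lit 76) (nat_lit 1091352262305) (nat_lit 76) (nat_lit 1090895774315) (nat_lit 1) (nat_lit 4) (nat_lit 2) (nat_lit 5) (nat_lit 2) (nat_lit 4) (nat_lit 530) (nat_lit 365) (nat_lit 305)) (XT.lf (nat_lit 0) (nat_lit 9856077788805) (nat_lit 76) (nat_lit 1175603398831) (nat_lit 76) (nat_lit 1175146573570) (nat_lit 1) (nat_lit 4) (nat_lit 2) (nat_lit 5) (nat_lit 2) (nat_lit 4) (nat_lit 531) (nat_lit 365) (nat_lit 304))))) (XT.nd (nat_lit 234) (nat_lit 0) (nat_lit 0) (XT.nd (nat_lit 78) (nat_lit 0) (nat_lit 0) (XT.lf (nat_lit 0) (nat_lit 10650407317990) (nat_lit 76) (nat_lit 1266598801966) (nat_lit 76) (nat_lit 1266141664415) (nat_lit 1) (nat_lit 4) (nat_lit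 2) (nat_lit 5) (nat_lit 2) (nat_lit 4) (nat_lit 532) (nat_lit 365) (nat_lit 303)) (XT.nd (nat_lit 78) (nat_lit 0) (nat_lit 0) (XT.lf (nat_lit 0) (nat_lit 11508275718619) (nat_lit 76) (nat_lit 1364877703728) (nat_lit 76) (nat_lit 1364420277020) (nat_lit 1) (nat_lit 4) (nat_lit 2) (nat_lit 5) (nat_lit 2) (nat_lit 4) (nat_lit 533) (nat_lit 365) (nat_lit 302)) (XT.lf (nat_lit 0) (nat_lit 12434766655289) (nat_lit 76) (nat_lit 1471022497608) (nat_lit 76) (nat_lit 1470564803163) (nat_lit 1) (nat_lit 4) (nat_lit 2) (nat_lit 5) (nat_lit 2) (nat_lit 4) (nat_lit 534) (nat_lit 365) (nat_lit 301)))) (XT.nd (nat_lit 57252) (nat_lit 0) (nat_lit 76) (XT.nd (nat_lit 78) (nat_lit 0) (nat_lit 0) (XT.lf (nat_lit 0) (nat_lit 13435370444661) (nat_lit 76) (nat_lit 1585662189792) (nat_lit 76) (nat_lit 1585204247442) (nat_lit 1) (nat_lit 4) (nat_lit 2) (nat_lit 5) (nat_lit 2) (nat_lit 4) (nat_lit 535) (nat_lit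 365) (nat_lit 300)) (XT.lf (nat_lit 0) (nat_lit 14516016590672) (nat_lit 76) (nat_lit 1709476126605) (nat_lit 76) (nat_lit 1709017954713) (nat_lit 1) (nat_lit 4) (nat_lit 2) (nat_lit 5) (nat_lit 2) (nat_lit 4) (nat_lit 536) (nat_lit 365) (nat_lit 299))) (XT.nd (nat_lit 78) (nat_lit 0) (nat_lit 0) (XT.lf (nat_lit 0) (nat_lit 7047556397) (nat_lit 152) (nat_lit 36669819329) (nat_lit 0) (nat_lit 7047556397) (nat_lit 2) (nat_lit 5) (nat_lit 4) (nat_lit 4) (nat_lit 2) (nat_lit 4) (nat_lit 468) (nat_lit 366) (nat_lit 366)) (XT.lf (nat_lit 0) (nat_lit 23526204602) (nat_lit 152) (nat_lit 61969224619) (nat_lit 0) (nat_lit 23489321309) (nat_lit 2) (nat_lit 5) (nat_lit 4) (nat_lit 4) (nat_lit 2) (nat_lit 4) (nat_lit 469) (nat_lit 366) (nat_lit 365))))))) (XT.nd (nat_lit 1014) (nat_lit 0) (nat_lit 0) (XT.nd (nat_lit 468) (nat_lit 0) (nat_lit 0) (XT.nd (nat_lit 234) (nat_lit 76) (nat_lit 0) (XT.nd (nat_lit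 78) (nat_lit 0) (nat_lit 0) (XT.lf (nat_lit 0) (nat_lit 33304983500) (nat_lit 152) (nat_lit 50529641052) (nat_lit 0) (nat_lit 33233949009) (nat_lit 2) (nat_lit 5) (nat_lit 4) (nat_lit 4) (nat_lit 2) (nat_lit 4) (nat_lit 470) (nat_lit 366) (nat_lit 364)) (XT.nd (nat_lit 78) (nat_lit 0) (nat_lit 0) (XT.lf (nat_lit 0) (nat_lit 43489397808) (nat_lit 152) (nat_lit 38953097835) (nat_lit 0) (nat_lit 43386741838) (nat_lit 2) (nat_lit 5) (nat_lit 4) (nat_lit 4) (nat_lit 2) (nat_lit 4) (nat_lit 471) (nat_lit 366) (nat_lit 363)) (XT.lf (nat_lit 0) (nat_lit 54139799611) (nat_lit 152) (nat_lit 27170993230) (nat_lit 0) (nat_lit 54007864494) (nat_lit 2) (nat_lit 5) (nat_lit 4) (nat_lit 4) (nat_lit 2) (nat_lit 4) (nat_lit 472) (nat_lit 366) (nat_lit 362)))) (XT.nd (nat_lit 78) (nat_lit 76) (nat_lit 0) (XT.lf (nat_lit 0) (nat_lit 65319302402) (nat_lit 152) (nat_lit 15113507358) (nat_lit 0) (nat_lit 65160256963)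 (nat_lit 2) (nat_lit 5) (nat_lit 4) (nat_lit 4) (nat_lit 2) (nat_lit 4) (nat_lit 473) (nat_lit 366) (nat_lit 361)) (XT.nd (nat_lit 78) (nat_lit 76) (nat_lit 0) (XT.lf (nat_lit 0) (nat_lit 77094155085) (nat_lit 152) (nat_lit 2709188451) (nat_lit 0) (nat_lit 76910007497) (nat_lit 2) (nat_lit 5) (nat_lit 4) (nat_lit 4) (nat_lit 2) (nat_lit 4) (nat_lit 474) (nat_lit 366) (nat_lit 360)) (XT.lf (nat_lit 0) (nat_lit 10648133320) (nat_lit 76) (nat_lit 79142089108) (nat_lit 76) (nat_lit 78934698788) (nat_lit 1) (nat_lit 4) (nat_lit 2) (nat_lit 5) (nat_lit 2) (nat_lit 4) (nat_lit 475) (nat_lit 366) (nat_lit 359))))) (XT.nd (nat_lit 234) (nat_lit 0) (nat_lit 0) (XT.nd (nat_lit 78) (nat_lit 0) (nat_lit 0) (XT.lf (nat_lit 0) (nat_lit 24670590528) (nat_lit 76) (nat_lit 78635697008) (nat_lit 76) (nat_lit 78406785641) (nat_lit 1) (nat_lit 4) (nat_lit 2) (nat_lit 5) (nat_lit 2) (nat_lit 4) (nat_lit 476)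 (nat_lit 366) (nat_lit 358)) (XT.nd (nat_lit 78) (nat_lit 0) (nat_lit 0) (XT.lf (nat_lit 0) (nat_lit 39298618153) (nat_lit 76) (nat_lit 78355240408) (nat_lit 76) (nat_lit 78106402145) (nat_lit 1) (nat_lit 4) (nat_lit 2) (nat_lit 5) (nat_lit 2) (nat_lit 4) (nat_lit 477) (nat_lit 366) (nat_lit 357)) (XT.lf (nat_lit 0) (nat_lit 54618900802) (nat_lit 76) (nat_lit 78299057342) (nat_lit 76) (nat_lit 78031768251) (nat_lit 1) (nat_lit 4) (nat_lit 2) (nat_lit 5) (nat_lit 2) (nat_lit 4) (nat_lit 478) (nat_lit 366) (nat_lit 356)))) (XT.nd (nat_lit 156) (nat_lit 0) (nat_lit 0) (XT.nd (nat_lit 78) (nat_lit 0) (nat_lit 0) (XT.lf (nat_lit 0) (nat_lit 70722225336) (nat_lit 76) (nat_lit 78466814875) (nat_lit 76) (nat_lit 78182441682) (nat_lit 1) (nat_lit 4) (nat_lit 2) (nat_lit 5) (nat_lit 2) (nat_lit 4) (nat_lit 479) (nat_lit 366) (nat_lit 355)) (XT.lf (nat_lit 0) (nat_lit 87704018864) (nat_lit 76) (nat_lit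 78859507124) (nat_lit 76) (nat_lit 78559315319) (nat_lit 1) (nat_lit 4) (nat_lit 2) (nat_lit 5) (nat_lit 2) (nat_lit 4) (nat_lit 480) (nat_lit 366) (nat_lit 354))) (XT.nd (nat_lit 78) (nat_lit 0) (nat_lit 0) (XT.lf (nat_lit 0) (nat_lit 105664914235) (nat_lit 76) (nat_lit 79479461156) (nat_lit 76) (nat_lit 79164622488) (nat_lit 1) (nat_lit 4) (nat_lit 2) (nat_lit 5) (nat_lit 2) (nat_lit 4) (nat_lit 481) (nat_lit 366) (nat_lit 353)) (XT.lf (nat_lit 0) (nat_lit 124711346385) (nat_lit 76) (nat_lit 80330350771) (nat_lit 76) (nat_lit 80001950192) (nat_lit 1) (nat_lit 4) (nat_lit 2) (nat_lit 5) (nat_lit 2) (nat_lit 4) (nat_lit 482) (nat_lit 366) (nat_lit 352)))))) (XT.nd (nat_lit 468) (nat_lit 0) (nat_lit 0) (XT.nd (nat_lit 234) (nat_lit 0) (nat_lit 0) (XT.nd (nat_lit 78) (nat_lit 0) (nat_lit 0) (XT.lf (nat_lit 0) (nat_lit 144956183061) (nat_lit 76) (nat_lit 81417218278) (nat_lit 76) (nat_lit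 81076260375) (nat_lit 1) (nat_lit 4) (nat_lit 2) (nat_lit 5) (nat_lit 2) (nat_lit 4) (nat_lit 483) (nat_lit 366) (nat_lit 351)) (XT.nd (nat_lit 78) (nat_lit 0) (nat_lit 0) (XT.lf (nat_lit 0) (nat_lit 166519393664) (nat_lit 76) (nat_lit 82746504374) (nat_lit 76) (nat_lit 82393919319) (nat_lit 1) (nat_lit 4) (nat_lit 2) (nat_lit 5) (nat_lit 2) (nat_lit 4) (nat_lit 484) (nat_lit 366) (nat_lit 350)) (XT.lf (nat_lit 0) (nat_lit 189528760185) (nat_lit 76) (nat_lit 84326086310) (nat_lit 76) (nat_lit 83962735373) (nat_lit 1) (nat_lit 4) (nat_lit 2) (nat_lit 5) (nat_lit 2) (nat_lit 4) (nat_lit 485) (nat_lit 366) (nat_lit 349)))) (XT.nd (nat_lit 78) (nat_lit 0) (nat_lit 0) (XT.lf (nat_lit 0) (nat_lit 214120634423) (nat_lit 76) (nat_lit 86165324571) (nat_lit 76) (nat_lit 85792005226) (nat_lit 1) (nat_lit 4) (nat_lit 2) (nat_lit 5) (nat_lit 2) (nat_lit 4) (nat_lit 486) (nat_lit 366) (nat_lit 348))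 (XT.nd (nat_lit 78) (nat_lit 0) (nat_lit 0) (XT.lf (nat_lit 0) (nat_lit 240440746005) (nat_lit 76) (nat_lit 88275118347) (nat_lit 76) (nat_lit 87892568993) (nat_lit 1) (nat_lit 4) (nat_lit 2) (nat_lit 5) (nat_lit 2) (nat_lit 4) (nat_lit 487) (nat_lit 366) (nat_lit 347)) (XT.lf (nat_lit 0) (nat_lit 268645065962) (nat_lit 76) (nat_lit 90667970120) (nat_lit 76) (nat_lit 90276874462) (nat_lit 1) (nat_lit 4) (nat_lit 2) (nat_lit 5) (nat_lit 2) (nat_lit 4) (nat_lit 488) (nat_lit 366) (nat_lit 346))))) (XT.nd (nat_lit 234) (nat_lit 0) (nat_lit 0) (XT.nd (nat_lit 78) (nat_lit 0) (nat_lit 0) (XT.lf (nat_lit 0) (nat_lit 298900731004) (nat_lit 76) (nat_lit 93358059752) (nat_lit 76) (nat_lit 92959050849) (nat_lit 1) (nat_lit 4) (nat_lit 2) (nat_lit 5) (nat_lit 2) (nat_lit 4) (nat_lit 489) (nat_lit 366) (nat_lit 345)) (XT.nd (nat_lit 78) (nat_lit 0) (nat_lit 0) (XT.lf (nat_lit 0) (nat_lit 331387033962)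 (nat_lit 76) (nat_lit 96361328514) (nat_lit 76) (nat_lit 95954992534) (nat_lit 1) (nat_lit 4) (nat_lit 2) (nat_lit 5) (nat_lit 2) (nat_lit 4) (nat_lit 490) (nat_lit 366) (nat_lit 344)) (XT.lf (nat_lit 0) (nat_lit 366296486261) (nat_lit 76) (nat_lit 99695573556) (nat_lit 76) (nat_lit 99282453244) (nat_lit 1) (nat_lit 4) (nat_lit 2) (nat_lit 5) (nat_lit 2) (nat_lit 4) (nat_lit 491) (nat_lit 366) (nat_lit 343)))) (XT.nd (nat_lit 156) (nat_lit 0) (nat_lit 0) (XT.nd (nat_lit 78) (nat_lit 0) (nat_lit 0) (XT.lf (nat_lit 0) (nat_lit 403835958729) (nat_lit 76) (nat_lit 103380553366) (nat_lit 76) (nat_lit 102961151265) (nat_lit 1) (nat_lit 4) (nat_lit 2) (nat_lit 5) (nat_lit 2) (nat_lit 4) (nat_lit 492) (nat_lit 366) (nat_lit 342)) (XT.lf (nat_lit 0) (nat_lit 444227907499) (nat_lit 76) (nat_lit 107438104861) (nat_lit 76) (nat_lit 107012886289) (nat_lit 1) (nat_lit 4) (nat_lit 2) (nat_lit 5) (nat_lit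 2) (nat_lit 4) (nat_lit 493) (nat_lit 366) (nat_lit 341))) (XT.nd (nat_lit 78) (nat_lit 0) (nat_lit 0) (XT.lf (nat_lit 0) (nat_lit 487711692268) (nat_lit 76) (nat_lit 111892272792) (nat_lit 76) (nat_lit 111461668599) (nat_lit 1) (nat_lit 4) (nat_lit 2) (nat_lit 5) (nat_lit 2) (nat_lit 4) (nat_lit 494) (nat_lit 366) (nat_lit 340)) (XT.lf (nat_lit 0) (nat_lit 534544994723) (nat_lit 76) (nat_lit 116769452227) (nat_lit 76) (nat_lit 116333861347) (nat_lit 1) (nat_lit 4) (nat_lit 2) (nat_lit 5) (nat_lit 2) (nat_lit 4) (nat_lit 495) (nat_lit 366) (nat_lit 339))))))))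
noncomputable def xc24 : XT := (XT.nd (nat_lit 1950) (nat_lit 0) (nat_lit 0) (XT.nd (nat_lit 936) (nat_lit 0) (nat_lit 0) (XT.nd (nat_lit 468) (nat_lit 0) (nat_lit 0) (XT.nd (nat_lit 234) (nat_lit 0) (nat_lit 0) (XT.nd (nat_lit 78) (nat_lit 0) (nat_lit 0) (XT.lf (nat_lit 0) (nat_lit 585005345545) (nat_lit 76) (nat_lit 122098544970) (nat_lit 76) (nat_lit 121658336789) (nat_lit 1) (nat_lit 4) (nat_lit 2) (nat_lit 5) (nat_lit 2) (nat_lit 4) (nat_lit 496) (nat_lit 366) (nat_lit 338)) (XT.nd (nat_lit 78) (nat_lit 0) (nat_lit 0) (XT.lf (nat_lit 0) (nat_lit 639391769036) (nat_lit 76) (nat_lit 127911130831) (nat_lit 76) (nat_lit 127466647370) (nat_lit 1) (nat_lit 4) (nat_lit 2) (nat_lit 5) (nat_lit 2) (nat_lit 4) (nat_lit 497) (nat_lit 366) (nat_lit 337)) (XT.lf (nat_lit 0) (nat_lit 698026555112) (nat_lit 76) (nat_lit 134241654762) (nat_lit 76) (nat_lit 133793212709) (nat_lit 1) (nat_lit 4) (nat_lit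 2) (nat_lit 5) (nat_lit 2) (nat_lit 4) (nat_lit 498) (nat_lit 366) (nat_lit 336)))) (XT.nd (nat_lit 78) (nat_lit 0) (nat_lit 0) (XT.lf (nat_lit 0) (nat_lit 761257169173) (nat_lit 76) (nat_lit 141127630980) (nat_lit 76) (nat_lit 140675523563) (nat_lit 1) (nat_lit 4) (nat_lit 2) (nat_lit 5) (nat_lit 2) (nat_lit 4) (nat_lit 499) (nat_lit 366) (nat_lit 335)) (XT.nd (nat_lit 78) (nat_lit 0) (nat_lit 0) (XT.lf (nat_lit 0) (nat_lit 829458311153) (nat_lit 76) (nat_lit 148609865269) (nat_lit 76) (nat_lit 148154363997) (nat_lit 1) (nat_lit 4) (nat_lit 2) (nat_lit 5) (nat_lit 2) (nat_lit 4) (nat_lit 500) (nat_lit 366) (nat_lit 334)) (XT.lf (nat_lit 0) (nat_lit 903034135968) (nat_lit 76) (nat_lit 156732696796) (nat_lit 76) (nat_lit 156274053066) (nat_lit 1) (nat_lit 4) (nat_lit 2) (nat_lit 5) (nat_lit 2) (nat_lit 4) (nat_lit 501) (nat_lit 366) (nat_lit 333))))) (XT.nd (nat_lit 234) (nat_lit 0) (nat_lit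 0) (XT.nd (nat_lit 78) (nat_lit 0) (nat_lit 0) (XT.lf (nat_lit 0) (nat_lit 982420648506) (nat_lit 76) (nat_lit 165544260858) (nat_lit 76) (nat_lit 165082707445) (nat_lit 1) (nat_lit 4) (nat_lit 2) (nat_lit 5) (nat_lit 2) (nat_lit 4) (nat_lit 502) (nat_lit 366) (nat_lit 332)) (XT.nd (nat_lit 78) (nat_lit 0) (nat_lit 0) (XT.lf (nat_lit 0) (nat_lit 1068088287360) (nat_lit 76) (nat_lit 175096774132) (nat_lit 76) (nat_lit 174632526567) (nat_lit 1) (nat_lit 4) (nat_lit 2) (nat_lit 5) (nat_lit 2) (nat_lit 4) (nat_lit 503) (nat_lit 366) (nat_lit 331)) (XT.lf (nat_lit 0) (nat_lit 1160544712612) (nat_lit 76) (nat_lit 185446844104) (nat_lit 76) (nat_lit 184980101954) (nat_lit 1) (nat_lit 4) (nat_lit 2) (nat_lit 5) (nat_lit 2) (nat_lit 4) (nat_lit 504) (nat_lit 366) (nat_lit 330)))) (XT.nd (nat_lit 78) (nat_lit 0) (nat_lit 0) (XT.lf (nat_lit 0) (nat_lit 1260337814189) (nat_lit 76) (nat_lit 196655804521)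 (nat_lit 76) (nat_lit 196186752570) (nat_lit 1) (nat_lit 4) (nat_lit 2) (nat_lit 5) (nat_lit 2) (nat_lit 4) (nat_lit 505) (nat_lit 366) (nat_lit 329)) (XT.nd (nat_lit 78) (nat_lit 0) (nat_lit 0) (XT.lf (nat_lit 0) (nat_lit 1368058958619) (nat_lit 76) (nat_lit 208790078852) (nat_lit 76) (nat_lit 208318888198) (nat_lit 1) (nat_lit 4) (nat_lit 2) (nat_lit 5) (nat_lit 2) (nat_lit 4) (nat_lit 506) (nat_lit 366) (nat_lit 328)) (XT.lf (nat_lit 0) (nat_lit 1484346493425) (nat_lit 76) (nat_lit 221921573909) (nat_lit 76) (nat_lit 221448402973) (nat_lit 1) (nat_lit 4) (nat_lit 2) (nat_lit 5) (nat_lit 2) (nat_lit 4) (nat_lit 507) (nat_lit 366) (nat_lit 327)))))) (XT.nd (nat_lit 468) (nat_lit 0) (nat_lit 0) (XT.nd (nat_lit 234) (nat_lit 0) (nat_lit 0) (XT.nd (nat_lit 78) (nat_lit 0) (nat_lit 0) (XT.lf (nat_lit 0) (nat_lit 1609889529923) (nat_lit 76) (nat_lit 236128105959) (nat_lit 76) (nat_lit 235653101428)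 (nat_lit 1) (nat_lit 4) (nat_lit 2) (nat_lit 5) (nat_lit 2) (nat_lit 4) (nat_lit 508) (nat_lit 366) (nat_lit 326)) (XT.nd (nat_lit 78) (nat_lit 0) (nat_lit 0) (XT.lf (nat_lit 0) (nat_lit 1745432026850) (nat_lit 76) (nat_lit 251493861858) (nat_lit 76) (nat_lit 251017159555) (nat_lit 1) (nat_lit 4) (nat_lit 2) (nat_lit 5) (nat_lit 2) (nat_lit 4) (nat_lit 509) (nat_lit 366) (nat_lit 325)) (XT.lf (nat_lit 0) (nat_lit 1891777199000) (nat_lit 76) (nat_lit 268109897937) (nat_lit 76) (nat_lit 267631623622) (nat_lit 1) (nat_lit 4) (nat_lit 2) (nat_lit 5) (nat_lit 2) (nat_lit 4) (nat_lit 510) (nat_lit 366) (nat_lit 324)))) (XT.nd (nat_lit 78) (nat_lit 0) (nat_lit 0) (XT.lf (nat_lit 0) (nat_lit 2049792277025) (nat_lit 76) (nat_lit 286074679595) (nat_lit 76) (nat_lit 285594949714) (nat_lit 1) (nat_lit 4) (nat_lit 2) (nat_lit 5) (nat_lit 2) (nat_lit 4) (nat_lit 511) (nat_lit 366) (nat_lit 323)) (XT.nd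 (nat_lit 78) (nat_lit 0) (nat_lit 0) (XT.lf (nat_lit 0) (nat_lit 2220413646572) (nat_lit 76) (nat_lit 305494664798) (nat_lit 76) (nat_lit 305013587171) (nat_lit 1) (nat_lit 4) (nat_lit 2) (nat_lit 5) (nat_lit 2) (nat_lit 4) (nat_lit 512) (nat_lit 366) (nat_lit 322)) (XT.lf (nat_lit 0) (nat_lit 2404652397238) (nat_lit 76) (nat_lit 326484934940) (nat_lit 76) (nat_lit 326002609399) (nat_lit 1) (nat_lit 4) (nat_lit 2) (nat_lit 5) (nat_lit 2) (nat_lit 4) (nat_lit 513) (nat_lit 366) (nat_lit 321))))) (XT.nd (nat_lit 234) (nat_lit 0) (nat_lit 0) (XT.nd (nat_lit 78) (nat_lit 0) (nat_lit 0) (XT.lf (nat_lit 0) (nat_lit 2603600314212) (nat_lit 76) (nat_lit 349169876806) (nat_lit 76) (nat_lit 348686395790) (nat_lit 1) (nat_lit 4) (nat_lit 2) (nat_lit 5) (nat_lit 2) (nat_lit 4) (nat_lit 514) (nat_lit 366) (nat_lit 320)) (XT.nd (nat_lit 78) (nat_lit 0) (nat_lit 0) (XT.lf (nat_lit 0) (nat_lit 2818436348113)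 (nat_lit 76) (nat_lit 373683919682) (nat_lit 76) (nat_lit 373199368781) (nat_lit 1) (nat_lit 4) (nat_lit 2) (nat_lit 5) (nat_lit 2) (nat_lit 4) (nat_lit 515) (nat_lit 366) (nat_lit 319)) (XT.lf (nat_lit 0) (nat_lit 3050433601365) (nat_lit 76) (nat_lit 400172331970) (nat_lit 76) (nat_lit 399686790435) (nat_lit 1) (nat_lit 4) (nat_lit 2) (nat_lit 5) (nat_lit 2) (nat_lit 4) (nat_lit 516) (nat_lit 366) (nat_lit 318)))) (XT.nd (nat_lit 156) (nat_lit 0) (nat_lit 0) (XT.nd (nat_lit 78) (nat_lit 0) (nat_lit 0) (XT.lf (nat_lit 0) (nat_lit 3300966872504) (nat_lit 76) (nat_lit 428792082038) (nat_lit 76) (nat_lit 428305623251) (nat_lit 1) (nat_lit 4) (nat_lit 2) (nat_lit 5) (nat_lit 2) (nat_lit 4) (nat_lit 517) (nat_lit 366) (nat_lit 317)) (XT.lf (nat_lit 0) (nat_lit 3571520803139) (nat_lit 76) (nat_lit 459712768407) (nat_lit 76) (nat_lit 459225460310) (nat_lit 1) (nat_lit 4) (nat_lit 2) (nat_lit 5)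 (nat_lit 2) (nat_lit 4) (nat_lit 518) (nat_lit 366) (nat_lit 316))) (XT.nd (nat_lit 78) (nat_lit 0) (nat_lit 0) (XT.lf (nat_lit 0) (nat_lit 3863698675821) (nat_lit 76) (nat_lit 493117624773) (nat_lit 76) (nat_lit 492629530279) (nat_lit 1) (nat_lit 4) (nat_lit 2) (nat_lit 5) (nat_lit 2) (nat_lit 4) (nat_lit 519) (nat_lit 366) (nat_lit 315)) (XT.lf (nat_lit 0) (nat_lit 4179231914980) (nat_lit 76) (nat_lit 529204605840) (nat_lit 76) (nat_lit 528715783201) (nat_lit 1) (nat_lit 4) (nat_lit 2) (nat_lit 5) (nat_lit 2) (nat_lit 4) (nat_lit 520) (nat_lit 366) (nat_lit 314))))))) (XT.nd (nat_lit 936) (nat_lit 0) (nat_lit 0) (XT.nd (nat_lit 468) (nat_lit 0) (nat_lit 0) (XT.nd (nat_lit 234) (nat_lit 0) (nat_lit 0) (XT.nd (nat_lit 78) (nat_lit 0) (nat_lit 0) (XT.lf (nat_lit 0) (nat_lit 4519990347219) (nat_lit 76) (nat_lit 568187560385) (nat_lit 76) (nat_lit 567698063537) (nat_lit 1) (nat_lit 4) (nat_lit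 2) (nat_lit 5) (nat_lit 2) (nat_lit 4) (nat_lit 521) (nat_lit 366) (nat_lit 313)) (XT.nd (nat_lit 78) (nat_lit 0) (nat_lit 0) (XT.lf (nat_lit 0) (nat_lit 4887993281766) (nat_lit 76) (nat_lit 610297498509) (nat_lit 76) (nat_lit 609807377394) (nat_lit 1) (nat_lit 4) (nat_lit 2) (nat_lit 5) (nat_lit 2) (nat_lit 4) (nat_lit 522) (nat_lit 366) (nat_lit 312)) (XT.lf (nat_lit 0) (nat_lit 5285421476752) (nat_lit 76) (nat_lit 655783960586) (nat_lit 76) (nat_lit 655293261445) (nat_lit 1) (nat_lit 4) (nat_lit 2) (nat_lit 5) (nat_lit 2) (nat_lit 4) (nat_lit 523) (nat_lit 366) (nat_lit 311)))) (XT.nd (nat_lit 78) (nat_lit 0) (nat_lit 0) (XT.lf (nat_lit 0) (nat_lit 5714630062221) (nat_lit 76) (nat_lit 704916496022) (nat_lit 76) (nat_lit 704425261672) (nat_lit 1) (nat_lit 4) (nat_lit 2) (nat_lit 5) (nat_lit 2) (nat_lit 4) (nat_lit 524) (nat_lit 366) (nat_lit 310)) (XT.nd (nat_lit 78) (nat_lit 0) (nat_lit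 0) (XT.lf (nat_lit 0) (nat_lit 6178162496457) (nat_lit 76) (nat_lit 757986260580) (nat_lit 76) (nat_lit 757494530667) (nat_lit 1) (nat_lit 4) (nat_lit 2) (nat_lit 5) (nat_lit 2) (nat_lit 4) (nat_lit 525) (nat_lit 366) (nat_lit 309)) (XT.lf (nat_lit 0) (nat_lit 6678765638330) (nat_lit 76) (nat_lit 815307741756) (nat_lit 76) (nat_lit 814815552988) (nat_lit 1) (nat_lit 4) (nat_lit 2) (nat_lit 5) (nat_lit 2) (nat_lit 4) (nat_lit 526) (nat_lit 366) (nat_lit 308))))) (XT.nd (nat_lit 234) (nat_lit 0) (nat_lit 0) (XT.nd (nat_lit 78) (nat_lit 0) (nat_lit 0) (XT.lf (nat_lit 0) (nat_lit 7219406024977) (nat_lit 76) (nat_lit 877220622401) (nat_lit 76) (nat_lit 876728008767) (nat_lit 1) (nat_lit 4) (nat_lit 2) (nat_lit 5) (nat_lit 2) (nat_lit 4) (nat_lit 527) (nat_lit 366) (nat_lit 307)) (XT.nd (nat_lit 78) (nat_lit 0) (nat_lit 0) (XT.lf (nat_lit 0) (nat_lit 7803287451282) (nat_lit 76) (nat_lit 944091793659)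 (nat_lit 76) (nat_lit 943598786630) (nat_lit 1) (nat_lit 4) (nat_lit 2) (nat_lit 5) (nat_lit 2) (nat_lit 4) (nat_lit 528) (nat_lit 366) (nat_lit 306)) (XT.lf (nat_lit 0) (nat_lit 8433869955326) (nat_lit 76) (nat_lit 1016317529138) (nat_lit 76) (nat_lit 1015824157855) (nat_lit 1) (nat_lit 4) (nat_lit 2) (nat_lit 5) (nat_lit 2) (nat_lit 4) (nat_lit 529) (nat_lit 366) (nat_lit 305)))) (XT.nd (nat_lit 78) (nat_lit 0) (nat_lit 0) (XT.lf (nat_lit 0) (nat_lit 9114890322319) (nat_lit 76) (nat_lit 1094325833195) (nat_lit 76) (nat_lit 1093832124640) (nat_lit 1) (nat_lit 4) (nat_lit 2) (nat_lit 5) (nat_lit 2) (nat_lit 4) (nat_lit 530) (nat_lit 366) (nat_lit 304)) (XT.nd (nat_lit 78) (nat_lit 0) (nat_lit 0) (XT.lf (nat_lit 0) (nat_lit 9850384228510) (nat_lit 76) (nat_lit 1178578977263) (nat_lit 76) (nat_lit 1178084956419) (nat_lit 1) (nat_lit 4) (nat_lit 2) (nat_lit 5) (nat_lit 2) (nat_lit 4) (nat_lit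 531) (nat_lit 366) (nat_lit 303)) (XT.lf (nat_lit 0) (nat_lit 10644710156305) (nat_lit 76) (nat_lit 1269576239233) (nat_lit 76) (nat_lit 1269081929232) (nat_lit 1) (nat_lit 4) (nat_lit 2) (nat_lit 5) (nat_lit 2) (nat_lit 4) (nat_lit 532) (nat_lit 366) (nat_lit 302)))))) (XT.nd (nat_lit 57408) (nat_lit 0) (nat_lit 76) (XT.nd (nat_lit 234) (nat_lit 0) (nat_lit 0) (XT.nd (nat_lit 78) (nat_lit 0) (nat_lit 0) (XT.lf (nat_lit 0) (nat_lit 11502575222314) (nat_lit 76) (nat_lit 1367856862137) (nat_lit 76) (nat_lit 1367362284399) (nat_lit 1) (nat_lit 4) (nat_lit 2) (nat_lit 5) (nat_lit 2) (nat_lit 4) (nat_lit 533) (nat_lit 366) (nat_lit 301)) (XT.nd (nat_lit 78) (nat_lit 0) (nat_lit 0) (XT.lf (nat_lit 0) (nat_lit 12429063071373) (nat_lit 76) (nat_lit 1474003249668) (nat_lit 76) (nat_lit 1473508424025) (nat_lit 1) (nat_lit 4) (nat_lit 2) (nat_lit 5) (nat_lit 2) (nat_lit 4) (nat_lit 534) (nat_lit 366)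 (nat_lit 300)) (XT.lf (nat_lit 0) (nat_lit 13429664001845) (nat_lit 76) (nat_lit 1588644417455) (nat_lit 76) (nat_lit 1588149362270) (nat_lit 1) (nat_lit 4) (nat_lit 2) (nat_lit 5) (nat_lit 2) (nat_lit 4) (nat_lit 535) (nat_lit 366) (nat_lit 299)))) (XT.nd (nat_lit 57018) (nat_lit 0) (nat_lit 76) (XT.lf (nat_lit 0) (nat_lit 14510307500727) (nat_lit 76) (nat_lit 1712459720567) (nat_lit 76) (nat_lit 1711964452843) (nat_lit 1) (nat_lit 4) (nat_lit 2) (nat_lit 5) (nat_lit 2) (nat_lit 4) (nat_lit 536) (nat_lit 366) (nat_lit 298)) (XT.nd (nat_lit 78) (nat_lit 152) (nat_lit 0) (XT.lf (nat_lit 0) (nat_lit 40558591735) (nat_lit 76) (nat_lit 1792383167) (nat_lit 76) (nat_lit 1792383167) (nat_lit 4) (nat_lit 4) (nat_lit 5) (nat_lit 5) (nat_lit 5) (nat_lit 4) (nat_lit 466) (nat_lit 367) (nat_lit 367)) (XT.lf (nat_lit 0) (nat_lit 4995654085) (nat_lit 152) (nat_lit 84708263406) (nat_lit 0) (nat_lit 4955820128)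 (nat_lit 2) (nat_lit 5) (nat_lit 4) (nat_lit 4) (nat_lit 2) (nat_lit 4) (nat_lit 467) (nat_lit 367) (nat_lit 366))))) (XT.nd (nat_lit 234) (nat_lit 0) (nat_lit 0) (XT.nd (nat_lit 78) (nat_lit 0) (nat_lit 0) (XT.lf (nat_lit 0) (nat_lit 13923723543) (nat_lit 152) (nat_lit 73776033220) (nat_lit 0) (nat_lit 13847006294) (nat_lit 2) (nat_lit 5) (nat_lit 4) (nat_lit 4) (nat_lit 2) (nat_lit 4) (nat_lit 468) (nat_lit 367) (nat_lit 365)) (XT.nd (nat_lit 78) (nat_lit 0) (nat_lit 0) (XT.lf (nat_lit 0) (nat_lit 23159238305) (nat_lit 152) (nat_lit 62809688216) (nat_lit 0) (nat_lit 23048369858) (nat_lit 2) (nat_lit 5) (nat_lit 4) (nat_lit 4) (nat_lit 2) (nat_lit 4) (nat_lit 469) (nat_lit 367) (nat_lit 364)) (XT.lf (nat_lit 0) (nat_lit 32756927346) (nat_lit 152) (nat_lit 51744242647) (nat_lit 0) (nat_lit 32614437420) (nat_lit 2) (nat_lit 5) (nat_lit 4) (nat_lit 4) (nat_lit 2) (nat_lit 4) (nat_lit 470)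 (nat_lit 367) (nat_lit 363)))) (XT.nd (nat_lit 156) (nat_lit 0) (nat_lit 0) (XT.nd (nat_lit 78) (nat_lit 0) (nat_lit 0) (XT.lf (nat_lit 0) (nat_lit 42773665861) (nat_lit 152) (nat_lit 40514123502) (nat_lit 0) (nat_lit 42601896788) (nat_lit 2) (nat_lit 5) (nat_lit 4) (nat_lit 4) (nat_lit 2) (nat_lit 4) (nat_lit 471) (nat_lit 367) (nat_lit 362)) (XT.lf (nat_lit 0) (nat_lit 53268812301) (nat_lit 152) (nat_lit 29052781927) (nat_lit 0) (nat_lit 53069932906) (nat_lit 2) (nat_lit 5) (nat_lit 4) (nat_lit 4) (nat_lit 2) (nat_lit 4) (nat_lit 472) (nat_lit 367) (nat_lit 361))) (XT.nd (nat_lit 78) (nat_lit 0) (nat_lit 0) (XT.lf (nat_lit 0) (nat_lit 64304560125) (nat_lit 152) (nat_lit 17292298860) (nat_lit 0) (nat_lit 64080578580) (nat_lit 2) (nat_lit 5) (nat_lit 4) (nat_lit 4) (nat_lit 2) (nat_lit 4) (nat_lit 473) (nat_lit 367) (nat_lit 360)) (XT.lf (nat_lit 0) (nat_lit 75946306357) (nat_lit 152) (nat_lit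 5162982549) (nat_lit 0) (nat_lit 75699082081) (nat_lit 2) (nat_lit 5) (nat_lit 4) (nat_lit 4) (nat_lit 2) (nat_lit 4) (nat_lit 474) (nat_lit 367) (nat_lit 359))))))))
noncomputable def xc25 : XT := (XT.nd (nat_lit 1950) (nat_lit 0) (nat_lit 0) (XT.nd (nat_lit 936) (nat_lit 0) (nat_lit 0) (XT.nd (nat_lit 468) (nat_lit 0) (nat_lit 0) (XT.nd (nat_lit 234) (nat_lit 0) (nat_lit 0) (XT.nd (nat_lit 78) (nat_lit 0) (nat_lit 0) (XT.lf (nat_lit 0) (nat_lit 7797086266) (nat_lit 76) (nat_lit 80653472970) (nat_lit 76) (nat_lit 80384727647) (nat_lit 1) (nat_lit 4) (nat_lit 2) (nat_lit 5) (nat_lit 2) (nat_lit 4) (nat_lit 475) (nat_lit 367) (nat_lit 358)) (XT.nd (nat_lit 78) (nat_lit 0) (nat_lit 0) (XT.lf (nat_lit 0) (nat_lit 21571357820) (nat_lit 76) (nat_lit 80275180326) (nat_lit 76) (nat_lit 79986508107) (nat_lit 1) (nat_lit 4) (nat_lit 2) (nat_lit 5) (nat_lit 2) (nat_lit 4) (nat_lit 476) (nat_lit 367)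 (nat_lit 357)) (XT.lf (nat_lit 0) (nat_lit 35969583914) (nat_lit 76) (nat_lit 80113334333) (nat_lit 76) (nat_lit 79806211285) (nat_lit 1) (nat_lit 4) (nat_lit 2) (nat_lit 5) (nat_lit 2) (nat_lit 4) (nat_lit 477) (nat_lit 367) (nat_lit 356)))) (XT.nd (nat_lit 78) (nat_lit 0) (nat_lit 0) (XT.lf (nat_lit 0) (nat_lit 51077087367) (nat_lit 76) (nat_lit 80166975904) (nat_lit 76) (nat_lit 79842768754) (nat_lit 1) (nat_lit 4) (nat_lit 2) (nat_lit 5) (nat_lit 2) (nat_lit 4) (nat_lit 478) (nat_lit 367) (nat_lit 355)) (XT.nd (nat_lit 78) (nat_lit 0) (nat_lit 0) (XT.lf (nat_lit 0) (nat_lit 66983394128) (nat_lit 76) (nat_lit 80436422914) (nat_lit 76) (nat_lit 80096397153) (nat_lit 1) (nat_lit 4) (nat_lit 2) (nat_lit 5) (nat_lit 2) (nat_lit 4) (nat_lit 479) (nat_lit 367) (nat_lit 354)) (XT.lf (nat_lit 0) (nat_lit 83782763790) (nat_lit 76) (nat_lit 80923272088) (nat_lit 76) (nat_lit 80568599463) (nat_lit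 1) (nat_lit 4) (nat_lit 2) (nat_lit 5) (nat_lit 2) (nat_lit 4) (nat_lit 480) (nat_lit 367) (nat_lit 353))))) (XT.nd (nat_lit 234) (nat_lit 0) (nat_lit 0) (XT.nd (nat_lit 78) (nat_lit 0) (nat_lit 0) (XT.lf (nat_lit 0) (nat_lit 101574748176) (nat_lit 76) (nat_lit 81630408456) (nat_lit 76) (nat_lit 81262173921) (nat_lit 1) (nat_lit 4) (nat_lit 2) (nat_lit 5) (nat_lit 2) (nat_lit 4) (nat_lit 481) (nat_lit 367) (nat_lit 352)) (XT.nd (nat_lit 78) (nat_lit 0) (nat_lit 0) (XT.lf (nat_lit 0) (nat_lit 120464781265) (nat_lit 76) (nat_lit 82562022457) (nat_lit 76) (nat_lit 82181230598) (nat_lit 1) (nat_lit 4) (nat_lit 2) (nat_lit 5) (nat_lit 2) (nat_lit 4) (nat_lit 482) (nat_lit 367) (nat_lit 351)) (XT.lf (nat_lit 0) (nat_lit 140564803996) (nat_lit 76) (nat_lit 83723634767) (nat_lit 76) (nat_lit 83331215755) (nat_lit 1) (nat_lit 4) (nat_lit 2) (nat_lit 5) (nat_lit 2) (nat_lit 4) (nat_lit 483) (nat_lit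 367) (nat_lit 350)))) (XT.nd (nat_lit 78) (nat_lit 0) (nat_lit 0) (XT.lf (nat_lit 0) (nat_lit 161993927613) (nat_lit 76) (nat_lit 85122129013) (nat_lit 76) (nat_lit 84718944120) (nat_lit 1) (nat_lit 4) (nat_lit 2) (nat_lit 5) (nat_lit 2) (nat_lit 4) (nat_lit 484) (nat_lit 367) (nat_lit 349)) (XT.nd (nat_lit 78) (nat_lit 0) (nat_lit 0) (XT.lf (nat_lit 0) (nat_lit 184879139516) (nat_lit 76) (nat_lit 86765792569) (nat_lit 76) (nat_lit 86352639267) (nat_lit 1) (nat_lit 4) (nat_lit 2) (nat_lit 5) (nat_lit 2) (nat_lit 4) (nat_lit 485) (nat_lit 367) (nat_lit 348)) (XT.lf (nat_lit 0) (nat_lit 209356055776) (nat_lit 76) (nat_lit 88664365664) (nat_lit 76) (nat_lit 88241982353) (nat_lit 1) (nat_lit 4) (nat_lit 2) (nat_lit 5) (nat_lit 2) (nat_lit 4) (nat_lit 486) (nat_lit 367) (nat_lit 347)))))) (XT.nd (nat_lit 468) (nat_lit 0) (nat_lit 0) (XT.nd (nat_lit 234) (nat_lit 0) (nat_lit 0) (XT.nd (nat_lit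 78) (nat_lit 0) (nat_lit 0) (XT.lf (nat_lit 0) (nat_lit 235569724785) (nat_lit 76) (nat_lit 90829099101) (nat_lit 76) (nat_lit 90398169486) (nat_lit 1) (nat_lit 4) (nat_lit 2) (nat_lit 5) (nat_lit 2) (nat_lit 4) (nat_lit 487) (nat_lit 367) (nat_lit 346)) (XT.nd (nat_lit 78) (nat_lit 0) (nat_lit 0) (XT.lf (nat_lit 0) (nat_lit 263675486804) (nat_lit 76) (nat_lit 93272820930) (nat_lit 76) (nat_lit 92833978071) (nat_lit 1) (nat_lit 4) (nat_lit 2) (nat_lit 5) (nat_lit 2) (nat_lit 4) (nat_lit 488) (nat_lit 367) (nat_lit 345)) (XT.lf (nat_lit 0) (nat_lit 293839894496) (nat_lit 76) (nat_lit 96010012466) (nat_lit 76) (nat_lit 95563842528) (nat_lit 1) (nat_lit 4) (nat_lit 2) (nat_lit 5) (nat_lit 2) (nat_lit 4) (nat_lit 489) (nat_lit 367) (nat_lit 344)))) (XT.nd (nat_lit 78) (nat_lit 0) (nat_lit 0) (XT.lf (nat_lit 0) (nat_lit 326241699908) (nat_lit 76) (nat_lit 99056894102) (nat_lit 76) (nat_lit 98603939833)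 (nat_lit 1) (nat_lit 4) (nat_lit 2) (nat_lit 5) (nat_lit 2) (nat_lit 4) (nat_lit 490) (nat_lit 367) (nat_lit 343)) (XT.nd (nat_lit 78) (nat_lit 0) (nat_lit 0) (XT.lf (nat_lit 0) (nat_lit 361072913739) (nat_lit 76) (nat_lit 102431521435) (nat_lit 76) (nat_lit 101972285377) (nat_lit 1) (nat_lit 4) (nat_lit 2) (nat_lit 5) (nat_lit 2) (nat_lit 4) (nat_lit 491) (nat_lit 367) (nat_lit 342)) (XT.lf (nat_lit 0) (nat_lit 398539943180) (nat_lit 76) (nat_lit 106153892255) (nat_lit 76) (nat_lit 105688839726) (nat_lit 1) (nat_lit 4) (nat_lit 2) (nat_lit 5) (nat_lit 2) (nat_lit 4) (nat_lit 492) (nat_lit 367) (nat_lit 341))))) (XT.nd (nat_lit 234) (nat_lit 0) (nat_lit 0) (XT.nd (nat_lit 78) (nat_lit 0) (nat_lit 0) (XT.lf (nat_lit 0) (nat_lit 438864815074) (nat_lit 76) (nat_lit 110246065055) (nat_lit 76) (nat_lit 109775626906) (nat_lit 1) (nat_lit 4) (nat_lit 2) (nat_lit 5) (nat_lit 2) (nat_lit 4) (nat_lit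 493) (nat_lit 367) (nat_lit 340)) (XT.nd (nat_lit 78) (nat_lit 0) (nat_lit 0) (XT.lf (nat_lit 0) (nat_lit 482286491623) (nat_lit 76) (nat_lit 114732289750) (nat_lit 76) (nat_lit 114256864914) (nat_lit 1) (nat_lit 4) (nat_lit 2) (nat_lit 5) (nat_lit 2) (nat_lit 4) (nat_lit 494) (nat_lit 367) (nat_lit 339)) (XT.lf (nat_lit 0) (nat_lit 529062286468) (nat_lit 76) (nat_lit 119639151375) (nat_lit 76) (nat_lit 119159109237) (nat_lit 1) (nat_lit 4) (nat_lit 2) (nat_lit 5) (nat_lit 2) (nat_lit 4) (nat_lit 495) (nat_lit 367) (nat_lit 338)))) (XT.nd (nat_lit 156) (nat_lit 0) (nat_lit 0) (XT.nd (nat_lit 78) (nat_lit 0) (nat_lit 0) (XT.lf (nat_lit 0) (nat_lit 579469389503) (nat_lit 76) (nat_lit 124995727627) (nat_lit 76) (nat_lit 124511410209) (nat_lit 1) (nat_lit 4) (nat_lit 2) (nat_lit 5) (nat_lit 2) (nat_lit 4) (nat_lit 496) (nat_lit 367) (nat_lit 337)) (XT.lf (nat_lit 0) (nat_lit 633806509487) (nat_lit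 76) (nat_lit 130833761181) (nat_lit 76) (nat_lit 130345485170) (nat_lit 1) (nat_lit 4) (nat_lit 2) (nat_lit 5) (nat_lit 2) (nat_lit 4) (nat_lit 497) (nat_lit 367) (nat_lit 336))) (XT.nd (nat_lit 78) (nat_lit 0) (nat_lit 0) (XT.lf (nat_lit 0) (nat_lit 692395644168) (nat_lit 76) (nat_lit 137187847791) (nat_lit 76) (nat_lit 136695906417) (nat_lit 1) (nat_lit 4) (nat_lit 2) (nat_lit 5) (nat_lit 2) (nat_lit 4) (nat_lit 498) (nat_lit 367) (nat_lit 335)) (XT.lf (nat_lit 0) (nat_lit 755583988419) (nat_lit 76) (nat_lit 144095641304) (nat_lit 76) (nat_lit 143600306075) (nat_lit 1) (nat_lit 4) (nat_lit 2) (nat_lit 5) (nat_lit 2) (nat_lit 4) (nat_lit 499) (nat_lit 367) (nat_lit 334))))))) (XT.nd (nat_lit 936) (nat_lit 0) (nat_lit 0) (XT.nd (nat_lit 468) (nat_lit 0) (nat_lit 0) (XT.nd (nat_lit 234) (nat_lit 0) (nat_lit 0) (XT.nd (nat_lit 78) (nat_lit 0) (nat_lit 0) (XT.lf (nat_lit 0) (nat_lit 823745991686)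 (nat_lit 76) (nat_lit 151598076792) (nat_lit 76) (nat_lit 151099599106) (nat_lit 1) (nat_lit 4) (nat_lit 2) (nat_lit 5) (nat_lit 2) (nat_lit 4) (nat_lit 500) (nat_lit 367) (nat_lit 333)) (XT.nd (nat_lit 78) (nat_lit 0) (nat_lit 0) (XT.lf (nat_lit 0) (nat_lit 897285576952) (nat_lit 76) (nat_lit 159739613133) (nat_lit 76) (nat_lit 159238225763) (nat_lit 1) (nat_lit 4) (nat_lit 2) (nat_lit 5) (nat_lit 2) (nat_lit 4) (nat_lit 501) (nat_lit 367) (nat_lit 332)) (XT.lf (nat_lit 0) (nat_lit 976638534352) (nat_lit 76) (nat_lit 168568496468) (nat_lit 76) (nat_lit 168064414946) (nat_lit 1) (nat_lit 4) (nat_lit 2) (nat_lit 5) (nat_lit 2) (nat_lit 4) (nat_lit 502) (nat_lit 367) (nat_lit 331)))) (XT.nd (nat_lit 78) (nat_lit 0) (nat_lit 0) (XT.lf (nat_lit 0) (nat_lit 1062275103634) (nat_lit 76) (nat_lit 178137046105) (nat_lit 76) (nat_lit 177630469999) (nat_lit 1) (nat_lit 4) (nat_lit 2) (nat_lit 5) (nat_lit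 2) (nat_lit 4) (nat_lit 503) (nat_lit 367) (nat_lit 330)) (XT.nd (nat_lit 78) (nat_lit 0) (nat_lit 0) (XT.lf (nat_lit 0) (nat_lit 1154702760763) (nat_lit 76) (nat_lit 188501964561) (nat_lit 76) (nat_lit 187993078654) (nat_lit 1) (nat_lit 4) (nat_lit 2) (nat_lit 5) (nat_lit 2) (nat_lit 4) (nat_lit 504) (nat_lit 367) (nat_lit 329)) (XT.lf (nat_lit 0) (nat_lit 1254469225189) (nat_lit 76) (nat_lit 199724673575) (nat_lit 76) (nat_lit 199213648963) (nat_lit 1) (nat_lit 4) (nat_lit 2) (nat_lit 5) (nat_lit 2) (nat_lit 4) (nat_lit 505) (nat_lit 367) (nat_lit 328))))) (XT.nd (nat_lit 234) (nat_lit 0) (nat_lit 0) (XT.nd (nat_lit 78) (nat_lit 0) (nat_lit 0) (XT.lf (nat_lit 0) (nat_lit 1362165705591) (nat_lit 76) (nat_lit 211871678088) (nat_lit 76) (nat_lit 211358673196) (nat_lit 1) (nat_lit 4) (nat_lit 2) (nat_lit 5) (nat_lit 2) (nat_lit 4) (nat_lit 506) (nat_lit 367) (nat_lit 327)) (XT.nd (nat_lit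 78) (nat_lit 0) (nat_lit 0) (XT.lf (nat_lit 0) (nat_lit 1478430403333) (nat_lit 76) (nat_lit 225014960351) (nat_lit 76) (nat_lit 224500121864) (nat_lit 1) (nat_lit 4) (nat_lit 2) (nat_lit 5) (nat_lit 2) (nat_lit 4) (nat_lit 507) (nat_lit 367) (nat_lit 326)) (XT.lf (nat_lit 0) (nat_lit 1603952294403) (nat_lit 76) (nat_lit 239232406480) (nat_lit 76) (nat_lit 238715870221) (nat_lit 1) (nat_lit 4) (nat_lit 2) (nat_lit 5) (nat_lit 2) (nat_lit 4) (nat_lit 508) (nat_lit 367) (nat_lit 325)))) (XT.nd (nat_lit 78) (nat_lit 0) (nat_lit 0) (XT.lf (nat_lit 0) (nat_lit 1739475212229) (nat_lit 76) (nat_lit 254608268008) (nat_lit 76) (nat_lit 254090159737) (nat_lit 1) (nat_lit 4) (nat_lit 2) (nat_lit 5) (nat_lit 2) (nat_lit 4) (nat_lit 509) (nat_lit 367) (nat_lit 324)) (XT.nd (nat_lit 78) (nat_lit 0) (nat_lit 0) (XT.lf (nat_lit 0) (nat_lit 1885802255582) (nat_lit 76) (nat_lit 271233661151) (nat_lit 76)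 (nat_lit 270714097314) (nat_lit 1) (nat_lit 4) (nat_lit 2) (nat_lit 5) (nat_lit 2) (nat_lit 4) (nat_lit 510) (nat_lit 367) (nat_lit 323)) (XT.lf (nat_lit 0) (nat_lit 2043800547684) (nat_lit 76) (nat_lit 289207106758) (nat_lit 76) (nat_lit 288686195174) (nat_lit 1) (nat_lit 4) (nat_lit 2) (nat_lit 5) (nat_lit 2) (nat_lit 4) (nat_lit 511) (nat_lit 367) (nat_lit 322)))))) (XT.nd (nat_lit 468) (nat_lit 0) (nat_lit 0) (XT.nd (nat_lit 234) (nat_lit 0) (nat_lit 0) (XT.nd (nat_lit 78) (nat_lit 0) (nat_lit 0) (XT.lf (nat_lit 0) (nat_lit 2214406374709) (nat_lit 76) (nat_lit 308635114135) (nat_lit 76) (nat_lit 308112954638) (nat_lit 1) (nat_lit 4) (nat_lit 2) (nat_lit 5) (nat_lit 2) (nat_lit 4) (nat_lit 512) (nat_lit 367) (nat_lit 321)) (XT.nd (nat_lit 78) (nat_lit 0) (nat_lit 0) (XT.lf (nat_lit 0) (nat_lit 2398630734152) (nat_lit 76) (nat_lit 329632812216) (nat_lit 76) (nat_lit 329109497243) (nat_lit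 1) (nat_lit 4) (nat_lit 2) (nat_lit 5) (nat_lit 2) (nat_lit 4) (nat_lit 513) (nat_lit 367) (nat_lit 320)) (XT.lf (nat_lit 0) (nat_lit 2597565325918) (nat_lit 76) (nat_lit 352324631803) (nat_lit 76) (nat_lit 351800246946) (nat_lit 1) (nat_lit 4) (nat_lit 2) (nat_lit 5) (nat_lit 2) (nat_lit 4) (nat_lit 514) (nat_lit 367) (nat_lit 319)))) (XT.nd (nat_lit 78) (nat_lit 0) (nat_lit 0) (XT.lf (nat_lit 0) (nat_lit 2812389021665) (nat_lit 76) (nat_lit 376845042939) (nat_lit 76) (nat_lit 376319667449) (nat_lit 1) (nat_lit 4) (nat_lit 2) (nat_lit 5) (nat_lit 2) (nat_lit 4) (nat_lit 515) (nat_lit 367) (nat_lit 318)) (XT.nd (nat_lit 78) (nat_lit 0) (nat_lit 0) (XT.lf (nat_lit 0) (nat_lit 3044374850699) (nat_lit 76) (nat_lit 403339351765) (nat_lit 76) (nat_lit 402813059020) (nat_lit 1) (nat_lit 4) (nat_lit 2) (nat_lit 5) (nat_lit 2) (nat_lit 4) (nat_lit 516) (nat_lit 367) (nat_lit 317)) (XT.lf (nat_lit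 0) (nat_lit 3294897543860) (nat_lit 76) (nat_lit 431964561591) (nat_lit 76) (nat_lit 431437419537) (nat_lit 1) (nat_lit 4) (nat_lit 2) (nat_lit 5) (nat_lit 2) (nat_lit 4) (nat_lit 517) (nat_lit 367) (nat_lit 316))))) (XT.nd (nat_lit 234) (nat_lit 0) (nat_lit 0) (XT.nd (nat_lit 78) (nat_lit 0) (nat_lit 0) (XT.lf (nat_lit 0) (nat_lit 3565441680070) (nat_lit 76) (nat_lit 462890303290) (nat_lit 76) (nat_lit 462362374839) (nat_lit 1) (nat_lit 4) (nat_lit 2) (nat_lit 5) (nat_lit 2) (nat_lit 4) (nat_lit 518) (nat_lit 367) (nat_lit 315)) (XT.nd (nat_lit 78) (nat_lit 0) (nat_lit 0) (XT.lf (nat_lit 0) (nat_lit 3857610483839) (nat_lit 76) (nat_lit 496299840517) (nat_lit 76) (nat_lit 495771183921) (nat_lit 1) (nat_lit 4) (nat_lit 2) (nat_lit 5) (nat_lit 2) (nat_lit 4) (nat_lit 519) (nat_lit 367) (nat_lit 314)) (XT.lf (nat_lit 0) (nat_lit 4173135325858) (nat_lit 76) (nat_lit 532391155715) (nat_lit 76)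 (nat_lit 531861824910) (nat_lit 1) (nat_lit 4) (nat_lit 2) (nat_lit 5) (nat_lit 2) (nat_lit 4) (nat_lit 520) (nat_lit 367) (nat_lit 313)))) (XT.nd (nat_lit 156) (nat_lit 0) (nat_lit 0) (XT.nd (nat_lit 78) (nat_lit 0) (nat_lit 0) (XT.lf (nat_lit 0) (nat_lit 4513885982967) (nat_lit 76) (nat_lit 571378123345) (nat_lit 76) (nat_lit 570848168272) (nat_lit 1) (nat_lit 4) (nat_lit 2) (nat_lit 5) (nat_lit 2) (nat_lit 4) (nat_lit 521) (nat_lit 367) (nat_lit 312)) (XT.lf (nat_lit 0) (nat_lit 4881881718319) (nat_lit 76) (nat_lit 613491777288) (nat_lit 76) (nat_lit 612961244190) (nat_lit 1) (nat_lit 4) (nat_lit 2) (nat_lit 5) (nat_lit 2) (nat_lit 4) (nat_lit 522) (nat_lit 367) (nat_lit 311))) (XT.nd (nat_lit 78) (nat_lit 0) (nat_lit 0) (XT.lf (nat_lit 0) (nat_lit 5279303247384) (nat_lit 76) (nat_lit 658981679938) (nat_lit 76) (nat_lit 658450611632) (nat_lit 1) (nat_lit 4) (nat_lit 2) (nat_lit 5) (nat_lit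 2) (nat_lit 4) (nat_lit 523) (nat_lit 367) (nat_lit 310)) (XT.lf (nat_lit 0) (nat_lit 5708505660704) (nat_lit 76) (nat_lit 708117401089) (nat_lit 76) (nat_lit 707585837219) (nat_lit 1) (nat_lit 4) (nat_lit 2) (nat_lit 5) (nat_lit 2) (nat_lit 4) (nat_lit 524) (nat_lit 367) (nat_lit 309))))))))
noncomputable def xc26 : XT := (XT.nd (nat_lit 58734) (nat_lit 0) (nat_lit 0) (XT.nd (nat_lit 57720) (nat_lit 0) (nat_lit 0) (XT.nd (nat_lit 468) (nat_lit 0) (nat_lit 0) (XT.nd (nat_lit 234) (nat_lit 0) (nat_lit 0) (XT.nd (nat_lit 78) (nat_lit 0) (nat_lit 0) (XT.lf (nat_lit 0) (nat_lit 6172032379987) (nat_lit 76) (nat_lit 761190115384) (nat_lit 76) (nat_lit 760658092659) (nat_lit 1) (nat_lit 4) (nat_lit 2) (nat_lit 5) (nat_lit 2) (nat_lit 4) (nat_lit 525) (nat_lit 367) (nat_lit 308)) (XT.nd (nat_lit 78) (nat_lit 0) (nat_lit 0) (XT.lf (nat_lit 0) (nat_lit 6672630230237) (nat_lit 76) (nat_lit 818514327798)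 (nat_lit 76) (nat_lit 817981880207) (nat_lit 1) (nat_lit 4) (nat_lit 2) (nat_lit 5) (nat_lit 2) (nat_lit 4) (nat_lit 526) (nat_lit 367) (nat_lit 307)) (XT.lf (nat_lit 0) (nat_lit 7213265717233) (nat_lit 76) (nat_lit 880429737367) (nat_lit 76) (nat_lit 879896896381) (nat_lit 1) (nat_lit 4) (nat_lit 2) (nat_lit 5) (nat_lit 2) (nat_lit 4) (nat_lit 527) (nat_lit 367) (nat_lit 306)))) (XT.nd (nat_lit 78) (nat_lit 0) (nat_lit 0) (XT.lf (nat_lit 0) (nat_lit 7797142606824) (nat_lit 76) (nat_lit 947303250221) (nat_lit 76) (nat_lit 946770044981) (nat_lit 1) (nat_lit 4) (nat_lit 2) (nat_lit 5) (nat_lit 2) (nat_lit 4) (nat_lit 528) (nat_lit 367) (nat_lit 305)) (XT.nd (nat_lit 78) (nat_lit 0) (nat_lit 0) (XT.lf (nat_lit 0) (nat_lit 8427720910207) (nat_lit 76) (nat_lit 1019531153844) (nat_lit 76) (nat_lit 1018997611332) (nat_lit 1) (nat_lit 4) (nat_lit 2) (nat_lit 5) (nat_lit 2) (nat_lit 4) (nat_lit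 529) (nat_lit 367) (nat_lit 304)) (XT.lf (nat_lit 0) (nat_lit 9108737387700) (nat_lit 76) (nat_lit 1097541465443) (nat_lit 76) (nat_lit 1097007610642) (nat_lit 1) (nat_lit 4) (nat_lit 2) (nat_lit 5) (nat_lit 2) (nat_lit 4) (nat_lit 530) (nat_lit 367) (nat_lit 303))))) (XT.nd (nat_lit 234) (nat_lit 0) (nat_lit 0) (XT.nd (nat_lit 78) (nat_lit 0) (nat_lit 0) (XT.lf (nat_lit 0) (nat_lit 9844227692500) (nat_lit 76) (nat_lit 1181796468345) (nat_lit 76) (nat_lit 1181262324388) (nat_lit 1) (nat_lit 4) (nat_lit 2) (nat_lit 5) (nat_lit 2) (nat_lit 4) (nat_lit 531) (nat_lit 367) (nat_lit 302)) (XT.nd (nat_lit 78) (nat_lit 0) (nat_lit 0) (XT.lf (nat_lit 0) (nat_lit 10638550285676) (nat_lit 76) (nat_lit 1272795451458) (nat_lit 76) (nat_lit 1272261039763) (nat_lit 1) (nat_lit 4) (nat_lit 2) (nat_lit 5) (nat_lit 2) (nat_lit 4) (nat_lit 532) (nat_lit 367) (nat_lit 301)) (XT.lf (nat_lit 0) (nat_lit 11496412264073)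 (nat_lit 76) (nat_lit 1371077668013) (nat_lit 76) (nat_lit 1370543008413) (nat_lit 1) (nat_lit 4) (nat_lit 2) (nat_lit 5) (nat_lit 2) (nat_lit 4) (nat_lit 533) (nat_lit 367) (nat_lit 300)))) (XT.nd (nat_lit 78) (nat_lit 0) (nat_lit 0) (XT.lf (nat_lit 0) (nat_lit 12422897254232) (nat_lit 76) (nat_lit 1477225531147) (nat_lit 76) (nat_lit 1476690642005) (nat_lit 1) (nat_lit 4) (nat_lit 2) (nat_lit 5) (nat_lit 2) (nat_lit 4) (nat_lit 534) (nat_lit 367) (nat_lit 299)) (XT.nd (nat_lit 78) (nat_lit 0) (nat_lit 0) (XT.lf (nat_lit 0) (nat_lit 13423495537576) (nat_lit 76) (nat_lit 1591868065233) (nat_lit 76) (nat_lit 1591332963553) (nat_lit 1) (nat_lit 4) (nat_lit 2) (nat_lit 5) (nat_lit 2) (nat_lit 4) (nat_lit 535) (nat_lit 367) (nat_lit 298)) (XT.lf (nat_lit 0) (nat_lit 14504136585412) (nat_lit 76) (nat_lit 1715684633437) (nat_lit 76) (nat_lit 1715149334961) (nat_lit 1) (nat_lit 4) (nat_lit 2)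 (nat_lit 5) (nat_lit 2) (nat_lit 4) (nat_lit 536) (nat_lit 367) (nat_lit 297)))))) (XT.nd (nat_lit 468) (nat_lit 76) (nat_lit 0) (XT.nd (nat_lit 234) (nat_lit 152) (nat_lit 0) (XT.nd (nat_lit 78) (nat_lit 0) (nat_lit 0) (XT.lf (nat_lit 0) (nat_lit 18799635974) (nat_lit 76) (nat_lit 9832765758) (nat_lit 76) (nat_lit 9832765758) (nat_lit 4) (nat_lit 4) (nat_lit 5) (nat_lit 5) (nat_lit 5) (nat_lit 4) (nat_lit 464) (nat_lit 368) (nat_lit 368)) (XT.nd (nat_lit 78) (nat_lit 0) (nat_lit 0) (XT.lf (nat_lit 0) (nat_lit 58742070906) (nat_lit 76) (nat_lit 11842983143) (nat_lit 76) (nat_lit 11796520816) (nat_lit 4) (nat_lit 4) (nat_lit 5) (nat_lit 5) (nat_lit 5) (nat_lit 4) (nat_lit 465) (nat_lit 368) (nat_lit 367)) (XT.lf (nat_lit 0) (nat_lit 80692081332) (nat_lit 76) (nat_lit 3850300663) (nat_lit 76) (nat_lit 3760817663) (nat_lit 4) (nat_lit 4) (nat_lit 5) (nat_lit 5) (nat_lit 5) (nat_lit 4) (nat_lit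 466) (nat_lit 368) (nat_lit 366)))) (XT.nd (nat_lit 78) (nat_lit 0) (nat_lit 0) (XT.lf (nat_lit 0) (nat_lit 4599330484) (nat_lit 152) (nat_lit 85615964092) (nat_lit 0) (nat_lit 4479592561) (nat_lit 2) (nat_lit 5) (nat_lit 4) (nat_lit 4) (nat_lit 2) (nat_lit 4) (nat_lit 467) (nat_lit 368) (nat_lit 365)) (XT.nd (nat_lit 78) (nat_lit 0) (nat_lit 0) (XT.lf (nat_lit 0) (nat_lit 13331822898) (nat_lit 152) (nat_lit 75087802943) (nat_lit 0) (nat_lit 13177933777) (nat_lit 2) (nat_lit 5) (nat_lit 4) (nat_lit 4) (nat_lit 2) (nat_lit 4) (nat_lit 468) (nat_lit 368) (nat_lit 364)) (XT.lf (nat_lit 0) (nat_lit 22386247803) (nat_lit 152) (nat_lit 64495595937) (nat_lit 0) (nat_lit 22200737203) (nat_lit 2) (nat_lit 5) (nat_lit 4) (nat_lit 4) (nat_lit 2) (nat_lit 4) (nat_lit 469) (nat_lit 368) (nat_lit 363))))) (XT.nd (nat_lit 234) (nat_lit 76) (nat_lit 0) (XT.nd (nat_lit 78) (nat_lit 0) (nat_lit 0) (XT.lf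 (nat_lit 0) (nat_lit 31816261051) (nat_lit 152) (nat_lit 53776574439) (nat_lit 0) (nat_lit 31601471304) (nat_lit 2) (nat_lit 5) (nat_lit 4) (nat_lit 4) (nat_lit 2) (nat_lit 4) (nat_lit 470) (nat_lit 368) (nat_lit 362)) (XT.nd (nat_lit 78) (nat_lit 0) (nat_lit 0) (XT.lf (nat_lit 0) (nat_lit 41677744202) (nat_lit 152) (nat_lit 42867218324) (nat_lit 0) (nat_lit 41435844134) (nat_lit 2) (nat_lit 5) (nat_lit 4) (nat_lit 4) (nat_lit 2) (nat_lit 4) (nat_lit 471) (nat_lit 368) (nat_lit 361)) (XT.lf (nat_lit 0) (nat_lit 52029135675) (nat_lit 152) (nat_lit 31702879553) (nat_lit 0) (nat_lit 51762133457) (nat_lit 2) (nat_lit 5) (nat_lit 4) (nat_lit 4) (nat_lit 2) (nat_lit 4) (nat_lit 472) (nat_lit 368) (nat_lit 360)))) (XT.nd (nat_lit 156) (nat_lit 76) (nat_lit 0) (XT.nd (nat_lit 78) (nat_lit 0) (nat_lit 0) (XT.lf (nat_lit 0) (nat_lit 62931777048) (nat_lit 152) (nat_lit 20217399084) (nat_lit 0) (nat_lit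 62641532099) (nat_lit 2) (nat_lit 5) (nat_lit 4) (nat_lit 4) (nat_lit 2) (nat_lit 4) (nat_lit 473) (nat_lit 368) (nat_lit 359)) (XT.lf (nat_lit 0) (nat_lit 74450276567) (nat_lit 152) (nat_lit 8342714808) (nat_lit 0) (nat_lit 74138510571) (nat_lit 2) (nat_lit 5) (nat_lit 4) (nat_lit 4) (nat_lit 2) (nat_lit 4) (nat_lit 474) (nat_lit 368) (nat_lit 358))) (XT.nd (nat_lit 78) (nat_lit 0) (nat_lit 0) (XT.lf (nat_lit 0) (nat_lit 4201729288) (nat_lit 76) (nat_lit 82552214409) (nat_lit 76) (nat_lit 82220521517) (nat_lit 1) (nat_lit 4) (nat_lit 2) (nat_lit 5) (nat_lit 2) (nat_lit 4) (nat_lit 475) (nat_lit 368) (nat_lit 357)) (XT.lf (nat_lit 0) (nat_lit 17746199311) (nat_lit 76) (nat_lit 82292532372) (nat_lit 76) (nat_lit 81942388651) (nat_lit 1) (nat_lit 4) (nat_lit 2) (nat_lit 5) (nat_lit 2) (nat_lit 4) (nat_lit 476) (nat_lit 368) (nat_lit 356))))))) (XT.nd (nat_lit 936) (nat_lit 0) (nat_lit 0)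 (XT.nd (nat_lit 468) (nat_lit 0) (nat_lit 0) (XT.nd (nat_lit 234) (nat_lit 0) (nat_lit 0) (XT.nd (nat_lit 78) (nat_lit 0) (nat_lit 0) (XT.lf (nat_lit 0) (nat_lit 31931646208) (nat_lit 76) (nat_lit 82240511015) (nat_lit 76) (nat_lit 81873283193) (nat_lit 1) (nat_lit 4) (nat_lit 2) (nat_lit 5) (nat_lit 2) (nat_lit 4) (nat_lit 477) (nat_lit 368) (nat_lit 355)) (XT.nd (nat_lit 78) (nat_lit 0) (nat_lit 0) (XT.lf (nat_lit 0) (nat_lit 46842131888) (nat_lit 76) (nat_lit 82395842064) (nat_lit 76) (nat_lit 82012795629) (nat_lit 1) (nat_lit 4) (nat_lit 2) (nat_lit 5) (nat_lit 2) (nat_lit 4) (nat_lit 478) (nat_lit 368) (nat_lit 354)) (XT.lf (nat_lit 0) (nat_lit 62566014784) (nat_lit 76) (nat_lit 82759445999) (nat_lit 76) (nat_lit 82361752701) (nat_lit 1) (nat_lit 4) (nat_lit 2) (nat_lit 5) (nat_lit 2) (nat_lit 4) (nat_lit 479) (nat_lit 368) (nat_lit 353)))) (XT.nd (nat_lit 78) (nat_lit 0) (nat_lit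 0) (XT.lf (nat_lit 0) (nat_lit 79196473461) (nat_lit 76) (nat_lit 83333477509) (nat_lit 76) (nat_lit 82922222301) (nat_lit 1) (nat_lit 4) (nat_lit 2) (nat_lit 5) (nat_lit 2) (nat_lit 4) (nat_lit 480) (nat_lit 368) (nat_lit 352)) (XT.nd (nat_lit 78) (nat_lit 0) (nat_lit 0) (XT.lf (nat_lit 0) (nat_lit 96832058785) (nat_lit 76) (nat_lit 84121338264) (nat_lit 76) (nat_lit 83697525731) (nat_lit 1) (nat_lit 4) (nat_lit 2) (nat_lit 5) (nat_lit 2) (nat_lit 4) (nat_lit 481) (nat_lit 368) (nat_lit 351)) (XT.lf (nat_lit 0) (nat_lit 115577277929) (nat_lit 76) (nat_lit 85127697067) (nat_lit 76) (nat_lit 84692257382) (nat_lit 1) (nat_lit 4) (nat_lit 2) (nat_lit 5) (nat_lit 2) (nat_lit 4) (nat_lit 482) (nat_lit 368) (nat_lit 350))))) (XT.nd (nat_lit 234) (nat_lit 0) (nat_lit 0) (XT.nd (nat_lit 78) (nat_lit 0) (nat_lit 0) (XT.lf (nat_lit 0) (nat_lit 135543213674) (nat_lit 76) (nat_lit 86358517527) (nat_lit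 76) (nat_lit 85912311960) (nat_lit 1) (nat_lit 4) (nat_lit 2) (nat_lit 5) (nat_lit 2) (nat_lit 4) (nat_lit 483) (nat_lit 368) (nat_lit 349)) (XT.nd (nat_lit 78) (nat_lit 0) (nat_lit 0) (XT.lf (nat_lit 0) (nat_lit 156848182674) (nat_lit 76) (nat_lit 87821093393) (nat_lit 76) (nat_lit 87364919418) (nat_lit 1) (nat_lit 4) (nat_lit 2) (nat_lit 5) (nat_lit 2) (nat_lit 4) (nat_lit 484) (nat_lit 368) (nat_lit 348)) (XT.lf (nat_lit 0) (nat_lit 179618436598) (nat_lit 76) (nat_lit 89524091783) (nat_lit 76) (nat_lit 89058687799) (nat_lit 1) (nat_lit 4) (nat_lit 2) (nat_lit 5) (nat_lit 2) (nat_lit 4) (nat_lit 485) (nat_lit 368) (nat_lit 347)))) (XT.nd (nat_lit 78) (nat_lit 0) (nat_lit 0) (XT.lf (nat_lit 0) (nat_lit 203988910285) (nat_lit 76) (nat_lit 91477604539) (nat_lit 76) (nat_lit 91003654251) (nat_lit 1) (nat_lit 4) (nat_lit 2) (nat_lit 5) (nat_lit 2) (nat_lit 4) (nat_lit 486) (nat_lit 368) (nat_lit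 346)) (XT.nd (nat_lit 78) (nat_lit 0) (nat_lit 0) (XT.lf (nat_lit 0) (nat_lit 230104021356) (nat_lit 76) (nat_lit 93693208032) (nat_lit 76) (nat_lit 93211344500) (nat_lit 1) (nat_lit 4) (nat_lit 2) (nat_lit 5) (nat_lit 2) (nat_lit 4) (nat_lit 487) (nat_lit 368) (nat_lit 345)) (XT.lf (nat_lit 0) (nat_lit 258118526025) (nat_lit 76) (nat_lit 96184031765) (nat_lit 76) (nat_lit 95694841155) (nat_lit 1) (nat_lit 4) (nat_lit 2) (nat_lit 5) (nat_lit 2) (nat_lit 4) (nat_lit 488) (nat_lit 368) (nat_lit 344)))))) (XT.nd (nat_lit 468) (nat_lit 0) (nat_lit 0) (XT.nd (nat_lit 234) (nat_lit 0) (nat_lit 0) (XT.nd (nat_lit 78) (nat_lit 0) (nat_lit 0) (XT.lf (nat_lit 0) (nat_lit 288198436172) (nat_lit 76) (nat_lit 98964836175) (nat_lit 76) (nat_lit 98468861233) (nat_lit 1) (nat_lit 4) (nat_lit 2) (nat_lit 5) (nat_lit 2) (nat_lit 4) (nat_lit 489) (nat_lit 368) (nat_lit 343)) (XT.nd (nat_lit 78) (nat_lit 0)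 (nat_lit 0) (XT.lf (nat_lit 0) (nat_lit 320522003115) (nat_lit 76) (nat_lit 102052100102) (nat_lit 76) (nat_lit 101549843371) (nat_lit 1) (nat_lit 4) (nat_lit 2) (nat_lit 5) (nat_lit 2) (nat_lit 4) (nat_lit 490) (nat_lit 368) (nat_lit 342)) (XT.lf (nat_lit 0) (nat_lit 355280773919) (nat_lit 76) (nat_lit 105464118445) (nat_lit 76) (nat_lit 104956045243) (nat_lit 1) (nat_lit 4) (nat_lit 2) (nat_lit 5) (nat_lit 2) (nat_lit 4) (nat_lit 491) (nat_lit 368) (nat_lit 341)))) (XT.nd (nat_lit 78) (nat_lit 0) (nat_lit 0) (XT.lf (nat_lit 0) (nat_lit 392680726484) (nat_lit 76) (nat_lit 109221110570) (nat_lit 76) (nat_lit 108707651747) (nat_lit 1) (nat_lit 4) (nat_lit 2) (nat_lit 5) (nat_lit 2) (nat_lit 4) (nat_lit 492) (nat_lit 368) (nat_lit 340)) (XT.nd (nat_lit 78) (nat_lit 0) (nat_lit 0) (XT.lf (nat_lit 0) (nat_lit 432943490158) (nat_lit 76) (nat_lit 113345340135) (nat_lit 76) (nat_lit 112826894626)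 (nat_lit 1) (nat_lit 4) (nat_lit 2) (nat_lit 5) (nat_lit 2) (nat_lit 4) (nat_lit 493) (nat_lit 368) (nat_lit 339)) (XT.lf (nat_lit 0) (nat_lit 476307659098) (nat_lit 76) (nat_lit 117861247020) (nat_lit 76) (nat_lit 117338184208) (nat_lit 1) (nat_lit 4) (nat_lit 2) (nat_lit 5) (nat_lit 2) (nat_lit 4) (nat_lit 494) (nat_lit 368) (nat_lit 338))))) (XT.nd (nat_lit 234) (nat_lit 0) (nat_lit 0) (XT.nd (nat_lit 78) (nat_lit 0) (nat_lit 0) (XT.lf (nat_lit 0) (nat_lit 523030206156) (nat_lit 76) (nat_lit 122795592152) (nat_lit 76) (nat_lit 122268254061) (nat_lit 1) (nat_lit 4) (nat_lit 2) (nat_lit 5) (nat_lit 2) (nat_lit 4) (nat_lit 495) (nat_lit 368) (nat_lit 337)) (XT.nd (nat_lit 78) (nat_lit 0) (nat_lit 0) (XT.lf (nat_lit 0) (nat_lit 573388005684) (nat_lit 76) (nat_lit 128177616097) (nat_lit 76) (nat_lit 127646319414) (nat_lit 1) (nat_lit 4) (nat_lit 2) (nat_lit 5) (nat_lit 2) (nat_lit 4) (nat_lit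 496) (nat_lit 368) (nat_lit 336)) (XT.lf (nat_lit 0) (nat_lit 627679474273) (nat_lit 76) (nat_lit 134039212330) (nat_lit 76) (nat_lit 133504250284) (nat_lit 1) (nat_lit 4) (nat_lit 2) (nat_lit 5) (nat_lit 2) (nat_lit 4) (nat_lit 497) (nat_lit 368) (nat_lit 335)))) (XT.nd (nat_lit 156) (nat_lit 0) (nat_lit 0) (XT.nd (nat_lit 78) (nat_lit 0) (nat_lit 0) (XT.lf (nat_lit 0) (nat_lit 686226339144) (nat_lit 76) (nat_lit 140415116236) (nat_lit 76) (nat_lit 139876760334) (nat_lit 1) (nat_lit 4) (nat_lit 2) (nat_lit 5) (nat_lit 2) (nat_lit 4) (nat_lit 498) (nat_lit 368) (nat_lit 334)) (XT.lf (nat_lit 0) (nat_lit 749375544681) (nat_lit 76) (nat_lit 147343110948) (nat_lit 76) (nat_lit 146801612588) (nat_lit 1) (nat_lit 4) (nat_lit 2) (nat_lit 5) (nat_lit 2) (nat_lit 4) (nat_lit 499) (nat_lit 368) (nat_lit 333))) (XT.nd (nat_lit 78) (nat_lit 0) (nat_lit 0) (XT.lf (nat_lit 0) (nat_lit 817501308399)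 (nat_lit 76) (nat_lit 154864251250) (nat_lit 76) (nat_lit 154319843207) (nat_lit 1) (nat_lit 4) (nat_lit 2) (nat_lit 5) (nat_lit 2) (nat_lit 4) (nat_lit 500) (nat_lit 368) (nat_lit 332)) (XT.lf (nat_lit 0) (nat_lit 891007338527) (nat_lit 76) (nat_lit 163023106864) (nat_lit 76) (nat_lit 162476004669) (nat_lit 1) (nat_lit 4) (nat_lit 2) (nat_lit 5) (nat_lit 2) (nat_lit 4) (nat_lit 501) (nat_lit 368) (nat_lit 331))))))))
noncomputable def xc27 : XT := (XT.nd (nat_lit 1950) (nat_lit 0) (nat_lit 0) (XT.nd (nat_lit 936) (nat_lit 0) (nat_lit 0) (XT.nd (nat_lit 468) (nat_lit 0) (nat_lit 0) (XT.nd (nat_lit 234) (nat_lit 0) (nat_lit 0) (XT.nd (nat_lit 78) (nat_lit 0) (nat_lit 0) (XT.lf (nat_lit 0) (nat_lit 970329226355) (nat_lit 76) (nat_lit 171868026562) (nat_lit 76) (nat_lit 171318429782) (nat_lit 1) (nat_lit 4) (nat_lit 2) (nat_lit 5) (nat_lit 2) (nat_lit 4) (nat_lit 502) (nat_lit 368) (nat_lit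 330)) (XT.nd (nat_lit 78) (nat_lit 0) (nat_lit 0) (XT.lf (nat_lit 0) (nat_lit 1055937027514) (nat_lit 76) (nat_lit 181451424683) (nat_lit 76) (nat_lit 180899518103) (nat_lit 1) (nat_lit 4) (nat_lit 2) (nat_lit 5) (nat_lit 2) (nat_lit 4) (nat_lit 503) (nat_lit 368) (nat_lit 329)) (XT.lf (nat_lit 0) (nat_lit 1148338047493) (nat_lit 76) (nat_lit 191830091736) (nat_lit 76) (nat_lit 191276046452) (nat_lit 1) (nat_lit 4) (nat_lit 2) (nat_lit 5) (nat_lit 2) (nat_lit 4) (nat_lit 504) (nat_lit 368) (nat_lit 328)))) (XT.nd (nat_lit 78) (nat_lit 0) (nat_lit 0) (XT.lf (nat_lit 0) (nat_lit 1248079847891) (nat_lit 76) (nat_lit 203065530932) (nat_lit 76) (nat_lit 202509505366) (nat_lit 1) (nat_lit 4) (nat_lit 2) (nat_lit 5) (nat_lit 2) (nat_lit 4) (nat_lit 505) (nat_lit 368) (nat_lit 327)) (XT.nd (nat_lit 78) (nat_lit 0) (nat_lit 0) (XT.lf (nat_lit 0) (nat_lit 1355753491229) (nat_lit 76) (nat_lit 215224322652)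 (nat_lit 76) (nat_lit 214666463491) (nat_lit 1) (nat_lit 4) (nat_lit 2) (nat_lit 5) (nat_lit 2) (nat_lit 4) (nat_lit 506) (nat_lit 368) (nat_lit 326)) (XT.lf (nat_lit 0) (nat_lit 1471997043543) (nat_lit 76) (nat_lit 228378518994) (nat_lit 76) (nat_lit 227818962061) (nat_lit 1) (nat_lit 4) (nat_lit 2) (nat_lit 5) (nat_lit 2) (nat_lit 4) (nat_lit 507) (nat_lit 368) (nat_lit 325))))) (XT.nd (nat_lit 234) (nat_lit 0) (nat_lit 0) (XT.nd (nat_lit 78) (nat_lit 0) (nat_lit 0) (XT.lf (nat_lit 0) (nat_lit 1597499355512) (nat_lit 76) (nat_lit 242606070752) (nat_lit 76) (nat_lit 242044941808) (nat_lit 1) (nat_lit 4) (nat_lit 2) (nat_lit 5) (nat_lit 2) (nat_lit 4) (nat_lit 508) (nat_lit 368) (nat_lit 324)) (XT.nd (nat_lit 78) (nat_lit 0) (nat_lit 0) (XT.lf (nat_lit 0) (nat_lit 1733004144540) (nat_lit 76) (nat_lit 257991289344) (nat_lit 76) (nat_lit 257428704833) (nat_lit 1) (nat_lit 4) (nat_lit 2) (nat_lit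 5) (nat_lit 2) (nat_lit 4) (nat_lit 509) (nat_lit 368) (nat_lit 323)) (XT.lf (nat_lit 0) (nat_lit 1879314401971) (nat_lit 76) (nat_lit 274625346435) (nat_lit 76) (nat_lit 274061414178) (nat_lit 1) (nat_lit 4) (nat_lit 2) (nat_lit 5) (nat_lit 2) (nat_lit 4) (nat_lit 510) (nat_lit 368) (nat_lit 322)))) (XT.nd (nat_lit 78) (nat_lit 0) (nat_lit 0) (XT.lf (nat_lit 0) (nat_lit 2037297151551) (nat_lit 76) (nat_lit 292606814215) (nat_lit 76) (nat_lit 292041634045) (nat_lit 1) (nat_lit 4) (nat_lit 2) (nat_lit 5) (nat_lit 2) (nat_lit 4) (nat_lit 511) (nat_lit 368) (nat_lit 321)) (XT.nd (nat_lit 78) (nat_lit 0) (nat_lit 0) (XT.lf (nat_lit 0) (nat_lit 2207888587353) (nat_lit 76) (nat_lit 312042249532) (nat_lit 76) (nat_lit 311475913886) (nat_lit 1) (nat_lit 4) (nat_lit 2) (nat_lit 5) (nat_lit 2) (nat_lit 4) (nat_lit 512) (nat_lit 368) (nat_lit 320)) (XT.lf (nat_lit 0) (nat_lit 2392099621588) (nat_lit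 76) (nat_lit 333046825334) (nat_lit 76) (nat_lit 332479419804) (nat_lit 1) (nat_lit 4) (nat_lit 2) (nat_lit 5) (nat_lit 2) (nat_lit 4) (nat_lit 513) (nat_lit 368) (nat_lit 319)))))) (XT.nd (nat_lit 468) (nat_lit 0) (nat_lit 0) (XT.nd (nat_lit 234) (nat_lit 0) (nat_lit 0) (XT.nd (nat_lit 78) (nat_lit 0) (nat_lit 0) (XT.lf (nat_lit 0) (nat_lit 2591021875200) (nat_lit 76) (nat_lit 355745013182) (nat_lit 76) (nat_lit 355176617018) (nat_lit 1) (nat_lit 4) (nat_lit 2) (nat_lit 5) (nat_lit 2) (nat_lit 4) (nat_lit 514) (nat_lit 368) (nat_lit 318)) (XT.nd (nat_lit 78) (nat_lit 0) (nat_lit 0) (XT.lf (nat_lit 0) (nat_lit 2805834146729) (nat_lit 76) (nat_lit 380271320856) (nat_lit 76) (nat_lit 379702007438) (nat_lit 1) (nat_lit 4) (nat_lit 2) (nat_lit 5) (nat_lit 2) (nat_lit 4) (nat_lit 515) (nat_lit 368) (nat_lit 317)) (XT.lf (nat_lit 0) (nat_lit 3037809397785) (nat_lit 76) (nat_lit 406771089438)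 (nat_lit 76) (nat_lit 406200926711) (nat_lit 1) (nat_lit 4) (nat_lit 2) (nat_lit 5) (nat_lit 2) (nat_lit 4) (nat_lit 516) (nat_lit 368) (nat_lit 316)))) (XT.nd (nat_lit 78) (nat_lit 0) (nat_lit 0) (XT.lf (nat_lit 0) (nat_lit 3288322296520) (nat_lit 76) (nat_lit 435401354594) (nat_lit 76) (nat_lit 434830405470) (nat_lit 1) (nat_lit 4) (nat_lit 2) (nat_lit 5) (nat_lit 2) (nat_lit 4) (nat_lit 517) (nat_lit 368) (nat_lit 315)) (XT.nd (nat_lit 78) (nat_lit 0) (nat_lit 0) (XT.lf (nat_lit 0) (nat_lit 3558857363818) (nat_lit 76) (nat_lit 466331777155) (nat_lit 76) (nat_lit 465760099886) (nat_lit 1) (nat_lit 4) (nat_lit 2) (nat_lit 5) (nat_lit 2) (nat_lit 4) (nat_lit 518) (nat_lit 368) (nat_lit 314)) (XT.lf (nat_lit 0) (nat_lit 3851017770447) (nat_lit 76) (nat_lit 499745648513) (nat_lit 76) (nat_lit 499173297035) (nat_lit 1) (nat_lit 4) (nat_lit 2) (nat_lit 5) (nat_lit 2) (nat_lit 4) (nat_lit 519)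 (nat_lit 368) (nat_lit 313))))) (XT.nd (nat_lit 234) (nat_lit 0) (nat_lit 0) (XT.nd (nat_lit 78) (nat_lit 0) (nat_lit 0) (XT.lf (nat_lit 0) (nat_lit 4166534837335) (nat_lit 76) (nat_lit 535840976796) (nat_lit 76) (nat_lit 535268001050) (nat_lit 1) (nat_lit 4) (nat_lit 2) (nat_lit 5) (nat_lit 2) (nat_lit 4) (nat_lit 520) (nat_lit 368) (nat_lit 312)) (XT.nd (nat_lit 78) (nat_lit 0) (nat_lit 0) (XT.lf (nat_lit 0) (nat_lit 4507278295249) (nat_lit 76) (nat_lit 574831660244) (nat_lit 76) (nat_lit 574258106473) (nat_lit 1) (nat_lit 4) (nat_lit 2) (nat_lit 5) (nat_lit 2) (nat_lit 4) (nat_lit 521) (nat_lit 368) (nat_lit 311)) (XT.lf (nat_lit 0) (nat_lit 4875267364680) (nat_lit 76) (nat_lit 616948754760) (nat_lit 76) (nat_lit 616374665781) (nat_lit 1) (nat_lit 4) (nat_lit 2) (nat_lit 5) (nat_lit 2) (nat_lit 4) (nat_lit 522) (nat_lit 368) (nat_lit 310)))) (XT.nd (nat_lit 156) (nat_lit 0) (nat_lit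 0) (XT.nd (nat_lit 78) (nat_lit 0) (nat_lit 0) (XT.lf (nat_lit 0) (nat_lit 5272682721596) (nat_lit 76) (nat_lit 662441843126) (nat_lit 76) (nat_lit 661867258583) (nat_lit 1) (nat_lit 4) (nat_lit 2) (nat_lit 5) (nat_lit 2) (nat_lit 4) (nat_lit 523) (nat_lit 368) (nat_lit 309)) (XT.lf (nat_lit 0) (nat_lit 5701879419963) (nat_lit 76) (nat_lit 711580514014) (nat_lit 76) (nat_lit 711005470616) (nat_lit 1) (nat_lit 4) (nat_lit 2) (nat_lit 5) (nat_lit 2) (nat_lit 4) (nat_lit 524) (nat_lit 368) (nat_lit 308))) (XT.nd (nat_lit 78) (nat_lit 0) (nat_lit 0) (XT.lf (nat_lit 0) (nat_lit 6165400847623) (nat_lit 76) (nat_lit 764655959547) (nat_lit 76) (nat_lit 764080491283) (nat_lit 1) (nat_lit 4) (nat_lit 2) (nat_lit 5) (nat_lit 2) (nat_lit 4) (nat_lit 525) (nat_lit 368) (nat_lit 307)) (XT.lf (nat_lit 0) (nat_lit 6665993798222) (nat_lit 76) (nat_lit 821982700885) (nat_lit 76) (nat_lit 821406839226) (nat_lit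 1) (nat_lit 4) (nat_lit 2) (nat_lit 5) (nat_lit 2) (nat_lit 4) (nat_lit 526) (nat_lit 368) (nat_lit 306))))))) (XT.nd (nat_lit 57564) (nat_lit 0) (nat_lit 0) (XT.nd (nat_lit 468) (nat_lit 0) (nat_lit 0) (XT.nd (nat_lit 234) (nat_lit 0) (nat_lit 0) (XT.nd (nat_lit 78) (nat_lit 0) (nat_lit 0) (XT.lf (nat_lit 0) (nat_lit 7206624748505) (nat_lit 76) (nat_lit 883900452050) (nat_lit 76) (nat_lit 883324226137) (nat_lit 1) (nat_lit 4) (nat_lit 2) (nat_lit 5) (nat_lit 2) (nat_lit 4) (nat_lit 527) (nat_lit 368) (nat_lit 305)) (XT.nd (nat_lit 78) (nat_lit 0) (nat_lit 0) (XT.lf (nat_lit 0) (nat_lit 7790497437435) (nat_lit 76) (nat_lit 950776133048) (nat_lit 76) (nat_lit 950199569863) (nat_lit 1) (nat_lit 4) (nat_lit 2) (nat_lit 5) (nat_lit 2) (nat_lit 4) (nat_lit 528) (nat_lit 368) (nat_lit 304)) (XT.lf (nat_lit 0) (nat_lit 8421071851317) (nat_lit 76) (nat_lit 1023006044213) (nat_lit 76) (nat_lit 1022429168739)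 (nat_lit 1) (nat_lit 4) (nat_lit 2) (nat_lit 5) (nat_lit 2) (nat_lit 4) (nat_lit 529) (nat_lit 368) (nat_lit 303)))) (XT.nd (nat_lit 78) (nat_lit 0) (nat_lit 0) (XT.lf (nat_lit 0) (nat_lit 9102084727419) (nat_lit 76) (nat_lit 1101018214646) (nat_lit 76) (nat_lit 1100441050016) (nat_lit 1) (nat_lit 4) (nat_lit 2) (nat_lit 5) (nat_lit 2) (nat_lit 4) (nat_lit 530) (nat_lit 368) (nat_lit 302)) (XT.nd (nat_lit 78) (nat_lit 0) (nat_lit 0) (XT.lf (nat_lit 0) (nat_lit 9837571697600) (nat_lit 76) (nat_lit 1185274938692) (nat_lit 76) (nat_lit 1184697506324) (nat_lit 1) (nat_lit 4) (nat_lit 2) (nat_lit 5) (nat_lit 2) (nat_lit 4) (nat_lit 531) (nat_lit 368) (nat_lit 301)) (XT.lf (nat_lit 0) (nat_lit 10631891203164) (nat_lit 76) (nat_lit 1276275515455) (nat_lit 76) (nat_lit 1275697835182) (nat_lit 1) (nat_lit 4) (nat_lit 2) (nat_lit 5) (nat_lit 2) (nat_lit 4) (nat_lit 532) (nat_lit 368) (nat_lit 300)))))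 (XT.nd (nat_lit 234) (nat_lit 0) (nat_lit 0) (XT.nd (nat_lit 78) (nat_lit 0) (nat_lit 0) (XT.lf (nat_lit 0) (nat_lit 11489750322662) (nat_lit 76) (nat_lit 1374559207614) (nat_lit 76) (nat_lit 1373981297799) (nat_lit 1) (nat_lit 4) (nat_lit 2) (nat_lit 5) (nat_lit 2) (nat_lit 4) (nat_lit 533) (nat_lit 368) (nat_lit 299)) (XT.nd (nat_lit 78) (nat_lit 0) (nat_lit 0) (XT.lf (nat_lit 0) (nat_lit 12416232665693) (nat_lit 76) (nat_lit 1480708437046) (nat_lit 76) (nat_lit 1480130314692) (nat_lit 1) (nat_lit 4) (nat_lit 2) (nat_lit 5) (nat_lit 2) (nat_lit 4) (nat_lit 534) (nat_lit 368) (nat_lit 298)) (XT.lf (nat_lit 0) (nat_lit 13416828497991) (nat_lit 76) (nat_lit 1595352236224) (nat_lit 76) (nat_lit 1594773917075) (nat_lit 1) (nat_lit 4) (nat_lit 2) (nat_lit 5) (nat_lit 2) (nat_lit 4) (nat_lit 535) (nat_lit 368) (nat_lit 297)))) (XT.nd (nat_lit 56706) (nat_lit 0) (nat_lit 228) (XT.lf (nat_lit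 0) (nat_lit 14497467276341) (nat_lit 76) (nat_lit 1719169975808) (nat_lit 76) (nat_lit 1718591474442) (nat_lit 1) (nat_lit 4) (nat_lit 2) (nat_lit 5) (nat_lit 2) (nat_lit 4) (nat_lit 536) (nat_lit 368) (nat_lit 296)) (XT.nd (nat_lit 78) (nat_lit 76) (nat_lit 0) (XT.lf (nat_lit 0) (nat_lit 16284046111) (nat_lit 152) (nat_lit 1076310425) (nat_lit 0) (nat_lit 16284046111) (nat_lit 5) (nat_lit 5) (nat_lit 7) (nat_lit 4) (nat_lit 5) (nat_lit 4) (nat_lit 462) (nat_lit 369) (nat_lit 369)) (XT.lf (nat_lit 0) (nat_lit 17138393802) (nat_lit 76) (nat_lit 27414480938) (nat_lit 76) (nat_lit 27364301625) (nat_lit 4) (nat_lit 4) (nat_lit 5) (nat_lit 5) (nat_lit 5) (nat_lit 4) (nat_lit 463) (nat_lit 369) (nat_lit 368)))))) (XT.nd (nat_lit 468) (nat_lit 76) (nat_lit 0) (XT.nd (nat_lit 234) (nat_lit 152) (nat_lit 0) (XT.nd (nat_lit 78) (nat_lit 0) (nat_lit 0) (XT.lf (nat_lit 0) (nat_lit 37140161640) (nat_lit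 76) (nat_lit 19952308591) (nat_lit 76) (nat_lit 19855666951) (nat_lit 4) (nat_lit 4) (nat_lit 5) (nat_lit 5) (nat_lit 5) (nat_lit 4) (nat_lit 464) (nat_lit 369) (nat_lit 367)) (XT.nd (nat_lit 78) (nat_lit 0) (nat_lit 0) (XT.lf (nat_lit 0) (nat_lit 57857858459) (nat_lit 76) (nat_lit 12348832219) (nat_lit 76) (nat_lit 12209169906) (nat_lit 4) (nat_lit 4) (nat_lit 5) (nat_lit 5) (nat_lit 5) (nat_lit 4) (nat_lit 465) (nat_lit 369) (nat_lit 366)) (XT.lf (nat_lit 0) (nat_lit 79414255794) (nat_lit 76) (nat_lit 4558994185) (nat_lit 76) (nat_lit 4379497915) (nat_lit 4) (nat_lit 4) (nat_lit 5) (nat_lit 5) (nat_lit 5) (nat_lit 4) (nat_lit 466) (nat_lit 369) (nat_lit 365)))) (XT.nd (nat_lit 78) (nat_lit 0) (nat_lit 0) (XT.lf (nat_lit 0) (nat_lit 3764500742) (nat_lit 152) (nat_lit 87436744430) (nat_lit 0) (nat_lit 3564149294) (nat_lit 2) (nat_lit 5) (nat_lit 4) (nat_lit 4) (nat_lit 2) (nat_lit 4) (nat_lit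 467) (nat_lit 369) (nat_lit 364)) (XT.nd (nat_lit 78) (nat_lit 0) (nat_lit 0) (XT.lf (nat_lit 0) (nat_lit 12315903299) (nat_lit 152) (nat_lit 77282721278) (nat_lit 0) (nat_lit 12083930372) (nat_lit 2) (nat_lit 5) (nat_lit 4) (nat_lit 4) (nat_lit 2) (nat_lit 4) (nat_lit 468) (nat_lit 369) (nat_lit 363)) (XT.lf (nat_lit 0) (nat_lit 21202652411) (nat_lit 152) (nat_lit 67036938344) (nat_lit 0) (nat_lit 20941400337) (nat_lit 2) (nat_lit 5) (nat_lit 4) (nat_lit 4) (nat_lit 2) (nat_lit 4) (nat_lit 469) (nat_lit 369) (nat_lit 362))))) (XT.nd (nat_lit 234) (nat_lit 76) (nat_lit 0) (XT.nd (nat_lit 78) (nat_lit 0) (nat_lit 0) (XT.lf (nat_lit 0) (nat_lit 30477410295) (nat_lit 152) (nat_lit 56638679876) (nat_lit 0) (nat_lit 30189047900) (nat_lit 2) (nat_lit 5) (nat_lit 4) (nat_lit 4) (nat_lit 2) (nat_lit 4) (nat_lit 470) (nat_lit 369) (nat_lit 361)) (XT.nd (nat_lit 78) (nat_lit 0) (nat_lit 0) (XT.lf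 (nat_lit 0) (nat_lit 40195138480) (nat_lit 152) (nat_lit 46026326566) (nat_lit 0) (nat_lit 39881673935) (nat_lit 2) (nat_lit 5) (nat_lit 4) (nat_lit 4) (nat_lit 2) (nat_lit 4) (nat_lit 471) (nat_lit 369) (nat_lit 360)) (XT.lf (nat_lit 0) (nat_lit 50413423502) (nat_lit 152) (nat_lit 35136990393) (nat_lit 0) (nat_lit 50076716226) (nat_lit 2) (nat_lit 5) (nat_lit 4) (nat_lit 4) (nat_lit 2) (nat_lit 4) (nat_lit 472) (nat_lit 369) (nat_lit 359)))) (XT.nd (nat_lit 156) (nat_lit 76) (nat_lit 0) (XT.nd (nat_lit 78) (nat_lit 0) (nat_lit 0) (XT.lf (nat_lit 0) (nat_lit 61192818162) (nat_lit 152) (nat_lit 23906141957) (nat_lit 0) (nat_lit 60834589838) (nat_lit 2) (nat_lit 5) (nat_lit 4) (nat_lit 4) (nat_lit 2) (nat_lit 4) (nat_lit 473) (nat_lit 369) (nat_lit 358)) (XT.lf (nat_lit 0) (nat_lit 72597200354) (nat_lit 152) (nat_lit 12267228084) (nat_lit 0) (nat_lit 72219045135) (nat_lit 2) (nat_lit 5) (nat_lit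 4) (nat_lit 4) (nat_lit 2) (nat_lit 4) (nat_lit 474) (nat_lit 369) (nat_lit 357))) (XT.nd (nat_lit 78) (nat_lit 76) (nat_lit 0) (XT.lf (nat_lit 0) (nat_lit 84694151602) (nat_lit 152) (nat_lit 151277431) (nat_lit 0) (nat_lit 84297545553) (nat_lit 2) (nat_lit 5) (nat_lit 4) (nat_lit 4) (nat_lit 2) (nat_lit 4) (nat_lit 475) (nat_lit 369) (nat_lit 356)) (XT.lf (nat_lit 0) (nat_lit 13172447393) (nat_lit 76) (nat_lit 84699707826) (nat_lit 76) (nat_lit 84286017676) (nat_lit 1) (nat_lit 4) (nat_lit 2) (nat_lit 5) (nat_lit 2) (nat_lit 4) (nat_lit 476) (nat_lit 369) (nat_lit 355))))))))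
noncomputable def xc28 : XT := (XT.nd (nat_lit 1950) (nat_lit 0) (nat_lit 0) (XT.nd (nat_lit 936) (nat_lit 0) (nat_lit 0) (XT.nd (nat_lit 468) (nat_lit 0) (nat_lit 0) (XT.nd (nat_lit 234) (nat_lit 0) (nat_lit 0) (XT.nd (nat_lit 78) (nat_lit 0) (nat_lit 0) (XT.lf (nat_lit 0) (nat_lit 27160876517) (nat_lit 76) (nat_lit 84749375947) (nat_lit 76) (nat_lit 84319867185) (nat_lit 1) (nat_lit 4) (nat_lit 2) (nat_lit 5) (nat_lit 2) (nat_lit 4) (nat_lit 477) (nat_lit 369) (nat_lit 354)) (XT.nd (nat_lit 78) (nat_lit 0) (nat_lit 0) (XT.lf (nat_lit 0) (nat_lit 41888938332) (nat_lit 76) (nat_lit 84998863920) (nat_lit 76) (nat_lit 84554708295) (nat_lit 1) (nat_lit 4) (nat_lit 2) (nat_lit 5) (nat_lit 2) (nat_lit 4) (nat_lit 478) (nat_lit 369) (nat_lit 353)) (XT.lf (nat_lit 0) (nat_lit 57443910242) (nat_lit 76) (nat_lit 85449650191) (nat_lit 76) (nat_lit 84991932656) (nat_lit 1) (nat_lit 4) (nat_lit 2)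 (nat_lit 5) (nat_lit 2) (nat_lit 4) (nat_lit 479) (nat_lit 369) (nat_lit 352)))) (XT.nd (nat_lit 78) (nat_lit 0) (nat_lit 0) (XT.lf (nat_lit 0) (nat_lit 73917969858) (nat_lit 76) (nat_lit 86104406088) (nat_lit 76) (nat_lit 85634131228) (nat_lit 1) (nat_lit 4) (nat_lit 2) (nat_lit 5) (nat_lit 2) (nat_lit 4) (nat_lit 480) (nat_lit 369) (nat_lit 351)) (XT.nd (nat_lit 78) (nat_lit 0) (nat_lit 0) (XT.lf (nat_lit 0) (nat_lit 91408741237) (nat_lit 76) (nat_lit 86967011645) (nat_lit 76) (nat_lit 86485109633) (nat_lit 1) (nat_lit 4) (nat_lit 2) (nat_lit 5) (nat_lit 2) (nat_lit 4) (nat_lit 481) (nat_lit 369) (nat_lit 350)) (XT.lf (nat_lit 0) (nat_lit 110019873395) (nat_lit 76) (nat_lit 88042578598) (nat_lit 76) (nat_lit 87549910704) (nat_lit 1) (nat_lit 4) (nat_lit 2) (nat_lit 5) (nat_lit 2) (nat_lit 4) (nat_lit 482) (nat_lit 369) (nat_lit 349))))) (XT.nd (nat_lit 234) (nat_lit 0) (nat_lit 0) (XT.nd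 (nat_lit 78) (nat_lit 0) (nat_lit 0) (XT.lf (nat_lit 0) (nat_lit 129861654522) (nat_lit 76) (nat_lit 89337480678) (nat_lit 76) (nat_lit 88834844375) (nat_lit 1) (nat_lit 4) (nat_lit 2) (nat_lit 5) (nat_lit 2) (nat_lit 4) (nat_lit 483) (nat_lit 369) (nat_lit 348)) (XT.nd (nat_lit 78) (nat_lit 0) (nat_lit 0) (XT.lf (nat_lit 0) (nat_lit 151051665544) (nat_lit 76) (nat_lit 90859391378) (nat_lit 76) (nat_lit 90347525067) (nat_lit 1) (nat_lit 4) (nat_lit 2) (nat_lit 5) (nat_lit 2) (nat_lit 4) (nat_lit 484) (nat_lit 369) (nat_lit 347)) (XT.lf (nat_lit 0) (nat_lit 173715476895) (nat_lit 76) (nat_lit 92617329429) (nat_lit 76) (nat_lit 92096916814) (nat_lit 1) (nat_lit 4) (nat_lit 2) (nat_lit 5) (nat_lit 2) (nat_lit 4) (nat_lit 485) (nat_lit 369) (nat_lit 346)))) (XT.nd (nat_lit 78) (nat_lit 0) (nat_lit 0) (XT.lf (nat_lit 0) (nat_lit 197987392644) (nat_lit 76) (nat_lit 94621712241) (nat_lit 76) (nat_lit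 94093386381) (nat_lit 1) (nat_lit 4) (nat_lit 2) (nat_lit 5) (nat_lit 2) (nat_lit 4) (nat_lit 486) (nat_lit 369) (nat_lit 345)) (XT.nd (nat_lit 78) (nat_lit 0) (nat_lit 0) (XT.lf (nat_lit 0) (nat_lit 224011246366) (nat_lit 76) (nat_lit 96884417638) (nat_lit 76) (nat_lit 96348764700) (nat_lit 1) (nat_lit 4) (nat_lit 2) (nat_lit 5) (nat_lit 2) (nat_lit 4) (nat_lit 487) (nat_lit 369) (nat_lit 344)) (XT.lf (nat_lit 0) (nat_lit 251941253488) (nat_lit 76) (nat_lit 99418854245) (nat_lit 76) (nat_lit 98876416976) (nat_lit 1) (nat_lit 4) (nat_lit 2) (nat_lit 5) (nat_lit 2) (nat_lit 4) (nat_lit 488) (nat_lit 369) (nat_lit 343)))))) (XT.nd (nat_lit 468) (nat_lit 0) (nat_lit 0) (XT.nd (nat_lit 234) (nat_lit 0) (nat_lit 0) (XT.nd (nat_lit 78) (nat_lit 0) (nat_lit 0) (XT.lf (nat_lit 0) (nat_lit 281942925166) (nat_lit 76) (nat_lit 102240040946) (nat_lit 76) (nat_lit 101691321888) (nat_lit 1) (nat_lit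 4) (nat_lit 2) (nat_lit 5) (nat_lit 2) (nat_lit 4) (nat_lit 489) (nat_lit 369) (nat_lit 342)) (XT.nd (nat_lit 78) (nat_lit 0) (nat_lit 0) (XT.lf (nat_lit 0) (nat_lit 314194049083) (nat_lit 76) (nat_lit 105364695883) (nat_lit 76) (nat_lit 104810160354) (nat_lit 1) (nat_lit 4) (nat_lit 2) (nat_lit 5) (nat_lit 2) (nat_lit 4) (nat_lit 490) (nat_lit 369) (nat_lit 341)) (XT.lf (nat_lit 0) (nat_lit 348885743010) (nat_lit 76) (nat_lit 108811335531) (nat_lit 76) (nat_lit 108251414381) (nat_lit 1) (nat_lit 4) (nat_lit 2) (nat_lit 5) (nat_lit 2) (nat_lit 4) (nat_lit 491) (nat_lit 369) (nat_lit 340)))) (XT.nd (nat_lit 78) (nat_lit 0) (nat_lit 0) (XT.lf (nat_lit 0) (nat_lit 386223587356) (nat_lit 76) (nat_lit 112600384421) (nat_lit 76) (nat_lit 112035476584) (nat_lit 1) (nat_lit 4) (nat_lit 2) (nat_lit 5) (nat_lit 2) (nat_lit 4) (nat_lit 492) (nat_lit 369) (nat_lit 339)) (XT.nd (nat_lit 78) (nat_lit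 0) (nat_lit 0) (XT.lf (nat_lit 0) (nat_lit 426428843421) (nat_lit 76) (nat_lit 116754296175) (nat_lit 76) (nat_lit 116184771037) (nat_lit 1) (nat_lit 4) (nat_lit 2) (nat_lit 5) (nat_lit 2) (nat_lit 4) (nat_lit 493) (nat_lit 369) (nat_lit 338)) (XT.lf (nat_lit 0) (nat_lit 469739764573) (nat_lit 76) (nat_lit 121297686568) (nat_lit 76) (nat_lit 120723886150) (nat_lit 1) (nat_lit 4) (nat_lit 2) (nat_lit 5) (nat_lit 2) (nat_lit 4) (nat_lit 494) (nat_lit 369) (nat_lit 337))))) (XT.nd (nat_lit 234) (nat_lit 0) (nat_lit 0) (XT.nd (nat_lit 78) (nat_lit 0) (nat_lit 0) (XT.lf (nat_lit 0) (nat_lit 516413008124) (nat_lit 76) (nat_lit 126257479394) (nat_lit 76) (nat_lit 125679720384) (nat_lit 1) (nat_lit 4) (nat_lit 2) (nat_lit 5) (nat_lit 2) (nat_lit 4) (nat_lit 495) (nat_lit 369) (nat_lit 336)) (XT.nd (nat_lit 78) (nat_lit 0) (nat_lit 0) (XT.lf (nat_lit 0) (nat_lit 566725156258) (nat_lit 76) (nat_lit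 131663066018) (nat_lit 76) (nat_lit 131081641644) (nat_lit 1) (nat_lit 4) (nat_lit 2) (nat_lit 5) (nat_lit 2) (nat_lit 4) (nat_lit 496) (nat_lit 369) (nat_lit 335)) (XT.lf (nat_lit 0) (nat_lit 620974355037) (nat_lit 76) (nat_lit 137546479546) (nat_lit 76) (nat_lit 136961661317) (nat_lit 1) (nat_lit 4) (nat_lit 2) (nat_lit 5) (nat_lit 2) (nat_lit 4) (nat_lit 497) (nat_lit 369) (nat_lit 334)))) (XT.nd (nat_lit 156) (nat_lit 0) (nat_lit 0) (XT.nd (nat_lit 78) (nat_lit 0) (nat_lit 0) (XT.lf (nat_lit 0) (nat_lit 679482081194) (nat_lit 76) (nat_lit 143942584650) (nat_lit 76) (nat_lit 143354623964) (nat_lit 1) (nat_lit 4) (nat_lit 2) (nat_lit 5) (nat_lit 2) (nat_lit 4) (nat_lit 498) (nat_lit 369) (nat_lit 333)) (XT.lf (nat_lit 0) (nat_lit 742595047183) (nat_lit 76) (nat_lit 150889284177) (nat_lit 76) (nat_lit 150298413806) (nat_lit 1) (nat_lit 4) (nat_lit 2) (nat_lit 5) (nat_lit 2) (nat_lit 4)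 (nat_lit 499) (nat_lit 369) (nat_lit 332))) (XT.nd (nat_lit 78) (nat_lit 0) (nat_lit 0) (XT.lf (nat_lit 0) (nat_lit 810687255762) (nat_lit 76) (nat_lit 158427743752) (nat_lit 76) (nat_lit 157834179230) (nat_lit 1) (nat_lit 4) (nat_lit 2) (nat_lit 5) (nat_lit 2) (nat_lit 4) (nat_lit 500) (nat_lit 369) (nat_lit 331)) (XT.lf (nat_lit 0) (nat_lit 884162216318) (nat_lit 76) (nat_lit 166602635728) (nat_lit 76) (nat_lit 166006576622) (nat_lit 1) (nat_lit 4) (nat_lit 2) (nat_lit 5) (nat_lit 2) (nat_lit 4) (nat_lit 501) (nat_lit 369) (nat_lit 330))))))) (XT.nd (nat_lit 936) (nat_lit 0) (nat_lit 0) (XT.nd (nat_lit 468) (nat_lit 0) (nat_lit 0) (XT.nd (nat_lit 234) (nat_lit 0) (nat_lit 0) (XT.nd (nat_lit 78) (nat_lit 0) (nat_lit 0) (XT.lf (nat_lit 0) (nat_lit 963455336023) (nat_lit 76) (nat_lit 175462403911) (nat_lit 76) (nat_lit 174864035004) (nat_lit 1) (nat_lit 4) (nat_lit 2) (nat_lit 5) (nat_lit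 2) (nat_lit 4) (nat_lit 502) (nat_lit 369) (nat_lit 329)) (XT.nd (nat_lit 78) (nat_lit 0) (nat_lit 0) (XT.lf (nat_lit 0) (nat_lit 1049036500032) (nat_lit 76) (nat_lit 185059550629) (nat_lit 76) (nat_lit 184459043018) (nat_lit 1) (nat_lit 4) (nat_lit 2) (nat_lit 5) (nat_lit 2) (nat_lit 4) (nat_lit 503) (nat_lit 369) (nat_lit 328)) (XT.lf (nat_lit 0) (nat_lit 1141412855982) (nat_lit 76) (nat_lit 195450947864) (nat_lit 76) (nat_lit 194848459971) (nat_lit 1) (nat_lit 4) (nat_lit 2) (nat_lit 5) (nat_lit 2) (nat_lit 4) (nat_lit 504) (nat_lit 369) (nat_lit 327)))) (XT.nd (nat_lit 78) (nat_lit 0) (nat_lit 0) (XT.lf (nat_lit 0) (nat_lit 1241131819317) (nat_lit 76) (nat_lit 206698174266) (nat_lit 76) (nat_lit 206093852779) (nat_lit 1) (nat_lit 4) (nat_lit 2) (nat_lit 5) (nat_lit 2) (nat_lit 4) (nat_lit 505) (nat_lit 369) (nat_lit 326)) (XT.nd (nat_lit 78) (nat_lit 0) (nat_lit 0) (XT.lf (nat_lit 0)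 (nat_lit 1348784317227) (nat_lit 76) (nat_lit 218867880065) (nat_lit 76) (nat_lit 218261860805) (nat_lit 1) (nat_lit 4) (nat_lit 2) (nat_lit 5) (nat_lit 2) (nat_lit 4) (nat_lit 506) (nat_lit 369) (nat_lit 325)) (XT.lf (nat_lit 0) (nat_lit 1465008290439) (nat_lit 76) (nat_lit 232032182036) (nat_lit 76) (nat_lit 231424590765) (nat_lit 1) (nat_lit 4) (nat_lit 2) (nat_lit 5) (nat_lit 2) (nat_lit 4) (nat_lit 507) (nat_lit 369) (nat_lit 324))))) (XT.nd (nat_lit 234) (nat_lit 0) (nat_lit 0) (XT.nd (nat_lit 78) (nat_lit 0) (nat_lit 0) (XT.lf (nat_lit 0) (nat_lit 1590492473611) (nat_lit 76) (nat_lit 246269090858) (nat_lit 76) (nat_lit 245660044021) (nat_lit 1) (nat_lit 4) (nat_lit 2) (nat_lit 5) (nat_lit 2) (nat_lit 4) (nat_lit 508) (nat_lit 369) (nat_lit 323)) (XT.nd (nat_lit 78) (nat_lit 0) (nat_lit 0) (XT.lf (nat_lit 0) (nat_lit 1725980476716) (nat_lit 76) (nat_lit 261662973398) (nat_lit 76)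 (nat_lit 261052578814) (nat_lit 1) (nat_lit 4) (nat_lit 2) (nat_lit 5) (nat_lit 2) (nat_lit 4) (nat_lit 509) (nat_lit 369) (nat_lit 322)) (XT.lf (nat_lit 0) (nat_lit 1872275191625) (nat_lit 76) (nat_lit 278305052663) (nat_lit 76) (nat_lit 277693410166) (nat_lit 1) (nat_lit 4) (nat_lit 2) (nat_lit 5) (nat_lit 2) (nat_lit 4) (nat_lit 510) (nat_lit 369) (nat_lit 321)))) (XT.nd (nat_lit 78) (nat_lit 0) (nat_lit 0) (XT.lf (nat_lit 0) (nat_lit 2030243549982) (nat_lit 76) (nat_lit 296293948383) (nat_lit 76) (nat_lit 295681150410) (nat_lit 1) (nat_lit 4) (nat_lit 2) (nat_lit 5) (nat_lit 2) (nat_lit 4) (nat_lit 511) (nat_lit 369) (nat_lit 320)) (XT.nd (nat_lit 78) (nat_lit 0) (nat_lit 0) (XT.lf (nat_lit 0) (nat_lit 2200821660577) (nat_lit 76) (nat_lit 315736261421) (nat_lit 76) (nat_lit 315122393563) (nat_lit 1) (nat_lit 4) (nat_lit 2) (nat_lit 5) (nat_lit 2) (nat_lit 4) (nat_lit 512) (nat_lit 369)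 (nat_lit 319)) (XT.lf (nat_lit 0) (nat_lit 2385020356657) (nat_lit 76) (nat_lit 336747205483) (nat_lit 76) (nat_lit 336132346992) (nat_lit 1) (nat_lit 4) (nat_lit 2) (nat_lit 5) (nat_lit 2) (nat_lit 4) (nat_lit 513) (nat_lit 369) (nat_lit 318)))))) (XT.nd (nat_lit 468) (nat_lit 0) (nat_lit 0) (XT.nd (nat_lit 234) (nat_lit 0) (nat_lit 0) (XT.nd (nat_lit 78) (nat_lit 0) (nat_lit 0) (XT.lf (nat_lit 0) (nat_lit 2583931186052) (nat_lit 76) (nat_lit 359451289869) (nat_lit 76) (nat_lit 358835514124) (nat_lit 1) (nat_lit 4) (nat_lit 2) (nat_lit 5) (nat_lit 2) (nat_lit 4) (nat_lit 514) (nat_lit 369) (nat_lit 317)) (XT.nd (nat_lit 78) (nat_lit 0) (nat_lit 0) (XT.lf (nat_lit 0) (nat_lit 2798732879602) (nat_lit 76) (nat_lit 383983057300) (nat_lit 76) (nat_lit 383366432246) (nat_lit 1) (nat_lit 4) (nat_lit 2) (nat_lit 5) (nat_lit 2) (nat_lit 4) (nat_lit 515) (nat_lit 369) (nat_lit 316)) (XT.lf (nat_lit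 0) (nat_lit 3030698336233) (nat_lit 76) (nat_lit 410487881212) (nat_lit 76) (nat_lit 409870469762) (nat_lit 1) (nat_lit 4) (nat_lit 2) (nat_lit 5) (nat_lit 2) (nat_lit 4) (nat_lit 516) (nat_lit 369) (nat_lit 315)))) (XT.nd (nat_lit 78) (nat_lit 0) (nat_lit 0) (XT.lf (nat_lit 0) (nat_lit 3281202166057) (nat_lit 76) (nat_lit 439122827230) (nat_lit 76) (nat_lit 438504687634) (nat_lit 1) (nat_lit 4) (nat_lit 2) (nat_lit 5) (nat_lit 2) (nat_lit 4) (nat_lit 517) (nat_lit 369) (nat_lit 314)) (XT.nd (nat_lit 78) (nat_lit 0) (nat_lit 0) (XT.lf (nat_lit 0) (nat_lit 3551728836214) (nat_lit 76) (nat_lit 470057583922) (nat_lit 76) (nat_lit 469438770117) (nat_lit 1) (nat_lit 4) (nat_lit 2) (nat_lit 5) (nat_lit 2) (nat_lit 4) (nat_lit 518) (nat_lit 369) (nat_lit 313)) (XT.lf (nat_lit 0) (nat_lit 3843881467712) (nat_lit 76) (nat_lit 503475468365) (nat_lit 76) (nat_lit 502856030292) (nat_lit 1) (nat_lit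 4) (nat_lit 2) (nat_lit 5) (nat_lit 2) (nat_lit 4) (nat_lit 519) (nat_lit 369) (nat_lit 312))))) (XT.nd (nat_lit 234) (nat_lit 0) (nat_lit 0) (XT.nd (nat_lit 78) (nat_lit 0) (nat_lit 0) (XT.lf (nat_lit 0) (nat_lit 4159391335405) (nat_lit 76) (nat_lit 539574512466) (nat_lit 76) (nat_lit 538954496368) (nat_lit 1) (nat_lit 4) (nat_lit 2) (nat_lit 5) (nat_lit 2) (nat_lit 4) (nat_lit 520) (nat_lit 369) (nat_lit 311)) (XT.nd (nat_lit 78) (nat_lit 0) (nat_lit 0) (XT.lf (nat_lit 0) (nat_lit 4500128127398) (nat_lit 76) (nat_lit 578568636487) (nat_lit 76) (nat_lit 577948085181) (nat_lit 1) (nat_lit 4) (nat_lit 2) (nat_lit 5) (nat_lit 2) (nat_lit 4) (nat_lit 521) (nat_lit 369) (nat_lit 310)) (XT.lf (nat_lit 0) (nat_lit 4868111024681) (nat_lit 76) (nat_lit 620688916719) (nat_lit 76) (nat_lit 620067869849) (nat_lit 1) (nat_lit 4) (nat_lit 2) (nat_lit 5) (nat_lit 2) (nat_lit 4) (nat_lit 522) (nat_lit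 369) (nat_lit 309)))) (XT.nd (nat_lit 156) (nat_lit 0) (nat_lit 0) (XT.nd (nat_lit 78) (nat_lit 0) (nat_lit 0) (XT.lf (nat_lit 0) (nat_lit 5265520666643) (nat_lit 76) (nat_lit 666184954822) (nat_lit 76) (nat_lit 665563449097) (nat_lit 1) (nat_lit 4) (nat_lit 2) (nat_lit 5) (nat_lit 2) (nat_lit 4) (nat_lit 523) (nat_lit 369) (nat_lit 308)) (XT.lf (nat_lit 0) (nat_lit 5694712073387) (nat_lit 76) (nat_lit 715326356947) (nat_lit 76) (nat_lit 714704426356) (nat_lit 1) (nat_lit 4) (nat_lit 2) (nat_lit 5) (nat_lit 2) (nat_lit 4) (nat_lit 524) (nat_lit 369) (nat_lit 307))) (XT.nd (nat_lit 78) (nat_lit 0) (nat_lit 0) (XT.lf (nat_lit 0) (nat_lit 6158228601397) (nat_lit 76) (nat_lit 768404331405) (nat_lit 76) (nat_lit 767782007419) (nat_lit 1) (nat_lit 4) (nat_lit 2) (nat_lit 5) (nat_lit 2) (nat_lit 4) (nat_lit 525) (nat_lit 369) (nat_lit 306)) (XT.lf (nat_lit 0) (nat_lit 6658817015282) (nat_lit 76)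 (nat_lit 825733414338) (nat_lit 76) (nat_lit 825110726099) (nat_lit 1) (nat_lit 4) (nat_lit 2) (nat_lit 5) (nat_lit 2) (nat_lit 4) (nat_lit 526) (nat_lit 369) (nat_lit 305))))))))
noncomputable def xc29 : XT := (XT.nd (nat_lit 58422) (nat_lit 0) (nat_lit 0) (XT.nd (nat_lit 57408) (nat_lit 0) (nat_lit 76) (XT.nd (nat_lit 468) (nat_lit 0) (nat_lit 0) (XT.nd (nat_lit 234) (nat_lit 0) (nat_lit 0) (XT.nd (nat_lit 78) (nat_lit 0) (nat_lit 0) (XT.lf (nat_lit 0) (nat_lit 7199443764903) (nat_lit 76) (nat_lit 887653333648) (nat_lit 76) (nat_lit 887030308136) (nat_lit 1) (nat_lit 4) (nat_lit 2) (nat_lit 5) (nat_lit 2) (nat_lit 4) (nat_lit 527) (nat_lit 369) (nat_lit 304)) (XT.nd (nat_lit 78) (nat_lit 0) (nat_lit 0) (XT.lf (nat_lit 0) (nat_lit 7783312564332) (nat_lit 76) (nat_lit 954531022188) (nat_lit 76) (nat_lit 953907684387) (nat_lit 1) (nat_lit 4) (nat_lit 2) (nat_lit 5) (nat_lit 2) (nat_lit 4)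 (nat_lit 528) (nat_lit 369) (nat_lit 303)) (XT.lf (nat_lit 0) (nat_lit 8413883376825) (nat_lit 76) (nat_lit 1026762792187) (nat_lit 76) (nat_lit 1026139165229) (nat_lit 1) (nat_lit 4) (nat_lit 2) (nat_lit 5) (nat_lit 2) (nat_lit 4) (nat_lit 529) (nat_lit 369) (nat_lit 302)))) (XT.nd (nat_lit 78) (nat_lit 0) (nat_lit 0) (XT.lf (nat_lit 0) (nat_lit 9094892918307) (nat_lit 76) (nat_lit 1104776683763) (nat_lit 76) (nat_lit 1104152789068) (nat_lit 1) (nat_lit 4) (nat_lit 2) (nat_lit 5) (nat_lit 2) (nat_lit 4) (nat_lit 530) (nat_lit 369) (nat_lit 301)) (XT.nd (nat_lit 78) (nat_lit 0) (nat_lit 0) (XT.lf (nat_lit 0) (nat_lit 9830376800877) (nat_lit 76) (nat_lit 1189035001460) (nat_lit 76) (nat_lit 1188410858860) (nat_lit 1) (nat_lit 4) (nat_lit 2) (nat_lit 5) (nat_lit 2) (nat_lit 4) (nat_lit 531) (nat_lit 369) (nat_lit 300)) (XT.lf (nat_lit 0) (nat_lit 10624693447541) (nat_lit 76) (nat_lit 1280037053826)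 (nat_lit 76) (nat_lit 1279412681684) (nat_lit 1) (nat_lit 4) (nat_lit 2) (nat_lit 5) (nat_lit 2) (nat_lit 4) (nat_lit 532) (nat_lit 369) (nat_lit 299))))) (XT.nd (nat_lit 234) (nat_lit 0) (nat_lit 0) (XT.nd (nat_lit 78) (nat_lit 0) (nat_lit 0) (XT.lf (nat_lit 0) (nat_lit 11482549919911) (nat_lit 76) (nat_lit 1378322112283) (nat_lit 76) (nat_lit 1377697527603) (nat_lit 1) (nat_lit 4) (nat_lit 2) (nat_lit 5) (nat_lit 2) (nat_lit 4) (nat_lit 533) (nat_lit 369) (nat_lit 298)) (XT.nd (nat_lit 78) (nat_lit 0) (nat_lit 0) (XT.lf (nat_lit 0) (nat_lit 12409029811895) (nat_lit 76) (nat_lit 1484472606808) (nat_lit 76) (nat_lit 1483847825332) (nat_lit 1) (nat_lit 4) (nat_lit 2) (nat_lit 5) (nat_lit 2) (nat_lit 4) (nat_lit 534) (nat_lit 369) (nat_lit 297)) (XT.lf (nat_lit 0) (nat_lit 13409623374707) (nat_lit 76) (nat_lit 1599117577366) (nat_lit 76) (nat_lit 1598492613673) (nat_lit 1) (nat_lit 4) (nat_lit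 2) (nat_lit 5) (nat_lit 2) (nat_lit 4) (nat_lit 535) (nat_lit 369) (nat_lit 296)))) (XT.nd (nat_lit 56550) (nat_lit 0) (nat_lit 304) (XT.lf (nat_lit 0) (nat_lit 14490260051681) (nat_lit 76) (nat_lit 1722936401563) (nat_lit 76) (nat_lit 1722311269149) (nat_lit 1) (nat_lit 4) (nat_lit 2) (nat_lit 5) (nat_lit 2) (nat_lit 4) (nat_lit 536) (nat_lit 369) (nat_lit 295)) (XT.nd (nat_lit 78) (nat_lit 0) (nat_lit 0) (XT.lf (nat_lit 0) (nat_lit 5454872056) (nat_lit 152) (nat_lit 18621476158) (nat_lit 0) (nat_lit 5454872056) (nat_lit 5) (nat_lit 5) (nat_lit 7) (nat_lit 4) (nat_lit 5) (nat_lit 4) (nat_lit 460) (nat_lit 370) (nat_lit 370)) (XT.lf (nat_lit 0) (nat_lit 21467052509) (nat_lit 152) (nat_lit 20128024654) (nat_lit 0) (nat_lit 21412858851) (nat_lit 5) (nat_lit 5) (nat_lit 7) (nat_lit 4) (nat_lit 5) (nat_lit 4) (nat_lit 461) (nat_lit 370) (nat_lit 369)))))) (XT.nd (nat_lit 468) (nat_lit 0) (nat_lit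 0) (XT.nd (nat_lit 234) (nat_lit 152) (nat_lit 0) (XT.nd (nat_lit 78) (nat_lit 76) (nat_lit 0) (XT.lf (nat_lit 0) (nat_lit 32393897272) (nat_lit 152) (nat_lit 2623656102) (nat_lit 0) (nat_lit 32289524300) (nat_lit 5) (nat_lit 5) (nat_lit 7) (nat_lit 4) (nat_lit 5) (nat_lit 4) (nat_lit 462) (nat_lit 370) (nat_lit 368)) (XT.nd (nat_lit 78) (nat_lit 0) (nat_lit 0) (XT.lf (nat_lit 0) (nat_lit 16183444360) (nat_lit 76) (nat_lit 27960797940) (nat_lit 76) (nat_lit 27809962642) (nat_lit 4) (nat_lit 4) (nat_lit 5) (nat_lit 5) (nat_lit 5) (nat_lit 4) (nat_lit 463) (nat_lit 370) (nat_lit 367)) (XT.lf (nat_lit 0) (nat_lit 35760110060) (nat_lit 76) (nat_lit 20717697595) (nat_lit 76) (nat_lit 20523841623) (nat_lit 4) (nat_lit 4) (nat_lit 5) (nat_lit 5) (nat_lit 5) (nat_lit 4) (nat_lit 464) (nat_lit 370) (nat_lit 366)))) (XT.nd (nat_lit 78) (nat_lit 152) (nat_lit 0) (XT.lf (nat_lit 0) (nat_lit 56084193788)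 (nat_lit 76) (nat_lit 13317065669) (nat_lit 76) (nat_lit 13083375740) (nat_lit 4) (nat_lit 4) (nat_lit 5) (nat_lit 5) (nat_lit 5) (nat_lit 4) (nat_lit 465) (nat_lit 370) (nat_lit 365)) (XT.nd (nat_lit 78) (nat_lit 152) (nat_lit 0) (XT.lf (nat_lit 0) (nat_lit 77276134558) (nat_lit 76) (nat_lit 5715046566) (nat_lit 76) (nat_lit 5444473344) (nat_lit 4) (nat_lit 4) (nat_lit 5) (nat_lit 5) (nat_lit 5) (nat_lit 4) (nat_lit 466) (nat_lit 370) (nat_lit 364)) (XT.lf (nat_lit 0) (nat_lit 2486217718) (nat_lit 152) (nat_lit 90181394230) (nat_lit 0) (nat_lit 2204065479) (nat_lit 2) (nat_lit 5) (nat_lit 4) (nat_lit 4) (nat_lit 2) (nat_lit 4) (nat_lit 467) (nat_lit 370) (nat_lit 363))))) (XT.nd (nat_lit 234) (nat_lit 0) (nat_lit 0) (XT.nd (nat_lit 78) (nat_lit 0) (nat_lit 0) (XT.lf (nat_lit 0) (nat_lit 10869944482) (nat_lit 152) (nat_lit 80373795150) (nat_lit 0) (nat_lit 10558513095) (nat_lit 2) (nat_lit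 5) (nat_lit 4) (nat_lit 4) (nat_lit 2) (nat_lit 4) (nat_lit 468) (nat_lit 370) (nat_lit 362)) (XT.nd (nat_lit 78) (nat_lit 0) (nat_lit 0) (XT.lf (nat_lit 0) (nat_lit 19601438231) (nat_lit 152) (nat_lit 70448775245) (nat_lit 0) (nat_lit 19262896522) (nat_lit 2) (nat_lit 5) (nat_lit 4) (nat_lit 4) (nat_lit 2) (nat_lit 4) (nat_lit 469) (nat_lit 370) (nat_lit 361)) (XT.lf (nat_lit 0) (nat_lit 28732441148) (nat_lit 152) (nat_lit 60347519583) (nat_lit 0) (nat_lit 28368797290) (nat_lit 2) (nat_lit 5) (nat_lit 4) (nat_lit 4) (nat_lit 2) (nat_lit 4) (nat_lit 470) (nat_lit 370) (nat_lit 360)))) (XT.nd (nat_lit 156) (nat_lit 0) (nat_lit 0) (XT.nd (nat_lit 78) (nat_lit 0) (nat_lit 0) (XT.lf (nat_lit 0) (nat_lit 38317062882) (nat_lit 152) (nat_lit 50010168869) (nat_lit 0) (nat_lit 37930176293) (nat_lit 2) (nat_lit 5) (nat_lit 4) (nat_lit 4) (nat_lit 2) (nat_lit 4) (nat_lit 471) (nat_lit 370) (nat_lit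 359)) (XT.lf (nat_lit 0) (nat_lit 48412101191) (nat_lit 152) (nat_lit 39375464731) (nat_lit 0) (nat_lit 48003693555) (nat_lit 2) (nat_lit 5) (nat_lit 4) (nat_lit 4) (nat_lit 2) (nat_lit 4) (nat_lit 472) (nat_lit 370) (nat_lit 358))) (XT.nd (nat_lit 78) (nat_lit 0) (nat_lit 0) (XT.lf (nat_lit 0) (nat_lit 59077378524) (nat_lit 152) (nat_lit 28380386698) (nat_lit 0) (nat_lit 58649043991) (nat_lit 2) (nat_lit 5) (nat_lit 4) (nat_lit 4) (nat_lit 2) (nat_lit 4) (nat_lit 473) (nat_lit 370) (nat_lit 357)) (XT.lf (nat_lit 0) (nat_lit 70376096524) (nat_lit 152) (nat_lit 16959778753) (nat_lit 0) (nat_lit 69929311162) (nat_lit 2) (nat_lit 5) (nat_lit 4) (nat_lit 4) (nat_lit 2) (nat_lit 4) (nat_lit 474) (nat_lit 370) (nat_lit 356))))))) (XT.nd (nat_lit 936) (nat_lit 0) (nat_lit 0) (XT.nd (nat_lit 468) (nat_lit 0) (nat_lit 0) (XT.nd (nat_lit 234) (nat_lit 0) (nat_lit 0) (XT.nd (nat_lit 78) (nat_lit 76)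 (nat_lit 0) (XT.lf (nat_lit 0) (nat_lit 82375210557) (nat_lit 152) (nat_lit 5045963218) (nat_lit 0) (nat_lit 81911341094) (nat_lit 2) (nat_lit 5) (nat_lit 4) (nat_lit 4) (nat_lit 2) (nat_lit 4) (nat_lit 475) (nat_lit 370) (nat_lit 355)) (XT.nd (nat_lit 78) (nat_lit 0) (nat_lit 0) (XT.lf (nat_lit 0) (nat_lit 7822998353) (nat_lit 76) (nat_lit 87510971429) (nat_lit 76) (nat_lit 87031283354) (nat_lit 1) (nat_lit 4) (nat_lit 2) (nat_lit 5) (nat_lit 2) (nat_lit 4) (nat_lit 476) (nat_lit 370) (nat_lit 354)) (XT.lf (nat_lit 0) (nat_lit 21629003612) (nat_lit 76) (nat_lit 87654796475) (nat_lit 76) (nat_lit 87160461536) (nat_lit 1) (nat_lit 4) (nat_lit 2) (nat_lit 5) (nat_lit 2) (nat_lit 4) (nat_lit 477) (nat_lit 370) (nat_lit 353)))) (XT.nd (nat_lit 78) (nat_lit 0) (nat_lit 0) (XT.lf (nat_lit 0) (nat_lit 36188154441) (nat_lit 76) (nat_lit 87991466784) (nat_lit 76) (nat_lit 87483569936) (nat_lit 1)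 (nat_lit 4) (nat_lit 2) (nat_lit 5) (nat_lit 2) (nat_lit 4) (nat_lit 478) (nat_lit 370) (nat_lit 352)) (XT.nd (nat_lit 78) (nat_lit 0) (nat_lit 0) (XT.lf (nat_lit 0) (nat_lit 51586727290) (nat_lit 76) (nat_lit 88522977442) (nat_lit 76) (nat_lit 88002523269) (nat_lit 1) (nat_lit 4) (nat_lit 2) (nat_lit 5) (nat_lit 2) (nat_lit 4) (nat_lit 479) (nat_lit 370) (nat_lit 351)) (XT.lf (nat_lit 0) (nat_lit 67915972961) (nat_lit 76) (nat_lit 89252478141) (nat_lit 76) (nat_lit 88720396816) (nat_lit 1) (nat_lit 4) (nat_lit 2) (nat_lit 5) (nat_lit 2) (nat_lit 4) (nat_lit 480) (nat_lit 370) (nat_lit 350))))) (XT.nd (nat_lit 234) (nat_lit 0) (nat_lit 0) (XT.nd (nat_lit 78) (nat_lit 0) (nat_lit 0) (XT.lf (nat_lit 0) (nat_lit 85272657354) (nat_lit 76) (nat_lit 90184291848) (nat_lit 76) (nat_lit 89641444641) (nat_lit 1) (nat_lit 4) (nat_lit 2) (nat_lit 5) (nat_lit 2) (nat_lit 4) (nat_lit 481) (nat_lit 370)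 (nat_lit 349)) (XT.nd (nat_lit 78) (nat_lit 0) (nat_lit 0) (XT.lf (nat_lit 0) (nat_lit 103759634895) (nat_lit 76) (nat_lit 91323940421) (nat_lit 76) (nat_lit 90771124805) (nat_lit 1) (nat_lit 4) (nat_lit 2) (nat_lit 5) (nat_lit 2) (nat_lit 4) (nat_lit 482) (nat_lit 370) (nat_lit 348)) (XT.lf (nat_lit 0) (nat_lit 123486458043) (nat_lit 76) (nat_lit 92678177335) (nat_lit 76) (nat_lit 92116131711) (nat_lit 1) (nat_lit 4) (nat_lit 2) (nat_lit 5) (nat_lit 2) (nat_lit 4) (nat_lit 483) (nat_lit 370) (nat_lit 347)))) (XT.nd (nat_lit 78) (nat_lit 0) (nat_lit 0) (XT.lf (nat_lit 0) (nat_lit 144570026492) (nat_lit 76) (nat_lit 94255027696) (nat_lit 76) (nat_lit 93684435768) (nat_lit 1) (nat_lit 4) (nat_lit 2) (nat_lit 5) (nat_lit 2) (nat_lit 4) (nat_lit 484) (nat_lit 370) (nat_lit 346)) (XT.nd (nat_lit 78) (nat_lit 0) (nat_lit 0) (XT.lf (nat_lit 0) (nat_lit 167135279906) (nat_lit 76) (nat_lit 96063835803)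 (nat_lit 76) (nat_lit 95485330630) (nat_lit 1) (nat_lit 4) (nat_lit 2) (nat_lit 5) (nat_lit 2) (nat_lit 4) (nat_lit 485) (nat_lit 370) (nat_lit 345)) (XT.lf (nat_lit 0) (nat_lit 191315938305) (nat_lit 76) (nat_lit 98115320519) (nat_lit 76) (nat_lit 97529488268) (nat_lit 1) (nat_lit 4) (nat_lit 2) (nat_lit 5) (nat_lit 2) (nat_lit 4) (nat_lit 486) (nat_lit 370) (nat_lit 344)))))) (XT.nd (nat_lit 468) (nat_lit 0) (nat_lit 0) (XT.nd (nat_lit 234) (nat_lit 0) (nat_lit 0) (XT.nd (nat_lit 78) (nat_lit 0) (nat_lit 0) (XT.lf (nat_lit 0) (nat_lit 217255294480) (nat_lit 76) (nat_lit 100421638790) (nat_lit 76) (nat_lit 99829022208) (nat_lit 1) (nat_lit 4) (nat_lit 2) (nat_lit 5) (nat_lit 2) (nat_lit 4) (nat_lit 487) (nat_lit 370) (nat_lit 343)) (XT.nd (nat_lit 78) (nat_lit 0) (nat_lit 0) (XT.lf (nat_lit 0) (nat_lit 245107063134) (nat_lit 76) (nat_lit 102996457688) (nat_lit 76) (nat_lit 102397559317)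 (nat_lit 1) (nat_lit 4) (nat_lit 2) (nat_lit 5) (nat_lit 2) (nat_lit 4) (nat_lit 488) (nat_lit 370) (nat_lit 342)) (XT.lf (nat_lit 0) (nat_lit 275036291785) (nat_lit 76) (nat_lit 105855035399) (nat_lit 76) (nat_lit 105250320557) (nat_lit 1) (nat_lit 4) (nat_lit 2) (nat_lit 5) (nat_lit 2) (nat_lit 4) (nat_lit 489) (nat_lit 370) (nat_lit 341)))) (XT.nd (nat_lit 78) (nat_lit 0) (nat_lit 0) (XT.lf (nat_lit 0) (nat_lit 307220338826) (nat_lit 76) (nat_lit 109014311642) (nat_lit 76) (nat_lit 108404211179) (nat_lit 1) (nat_lit 4) (nat_lit 2) (nat_lit 5) (nat_lit 2) (nat_lit 4) (nat_lit 490) (nat_lit 370) (nat_lit 340)) (XT.nd (nat_lit 78) (nat_lit 0) (nat_lit 0) (XT.lf (nat_lit 0) (nat_lit 341849924534) (nat_lit 76) (nat_lit 112493008054) (nat_lit 76) (nat_lit 111877920905) (nat_lit 1) (nat_lit 4) (nat_lit 2) (nat_lit 5) (nat_lit 2) (nat_lit 4) (nat_lit 491) (nat_lit 370) (nat_lit 339)) (XT.lf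 (nat_lit 0) (nat_lit 379130261270) (nat_lit 76) (nat_lit 116311739133) (nat_lit 76) (nat_lit 115692034682) (nat_lit 1) (nat_lit 4) (nat_lit 2) (nat_lit 5) (nat_lit 2) (nat_lit 4) (nat_lit 492) (nat_lit 370) (nat_lit 338))))) (XT.nd (nat_lit 234) (nat_lit 0) (nat_lit 0) (XT.nd (nat_lit 78) (nat_lit 0) (nat_lit 0) (XT.lf (nat_lit 0) (nat_lit 419282269547) (nat_lit 76) (nat_lit 120493134396) (nat_lit 76) (nat_lit 119869154665) (nat_lit 1) (nat_lit 4) (nat_lit 2) (nat_lit 5) (nat_lit 2) (nat_lit 4) (nat_lit 493) (nat_lit 370) (nat_lit 337)) (XT.nd (nat_lit 78) (nat_lit 0) (nat_lit 0) (XT.lf (nat_lit 0) (nat_lit 462543887193) (nat_lit 76) (nat_lit 125061972482) (nat_lit 76) (nat_lit 124434034159) (nat_lit 1) (nat_lit 4) (nat_lit 2) (nat_lit 5) (nat_lit 2) (nat_lit 4) (nat_lit 494) (nat_lit 370) (nat_lit 336)) (XT.lf (nat_lit 0) (nat_lit 509171479349) (nat_lit 76) (nat_lit 130045327987) (nat_lit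 76) (nat_lit 129413724300) (nat_lit 1) (nat_lit 4) (nat_lit 2) (nat_lit 5) (nat_lit 2) (nat_lit 4) (nat_lit 495) (nat_lit 370) (nat_lit 335)))) (XT.nd (nat_lit 156) (nat_lit 0) (nat_lit 0) (XT.nd (nat_lit 78) (nat_lit 0) (nat_lit 0) (XT.lf (nat_lit 0) (nat_lit 559441357672) (nat_lit 76) (nat_lit 135472731906) (nat_lit 76) (nat_lit 134837734364) (nat_lit 1) (nat_lit 4) (nat_lit 2) (nat_lit 5) (nat_lit 2) (nat_lit 4) (nat_lit 496) (nat_lit 370) (nat_lit 334)) (XT.lf (nat_lit 0) (nat_lit 613651417738) (nat_lit 76) (nat_lit 141376346633) (nat_lit 76) (nat_lit 140738206633) (nat_lit 1) (nat_lit 4) (nat_lit 2) (nat_lit 5) (nat_lit 2) (nat_lit 4) (nat_lit 497) (nat_lit 370) (nat_lit 333))) (XT.nd (nat_lit 78) (nat_lit 0) (nat_lit 0) (XT.lf (nat_lit 0) (nat_lit 672122904347) (nat_lit 76) (nat_lit 147791156552) (nat_lit 76) (nat_lit 147150106868) (nat_lit 1) (nat_lit 4) (nat_lit 2) (nat_lit 5) (nat_lit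 2) (nat_lit 4) (nat_lit 498) (nat_lit 370) (nat_lit 332)) (XT.lf (nat_lit 0) (nat_lit 735202315196) (nat_lit 76) (nat_lit 154755175351) (nat_lit 76) (nat_lit 154111431516) (nat_lit 1) (nat_lit 4) (nat_lit 2) (nat_lit 5) (nat_lit 2) (nat_lit 4) (nat_lit 499) (nat_lit 370) (nat_lit 331))))))))
noncomputable def xc30 : XT := (XT.nd (nat_lit 1950) (nat_lit 0) (nat_lit 0) (XT.nd (nat_lit 936) (nat_lit 0) (nat_lit 0) (XT.nd (nat_lit 468) (nat_lit 0) (nat_lit 0) (XT.nd (nat_lit 234) (nat_lit 0) (nat_lit 0) (XT.nd (nat_lit 78) (nat_lit 0) (nat_lit 0) (XT.lf (nat_lit 0) (nat_lit 803263454204) (nat_lit 76) (nat_lit 162309671289) (nat_lit 76) (nat_lit 161663432869) (nat_lit 1) (nat_lit 4) (nat_lit 2) (nat_lit 5) (nat_lit 2) (nat_lit 4) (nat_lit 500) (nat_lit 370) (nat_lit 330)) (XT.nd (nat_lit 78) (nat_lit 0) (nat_lit 0) (XT.lf (nat_lit 0) (nat_lit 876709646637) (nat_lit 76) (nat_lit 170499411750)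 (nat_lit 76) (nat_lit 169850863530) (nat_lit 1) (nat_lit 4) (nat_lit 2) (nat_lit 5) (nat_lit 2) (nat_lit 4) (nat_lit 501) (nat_lit 370) (nat_lit 329)) (XT.lf (nat_lit 0) (nat_lit 955976129192) (nat_lit 76) (nat_lit 179372928529) (nat_lit 76) (nat_lit 178722241605) (nat_lit 1) (nat_lit 4) (nat_lit 2) (nat_lit 5) (nat_lit 2) (nat_lit 4) (nat_lit 502) (nat_lit 370) (nat_lit 328)))) (XT.nd (nat_lit 78) (nat_lit 0) (nat_lit 0) (XT.lf (nat_lit 0) (nat_lit 1041532629172) (nat_lit 76) (nat_lit 188982805430) (nat_lit 76) (nat_lit 188330138224) (nat_lit 1) (nat_lit 4) (nat_lit 2) (nat_lit 5) (nat_lit 2) (nat_lit 4) (nat_lit 503) (nat_lit 370) (nat_lit 327)) (XT.nd (nat_lit 78) (nat_lit 0) (nat_lit 0) (XT.lf (nat_lit 0) (nat_lit 1133886148059) (nat_lit 76) (nat_lit 199385989871) (nat_lit 76) (nat_lit 198731489070) (nat_lit 1) (nat_lit 4) (nat_lit 2) (nat_lit 5) (nat_lit 2) (nat_lit 4) (nat_lit 504)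 (nat_lit 370) (nat_lit 326)) (XT.lf (nat_lit 0) (nat_lit 1233583965965) (nat_lit 76) (nat_lit 210644130352) (nat_lit 76) (nat_lit 209987931779) (nat_lit 1) (nat_lit 4) (nat_lit 2) (nat_lit 5) (nat_lit 2) (nat_lit 4) (nat_lit 505) (nat_lit 370) (nat_lit 325))))) (XT.nd (nat_lit 234) (nat_lit 0) (nat_lit 0) (XT.nd (nat_lit 78) (nat_lit 0) (nat_lit 0) (XT.lf (nat_lit 0) (nat_lit 1341216884774) (nat_lit 76) (nat_lit 222823941780) (nat_lit 76) (nat_lit 222166171195) (nat_lit 1) (nat_lit 4) (nat_lit 2) (nat_lit 5) (nat_lit 2) (nat_lit 4) (nat_lit 506) (nat_lit 370) (nat_lit 324)) (XT.nd (nat_lit 78) (nat_lit 0) (nat_lit 0) (XT.lf (nat_lit 0) (nat_lit 1457422729189) (nat_lit 76) (nat_lit 235997600815) (nat_lit 76) (nat_lit 235338374664) (nat_lit 1) (nat_lit 4) (nat_lit 2) (nat_lit 5) (nat_lit 2) (nat_lit 4) (nat_lit 507) (nat_lit 370) (nat_lit 323)) (XT.lf (nat_lit 0) (nat_lit 1582890126438) (nat_lit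 76) (nat_lit 250243173585) (nat_lit 76) (nat_lit 249582599688) (nat_lit 1) (nat_lit 4) (nat_lit 2) (nat_lit 5) (nat_lit 2) (nat_lit 4) (nat_lit 508) (nat_lit 370) (nat_lit 322)))) (XT.nd (nat_lit 78) (nat_lit 0) (nat_lit 0) (XT.lf (nat_lit 0) (nat_lit 1718362587022) (nat_lit 76) (nat_lit 265645078299) (nat_lit 76) (nat_lit 264983256489) (nat_lit 1) (nat_lit 4) (nat_lit 2) (nat_lit 5) (nat_lit 2) (nat_lit 4) (nat_lit 509) (nat_lit 370) (nat_lit 321)) (XT.nd (nat_lit 78) (nat_lit 0) (nat_lit 0) (XT.lf (nat_lit 0) (nat_lit 1864642910707) (nat_lit 76) (nat_lit 282294585503) (nat_lit 76) (nat_lit 281631608218) (nat_lit 1) (nat_lit 4) (nat_lit 2) (nat_lit 5) (nat_lit 2) (nat_lit 4) (nat_lit 510) (nat_lit 370) (nat_lit 320)) (XT.lf (nat_lit 0) (nat_lit 2022597943857) (nat_lit 76) (nat_lit 300290358944) (nat_lit 76) (nat_lit 299626311774) (nat_lit 1) (nat_lit 4) (nat_lit 2) (nat_lit 5) (nat_lit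 2) (nat_lit 4) (nat_lit 511) (nat_lit 370) (nat_lit 319)))))) (XT.nd (nat_lit 468) (nat_lit 0) (nat_lit 0) (XT.nd (nat_lit 234) (nat_lit 0) (nat_lit 0) (XT.nd (nat_lit 78) (nat_lit 0) (nat_lit 0) (XT.lf (nat_lit 0) (nat_lit 2193163716297) (nat_lit 76) (nat_lit 319739040243) (nat_lit 76) (nat_lit 319074002438) (nat_lit 1) (nat_lit 4) (nat_lit 2) (nat_lit 5) (nat_lit 2) (nat_lit 4) (nat_lit 512) (nat_lit 370) (nat_lit 318)) (XT.nd (nat_lit 78) (nat_lit 0) (nat_lit 0) (XT.lf (nat_lit 0) (nat_lit 2377350988160) (nat_lit 76) (nat_lit 340755880843) (nat_lit 76) (nat_lit 340089925785) (nat_lit 1) (nat_lit 4) (nat_lit 2) (nat_lit 5) (nat_lit 2) (nat_lit 4) (nat_lit 513) (nat_lit 370) (nat_lit 317)) (XT.lf (nat_lit 0) (nat_lit 2576251239576) (nat_lit 76) (nat_lit 363465424985) (nat_lit 76) (nat_lit 362798620618) (nat_lit 1) (nat_lit 4) (nat_lit 2) (nat_lit 5) (nat_lit 2) (nat_lit 4) (nat_lit 514)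 (nat_lit 370) (nat_lit 316)))) (XT.nd (nat_lit 78) (nat_lit 0) (nat_lit 0) (XT.lf (nat_lit 0) (nat_lit 2791043138701) (nat_lit 76) (nat_lit 388002247747) (nat_lit 76) (nat_lit 387334656983) (nat_lit 1) (nat_lit 4) (nat_lit 2) (nat_lit 5) (nat_lit 2) (nat_lit 4) (nat_lit 515) (nat_lit 370) (nat_lit 315)) (XT.nd (nat_lit 78) (nat_lit 0) (nat_lit 0) (XT.lf (nat_lit 0) (nat_lit 3022999526420) (nat_lit 76) (nat_lit 414511752521) (nat_lit 76) (nat_lit 413843433611) (nat_lit 1) (nat_lit 4) (nat_lit 2) (nat_lit 5) (nat_lit 2) (nat_lit 4) (nat_lit 516) (nat_lit 370) (nat_lit 314)) (XT.lf (nat_lit 0) (nat_lit 3273494959103) (nat_lit 76) (nat_lit 443151032670) (nat_lit 76) (nat_lit 442482039552) (nat_lit 1) (nat_lit 4) (nat_lit 2) (nat_lit 5) (nat_lit 2) (nat_lit 4) (nat_lit 517) (nat_lit 370) (nat_lit 313))))) (XT.nd (nat_lit 234) (nat_lit 0) (nat_lit 0) (XT.nd (nat_lit 78) (nat_lit 0) (nat_lit 0)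 (XT.lf (nat_lit 0) (nat_lit 3544013854129) (nat_lit 76) (nat_lit 474089802446) (nat_lit 76) (nat_lit 473420185060) (nat_lit 1) (nat_lit 4) (nat_lit 2) (nat_lit 5) (nat_lit 2) (nat_lit 4) (nat_lit 518) (nat_lit 370) (nat_lit 312)) (XT.nd (nat_lit 78) (nat_lit 0) (nat_lit 0) (XT.lf (nat_lit 0) (nat_lit 3836159286433) (nat_lit 76) (nat_lit 507511402708) (nat_lit 76) (nat_lit 506841207297) (nat_lit 1) (nat_lit 4) (nat_lit 2) (nat_lit 5) (nat_lit 2) (nat_lit 4) (nat_lit 519) (nat_lit 370) (nat_lit 311)) (XT.lf (nat_lit 0) (nat_lit 4151662488205) (nat_lit 76) (nat_lit 543613887382) (nat_lit 76) (nat_lit 542943156762) (nat_lit 1) (nat_lit 4) (nat_lit 2) (nat_lit 5) (nat_lit 2) (nat_lit 4) (nat_lit 520) (nat_lit 370) (nat_lit 310)))) (XT.nd (nat_lit 156) (nat_lit 0) (nat_lit 0) (XT.nd (nat_lit 78) (nat_lit 0) (nat_lit 0) (XT.lf (nat_lit 0) (nat_lit 4492393108049) (nat_lit 76) (nat_lit 582611197119)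 (nat_lit 76) (nat_lit 581939970936) (nat_lit 1) (nat_lit 4) (nat_lit 2) (nat_lit 5) (nat_lit 2) (nat_lit 4) (nat_lit 521) (nat_lit 370) (nat_lit 309)) (XT.lf (nat_lit 0) (nat_lit 4860370290379) (nat_lit 76) (nat_lit 624734427087) (nat_lit 76) (nat_lit 624062742049) (nat_lit 1) (nat_lit 4) (nat_lit 2) (nat_lit 5) (nat_lit 2) (nat_lit 4) (nat_lit 522) (nat_lit 370) (nat_lit 308))) (XT.nd (nat_lit 78) (nat_lit 0) (nat_lit 0) (XT.lf (nat_lit 0) (nat_lit 5257774640718) (nat_lit 76) (nat_lit 670233196428) (nat_lit 76) (nat_lit 669561086524) (nat_lit 1) (nat_lit 4) (nat_lit 2) (nat_lit 5) (nat_lit 2) (nat_lit 4) (nat_lit 523) (nat_lit 370) (nat_lit 307)) (XT.lf (nat_lit 0) (nat_lit 5686961147811) (nat_lit 76) (nat_lit 719377127477) (nat_lit 76) (nat_lit 718704624179) (nat_lit 1) (nat_lit 4) (nat_lit 2) (nat_lit 5) (nat_lit 2) (nat_lit 4) (nat_lit 524) (nat_lit 370) (nat_lit 306))))))) (XT.nd (nat_lit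 57252) (nat_lit 0) (nat_lit 76) (XT.nd (nat_lit 468) (nat_lit 0) (nat_lit 0) (XT.nd (nat_lit 234) (nat_lit 0) (nat_lit 0) (XT.nd (nat_lit 78) (nat_lit 0) (nat_lit 0) (XT.lf (nat_lit 0) (nat_lit 6150473139107) (nat_lit 76) (nat_lit 772457443531) (nat_lit 76) (nat_lit 771784575978) (nat_lit 1) (nat_lit 4) (nat_lit 2) (nat_lit 5) (nat_lit 2) (nat_lit 4) (nat_lit 525) (nat_lit 370) (nat_lit 305)) (XT.nd (nat_lit 78) (nat_lit 0) (nat_lit 0) (XT.lf (nat_lit 0) (nat_lit 6651057352331) (nat_lit 76) (nat_lit 829788694609) (nat_lit 76) (nat_lit 829115489784) (nat_lit 1) (nat_lit 4) (nat_lit 2) (nat_lit 5) (nat_lit 2) (nat_lit 4) (nat_lit 526) (nat_lit 370) (nat_lit 304)) (XT.lf (nat_lit 0) (nat_lit 7191680212451) (nat_lit 76) (nat_lit 891710621460) (nat_lit 76) (nat_lit 891037104346) (nat_lit 1) (nat_lit 4) (nat_lit 2) (nat_lit 5) (nat_lit 2) (nat_lit 4) (nat_lit 527) (nat_lit 370) (nat_lit 303))))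 (XT.nd (nat_lit 78) (nat_lit 0) (nat_lit 0) (XT.lf (nat_lit 0) (nat_lit 7775545410491) (nat_lit 76) (nat_lit 958590168834) (nat_lit 76) (nat_lit 957916362564) (nat_lit 1) (nat_lit 4) (nat_lit 2) (nat_lit 5) (nat_lit 2) (nat_lit 4) (nat_lit 528) (nat_lit 370) (nat_lit 302)) (XT.nd (nat_lit 78) (nat_lit 0) (nat_lit 0) (XT.lf (nat_lit 0) (nat_lit 8406112888363) (nat_lit 76) (nat_lit 1030823659976) (nat_lit 76) (nat_lit 1030149585968) (nat_lit 1) (nat_lit 4) (nat_lit 2) (nat_lit 5) (nat_lit 2) (nat_lit 4) (nat_lit 529) (nat_lit 370) (nat_lit 301)) (XT.lf (nat_lit 0) (nat_lit 9087119342234) (nat_lit 76) (nat_lit 1108839145204) (nat_lit 76) (nat_lit 1108164823290) (nat_lit 1) (nat_lit 4) (nat_lit 2) (nat_lit 5) (nat_lit 2) (nat_lit 4) (nat_lit 530) (nat_lit 370) (nat_lit 300))))) (XT.nd (nat_lit 234) (nat_lit 0) (nat_lit 0) (XT.nd (nat_lit 78) (nat_lit 0) (nat_lit 0) (XT.lf (nat_lit 0) (nat_lit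 9822600365905) (nat_lit 76) (nat_lit 1193098938503) (nat_lit 76) (nat_lit 1192424387048) (nat_lit 1) (nat_lit 4) (nat_lit 2) (nat_lit 5) (nat_lit 2) (nat_lit 4) (nat_lit 531) (nat_lit 370) (nat_lit 299)) (XT.nd (nat_lit 78) (nat_lit 0) (nat_lit 0) (XT.lf (nat_lit 0) (nat_lit 10616914365440) (nat_lit 76) (nat_lit 1284102357168) (nat_lit 76) (nat_lit 1283427593174) (nat_lit 1) (nat_lit 4) (nat_lit 2) (nat_lit 5) (nat_lit 2) (nat_lit 4) (nat_lit 532) (nat_lit 370) (nat_lit 298)) (XT.lf (nat_lit 0) (nat_lit 11474768386764) (nat_lit 76) (nat_lit 1382388680717) (nat_lit 76) (nat_lit 1381713719928) (nat_lit 1) (nat_lit 4) (nat_lit 2) (nat_lit 5) (nat_lit 2) (nat_lit 4) (nat_lit 533) (nat_lit 370) (nat_lit 297)))) (XT.nd (nat_lit 78) (nat_lit 0) (nat_lit 0) (XT.lf (nat_lit 0) (nat_lit 12401246009263) (nat_lit 76) (nat_lit 1488540346622) (nat_lit 76) (nat_lit 1487865203616) (nat_lit 1) (nat_lit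 4) (nat_lit 2) (nat_lit 5) (nat_lit 2) (nat_lit 4) (nat_lit 534) (nat_lit 370) (nat_lit 296)) (XT.nd (nat_lit 78) (nat_lit 0) (nat_lit 0) (XT.lf (nat_lit 0) (nat_lit 13401837470698) (nat_lit 76) (nat_lit 1603186401793) (nat_lit 76) (nat_lit 1602511090066) (nat_lit 1) (nat_lit 4) (nat_lit 2) (nat_lit 5) (nat_lit 2) (nat_lit 4) (nat_lit 535) (nat_lit 370) (nat_lit 295)) (XT.lf (nat_lit 0) (nat_lit 14482472201953) (nat_lit 76) (nat_lit 1727006230260) (nat_lit 76) (nat_lit 1726330762311) (nat_lit 1) (nat_lit 4) (nat_lit 2) (nat_lit 5) (nat_lit 2) (nat_lit 4) (nat_lit 536) (nat_lit 370) (nat_lit 294)))))) (XT.nd (nat_lit 468) (nat_lit 152) (nat_lit 0) (XT.nd (nat_lit 234) (nat_lit 76) (nat_lit 0) (XT.nd (nat_lit 78) (nat_lit 152) (nat_lit 0) (XT.lf (nat_lit 0) (nat_lit 17233150625) (nat_lit 76) (nat_lit 4395710772) (nat_lit 76) (nat_lit 4395710772) (nat_lit 7) (nat_lit 4) (nat_lit 8) (nat_lit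 5) (nat_lit 8) (nat_lit 4) (nat_lit 458) (nat_lit 371) (nat_lit 371)) (XT.nd (nat_lit 78) (nat_lit 0) (nat_lit 0) (XT.lf (nat_lit 0) (nat_lit 717939407) (nat_lit 152) (nat_lit 54069860885) (nat_lit 0) (nat_lit 659410256) (nat_lit 5) (nat_lit 5) (nat_lit 7) (nat_lit 4) (nat_lit 5) (nat_lit 4) (nat_lit 459) (nat_lit 371) (nat_lit 370)) (XT.lf (nat_lit 0) (nat_lit 10721613567) (nat_lit 152) (nat_lit 37751670389) (nat_lit 0) (nat_lit 10608890758) (nat_lit 5) (nat_lit 5) (nat_lit 7) (nat_lit 4) (nat_lit 5) (nat_lit 4) (nat_lit 460) (nat_lit 371) (nat_lit 369)))) (XT.nd (nat_lit 78) (nat_lit 76) (nat_lit 0) (XT.lf (nat_lit 0) (nat_lit 21050533355) (nat_lit 152) (nat_lit 21107777978) (nat_lit 0) (nat_lit 20887631233) (nat_lit 5) (nat_lit 5) (nat_lit 7) (nat_lit 4) (nat_lit 5) (nat_lit 4) (nat_lit 461) (nat_lit 371) (nat_lit 368)) (XT.nd (nat_lit 78) (nat_lit 76) (nat_lit 0) (XT.lf (nat_lit 0)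 (nat_lit 31765907185) (nat_lit 152) (nat_lit 4039553178) (nat_lit 0) (nat_lit 31556542735) (nat_lit 5) (nat_lit 5) (nat_lit 7) (nat_lit 4) (nat_lit 5) (nat_lit 4) (nat_lit 462) (nat_lit 371) (nat_lit 367)) (XT.lf (nat_lit 0) (nat_lit 14267886515) (nat_lit 76) (nat_lit 29006490066) (nat_lit 76) (nat_lit 28754104943) (nat_lit 4) (nat_lit 4) (nat_lit 5) (nat_lit 5) (nat_lit 5) (nat_lit 4) (nat_lit 463) (nat_lit 371) (nat_lit 366))))) (XT.nd (nat_lit 234) (nat_lit 152) (nat_lit 0) (XT.nd (nat_lit 78) (nat_lit 0) (nat_lit 0) (XT.lf (nat_lit 0) (nat_lit 33450939125) (nat_lit 76) (nat_lit 21966234166) (nat_lit 76) (nat_lit 21674015087) (nat_lit 4) (nat_lit 4) (nat_lit 5) (nat_lit 5) (nat_lit 5) (nat_lit 4) (nat_lit 464) (nat_lit 371) (nat_lit 365)) (XT.nd (nat_lit 78) (nat_lit 0) (nat_lit 0) (XT.lf (nat_lit 0) (nat_lit 53410566288) (nat_lit 76) (nat_lit 14753421171) (nat_lit 76) (nat_lit 14424318799)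 (nat_lit 4) (nat_lit 4) (nat_lit 5) (nat_lit 5) (nat_lit 5) (nat_lit 4) (nat_lit 465) (nat_lit 371) (nat_lit 364)) (XT.lf (nat_lit 0) (nat_lit 74265047275) (nat_lit 76) (nat_lit 7325308486) (nat_lit 76) (nat_lit 6962054916) (nat_lit 4) (nat_lit 4) (nat_lit 5) (nat_lit 5) (nat_lit 5) (nat_lit 4) (nat_lit 466) (nat_lit 371) (nat_lit 363)))) (XT.nd (nat_lit 156) (nat_lit 0) (nat_lit 0) (XT.nd (nat_lit 78) (nat_lit 0) (nat_lit 0) (XT.lf (nat_lit 0) (nat_lit 756906404) (nat_lit 152) (nat_lit 93866178083) (nat_lit 0) (nat_lit 391281358) (nat_lit 2) (nat_lit 5) (nat_lit 4) (nat_lit 4) (nat_lit 2) (nat_lit 4) (nat_lit 467) (nat_lit 371) (nat_lit 362)) (XT.lf (nat_lit 0) (nat_lit 8985377804) (nat_lit 152) (nat_lit 84379342033) (nat_lit 0) (nat_lit 8592642437) (nat_lit 2) (nat_lit 5) (nat_lit 4) (nat_lit 4) (nat_lit 2) (nat_lit 4) (nat_lit 468) (nat_lit 371) (nat_lit 361))) (XT.nd (nat_lit 78) (nat_lit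 0) (nat_lit 0) (XT.lf (nat_lit 0) (nat_lit 17573116586) (nat_lit 152) (nat_lit 74751324933) (nat_lit 0) (nat_lit 17155279069) (nat_lit 2) (nat_lit 5) (nat_lit 4) (nat_lit 4) (nat_lit 2) (nat_lit 4) (nat_lit 469) (nat_lit 371) (nat_lit 360)) (XT.lf (nat_lit 0) (nat_lit 26571013053) (nat_lit 152) (nat_lit 64925071868) (nat_lit 0) (nat_lit 26129932805) (nat_lit 2) (nat_lit 5) (nat_lit 4) (nat_lit 4) (nat_lit 2) (nat_lit 4) (nat_lit 470) (nat_lit 371) (nat_lit 359))))))))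
noncomputable def xc31 : XT := (XT.nd (nat_lit 1950) (nat_lit 0) (nat_lit 0) (XT.nd (nat_lit 936) (nat_lit 0) (nat_lit 0) (XT.nd (nat_lit 468) (nat_lit 0) (nat_lit 0) (XT.nd (nat_lit 234) (nat_lit 76) (nat_lit 0) (XT.nd (nat_lit 78) (nat_lit 0) (nat_lit 0) (XT.lf (nat_lit 0) (nat_lit 36032388073) (nat_lit 152) (nat_lit 54842353189) (nat_lit 0) (nat_lit 35569786778) (nat_lit 2) (nat_lit 5) (nat_lit 4) (nat_lit 4) (nat_lit 2) (nat_lit 4) (nat_lit 471) (nat_lit 371) (nat_lit 358)) (XT.nd (nat_lit 78) (nat_lit 0) (nat_lit 0) (XT.lf (nat_lit 0) (nat_lit 46013309055) (nat_lit 152) (nat_lit 44443419453) (nat_lit 0) (nat_lit 45530780864) (nat_lit 2) (nat_lit 5) (nat_lit 4) (nat_lit 4) (nat_lit 2) (nat_lit 4) (nat_lit 472) (nat_lit 371) (nat_lit 357)) (XT.lf (nat_lit 0) (nat_lit 56572922195) (nat_lit 152) (nat_lit 33666647348) (nat_lit 0) (nat_lit 56071943175) (nat_lit 2) (nat_lit 5) (nat_lit 4)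 (nat_lit 4) (nat_lit 2) (nat_lit 4) (nat_lit 473) (nat_lit 371) (nat_lit 356)))) (XT.nd (nat_lit 78) (nat_lit 76) (nat_lit 0) (XT.lf (nat_lit 0) (nat_lit 67773802980) (nat_lit 152) (nat_lit 22448174521) (nat_lit 0) (nat_lit 67255739859) (nat_lit 2) (nat_lit 5) (nat_lit 4) (nat_lit 4) (nat_lit 2) (nat_lit 4) (nat_lit 474) (nat_lit 371) (nat_lit 355)) (XT.nd (nat_lit 78) (nat_lit 76) (nat_lit 0) (XT.lf (nat_lit 0) (nat_lit 79682327000) (nat_lit 152) (nat_lit 10721521134) (nat_lit 0) (nat_lit 79148445267) (nat_lit 2) (nat_lit 5) (nat_lit 4) (nat_lit 4) (nat_lit 2) (nat_lit 4) (nat_lit 475) (nat_lit 371) (nat_lit 354)) (XT.lf (nat_lit 0) (nat_lit 1666151751) (nat_lit 76) (nat_lit 90742982523) (nat_lit 76) (nat_lit 90194453927) (nat_lit 1) (nat_lit 4) (nat_lit 2) (nat_lit 5) (nat_lit 2) (nat_lit 4) (nat_lit 476) (nat_lit 371) (nat_lit 353))))) (XT.nd (nat_lit 234) (nat_lit 0) (nat_lit 0) (XT.nd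 (nat_lit 78) (nat_lit 0) (nat_lit 0) (XT.lf (nat_lit 0) (nat_lit 15303246024) (nat_lit 76) (nat_lit 90973989906) (nat_lit 76) (nat_lit 90411899399) (nat_lit 1) (nat_lit 4) (nat_lit 2) (nat_lit 5) (nat_lit 2) (nat_lit 4) (nat_lit 477) (nat_lit 371) (nat_lit 352)) (XT.nd (nat_lit 78) (nat_lit 0) (nat_lit 0) (XT.lf (nat_lit 0) (nat_lit 29705997793) (nat_lit 76) (nat_lit 91391384602) (nat_lit 76) (nat_lit 90816736771) (nat_lit 1) (nat_lit 4) (nat_lit 2) (nat_lit 5) (nat_lit 2) (nat_lit 4) (nat_lit 478) (nat_lit 371) (nat_lit 351)) (XT.lf (nat_lit 0) (nat_lit 44959756696) (nat_lit 76) (nat_lit 91997640062) (nat_lit 76) (nat_lit 91411365078) (nat_lit 1) (nat_lit 4) (nat_lit 2) (nat_lit 5) (nat_lit 2) (nat_lit 4) (nat_lit 479) (nat_lit 371) (nat_lit 350)))) (XT.nd (nat_lit 78) (nat_lit 0) (nat_lit 0) (XT.lf (nat_lit 0) (nat_lit 61154915381) (nat_lit 76) (nat_lit 92796348910) (nat_lit 76) (nat_lit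 92199308045) (nat_lit 1) (nat_lit 4) (nat_lit 2) (nat_lit 5) (nat_lit 2) (nat_lit 4) (nat_lit 480) (nat_lit 371) (nat_lit 349)) (XT.nd (nat_lit 78) (nat_lit 0) (nat_lit 0) (XT.lf (nat_lit 0) (nat_lit 78387445157) (nat_lit 76) (nat_lit 93792244237) (nat_lit 76) (nat_lit 93185234963) (nat_lit 1) (nat_lit 4) (nat_lit 2) (nat_lit 5) (nat_lit 2) (nat_lit 4) (nat_lit 481) (nat_lit 371) (nat_lit 348)) (XT.lf (nat_lit 0) (nat_lit 96759464719) (nat_lit 76) (nat_lit 94991227645) (nat_lit 76) (nat_lit 94374988362) (nat_lit 1) (nat_lit 4) (nat_lit 2) (nat_lit 5) (nat_lit 2) (nat_lit 4) (nat_lit 482) (nat_lit 371) (nat_lit 347)))))) (XT.nd (nat_lit 468) (nat_lit 0) (nat_lit 0) (XT.nd (nat_lit 234) (nat_lit 0) (nat_lit 0) (XT.nd (nat_lit 78) (nat_lit 0) (nat_lit 0) (XT.lf (nat_lit 0) (nat_lit 116379845294) (nat_lit 76) (nat_lit 96400404219) (nat_lit 76) (nat_lit 95775618633) (nat_lit 1) (nat_lit 4) (nat_lit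 2) (nat_lit 5) (nat_lit 2) (nat_lit 4) (nat_lit 483) (nat_lit 371) (nat_lit 346)) (XT.nd (nat_lit 78) (nat_lit 0) (nat_lit 0) (XT.lf (nat_lit 0) (nat_lit 137364855805) (nat_lit 76) (nat_lit 98028124636) (nat_lit 76) (nat_lit 97395425806) (nat_lit 1) (nat_lit 4) (nat_lit 2) (nat_lit 5) (nat_lit 2) (nat_lit 4) (nat_lit 484) (nat_lit 371) (nat_lit 345)) (XT.lf (nat_lit 0) (nat_lit 159838851869) (nat_lit 76) (nat_lit 99884034647) (nat_lit 76) (nat_lit 99244008738) (nat_lit 1) (nat_lit 4) (nat_lit 2) (nat_lit 5) (nat_lit 2) (nat_lit 4) (nat_lit 485) (nat_lit 371) (nat_lit 344)))) (XT.nd (nat_lit 78) (nat_lit 0) (nat_lit 0) (XT.lf (nat_lit 0) (nat_lit 183935012722) (nat_lit 76) (nat_lit 101979132237) (nat_lit 76) (nat_lit 101332321997) (nat_lit 1) (nat_lit 4) (nat_lit 2) (nat_lit 5) (nat_lit 2) (nat_lit 4) (nat_lit 486) (nat_lit 371) (nat_lit 343)) (XT.nd (nat_lit 78) (nat_lit 0) (nat_lit 0)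 (XT.lf (nat_lit 0) (nat_lit 209796130428) (nat_lit 76) (nat_lit 104325832800) (nat_lit 76) (nat_lit 103672740770) (nat_lit 1) (nat_lit 4) (nat_lit 2) (nat_lit 5) (nat_lit 2) (nat_lit 4) (nat_lit 487) (nat_lit 371) (nat_lit 342)) (XT.lf (nat_lit 0) (nat_lit 237575456056) (nat_lit 76) (nat_lit 106938042708) (nat_lit 76) (nat_lit 106279134207) (nat_lit 1) (nat_lit 4) (nat_lit 2) (nat_lit 5) (nat_lit 2) (nat_lit 4) (nat_lit 488) (nat_lit 371) (nat_lit 341))))) (XT.nd (nat_lit 234) (nat_lit 0) (nat_lit 0) (XT.nd (nat_lit 78) (nat_lit 0) (nat_lit 0) (XT.lf (nat_lit 0) (nat_lit 267437607831) (nat_lit 76) (nat_lit 109831241724) (nat_lit 76) (nat_lit 109166947602) (nat_lit 1) (nat_lit 4) (nat_lit 2) (nat_lit 5) (nat_lit 2) (nat_lit 4) (nat_lit 489) (nat_lit 371) (nat_lit 340)) (XT.nd (nat_lit 78) (nat_lit 0) (nat_lit 0) (XT.lf (nat_lit 0) (nat_lit 299559546652) (nat_lit 76) (nat_lit 113022574731)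 (nat_lit 76) (nat_lit 112353293923) (nat_lit 1) (nat_lit 4) (nat_lit 2) (nat_lit 5) (nat_lit 2) (nat_lit 4) (nat_lit 490) (nat_lit 371) (nat_lit 339)) (XT.lf (nat_lit 0) (nat_lit 334131624750) (nat_lit 76) (nat_lit 116530953333) (nat_lit 76) (nat_lit 115857055223) (nat_lit 1) (nat_lit 4) (nat_lit 2) (nat_lit 5) (nat_lit 2) (nat_lit 4) (nat_lit 491) (nat_lit 371) (nat_lit 338)))) (XT.nd (nat_lit 156) (nat_lit 0) (nat_lit 0) (XT.nd (nat_lit 78) (nat_lit 0) (nat_lit 0) (XT.lf (nat_lit 0) (nat_lit 371358713699) (nat_lit 76) (nat_lit 120377167920) (nat_lit 76) (nat_lit 119698994531) (nat_lit 1) (nat_lit 4) (nat_lit 2) (nat_lit 5) (nat_lit 2) (nat_lit 4) (nat_lit 492) (nat_lit 371) (nat_lit 337)) (XT.lf (nat_lit 0) (nat_lit 411461418470) (nat_lit 76) (nat_lit 124584010876) (nat_lit 76) (nat_lit 123901878895) (nat_lit 1) (nat_lit 4) (nat_lit 2) (nat_lit 5) (nat_lit 2) (nat_lit 4) (nat_lit 493)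 (nat_lit 371) (nat_lit 336))) (XT.nd (nat_lit 78) (nat_lit 0) (nat_lit 0) (XT.lf (nat_lit 0) (nat_lit 454677384721) (nat_lit 76) (nat_lit 129176411641) (nat_lit 76) (nat_lit 128490614296) (nat_lit 1) (nat_lit 4) (nat_lit 2) (nat_lit 5) (nat_lit 2) (nat_lit 4) (nat_lit 494) (nat_lit 371) (nat_lit 335)) (XT.lf (nat_lit 0) (nat_lit 501262707066) (nat_lit 76) (nat_lit 134181584441) (nat_lit 76) (nat_lit 133492393241) (nat_lit 1) (nat_lit 4) (nat_lit 2) (nat_lit 5) (nat_lit 2) (nat_lit 4) (nat_lit 495) (nat_lit 371) (nat_lit 334))))))) (XT.nd (nat_lit 1014) (nat_lit 0) (nat_lit 0) (XT.nd (nat_lit 468) (nat_lit 0) (nat_lit 0) (XT.nd (nat_lit 234) (nat_lit 0) (nat_lit 0) (XT.nd (nat_lit 78) (nat_lit 0) (nat_lit 0) (XT.lf (nat_lit 0) (nat_lit 551493446676) (nat_lit 76) (nat_lit 139629189560) (nat_lit 76) (nat_lit 138936855901) (nat_lit 1) (nat_lit 4) (nat_lit 2) (nat_lit 5) (nat_lit 2) (nat_lit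 4) (nat_lit 496) (nat_lit 371) (nat_lit 333)) (XT.nd (nat_lit 78) (nat_lit 0) (nat_lit 0) (XT.lf (nat_lit 0) (nat_lit 605667267193) (nat_lit 76) (nat_lit 145551509101) (nat_lit 76) (nat_lit 144856265759) (nat_lit 1) (nat_lit 4) (nat_lit 2) (nat_lit 5) (nat_lit 2) (nat_lit 4) (nat_lit 497) (nat_lit 371) (nat_lit 332)) (XT.lf (nat_lit 0) (nat_lit 664105198663) (nat_lit 76) (nat_lit 151983638292) (nat_lit 76) (nat_lit 151285700799) (nat_lit 1) (nat_lit 4) (nat_lit 2) (nat_lit 5) (nat_lit 2) (nat_lit 4) (nat_lit 498) (nat_lit 371) (nat_lit 331)))) (XT.nd (nat_lit 78) (nat_lit 0) (nat_lit 0) (XT.lf (nat_lit 0) (nat_lit 727153539941) (nat_lit 76) (nat_lit 158963693454) (nat_lit 76) (nat_lit 158263261376) (nat_lit 1) (nat_lit 4) (nat_lit 2) (nat_lit 5) (nat_lit 2) (nat_lit 4) (nat_lit 499) (nat_lit 371) (nat_lit 330)) (XT.nd (nat_lit 78) (nat_lit 0) (nat_lit 0) (XT.lf (nat_lit 0) (nat_lit 795185910826)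 (nat_lit 76) (nat_lit 166533037877) (nat_lit 76) (nat_lit 165830295998) (nat_lit 1) (nat_lit 4) (nat_lit 2) (nat_lit 5) (nat_lit 2) (nat_lit 4) (nat_lit 500) (nat_lit 371) (nat_lit 329)) (XT.lf (nat_lit 0) (nat_lit 868605466108) (nat_lit 76) (nat_lit 174736526935) (nat_lit 76) (nat_lit 174031646352) (nat_lit 1) (nat_lit 4) (nat_lit 2) (nat_lit 5) (nat_lit 2) (nat_lit 4) (nat_lit 501) (nat_lit 371) (nat_lit 328))))) (XT.nd (nat_lit 234) (nat_lit 0) (nat_lit 0) (XT.nd (nat_lit 78) (nat_lit 0) (nat_lit 0) (XT.lf (nat_lit 0) (nat_lit 947847284635) (nat_lit 76) (nat_lit 183622773896) (nat_lit 76) (nat_lit 182915913032) (nat_lit 1) (nat_lit 4) (nat_lit 2) (nat_lit 5) (nat_lit 2) (nat_lit 4) (nat_lit 502) (nat_lit 371) (nat_lit 327)) (XT.nd (nat_lit 78) (nat_lit 0) (nat_lit 0) (XT.lf (nat_lit 0) (nat_lit 1033380947552) (nat_lit 76) (nat_lit 193244438003) (nat_lit 76) (nat_lit 192535743544) (nat_lit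 1) (nat_lit 4) (nat_lit 2) (nat_lit 5) (nat_lit 2) (nat_lit 4) (nat_lit 503) (nat_lit 371) (nat_lit 326)) (XT.lf (nat_lit 0) (nat_lit 1125713321010) (nat_lit 76) (nat_lit 203658536523) (nat_lit 76) (nat_lit 202948144292) (nat_lit 1) (nat_lit 4) (nat_lit 2) (nat_lit 5) (nat_lit 2) (nat_lit 4) (nat_lit 504) (nat_lit 371) (nat_lit 325)))) (XT.nd (nat_lit 156) (nat_lit 0) (nat_lit 0) (XT.nd (nat_lit 78) (nat_lit 0) (nat_lit 0) (XT.lf (nat_lit 0) (nat_lit 1225391559815) (nat_lit 76) (nat_lit 214926782633) (nat_lit 76) (nat_lit 214214818390) (nat_lit 1) (nat_lit 4) (nat_lit 2) (nat_lit 5) (nat_lit 2) (nat_lit 4) (nat_lit 505) (nat_lit 371) (nat_lit 324)) (XT.lf (nat_lit 0) (nat_lit 1333006349827) (nat_lit 76) (nat_lit 227115951125) (nat_lit 76) (nat_lit 226402531316) (nat_lit 1) (nat_lit 4) (nat_lit 2) (nat_lit 5) (nat_lit 2) (nat_lit 4) (nat_lit 506) (nat_lit 371) (nat_lit 323))) (XT.nd (nat_lit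 78) (nat_lit 0) (nat_lit 0) (XT.lf (nat_lit 0) (nat_lit 1449195408319) (nat_lit 76) (nat_lit 240298274108) (nat_lit 76) (nat_lit 239583506553) (nat_lit 1) (nat_lit 4) (nat_lit 2) (nat_lit 5) (nat_lit 2) (nat_lit 4) (nat_lit 507) (nat_lit 371) (nat_lit 322)) (XT.lf (nat_lit 0) (nat_lit 1574647263047) (nat_lit 76) (nat_lit 254551869052) (nat_lit 76) (nat_lit 253835853584) (nat_lit 1) (nat_lit 4) (nat_lit 2) (nat_lit 5) (nat_lit 2) (nat_lit 4) (nat_lit 508) (nat_lit 371) (nat_lit 321)))))) (XT.nd (nat_lit 468) (nat_lit 0) (nat_lit 0) (XT.nd (nat_lit 234) (nat_lit 0) (nat_lit 0) (XT.nd (nat_lit 78) (nat_lit 0) (nat_lit 0) (XT.lf (nat_lit 0) (nat_lit 1710105332407) (nat_lit 76) (nat_lit 269961201705) (nat_lit 76) (nat_lit 269244030761) (nat_lit 1) (nat_lit 4) (nat_lit 2) (nat_lit 5) (nat_lit 2) (nat_lit 4) (nat_lit 509) (nat_lit 371) (nat_lit 320)) (XT.nd (nat_lit 78) (nat_lit 0) (nat_lit 0)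 (XT.lf (nat_lit 0) (nat_lit 1856372330885) (nat_lit 76) (nat_lit 286617586631) (nat_lit 76) (nat_lit 285899345802) (nat_lit 1) (nat_lit 4) (nat_lit 2) (nat_lit 5) (nat_lit 2) (nat_lit 4) (nat_lit 510) (nat_lit 371) (nat_lit 319)) (XT.lf (nat_lit 0) (nat_lit 2014315025880) (nat_lit 76) (nat_lit 304619728333) (nat_lit 76) (nat_lit 303900496870) (nat_lit 1) (nat_lit 4) (nat_lit 2) (nat_lit 5) (nat_lit 2) (nat_lit 4) (nat_lit 511) (nat_lit 371) (nat_lit 318)))) (XT.nd (nat_lit 78) (nat_lit 0) (nat_lit 0) (XT.lf (nat_lit 0) (nat_lit 2184869374103) (nat_lit 76) (nat_lit 324074306168) (nat_lit 76) (nat_lit 323354157452) (nat_lit 1) (nat_lit 4) (nat_lit 2) (nat_lit 5) (nat_lit 2) (nat_lit 4) (nat_lit 512) (nat_lit 371) (nat_lit 317)) (XT.nd (nat_lit 78) (nat_lit 0) (nat_lit 0) (XT.lf (nat_lit 0) (nat_lit 2369046067987) (nat_lit 76) (nat_lit 345096606525) (nat_lit 76) (nat_lit 344375608500) (nat_lit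 1) (nat_lit 4) (nat_lit 2) (nat_lit 5) (nat_lit 2) (nat_lit 4) (nat_lit 513) (nat_lit 371) (nat_lit 316)) (XT.lf (nat_lit 0) (nat_lit 2567936524978) (nat_lit 76) (nat_lit 367811205998) (nat_lit 76) (nat_lit 367089421576) (nat_lit 1) (nat_lit 4) (nat_lit 2) (nat_lit 5) (nat_lit 2) (nat_lit 4) (nat_lit 514) (nat_lit 371) (nat_lit 315))))) (XT.nd (nat_lit 234) (nat_lit 0) (nat_lit 0) (XT.nd (nat_lit 78) (nat_lit 0) (nat_lit 0) (XT.lf (nat_lit 0) (nat_lit 2782719355191) (nat_lit 76) (nat_lit 392352709621) (nat_lit 76) (nat_lit 391630197054) (nat_lit 1) (nat_lit 4) (nat_lit 2) (nat_lit 5) (nat_lit 2) (nat_lit 4) (nat_lit 515) (nat_lit 371) (nat_lit 314)) (XT.nd (nat_lit 78) (nat_lit 0) (nat_lit 0) (XT.lf (nat_lit 0) (nat_lit 3014667345769) (nat_lit 76) (nat_lit 418866548527) (nat_lit 76) (nat_lit 418143361750) (nat_lit 1) (nat_lit 4) (nat_lit 2) (nat_lit 5) (nat_lit 2) (nat_lit 4) (nat_lit 516)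 (nat_lit 371) (nat_lit 313)) (XT.lf (nat_lit 0) (nat_lit 3265155003322) (nat_lit 76) (nat_lit 447509841760) (nat_lit 76) (nat_lit 446786030716) (nat_lit 1) (nat_lit 4) (nat_lit 2) (nat_lit 5) (nat_lit 2) (nat_lit 4) (nat_lit 517) (nat_lit 371) (nat_lit 312)))) (XT.nd (nat_lit 156) (nat_lit 0) (nat_lit 0) (XT.nd (nat_lit 78) (nat_lit 0) (nat_lit 0) (XT.lf (nat_lit 0) (nat_lit 3535666699154) (nat_lit 76) (nat_lit 478452327355) (nat_lit 76) (nat_lit 477727938286) (nat_lit 1) (nat_lit 4) (nat_lit 2) (nat_lit 5) (nat_lit 2) (nat_lit 4) (nat_lit 518) (nat_lit 371) (nat_lit 311)) (XT.lf (nat_lit 0) (nat_lit 3827805465536) (nat_lit 76) (nat_lit 511877368190) (nat_lit 76) (nat_lit 511152443912) (nat_lit 1) (nat_lit 4) (nat_lit 2) (nat_lit 5) (nat_lit 2) (nat_lit 4) (nat_lit 519) (nat_lit 371) (nat_lit 310))) (XT.nd (nat_lit 78) (nat_lit 0) (nat_lit 0) (XT.lf (nat_lit 0) (nat_lit 4143302495159) (nat_lit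 76) (nat_lit 547983038580) (nat_lit 76) (nat_lit 547257618738) (nat_lit 1) (nat_lit 4) (nat_lit 2) (nat_lit 5) (nat_lit 2) (nat_lit 4) (nat_lit 520) (nat_lit 371) (nat_lit 309)) (XT.lf (nat_lit 0) (nat_lit 4484027400050) (nat_lit 76) (nat_lit 586983298053) (nat_lit 76) (nat_lit 586257419357) (nat_lit 1) (nat_lit 4) (nat_lit 2) (nat_lit 5) (nat_lit 2) (nat_lit 4) (nat_lit 521) (nat_lit 371) (nat_lit 308))))))))
noncomputable def xc32 : XT := (XT.nd (nat_lit 58110) (nat_lit 0) (nat_lit 0) (XT.nd (nat_lit 936) (nat_lit 0) (nat_lit 0) (XT.nd (nat_lit 468) (nat_lit 0) (nat_lit 0) (XT.nd (nat_lit 234) (nat_lit 0) (nat_lit 0) (XT.nd (nat_lit 78) (nat_lit 0) (nat_lit 0) (XT.lf (nat_lit 0) (nat_lit 4851999290757) (nat_lit 76) (nat_lit 629109259260) (nat_lit 76) (nat_lit 628382955697) (nat_lit 1) (nat_lit 4) (nat_lit 2) (nat_lit 5) (nat_lit 2) (nat_lit 4) (nat_lit 522) (nat_lit 371) (nat_lit 307))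 (XT.nd (nat_lit 78) (nat_lit 0) (nat_lit 0) (XT.lf (nat_lit 0) (nat_lit 5249398741445) (nat_lit 76) (nat_lit 674610557524) (nat_lit 76) (nat_lit 673883860567) (nat_lit 1) (nat_lit 4) (nat_lit 2) (nat_lit 5) (nat_lit 2) (nat_lit 4) (nat_lit 523) (nat_lit 371) (nat_lit 306)) (XT.lf (nat_lit 0) (nat_lit 5678580711825) (nat_lit 76) (nat_lit 723756830170) (nat_lit 76) (nat_lit 723029768959) (nat_lit 1) (nat_lit 4) (nat_lit 2) (nat_lit 5) (nat_lit 2) (nat_lit 4) (nat_lit 524) (nat_lit 371) (nat_lit 305)))) (XT.nd (nat_lit 78) (nat_lit 0) (nat_lit 0) (XT.lf (nat_lit 0) (nat_lit 6142088502459) (nat_lit 76) (nat_lit 776839314368) (nat_lit 76) (nat_lit 776111915884) (nat_lit 1) (nat_lit 4) (nat_lit 2) (nat_lit 5) (nat_lit 2) (nat_lit 4) (nat_lit 525) (nat_lit 371) (nat_lit 304)) (XT.nd (nat_lit 78) (nat_lit 0) (nat_lit 0) (XT.lf (nat_lit 0) (nat_lit 6642668826182) (nat_lit 76) (nat_lit 834172572987)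 (nat_lit 76) (nat_lit 833444862215) (nat_lit 1) (nat_lit 4) (nat_lit 2) (nat_lit 5) (nat_lit 2) (nat_lit 4) (nat_lit 526) (nat_lit 371) (nat_lit 303)) (XT.lf (nat_lit 0) (nat_lit 7183288084913) (nat_lit 76) (nat_lit 896096358672) (nat_lit 76) (nat_lit 895368358744) (nat_lit 1) (nat_lit 4) (nat_lit 2) (nat_lit 5) (nat_lit 2) (nat_lit 4) (nat_lit 527) (nat_lit 371) (nat_lit 302))))) (XT.nd (nat_lit 234) (nat_lit 0) (nat_lit 0) (XT.nd (nat_lit 78) (nat_lit 0) (nat_lit 0) (XT.lf (nat_lit 0) (nat_lit 7767149948332) (nat_lit 76) (nat_lit 962977627190) (nat_lit 76) (nat_lit 962249359524) (nat_lit 1) (nat_lit 4) (nat_lit 2) (nat_lit 5) (nat_lit 2) (nat_lit 4) (nat_lit 528) (nat_lit 371) (nat_lit 301)) (XT.nd (nat_lit 78) (nat_lit 0) (nat_lit 0) (XT.lf (nat_lit 0) (nat_lit 8397714338594) (nat_lit 76) (nat_lit 1035212711983) (nat_lit 76) (nat_lit 1034484196411) (nat_lit 1) (nat_lit 4) (nat_lit 2)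 (nat_lit 5) (nat_lit 2) (nat_lit 4) (nat_lit 529) (nat_lit 371) (nat_lit 300)) (XT.lf (nat_lit 0) (nat_lit 9078717933565) (nat_lit 76) (nat_lit 1113229672813) (nat_lit 76) (nat_lit 1112500927700) (nat_lit 1) (nat_lit 4) (nat_lit 2) (nat_lit 5) (nat_lit 2) (nat_lit 4) (nat_lit 530) (nat_lit 371) (nat_lit 299)))) (XT.nd (nat_lit 78) (nat_lit 0) (nat_lit 0) (XT.lf (nat_lit 0) (nat_lit 9814196310107) (nat_lit 76) (nat_lit 1197490832412) (nat_lit 76) (nat_lit 1196761874760) (nat_lit 1) (nat_lit 4) (nat_lit 2) (nat_lit 5) (nat_lit 2) (nat_lit 4) (nat_lit 531) (nat_lit 371) (nat_lit 298)) (XT.nd (nat_lit 78) (nat_lit 0) (nat_lit 0) (XT.lf (nat_lit 0) (nat_lit 10608507858597) (nat_lit 76) (nat_lit 1288495516168) (nat_lit 76) (nat_lit 1287766361721) (nat_lit 1) (nat_lit 4) (nat_lit 2) (nat_lit 5) (nat_lit 2) (nat_lit 4) (nat_lit 532) (nat_lit 371) (nat_lit 297)) (XT.lf (nat_lit 0) (nat_lit 11466359610435)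 (nat_lit 76) (nat_lit 1386783011098) (nat_lit 76) (nat_lit 1386053674433) (nat_lit 1) (nat_lit 4) (nat_lit 2) (nat_lit 5) (nat_lit 2) (nat_lit 4) (nat_lit 533) (nat_lit 371) (nat_lit 296)))))) (XT.nd (nat_lit 56628) (nat_lit 0) (nat_lit 228) (XT.nd (nat_lit 56394) (nat_lit 0) (nat_lit 456) (XT.nd (nat_lit 78) (nat_lit 0) (nat_lit 0) (XT.lf (nat_lit 0) (nat_lit 12392835131556) (nat_lit 76) (nat_lit 1492935761616) (nat_lit 76) (nat_lit 1492206256231) (nat_lit 1) (nat_lit 4) (nat_lit 2) (nat_lit 5) (nat_lit 2) (nat_lit 4) (nat_lit 534) (nat_lit 371) (nat_lit 295)) (XT.nd (nat_lit 78) (nat_lit 0) (nat_lit 0) (XT.lf (nat_lit 0) (nat_lit 13393424647273) (nat_lit 76) (nat_lit 1607582821057) (nat_lit 76) (nat_lit 1606853159450) (nat_lit 1) (nat_lit 4) (nat_lit 2) (nat_lit 5) (nat_lit 2) (nat_lit 4) (nat_lit 535) (nat_lit 371) (nat_lit 294)) (XT.lf (nat_lit 0) (nat_lit 14474057576937) (nat_lit 76)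 (nat_lit 1731403579404) (nat_lit 76) (nat_lit 1730673773146) (nat_lit 1) (nat_lit 4) (nat_lit 2) (nat_lit 5) (nat_lit 2) (nat_lit 4) (nat_lit 536) (nat_lit 371) (nat_lit 293)))) (XT.nd (nat_lit 78) (nat_lit 76) (nat_lit 0) (XT.lf (nat_lit 0) (nat_lit 9688782423) (nat_lit 152) (nat_lit 3650331093) (nat_lit 0) (nat_lit 9688782423) (nat_lit 8) (nat_lit 5) (nat_lit 10) (nat_lit 4) (nat_lit 8) (nat_lit 4) (nat_lit 456) (nat_lit 372) (nat_lit 372)) (XT.nd (nat_lit 78) (nat_lit 0) (nat_lit 0) (XT.lf (nat_lit 0) (nat_lit 12837264085) (nat_lit 76) (nat_lit 18082948166) (nat_lit 76) (nat_lit 18014679764) (nat_lit 7) (nat_lit 4) (nat_lit 8) (nat_lit 5) (nat_lit 8) (nat_lit 4) (nat_lit 457) (nat_lit 372) (nat_lit 371)) (XT.lf (nat_lit 0) (nat_lit 33970821306) (nat_lit 76) (nat_lit 9114527950) (nat_lit 76) (nat_lit 8983048065) (nat_lit 7) (nat_lit 4) (nat_lit 8) (nat_lit 5) (nat_lit 8) (nat_lit 4) (nat_lit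 458) (nat_lit 372) (nat_lit 370))))) (XT.nd (nat_lit 234) (nat_lit 76) (nat_lit 0) (XT.nd (nat_lit 78) (nat_lit 0) (nat_lit 0) (XT.lf (nat_lit 0) (nat_lit 268098721) (nat_lit 152) (nat_lit 55127994475) (nat_lit 0) (nat_lit 92164429) (nat_lit 5) (nat_lit 5) (nat_lit 7) (nat_lit 4) (nat_lit 5) (nat_lit 4) (nat_lit 459) (nat_lit 372) (nat_lit 369)) (XT.nd (nat_lit 78) (nat_lit 0) (nat_lit 0) (XT.lf (nat_lit 0) (nat_lit 10043384273) (nat_lit 152) (nat_lit 39280839231) (nat_lit 0) (nat_lit 9817270668) (nat_lit 5) (nat_lit 5) (nat_lit 7) (nat_lit 4) (nat_lit 5) (nat_lit 4) (nat_lit 460) (nat_lit 372) (nat_lit 368)) (XT.lf (nat_lit 0) (nat_lit 20160833128) (nat_lit 152) (nat_lit 23073090572) (nat_lit 0) (nat_lit 19888257195) (nat_lit 5) (nat_lit 5) (nat_lit 7) (nat_lit 4) (nat_lit 5) (nat_lit 4) (nat_lit 461) (nat_lit 372) (nat_lit 367)))) (XT.nd (nat_lit 156) (nat_lit 0) (nat_lit 0) (XT.nd (nat_lit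 78) (nat_lit 76) (nat_lit 0) (XT.lf (nat_lit 0) (nat_lit 30680400538) (nat_lit 152) (nat_lit 6408702579) (nat_lit 0) (nat_lit 30364803932) (nat_lit 5) (nat_lit 5) (nat_lit 7) (nat_lit 4) (nat_lit 5) (nat_lit 4) (nat_lit 462) (nat_lit 372) (nat_lit 366)) (XT.lf (nat_lit 0) (nat_lit 11380368815) (nat_lit 76) (nat_lit 30557754008) (nat_lit 76) (nat_lit 30202323446) (nat_lit 4) (nat_lit 4) (nat_lit 5) (nat_lit 5) (nat_lit 5) (nat_lit 4) (nat_lit 463) (nat_lit 372) (nat_lit 365))) (XT.nd (nat_lit 78) (nat_lit 0) (nat_lit 0) (XT.lf (nat_lit 0) (nat_lit 30198964859) (nat_lit 76) (nat_lit 23705317040) (nat_lit 76) (nat_lit 23313003184) (nat_lit 4) (nat_lit 4) (nat_lit 5) (nat_lit 5) (nat_lit 5) (nat_lit 4) (nat_lit 464) (nat_lit 372) (nat_lit 364)) (XT.lf (nat_lit 0) (nat_lit 49821132239) (nat_lit 76) (nat_lit 16666410463) (nat_lit 76) (nat_lit 16239945410) (nat_lit 4) (nat_lit 4) (nat_lit 5) (nat_lit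 5) (nat_lit 5) (nat_lit 4) (nat_lit 465) (nat_lit 372) (nat_lit 363))))))) (XT.nd (nat_lit 936) (nat_lit 0) (nat_lit 0) (XT.nd (nat_lit 468) (nat_lit 76) (nat_lit 0) (XT.nd (nat_lit 234) (nat_lit 0) (nat_lit 0) (XT.nd (nat_lit 78) (nat_lit 152) (nat_lit 0) (XT.lf (nat_lit 0) (nat_lit 70363150465) (nat_lit 76) (nat_lit 9399322239) (nat_lit 76) (nat_lit 8941235707) (nat_lit 4) (nat_lit 4) (nat_lit 5) (nat_lit 5) (nat_lit 5) (nat_lit 4) (nat_lit 466) (nat_lit 372) (nat_lit 362)) (XT.nd (nat_lit 78) (nat_lit 152) (nat_lit 0) (XT.lf (nat_lit 0) (nat_lit 91946750014) (nat_lit 76) (nat_lit 1860988141) (nat_lit 76) (nat_lit 1373622462) (nat_lit 4) (nat_lit 4) (nat_lit 5) (nat_lit 5) (nat_lit 5) (nat_lit 4) (nat_lit 467) (nat_lit 372) (nat_lit 361)) (XT.lf (nat_lit 0) (nat_lit 6651035460) (nat_lit 152) (nat_lit 89323098501) (nat_lit 0) (nat_lit 6174668793) (nat_lit 2) (nat_lit 5) (nat_lit 4) (nat_lit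 4) (nat_lit 2) (nat_lit 4) (nat_lit 468) (nat_lit 372) (nat_lit 360)))) (XT.nd (nat_lit 78) (nat_lit 0) (nat_lit 0) (XT.lf (nat_lit 0) (nat_lit 15105667792) (nat_lit 152) (nat_lit 79970083999) (nat_lit 0) (nat_lit 14606058393) (nat_lit 2) (nat_lit 5) (nat_lit 4) (nat_lit 4) (nat_lit 2) (nat_lit 4) (nat_lit 469) (nat_lit 372) (nat_lit 359)) (XT.nd (nat_lit 78) (nat_lit 0) (nat_lit 0) (XT.lf (nat_lit 0) (nat_lit 23980317545) (nat_lit 152) (nat_lit 70398462968) (nat_lit 0) (nat_lit 23459187100) (nat_lit 2) (nat_lit 5) (nat_lit 4) (nat_lit 4) (nat_lit 2) (nat_lit 4) (nat_lit 470) (nat_lit 372) (nat_lit 358)) (XT.lf (nat_lit 0) (nat_lit 33327575239) (nat_lit 152) (nat_lit 60551514691) (nat_lit 0) (nat_lit 32786517897) (nat_lit 2) (nat_lit 5) (nat_lit 4) (nat_lit 4) (nat_lit 2) (nat_lit 4) (nat_lit 471) (nat_lit 372) (nat_lit 357))))) (XT.nd (nat_lit 234) (nat_lit 76) (nat_lit 0) (XT.nd (nat_lit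 78) (nat_lit 0) (nat_lit 0) (XT.lf (nat_lit 0) (nat_lit 43202832028) (nat_lit 152) (nat_lit 50370886883) (nat_lit 0) (nat_lit 42643323857) (nat_lit 2) (nat_lit 5) (nat_lit 4) (nat_lit 4) (nat_lit 2) (nat_lit 4) (nat_lit 472) (nat_lit 372) (nat_lit 356)) (XT.nd (nat_lit 78) (nat_lit 0) (nat_lit 0) (XT.lf (nat_lit 0) (nat_lit 53664607954) (nat_lit 152) (nat_lit 39796249897) (nat_lit 0) (nat_lit 53088015682) (nat_lit 2) (nat_lit 5) (nat_lit 4) (nat_lit 4) (nat_lit 2) (nat_lit 4) (nat_lit 473) (nat_lit 372) (nat_lit 355)) (XT.lf (nat_lit 0) (nat_lit 64774898725) (nat_lit 152) (nat_lit 28764939217) (nat_lit 0) (nat_lit 64182487841) (nat_lit 2) (nat_lit 5) (nat_lit 4) (nat_lit 4) (nat_lit 2) (nat_lit 4) (nat_lit 474) (nat_lit 372) (nat_lit 354)))) (XT.nd (nat_lit 78) (nat_lit 76) (nat_lit 0) (XT.lf (nat_lit 0) (nat_lit 76599543103) (nat_lit 152) (nat_lit 17211584114) (nat_lit 0) (nat_lit 75992485355)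 (nat_lit 2) (nat_lit 5) (nat_lit 4) (nat_lit 4) (nat_lit 2) (nat_lit 4) (nat_lit 475) (nat_lit 372) (nat_lit 353)) (XT.nd (nat_lit 78) (nat_lit 76) (nat_lit 0) (XT.lf (nat_lit 0) (nat_lit 89208613052) (nat_lit 152) (nat_lit 5067720261) (nat_lit 0) (nat_lit 88587993395) (nat_lit 2) (nat_lit 5) (nat_lit 4) (nat_lit 4) (nat_lit 2) (nat_lit 4) (nat_lit 476) (nat_lit 372) (nat_lit 352)) (XT.lf (nat_lit 0) (nat_lit 8146117783) (nat_lit 76) (nat_lit 94726625535) (nat_lit 76) (nat_lit 94093448553) (nat_lit 1) (nat_lit 4) (nat_lit 2) (nat_lit 5) (nat_lit 2) (nat_lit 4) (nat_lit 477) (nat_lit 372) (nat_lit 351)))))) (XT.nd (nat_lit 468) (nat_lit 0) (nat_lit 0) (XT.nd (nat_lit 234) (nat_lit 0) (nat_lit 0) (XT.nd (nat_lit 78) (nat_lit 0) (nat_lit 0) (XT.lf (nat_lit 0) (nat_lit 22404055606) (nat_lit 76) (nat_lit 95218765033) (nat_lit 76) (nat_lit 94573960898) (nat_lit 1) (nat_lit 4) (nat_lit 2) (nat_lit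 5) (nat_lit 2) (nat_lit 4) (nat_lit 478) (nat_lit 372) (nat_lit 350)) (XT.nd (nat_lit 78) (nat_lit 0) (nat_lit 0) (XT.lf (nat_lit 0) (nat_lit 37523727523) (nat_lit 76) (nat_lit 95894228643) (nat_lit 76) (nat_lit 95238658627) (nat_lit 1) (nat_lit 4) (nat_lit 2) (nat_lit 5) (nat_lit 2) (nat_lit 4) (nat_lit 479) (nat_lit 372) (nat_lit 349)) (XT.lf (nat_lit 0) (nat_lit 53594731591) (nat_lit 76) (nat_lit 96757019112) (nat_lit 76) (nat_lit 96091480687) (nat_lit 1) (nat_lit 4) (nat_lit 2) (nat_lit 5) (nat_lit 2) (nat_lit 4) (nat_lit 480) (nat_lit 372) (nat_lit 348)))) (XT.nd (nat_lit 78) (nat_lit 0) (nat_lit 0) (XT.lf (nat_lit 0) (nat_lit 70712303388) (nat_lit 76) (nat_lit 97812249272) (nat_lit 76) (nat_lit 97137480839) (nat_lit 1) (nat_lit 4) (nat_lit 2) (nat_lit 5) (nat_lit 2) (nat_lit 4) (nat_lit 481) (nat_lit 372) (nat_lit 347)) (XT.nd (nat_lit 78) (nat_lit 0) (nat_lit 0) (XT.lf (nat_lit 0)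 (nat_lit 88977880377) (nat_lit 76) (nat_lit 99066172340) (nat_lit 76) (nat_lit 98382857603) (nat_lit 1) (nat_lit 4) (nat_lit 2) (nat_lit 5) (nat_lit 2) (nat_lit 4) (nat_lit 482) (nat_lit 372) (nat_lit 346)) (XT.lf (nat_lit 0) (nat_lit 108499703014) (nat_lit 76) (nat_lit 100526218971) (nat_lit 76) (nat_lit 99834990989) (nat_lit 1) (nat_lit 4) (nat_lit 2) (nat_lit 5) (nat_lit 2) (nat_lit 4) (nat_lit 483) (nat_lit 372) (nat_lit 345))))) (XT.nd (nat_lit 234) (nat_lit 0) (nat_lit 0) (XT.nd (nat_lit 78) (nat_lit 0) (nat_lit 0) (XT.lf (nat_lit 0) (nat_lit 129393456175) (nat_lit 76) (nat_lit 102201041292) (nat_lit 76) (nat_lit 101502486233) (nat_lit 1) (nat_lit 4) (nat_lit 2) (nat_lit 5) (nat_lit 2) (nat_lit 4) (nat_lit 484) (nat_lit 372) (nat_lit 344)) (XT.nd (nat_lit 78) (nat_lit 0) (nat_lit 0) (XT.lf (nat_lit 0) (nat_lit 151782954693) (nat_lit 76) (nat_lit 104100564178) (nat_lit 76) (nat_lit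 103395224786) (nat_lit 1) (nat_lit 4) (nat_lit 2) (nat_lit 5) (nat_lit 2) (nat_lit 4) (nat_lit 485) (nat_lit 372) (nat_lit 343)) (XT.lf (nat_lit 0) (nat_lit 175800877077) (nat_lit 76) (nat_lit 106236044058) (nat_lit 76) (nat_lit 105524422878) (nat_lit 1) (nat_lit 4) (nat_lit 2) (nat_lit 5) (nat_lit 2) (nat_lit 4) (nat_lit 486) (nat_lit 372) (nat_lit 342)))) (XT.nd (nat_lit 156) (nat_lit 0) (nat_lit 0) (XT.nd (nat_lit 78) (nat_lit 0) (nat_lit 0) (XT.lf (nat_lit 0) (nat_lit 201589551757) (nat_lit 76) (nat_lit 108620135631) (nat_lit 76) (nat_lit 107902697980) (nat_lit 1) (nat_lit 4) (nat_lit 2) (nat_lit 5) (nat_lit 2) (nat_lit 4) (nat_lit 487) (nat_lit 372) (nat_lit 341)) (XT.lf (nat_lit 0) (nat_lit 229301800508) (nat_lit 76) (nat_lit 111266966844) (nat_lit 76) (nat_lit 110544143572) (nat_lit 1) (nat_lit 4) (nat_lit 2) (nat_lit 5) (nat_lit 2) (nat_lit 4) (nat_lit 488) (nat_lit 372) (nat_lit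 340))) (XT.nd (nat_lit 78) (nat_lit 0) (nat_lit 0) (XT.lf (nat_lit 0) (nat_lit 259101844064) (nat_lit 76) (nat_lit 114192222625) (nat_lit 76) (nat_lit 113464412666) (nat_lit 1) (nat_lit 4) (nat_lit 2) (nat_lit 5) (nat_lit 2) (nat_lit 4) (nat_lit 489) (nat_lit 372) (nat_lit 339)) (XT.lf (nat_lit 0) (nat_lit 291166275276) (nat_lit 76) (nat_lit 117413237821) (nat_lit 76) (nat_lit 116680810561) (nat_lit 1) (nat_lit 4) (nat_lit 2) (nat_lit 5) (nat_lit 2) (nat_lit 4) (nat_lit 490) (nat_lit 372) (nat_lit 338))))))))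
noncomputable def xc33 : XT := (XT.nd (nat_lit 1950) (nat_lit 0) (nat_lit 0) (XT.nd (nat_lit 936) (nat_lit 0) (nat_lit 0) (XT.nd (nat_lit 468) (nat_lit 0) (nat_lit 0) (XT.nd (nat_lit 234) (nat_lit 0) (nat_lit 0) (XT.nd (nat_lit 78) (nat_lit 0) (nat_lit 0) (XT.lf (nat_lit 0) (nat_lit 325685105587) (nat_lit 76) (nat_lit 120949099931) (nat_lit 76) (nat_lit 120212397391) (nat_lit 1) (nat_lit 4) (nat_lit 2) (nat_lit 5) (nat_lit 2) (nat_lit 4) (nat_lit 491) (nat_lit 372) (nat_lit 337)) (XT.nd (nat_lit 78) (nat_lit 0) (nat_lit 0) (XT.lf (nat_lit 0) (nat_lit 362862891029) (nat_lit 76) (nat_lit 124820762212) (nat_lit 76) (nat_lit 124080101079) (nat_lit 1) (nat_lit 4) (nat_lit 2) (nat_lit 5) (nat_lit 2) (nat_lit 4) (nat_lit 492) (nat_lit 372) (nat_lit 336)) (XT.lf (nat_lit 0) (nat_lit 402919944405) (nat_lit 76) (nat_lit 129051167847) (nat_lit 76) (nat_lit 128306841351) (nat_lit 1) (nat_lit 4) (nat_lit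 2) (nat_lit 5) (nat_lit 2) (nat_lit 4) (nat_lit 493) (nat_lit 372) (nat_lit 335)))) (XT.nd (nat_lit 78) (nat_lit 0) (nat_lit 0) (XT.lf (nat_lit 0) (nat_lit 446093640845) (nat_lit 76) (nat_lit 133665385907) (nat_lit 76) (nat_lit 132917665556) (nat_lit 1) (nat_lit 4) (nat_lit 2) (nat_lit 5) (nat_lit 2) (nat_lit 4) (nat_lit 494) (nat_lit 372) (nat_lit 334)) (XT.nd (nat_lit 78) (nat_lit 0) (nat_lit 0) (XT.lf (nat_lit 0) (nat_lit 492639824478) (nat_lit 76) (nat_lit 138690759906) (nat_lit 76) (nat_lit 137939897097) (nat_lit 1) (nat_lit 4) (nat_lit 2) (nat_lit 5) (nat_lit 2) (nat_lit 4) (nat_lit 495) (nat_lit 372) (nat_lit 333)) (XT.lf (nat_lit 0) (nat_lit 542834324539) (nat_lit 76) (nat_lit 144157069839) (nat_lit 76) (nat_lit 143403297346) (nat_lit 1) (nat_lit 4) (nat_lit 2) (nat_lit 5) (nat_lit 2) (nat_lit 4) (nat_lit 496) (nat_lit 372) (nat_lit 332))))) (XT.nd (nat_lit 234) (nat_lit 0) (nat_lit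 0) (XT.nd (nat_lit 78) (nat_lit 0) (nat_lit 0) (XT.lf (nat_lit 0) (nat_lit 596974589917) (nat_lit 76) (nat_lit 150096708653) (nat_lit 76) (nat_lit 149340242008) (nat_lit 1) (nat_lit 4) (nat_lit 2) (nat_lit 5) (nat_lit 2) (nat_lit 4) (nat_lit 497) (nat_lit 372) (nat_lit 331)) (XT.nd (nat_lit 78) (nat_lit 0) (nat_lit 0) (XT.lf (nat_lit 0) (nat_lit 655381451815) (nat_lit 76) (nat_lit 156544874207) (nat_lit 76) (nat_lit 155785912978) (nat_lit 1) (nat_lit 4) (nat_lit 2) (nat_lit 5) (nat_lit 2) (nat_lit 4) (nat_lit 498) (nat_lit 372) (nat_lit 330)) (XT.lf (nat_lit 0) (nat_lit 718401024970) (nat_lit 76) (nat_lit 163539777854) (nat_lit 76) (nat_lit 162778506824) (nat_lit 1) (nat_lit 4) (nat_lit 2) (nat_lit 5) (nat_lit 2) (nat_lit 4) (nat_lit 499) (nat_lit 372) (nat_lit 329)))) (XT.nd (nat_lit 78) (nat_lit 0) (nat_lit 0) (XT.lf (nat_lit 0) (nat_lit 786406758704) (nat_lit 76) (nat_lit 171122870873)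 (nat_lit 76) (nat_lit 170359461139) (nat_lit 1) (nat_lit 4) (nat_lit 2) (nat_lit 5) (nat_lit 2) (nat_lit 4) (nat_lit 500) (nat_lit 372) (nat_lit 328)) (XT.nd (nat_lit 78) (nat_lit 0) (nat_lit 0) (XT.lf (nat_lit 0) (nat_lit 859801649959) (nat_lit 76) (nat_lit 179339090113) (nat_lit 76) (nat_lit 178573700098) (nat_lit 1) (nat_lit 4) (nat_lit 2) (nat_lit 5) (nat_lit 2) (nat_lit 4) (nat_lit 501) (nat_lit 372) (nat_lit 327)) (XT.lf (nat_lit 0) (nat_lit 939020631422) (nat_lit 76) (nat_lit 188237124280) (nat_lit 76) (nat_lit 187469900671) (nat_lit 1) (nat_lit 4) (nat_lit 2) (nat_lit 5) (nat_lit 2) (nat_lit 4) (nat_lit 502) (nat_lit 372) (nat_lit 326)))))) (XT.nd (nat_lit 468) (nat_lit 0) (nat_lit 0) (XT.nd (nat_lit 234) (nat_lit 0) (nat_lit 0) (XT.nd (nat_lit 78) (nat_lit 0) (nat_lit 0) (XT.lf (nat_lit 0) (nat_lit 1024533148910) (nat_lit 76) (nat_lit 197869702466) (nat_lit 76) (nat_lit 197100781084)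 (nat_lit 1) (nat_lit 4) (nat_lit 2) (nat_lit 5) (nat_lit 2) (nat_lit 4) (nat_lit 503) (nat_lit 372) (nat_lit 325)) (XT.nd (nat_lit 78) (nat_lit 0) (nat_lit 0) (XT.lf (nat_lit 0) (nat_lit 1116845943267) (nat_lit 76) (nat_lit 208293906615) (nat_lit 76) (nat_lit 207523413222) (nat_lit 1) (nat_lit 4) (nat_lit 2) (nat_lit 5) (nat_lit 2) (nat_lit 4) (nat_lit 504) (nat_lit 372) (nat_lit 324)) (XT.lf (nat_lit 0) (nat_lit 1216506053276) (nat_lit 76) (nat_lit 219571509789) (nat_lit 76) (nat_lit 218799560830) (nat_lit 1) (nat_lit 4) (nat_lit 2) (nat_lit 5) (nat_lit 2) (nat_lit 4) (nat_lit 505) (nat_lit 372) (nat_lit 323)))) (XT.nd (nat_lit 78) (nat_lit 0) (nat_lit 0) (XT.lf (nat_lit 0) (nat_lit 1324104057364) (nat_lit 76) (nat_lit 231769342229) (nat_lit 76) (nat_lit 230996045523) (nat_lit 1) (nat_lit 4) (nat_lit 2) (nat_lit 5) (nat_lit 2) (nat_lit 4) (nat_lit 506) (nat_lit 372) (nat_lit 322)) (XT.nd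 (nat_lit 78) (nat_lit 0) (nat_lit 0) (XT.lf (nat_lit 0) (nat_lit 1440277573335) (nat_lit 76) (nat_lit 244959687387) (nat_lit 76) (nat_lit 244185142767) (nat_lit 1) (nat_lit 4) (nat_lit 2) (nat_lit 5) (nat_lit 2) (nat_lit 4) (nat_lit 507) (nat_lit 372) (nat_lit 321)) (XT.lf (nat_lit 0) (nat_lit 1565715036839) (nat_lit 76) (nat_lit 259220710270) (nat_lit 76) (nat_lit 258445010175) (nat_lit 1) (nat_lit 4) (nat_lit 2) (nat_lit 5) (nat_lit 2) (nat_lit 4) (nat_lit 508) (nat_lit 372) (nat_lit 320))))) (XT.nd (nat_lit 234) (nat_lit 0) (nat_lit 0) (XT.nd (nat_lit 78) (nat_lit 0) (nat_lit 0) (XT.lf (nat_lit 0) (nat_lit 1701159780992) (nat_lit 76) (nat_lit 274636920645) (nat_lit 76) (nat_lit 273860150665) (nat_lit 1) (nat_lit 4) (nat_lit 2) (nat_lit 5) (nat_lit 2) (nat_lit 4) (nat_lit 509) (nat_lit 372) (nat_lit 319)) (XT.nd (nat_lit 78) (nat_lit 0) (nat_lit 0) (XT.lf (nat_lit 0) (nat_lit 1847414441316)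 (nat_lit 76) (nat_lit 291299673831) (nat_lit 76) (nat_lit 290521913217) (nat_lit 1) (nat_lit 4) (nat_lit 2) (nat_lit 5) (nat_lit 2) (nat_lit 4) (nat_lit 510) (nat_lit 372) (nat_lit 318)) (XT.lf (nat_lit 0) (nat_lit 2005345712093) (nat_lit 76) (nat_lit 309307712070) (nat_lit 76) (nat_lit 308529034203) (nat_lit 1) (nat_lit 4) (nat_lit 2) (nat_lit 5) (nat_lit 2) (nat_lit 4) (nat_lit 511) (nat_lit 372) (nat_lit 317)))) (XT.nd (nat_lit 156) (nat_lit 0) (nat_lit 0) (XT.nd (nat_lit 78) (nat_lit 0) (nat_lit 0) (XT.lf (nat_lit 0) (nat_lit 2175889482337) (nat_lit 76) (nat_lit 328767749663) (nat_lit 76) (nat_lit 327988222487) (nat_lit 1) (nat_lit 4) (nat_lit 2) (nat_lit 5) (nat_lit 2) (nat_lit 4) (nat_lit 512) (nat_lit 372) (nat_lit 316)) (XT.lf (nat_lit 0) (nat_lit 2360056381796) (nat_lit 76) (nat_lit 349795105350) (nat_lit 76) (nat_lit 349014791777) (nat_lit 1) (nat_lit 4) (nat_lit 2) (nat_lit 5)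 (nat_lit 2) (nat_lit 4) (nat_lit 513) (nat_lit 372) (nat_lit 315))) (XT.nd (nat_lit 78) (nat_lit 0) (nat_lit 0) (XT.lf (nat_lit 0) (nat_lit 2558937769875) (nat_lit 76) (nat_lit 372514385685) (nat_lit 76) (nat_lit 371733343966) (nat_lit 1) (nat_lit 4) (nat_lit 2) (nat_lit 5) (nat_lit 2) (nat_lit 4) (nat_lit 514) (nat_lit 372) (nat_lit 314)) (XT.lf (nat_lit 0) (nat_lit 2773712202948) (nat_lit 76) (nat_lit 397060223439) (nat_lit 76) (nat_lit 396278507511) (nat_lit 1) (nat_lit 4) (nat_lit 2) (nat_lit 5) (nat_lit 2) (nat_lit 4) (nat_lit 515) (nat_lit 372) (nat_lit 313))))))) (XT.nd (nat_lit 936) (nat_lit 0) (nat_lit 0) (XT.nd (nat_lit 468) (nat_lit 0) (nat_lit 0) (XT.nd (nat_lit 234) (nat_lit 0) (nat_lit 0) (XT.nd (nat_lit 78) (nat_lit 0) (nat_lit 0) (XT.lf (nat_lit 0) (nat_lit 3005652418395) (nat_lit 76) (nat_lit 423578075428) (nat_lit 76) (nat_lit 422795735234) (nat_lit 1) (nat_lit 4) (nat_lit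 2) (nat_lit 5) (nat_lit 2) (nat_lit 4) (nat_lit 516) (nat_lit 372) (nat_lit 312)) (XT.nd (nat_lit 78) (nat_lit 0) (nat_lit 0) (XT.lf (nat_lit 0) (nat_lit 3256132876753) (nat_lit 76) (nat_lit 452225084480) (nat_lit 76) (nat_lit 451442166260) (nat_lit 1) (nat_lit 4) (nat_lit 2) (nat_lit 5) (nat_lit 2) (nat_lit 4) (nat_lit 517) (nat_lit 372) (nat_lit 311)) (XT.lf (nat_lit 0) (nat_lit 3526637906664) (nat_lit 76) (nat_lit 483171010649) (nat_lit 76) (nat_lit 482387557220) (nat_lit 1) (nat_lit 4) (nat_lit 2) (nat_lit 5) (nat_lit 2) (nat_lit 4) (nat_lit 518) (nat_lit 372) (nat_lit 310)))) (XT.nd (nat_lit 78) (nat_lit 0) (nat_lit 0) (XT.lf (nat_lit 0) (nat_lit 3818770500898) (nat_lit 76) (nat_lit 516599237199) (nat_lit 76) (nat_lit 515815288207) (nat_lit 1) (nat_lit 4) (nat_lit 2) (nat_lit 5) (nat_lit 2) (nat_lit 4) (nat_lit 519) (nat_lit 372) (nat_lit 309)) (XT.nd (nat_lit 78) (nat_lit 0) (nat_lit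 0) (XT.lf (nat_lit 0) (nat_lit 4134261815568) (nat_lit 76) (nat_lit 552707857326) (nat_lit 76) (nat_lit 551923449478) (nat_lit 1) (nat_lit 4) (nat_lit 2) (nat_lit 5) (nat_lit 2) (nat_lit 4) (nat_lit 520) (nat_lit 372) (nat_lit 308)) (XT.lf (nat_lit 0) (nat_lit 4474981428836) (nat_lit 76) (nat_lit 591710848037) (nat_lit 76) (nat_lit 590926015324) (nat_lit 1) (nat_lit 4) (nat_lit 2) (nat_lit 5) (nat_lit 2) (nat_lit 4) (nat_lit 521) (nat_lit 372) (nat_lit 307))))) (XT.nd (nat_lit 234) (nat_lit 0) (nat_lit 0) (XT.nd (nat_lit 78) (nat_lit 0) (nat_lit 0) (XT.lf (nat_lit 0) (nat_lit 4842948419891) (nat_lit 76) (nat_lit 633839338167) (nat_lit 76) (nat_lit 633054112060) (nat_lit 1) (nat_lit 4) (nat_lit 2) (nat_lit 5) (nat_lit 2) (nat_lit 4) (nat_lit 522) (nat_lit 372) (nat_lit 306)) (XT.nd (nat_lit 78) (nat_lit 0) (nat_lit 0) (XT.lf (nat_lit 0) (nat_lit 5240343333866) (nat_lit 76) (nat_lit 679342978028)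 (nat_lit 76) (nat_lit 678557387666) (nat_lit 1) (nat_lit 4) (nat_lit 2) (nat_lit 5) (nat_lit 2) (nat_lit 4) (nat_lit 523) (nat_lit 372) (nat_lit 305)) (XT.lf (nat_lit 0) (nat_lit 5669521103584) (nat_lit 76) (nat_lit 728491418818) (nat_lit 76) (nat_lit 727705491184) (nat_lit 1) (nat_lit 4) (nat_lit 2) (nat_lit 5) (nat_lit 2) (nat_lit 4) (nat_lit 524) (nat_lit 372) (nat_lit 304)))) (XT.nd (nat_lit 78) (nat_lit 0) (nat_lit 0) (XT.lf (nat_lit 0) (nat_lit 6133025004718) (nat_lit 76) (nat_lit 781575910557) (nat_lit 76) (nat_lit 780789670634) (nat_lit 1) (nat_lit 4) (nat_lit 2) (nat_lit 5) (nat_lit 2) (nat_lit 4) (nat_lit 525) (nat_lit 372) (nat_lit 303)) (XT.nd (nat_lit 78) (nat_lit 0) (nat_lit 0) (XT.lf (nat_lit 0) (nat_lit 6633601727051) (nat_lit 76) (nat_lit 838911028012) (nat_lit 76) (nat_lit 838124498932) (nat_lit 1) (nat_lit 4) (nat_lit 2) (nat_lit 5) (nat_lit 2) (nat_lit 4) (nat_lit 526)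 (nat_lit 372) (nat_lit 302)) (XT.lf (nat_lit 0) (nat_lit 7174217651162) (nat_lit 76) (nat_lit 900836534840) (nat_lit 76) (nat_lit 900049738023) (nat_lit 1) (nat_lit 4) (nat_lit 2) (nat_lit 5) (nat_lit 2) (nat_lit 4) (nat_lit 527) (nat_lit 372) (nat_lit 301)))))) (XT.nd (nat_lit 468) (nat_lit 0) (nat_lit 0) (XT.nd (nat_lit 234) (nat_lit 0) (nat_lit 0) (XT.nd (nat_lit 78) (nat_lit 0) (nat_lit 0) (XT.lf (nat_lit 0) (nat_lit 7758076426970) (nat_lit 76) (nat_lit 967719397008) (nat_lit 76) (nat_lit 966932352286) (nat_lit 1) (nat_lit 4) (nat_lit 2) (nat_lit 5) (nat_lit 2) (nat_lit 4) (nat_lit 528) (nat_lit 372) (nat_lit 300)) (XT.nd (nat_lit 78) (nat_lit 0) (nat_lit 0) (XT.lf (nat_lit 0) (nat_lit 8388637958332) (nat_lit 76) (nat_lit 1039955957404) (nat_lit 76) (nat_lit 1039168683140) (nat_lit 1) (nat_lit 4) (nat_lit 2) (nat_lit 5) (nat_lit 2) (nat_lit 4) (nat_lit 529) (nat_lit 372) (nat_lit 299))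 (XT.lf (nat_lit 0) (nat_lit 9069638906174) (nat_lit 76) (nat_lit 1117974284533) (nat_lit 76) (nat_lit 1117186797730) (nat_lit 1) (nat_lit 4) (nat_lit 2) (nat_lit 5) (nat_lit 2) (nat_lit 4) (nat_lit 530) (nat_lit 372) (nat_lit 298)))) (XT.nd (nat_lit 78) (nat_lit 0) (nat_lit 0) (XT.lf (nat_lit 0) (nat_lit 9805114831670) (nat_lit 76) (nat_lit 1202236709223) (nat_lit 76) (nat_lit 1201449025625) (nat_lit 1) (nat_lit 4) (nat_lit 2) (nat_lit 5) (nat_lit 2) (nat_lit 4) (nat_lit 531) (nat_lit 372) (nat_lit 297)) (XT.nd (nat_lit 78) (nat_lit 0) (nat_lit 0) (XT.lf (nat_lit 0) (nat_lit 10599424110674) (nat_lit 76) (nat_lit 1293242564361) (nat_lit 76) (nat_lit 1292454698545) (nat_lit 1) (nat_lit 4) (nat_lit 2) (nat_lit 5) (nat_lit 2) (nat_lit 4) (nat_lit 532) (nat_lit 372) (nat_lit 296)) (XT.lf (nat_lit 0) (nat_lit 11457273761136) (nat_lit 76) (nat_lit 1391531143903) (nat_lit 76) (nat_lit 1390743109367)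 (nat_lit 1) (nat_lit 4) (nat_lit 2) (nat_lit 5) (nat_lit 2) (nat_lit 4) (nat_lit 533) (nat_lit 372) (nat_lit 295))))) (XT.nd (nat_lit 56238) (nat_lit 0) (nat_lit 456) (XT.nd (nat_lit 78) (nat_lit 0) (nat_lit 0) (XT.lf (nat_lit 0) (nat_lit 12383747336539) (nat_lit 76) (nat_lit 1497684898691) (nat_lit 76) (nat_lit 1496896707933) (nat_lit 1) (nat_lit 4) (nat_lit 2) (nat_lit 5) (nat_lit 2) (nat_lit 4) (nat_lit 534) (nat_lit 372) (nat_lit 294)) (XT.nd (nat_lit 78) (nat_lit 0) (nat_lit 0) (XT.lf (nat_lit 0) (nat_lit 13384335050664) (nat_lit 76) (nat_lit 1612332888012) (nat_lit 76) (nat_lit 1611544552604) (nat_lit 1) (nat_lit 4) (nat_lit 2) (nat_lit 5) (nat_lit 2) (nat_lit 4) (nat_lit 535) (nat_lit 372) (nat_lit 293)) (XT.lf (nat_lit 0) (nat_lit 14464966312187) (nat_lit 76) (nat_lit 1736154507359) (nat_lit 76) (nat_lit 1735366038015) (nat_lit 1) (nat_lit 4) (nat_lit 2) (nat_lit 5) (nat_lit 2)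 (nat_lit 4) (nat_lit 536) (nat_lit 372) (nat_lit 292)))) (XT.nd (nat_lit 156) (nat_lit 76) (nat_lit 0) (XT.nd (nat_lit 78) (nat_lit 152) (nat_lit 0) (XT.lf (nat_lit 0) (nat_lit 18777657099) (nat_lit 76) (nat_lit 850423173) (nat_lit 76) (nat_lit 850423173) (nat_lit 10) (nat_lit 4) (nat_lit 11) (nat_lit 5) (nat_lit 11) (nat_lit 4) (nat_lit 454) (nat_lit 373) (nat_lit 373)) (XT.lf (nat_lit 0) (nat_lit 8573776054) (nat_lit 152) (nat_lit 26331330151) (nat_lit 0) (nat_lit 8500046180) (nat_lit 8) (nat_lit 5) (nat_lit 10) (nat_lit 4) (nat_lit 8) (nat_lit 4) (nat_lit 455) (nat_lit 373) (nat_lit 372))) (XT.nd (nat_lit 78) (nat_lit 76) (nat_lit 0) (XT.lf (nat_lit 0) (nat_lit 19204271035) (nat_lit 152) (nat_lit 7809011739) (nat_lit 0) (nat_lit 19062272760) (nat_lit 8) (nat_lit 5) (nat_lit 10) (nat_lit 4) (nat_lit 8) (nat_lit 4) (nat_lit 456) (nat_lit 373) (nat_lit 371)) (XT.lf (nat_lit 0) (nat_lit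 11806665804) (nat_lit 76) (nat_lit 18686741087) (nat_lit 76) (nat_lit 18481531329) (nat_lit 7) (nat_lit 4) (nat_lit 8) (nat_lit 5) (nat_lit 8) (nat_lit 4) (nat_lit 457) (nat_lit 373) (nat_lit 370))))))))
noncomputable def xc34 : XT := (XT.nd (nat_lit 1950) (nat_lit 0) (nat_lit 0) (XT.nd (nat_lit 936) (nat_lit 76) (nat_lit 0) (XT.nd (nat_lit 468) (nat_lit 152) (nat_lit 0) (XT.nd (nat_lit 234) (nat_lit 76) (nat_lit 0) (XT.nd (nat_lit 78) (nat_lit 152) (nat_lit 0) (XT.lf (nat_lit 0) (nat_lit 32481445299) (nat_lit 76) (nat_lit 9954281986) (nat_lit 76) (nat_lit 9690543077) (nat_lit 7) (nat_lit 4) (nat_lit 8) (nat_lit 5) (nat_lit 8) (nat_lit 4) (nat_lit 458) (nat_lit 373) (nat_lit 369)) (XT.nd (nat_lit 78) (nat_lit 152) (nat_lit 0) (XT.lf (nat_lit 0) (nat_lit 53926635240) (nat_lit 76) (nat_lit 977669785) (nat_lit 76) (nat_lit 659737217) (nat_lit 7) (nat_lit 4) (nat_lit 8) (nat_lit 5) (nat_lit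 8) (nat_lit 4) (nat_lit 459) (nat_lit 373) (nat_lit 368)) (XT.lf (nat_lit 0) (nat_lit 8871037094) (nat_lit 152) (nat_lit 41839520584) (nat_lit 0) (nat_lit 8530192760) (nat_lit 5) (nat_lit 5) (nat_lit 7) (nat_lit 4) (nat_lit 5) (nat_lit 4) (nat_lit 460) (nat_lit 373) (nat_lit 367)))) (XT.nd (nat_lit 78) (nat_lit 76) (nat_lit 0) (XT.lf (nat_lit 0) (nat_lit 18792679529) (nat_lit 152) (nat_lit 26035608732) (nat_lit 0) (nat_lit 18408814522) (nat_lit 5) (nat_lit 5) (nat_lit 7) (nat_lit 4) (nat_lit 5) (nat_lit 4) (nat_lit 461) (nat_lit 373) (nat_lit 366)) (XT.nd (nat_lit 78) (nat_lit 76) (nat_lit 0) (XT.lf (nat_lit 0) (nat_lit 29130944698) (nat_lit 152) (nat_lit 9745143709) (nat_lit 0) (nat_lit 28707245735) (nat_lit 5) (nat_lit 5) (nat_lit 7) (nat_lit 4) (nat_lit 5) (nat_lit 4) (nat_lit 462) (nat_lit 373) (nat_lit 365)) (XT.lf (nat_lit 0) (nat_lit 7503780042) (nat_lit 76) (nat_lit 32623782444)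 (nat_lit 76) (nat_lit 32163200187) (nat_lit 4) (nat_lit 4) (nat_lit 5) (nat_lit 5) (nat_lit 5) (nat_lit 4) (nat_lit 463) (nat_lit 373) (nat_lit 364))))) (XT.nd (nat_lit 234) (nat_lit 152) (nat_lit 0) (XT.nd (nat_lit 78) (nat_lit 0) (nat_lit 0) (XT.lf (nat_lit 0) (nat_lit 25984916304) (nat_lit 76) (nat_lit 25945251893) (nat_lit 76) (nat_lit 25450518439) (nat_lit 4) (nat_lit 4) (nat_lit 5) (nat_lit 5) (nat_lit 5) (nat_lit 4) (nat_lit 464) (nat_lit 373) (nat_lit 363)) (XT.nd (nat_lit 78) (nat_lit 0) (nat_lit 0) (XT.lf (nat_lit 0) (nat_lit 45294620922) (nat_lit 76) (nat_lit 19067369777) (nat_lit 76) (nat_lit 18541014844) (nat_lit 4) (nat_lit 4) (nat_lit 5) (nat_lit 5) (nat_lit 5) (nat_lit 4) (nat_lit 465) (nat_lit 373) (nat_lit 362)) (XT.lf (nat_lit 0) (nat_lit 65547321775) (nat_lit 76) (nat_lit 11949378276) (nat_lit 76) (nat_lit 11393744195) (nat_lit 4) (nat_lit 4) (nat_lit 5) (nat_lit 5)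 (nat_lit 5) (nat_lit 4) (nat_lit 466) (nat_lit 373) (nat_lit 361)))) (XT.nd (nat_lit 78) (nat_lit 152) (nat_lit 0) (XT.lf (nat_lit 0) (nat_lit 86863034870) (nat_lit 76) (nat_lit 4549096699) (nat_lit 76) (nat_lit 3966352297) (nat_lit 4) (nat_lit 4) (nat_lit 5) (nat_lit 5) (nat_lit 5) (nat_lit 4) (nat_lit 467) (nat_lit 373) (nat_lit 360)) (XT.nd (nat_lit 78) (nat_lit 0) (nat_lit 0) (XT.lf (nat_lit 0) (nat_lit 3853084312) (nat_lit 152) (nat_lit 95234360889) (nat_lit 0) (nat_lit 3290263431) (nat_lit 2) (nat_lit 5) (nat_lit 4) (nat_lit 4) (nat_lit 2) (nat_lit 4) (nat_lit 468) (nat_lit 373) (nat_lit 359)) (XT.lf (nat_lit 0) (nat_lit 12184469930) (nat_lit 152) (nat_lit 86135978421) (nat_lit 0) (nat_lit 11600128002) (nat_lit 2) (nat_lit 5) (nat_lit 4) (nat_lit 4) (nat_lit 2) (nat_lit 4) (nat_lit 469) (nat_lit 373) (nat_lit 358)))))) (XT.nd (nat_lit 468) (nat_lit 76) (nat_lit 0) (XT.nd (nat_lit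 234) (nat_lit 0) (nat_lit 0) (XT.nd (nat_lit 78) (nat_lit 0) (nat_lit 0) (XT.lf (nat_lit 0) (nat_lit 20945002357) (nat_lit 152) (nat_lit 76800127792) (nat_lit 0) (nat_lit 20340733532) (nat_lit 2) (nat_lit 5) (nat_lit 4) (nat_lit 4) (nat_lit 2) (nat_lit 4) (nat_lit 470) (nat_lit 373) (nat_lit 357)) (XT.nd (nat_lit 78) (nat_lit 0) (nat_lit 0) (XT.lf (nat_lit 0) (nat_lit 30186595858) (nat_lit 152) (nat_lit 67171485444) (nat_lit 0) (nat_lit 29563876204) (nat_lit 2) (nat_lit 5) (nat_lit 4) (nat_lit 4) (nat_lit 2) (nat_lit 4) (nat_lit 471) (nat_lit 373) (nat_lit 356)) (XT.lf (nat_lit 0) (nat_lit 39964015432) (nat_lit 152) (nat_lit 57192992754) (nat_lit 0) (nat_lit 39324211678) (nat_lit 2) (nat_lit 5) (nat_lit 4) (nat_lit 4) (nat_lit 2) (nat_lit 4) (nat_lit 472) (nat_lit 373) (nat_lit 355)))) (XT.nd (nat_lit 78) (nat_lit 0) (nat_lit 0) (XT.lf (nat_lit 0) (nat_lit 50335201345) (nat_lit 152) (nat_lit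 46805517915) (nat_lit 0) (nat_lit 49679578978) (nat_lit 2) (nat_lit 5) (nat_lit 4) (nat_lit 4) (nat_lit 2) (nat_lit 4) (nat_lit 473) (nat_lit 373) (nat_lit 354)) (XT.nd (nat_lit 78) (nat_lit 0) (nat_lit 0) (XT.lf (nat_lit 0) (nat_lit 61361612474) (nat_lit 152) (nat_lit 35947505519) (nat_lit 0) (nat_lit 60691343244) (nat_lit 2) (nat_lit 5) (nat_lit 4) (nat_lit 4) (nat_lit 2) (nat_lit 4) (nat_lit 474) (nat_lit 373) (nat_lit 353)) (XT.lf (nat_lit 0) (nat_lit 73108590516) (nat_lit 152) (nat_lit 24554611790) (nat_lit 0) (nat_lit 72424759375) (nat_lit 2) (nat_lit 5) (nat_lit 4) (nat_lit 4) (nat_lit 2) (nat_lit 4) (nat_lit 475) (nat_lit 373) (nat_lit 352))))) (XT.nd (nat_lit 234) (nat_lit 0) (nat_lit 0) (XT.nd (nat_lit 78) (nat_lit 76) (nat_lit 0) (XT.lf (nat_lit 0) (nat_lit 85645747192) (nat_lit 152) (nat_lit 12559323283) (nat_lit 0) (nat_lit 84949358727) (nat_lit 2) (nat_lit 5) (nat_lit 4) (nat_lit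 4) (nat_lit 2) (nat_lit 4) (nat_lit 476) (nat_lit 373) (nat_lit 351)) (XT.nd (nat_lit 78) (nat_lit 0) (nat_lit 0) (XT.lf (nat_lit 0) (nat_lit 115206276) (nat_lit 76) (nat_lit 98934941202) (nat_lit 76) (nat_lit 98226925585) (nat_lit 1) (nat_lit 4) (nat_lit 2) (nat_lit 5) (nat_lit 2) (nat_lit 4) (nat_lit 477) (nat_lit 373) (nat_lit 350)) (XT.lf (nat_lit 0) (nat_lit 14239057112) (nat_lit 76) (nat_lit 99496288850) (nat_lit 76) (nat_lit 98777507351) (nat_lit 1) (nat_lit 4) (nat_lit 2) (nat_lit 5) (nat_lit 2) (nat_lit 4) (nat_lit 478) (nat_lit 373) (nat_lit 349)))) (XT.nd (nat_lit 156) (nat_lit 0) (nat_lit 0) (XT.nd (nat_lit 78) (nat_lit 0) (nat_lit 0) (XT.lf (nat_lit 0) (nat_lit 29234574413) (nat_lit 76) (nat_lit 100235834080) (nat_lit 76) (nat_lit 99507084172) (nat_lit 1) (nat_lit 4) (nat_lit 2) (nat_lit 5) (nat_lit 2) (nat_lit 4) (nat_lit 479) (nat_lit 373) (nat_lit 348)) (XT.lf (nat_lit 0)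 (nat_lit 45190620501) (nat_lit 76) (nat_lit 101157959383) (nat_lit 76) (nat_lit 100419979467) (nat_lit 1) (nat_lit 4) (nat_lit 2) (nat_lit 5) (nat_lit 2) (nat_lit 4) (nat_lit 480) (nat_lit 373) (nat_lit 347))) (XT.nd (nat_lit 78) (nat_lit 0) (nat_lit 0) (XT.lf (nat_lit 0) (nat_lit 62201749726) (nat_lit 76) (nat_lit 102268129205) (nat_lit 76) (nat_lit 101521602984) (nat_lit 1) (nat_lit 4) (nat_lit 2) (nat_lit 5) (nat_lit 2) (nat_lit 4) (nat_lit 481) (nat_lit 373) (nat_lit 346)) (XT.lf (nat_lit 0) (nat_lit 80368768777) (nat_lit 76) (nat_lit 103572922329) (nat_lit 76) (nat_lit 102818482864) (nat_lit 1) (nat_lit 4) (nat_lit 2) (nat_lit 5) (nat_lit 2) (nat_lit 4) (nat_lit 482) (nat_lit 373) (nat_lit 345))))))) (XT.nd (nat_lit 936) (nat_lit 0) (nat_lit 0) (XT.nd (nat_lit 468) (nat_lit 0) (nat_lit 0) (XT.nd (nat_lit 234) (nat_lit 0) (nat_lit 0) (XT.nd (nat_lit 78) (nat_lit 0) (nat_lit 0) (XT.lf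 (nat_lit 0) (nat_lit 99799334065) (nat_lit 76) (nat_lit 105080070864) (nat_lit 76) (nat_lit 104318304321) (nat_lit 1) (nat_lit 4) (nat_lit 2) (nat_lit 5) (nat_lit 2) (nat_lit 4) (nat_lit 483) (nat_lit 373) (nat_lit 344)) (XT.nd (nat_lit 78) (nat_lit 0) (nat_lit 0) (XT.lf (nat_lit 0) (nat_lit 120608589679) (nat_lit 76) (nat_lit 106798506059) (nat_lit 76) (nat_lit 106029955185) (nat_lit 1) (nat_lit 4) (nat_lit 2) (nat_lit 5) (nat_lit 2) (nat_lit 4) (nat_lit 484) (nat_lit 373) (nat_lit 343)) (XT.lf (nat_lit 0) (nat_lit 142919849728) (nat_lit 76) (nat_lit 108738411235) (nat_lit 76) (nat_lit 107963578572) (nat_lit 1) (nat_lit 4) (nat_lit 2) (nat_lit 5) (nat_lit 2) (nat_lit 4) (nat_lit 485) (nat_lit 373) (nat_lit 342)))) (XT.nd (nat_lit 78) (nat_lit 0) (nat_lit 0) (XT.lf (nat_lit 0) (nat_lit 166865329086) (nat_lit 76) (nat_lit 110911282126) (nat_lit 76) (nat_lit 110130632992) (nat_lit 1) (nat_lit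 4) (nat_lit 2) (nat_lit 5) (nat_lit 2) (nat_lit 4) (nat_lit 486) (nat_lit 373) (nat_lit 341)) (XT.nd (nat_lit 78) (nat_lit 0) (nat_lit 0) (XT.lf (nat_lit 0) (nat_lit 192586926890) (nat_lit 76) (nat_lit 113329995004) (nat_lit 76) (nat_lit 112543960248) (nat_lit 1) (nat_lit 4) (nat_lit 2) (nat_lit 5) (nat_lit 2) (nat_lit 4) (nat_lit 487) (nat_lit 373) (nat_lit 340)) (XT.lf (nat_lit 0) (nat_lit 220237067422) (nat_lit 76) (nat_lit 116008882981) (nat_lit 76) (nat_lit 115217861540) (nat_lit 1) (nat_lit 4) (nat_lit 2) (nat_lit 5) (nat_lit 2) (nat_lit 4) (nat_lit 488) (nat_lit 373) (nat_lit 339))))) (XT.nd (nat_lit 234) (nat_lit 0) (nat_lit 0) (XT.nd (nat_lit 78) (nat_lit 0) (nat_lit 0) (XT.lf (nat_lit 0) (nat_lit 249979603368) (nat_lit 76) (nat_lit 118963820951) (nat_lit 76) (nat_lit 118168182208) (nat_lit 1) (nat_lit 4) (nat_lit 2) (nat_lit 5) (nat_lit 2) (nat_lit 4) (nat_lit 489) (nat_lit 373)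 (nat_lit 338)) (XT.nd (nat_lit 78) (nat_lit 0) (nat_lit 0) (XT.lf (nat_lit 0) (nat_lit 281990786792) (nat_lit 76) (nat_lit 122212319656) (nat_lit 76) (nat_lit 121412405633) (nat_lit 1) (nat_lit 4) (nat_lit 2) (nat_lit 5) (nat_lit 2) (nat_lit 4) (nat_lit 490) (nat_lit 373) (nat_lit 337)) (XT.lf (nat_lit 0) (nat_lit 316460313596) (nat_lit 76) (nat_lit 125773629460) (nat_lit 76) (nat_lit 124969756844) (nat_lit 1) (nat_lit 4) (nat_lit 2) (nat_lit 5) (nat_lit 2) (nat_lit 4) (nat_lit 491) (nat_lit 373) (nat_lit 336)))) (XT.nd (nat_lit 78) (nat_lit 0) (nat_lit 0) (XT.lf (nat_lit 0) (nat_lit 353592447643) (nat_lit 76) (nat_lit 129668854419) (nat_lit 76) (nat_lit 128861316440) (nat_lit 1) (nat_lit 4) (nat_lit 2) (nat_lit 5) (nat_lit 2) (nat_lit 4) (nat_lit 492) (nat_lit 373) (nat_lit 335)) (XT.nd (nat_lit 78) (nat_lit 0) (nat_lit 0) (XT.lf (nat_lit 0) (nat_lit 393607231209) (nat_lit 76) (nat_lit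 133921077350) (nat_lit 76) (nat_lit 133110145516) (nat_lit 1) (nat_lit 4) (nat_lit 2) (nat_lit 5) (nat_lit 2) (nat_lit 4) (nat_lit 493) (nat_lit 373) (nat_lit 334)) (XT.lf (nat_lit 0) (nat_lit 436741788936) (nat_lit 76) (nat_lit 138555496609) (nat_lit 76) (nat_lit 137741422317) (nat_lit 1) (nat_lit 4) (nat_lit 2) (nat_lit 5) (nat_lit 2) (nat_lit 4) (nat_lit 494) (nat_lit 373) (nat_lit 333)))))) (XT.nd (nat_lit 468) (nat_lit 0) (nat_lit 0) (XT.nd (nat_lit 234) (nat_lit 0) (nat_lit 0) (XT.nd (nat_lit 78) (nat_lit 0) (nat_lit 0) (XT.lf (nat_lit 0) (nat_lit 483251733020) (nat_lit 76) (nat_lit 143599575422) (nat_lit 76) (nat_lit 142782591447) (nat_lit 1) (nat_lit 4) (nat_lit 2) (nat_lit 5) (nat_lit 2) (nat_lit 4) (nat_lit 495) (nat_lit 373) (nat_lit 332)) (XT.nd (nat_lit 78) (nat_lit 0) (nat_lit 0) (XT.lf (nat_lit 0) (nat_lit 533412677942) (nat_lit 76) (nat_lit 149083204627) (nat_lit 76) (nat_lit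 148263526500) (nat_lit 1) (nat_lit 4) (nat_lit 2) (nat_lit 5) (nat_lit 2) (nat_lit 4) (nat_lit 496) (nat_lit 373) (nat_lit 331)) (XT.lf (nat_lit 0) (nat_lit 587521873748) (nat_lit 76) (nat_lit 155038879804) (nat_lit 76) (nat_lit 154216707092) (nat_lit 1) (nat_lit 4) (nat_lit 2) (nat_lit 5) (nat_lit 2) (nat_lit 4) (nat_lit 497) (nat_lit 373) (nat_lit 330)))) (XT.nd (nat_lit 78) (nat_lit 0) (nat_lit 0) (XT.lf (nat_lit 0) (nat_lit 645899967524) (nat_lit 76) (nat_lit 161501893843) (nat_lit 76) (nat_lit 160677411331) (nat_lit 1) (nat_lit 4) (nat_lit 2) (nat_lit 5) (nat_lit 2) (nat_lit 4) (nat_lit 498) (nat_lit 373) (nat_lit 329)) (XT.nd (nat_lit 78) (nat_lit 0) (nat_lit 0) (XT.lf (nat_lit 0) (nat_lit 708892903529) (nat_lit 76) (nat_lit 168510546086) (nat_lit 76) (nat_lit 167683924870) (nat_lit 1) (nat_lit 4) (nat_lit 2) (nat_lit 5) (nat_lit 2) (nat_lit 4) (nat_lit 499) (nat_lit 373) (nat_lit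 328)) (XT.lf (nat_lit 0) (nat_lit 776873973235) (nat_lit 76) (nat_lit 176106369288) (nat_lit 76) (nat_lit 175277767790) (nat_lit 1) (nat_lit 4) (nat_lit 2) (nat_lit 5) (nat_lit 2) (nat_lit 4) (nat_lit 500) (nat_lit 373) (nat_lit 327))))) (XT.nd (nat_lit 234) (nat_lit 0) (nat_lit 0) (XT.nd (nat_lit 78) (nat_lit 0) (nat_lit 0) (XT.lf (nat_lit 0) (nat_lit 850246027426) (nat_lit 76) (nat_lit 184334375734) (nat_lit 76) (nat_lit 183503940641) (nat_lit 1) (nat_lit 4) (nat_lit 2) (nat_lit 5) (nat_lit 2) (nat_lit 4) (nat_lit 501) (nat_lit 373) (nat_lit 326)) (XT.nd (nat_lit 78) (nat_lit 0) (nat_lit 0) (XT.lf (nat_lit 0) (nat_lit 929443863460) (nat_lit 76) (nat_lit 193243323981) (nat_lit 76) (nat_lit 192411191116) (nat_lit 1) (nat_lit 4) (nat_lit 2) (nat_lit 5) (nat_lit 2) (nat_lit 4) (nat_lit 502) (nat_lit 373) (nat_lit 325)) (XT.lf (nat_lit 0) (nat_lit 1014936801847) (nat_lit 76) (nat_lit 202886007795)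 (nat_lit 76) (nat_lit 202052302919) (nat_lit 1) (nat_lit 4) (nat_lit 2) (nat_lit 5) (nat_lit 2) (nat_lit 4) (nat_lit 503) (nat_lit 373) (nat_lit 324)))) (XT.nd (nat_lit 156) (nat_lit 0) (nat_lit 0) (XT.nd (nat_lit 78) (nat_lit 0) (nat_lit 0) (XT.lf (nat_lit 0) (nat_lit 1107231467408) (nat_lit 76) (nat_lit 213319569008) (nat_lit 76) (nat_lit 212484408566) (nat_lit 1) (nat_lit 4) (nat_lit 2) (nat_lit 5) (nat_lit 2) (nat_lit 4) (nat_lit 504) (nat_lit 373) (nat_lit 323)) (XT.lf (nat_lit 0) (nat_lit 1206874791493) (nat_lit 76) (nat_lit 224605836131) (nat_lit 76) (nat_lit 223769327941) (nat_lit 1) (nat_lit 4) (nat_lit 2) (nat_lit 5) (nat_lit 2) (nat_lit 4) (nat_lit 505) (nat_lit 373) (nat_lit 322))) (XT.nd (nat_lit 78) (nat_lit 0) (nat_lit 0) (XT.lf (nat_lit 0) (nat_lit 1314457253060) (nat_lit 76) (nat_lit 236811690745) (nat_lit 76) (nat_lit 235973934642) (nat_lit 1) (nat_lit 4) (nat_lit 2) (nat_lit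 5) (nat_lit 2) (nat_lit 4) (nat_lit 506) (nat_lit 373) (nat_lit 321)) (XT.lf (nat_lit 0) (nat_lit 1430616377807) (nat_lit 76) (nat_lit 250009463841) (nat_lit 76) (nat_lit 249170552263) (nat_lit 1) (nat_lit 4) (nat_lit 2) (nat_lit 5) (nat_lit 2) (nat_lit 4) (nat_lit 507) (nat_lit 373) (nat_lit 320))))))))
noncomputable def xc35 : XT := (XT.nd (nat_lit 1950) (nat_lit 0) (nat_lit 0) (XT.nd (nat_lit 936) (nat_lit 0) (nat_lit 0) (XT.nd (nat_lit 468) (nat_lit 0) (nat_lit 0) (XT.nd (nat_lit 234) (nat_lit 0) (nat_lit 0) (XT.nd (nat_lit 78) (nat_lit 0) (nat_lit 0) (XT.lf (nat_lit 0) (nat_lit 1556040516103) (nat_lit 76) (nat_lit 264277364446) (nat_lit 76) (nat_lit 263437382984) (nat_lit 1) (nat_lit 4) (nat_lit 2) (nat_lit 5) (nat_lit 2) (nat_lit 4) (nat_lit 508) (nat_lit 373) (nat_lit 319)) (XT.nd (nat_lit 78) (nat_lit 0) (nat_lit 0) (XT.lf (nat_lit 0) (nat_lit 1691472922102) (nat_lit 76) (nat_lit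 279699943081) (nat_lit 76) (nat_lit 278858970985) (nat_lit 1) (nat_lit 4) (nat_lit 2) (nat_lit 5) (nat_lit 2) (nat_lit 4) (nat_lit 509) (nat_lit 373) (nat_lit 318)) (XT.lf (nat_lit 0) (nat_lit 1837716158208) (nat_lit 76) (nat_lit 296368592805) (nat_lit 76) (nat_lit 295526703455) (nat_lit 1) (nat_lit 4) (nat_lit 2) (nat_lit 5) (nat_lit 2) (nat_lit 4) (nat_lit 510) (nat_lit 373) (nat_lit 317)))) (XT.nd (nat_lit 78) (nat_lit 0) (nat_lit 0) (XT.lf (nat_lit 0) (nat_lit 1995636851007) (nat_lit 76) (nat_lit 314382090801) (nat_lit 76) (nat_lit 313539352142) (nat_lit 1) (nat_lit 4) (nat_lit 2) (nat_lit 5) (nat_lit 2) (nat_lit 4) (nat_lit 511) (nat_lit 373) (nat_lit 316)) (XT.nd (nat_lit 78) (nat_lit 0) (nat_lit 0) (XT.lf (nat_lit 0) (nat_lit 2166170826826) (nat_lit 76) (nat_lit 333847183724) (nat_lit 76) (nat_lit 333003658668) (nat_lit 1) (nat_lit 4) (nat_lit 2) (nat_lit 5) (nat_lit 2) (nat_lit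 4) (nat_lit 512) (nat_lit 373) (nat_lit 315)) (XT.lf (nat_lit 0) (nat_lit 2350328657373) (nat_lit 76) (nat_lit 354879220273) (nat_lit 76) (nat_lit 354034967071) (nat_lit 1) (nat_lit 4) (nat_lit 2) (nat_lit 5) (nat_lit 2) (nat_lit 4) (nat_lit 513) (nat_lit 373) (nat_lit 314))))) (XT.nd (nat_lit 234) (nat_lit 0) (nat_lit 0) (XT.nd (nat_lit 78) (nat_lit 0) (nat_lit 0) (XT.lf (nat_lit 0) (nat_lit 2549201648311) (nat_lit 76) (nat_lit 377602834738) (nat_lit 76) (nat_lit 376757907328) (nat_lit 1) (nat_lit 4) (nat_lit 2) (nat_lit 5) (nat_lit 2) (nat_lit 4) (nat_lit 514) (nat_lit 373) (nat_lit 313)) (XT.nd (nat_lit 78) (nat_lit 0) (nat_lit 0) (XT.lf (nat_lit 0) (nat_lit 2763968306254) (nat_lit 76) (nat_lit 402152685577) (nat_lit 76) (nat_lit 401307133899) (nat_lit 1) (nat_lit 4) (nat_lit 2) (nat_lit 5) (nat_lit 2) (nat_lit 4) (nat_lit 515) (nat_lit 373) (nat_lit 312)) (XT.lf (nat_lit 0) (nat_lit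 2995901322506) (nat_lit 76) (nat_lit 428674253385) (nat_lit 76) (nat_lit 427828123682) (nat_lit 1) (nat_lit 4) (nat_lit 2) (nat_lit 5) (nat_lit 2) (nat_lit 4) (nat_lit 516) (nat_lit 373) (nat_lit 311)))) (XT.nd (nat_lit 78) (nat_lit 0) (nat_lit 0) (XT.lf (nat_lit 0) (nat_lit 3246375114943) (nat_lit 76) (nat_lit 457324703011) (nat_lit 76) (nat_lit 456478038099) (nat_lit 1) (nat_lit 4) (nat_lit 2) (nat_lit 5) (nat_lit 2) (nat_lit 4) (nat_lit 517) (nat_lit 373) (nat_lit 310)) (XT.nd (nat_lit 78) (nat_lit 0) (nat_lit 0) (XT.lf (nat_lit 0) (nat_lit 3516873972705) (nat_lit 76) (nat_lit 488273814894) (nat_lit 76) (nat_lit 487426654419) (nat_lit 1) (nat_lit 4) (nat_lit 2) (nat_lit 5) (nat_lit 2) (nat_lit 4) (nat_lit 518) (nat_lit 373) (nat_lit 309)) (XT.lf (nat_lit 0) (nat_lit 3809000851986) (nat_lit 76) (nat_lit 521704991181) (nat_lit 76) (nat_lit 520857371851) (nat_lit 1) (nat_lit 4) (nat_lit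 2) (nat_lit 5) (nat_lit 2) (nat_lit 4) (nat_lit 519) (nat_lit 373) (nat_lit 308)))))) (XT.nd (nat_lit 468) (nat_lit 0) (nat_lit 0) (XT.nd (nat_lit 234) (nat_lit 0) (nat_lit 0) (XT.nd (nat_lit 78) (nat_lit 0) (nat_lit 0) (XT.lf (nat_lit 0) (nat_lit 4124486875033) (nat_lit 76) (nat_lit 557816342546) (nat_lit 76) (nat_lit 556968298350) (nat_lit 1) (nat_lit 4) (nat_lit 2) (nat_lit 5) (nat_lit 2) (nat_lit 4) (nat_lit 520) (nat_lit 373) (nat_lit 307)) (XT.nd (nat_lit 78) (nat_lit 0) (nat_lit 0) (XT.lf (nat_lit 0) (nat_lit 4465201588650) (nat_lit 76) (nat_lit 596821862181) (nat_lit 76) (nat_lit 595973424591) (nat_lit 1) (nat_lit 4) (nat_lit 2) (nat_lit 5) (nat_lit 2) (nat_lit 4) (nat_lit 521) (nat_lit 373) (nat_lit 306)) (XT.lf (nat_lit 0) (nat_lit 4833164042991) (nat_lit 76) (nat_lit 638952693908) (nat_lit 76) (nat_lit 638103892063) (nat_lit 1) (nat_lit 4) (nat_lit 2) (nat_lit 5) (nat_lit 2)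 (nat_lit 4) (nat_lit 522) (nat_lit 373) (nat_lit 305)))) (XT.nd (nat_lit 78) (nat_lit 0) (nat_lit 0) (XT.lf (nat_lit 0) (nat_lit 5230554756305) (nat_lit 76) (nat_lit 684458501913) (nat_lit 76) (nat_lit 683609362796) (nat_lit 1) (nat_lit 4) (nat_lit 2) (nat_lit 5) (nat_lit 2) (nat_lit 4) (nat_lit 523) (nat_lit 373) (nat_lit 304)) (XT.nd (nat_lit 78) (nat_lit 0) (nat_lit 0) (XT.lf (nat_lit 0) (nat_lit 5659728636522) (nat_lit 76) (nat_lit 733608950244) (nat_lit 76) (nat_lit 732759498838) (nat_lit 1) (nat_lit 4) (nat_lit 2) (nat_lit 5) (nat_lit 2) (nat_lit 4) (nat_lit 524) (nat_lit 373) (nat_lit 303)) (XT.lf (nat_lit 0) (nat_lit 6123228936266) (nat_lit 76) (nat_lit 786695300818) (nat_lit 76) (nat_lit 785845560255) (nat_lit 1) (nat_lit 4) (nat_lit 2) (nat_lit 5) (nat_lit 2) (nat_lit 4) (nat_lit 525) (nat_lit 373) (nat_lit 302))))) (XT.nd (nat_lit 234) (nat_lit 0) (nat_lit 0) (XT.nd (nat_lit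 78) (nat_lit 0) (nat_lit 0) (XT.lf (nat_lit 0) (nat_lit 6623802323980) (nat_lit 76) (nat_lit 844032139416) (nat_lit 76) (nat_lit 843182131115) (nat_lit 1) (nat_lit 4) (nat_lit 2) (nat_lit 5) (nat_lit 2) (nat_lit 4) (nat_lit 526) (nat_lit 373) (nat_lit 301)) (XT.nd (nat_lit 78) (nat_lit 0) (nat_lit 0) (XT.lf (nat_lit 0) (nat_lit 7164415160479) (nat_lit 76) (nat_lit 905959239895) (nat_lit 76) (nat_lit 905108983689) (nat_lit 1) (nat_lit 4) (nat_lit 2) (nat_lit 5) (nat_lit 2) (nat_lit 4) (nat_lit 527) (nat_lit 373) (nat_lit 300)) (XT.lf (nat_lit 0) (nat_lit 7748271077387) (nat_lit 76) (nat_lit 972843577666) (nat_lit 76) (nat_lit 971993091919) (nat_lit 1) (nat_lit 4) (nat_lit 2) (nat_lit 5) (nat_lit 2) (nat_lit 4) (nat_lit 528) (nat_lit 373) (nat_lit 299)))) (XT.nd (nat_lit 156) (nat_lit 0) (nat_lit 0) (XT.nd (nat_lit 78) (nat_lit 0) (nat_lit 0) (XT.lf (nat_lit 0) (nat_lit 8378829961621) (nat_lit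 76) (nat_lit 1045081504361) (nat_lit 76) (nat_lit 1044230806075) (nat_lit 1) (nat_lit 4) (nat_lit 2) (nat_lit 5) (nat_lit 2) (nat_lit 4) (nat_lit 529) (nat_lit 373) (nat_lit 298)) (XT.lf (nat_lit 0) (nat_lit 9059828458418) (nat_lit 76) (nat_lit 1123101096582) (nat_lit 76) (nat_lit 1122250201500) (nat_lit 1) (nat_lit 4) (nat_lit 2) (nat_lit 5) (nat_lit 2) (nat_lit 4) (nat_lit 530) (nat_lit 373) (nat_lit 297))) (XT.nd (nat_lit 78) (nat_lit 0) (nat_lit 0) (XT.lf (nat_lit 0) (nat_lit 9795302114428) (nat_lit 76) (nat_lit 1207364692653) (nat_lit 76) (nat_lit 1206513615354) (nat_lit 1) (nat_lit 4) (nat_lit 2) (nat_lit 5) (nat_lit 2) (nat_lit 4) (nat_lit 531) (nat_lit 373) (nat_lit 296)) (XT.lf (nat_lit 0) (nat_lit 10589609292055) (nat_lit 76) (nat_lit 1298371632402) (nat_lit 76) (nat_lit 1297520386383) (nat_lit 1) (nat_lit 4) (nat_lit 2) (nat_lit 5) (nat_lit 2) (nat_lit 4) (nat_lit 532) (nat_lit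 373) (nat_lit 295))))))) (XT.nd (nat_lit 56784) (nat_lit 0) (nat_lit 76) (XT.nd (nat_lit 56316) (nat_lit 0) (nat_lit 456) (XT.nd (nat_lit 234) (nat_lit 0) (nat_lit 0) (XT.nd (nat_lit 78) (nat_lit 0) (nat_lit 0) (XT.lf (nat_lit 0) (nat_lit 11447456996798) (nat_lit 76) (nat_lit 1396661216215) (nat_lit 76) (nat_lit 1395809813973) (nat_lit 1) (nat_lit 4) (nat_lit 2) (nat_lit 5) (nat_lit 2) (nat_lit 4) (nat_lit 533) (nat_lit 373) (nat_lit 294)) (XT.nd (nat_lit 78) (nat_lit 0) (nat_lit 0) (XT.lf (nat_lit 0) (nat_lit 12373928770609) (nat_lit 76) (nat_lit 1502815900883) (nat_lit 76) (nat_lit 1501964353991) (nat_lit 1) (nat_lit 4) (nat_lit 2) (nat_lit 5) (nat_lit 2) (nat_lit 4) (nat_lit 534) (nat_lit 373) (nat_lit 293)) (XT.lf (nat_lit 0) (nat_lit 13374514816594) (nat_lit 76) (nat_lit 1617464751204) (nat_lit 76) (nat_lit 1616613070377) (nat_lit 1) (nat_lit 4) (nat_lit 2) (nat_lit 5) (nat_lit 2)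 (nat_lit 4) (nat_lit 535) (nat_lit 373) (nat_lit 292)))) (XT.nd (nat_lit 55926) (nat_lit 0) (nat_lit 684) (XT.lf (nat_lit 0) (nat_lit 14455144533543) (nat_lit 76) (nat_lit 1741287167774) (nat_lit 76) (nat_lit 1740435362932) (nat_lit 1) (nat_lit 4) (nat_lit 2) (nat_lit 5) (nat_lit 2) (nat_lit 4) (nat_lit 536) (nat_lit 373) (nat_lit 291)) (XT.nd (nat_lit 78) (nat_lit 76) (nat_lit 0) (XT.lf (nat_lit 0) (nat_lit 7950310375) (nat_lit 152) (nat_lit 2376254942) (nat_lit 0) (nat_lit 7950310375) (nat_lit 11) (nat_lit 5) (nat_lit 13) (nat_lit 4) (nat_lit 11) (nat_lit 4) (nat_lit 452) (nat_lit 374) (nat_lit 374)) (XT.lf (nat_lit 0) (nat_lit 15714881604) (nat_lit 76) (nat_lit 11518400848) (nat_lit 76) (nat_lit 11432402324) (nat_lit 10) (nat_lit 4) (nat_lit 11) (nat_lit 5) (nat_lit 11) (nat_lit 4) (nat_lit 453) (nat_lit 374) (nat_lit 373))))) (XT.nd (nat_lit 234) (nat_lit 76) (nat_lit 0) (XT.nd (nat_lit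 78) (nat_lit 152) (nat_lit 0) (XT.lf (nat_lit 0) (nat_lit 37060286732) (nat_lit 76) (nat_lit 2040816724) (nat_lit 76) (nat_lit 1875189936) (nat_lit 10) (nat_lit 4) (nat_lit 11) (nat_lit 5) (nat_lit 11) (nat_lit 4) (nat_lit 454) (nat_lit 374) (nat_lit 372)) (XT.nd (nat_lit 78) (nat_lit 0) (nat_lit 0) (XT.lf (nat_lit 0) (nat_lit 8139595052) (nat_lit 152) (nat_lit 27388697219) (nat_lit 0) (nat_lit 7917968513) (nat_lit 8) (nat_lit 5) (nat_lit 10) (nat_lit 4) (nat_lit 8) (nat_lit 4) (nat_lit 455) (nat_lit 374) (nat_lit 371)) (XT.lf (nat_lit 0) (nat_lit 18541364398) (nat_lit 152) (nat_lit 9337072837) (nat_lit 0) (nat_lit 18256526376) (nat_lit 8) (nat_lit 5) (nat_lit 10) (nat_lit 4) (nat_lit 8) (nat_lit 4) (nat_lit 456) (nat_lit 374) (nat_lit 370)))) (XT.nd (nat_lit 78) (nat_lit 0) (nat_lit 0) (XT.lf (nat_lit 0) (nat_lit 9739361991) (nat_lit 76) (nat_lit 19829636561) (nat_lit 76) (nat_lit 19486269388)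 (nat_lit 7) (nat_lit 4) (nat_lit 8) (nat_lit 5) (nat_lit 8) (nat_lit 4) (nat_lit 457) (nat_lit 374) (nat_lit 369)) (XT.nd (nat_lit 78) (nat_lit 0) (nat_lit 0) (XT.lf (nat_lit 0) (nat_lit 29989347297) (nat_lit 76) (nat_lit 11315659973) (nat_lit 76) (nat_lit 10918099142) (nat_lit 7) (nat_lit 4) (nat_lit 8) (nat_lit 5) (nat_lit 8) (nat_lit 4) (nat_lit 458) (nat_lit 374) (nat_lit 368)) (XT.lf (nat_lit 0) (nat_lit 51041209283) (nat_lit 76) (nat_lit 2541346396) (nat_lit 76) (nat_lit 2093606252) (nat_lit 7) (nat_lit 4) (nat_lit 8) (nat_lit 5) (nat_lit 8) (nat_lit 4) (nat_lit 459) (nat_lit 374) (nat_lit 367)))))) (XT.nd (nat_lit 468) (nat_lit 152) (nat_lit 0) (XT.nd (nat_lit 234) (nat_lit 76) (nat_lit 0) (XT.nd (nat_lit 78) (nat_lit 0) (nat_lit 0) (XT.lf (nat_lit 0) (nat_lit 7197624788) (nat_lit 152) (nat_lit 45442877004) (nat_lit 0) (nat_lit 6740029907) (nat_lit 5) (nat_lit 5) (nat_lit 7) (nat_lit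 4) (nat_lit 5) (nat_lit 4) (nat_lit 460) (nat_lit 374) (nat_lit 366)) (XT.nd (nat_lit 78) (nat_lit 0) (nat_lit 0) (XT.lf (nat_lit 0) (nat_lit 16937964982) (nat_lit 152) (nat_lit 30012888122) (nat_lit 0) (nat_lit 16440536144) (nat_lit 5) (nat_lit 5) (nat_lit 7) (nat_lit 4) (nat_lit 5) (nat_lit 4) (nat_lit 461) (nat_lit 374) (nat_lit 365)) (XT.lf (nat_lit 0) (nat_lit 27108357706) (nat_lit 152) (nat_lit 14068648071) (nat_lit 0) (nat_lit 26574045576) (nat_lit 5) (nat_lit 5) (nat_lit 7) (nat_lit 4) (nat_lit 5) (nat_lit 4) (nat_lit 462) (nat_lit 374) (nat_lit 364)))) (XT.nd (nat_lit 78) (nat_lit 0) (nat_lit 0) (XT.lf (nat_lit 0) (nat_lit 2615147820) (nat_lit 76) (nat_lit 35216818503) (nat_lit 76) (nat_lit 34648355175) (nat_lit 4) (nat_lit 4) (nat_lit 5) (nat_lit 5) (nat_lit 5) (nat_lit 4) (nat_lit 463) (nat_lit 374) (nat_lit 363)) (XT.nd (nat_lit 78) (nat_lit 0) (nat_lit 0) (XT.lf (nat_lit 0)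 (nat_lit 20783821320) (nat_lit 76) (nat_lit 28699312413) (nat_lit 76) (nat_lit 28099227606) (nat_lit 4) (nat_lit 4) (nat_lit 5) (nat_lit 5) (nat_lit 5) (nat_lit 4) (nat_lit 464) (nat_lit 374) (nat_lit 362)) (XT.lf (nat_lit 0) (nat_lit 39804208565) (nat_lit 76) (nat_lit 21970527020) (nat_lit 76) (nat_lit 21341163066) (nat_lit 4) (nat_lit 4) (nat_lit 5) (nat_lit 5) (nat_lit 5) (nat_lit 4) (nat_lit 465) (nat_lit 374) (nat_lit 361))))) (XT.nd (nat_lit 234) (nat_lit 0) (nat_lit 0) (XT.nd (nat_lit 78) (nat_lit 152) (nat_lit 0) (XT.lf (nat_lit 0) (nat_lit 59789022963) (nat_lit 76) (nat_lit 14990588040) (nat_lit 76) (nat_lit 14334113764) (nat_lit 4) (nat_lit 4) (nat_lit 5) (nat_lit 5) (nat_lit 5) (nat_lit 4) (nat_lit 466) (nat_lit 374) (nat_lit 360)) (XT.nd (nat_lit 78) (nat_lit 152) (nat_lit 0) (XT.lf (nat_lit 0) (nat_lit 80856693043) (nat_lit 76) (nat_lit 7718132872) (nat_lit 76) (nat_lit 7036556447)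 (nat_lit 4) (nat_lit 4) (nat_lit 5) (nat_lit 5) (nat_lit 5) (nat_lit 4) (nat_lit 467) (nat_lit 374) (nat_lit 359)) (XT.lf (nat_lit 0) (nat_lit 495153950) (nat_lit 76) (nat_lit 81756197) (nat_lit 152) (nat_lit 102068368941) (nat_lit 2) (nat_lit 5) (nat_lit 3) (nat_lit 5) (nat_lit 4) (nat_lit 4) (nat_lit 468) (nat_lit 374) (nat_lit 358)))) (XT.nd (nat_lit 156) (nat_lit 0) (nat_lit 0) (XT.nd (nat_lit 78) (nat_lit 0) (nat_lit 0) (XT.lf (nat_lit 0) (nat_lit 8792212199) (nat_lit 152) (nat_lit 93285546834) (nat_lit 0) (nat_lit 8119674973) (nat_lit 2) (nat_lit 5) (nat_lit 4) (nat_lit 4) (nat_lit 2) (nat_lit 4) (nat_lit 469) (nat_lit 374) (nat_lit 357)) (XT.lf (nat_lit 0) (nat_lit 17447080433) (nat_lit 152) (nat_lit 84168002133) (nat_lit 0) (nat_lit 16756092378) (nat_lit 2) (nat_lit 5) (nat_lit 4) (nat_lit 4) (nat_lit 2) (nat_lit 4) (nat_lit 470) (nat_lit 374) (nat_lit 356))) (XT.nd (nat_lit 78)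 (nat_lit 0) (nat_lit 0) (XT.lf (nat_lit 0) (nat_lit 26590836720) (nat_lit 152) (nat_lit 74741494903) (nat_lit 0) (nat_lit 25882764564) (nat_lit 2) (nat_lit 5) (nat_lit 4) (nat_lit 4) (nat_lit 2) (nat_lit 4) (nat_lit 471) (nat_lit 374) (nat_lit 355)) (XT.lf (nat_lit 0) (nat_lit 36277666281) (nat_lit 152) (nat_lit 64950164360) (nat_lit 0) (nat_lit 35553775512) (nat_lit 2) (nat_lit 5) (nat_lit 4) (nat_lit 4) (nat_lit 2) (nat_lit 4) (nat_lit 472) (nat_lit 374) (nat_lit 354))))))))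
noncomputable def xc36 : XT := (XT.nd (nat_lit 1950) (nat_lit 0) (nat_lit 0) (XT.nd (nat_lit 936) (nat_lit 0) (nat_lit 0) (XT.nd (nat_lit 468) (nat_lit 0) (nat_lit 0) (XT.nd (nat_lit 234) (nat_lit 76) (nat_lit 0) (XT.nd (nat_lit 78) (nat_lit 0) (nat_lit 0) (XT.lf (nat_lit 0) (nat_lit 46564972551) (nat_lit 152) (nat_lit 54735987805) (nat_lit 0) (nat_lit 45826434919) (nat_lit 2) (nat_lit 5) (nat_lit 4) (nat_lit 4) (nat_lit 2) (nat_lit 4) (nat_lit 473) (nat_lit 374) (nat_lit 353)) (XT.nd (nat_lit 78) (nat_lit 0) (nat_lit 0) (XT.lf (nat_lit 0) (nat_lit 57513717345) (nat_lit 152) (nat_lit 44038436784) (nat_lit 0) (nat_lit 56761617802) (nat_lit 2) (nat_lit 5) (nat_lit 4) (nat_lit 4) (nat_lit 2) (nat_lit 4) (nat_lit 474) (nat_lit 374) (nat_lit 352)) (XT.lf (nat_lit 0) (nat_lit 69188782113) (nat_lit 152) (nat_lit 32794118401) (nat_lit 0) (nat_lit 68424125246) (nat_lit 2) (nat_lit 5) (nat_lit 4)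 (nat_lit 4) (nat_lit 2) (nat_lit 4) (nat_lit 475) (nat_lit 374) (nat_lit 351)))) (XT.nd (nat_lit 78) (nat_lit 76) (nat_lit 0) (XT.lf (nat_lit 0) (nat_lit 81659352425) (nat_lit 152) (nat_lit 20936399660) (nat_lit 0) (nat_lit 80883068406) (nat_lit 2) (nat_lit 5) (nat_lit 4) (nat_lit 4) (nat_lit 2) (nat_lit 4) (nat_lit 476) (nat_lit 374) (nat_lit 350)) (XT.nd (nat_lit 78) (nat_lit 76) (nat_lit 0) (XT.lf (nat_lit 0) (nat_lit 94999327956) (nat_lit 152) (nat_lit 8395012597) (nat_lit 0) (nat_lit 94212278055) (nat_lit 2) (nat_lit 5) (nat_lit 4) (nat_lit 4) (nat_lit 2) (nat_lit 4) (nat_lit 477) (nat_lit 374) (nat_lit 349)) (XT.lf (nat_lit 0) (nat_lit 5162617136) (nat_lit 76) (nat_lit 104249304343) (nat_lit 76) (nat_lit 103452286034) (nat_lit 1) (nat_lit 4) (nat_lit 2) (nat_lit 5) (nat_lit 2) (nat_lit 4) (nat_lit 478) (nat_lit 374) (nat_lit 348))))) (XT.nd (nat_lit 234) (nat_lit 0) (nat_lit 0) (XT.nd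 (nat_lit 78) (nat_lit 0) (nat_lit 0) (XT.lf (nat_lit 0) (nat_lit 20043176458) (nat_lit 76) (nat_lit 105048184407) (nat_lit 76) (nat_lit 104241936089) (nat_lit 1) (nat_lit 4) (nat_lit 2) (nat_lit 5) (nat_lit 2) (nat_lit 4) (nat_lit 479) (nat_lit 374) (nat_lit 347)) (XT.nd (nat_lit 78) (nat_lit 0) (nat_lit 0) (XT.lf (nat_lit 0) (nat_lit 35892779974) (nat_lit 76) (nat_lit 106025249371) (nat_lit 76) (nat_lit 105210454749) (nat_lit 1) (nat_lit 4) (nat_lit 2) (nat_lit 5) (nat_lit 2) (nat_lit 4) (nat_lit 480) (nat_lit 374) (nat_lit 346)) (XT.lf (nat_lit 0) (nat_lit 52805351260) (nat_lit 76) (nat_lit 107186289249) (nat_lit 76) (nat_lit 106363581382) (nat_lit 1) (nat_lit 4) (nat_lit 2) (nat_lit 5) (nat_lit 2) (nat_lit 4) (nat_lit 481) (nat_lit 374) (nat_lit 345)))) (XT.nd (nat_lit 78) (nat_lit 0) (nat_lit 0) (XT.lf (nat_lit 0) (nat_lit 70881112961) (nat_lit 76) (nat_lit 108538184277) (nat_lit 76)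 (nat_lit 107708149332) (nat_lit 1) (nat_lit 4) (nat_lit 2) (nat_lit 5) (nat_lit 2) (nat_lit 4) (nat_lit 482) (nat_lit 374) (nat_lit 344)) (XT.nd (nat_lit 78) (nat_lit 0) (nat_lit 0) (XT.lf (nat_lit 0) (nat_lit 90227180703) (nat_lit 76) (nat_lit 110088945686) (nat_lit 76) (nat_lit 109252126409) (nat_lit 1) (nat_lit 4) (nat_lit 2) (nat_lit 5) (nat_lit 2) (nat_lit 4) (nat_lit 483) (nat_lit 374) (nat_lit 343)) (XT.lf (nat_lit 0) (nat_lit 110958197849) (nat_lit 76) (nat_lit 111847763172) (nat_lit 76) (nat_lit 111004662107) (nat_lit 1) (nat_lit 4) (nat_lit 2) (nat_lit 5) (nat_lit 2) (nat_lit 4) (nat_lit 484) (nat_lit 374) (nat_lit 342)))))) (XT.nd (nat_lit 468) (nat_lit 0) (nat_lit 0) (XT.nd (nat_lit 234) (nat_lit 0) (nat_lit 0) (XT.nd (nat_lit 78) (nat_lit 0) (nat_lit 0) (XT.lf (nat_lit 0) (nat_lit 133197014871) (nat_lit 76) (nat_lit 113825059358) (nat_lit 76) (nat_lit 112976141822) (nat_lit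 1) (nat_lit 4) (nat_lit 2) (nat_lit 5) (nat_lit 2) (nat_lit 4) (nat_lit 485) (nat_lit 374) (nat_lit 341)) (XT.nd (nat_lit 78) (nat_lit 0) (nat_lit 0) (XT.lf (nat_lit 0) (nat_lit 157075417353) (nat_lit 76) (nat_lit 116032551554) (nat_lit 76) (nat_lit 115178248397) (nat_lit 1) (nat_lit 4) (nat_lit 2) (nat_lit 5) (nat_lit 2) (nat_lit 4) (nat_lit 486) (nat_lit 374) (nat_lit 340)) (XT.lf (nat_lit 0) (nat_lit 182734906937) (nat_lit 76) (nat_lit 118483321196) (nat_lit 76) (nat_lit 117624031353) (nat_lit 1) (nat_lit 4) (nat_lit 2) (nat_lit 5) (nat_lit 2) (nat_lit 4) (nat_lit 487) (nat_lit 374) (nat_lit 339)))) (XT.nd (nat_lit 78) (nat_lit 0) (nat_lit 0) (XT.lf (nat_lit 0) (nat_lit 210327539859) (nat_lit 76) (nat_lit 121191891363) (nat_lit 76) (nat_lit 120327984218) (nat_lit 1) (nat_lit 4) (nat_lit 2) (nat_lit 5) (nat_lit 2) (nat_lit 4) (nat_lit 488) (nat_lit 374) (nat_lit 338)) (XT.nd (nat_lit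 78) (nat_lit 0) (nat_lit 0) (XT.lf (nat_lit 0) (nat_lit 240016828018) (nat_lit 76) (nat_lit 124174312842) (nat_lit 76) (nat_lit 123306130417) (nat_lit 1) (nat_lit 4) (nat_lit 2) (nat_lit 5) (nat_lit 2) (nat_lit 4) (nat_lit 489) (nat_lit 374) (nat_lit 337)) (XT.lf (nat_lit 0) (nat_lit 271978707936) (nat_lit 76) (nat_lit 127448259240) (nat_lit 76) (nat_lit 126576118223) (nat_lit 1) (nat_lit 4) (nat_lit 2) (nat_lit 5) (nat_lit 2) (nat_lit 4) (nat_lit 490) (nat_lit 374) (nat_lit 336))))) (XT.nd (nat_lit 234) (nat_lit 0) (nat_lit 0) (XT.nd (nat_lit 78) (nat_lit 0) (nat_lit 0) (XT.lf (nat_lit 0) (nat_lit 306402583345) (nat_lit 76) (nat_lit 131033131722) (nat_lit 76) (nat_lit 130157325342) (nat_lit 1) (nat_lit 4) (nat_lit 2) (nat_lit 5) (nat_lit 2) (nat_lit 4) (nat_lit 491) (nat_lit 374) (nat_lit 335)) (XT.nd (nat_lit 78) (nat_lit 0) (nat_lit 0) (XT.lf (nat_lit 0) (nat_lit 343492447582) (nat_lit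 76) (nat_lit 134950173977) (nat_lit 76) (nat_lit 134070973742) (nat_lit 1) (nat_lit 4) (nat_lit 2) (nat_lit 5) (nat_lit 2) (nat_lit 4) (nat_lit 492) (nat_lit 374) (nat_lit 334)) (XT.lf (nat_lit 0) (nat_lit 383468092434) (nat_lit 76) (nat_lit 139222598107) (nat_lit 76) (nat_lit 138340255413) (nat_lit 1) (nat_lit 4) (nat_lit 2) (nat_lit 5) (nat_lit 2) (nat_lit 4) (nat_lit 493) (nat_lit 374) (nat_lit 333)))) (XT.nd (nat_lit 156) (nat_lit 0) (nat_lit 0) (XT.nd (nat_lit 78) (nat_lit 0) (nat_lit 0) (XT.lf (nat_lit 0) (nat_lit 426566410613) (nat_lit 76) (nat_lit 143875722180) (nat_lit 76) (nat_lit 142990469803) (nat_lit 1) (nat_lit 4) (nat_lit 2) (nat_lit 5) (nat_lit 2) (nat_lit 4) (nat_lit 494) (nat_lit 374) (nat_lit 332)) (XT.lf (nat_lit 0) (nat_lit 473042799558) (nat_lit 76) (nat_lit 148937120266) (nat_lit 76) (nat_lit 148049173737) (nat_lit 1) (nat_lit 4) (nat_lit 2) (nat_lit 5) (nat_lit 2)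 (nat_lit 4) (nat_lit 495) (nat_lit 374) (nat_lit 331))) (XT.nd (nat_lit 78) (nat_lit 0) (nat_lit 0) (XT.lf (nat_lit 0) (nat_lit 523172674908) (nat_lit 76) (nat_lit 154436785834) (nat_lit 76) (nat_lit 153546344721) (nat_lit 1) (nat_lit 4) (nat_lit 2) (nat_lit 5) (nat_lit 2) (nat_lit 4) (nat_lit 496) (nat_lit 374) (nat_lit 330)) (XT.lf (nat_lit 0) (nat_lit 577253102592) (nat_lit 76) (nat_lit 160407309495) (nat_lit 76) (nat_lit 159514558581) (nat_lit 1) (nat_lit 4) (nat_lit 2) (nat_lit 5) (nat_lit 2) (nat_lit 4) (nat_lit 497) (nat_lit 374) (nat_lit 329))))))) (XT.nd (nat_lit 936) (nat_lit 0) (nat_lit 0) (XT.nd (nat_lit 468) (nat_lit 0) (nat_lit 0) (XT.nd (nat_lit 234) (nat_lit 0) (nat_lit 0) (XT.nd (nat_lit 78) (nat_lit 0) (nat_lit 0) (XT.lf (nat_lit 0) (nat_lit 635604559217) (nat_lit 76) (nat_lit 166884072131) (nat_lit 76) (nat_lit 165989182513) (nat_lit 1) (nat_lit 4) (nat_lit 2) (nat_lit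 5) (nat_lit 2) (nat_lit 4) (nat_lit 498) (nat_lit 374) (nat_lit 328)) (XT.nd (nat_lit 78) (nat_lit 0) (nat_lit 0) (XT.lf (nat_lit 0) (nat_lit 698572831193) (nat_lit 76) (nat_lit 173905454557) (nat_lit 76) (nat_lit 173008584657) (nat_lit 1) (nat_lit 4) (nat_lit 2) (nat_lit 5) (nat_lit 2) (nat_lit 4) (nat_lit 499) (nat_lit 374) (nat_lit 327)) (XT.lf (nat_lit 0) (nat_lit 766531063836) (nat_lit 76) (nat_lit 181513064964) (nat_lit 76) (nat_lit 180614361470) (nat_lit 1) (nat_lit 4) (nat_lit 2) (nat_lit 5) (nat_lit 2) (nat_lit 4) (nat_lit 500) (nat_lit 374) (nat_lit 326)))) (XT.nd (nat_lit 78) (nat_lit 0) (nat_lit 0) (XT.lf (nat_lit 0) (nat_lit 839881972598) (nat_lit 76) (nat_lit 189751985489) (nat_lit 76) (nat_lit 188851584223) (nat_lit 1) (nat_lit 4) (nat_lit 2) (nat_lit 5) (nat_lit 2) (nat_lit 4) (nat_lit 501) (nat_lit 374) (nat_lit 325)) (XT.nd (nat_lit 78) (nat_lit 0) (nat_lit 0) (XT.lf (nat_lit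 0) (nat_lit 919060229531) (nat_lit 76) (nat_lit 198671039365) (nat_lit 76) (nat_lit 197769066087) (nat_lit 1) (nat_lit 4) (nat_lit 2) (nat_lit 5) (nat_lit 2) (nat_lit 4) (nat_lit 502) (nat_lit 374) (nat_lit 324)) (XT.lf (nat_lit 0) (nat_lit 1004535039122) (nat_lit 76) (nat_lit 208323080244) (nat_lit 76) (nat_lit 207419651400) (nat_lit 1) (nat_lit 4) (nat_lit 2) (nat_lit 5) (nat_lit 2) (nat_lit 4) (nat_lit 503) (nat_lit 374) (nat_lit 323))))) (XT.nd (nat_lit 234) (nat_lit 0) (nat_lit 0) (XT.nd (nat_lit 78) (nat_lit 0) (nat_lit 0) (XT.lf (nat_lit 0) (nat_lit 1096812918759) (nat_lit 76) (nat_lit 218765305405) (nat_lit 76) (nat_lit 217860528814) (nat_lit 1) (nat_lit 4) (nat_lit 2) (nat_lit 5) (nat_lit 2) (nat_lit 4) (nat_lit 504) (nat_lit 374) (nat_lit 322)) (XT.nd (nat_lit 78) (nat_lit 0) (nat_lit 0) (XT.lf (nat_lit 0) (nat_lit 1196440700322) (nat_lit 76) (nat_lit 230059594701) (nat_lit 76)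 (nat_lit 229153570197) (nat_lit 1) (nat_lit 4) (nat_lit 2) (nat_lit 5) (nat_lit 2) (nat_lit 4) (nat_lit 505) (nat_lit 374) (nat_lit 321)) (XT.lf (nat_lit 0) (nat_lit 1304008770666) (nat_lit 76) (nat_lit 242272877255) (nat_lit 76) (nat_lit 241365697275) (nat_lit 1) (nat_lit 4) (nat_lit 2) (nat_lit 5) (nat_lit 2) (nat_lit 4) (nat_lit 506) (nat_lit 374) (nat_lit 320)))) (XT.nd (nat_lit 78) (nat_lit 0) (nat_lit 0) (XT.lf (nat_lit 0) (nat_lit 1420154570206) (nat_lit 76) (nat_lit 255477528073) (nat_lit 76) (nat_lit 254569278208) (nat_lit 1) (nat_lit 4) (nat_lit 2) (nat_lit 5) (nat_lit 2) (nat_lit 4) (nat_lit 507) (nat_lit 374) (nat_lit 319)) (XT.nd (nat_lit 78) (nat_lit 0) (nat_lit 0) (XT.lf (nat_lit 0) (nat_lit 1545566370348) (nat_lit 76) (nat_lit 269751796938) (nat_lit 76) (nat_lit 268842556440) (nat_lit 1) (nat_lit 4) (nat_lit 2) (nat_lit 5) (nat_lit 2) (nat_lit 4) (nat_lit 508) (nat_lit 374)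 (nat_lit 318)) (XT.lf (nat_lit 0) (nat_lit 1680987352129) (nat_lit 76) (nat_lit 285180272110) (nat_lit 76) (nat_lit 284270114358) (nat_lit 1) (nat_lit 4) (nat_lit 2) (nat_lit 5) (nat_lit 2) (nat_lit 4) (nat_lit 509) (nat_lit 374) (nat_lit 317)))))) (XT.nd (nat_lit 468) (nat_lit 0) (nat_lit 0) (XT.nd (nat_lit 234) (nat_lit 0) (nat_lit 0) (XT.nd (nat_lit 78) (nat_lit 0) (nat_lit 0) (XT.lf (nat_lit 0) (nat_lit 1827220010257) (nat_lit 76) (nat_lit 301854381591) (nat_lit 76) (nat_lit 300943374530) (nat_lit 1) (nat_lit 4) (nat_lit 2) (nat_lit 5) (nat_lit 2) (nat_lit 4) (nat_lit 510) (nat_lit 374) (nat_lit 316)) (XT.nd (nat_lit 78) (nat_lit 0) (nat_lit 0) (XT.lf (nat_lit 0) (nat_lit 1985130908630) (nat_lit 76) (nat_lit 319872934917) (nat_lit 76) (nat_lit 318961141460) (nat_lit 1) (nat_lit 4) (nat_lit 2) (nat_lit 5) (nat_lit 2) (nat_lit 4) (nat_lit 511) (nat_lit 374) (nat_lit 315)) (XT.lf (nat_lit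 0) (nat_lit 2155655815537) (nat_lit 76) (nat_lit 339342708702) (nat_lit 76) (nat_lit 338430187099) (nat_lit 1) (nat_lit 4) (nat_lit 2) (nat_lit 5) (nat_lit 2) (nat_lit 4) (nat_lit 512) (nat_lit 374) (nat_lit 314)))) (XT.nd (nat_lit 78) (nat_lit 0) (nat_lit 0) (XT.lf (nat_lit 0) (nat_lit 2339805248943) (nat_lit 76) (nat_lit 360379079382) (nat_lit 76) (nat_lit 359465883570) (nat_lit 1) (nat_lit 4) (nat_lit 2) (nat_lit 5) (nat_lit 2) (nat_lit 4) (nat_lit 513) (nat_lit 374) (nat_lit 313)) (XT.nd (nat_lit 78) (nat_lit 0) (nat_lit 0) (XT.lf (nat_lit 0) (nat_lit 2538670464751) (nat_lit 76) (nat_lit 383106706932) (nat_lit 76) (nat_lit 382192886853) (nat_lit 1) (nat_lit 4) (nat_lit 2) (nat_lit 5) (nat_lit 2) (nat_lit 4) (nat_lit 514) (nat_lit 374) (nat_lit 312)) (XT.lf (nat_lit 0) (nat_lit 2753429923499) (nat_lit 76) (nat_lit 407660273589) (nat_lit 76) (nat_lit 406745875485) (nat_lit 1) (nat_lit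 4) (nat_lit 2) (nat_lit 5) (nat_lit 2) (nat_lit 4) (nat_lit 515) (nat_lit 374) (nat_lit 311))))) (XT.nd (nat_lit 234) (nat_lit 0) (nat_lit 0) (XT.nd (nat_lit 78) (nat_lit 0) (nat_lit 0) (XT.lf (nat_lit 0) (nat_lit 2985356273830) (nat_lit 76) (nat_lit 434185281971) (nat_lit 76) (nat_lit 433270348657) (nat_lit 1) (nat_lit 4) (nat_lit 2) (nat_lit 5) (nat_lit 2) (nat_lit 4) (nat_lit 516) (nat_lit 374) (nat_lit 310)) (XT.nd (nat_lit 78) (nat_lit 0) (nat_lit 0) (XT.lf (nat_lit 0) (nat_lit 3235823894118) (nat_lit 76) (nat_lit 462838917312) (nat_lit 76) (nat_lit 461923488435) (nat_lit 1) (nat_lit 4) (nat_lit 2) (nat_lit 5) (nat_lit 2) (nat_lit 4) (nat_lit 517) (nat_lit 374) (nat_lit 309)) (XT.lf (nat_lit 0) (nat_lit 3506317036927) (nat_lit 76) (nat_lit 493790978932) (nat_lit 76) (nat_lit 492875091200) (nat_lit 1) (nat_lit 4) (nat_lit 2) (nat_lit 5) (nat_lit 2) (nat_lit 4) (nat_lit 518) (nat_lit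 374) (nat_lit 308)))) (XT.nd (nat_lit 156) (nat_lit 0) (nat_lit 0) (XT.nd (nat_lit 78) (nat_lit 0) (nat_lit 0) (XT.lf (nat_lit 0) (nat_lit 3798438624585) (nat_lit 76) (nat_lit 527224886457) (nat_lit 76) (nat_lit 526308573859) (nat_lit 1) (nat_lit 4) (nat_lit 2) (nat_lit 5) (nat_lit 2) (nat_lit 4) (nat_lit 519) (nat_lit 374) (nat_lit 307)) (XT.lf (nat_lit 0) (nat_lit 4113919747981) (nat_lit 76) (nat_lit 563338766746) (nat_lit 76) (nat_lit 562422060753) (nat_lit 1) (nat_lit 4) (nat_lit 2) (nat_lit 5) (nat_lit 2) (nat_lit 4) (nat_lit 520) (nat_lit 374) (nat_lit 306))) (XT.nd (nat_lit 78) (nat_lit 0) (nat_lit 0) (XT.lf (nat_lit 0) (nat_lit 4454629924884) (nat_lit 76) (nat_lit 602346627977) (nat_lit 76) (nat_lit 601429557731) (nat_lit 1) (nat_lit 4) (nat_lit 2) (nat_lit 5) (nat_lit 2) (nat_lit 4) (nat_lit 521) (nat_lit 374) (nat_lit 305)) (XT.lf (nat_lit 0) (nat_lit 4822588178565) (nat_lit 76)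 (nat_lit 644479627848) (nat_lit 76) (nat_lit 643562220329) (nat_lit 1) (nat_lit 4) (nat_lit 2) (nat_lit 5) (nat_lit 2) (nat_lit 4) (nat_lit 522) (nat_lit 374) (nat_lit 304))))))))
noncomputable def xc37 : XT := (XT.nd (nat_lit 57642) (nat_lit 0) (nat_lit 0) (XT.nd (nat_lit 936) (nat_lit 0) (nat_lit 0) (XT.nd (nat_lit 468) (nat_lit 0) (nat_lit 0) (XT.nd (nat_lit 234) (nat_lit 0) (nat_lit 0) (XT.nd (nat_lit 78) (nat_lit 0) (nat_lit 0) (XT.lf (nat_lit 0) (nat_lit 5219975002378) (nat_lit 76) (nat_lit 689987443395) (nat_lit 76) (nat_lit 689069723587) (nat_lit 1) (nat_lit 4) (nat_lit 2) (nat_lit 5) (nat_lit 2) (nat_lit 4) (nat_lit 523) (nat_lit 374) (nat_lit 303)) (XT.nd (nat_lit 78) (nat_lit 0) (nat_lit 0) (XT.lf (nat_lit 0) (nat_lit 5649145281205) (nat_lit 76) (nat_lit 739139750561) (nat_lit 76) (nat_lit 738221741596) (nat_lit 1) (nat_lit 4) (nat_lit 2) (nat_lit 5) (nat_lit 2) (nat_lit 4) (nat_lit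 524) (nat_lit 374) (nat_lit 302)) (XT.lf (nat_lit 0) (nat_lit 6112642246329) (nat_lit 76) (nat_lit 792227822277) (nat_lit 76) (nat_lit 791309545576) (nat_lit 1) (nat_lit 4) (nat_lit 2) (nat_lit 5) (nat_lit 2) (nat_lit 4) (nat_lit 525) (nat_lit 374) (nat_lit 301)))) (XT.nd (nat_lit 78) (nat_lit 0) (nat_lit 0) (XT.lf (nat_lit 0) (nat_lit 6613212546431) (nat_lit 76) (nat_lit 849566254526) (nat_lit 76) (nat_lit 848647729919) (nat_lit 1) (nat_lit 4) (nat_lit 2) (nat_lit 5) (nat_lit 2) (nat_lit 4) (nat_lit 526) (nat_lit 374) (nat_lit 300)) (XT.nd (nat_lit 78) (nat_lit 0) (nat_lit 0) (XT.lf (nat_lit 0) (nat_lit 7153822524031) (nat_lit 76) (nat_lit 911494830608) (nat_lit 76) (nat_lit 910576076459) (nat_lit 1) (nat_lit 4) (nat_lit 2) (nat_lit 5) (nat_lit 2) (nat_lit 4) (nat_lit 527) (nat_lit 374) (nat_lit 299)) (XT.lf (nat_lit 0) (nat_lit 7737675793811) (nat_lit 76) (nat_lit 978380534678) (nat_lit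 76) (nat_lit 977461567990) (nat_lit 1) (nat_lit 4) (nat_lit 2) (nat_lit 5) (nat_lit 2) (nat_lit 4) (nat_lit 528) (nat_lit 374) (nat_lit 298))))) (XT.nd (nat_lit 234) (nat_lit 0) (nat_lit 0) (XT.nd (nat_lit 78) (nat_lit 0) (nat_lit 0) (XT.lf (nat_lit 0) (nat_lit 8368232226998) (nat_lit 76) (nat_lit 1050619726464) (nat_lit 76) (nat_lit 1049700562982) (nat_lit 1) (nat_lit 4) (nat_lit 2) (nat_lit 5) (nat_lit 2) (nat_lit 4) (nat_lit 529) (nat_lit 374) (nat_lit 297)) (XT.nd (nat_lit 78) (nat_lit 0) (nat_lit 0) (XT.lf (nat_lit 0) (nat_lit 9049228454309) (nat_lit 76) (nat_lit 1128640490066) (nat_lit 76) (nat_lit 1127721144366) (nat_lit 1) (nat_lit 4) (nat_lit 2) (nat_lit 5) (nat_lit 2) (nat_lit 4) (nat_lit 530) (nat_lit 374) (nat_lit 296)) (XT.lf (nat_lit 0) (nat_lit 9784700008943) (nat_lit 76) (nat_lit 1212905170749) (nat_lit 76) (nat_lit 1211985656329) (nat_lit 1) (nat_lit 4) (nat_lit 2) (nat_lit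 5) (nat_lit 2) (nat_lit 4) (nat_lit 531) (nat_lit 374) (nat_lit 295)))) (XT.nd (nat_lit 78) (nat_lit 0) (nat_lit 0) (XT.lf (nat_lit 0) (nat_lit 10579005240851) (nat_lit 76) (nat_lit 1303913114770) (nat_lit 76) (nat_lit 1302993444127) (nat_lit 1) (nat_lit 4) (nat_lit 2) (nat_lit 5) (nat_lit 2) (nat_lit 4) (nat_lit 532) (nat_lit 374) (nat_lit 294)) (XT.nd (nat_lit 78) (nat_lit 0) (nat_lit 0) (XT.lf (nat_lit 0) (nat_lit 11436851144002) (nat_lit 76) (nat_lit 1402203628462) (nat_lit 76) (nat_lit 1401283813169) (nat_lit 1) (nat_lit 4) (nat_lit 2) (nat_lit 5) (nat_lit 2) (nat_lit 4) (nat_lit 533) (nat_lit 374) (nat_lit 293)) (XT.lf (nat_lit 0) (nat_lit 12363321249674) (nat_lit 76) (nat_lit 1508359174130) (nat_lit 76) (nat_lit 1507439224901) (nat_lit 1) (nat_lit 4) (nat_lit 2) (nat_lit 5) (nat_lit 2) (nat_lit 4) (nat_lit 534) (nat_lit 374) (nat_lit 292)))))) (XT.nd (nat_lit 56160) (nat_lit 0) (nat_lit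 304) (XT.nd (nat_lit 55926) (nat_lit 0) (nat_lit 684) (XT.nd (nat_lit 78) (nat_lit 0) (nat_lit 0) (XT.lf (nat_lit 0) (nat_lit 13363905751084) (nat_lit 76) (nat_lit 1623008821674) (nat_lit 76) (nat_lit 1622088748431) (nat_lit 1) (nat_lit 4) (nat_lit 2) (nat_lit 5) (nat_lit 2) (nat_lit 4) (nat_lit 535) (nat_lit 374) (nat_lit 291)) (XT.nd (nat_lit 55770) (nat_lit 0) (nat_lit 912) (XT.lf (nat_lit 0) (nat_lit 14444534037872) (nat_lit 76) (nat_lit 1746831976412) (nat_lit 76) (nat_lit 1745911788341) (nat_lit 1) (nat_lit 4) (nat_lit 2) (nat_lit 5) (nat_lit 2) (nat_lit 4) (nat_lit 536) (nat_lit 374) (nat_lit 290)) (XT.lf (nat_lit 0) (nat_lit 11807173176) (nat_lit 76) (nat_lit 2293968847) (nat_lit 76) (nat_lit 2293968847) (nat_lit 13) (nat_lit 4) (nat_lit 14) (nat_lit 5) (nat_lit 14) (nat_lit 4) (nat_lit 450) (nat_lit 375) (nat_lit 375)))) (XT.nd (nat_lit 78) (nat_lit 76) (nat_lit 0) (XT.lf (nat_lit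 0) (nat_lit 5373608962) (nat_lit 152) (nat_lit 23954057051) (nat_lit 0) (nat_lit 5280730555) (nat_lit 11) (nat_lit 5) (nat_lit 13) (nat_lit 4) (nat_lit 11) (nat_lit 4) (nat_lit 451) (nat_lit 375) (nat_lit 374)) (XT.nd (nat_lit 78) (nat_lit 76) (nat_lit 0) (XT.lf (nat_lit 0) (nat_lit 15746016951) (nat_lit 152) (nat_lit 5260395208) (nat_lit 0) (nat_lit 15567140019) (nat_lit 11) (nat_lit 5) (nat_lit 13) (nat_lit 4) (nat_lit 11) (nat_lit 4) (nat_lit 452) (nat_lit 375) (nat_lit 373)) (XT.lf (nat_lit 0) (nat_lit 14685224474) (nat_lit 76) (nat_lit 12139540709) (nat_lit 76) (nat_lit 11881035514) (nat_lit 10) (nat_lit 4) (nat_lit 11) (nat_lit 5) (nat_lit 11) (nat_lit 4) (nat_lit 453) (nat_lit 375) (nat_lit 372))))) (XT.nd (nat_lit 234) (nat_lit 228) (nat_lit 0) (XT.nd (nat_lit 78) (nat_lit 152) (nat_lit 0) (XT.lf (nat_lit 0) (nat_lit 35572270836) (nat_lit 76) (nat_lit 2897115708) (nat_lit 76) (nat_lit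 2564880639) (nat_lit 10) (nat_lit 4) (nat_lit 11) (nat_lit 5) (nat_lit 11) (nat_lit 4) (nat_lit 454) (nat_lit 375) (nat_lit 371)) (XT.nd (nat_lit 78) (nat_lit 0) (nat_lit 0) (XT.lf (nat_lit 0) (nat_lit 7194930249) (nat_lit 152) (nat_lit 29509697235) (nat_lit 0) (nat_lit 6824093702) (nat_lit 8) (nat_lit 5) (nat_lit 10) (nat_lit 4) (nat_lit 8) (nat_lit 4) (nat_lit 455) (nat_lit 375) (nat_lit 370)) (XT.lf (nat_lit 0) (nat_lit 17384916600) (nat_lit 152) (nat_lit 11893900658) (nat_lit 0) (nat_lit 16955550903) (nat_lit 8) (nat_lit 5) (nat_lit 10) (nat_lit 4) (nat_lit 8) (nat_lit 4) (nat_lit 456) (nat_lit 375) (nat_lit 369)))) (XT.nd (nat_lit 156) (nat_lit 152) (nat_lit 0) (XT.nd (nat_lit 78) (nat_lit 0) (nat_lit 0) (XT.lf (nat_lit 0) (nat_lit 6623101958) (nat_lit 76) (nat_lit 21518407301) (nat_lit 76) (nat_lit 21034847945) (nat_lit 7) (nat_lit 4) (nat_lit 8) (nat_lit 5) (nat_lit 8) (nat_lit 4)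 (nat_lit 457) (nat_lit 375) (nat_lit 368)) (XT.lf (nat_lit 0) (nat_lit 26479759310) (nat_lit 76) (nat_lit 13206729337) (nat_lit 76) (nat_lit 12672990668) (nat_lit 7) (nat_lit 4) (nat_lit 8) (nat_lit 5) (nat_lit 8) (nat_lit 4) (nat_lit 458) (nat_lit 375) (nat_lit 367))) (XT.nd (nat_lit 78) (nat_lit 152) (nat_lit 0) (XT.lf (nat_lit 0) (nat_lit 47167428747) (nat_lit 76) (nat_lit 4619729300) (nat_lit 76) (nat_lit 4039528304) (nat_lit 7) (nat_lit 4) (nat_lit 8) (nat_lit 5) (nat_lit 8) (nat_lit 4) (nat_lit 459) (nat_lit 375) (nat_lit 366)) (XT.lf (nat_lit 0) (nat_lit 5013230836) (nat_lit 152) (nat_lit 50112261715) (nat_lit 0) (nat_lit 4436173735) (nat_lit 5) (nat_lit 5) (nat_lit 7) (nat_lit 4) (nat_lit 5) (nat_lit 4) (nat_lit 460) (nat_lit 375) (nat_lit 365))))))) (XT.nd (nat_lit 936) (nat_lit 76) (nat_lit 0) (XT.nd (nat_lit 468) (nat_lit 152) (nat_lit 0) (XT.nd (nat_lit 234) (nat_lit 76) (nat_lit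 0) (XT.nd (nat_lit 78) (nat_lit 0) (nat_lit 0) (XT.lf (nat_lit 0) (nat_lit 14585698586) (nat_lit 152) (nat_lit 35028497805) (nat_lit 0) (nat_lit 13971758192) (nat_lit 5) (nat_lit 5) (nat_lit 7) (nat_lit 4) (nat_lit 5) (nat_lit 4) (nat_lit 461) (nat_lit 375) (nat_lit 364)) (XT.nd (nat_lit 78) (nat_lit 0) (nat_lit 0) (XT.lf (nat_lit 0) (nat_lit 24600653861) (nat_lit 152) (nat_lit 19404836431) (nat_lit 0) (nat_lit 23952562270) (nat_lit 5) (nat_lit 5) (nat_lit 7) (nat_lit 4) (nat_lit 5) (nat_lit 4) (nat_lit 462) (nat_lit 375) (nat_lit 363)) (XT.lf (nat_lit 0) (nat_lit 35117444546) (nat_lit 152) (nat_lit 3148692934) (nat_lit 0) (nat_lit 34437731475) (nat_lit 5) (nat_lit 5) (nat_lit 7) (nat_lit 4) (nat_lit 5) (nat_lit 4) (nat_lit 463) (nat_lit 375) (nat_lit 362)))) (XT.nd (nat_lit 78) (nat_lit 0) (nat_lit 0) (XT.lf (nat_lit 0) (nat_lit 14564858603) (nat_lit 76) (nat_lit 31983818959) (nat_lit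 76) (nat_lit 31274826741) (nat_lit 4) (nat_lit 4) (nat_lit 5) (nat_lit 5) (nat_lit 5) (nat_lit 4) (nat_lit 464) (nat_lit 375) (nat_lit 361)) (XT.nd (nat_lit 78) (nat_lit 0) (nat_lit 0) (XT.lf (nat_lit 0) (nat_lit 33317359393) (nat_lit 76) (nat_lit 25393086087) (nat_lit 76) (nat_lit 24656983548) (nat_lit 4) (nat_lit 4) (nat_lit 5) (nat_lit 5) (nat_lit 5) (nat_lit 4) (nat_lit 465) (nat_lit 375) (nat_lit 360)) (XT.lf (nat_lit 0) (nat_lit 53054130777) (nat_lit 76) (nat_lit 18540973516) (nat_lit 76) (nat_lit 17779768827) (nat_lit 4) (nat_lit 4) (nat_lit 5) (nat_lit 5) (nat_lit 5) (nat_lit 4) (nat_lit 466) (nat_lit 375) (nat_lit 359))))) (XT.nd (nat_lit 234) (nat_lit 0) (nat_lit 0) (XT.nd (nat_lit 78) (nat_lit 152) (nat_lit 0) (XT.lf (nat_lit 0) (nat_lit 73892131399) (nat_lit 76) (nat_lit 11386876134) (nat_lit 76) (nat_lit 10602428714) (nat_lit 4) (nat_lit 4) (nat_lit 5) (nat_lit 5) (nat_lit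 5) (nat_lit 4) (nat_lit 467) (nat_lit 375) (nat_lit 358)) (XT.nd (nat_lit 78) (nat_lit 152) (nat_lit 0) (XT.lf (nat_lit 0) (nat_lit 95954845707) (nat_lit 76) (nat_lit 3888399290) (nat_lit 76) (nat_lit 3082430822) (nat_lit 4) (nat_lit 4) (nat_lit 5) (nat_lit 5) (nat_lit 5) (nat_lit 4) (nat_lit 468) (nat_lit 375) (nat_lit 357)) (XT.lf (nat_lit 0) (nat_lit 4908792330) (nat_lit 152) (nat_lit 101461157050) (nat_lit 0) (nat_lit 4144074401) (nat_lit 2) (nat_lit 5) (nat_lit 4) (nat_lit 4) (nat_lit 2) (nat_lit 4) (nat_lit 469) (nat_lit 375) (nat_lit 356)))) (XT.nd (nat_lit 78) (nat_lit 0) (nat_lit 0) (XT.lf (nat_lit 0) (nat_lit 13465823350) (nat_lit 152) (nat_lit 92545747468) (nat_lit 0) (nat_lit 12684021320) (nat_lit 2) (nat_lit 5) (nat_lit 4) (nat_lit 4) (nat_lit 2) (nat_lit 4) (nat_lit 470) (nat_lit 375) (nat_lit 355)) (XT.nd (nat_lit 78) (nat_lit 0) (nat_lit 0) (XT.lf (nat_lit 0) (nat_lit 22518989623)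 (nat_lit 152) (nat_lit 83306402385) (nat_lit 0) (nat_lit 21721368980) (nat_lit 2) (nat_lit 5) (nat_lit 4) (nat_lit 4) (nat_lit 2) (nat_lit 4) (nat_lit 471) (nat_lit 375) (nat_lit 354)) (XT.lf (nat_lit 0) (nat_lit 32121939541) (nat_lit 152) (nat_lit 73688370126) (nat_lit 0) (nat_lit 31309672036) (nat_lit 2) (nat_lit 5) (nat_lit 4) (nat_lit 4) (nat_lit 2) (nat_lit 4) (nat_lit 472) (nat_lit 375) (nat_lit 353)))))) (XT.nd (nat_lit 468) (nat_lit 76) (nat_lit 0) (XT.nd (nat_lit 234) (nat_lit 0) (nat_lit 0) (XT.nd (nat_lit 78) (nat_lit 0) (nat_lit 0) (XT.lf (nat_lit 0) (nat_lit 42331579476) (nat_lit 152) (nat_lit 63634654945) (nat_lit 0) (nat_lit 41505750060) (nat_lit 2) (nat_lit 5) (nat_lit 4) (nat_lit 4) (nat_lit 2) (nat_lit 4) (nat_lit 473) (nat_lit 375) (nat_lit 352)) (XT.nd (nat_lit 78) (nat_lit 0) (nat_lit 0) (XT.lf (nat_lit 0) (nat_lit 53208410996) (nat_lit 152) (nat_lit 53085679270) (nat_lit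 0) (nat_lit 52370024256) (nat_lit 2) (nat_lit 5) (nat_lit 4) (nat_lit 4) (nat_lit 2) (nat_lit 4) (nat_lit 474) (nat_lit 375) (nat_lit 351)) (XT.lf (nat_lit 0) (nat_lit 64816889400) (nat_lit 152) (nat_lit 41978930653) (nat_lit 0) (nat_lit 63966875507) (nat_lit 2) (nat_lit 5) (nat_lit 4) (nat_lit 4) (nat_lit 2) (nat_lit 4) (nat_lit 475) (nat_lit 375) (nat_lit 350)))) (XT.nd (nat_lit 78) (nat_lit 0) (nat_lit 0) (XT.lf (nat_lit 0) (nat_lit 77225805671) (nat_lit 152) (nat_lit 30248591324) (nat_lit 0) (nat_lit 76365025896) (nat_lit 2) (nat_lit 5) (nat_lit 4) (nat_lit 4) (nat_lit 2) (nat_lit 4) (nat_lit 476) (nat_lit 375) (nat_lit 349)) (XT.nd (nat_lit 78) (nat_lit 0) (nat_lit 0) (XT.lf (nat_lit 0) (nat_lit 90508694127) (nat_lit 152) (nat_lit 17825148161) (nat_lit 0) (nat_lit 89637945943) (nat_lit 2) (nat_lit 5) (nat_lit 4) (nat_lit 4) (nat_lit 2) (nat_lit 4) (nat_lit 477) (nat_lit 375) (nat_lit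 348)) (XT.lf (nat_lit 0) (nat_lit 104744268181) (nat_lit 152) (nat_lit 4634980760) (nat_lit 0) (nat_lit 103864289990) (nat_lit 2) (nat_lit 5) (nat_lit 4) (nat_lit 4) (nat_lit 2) (nat_lit 4) (nat_lit 478) (nat_lit 375) (nat_lit 347))))) (XT.nd (nat_lit 234) (nat_lit 0) (nat_lit 0) (XT.nd (nat_lit 78) (nat_lit 0) (nat_lit 0) (XT.lf (nat_lit 0) (nat_lit 9895066115) (nat_lit 76) (nat_lit 110359797255) (nat_lit 76) (nat_lit 109471272759) (nat_lit 1) (nat_lit 4) (nat_lit 2) (nat_lit 5) (nat_lit 2) (nat_lit 4) (nat_lit 479) (nat_lit 375) (nat_lit 346)) (XT.nd (nat_lit 78) (nat_lit 0) (nat_lit 0) (XT.lf (nat_lit 0) (nat_lit 25646111693) (nat_lit 76) (nat_lit 111387732274) (nat_lit 76) (nat_lit 110491294534) (nat_lit 1) (nat_lit 4) (nat_lit 2) (nat_lit 5) (nat_lit 2) (nat_lit 4) (nat_lit 480) (nat_lit 375) (nat_lit 345)) (XT.lf (nat_lit 0) (nat_lit 42467425629) (nat_lit 76) (nat_lit 112595874056)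 (nat_lit 76) (nat_lit 111692109238) (nat_lit 1) (nat_lit 4) (nat_lit 2) (nat_lit 5) (nat_lit 2) (nat_lit 4) (nat_lit 481) (nat_lit 375) (nat_lit 344)))) (XT.nd (nat_lit 156) (nat_lit 0) (nat_lit 0) (XT.nd (nat_lit 78) (nat_lit 0) (nat_lit 0) (XT.lf (nat_lit 0) (nat_lit 60458689784) (nat_lit 76) (nat_lit 113991381959) (nat_lit 76) (nat_lit 113080832809) (nat_lit 1) (nat_lit 4) (nat_lit 2) (nat_lit 5) (nat_lit 2) (nat_lit 4) (nat_lit 482) (nat_lit 375) (nat_lit 343)) (XT.lf (nat_lit 0) (nat_lit 79726519057) (nat_lit 76) (nat_lit 115582525658) (nat_lit 76) (nat_lit 114665694720) (nat_lit 1) (nat_lit 4) (nat_lit 2) (nat_lit 5) (nat_lit 2) (nat_lit 4) (nat_lit 483) (nat_lit 375) (nat_lit 342))) (XT.nd (nat_lit 78) (nat_lit 0) (nat_lit 0) (XT.lf (nat_lit 0) (nat_lit 100385093177) (nat_lit 76) (nat_lit 117378734155) (nat_lit 76) (nat_lit 116456086745) (nat_lit 1) (nat_lit 4) (nat_lit 2) (nat_lit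 5) (nat_lit 2) (nat_lit 4) (nat_lit 484) (nat_lit 375) (nat_lit 341)) (XT.lf (nat_lit 0) (nat_lit 122556833323) (nat_lit 76) (nat_lit 119390651646) (nat_lit 76) (nat_lit 118462618616) (nat_lit 1) (nat_lit 4) (nat_lit 2) (nat_lit 5) (nat_lit 2) (nat_lit 4) (nat_lit 485) (nat_lit 375) (nat_lit 340))))))))
noncomputable def xc38 : XT := (XT.nd (nat_lit 1950) (nat_lit 0) (nat_lit 0) (XT.nd (nat_lit 936) (nat_lit 0) (nat_lit 0) (XT.nd (nat_lit 468) (nat_lit 0) (nat_lit 0) (XT.nd (nat_lit 234) (nat_lit 0) (nat_lit 0) (XT.nd (nat_lit 78) (nat_lit 0) (nat_lit 0) (XT.lf (nat_lit 0) (nat_lit 146373127585) (nat_lit 76) (nat_lit 121630200607) (nat_lit 76) (nat_lit 120697180890) (nat_lit 1) (nat_lit 4) (nat_lit 2) (nat_lit 5) (nat_lit 2) (nat_lit 4) (nat_lit 486) (nat_lit 375) (nat_lit 339)) (XT.nd (nat_lit 78) (nat_lit 0) (nat_lit 0) (XT.lf (nat_lit 0) (nat_lit 171975109560) (nat_lit 76) (nat_lit 124110652438)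 (nat_lit 76) (nat_lit 123173015419) (nat_lit 1) (nat_lit 4) (nat_lit 2) (nat_lit 5) (nat_lit 2) (nat_lit 4) (nat_lit 487) (nat_lit 375) (nat_lit 338)) (XT.lf (nat_lit 0) (nat_lit 199514494695) (nat_lit 76) (nat_lit 126846706114) (nat_lit 76) (nat_lit 125904793815) (nat_lit 1) (nat_lit 4) (nat_lit 2) (nat_lit 5) (nat_lit 2) (nat_lit 4) (nat_lit 488) (nat_lit 375) (nat_lit 337)))) (XT.nd (nat_lit 78) (nat_lit 0) (nat_lit 0) (XT.lf (nat_lit 0) (nat_lit 229154479347) (nat_lit 76) (nat_lit 129854575285) (nat_lit 76) (nat_lit 128908704394) (nat_lit 1) (nat_lit 4) (nat_lit 2) (nat_lit 5) (nat_lit 2) (nat_lit 4) (nat_lit 489) (nat_lit 375) (nat_lit 336)) (XT.nd (nat_lit 78) (nat_lit 0) (nat_lit 0) (XT.lf (nat_lit 0) (nat_lit 261070707869) (nat_lit 76) (nat_lit 133152084363) (nat_lit 76) (nat_lit 132202548108) (nat_lit 1) (nat_lit 4) (nat_lit 2) (nat_lit 5) (nat_lit 2) (nat_lit 4) (nat_lit 490)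 (nat_lit 375) (nat_lit 335)) (XT.lf (nat_lit 0) (nat_lit 295452313468) (nat_lit 76) (nat_lit 136758774140) (nat_lit 76) (nat_lit 135805844031) (nat_lit 1) (nat_lit 4) (nat_lit 2) (nat_lit 5) (nat_lit 2) (nat_lit 4) (nat_lit 491) (nat_lit 375) (nat_lit 334))))) (XT.nd (nat_lit 234) (nat_lit 0) (nat_lit 0) (XT.nd (nat_lit 78) (nat_lit 0) (nat_lit 0) (XT.lf (nat_lit 0) (nat_lit 332503038992) (nat_lit 76) (nat_lit 140696017594) (nat_lit 76) (nat_lit 139739945026) (nat_lit 1) (nat_lit 4) (nat_lit 2) (nat_lit 5) (nat_lit 2) (nat_lit 4) (nat_lit 492) (nat_lit 375) (nat_lit 333)) (XT.nd (nat_lit 78) (nat_lit 0) (nat_lit 0) (XT.lf (nat_lit 0) (nat_lit 372442444295) (nat_lit 76) (nat_lit 144987146538) (nat_lit 76) (nat_lit 144028164287) (nat_lit 1) (nat_lit 4) (nat_lit 2) (nat_lit 5) (nat_lit 2) (nat_lit 4) (nat_lit 493) (nat_lit 375) (nat_lit 332)) (XT.lf (nat_lit 0) (nat_lit 415507207335) (nat_lit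 76) (nat_lit 149657589883) (nat_lit 76) (nat_lit 148695913481) (nat_lit 1) (nat_lit 4) (nat_lit 2) (nat_lit 5) (nat_lit 2) (nat_lit 4) (nat_lit 494) (nat_lit 375) (nat_lit 331)))) (XT.nd (nat_lit 78) (nat_lit 0) (nat_lit 0) (XT.lf (nat_lit 0) (nat_lit 461952526708) (nat_lit 76) (nat_lit 154735024332) (nat_lit 76) (nat_lit 153770853345) (nat_lit 1) (nat_lit 4) (nat_lit 2) (nat_lit 5) (nat_lit 2) (nat_lit 4) (nat_lit 495) (nat_lit 375) (nat_lit 330)) (XT.nd (nat_lit 78) (nat_lit 0) (nat_lit 0) (XT.lf (nat_lit 0) (nat_lit 512053633936) (nat_lit 76) (nat_lit 160249538385) (nat_lit 76) (nat_lit 159283057597) (nat_lit 1) (nat_lit 4) (nat_lit 2) (nat_lit 5) (nat_lit 2) (nat_lit 4) (nat_lit 496) (nat_lit 375) (nat_lit 329)) (XT.lf (nat_lit 0) (nat_lit 566107424469) (nat_lit 76) (nat_lit 166233810643) (nat_lit 76) (nat_lit 165265191151) (nat_lit 1) (nat_lit 4) (nat_lit 2) (nat_lit 5) (nat_lit 2)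 (nat_lit 4) (nat_lit 497) (nat_lit 375) (nat_lit 328)))))) (XT.nd (nat_lit 468) (nat_lit 0) (nat_lit 0) (XT.nd (nat_lit 234) (nat_lit 0) (nat_lit 0) (XT.nd (nat_lit 78) (nat_lit 0) (nat_lit 0) (XT.lf (nat_lit 0) (nat_lit 624434217066) (nat_lit 76) (nat_lit 172723303461) (nat_lit 76) (nat_lit 171752703687) (nat_lit 1) (nat_lit 4) (nat_lit 2) (nat_lit 5) (nat_lit 2) (nat_lit 4) (nat_lit 498) (nat_lit 375) (nat_lit 327)) (XT.nd (nat_lit 78) (nat_lit 0) (nat_lit 0) (XT.lf (nat_lit 0) (nat_lit 687379651979) (nat_lit 76) (nat_lit 179756473092) (nat_lit 76) (nat_lit 178784039725) (nat_lit 1) (nat_lit 4) (nat_lit 2) (nat_lit 5) (nat_lit 2) (nat_lit 4) (nat_lit 499) (nat_lit 375) (nat_lit 326)) (XT.lf (nat_lit 0) (nat_lit 755316739193) (nat_lit 76) (nat_lit 187374997579) (nat_lit 76) (nat_lit 186400866439) (nat_lit 1) (nat_lit 4) (nat_lit 2) (nat_lit 5) (nat_lit 2) (nat_lit 4) (nat_lit 500) (nat_lit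 375) (nat_lit 325)))) (XT.nd (nat_lit 78) (nat_lit 0) (nat_lit 0) (XT.lf (nat_lit 0) (nat_lit 828648068854) (nat_lit 76) (nat_lit 195624023734) (nat_lit 76) (nat_lit 194648320582) (nat_lit 1) (nat_lit 4) (nat_lit 2) (nat_lit 5) (nat_lit 2) (nat_lit 4) (nat_lit 501) (nat_lit 375) (nat_lit 324)) (XT.nd (nat_lit 78) (nat_lit 0) (nat_lit 0) (XT.lf (nat_lit 0) (nat_lit 907808196990) (nat_lit 76) (nat_lit 204552434673) (nat_lit 76) (nat_lit 203575275955) (nat_lit 1) (nat_lit 4) (nat_lit 2) (nat_lit 5) (nat_lit 2) (nat_lit 4) (nat_lit 502) (nat_lit 375) (nat_lit 323)) (XT.lf (nat_lit 0) (nat_lit 993266220658) (nat_lit 76) (nat_lit 214213139500) (nat_lit 76) (nat_lit 213234633036) (nat_lit 1) (nat_lit 4) (nat_lit 2) (nat_lit 5) (nat_lit 2) (nat_lit 4) (nat_lit 503) (nat_lit 375) (nat_lit 322))))) (XT.nd (nat_lit 234) (nat_lit 0) (nat_lit 0) (XT.nd (nat_lit 78) (nat_lit 0) (nat_lit 0) (XT.lf (nat_lit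 0) (nat_lit 1085528557773) (nat_lit 76) (nat_lit 224663386836) (nat_lit 76) (nat_lit 223683632458) (nat_lit 1) (nat_lit 4) (nat_lit 2) (nat_lit 5) (nat_lit 2) (nat_lit 4) (nat_lit 504) (nat_lit 375) (nat_lit 321)) (XT.nd (nat_lit 78) (nat_lit 0) (nat_lit 0) (XT.lf (nat_lit 0) (nat_lit 1185141948113) (nat_lit 76) (nat_lit 235965104071) (nat_lit 76) (nat_lit 234984194218) (nat_lit 1) (nat_lit 4) (nat_lit 2) (nat_lit 5) (nat_lit 2) (nat_lit 4) (nat_lit 505) (nat_lit 375) (nat_lit 320)) (XT.lf (nat_lit 0) (nat_lit 1292696693250) (nat_lit 76) (nat_lit 248185264346) (nat_lit 76) (nat_lit 247203284608) (nat_lit 1) (nat_lit 4) (nat_lit 2) (nat_lit 5) (nat_lit 2) (nat_lit 4) (nat_lit 506) (nat_lit 375) (nat_lit 319)))) (XT.nd (nat_lit 156) (nat_lit 0) (nat_lit 0) (XT.nd (nat_lit 78) (nat_lit 0) (nat_lit 0) (XT.lf (nat_lit 0) (nat_lit 1408830154635) (nat_lit 76) (nat_lit 261396283424) (nat_lit 76)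 (nat_lit 260413313052) (nat_lit 1) (nat_lit 4) (nat_lit 2) (nat_lit 5) (nat_lit 2) (nat_lit 4) (nat_lit 507) (nat_lit 375) (nat_lit 318)) (XT.lf (nat_lit 0) (nat_lit 1534230530560) (nat_lit 76) (nat_lit 275676448827) (nat_lit 76) (nat_lit 274692561201) (nat_lit 1) (nat_lit 4) (nat_lit 2) (nat_lit 5) (nat_lit 2) (nat_lit 4) (nat_lit 508) (nat_lit 375) (nat_lit 317))) (XT.nd (nat_lit 78) (nat_lit 0) (nat_lit 0) (XT.lf (nat_lit 0) (nat_lit 1669640934362) (nat_lit 76) (nat_lit 291110383756) (nat_lit 76) (nat_lit 290125646822) (nat_lit 1) (nat_lit 4) (nat_lit 2) (nat_lit 5) (nat_lit 2) (nat_lit 4) (nat_lit 509) (nat_lit 375) (nat_lit 316)) (XT.lf (nat_lit 0) (nat_lit 1815863798065) (nat_lit 76) (nat_lit 307789548567) (nat_lit 76) (nat_lit 306804025236) (nat_lit 1) (nat_lit 4) (nat_lit 2) (nat_lit 5) (nat_lit 2) (nat_lit 4) (nat_lit 510) (nat_lit 375) (nat_lit 315))))))) (XT.nd (nat_lit 936)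 (nat_lit 0) (nat_lit 0) (XT.nd (nat_lit 468) (nat_lit 0) (nat_lit 0) (XT.nd (nat_lit 234) (nat_lit 0) (nat_lit 0) (XT.nd (nat_lit 78) (nat_lit 0) (nat_lit 0) (XT.lf (nat_lit 0) (nat_lit 1973765627526) (nat_lit 76) (nat_lit 325812782755) (nat_lit 76) (nat_lit 324826531278) (nat_lit 1) (nat_lit 4) (nat_lit 2) (nat_lit 5) (nat_lit 2) (nat_lit 4) (nat_lit 511) (nat_lit 375) (nat_lit 314)) (XT.nd (nat_lit 78) (nat_lit 0) (nat_lit 0) (XT.lf (nat_lit 0) (nat_lit 2144282137292) (nat_lit 76) (nat_lit 345286890671) (nat_lit 76) (nat_lit 344299964985) (nat_lit 1) (nat_lit 4) (nat_lit 2) (nat_lit 5) (nat_lit 2) (nat_lit 4) (nat_lit 512) (nat_lit 375) (nat_lit 313)) (XT.lf (nat_lit 0) (nat_lit 2328423795568) (nat_lit 76) (nat_lit 366327274436) (nat_lit 76) (nat_lit 365339724482) (nat_lit 1) (nat_lit 4) (nat_lit 2) (nat_lit 5) (nat_lit 2) (nat_lit 4) (nat_lit 513) (nat_lit 375) (nat_lit 312)))) (XT.nd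 (nat_lit 78) (nat_lit 0) (nat_lit 0) (XT.lf (nat_lit 0) (nat_lit 2527281812182) (nat_lit 76) (nat_lit 389058617804) (nat_lit 76) (nat_lit 388070489826) (nat_lit 1) (nat_lit 4) (nat_lit 2) (nat_lit 5) (nat_lit 2) (nat_lit 4) (nat_lit 514) (nat_lit 375) (nat_lit 311)) (XT.nd (nat_lit 78) (nat_lit 0) (nat_lit 0) (XT.lf (nat_lit 0) (nat_lit 2742034605008) (nat_lit 76) (nat_lit 413615625035) (nat_lit 76) (nat_lit 412626961847) (nat_lit 1) (nat_lit 4) (nat_lit 2) (nat_lit 5) (nat_lit 2) (nat_lit 4) (nat_lit 515) (nat_lit 375) (nat_lit 310)) (XT.lf (nat_lit 0) (nat_lit 2973954783190) (nat_lit 76) (nat_lit 440143819132) (nat_lit 76) (nat_lit 439154660381) (nat_lit 1) (nat_lit 4) (nat_lit 2) (nat_lit 5) (nat_lit 2) (nat_lit 4) (nat_lit 516) (nat_lit 375) (nat_lit 309))))) (XT.nd (nat_lit 234) (nat_lit 0) (nat_lit 0) (XT.nd (nat_lit 78) (nat_lit 0) (nat_lit 0) (XT.lf (nat_lit 0) (nat_lit 3224416688525)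 (nat_lit 76) (nat_lit 468800404209) (nat_lit 76) (nat_lit 467810786604) (nat_lit 1) (nat_lit 4) (nat_lit 2) (nat_lit 5) (nat_lit 2) (nat_lit 4) (nat_lit 517) (nat_lit 375) (nat_lit 308)) (XT.nd (nat_lit 78) (nat_lit 0) (nat_lit 0) (XT.lf (nat_lit 0) (nat_lit 3494904539711) (nat_lit 76) (nat_lit 499755197068) (nat_lit 76) (nat_lit 498765154596) (nat_lit 1) (nat_lit 4) (nat_lit 2) (nat_lit 5) (nat_lit 2) (nat_lit 4) (nat_lit 518) (nat_lit 375) (nat_lit 307)) (XT.lf (nat_lit 0) (nat_lit 3787021227718) (nat_lit 76) (nat_lit 533191633517) (nat_lit 76) (nat_lit 532201197651) (nat_lit 1) (nat_lit 4) (nat_lit 2) (nat_lit 5) (nat_lit 2) (nat_lit 4) (nat_lit 519) (nat_lit 375) (nat_lit 306)))) (XT.nd (nat_lit 78) (nat_lit 0) (nat_lit 0) (XT.lf (nat_lit 0) (nat_lit 4102497814400) (nat_lit 76) (nat_lit 569307855401) (nat_lit 76) (nat_lit 568317055281) (nat_lit 1) (nat_lit 4) (nat_lit 2) (nat_lit 5)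 (nat_lit 2) (nat_lit 4) (nat_lit 520) (nat_lit 375) (nat_lit 305)) (XT.nd (nat_lit 78) (nat_lit 0) (nat_lit 0) (XT.lf (nat_lit 0) (nat_lit 4443203790642) (nat_lit 76) (nat_lit 608317884777) (nat_lit 76) (nat_lit 607326747385) (nat_lit 1) (nat_lit 4) (nat_lit 2) (nat_lit 5) (nat_lit 2) (nat_lit 4) (nat_lit 521) (nat_lit 375) (nat_lit 304)) (XT.lf (nat_lit 0) (nat_lit 4811158154822) (nat_lit 76) (nat_lit 650452892190) (nat_lit 76) (nat_lit 649461442508) (nat_lit 1) (nat_lit 4) (nat_lit 2) (nat_lit 5) (nat_lit 2) (nat_lit 4) (nat_lit 522) (nat_lit 375) (nat_lit 303)))))) (XT.nd (nat_lit 468) (nat_lit 0) (nat_lit 0) (XT.nd (nat_lit 234) (nat_lit 0) (nat_lit 0) (XT.nd (nat_lit 78) (nat_lit 0) (nat_lit 0) (XT.lf (nat_lit 0) (nat_lit 5208541377245) (nat_lit 76) (nat_lit 695962566571) (nat_lit 76) (nat_lit 694970827733) (nat_lit 1) (nat_lit 4) (nat_lit 2) (nat_lit 5) (nat_lit 2) (nat_lit 4) (nat_lit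 523) (nat_lit 375) (nat_lit 302)) (XT.nd (nat_lit 78) (nat_lit 0) (nat_lit 0) (XT.lf (nat_lit 0) (nat_lit 5637708321452) (nat_lit 76) (nat_lit 745116594880) (nat_lit 76) (nat_lit 744124588304) (nat_lit 1) (nat_lit 4) (nat_lit 2) (nat_lit 5) (nat_lit 2) (nat_lit 4) (nat_lit 524) (nat_lit 375) (nat_lit 301)) (XT.lf (nat_lit 0) (nat_lit 6101202198965) (nat_lit 76) (nat_lit 798206260248) (nat_lit 76) (nat_lit 797214005767) (nat_lit 1) (nat_lit 4) (nat_lit 2) (nat_lit 5) (nat_lit 2) (nat_lit 4) (nat_lit 525) (nat_lit 375) (nat_lit 300)))) (XT.nd (nat_lit 78) (nat_lit 0) (nat_lit 0) (XT.lf (nat_lit 0) (nat_lit 6601769640168) (nat_lit 76) (nat_lit 855546168099) (nat_lit 76) (nat_lit 854553684076) (nat_lit 1) (nat_lit 4) (nat_lit 2) (nat_lit 5) (nat_lit 2) (nat_lit 4) (nat_lit 526) (nat_lit 375) (nat_lit 299)) (XT.nd (nat_lit 78) (nat_lit 0) (nat_lit 0) (XT.lf (nat_lit 0) (nat_lit 7142376970639)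 (nat_lit 76) (nat_lit 917476110480) (nat_lit 76) (nat_lit 916483413918) (nat_lit 1) (nat_lit 4) (nat_lit 2) (nat_lit 5) (nat_lit 2) (nat_lit 4) (nat_lit 527) (nat_lit 375) (nat_lit 298)) (XT.lf (nat_lit 0) (nat_lit 7726227789373) (nat_lit 76) (nat_lit 984363079641) (nat_lit 76) (nat_lit 983370186285) (nat_lit 1) (nat_lit 4) (nat_lit 2) (nat_lit 5) (nat_lit 2) (nat_lit 4) (nat_lit 528) (nat_lit 375) (nat_lit 297))))) (XT.nd (nat_lit 234) (nat_lit 0) (nat_lit 0) (XT.nd (nat_lit 78) (nat_lit 0) (nat_lit 0) (XT.lf (nat_lit 0) (nat_lit 8356781953075) (nat_lit 76) (nat_lit 1056603442809) (nat_lit 76) (nat_lit 1055610367235) (nat_lit 1) (nat_lit 4) (nat_lit 2) (nat_lit 5) (nat_lit 2) (nat_lit 4) (nat_lit 529) (nat_lit 375) (nat_lit 296)) (XT.nd (nat_lit 78) (nat_lit 0) (nat_lit 0) (XT.lf (nat_lit 0) (nat_lit 9037776079009) (nat_lit 76) (nat_lit 1134625291023) (nat_lit 76) (nat_lit 1133632046728)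 (nat_lit 1) (nat_lit 4) (nat_lit 2) (nat_lit 5) (nat_lit 2) (nat_lit 4) (nat_lit 530) (nat_lit 375) (nat_lit 295)) (XT.lf (nat_lit 0) (nat_lit 9773245687924) (nat_lit 76) (nat_lit 1218890975976) (nat_lit 76) (nat_lit 1217897575460) (nat_lit 1) (nat_lit 4) (nat_lit 2) (nat_lit 5) (nat_lit 2) (nat_lit 4) (nat_lit 531) (nat_lit 375) (nat_lit 294)))) (XT.nd (nat_lit 156) (nat_lit 0) (nat_lit 0) (XT.nd (nat_lit 78) (nat_lit 0) (nat_lit 0) (XT.lf (nat_lit 0) (nat_lit 10567549118241) (nat_lit 76) (nat_lit 1309899849877) (nat_lit 76) (nat_lit 1308906304710) (nat_lit 1) (nat_lit 4) (nat_lit 2) (nat_lit 5) (nat_lit 2) (nat_lit 4) (nat_lit 532) (nat_lit 375) (nat_lit 293)) (XT.lf (nat_lit 0) (nat_lit 11425393353252) (nat_lit 76) (nat_lit 1408191224569) (nat_lit 76) (nat_lit 1407197545467) (nat_lit 1) (nat_lit 4) (nat_lit 2) (nat_lit 5) (nat_lit 2) (nat_lit 4) (nat_lit 533) (nat_lit 375) (nat_lit 292)))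 (XT.nd (nat_lit 78) (nat_lit 0) (nat_lit 0) (XT.lf (nat_lit 0) (nat_lit 12351861914349) (nat_lit 76) (nat_lit 1514347567459) (nat_lit 76) (nat_lit 1513353764343) (nat_lit 1) (nat_lit 4) (nat_lit 2) (nat_lit 5) (nat_lit 2) (nat_lit 4) (nat_lit 534) (nat_lit 375) (nat_lit 291)) (XT.lf (nat_lit 0) (nat_lit 13352444985598) (nat_lit 76) (nat_lit 1628997953172) (nat_lit 76) (nat_lit 1628004035227) (nat_lit 1) (nat_lit 4) (nat_lit 2) (nat_lit 5) (nat_lit 2) (nat_lit 4) (nat_lit 535) (nat_lit 375) (nat_lit 290))))))))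
noncomputable def xc39 : XT := (XT.nd (nat_lit 57486) (nat_lit 0) (nat_lit 0) (XT.nd (nat_lit 56472) (nat_lit 0) (nat_lit 76) (XT.nd (nat_lit 56004) (nat_lit 0) (nat_lit 456) (XT.nd (nat_lit 55770) (nat_lit 0) (nat_lit 760) (XT.nd (nat_lit 55614) (nat_lit 0) (nat_lit 912) (XT.lf (nat_lit 0) (nat_lit 14433071948162) (nat_lit 76) (nat_lit 1752821791400) (nat_lit 76) (nat_lit 1751827767133) (nat_lit 1) (nat_lit 4) (nat_lit 2) (nat_lit 5) (nat_lit 2) (nat_lit 4) (nat_lit 536) (nat_lit 375) (nat_lit 289)) (XT.nd (nat_lit 78) (nat_lit 76) (nat_lit 0) (XT.lf (nat_lit 0) (nat_lit 3366562764) (nat_lit 152) (nat_lit 8033028868) (nat_lit 0) (nat_lit 3366562764) (nat_lit 14) (nat_lit 5) (nat_lit 16) (nat_lit 4) (nat_lit 14) (nat_lit 4) (nat_lit 448) (nat_lit 376) (nat_lit 376)) (XT.lf (nat_lit 0) (nat_lit 2828522660) (nat_lit 76) (nat_lit 14192641457) (nat_lit 76) (nat_lit 14084308083) (nat_lit 13)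 (nat_lit 4) (nat_lit 14) (nat_lit 5) (nat_lit 14) (nat_lit 4) (nat_lit 449) (nat_lit 376) (nat_lit 375)))) (XT.nd (nat_lit 78) (nat_lit 152) (nat_lit 0) (XT.lf (nat_lit 0) (nat_lit 23119888876) (nat_lit 76) (nat_lit 4949151820) (nat_lit 76) (nat_lit 4740509767) (nat_lit 13) (nat_lit 4) (nat_lit 14) (nat_lit 5) (nat_lit 14) (nat_lit 4) (nat_lit 450) (nat_lit 376) (nat_lit 374)) (XT.nd (nat_lit 78) (nat_lit 0) (nat_lit 0) (XT.lf (nat_lit 0) (nat_lit 4959154651) (nat_lit 152) (nat_lit 25010458523) (nat_lit 0) (nat_lit 4679969040) (nat_lit 11) (nat_lit 5) (nat_lit 13) (nat_lit 4) (nat_lit 11) (nat_lit 4) (nat_lit 451) (nat_lit 376) (nat_lit 373)) (XT.lf (nat_lit 0) (nat_lit 15102412449) (nat_lit 152) (nat_lit 6787060868) (nat_lit 0) (nat_lit 14743598574) (nat_lit 11) (nat_lit 5) (nat_lit 13) (nat_lit 4) (nat_lit 11) (nat_lit 4) (nat_lit 452) (nat_lit 376) (nat_lit 372))))) (XT.nd (nat_lit 234)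 (nat_lit 76) (nat_lit 0) (XT.nd (nat_lit 78) (nat_lit 152) (nat_lit 0) (XT.lf (nat_lit 0) (nat_lit 12619808540) (nat_lit 76) (nat_lit 13299502734) (nat_lit 76) (nat_lit 12866958986) (nat_lit 10) (nat_lit 4) (nat_lit 11) (nat_lit 5) (nat_lit 11) (nat_lit 4) (nat_lit 453) (nat_lit 376) (nat_lit 371)) (XT.nd (nat_lit 78) (nat_lit 152) (nat_lit 0) (XT.lf (nat_lit 0) (nat_lit 33082448638) (nat_lit 76) (nat_lit 4274817661) (nat_lit 76) (nat_lit 3774005512) (nat_lit 10) (nat_lit 4) (nat_lit 11) (nat_lit 5) (nat_lit 11) (nat_lit 4) (nat_lit 454) (nat_lit 376) (nat_lit 370)) (XT.lf (nat_lit 0) (nat_lit 5734183632) (nat_lit 152) (nat_lit 32706899086) (nat_lit 0) (nat_lit 5211939527) (nat_lit 8) (nat_lit 5) (nat_lit 10) (nat_lit 4) (nat_lit 8) (nat_lit 4) (nat_lit 455) (nat_lit 376) (nat_lit 369)))) (XT.nd (nat_lit 78) (nat_lit 76) (nat_lit 0) (XT.lf (nat_lit 0) (nat_lit 15728074617) (nat_lit 152)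 (nat_lit 15494646774) (nat_lit 0) (nat_lit 15151636855) (nat_lit 8) (nat_lit 5) (nat_lit 10) (nat_lit 4) (nat_lit 8) (nat_lit 4) (nat_lit 456) (nat_lit 376) (nat_lit 368)) (XT.nd (nat_lit 78) (nat_lit 0) (nat_lit 0) (XT.lf (nat_lit 0) (nat_lit 2439418979) (nat_lit 76) (nat_lit 23763060838) (nat_lit 76) (nat_lit 23136443762) (nat_lit 7) (nat_lit 4) (nat_lit 8) (nat_lit 5) (nat_lit 8) (nat_lit 4) (nat_lit 457) (nat_lit 376) (nat_lit 367)) (XT.lf (nat_lit 0) (nat_lit 21931883781) (nat_lit 76) (nat_lit 15638696414) (nat_lit 76) (nat_lit 14965617011) (nat_lit 7) (nat_lit 4) (nat_lit 8) (nat_lit 5) (nat_lit 8) (nat_lit 4) (nat_lit 458) (nat_lit 376) (nat_lit 366)))))) (XT.nd (nat_lit 468) (nat_lit 152) (nat_lit 0) (XT.nd (nat_lit 234) (nat_lit 76) (nat_lit 0) (XT.nd (nat_lit 78) (nat_lit 152) (nat_lit 0) (XT.lf (nat_lit 0) (nat_lit 42282337895) (nat_lit 76) (nat_lit 7225134840) (nat_lit 76) (nat_lit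 6509034765) (nat_lit 7) (nat_lit 4) (nat_lit 8) (nat_lit 5) (nat_lit 8) (nat_lit 4) (nat_lit 459) (nat_lit 376) (nat_lit 365)) (XT.nd (nat_lit 78) (nat_lit 0) (nat_lit 0) (XT.lf (nat_lit 0) (nat_lit 2304910684) (nat_lit 152) (nat_lit 55875345145) (nat_lit 0) (nat_lit 1604971765) (nat_lit 5) (nat_lit 5) (nat_lit 7) (nat_lit 4) (nat_lit 5) (nat_lit 4) (nat_lit 460) (nat_lit 376) (nat_lit 364)) (XT.lf (nat_lit 0) (nat_lit 11721940984) (nat_lit 152) (nat_lit 41112159912) (nat_lit 0) (nat_lit 10987850868) (nat_lit 5) (nat_lit 5) (nat_lit 7) (nat_lit 4) (nat_lit 5) (nat_lit 4) (nat_lit 461) (nat_lit 376) (nat_lit 363)))) (XT.nd (nat_lit 78) (nat_lit 76) (nat_lit 0) (XT.lf (nat_lit 0) (nat_lit 21592972696) (nat_lit 152) (nat_lit 25785330647) (nat_lit 0) (nat_lit 20827261100) (nat_lit 5) (nat_lit 5) (nat_lit 7) (nat_lit 4) (nat_lit 5) (nat_lit 4) (nat_lit 462) (nat_lit 376) (nat_lit 362)) (XT.nd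 (nat_lit 78) (nat_lit 76) (nat_lit 0) (XT.lf (nat_lit 0) (nat_lit 31976500821) (nat_lit 152) (nat_lit 9804031695) (nat_lit 0) (nat_lit 31181510078) (nat_lit 5) (nat_lit 5) (nat_lit 7) (nat_lit 4) (nat_lit 5) (nat_lit 4) (nat_lit 463) (nat_lit 376) (nat_lit 361)) (XT.lf (nat_lit 0) (nat_lit 7291175041) (nat_lit 76) (nat_lit 35818235273) (nat_lit 76) (nat_lit 34996134208) (nat_lit 4) (nat_lit 4) (nat_lit 5) (nat_lit 5) (nat_lit 5) (nat_lit 4) (nat_lit 464) (nat_lit 376) (nat_lit 360))))) (XT.nd (nat_lit 234) (nat_lit 152) (nat_lit 0) (XT.nd (nat_lit 78) (nat_lit 0) (nat_lit 0) (XT.lf (nat_lit 0) (nat_lit 25795632817) (nat_lit 76) (nat_lit 29355328810) (nat_lit 76) (nat_lit 28508125596) (nat_lit 4) (nat_lit 4) (nat_lit 5) (nat_lit 5) (nat_lit 5) (nat_lit 4) (nat_lit 465) (nat_lit 376) (nat_lit 359)) (XT.nd (nat_lit 78) (nat_lit 0) (nat_lit 0) (XT.lf (nat_lit 0) (nat_lit 45302734742) (nat_lit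 76) (nat_lit 22621574025) (nat_lit 76) (nat_lit 21751128080) (nat_lit 4) (nat_lit 4) (nat_lit 5) (nat_lit 5) (nat_lit 5) (nat_lit 4) (nat_lit 466) (nat_lit 376) (nat_lit 358)) (XT.lf (nat_lit 0) (nat_lit 65928078459) (nat_lit 76) (nat_lit 15577067185) (nat_lit 76) (nat_lit 14685100193) (nat_lit 4) (nat_lit 4) (nat_lit 5) (nat_lit 5) (nat_lit 5) (nat_lit 4) (nat_lit 467) (nat_lit 376) (nat_lit 357)))) (XT.nd (nat_lit 156) (nat_lit 0) (nat_lit 0) (XT.nd (nat_lit 78) (nat_lit 152) (nat_lit 0) (XT.lf (nat_lit 0) (nat_lit 87793888226) (nat_lit 76) (nat_lit 8180063065) (nat_lit 76) (nat_lit 7268169177) (nat_lit 4) (nat_lit 4) (nat_lit 5) (nat_lit 5) (nat_lit 5) (nat_lit 4) (nat_lit 468) (nat_lit 376) (nat_lit 356)) (XT.lf (nat_lit 0) (nat_lit 151388651) (nat_lit 76) (nat_lit 368675468) (nat_lit 152) (nat_lit 110351448316) (nat_lit 2) (nat_lit 5) (nat_lit 3) (nat_lit 5) (nat_lit 4) (nat_lit 4)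 (nat_lit 469) (nat_lit 376) (nat_lit 355))) (XT.nd (nat_lit 78) (nat_lit 0) (nat_lit 0) (XT.lf (nat_lit 0) (nat_lit 8977638471) (nat_lit 152) (nat_lit 101983009695) (nat_lit 0) (nat_lit 8100389565) (nat_lit 2) (nat_lit 5) (nat_lit 4) (nat_lit 4) (nat_lit 2) (nat_lit 4) (nat_lit 470) (nat_lit 376) (nat_lit 354)) (XT.lf (nat_lit 0) (nat_lit 17946925102) (nat_lit 152) (nat_lit 92916962896) (nat_lit 0) (nat_lit 17055029332) (nat_lit 2) (nat_lit 5) (nat_lit 4) (nat_lit 4) (nat_lit 2) (nat_lit 4) (nat_lit 471) (nat_lit 376) (nat_lit 353))))))) (XT.nd (nat_lit 1014) (nat_lit 0) (nat_lit 0) (XT.nd (nat_lit 468) (nat_lit 76) (nat_lit 0) (XT.nd (nat_lit 234) (nat_lit 0) (nat_lit 0) (XT.nd (nat_lit 78) (nat_lit 0) (nat_lit 0) (XT.lf (nat_lit 0) (nat_lit 27472208685) (nat_lit 152) (nat_lit 83459392012) (nat_lit 0) (nat_lit 26566751005) (nat_lit 2) (nat_lit 5) (nat_lit 4) (nat_lit 4) (nat_lit 2) (nat_lit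 4) (nat_lit 472) (nat_lit 376) (nat_lit 352)) (XT.nd (nat_lit 78) (nat_lit 0) (nat_lit 0) (XT.lf (nat_lit 0) (nat_lit 37609935346) (nat_lit 152) (nat_lit 73554252177) (nat_lit 0) (nat_lit 36691920342) (nat_lit 2) (nat_lit 5) (nat_lit 4) (nat_lit 4) (nat_lit 2) (nat_lit 4) (nat_lit 473) (nat_lit 376) (nat_lit 351)) (XT.lf (nat_lit 0) (nat_lit 48420180502) (nat_lit 152) (nat_lit 63142846267) (nat_lit 0) (nat_lit 47490538345) (nat_lit 2) (nat_lit 5) (nat_lit 4) (nat_lit 4) (nat_lit 2) (nat_lit 4) (nat_lit 474) (nat_lit 376) (nat_lit 350)))) (XT.nd (nat_lit 78) (nat_lit 0) (nat_lit 0) (XT.lf (nat_lit 0) (nat_lit 59967004864) (nat_lit 152) (nat_lit 52163477062) (nat_lit 0) (nat_lit 59026596826) (nat_lit 2) (nat_lit 5) (nat_lit 4) (nat_lit 4) (nat_lit 2) (nat_lit 4) (nat_lit 475) (nat_lit 376) (nat_lit 349)) (XT.nd (nat_lit 78) (nat_lit 0) (nat_lit 0) (XT.lf (nat_lit 0) (nat_lit 72318834060)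 (nat_lit 152) (nat_lit 40551081633) (nat_lit 0) (nat_lit 71368457613) (nat_lit 2) (nat_lit 5) (nat_lit 4) (nat_lit 4) (nat_lit 2) (nat_lit 4) (nat_lit 476) (nat_lit 376) (nat_lit 348)) (XT.lf (nat_lit 0) (nat_lit 85548864113) (nat_lit 152) (nat_lit 28236845785) (nat_lit 0) (nat_lit 84589257658) (nat_lit 2) (nat_lit 5) (nat_lit 4) (nat_lit 4) (nat_lit 2) (nat_lit 4) (nat_lit 477) (nat_lit 376) (nat_lit 347))))) (XT.nd (nat_lit 234) (nat_lit 0) (nat_lit 0) (XT.nd (nat_lit 78) (nat_lit 76) (nat_lit 0) (XT.lf (nat_lit 0) (nat_lit 99735495202) (nat_lit 152) (nat_lit 15147796269) (nat_lit 0) (nat_lit 98767342443) (nat_lit 2) (nat_lit 5) (nat_lit 4) (nat_lit 4) (nat_lit 2) (nat_lit 4) (nat_lit 478) (nat_lit 376) (nat_lit 346)) (XT.nd (nat_lit 78) (nat_lit 76) (nat_lit 0) (XT.lf (nat_lit 0) (nat_lit 114962796252) (nat_lit 152) (nat_lit 1206368346) (nat_lit 0) (nat_lit 113986730248) (nat_lit 2)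 (nat_lit 5) (nat_lit 4) (nat_lit 4) (nat_lit 2) (nat_lit 4) (nat_lit 479) (nat_lit 376) (nat_lit 345)) (XT.lf (nat_lit 0) (nat_lit 14389894662) (nat_lit 76) (nat_lit 117277185771) (nat_lit 76) (nat_lit 116293792689) (nat_lit 1) (nat_lit 4) (nat_lit 2) (nat_lit 5) (nat_lit 2) (nat_lit 4) (nat_lit 480) (nat_lit 376) (nat_lit 344)))) (XT.nd (nat_lit 156) (nat_lit 0) (nat_lit 0) (XT.nd (nat_lit 78) (nat_lit 0) (nat_lit 0) (XT.lf (nat_lit 0) (nat_lit 31126711052) (nat_lit 76) (nat_lit 118528940427) (nat_lit 76) (nat_lit 117538763013) (nat_lit 1) (nat_lit 4) (nat_lit 2) (nat_lit 5) (nat_lit 2) (nat_lit 4) (nat_lit 481) (nat_lit 376) (nat_lit 343)) (XT.lf (nat_lit 0) (nat_lit 49039736739) (nat_lit 76) (nat_lit 119964830620) (nat_lit 76) (nat_lit 118968371418) (nat_lit 1) (nat_lit 4) (nat_lit 2) (nat_lit 5) (nat_lit 2) (nat_lit 4) (nat_lit 482) (nat_lit 376) (nat_lit 342))) (XT.nd (nat_lit 78)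 (nat_lit 0) (nat_lit 0) (XT.lf (nat_lit 0) (nat_lit 68235122985) (nat_lit 76) (nat_lit 121593365330) (nat_lit 76) (nat_lit 120591089657) (nat_lit 1) (nat_lit 4) (nat_lit 2) (nat_lit 5) (nat_lit 2) (nat_lit 4) (nat_lit 483) (nat_lit 376) (nat_lit 341)) (XT.lf (nat_lit 0) (nat_lit 88826620228) (nat_lit 76) (nat_lit 123424195131) (nat_lit 76) (nat_lit 122416533837) (nat_lit 1) (nat_lit 4) (nat_lit 2) (nat_lit 5) (nat_lit 2) (nat_lit 4) (nat_lit 484) (nat_lit 376) (nat_lit 340)))))) (XT.nd (nat_lit 468) (nat_lit 0) (nat_lit 0) (XT.nd (nat_lit 234) (nat_lit 0) (nat_lit 0) (XT.nd (nat_lit 78) (nat_lit 0) (nat_lit 0) (XT.lf (nat_lit 0) (nat_lit 110936252155) (nat_lit 76) (nat_lit 125468169387) (nat_lit 76) (nat_lit 124455521407) (nat_lit 1) (nat_lit 4) (nat_lit 2) (nat_lit 5) (nat_lit 2) (nat_lit 4) (nat_lit 485) (nat_lit 376) (nat_lit 339)) (XT.nd (nat_lit 78) (nat_lit 0) (nat_lit 0) (XT.lf (nat_lit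 0) (nat_lit 134695038807) (nat_lit 76) (nat_lit 127737400537) (nat_lit 76) (nat_lit 126720135255) (nat_lit 1) (nat_lit 4) (nat_lit 2) (nat_lit 5) (nat_lit 2) (nat_lit 4) (nat_lit 486) (nat_lit 376) (nat_lit 338)) (XT.lf (nat_lit 0) (nat_lit 160243772994) (nat_lit 76) (nat_lit 130245335877) (nat_lit 76) (nat_lit 129223795315) (nat_lit 1) (nat_lit 4) (nat_lit 2) (nat_lit 5) (nat_lit 2) (nat_lit 4) (nat_lit 487) (nat_lit 376) (nat_lit 337)))) (XT.nd (nat_lit 78) (nat_lit 0) (nat_lit 0) (XT.lf (nat_lit 0) (nat_lit 187733854623) (nat_lit 76) (nat_lit 133006837246) (nat_lit 76) (nat_lit 131981338092) (nat_lit 1) (nat_lit 4) (nat_lit 2) (nat_lit 5) (nat_lit 2) (nat_lit 4) (nat_lit 488) (nat_lit 376) (nat_lit 336)) (XT.nd (nat_lit 78) (nat_lit 0) (nat_lit 0) (XT.lf (nat_lit 0) (nat_lit 217328187880) (nat_lit 76) (nat_lit 136038269096) (nat_lit 76) (nat_lit 135009104579) (nat_lit 1) (nat_lit 4)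 (nat_lit 2) (nat_lit 5) (nat_lit 2) (nat_lit 4) (nat_lit 489) (nat_lit 376) (nat_lit 335)) (XT.lf (nat_lit 0) (nat_lit 249202146592) (nat_lit 76) (nat_lit 139357595469) (nat_lit 76) (nat_lit 138325037096) (nat_lit 1) (nat_lit 4) (nat_lit 2) (nat_lit 5) (nat_lit 2) (nat_lit 4) (nat_lit 490) (nat_lit 376) (nat_lit 334))))) (XT.nd (nat_lit 234) (nat_lit 0) (nat_lit 0) (XT.nd (nat_lit 78) (nat_lit 0) (nat_lit 0) (XT.lf (nat_lit 0) (nat_lit 283544613478) (nat_lit 76) (nat_lit 142984486445) (nat_lit 76) (nat_lit 141948785614) (nat_lit 1) (nat_lit 4) (nat_lit 2) (nat_lit 5) (nat_lit 2) (nat_lit 4) (nat_lit 491) (nat_lit 376) (nat_lit 333)) (XT.nd (nat_lit 78) (nat_lit 0) (nat_lit 0) (XT.lf (nat_lit 0) (nat_lit 320559099453) (nat_lit 76) (nat_lit 146940434714) (nat_lit 76) (nat_lit 145901824199) (nat_lit 1) (nat_lit 4) (nat_lit 2) (nat_lit 5) (nat_lit 2) (nat_lit 4) (nat_lit 492) (nat_lit 376)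 (nat_lit 332)) (XT.lf (nat_lit 0) (nat_lit 360464949618) (nat_lit 76) (nat_lit 151248882930) (nat_lit 76) (nat_lit 150207578264) (nat_lit 1) (nat_lit 4) (nat_lit 2) (nat_lit 5) (nat_lit 2) (nat_lit 4) (nat_lit 493) (nat_lit 376) (nat_lit 331)))) (XT.nd (nat_lit 156) (nat_lit 0) (nat_lit 0) (XT.nd (nat_lit 78) (nat_lit 0) (nat_lit 0) (XT.lf (nat_lit 0) (nat_lit 403498643086) (nat_lit 76) (nat_lit 155935362639) (nat_lit 76) (nat_lit 154891563388) (nat_lit 1) (nat_lit 4) (nat_lit 2) (nat_lit 5) (nat_lit 2) (nat_lit 4) (nat_lit 494) (nat_lit 376) (nat_lit 330)) (XT.lf (nat_lit 0) (nat_lit 449915194336) (nat_lit 76) (nat_lit 161027645572) (nat_lit 76) (nat_lit 159981536521) (nat_lit 1) (nat_lit 4) (nat_lit 2) (nat_lit 5) (nat_lit 2) (nat_lit 4) (nat_lit 495) (nat_lit 376) (nat_lit 329))) (XT.nd (nat_lit 78) (nat_lit 0) (nat_lit 0) (XT.lf (nat_lit 0) (nat_lit 499989664413) (nat_lit 76) (nat_lit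 166555908222) (nat_lit 76) (nat_lit 165507660466) (nat_lit 1) (nat_lit 4) (nat_lit 2) (nat_lit 5) (nat_lit 2) (nat_lit 4) (nat_lit 496) (nat_lit 376) (nat_lit 328)) (XT.lf (nat_lit 0) (nat_lit 554018790918) (nat_lit 76) (nat_lit 172552910662) (nat_lit 76) (nat_lit 171502682625) (nat_lit 1) (nat_lit 4) (nat_lit 2) (nat_lit 5) (nat_lit 2) (nat_lit 4) (nat_lit 497) (nat_lit 376) (nat_lit 327))))))))
noncomputable def xc40 : XT := (XT.nd (nat_lit 1950) (nat_lit 0) (nat_lit 0) (XT.nd (nat_lit 936) (nat_lit 0) (nat_lit 0) (XT.nd (nat_lit 468) (nat_lit 0) (nat_lit 0) (XT.nd (nat_lit 234) (nat_lit 0) (nat_lit 0) (XT.nd (nat_lit 78) (nat_lit 0) (nat_lit 0) (XT.lf (nat_lit 0) (nat_lit 612322746451) (nat_lit 76) (nat_lit 179054190686) (nat_lit 76) (nat_lit 178002129054) (nat_lit 1) (nat_lit 4) (nat_lit 2) (nat_lit 5) (nat_lit 2) (nat_lit 4) (nat_lit 498) (nat_lit 376) (nat_lit 326)) (XT.nd (nat_lit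 78) (nat_lit 0) (nat_lit 0) (XT.lf (nat_lit 0) (nat_lit 675247035935) (nat_lit 76) (nat_lit 186098274396) (nat_lit 76) (nat_lit 185044514992) (nat_lit 1) (nat_lit 4) (nat_lit 2) (nat_lit 5) (nat_lit 2) (nat_lit 4) (nat_lit 499) (nat_lit 376) (nat_lit 325)) (XT.lf (nat_lit 0) (nat_lit 743164544049) (nat_lit 76) (nat_lit 193726904512) (nat_lit 76) (nat_lit 192671573097) (nat_lit 1) (nat_lit 4) (nat_lit 2) (nat_lit 5) (nat_lit 2) (nat_lit 4) (nat_lit 500) (nat_lit 376) (nat_lit 324)))) (XT.nd (nat_lit 78) (nat_lit 0) (nat_lit 0) (XT.lf (nat_lit 0) (nat_lit 816477744913) (nat_lit 76) (nat_lit 201985287731) (nat_lit 76) (nat_lit 200928500749) (nat_lit 1) (nat_lit 4) (nat_lit 2) (nat_lit 5) (nat_lit 2) (nat_lit 4) (nat_lit 501) (nat_lit 376) (nat_lit 323)) (XT.nd (nat_lit 78) (nat_lit 0) (nat_lit 0) (XT.lf (nat_lit 0) (nat_lit 895621087126) (nat_lit 76) (nat_lit 210922362618) (nat_lit 76) (nat_lit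 209864227890) (nat_lit 1) (nat_lit 4) (nat_lit 2) (nat_lit 5) (nat_lit 2) (nat_lit 4) (nat_lit 502) (nat_lit 376) (nat_lit 322)) (XT.lf (nat_lit 0) (nat_lit 981063568272) (nat_lit 76) (nat_lit 220591089620) (nat_lit 76) (nat_lit 219531706978) (nat_lit 1) (nat_lit 4) (nat_lit 2) (nat_lit 5) (nat_lit 2) (nat_lit 4) (nat_lit 503) (nat_lit 376) (nat_lit 321))))) (XT.nd (nat_lit 234) (nat_lit 0) (nat_lit 0) (XT.nd (nat_lit 78) (nat_lit 0) (nat_lit 0) (XT.lf (nat_lit 0) (nat_lit 1073311514164) (nat_lit 76) (nat_lit 231048764894) (nat_lit 76) (nat_lit 229988226777) (nat_lit 1) (nat_lit 4) (nat_lit 2) (nat_lit 5) (nat_lit 2) (nat_lit 4) (nat_lit 504) (nat_lit 376) (nat_lit 320)) (XT.nd (nat_lit 78) (nat_lit 0) (nat_lit 0) (XT.lf (nat_lit 0) (nat_lit 1172911579297) (nat_lit 76) (nat_lit 242357359851) (nat_lit 76) (nat_lit 241295751849) (nat_lit 1) (nat_lit 4) (nat_lit 2) (nat_lit 5) (nat_lit 2)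 (nat_lit 4) (nat_lit 505) (nat_lit 376) (nat_lit 319)) (XT.lf (nat_lit 0) (nat_lit 1280453986278) (nat_lit 76) (nat_lit 254583888386) (nat_lit 76) (nat_lit 253521289750) (nat_lit 1) (nat_lit 4) (nat_lit 2) (nat_lit 5) (nat_lit 2) (nat_lit 4) (nat_lit 506) (nat_lit 376) (nat_lit 318)))) (XT.nd (nat_lit 78) (nat_lit 0) (nat_lit 0) (XT.lf (nat_lit 0) (nat_lit 1396576023447) (nat_lit 76) (nat_lit 267800804002) (nat_lit 76) (nat_lit 266737288113) (nat_lit 1) (nat_lit 4) (nat_lit 2) (nat_lit 5) (nat_lit 2) (nat_lit 4) (nat_lit 507) (nat_lit 376) (nat_lit 317)) (XT.nd (nat_lit 78) (nat_lit 0) (nat_lit 0) (XT.lf (nat_lit 0) (nat_lit 1521965821392) (nat_lit 76) (nat_lit 282086429161) (nat_lit 76) (nat_lit 281022063963) (nat_lit 1) (nat_lit 4) (nat_lit 2) (nat_lit 5) (nat_lit 2) (nat_lit 4) (nat_lit 508) (nat_lit 376) (nat_lit 316)) (XT.lf (nat_lit 0) (nat_lit 1657366430770) (nat_lit 76) (nat_lit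 297525419421) (nat_lit 76) (nat_lit 296460267826) (nat_lit 1) (nat_lit 4) (nat_lit 2) (nat_lit 5) (nat_lit 2) (nat_lit 4) (nat_lit 509) (nat_lit 376) (nat_lit 315)))))) (XT.nd (nat_lit 468) (nat_lit 0) (nat_lit 0) (XT.nd (nat_lit 234) (nat_lit 0) (nat_lit 0) (XT.nd (nat_lit 78) (nat_lit 0) (nat_lit 0) (XT.lf (nat_lit 0) (nat_lit 1803580225560) (nat_lit 76) (nat_lit 314209265094) (nat_lit 76) (nat_lit 313143385353) (nat_lit 1) (nat_lit 4) (nat_lit 2) (nat_lit 5) (nat_lit 2) (nat_lit 4) (nat_lit 510) (nat_lit 376) (nat_lit 314)) (XT.nd (nat_lit 78) (nat_lit 0) (nat_lit 0) (XT.lf (nat_lit 0) (nat_lit 1961473657881) (nat_lit 76) (nat_lit 332236833413) (nat_lit 76) (nat_lit 331170279464) (nat_lit 1) (nat_lit 4) (nat_lit 2) (nat_lit 5) (nat_lit 2) (nat_lit 4) (nat_lit 511) (nat_lit 376) (nat_lit 313)) (XT.lf (nat_lit 0) (nat_lit 2131982392517) (nat_lit 76) (nat_lit 351714954413) (nat_lit 76)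 (nat_lit 350647776196) (nat_lit 1) (nat_lit 4) (nat_lit 2) (nat_lit 5) (nat_lit 2) (nat_lit 4) (nat_lit 512) (nat_lit 376) (nat_lit 312)))) (XT.nd (nat_lit 78) (nat_lit 0) (nat_lit 0) (XT.lf (nat_lit 0) (nat_lit 2316116851598) (nat_lit 76) (nat_lit 372759053996) (nat_lit 76) (nat_lit 371691297754) (nat_lit 1) (nat_lit 4) (nat_lit 2) (nat_lit 5) (nat_lit 2) (nat_lit 4) (nat_lit 513) (nat_lit 376) (nat_lit 311)) (XT.nd (nat_lit 78) (nat_lit 0) (nat_lit 0) (XT.lf (nat_lit 0) (nat_lit 2514968202290) (nat_lit 76) (nat_lit 395493837938) (nat_lit 76) (nat_lit 394425546487) (nat_lit 1) (nat_lit 4) (nat_lit 2) (nat_lit 5) (nat_lit 2) (nat_lit 4) (nat_lit 514) (nat_lit 376) (nat_lit 310)) (XT.lf (nat_lit 0) (nat_lit 2729714822968) (nat_lit 76) (nat_lit 420054030884) (nat_lit 76) (nat_lit 418985243870) (nat_lit 1) (nat_lit 4) (nat_lit 2) (nat_lit 5) (nat_lit 2) (nat_lit 4) (nat_lit 515) (nat_lit 376)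 (nat_lit 309))))) (XT.nd (nat_lit 234) (nat_lit 0) (nat_lit 0) (XT.nd (nat_lit 78) (nat_lit 0) (nat_lit 0) (XT.lf (nat_lit 0) (nat_lit 2961629286197) (nat_lit 76) (nat_lit 446585174718) (nat_lit 76) (nat_lit 445515928849) (nat_lit 1) (nat_lit 4) (nat_lit 2) (nat_lit 5) (nat_lit 2) (nat_lit 4) (nat_lit 516) (nat_lit 376) (nat_lit 308)) (XT.nd (nat_lit 78) (nat_lit 0) (nat_lit 0) (XT.lf (nat_lit 0) (nat_lit 3212085899909) (nat_lit 76) (nat_lit 475244491034) (nat_lit 76) (nat_lit 474174820298) (nat_lit 1) (nat_lit 4) (nat_lit 2) (nat_lit 5) (nat_lit 2) (nat_lit 4) (nat_lit 517) (nat_lit 376) (nat_lit 307)) (XT.lf (nat_lit 0) (nat_lit 3482568851444) (nat_lit 76) (nat_lit 506201812816) (nat_lit 76) (nat_lit 505131748686) (nat_lit 1) (nat_lit 4) (nat_lit 2) (nat_lit 5) (nat_lit 2) (nat_lit 4) (nat_lit 518) (nat_lit 376) (nat_lit 306)))) (XT.nd (nat_lit 156) (nat_lit 0) (nat_lit 0) (XT.nd (nat_lit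 78) (nat_lit 0) (nat_lit 0) (XT.lf (nat_lit 0) (nat_lit 3774681002737) (nat_lit 76) (nat_lit 539640590861) (nat_lit 76) (nat_lit 538570162477) (nat_lit 1) (nat_lit 4) (nat_lit 2) (nat_lit 5) (nat_lit 2) (nat_lit 4) (nat_lit 519) (nat_lit 376) (nat_lit 305)) (XT.lf (nat_lit 0) (nat_lit 4090153388758) (nat_lit 76) (nat_lit 575758980890) (nat_lit 76) (nat_lit 574688215234) (nat_lit 1) (nat_lit 4) (nat_lit 2) (nat_lit 5) (nat_lit 2) (nat_lit 4) (nat_lit 520) (nat_lit 376) (nat_lit 304))) (XT.nd (nat_lit 78) (nat_lit 0) (nat_lit 0) (XT.lf (nat_lit 0) (nat_lit 4430855475499) (nat_lit 76) (nat_lit 614771017808) (nat_lit 76) (nat_lit 613699939862) (nat_lit 1) (nat_lit 4) (nat_lit 2) (nat_lit 5) (nat_lit 2) (nat_lit 4) (nat_lit 521) (nat_lit 376) (nat_lit 303)) (XT.lf (nat_lit 0) (nat_lit 4798806238289) (nat_lit 76) (nat_lit 656907884054) (nat_lit 76) (nat_lit 655836516953) (nat_lit 1) (nat_lit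 4) (nat_lit 2) (nat_lit 5) (nat_lit 2) (nat_lit 4) (nat_lit 522) (nat_lit 376) (nat_lit 302))))))) (XT.nd (nat_lit 936) (nat_lit 0) (nat_lit 0) (XT.nd (nat_lit 468) (nat_lit 0) (nat_lit 0) (XT.nd (nat_lit 234) (nat_lit 0) (nat_lit 0) (XT.nd (nat_lit 78) (nat_lit 0) (nat_lit 0) (XT.lf (nat_lit 0) (nat_lit 5196186126092) (nat_lit 76) (nat_lit 702419279578) (nat_lit 76) (nat_lit 701347644739) (nat_lit 1) (nat_lit 4) (nat_lit 2) (nat_lit 5) (nat_lit 2) (nat_lit 4) (nat_lit 523) (nat_lit 376) (nat_lit 301)) (XT.nd (nat_lit 78) (nat_lit 0) (nat_lit 0) (XT.lf (nat_lit 0) (nat_lit 5625349982688) (nat_lit 76) (nat_lit 751574901538) (nat_lit 76) (nat_lit 750503018794) (nat_lit 1) (nat_lit 4) (nat_lit 2) (nat_lit 5) (nat_lit 2) (nat_lit 4) (nat_lit 524) (nat_lit 376) (nat_lit 300)) (XT.lf (nat_lit 0) (nat_lit 6088841001301) (nat_lit 76) (nat_lit 804666042509) (nat_lit 76) (nat_lit 803593930223) (nat_lit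 1) (nat_lit 4) (nat_lit 2) (nat_lit 5) (nat_lit 2) (nat_lit 4) (nat_lit 525) (nat_lit 376) (nat_lit 299)))) (XT.nd (nat_lit 78) (nat_lit 0) (nat_lit 0) (XT.lf (nat_lit 0) (nat_lit 6589405795376) (nat_lit 76) (nat_lit 862007316659) (nat_lit 76) (nat_lit 860934991834) (nat_lit 1) (nat_lit 4) (nat_lit 2) (nat_lit 5) (nat_lit 2) (nat_lit 4) (nat_lit 526) (nat_lit 376) (nat_lit 298)) (XT.nd (nat_lit 78) (nat_lit 0) (nat_lit 0) (XT.lf (nat_lit 0) (nat_lit 7130010674801) (nat_lit 76) (nat_lit 923938524132) (nat_lit 76) (nat_lit 922866002511) (nat_lit 1) (nat_lit 4) (nat_lit 2) (nat_lit 5) (nat_lit 2) (nat_lit 4) (nat_lit 527) (nat_lit 376) (nat_lit 297)) (XT.lf (nat_lit 0) (nat_lit 7713859224049) (nat_lit 76) (nat_lit 990826664674) (nat_lit 76) (nat_lit 989753960837) (nat_lit 1) (nat_lit 4) (nat_lit 2) (nat_lit 5) (nat_lit 2) (nat_lit 4) (nat_lit 528) (nat_lit 376) (nat_lit 296))))) (XT.nd (nat_lit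 234) (nat_lit 0) (nat_lit 0) (XT.nd (nat_lit 78) (nat_lit 0) (nat_lit 0) (XT.lf (nat_lit 0) (nat_lit 8344411286374) (nat_lit 76) (nat_lit 1063068112454) (nat_lit 76) (nat_lit 1061995239896) (nat_lit 1) (nat_lit 4) (nat_lit 2) (nat_lit 5) (nat_lit 2) (nat_lit 4) (nat_lit 529) (nat_lit 376) (nat_lit 295)) (XT.nd (nat_lit 78) (nat_lit 0) (nat_lit 0) (XT.lf (nat_lit 0) (nat_lit 9025403466590) (nat_lit 76) (nat_lit 1141090964938) (nat_lit 76) (nat_lit 1140017936158) (nat_lit 1) (nat_lit 4) (nat_lit 2) (nat_lit 5) (nat_lit 2) (nat_lit 4) (nat_lit 530) (nat_lit 376) (nat_lit 294)) (XT.lf (nat_lit 0) (nat_lit 9760871273913) (nat_lit 76) (nat_lit 1225357579772) (nat_lit 76) (nat_lit 1224284406341) (nat_lit 1) (nat_lit 4) (nat_lit 2) (nat_lit 5) (nat_lit 2) (nat_lit 4) (nat_lit 531) (nat_lit 376) (nat_lit 293)))) (XT.nd (nat_lit 78) (nat_lit 0) (nat_lit 0) (XT.lf (nat_lit 0) (nat_lit 10555173036090)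 (nat_lit 76) (nat_lit 1316367314672) (nat_lit 76) (nat_lit 1315294007306) (nat_lit 1) (nat_lit 4) (nat_lit 2) (nat_lit 5) (nat_lit 2) (nat_lit 4) (nat_lit 532) (nat_lit 376) (nat_lit 292)) (XT.nd (nat_lit 78) (nat_lit 0) (nat_lit 0) (XT.lf (nat_lit 0) (nat_lit 11413015726526) (nat_lit 76) (nat_lit 1414659486587) (nat_lit 76) (nat_lit 1413586055207) (nat_lit 1) (nat_lit 4) (nat_lit 2) (nat_lit 5) (nat_lit 2) (nat_lit 4) (nat_lit 533) (nat_lit 376) (nat_lit 291)) (XT.lf (nat_lit 0) (nat_lit 12339482857462) (nat_lit 76) (nat_lit 1520816567646) (nat_lit 76) (nat_lit 1519743021438) (nat_lit 1) (nat_lit 4) (nat_lit 2) (nat_lit 5) (nat_lit 2) (nat_lit 4) (nat_lit 534) (nat_lit 376) (nat_lit 290)))))) (XT.nd (nat_lit 55848) (nat_lit 0) (nat_lit 532) (XT.nd (nat_lit 55614) (nat_lit 0) (nat_lit 912) (XT.nd (nat_lit 78) (nat_lit 0) (nat_lit 0) (XT.lf (nat_lit 0) (nat_lit 13340064604488) (nat_lit 76)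 (nat_lit 1635467636848) (nat_lit 76) (nat_lit 1634393984317) (nat_lit 1) (nat_lit 4) (nat_lit 2) (nat_lit 5) (nat_lit 2) (nat_lit 4) (nat_lit 535) (nat_lit 376) (nat_lit 289)) (XT.nd (nat_lit 55458) (nat_lit 0) (nat_lit 1140) (XT.lf (nat_lit 0) (nat_lit 14420690340919) (nat_lit 76) (nat_lit 1759292107937) (nat_lit 76) (nat_lit 1758218356959) (nat_lit 1) (nat_lit 4) (nat_lit 2) (nat_lit 5) (nat_lit 2) (nat_lit 4) (nat_lit 536) (nat_lit 376) (nat_lit 288)) (XT.lf (nat_lit 0) (nat_lit 1130947638) (nat_lit 76) (nat_lit 6112739284) (nat_lit 76) (nat_lit 6112739284) (nat_lit 16) (nat_lit 4) (nat_lit 17) (nat_lit 5) (nat_lit 17) (nat_lit 4) (nat_lit 446) (nat_lit 377) (nat_lit 377)))) (XT.nd (nat_lit 78) (nat_lit 228) (nat_lit 0) (XT.lf (nat_lit 0) (nat_lit 21945555307) (nat_lit 76) (nat_lit 3132549985) (nat_lit 76) (nat_lit 3006189938) (nat_lit 16) (nat_lit 4) (nat_lit 17) (nat_lit 5) (nat_lit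 17) (nat_lit 4) (nat_lit 447) (nat_lit 377) (nat_lit 376)) (XT.nd (nat_lit 78) (nat_lit 76) (nat_lit 0) (XT.lf (nat_lit 0) (nat_lit 6602065760) (nat_lit 152) (nat_lit 16573358264) (nat_lit 0) (nat_lit 6376732343) (nat_lit 14) (nat_lit 5) (nat_lit 16) (nat_lit 4) (nat_lit 14) (nat_lit 4) (nat_lit 448) (nat_lit 377) (nat_lit 375)) (XT.lf (nat_lit 0) (nat_lit 1800051108) (nat_lit 76) (nat_lit 14835633464) (nat_lit 76) (nat_lit 14509991368) (nat_lit 13) (nat_lit 4) (nat_lit 14) (nat_lit 5) (nat_lit 14) (nat_lit 4) (nat_lit 449) (nat_lit 377) (nat_lit 374))))) (XT.nd (nat_lit 234) (nat_lit 228) (nat_lit 0) (XT.nd (nat_lit 78) (nat_lit 152) (nat_lit 0) (XT.lf (nat_lit 0) (nat_lit 21633586328) (nat_lit 76) (nat_lit 5826292671) (nat_lit 76) (nat_lit 5407772168) (nat_lit 13) (nat_lit 4) (nat_lit 14) (nat_lit 5) (nat_lit 14) (nat_lit 4) (nat_lit 450) (nat_lit 377) (nat_lit 373)) (XT.nd (nat_lit 78)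 (nat_lit 0) (nat_lit 0) (XT.lf (nat_lit 0) (nat_lit 4034911597) (nat_lit 152) (nat_lit 27129521624) (nat_lit 0) (nat_lit 3567764349) (nat_lit 11) (nat_lit 5) (nat_lit 13) (nat_lit 4) (nat_lit 11) (nat_lit 4) (nat_lit 451) (nat_lit 377) (nat_lit 372)) (XT.lf (nat_lit 0) (nat_lit 13965993291) (nat_lit 152) (nat_lit 9341553772) (nat_lit 0) (nat_lit 13425116170) (nat_lit 11) (nat_lit 5) (nat_lit 13) (nat_lit 4) (nat_lit 11) (nat_lit 4) (nat_lit 452) (nat_lit 377) (nat_lit 371)))) (XT.nd (nat_lit 156) (nat_lit 152) (nat_lit 0) (XT.nd (nat_lit 78) (nat_lit 0) (nat_lit 0) (XT.lf (nat_lit 0) (nat_lit 9506394302) (nat_lit 76) (nat_lit 15005160772) (nat_lit 76) (nat_lit 14396015249) (nat_lit 10) (nat_lit 4) (nat_lit 11) (nat_lit 5) (nat_lit 11) (nat_lit 4) (nat_lit 453) (nat_lit 377) (nat_lit 370)) (XT.lf (nat_lit 0) (nat_lit 29576065637) (nat_lit 76) (nat_lit 6182086745) (nat_lit 76) (nat_lit 5509729739)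 (nat_lit 10) (nat_lit 4) (nat_lit 11) (nat_lit 5) (nat_lit 11) (nat_lit 4) (nat_lit 454) (nat_lit 377) (nat_lit 369))) (XT.nd (nat_lit 78) (nat_lit 0) (nat_lit 0) (XT.lf (nat_lit 0) (nat_lit 3748698924) (nat_lit 152) (nat_lit 36999249156) (nat_lit 0) (nat_lit 3071952482) (nat_lit 8) (nat_lit 5) (nat_lit 10) (nat_lit 4) (nat_lit 8) (nat_lit 4) (nat_lit 455) (nat_lit 377) (nat_lit 368)) (XT.lf (nat_lit 0) (nat_lit 13561020126) (nat_lit 152) (nat_lit 20160648940) (nat_lit 0) (nat_lit 12834094371) (nat_lit 8) (nat_lit 5) (nat_lit 10) (nat_lit 4) (nat_lit 8) (nat_lit 4) (nat_lit 456) (nat_lit 377) (nat_lit 367))))))))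
noncomputable def xc41 : XT := (XT.nd (nat_lit 1950) (nat_lit 0) (nat_lit 0) (XT.nd (nat_lit 936) (nat_lit 228) (nat_lit 0) (XT.nd (nat_lit 468) (nat_lit 76) (nat_lit 0) (XT.nd (nat_lit 234) (nat_lit 152) (nat_lit 0) (XT.nd (nat_lit 78) (nat_lit 76) (nat_lit 0) (XT.lf (nat_lit 0) (nat_lit 23808637072) (nat_lit 152) (nat_lit 2694586966) (nat_lit 0) (nat_lit 23035248990) (nat_lit 8) (nat_lit 5) (nat_lit 10) (nat_lit 4) (nat_lit 8) (nat_lit 4) (nat_lit 457) (nat_lit 377) (nat_lit 366)) (XT.nd (nat_lit 78) (nat_lit 0) (nat_lit 0) (XT.lf (nat_lit 0) (nat_lit 16318770337) (nat_lit 76) (nat_lit 18625972861) (nat_lit 76) (nat_lit 17809564106) (nat_lit 7) (nat_lit 4) (nat_lit 8) (nat_lit 5) (nat_lit 8) (nat_lit 4) (nat_lit 458) (nat_lit 377) (nat_lit 365)) (XT.lf (nat_lit 0) (nat_lit 36356988039) (nat_lit 76) (nat_lit 10373002457) (nat_lit 76) (nat_lit 9516759745) (nat_lit 7) (nat_lit 4) (nat_lit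 8) (nat_lit 5) (nat_lit 8) (nat_lit 4) (nat_lit 459) (nat_lit 377) (nat_lit 364)))) (XT.nd (nat_lit 78) (nat_lit 152) (nat_lit 0) (XT.lf (nat_lit 0) (nat_lit 57396918959) (nat_lit 76) (nat_lit 1769081118) (nat_lit 76) (nat_lit 875955113) (nat_lit 7) (nat_lit 4) (nat_lit 8) (nat_lit 5) (nat_lit 8) (nat_lit 4) (nat_lit 460) (nat_lit 377) (nat_lit 363)) (XT.nd (nat_lit 78) (nat_lit 0) (nat_lit 0) (XT.lf (nat_lit 0) (nat_lit 8329721761) (nat_lit 152) (nat_lit 48299925774) (nat_lit 0) (nat_lit 7471131759) (nat_lit 5) (nat_lit 5) (nat_lit 7) (nat_lit 4) (nat_lit 5) (nat_lit 4) (nat_lit 461) (nat_lit 377) (nat_lit 362)) (XT.lf (nat_lit 0) (nat_lit 18067490914) (nat_lit 152) (nat_lit 33247941055) (nat_lit 0) (nat_lit 17179621764) (nat_lit 5) (nat_lit 5) (nat_lit 7) (nat_lit 4) (nat_lit 5) (nat_lit 4) (nat_lit 462) (nat_lit 377) (nat_lit 361))))) (XT.nd (nat_lit 234) (nat_lit 0) (nat_lit 0) (XT.nd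 (nat_lit 78) (nat_lit 76) (nat_lit 0) (XT.lf (nat_lit 0) (nat_lit 28327627781) (nat_lit 152) (nat_lit 17521127793) (nat_lit 0) (nat_lit 27412648310) (nat_lit 5) (nat_lit 5) (nat_lit 7) (nat_lit 4) (nat_lit 5) (nat_lit 4) (nat_lit 463) (nat_lit 377) (nat_lit 360)) (XT.nd (nat_lit 78) (nat_lit 76) (nat_lit 0) (XT.lf (nat_lit 0) (nat_lit 39170933173) (nat_lit 152) (nat_lit 1026290059) (nat_lit 0) (nat_lit 38230851553) (nat_lit 5) (nat_lit 5) (nat_lit 7) (nat_lit 4) (nat_lit 5) (nat_lit 4) (nat_lit 464) (nat_lit 377) (nat_lit 359)) (XT.lf (nat_lit 0) (nat_lit 17194455642) (nat_lit 76) (nat_lit 33880735145) (nat_lit 76) (nat_lit 32917410793) (nat_lit 4) (nat_lit 4) (nat_lit 5) (nat_lit 5) (nat_lit 5) (nat_lit 4) (nat_lit 465) (nat_lit 377) (nat_lit 358)))) (XT.nd (nat_lit 78) (nat_lit 0) (nat_lit 0) (XT.lf (nat_lit 0) (nat_lit 36488900662) (nat_lit 76) (nat_lit 27256570902) (nat_lit 76) (nat_lit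 26271725503) (nat_lit 4) (nat_lit 4) (nat_lit 5) (nat_lit 5) (nat_lit 5) (nat_lit 4) (nat_lit 466) (nat_lit 377) (nat_lit 357)) (XT.nd (nat_lit 78) (nat_lit 0) (nat_lit 0) (XT.lf (nat_lit 0) (nat_lit 56917339837) (nat_lit 76) (nat_lit 20313536787) (nat_lit 76) (nat_lit 19308764492) (nat_lit 4) (nat_lit 4) (nat_lit 5) (nat_lit 5) (nat_lit 5) (nat_lit 4) (nat_lit 467) (nat_lit 377) (nat_lit 356)) (XT.lf (nat_lit 0) (nat_lit 78600830583) (nat_lit 76) (nat_lit 13010488894) (nat_lit 76) (nat_lit 11987265769) (nat_lit 4) (nat_lit 4) (nat_lit 5) (nat_lit 5) (nat_lit 5) (nat_lit 4) (nat_lit 468) (nat_lit 377) (nat_lit 355)))))) (XT.nd (nat_lit 468) (nat_lit 76) (nat_lit 0) (XT.nd (nat_lit 234) (nat_lit 0) (nat_lit 0) (XT.nd (nat_lit 78) (nat_lit 152) (nat_lit 0) (XT.lf (nat_lit 0) (nat_lit 101667867661) (nat_lit 76) (nat_lit 5304149901) (nat_lit 76) (nat_lit 4263842676) (nat_lit 4) (nat_lit 4)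 (nat_lit 5) (nat_lit 5) (nat_lit 5) (nat_lit 4) (nat_lit 469) (nat_lit 377) (nat_lit 354)) (XT.nd (nat_lit 78) (nat_lit 0) (nat_lit 0) (XT.lf (nat_lit 0) (nat_lit 3955929146) (nat_lit 152) (nat_lit 112535713331) (nat_lit 0) (nat_lit 2978034852) (nat_lit 2) (nat_lit 5) (nat_lit 4) (nat_lit 4) (nat_lit 2) (nat_lit 4) (nat_lit 470) (nat_lit 377) (nat_lit 353)) (XT.lf (nat_lit 0) (nat_lit 12847549441) (nat_lit 152) (nat_lit 103630127907) (nat_lit 0) (nat_lit 11856093237) (nat_lit 2) (nat_lit 5) (nat_lit 4) (nat_lit 4) (nat_lit 2) (nat_lit 4) (nat_lit 471) (nat_lit 377) (nat_lit 352)))) (XT.nd (nat_lit 78) (nat_lit 0) (nat_lit 0) (XT.lf (nat_lit 0) (nat_lit 22300919751) (nat_lit 152) (nat_lit 94321132369) (nat_lit 0) (nat_lit 21296906222) (nat_lit 2) (nat_lit 5) (nat_lit 4) (nat_lit 4) (nat_lit 2) (nat_lit 4) (nat_lit 472) (nat_lit 377) (nat_lit 351)) (XT.nd (nat_lit 78) (nat_lit 0) (nat_lit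 0) (XT.lf (nat_lit 0) (nat_lit 32372060047) (nat_lit 152) (nat_lit 84553562299) (nat_lit 0) (nat_lit 31356419366) (nat_lit 2) (nat_lit 5) (nat_lit 4) (nat_lit 4) (nat_lit 2) (nat_lit 4) (nat_lit 473) (nat_lit 377) (nat_lit 350)) (XT.lf (nat_lit 0) (nat_lit 43120651162) (nat_lit 152) (nat_lit 74269535802) (nat_lit 0) (nat_lit 42094244599) (nat_lit 2) (nat_lit 5) (nat_lit 4) (nat_lit 4) (nat_lit 2) (nat_lit 4) (nat_lit 474) (nat_lit 377) (nat_lit 349))))) (XT.nd (nat_lit 234) (nat_lit 76) (nat_lit 0) (XT.nd (nat_lit 78) (nat_lit 0) (nat_lit 0) (XT.lf (nat_lit 0) (nat_lit 54610388450) (nat_lit 152) (nat_lit 63408110497) (nat_lit 0) (nat_lit 53574013478) (nat_lit 2) (nat_lit 5) (nat_lit 4) (nat_lit 4) (nat_lit 2) (nat_lit 4) (nat_lit 475) (nat_lit 377) (nat_lit 348)) (XT.nd (nat_lit 78) (nat_lit 0) (nat_lit 0) (XT.lf (nat_lit 0) (nat_lit 66909359242) (nat_lit 152) (nat_lit 51904922383) (nat_lit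 0) (nat_lit 65863754263) (nat_lit 2) (nat_lit 5) (nat_lit 4) (nat_lit 4) (nat_lit 2) (nat_lit 4) (nat_lit 476) (nat_lit 377) (nat_lit 347)) (XT.lf (nat_lit 0) (nat_lit 80090446330) (nat_lit 152) (nat_lit 39691804419) (nat_lit 0) (nat_lit 79036295046) (nat_lit 2) (nat_lit 5) (nat_lit 4) (nat_lit 4) (nat_lit 2) (nat_lit 4) (nat_lit 477) (nat_lit 377) (nat_lit 346)))) (XT.nd (nat_lit 156) (nat_lit 76) (nat_lit 0) (XT.nd (nat_lit 78) (nat_lit 0) (nat_lit 0) (XT.lf (nat_lit 0) (nat_lit 94231759858) (nat_lit 152) (nat_lit 26696382574) (nat_lit 0) (nat_lit 93169695330) (nat_lit 2) (nat_lit 5) (nat_lit 4) (nat_lit 4) (nat_lit 2) (nat_lit 4) (nat_lit 478) (nat_lit 377) (nat_lit 345)) (XT.lf (nat_lit 0) (nat_lit 109417100203) (nat_lit 152) (nat_lit 12841646938) (nat_lit 0) (nat_lit 108347708597) (nat_lit 2) (nat_lit 5) (nat_lit 4) (nat_lit 4) (nat_lit 2) (nat_lit 4) (nat_lit 479) (nat_lit 377) (nat_lit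 344))) (XT.nd (nat_lit 78) (nat_lit 0) (nat_lit 0) (XT.lf (nat_lit 0) (nat_lit 2057425372) (nat_lit 76) (nat_lit 123728510325) (nat_lit 76) (nat_lit 122652334387) (nat_lit 1) (nat_lit 4) (nat_lit 2) (nat_lit 5) (nat_lit 2) (nat_lit 4) (nat_lit 480) (nat_lit 377) (nat_lit 343)) (XT.lf (nat_lit 0) (nat_lit 18716003294) (nat_lit 76) (nat_lit 125020647272) (nat_lit 76) (nat_lit 123938189545) (nat_lit 1) (nat_lit 4) (nat_lit 2) (nat_lit 5) (nat_lit 2) (nat_lit 4) (nat_lit 481) (nat_lit 377) (nat_lit 342))))))) (XT.nd (nat_lit 936) (nat_lit 0) (nat_lit 0) (XT.nd (nat_lit 468) (nat_lit 0) (nat_lit 0) (XT.nd (nat_lit 234) (nat_lit 0) (nat_lit 0) (XT.nd (nat_lit 78) (nat_lit 0) (nat_lit 0) (XT.lf (nat_lit 0) (nat_lit 36556585954) (nat_lit 76) (nat_lit 126493928475) (nat_lit 76) (nat_lit 125405654277) (nat_lit 1) (nat_lit 4) (nat_lit 2) (nat_lit 5) (nat_lit 2) (nat_lit 4) (nat_lit 482) (nat_lit 377)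 (nat_lit 341)) (XT.nd (nat_lit 78) (nat_lit 0) (nat_lit 0) (XT.lf (nat_lit 0) (nat_lit 55684895324) (nat_lit 76) (nat_lit 128157084490) (nat_lit 76) (nat_lit 127063424671) (nat_lit 1) (nat_lit 4) (nat_lit 2) (nat_lit 5) (nat_lit 2) (nat_lit 4) (nat_lit 483) (nat_lit 377) (nat_lit 340)) (XT.lf (nat_lit 0) (nat_lit 76214284348) (nat_lit 76) (nat_lit 130019971056) (nat_lit 76) (nat_lit 128921324551) (nat_lit 1) (nat_lit 4) (nat_lit 2) (nat_lit 5) (nat_lit 2) (nat_lit 4) (nat_lit 484) (nat_lit 377) (nat_lit 339)))) (XT.nd (nat_lit 78) (nat_lit 0) (nat_lit 0) (XT.lf (nat_lit 0) (nat_lit 98266408665) (nat_lit 76) (nat_lit 132093627501) (nat_lit 76) (nat_lit 130990363694) (nat_lit 1) (nat_lit 4) (nat_lit 2) (nat_lit 5) (nat_lit 2) (nat_lit 4) (nat_lit 485) (nat_lit 377) (nat_lit 338)) (XT.nd (nat_lit 78) (nat_lit 0) (nat_lit 0) (XT.lf (nat_lit 0) (nat_lit 121971947530) (nat_lit 76) (nat_lit 134390342160)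 (nat_lit 76) (nat_lit 133282803073) (nat_lit 1) (nat_lit 4) (nat_lit 2) (nat_lit 5) (nat_lit 2) (nat_lit 4) (nat_lit 486) (nat_lit 377) (nat_lit 337)) (XT.lf (nat_lit 0) (nat_lit 147471378210) (nat_lit 76) (nat_lit 136923725193) (nat_lit 76) (nat_lit 135812227514) (nat_lit 1) (nat_lit 4) (nat_lit 2) (nat_lit 5) (nat_lit 2) (nat_lit 4) (nat_lit 487) (nat_lit 377) (nat_lit 336))))) (XT.nd (nat_lit 234) (nat_lit 0) (nat_lit 0) (XT.nd (nat_lit 78) (nat_lit 0) (nat_lit 0) (XT.lf (nat_lit 0) (nat_lit 174915808444) (nat_lit 76) (nat_lit 139708789241) (nat_lit 76) (nat_lit 138593626198) (nat_lit 1) (nat_lit 4) (nat_lit 2) (nat_lit 5) (nat_lit 2) (nat_lit 4) (nat_lit 488) (nat_lit 377) (nat_lit 335)) (XT.nd (nat_lit 78) (nat_lit 0) (nat_lit 0) (XT.lf (nat_lit 0) (nat_lit 204467871891) (nat_lit 76) (nat_lit 142762038386) (nat_lit 76) (nat_lit 141643481489) (nat_lit 1) (nat_lit 4) (nat_lit 2) (nat_lit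 5) (nat_lit 2) (nat_lit 4) (nat_lit 489) (nat_lit 377) (nat_lit 334)) (XT.lf (nat_lit 0) (nat_lit 236302691890) (nat_lit 76) (nat_lit 146101565958) (nat_lit 76) (nat_lit 144979866602) (nat_lit 1) (nat_lit 4) (nat_lit 2) (nat_lit 5) (nat_lit 2) (nat_lit 4) (nat_lit 490) (nat_lit 377) (nat_lit 333)))) (XT.nd (nat_lit 78) (nat_lit 0) (nat_lit 0) (XT.lf (nat_lit 0) (nat_lit 270608919227) (nat_lit 76) (nat_lit 149747161749) (nat_lit 76) (nat_lit 148622552709) (nat_lit 1) (nat_lit 4) (nat_lit 2) (nat_lit 5) (nat_lit 2) (nat_lit 4) (nat_lit 491) (nat_lit 377) (nat_lit 332)) (XT.nd (nat_lit 78) (nat_lit 0) (nat_lit 0) (XT.lf (nat_lit 0) (nat_lit 307589850063) (nat_lit 76) (nat_lit 153720429289) (nat_lit 76) (nat_lit 152593126098) (nat_lit 1) (nat_lit 4) (nat_lit 2) (nat_lit 5) (nat_lit 2) (nat_lit 4) (nat_lit 492) (nat_lit 377) (nat_lit 331)) (XT.lf (nat_lit 0) (nat_lit 347464630656) (nat_lit 76)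 (nat_lit 158044913869) (nat_lit 76) (nat_lit 156915116093) (nat_lit 1) (nat_lit 4) (nat_lit 2) (nat_lit 5) (nat_lit 2) (nat_lit 4) (nat_lit 493) (nat_lit 377) (nat_lit 330)))))) (XT.nd (nat_lit 468) (nat_lit 0) (nat_lit 0) (XT.nd (nat_lit 234) (nat_lit 0) (nat_lit 0) (XT.nd (nat_lit 78) (nat_lit 0) (nat_lit 0) (XT.lf (nat_lit 0) (nat_lit 390469556001) (nat_lit 76) (nat_lit 162746242062) (nat_lit 76) (nat_lit 161614134486) (nat_lit 1) (nat_lit 4) (nat_lit 2) (nat_lit 5) (nat_lit 2) (nat_lit 4) (nat_lit 494) (nat_lit 377) (nat_lit 329)) (XT.nd (nat_lit 78) (nat_lit 0) (nat_lit 0) (XT.lf (nat_lit 0) (nat_lit 436859470101) (nat_lit 76) (nat_lit 167852273592) (nat_lit 76) (nat_lit 166718027312) (nat_lit 1) (nat_lit 4) (nat_lit 2) (nat_lit 5) (nat_lit 2) (nat_lit 4) (nat_lit 495) (nat_lit 377) (nat_lit 328)) (XT.lf (nat_lit 0) (nat_lit 486909276150) (nat_lit 76) (nat_lit 173393266424) (nat_lit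 76) (nat_lit 172257039862) (nat_lit 1) (nat_lit 4) (nat_lit 2) (nat_lit 5) (nat_lit 2) (nat_lit 4) (nat_lit 496) (nat_lit 377) (nat_lit 327)))) (XT.nd (nat_lit 78) (nat_lit 0) (nat_lit 0) (XT.lf (nat_lit 0) (nat_lit 540915565591) (nat_lit 76) (nat_lit 179402056070) (nat_lit 76) (nat_lit 178263995914) (nat_lit 1) (nat_lit 4) (nat_lit 2) (nat_lit 5) (nat_lit 2) (nat_lit 4) (nat_lit 497) (nat_lit 377) (nat_lit 326)) (XT.nd (nat_lit 78) (nat_lit 0) (nat_lit 0) (XT.lf (nat_lit 0) (nat_lit 599198375696) (nat_lit 76) (nat_lit 185914250173) (nat_lit 76) (nat_lit 184774492245) (nat_lit 1) (nat_lit 4) (nat_lit 2) (nat_lit 5) (nat_lit 2) (nat_lit 4) (nat_lit 498) (nat_lit 377) (nat_lit 325)) (XT.lf (nat_lit 0) (nat_lit 662103086079) (nat_lit 76) (nat_lit 192968439513) (nat_lit 76) (nat_lit 191827109573) (nat_lit 1) (nat_lit 4) (nat_lit 2) (nat_lit 5) (nat_lit 2) (nat_lit 4) (nat_lit 499) (nat_lit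 377) (nat_lit 324))))) (XT.nd (nat_lit 234) (nat_lit 0) (nat_lit 0) (XT.nd (nat_lit 78) (nat_lit 0) (nat_lit 0) (XT.lf (nat_lit 0) (nat_lit 730002465395) (nat_lit 76) (nat_lit 200606426693) (nat_lit 76) (nat_lit 199463641187) (nat_lit 1) (nat_lit 4) (nat_lit 2) (nat_lit 5) (nat_lit 2) (nat_lit 4) (nat_lit 500) (nat_lit 377) (nat_lit 323)) (XT.nd (nat_lit 78) (nat_lit 0) (nat_lit 0) (XT.lf (nat_lit 0) (nat_lit 803298880336) (nat_lit 76) (nat_lit 208873473859) (nat_lit 76) (nat_lit 207729340607) (nat_lit 1) (nat_lit 4) (nat_lit 2) (nat_lit 5) (nat_lit 2) (nat_lit 4) (nat_lit 501) (nat_lit 377) (nat_lit 322)) (XT.lf (nat_lit 0) (nat_lit 882426680028) (nat_lit 76) (nat_lit 217818570921) (nat_lit 76) (nat_lit 216673189755) (nat_lit 1) (nat_lit 4) (nat_lit 2) (nat_lit 5) (nat_lit 2) (nat_lit 4) (nat_lit 502) (nat_lit 377) (nat_lit 321)))) (XT.nd (nat_lit 156) (nat_lit 0) (nat_lit 0) (XT.nd (nat_lit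 78) (nat_lit 0) (nat_lit 0) (XT.lf (nat_lit 0) (nat_lit 967854769950) (nat_lit 76) (nat_lit 227494725861) (nat_lit 76) (nat_lit 226348189220) (nat_lit 1) (nat_lit 4) (nat_lit 2) (nat_lit 5) (nat_lit 2) (nat_lit 4) (nat_lit 503) (nat_lit 377) (nat_lit 320)) (XT.lf (nat_lit 0) (nat_lit 1060089390635) (nat_lit 76) (nat_lit 237959278857) (nat_lit 76) (nat_lit 236811672331) (nat_lit 1) (nat_lit 4) (nat_lit 2) (nat_lit 5) (nat_lit 2) (nat_lit 4) (nat_lit 504) (nat_lit 377) (nat_lit 319))) (XT.nd (nat_lit 78) (nat_lit 0) (nat_lit 0) (XT.lf (nat_lit 0) (nat_lit 1159677117613) (nat_lit 76) (nat_lit 249274242074) (nat_lit 76) (nat_lit 248125644914) (nat_lit 1) (nat_lit 4) (nat_lit 2) (nat_lit 5) (nat_lit 2) (nat_lit 4) (nat_lit 505) (nat_lit 377) (nat_lit 318)) (XT.lf (nat_lit 0) (nat_lit 1267208100378) (nat_lit 76) (nat_lit 261506667147) (nat_lit 76) (nat_lit 260357152733) (nat_lit 1) (nat_lit 4)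 (nat_lit 2) (nat_lit 5) (nat_lit 2) (nat_lit 4) (nat_lit 506) (nat_lit 377) (nat_lit 317))))))))
noncomputable def xc42 : XT := (XT.nd (nat_lit 1950) (nat_lit 0) (nat_lit 0) (XT.nd (nat_lit 936) (nat_lit 0) (nat_lit 0) (XT.nd (nat_lit 468) (nat_lit 0) (nat_lit 0) (XT.nd (nat_lit 234) (nat_lit 0) (nat_lit 0) (XT.nd (nat_lit 78) (nat_lit 0) (nat_lit 0) (XT.lf (nat_lit 0) (nat_lit 1383319559567) (nat_lit 76) (nat_lit 274729042520) (nat_lit 76) (nat_lit 273578678797) (nat_lit 1) (nat_lit 4) (nat_lit 2) (nat_lit 5) (nat_lit 2) (nat_lit 4) (nat_lit 507) (nat_lit 377) (nat_lit 316)) (XT.nd (nat_lit 78) (nat_lit 0) (nat_lit 0) (XT.lf (nat_lit 0) (nat_lit 1508699563088) (nat_lit 76) (nat_lit 289019723010) (nat_lit 76) (nat_lit 287868572890) (nat_lit 1) (nat_lit 4) (nat_lit 2) (nat_lit 5) (nat_lit 2) (nat_lit 4) (nat_lit 508) (nat_lit 377) (nat_lit 315)) (XT.lf (nat_lit 0) (nat_lit 1644091103553)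 (nat_lit 76) (nat_lit 304463394131) (nat_lit 76) (nat_lit 303311515866) (nat_lit 1) (nat_lit 4) (nat_lit 2) (nat_lit 5) (nat_lit 2) (nat_lit 4) (nat_lit 509) (nat_lit 377) (nat_lit 314)))) (XT.nd (nat_lit 78) (nat_lit 0) (nat_lit 0) (XT.lf (nat_lit 0) (nat_lit 1790296501203) (nat_lit 76) (nat_lit 321151573935) (nat_lit 76) (nat_lit 319999021461) (nat_lit 1) (nat_lit 4) (nat_lit 2) (nat_lit 5) (nat_lit 2) (nat_lit 4) (nat_lit 510) (nat_lit 377) (nat_lit 313)) (XT.nd (nat_lit 78) (nat_lit 0) (nat_lit 0) (XT.lf (nat_lit 0) (nat_lit 1948182158393) (nat_lit 76) (nat_lit 339183155339) (nat_lit 76) (nat_lit 338029978597) (nat_lit 1) (nat_lit 4) (nat_lit 2) (nat_lit 5) (nat_lit 2) (nat_lit 4) (nat_lit 511) (nat_lit 377) (nat_lit 312)) (XT.lf (nat_lit 0) (nat_lit 2118683693834) (nat_lit 76) (nat_lit 358664992158) (nat_lit 76) (nat_lit 357511237391) (nat_lit 1) (nat_lit 4) (nat_lit 2) (nat_lit 5)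 (nat_lit 2) (nat_lit 4) (nat_lit 512) (nat_lit 377) (nat_lit 311))))) (XT.nd (nat_lit 234) (nat_lit 0) (nat_lit 0) (XT.nd (nat_lit 78) (nat_lit 0) (nat_lit 0) (XT.lf (nat_lit 0) (nat_lit 2302811486995) (nat_lit 76) (nat_lit 379712532314) (nat_lit 76) (nat_lit 378558242339) (nat_lit 1) (nat_lit 4) (nat_lit 2) (nat_lit 5) (nat_lit 2) (nat_lit 4) (nat_lit 513) (nat_lit 377) (nat_lit 310)) (XT.nd (nat_lit 78) (nat_lit 0) (nat_lit 0) (XT.lf (nat_lit 0) (nat_lit 2501656665538) (nat_lit 76) (nat_lit 402450501972) (nat_lit 76) (nat_lit 401295716432) (nat_lit 1) (nat_lit 4) (nat_lit 2) (nat_lit 5) (nat_lit 2) (nat_lit 4) (nat_lit 514) (nat_lit 377) (nat_lit 309)) (XT.lf (nat_lit 0) (nat_lit 2716397571262) (nat_lit 76) (nat_lit 427013644654) (nat_lit 76) (nat_lit 425858400260) (nat_lit 1) (nat_lit 4) (nat_lit 2) (nat_lit 5) (nat_lit 2) (nat_lit 4) (nat_lit 515) (nat_lit 377) (nat_lit 308)))) (XT.nd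 (nat_lit 78) (nat_lit 0) (nat_lit 0) (XT.lf (nat_lit 0) (nat_lit 2948306742869) (nat_lit 76) (nat_lit 453547519726) (nat_lit 76) (nat_lit 452391850466) (nat_lit 1) (nat_lit 4) (nat_lit 2) (nat_lit 5) (nat_lit 2) (nat_lit 4) (nat_lit 516) (nat_lit 377) (nat_lit 307)) (XT.nd (nat_lit 78) (nat_lit 0) (nat_lit 0) (XT.lf (nat_lit 0) (nat_lit 3198758456929) (nat_lit 76) (nat_lit 482209364965) (nat_lit 76) (nat_lit 481053302311) (nat_lit 1) (nat_lit 4) (nat_lit 2) (nat_lit 5) (nat_lit 2) (nat_lit 4) (nat_lit 517) (nat_lit 377) (nat_lit 306)) (XT.lf (nat_lit 0) (nat_lit 3469236871750) (nat_lit 76) (nat_lit 513169028344) (nat_lit 76) (nat_lit 512012601435) (nat_lit 1) (nat_lit 4) (nat_lit 2) (nat_lit 5) (nat_lit 2) (nat_lit 4) (nat_lit 518) (nat_lit 377) (nat_lit 305)))))) (XT.nd (nat_lit 468) (nat_lit 0) (nat_lit 0) (XT.nd (nat_lit 234) (nat_lit 0) (nat_lit 0) (XT.nd (nat_lit 78) (nat_lit 0) (nat_lit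 0) (XT.lf (nat_lit 0) (nat_lit 3761344822382) (nat_lit 76) (nat_lit 546609974533) (nat_lit 76) (nat_lit 545453210353) (nat_lit 1) (nat_lit 4) (nat_lit 2) (nat_lit 5) (nat_lit 2) (nat_lit 4) (nat_lit 519) (nat_lit 377) (nat_lit 304)) (XT.nd (nat_lit 78) (nat_lit 0) (nat_lit 0) (XT.lf (nat_lit 0) (nat_lit 4076813318903) (nat_lit 76) (nat_lit 582730372104) (nat_lit 76) (nat_lit 581573295634) (nat_lit 1) (nat_lit 4) (nat_lit 2) (nat_lit 5) (nat_lit 2) (nat_lit 4) (nat_lit 520) (nat_lit 377) (nat_lit 303)) (XT.lf (nat_lit 0) (nat_lit 4417511804254) (nat_lit 76) (nat_lit 621744267856) (nat_lit 76) (nat_lit 620586902229) (nat_lit 1) (nat_lit 4) (nat_lit 2) (nat_lit 5) (nat_lit 2) (nat_lit 4) (nat_lit 521) (nat_lit 377) (nat_lit 302)))) (XT.nd (nat_lit 78) (nat_lit 0) (nat_lit 0) (XT.lf (nat_lit 0) (nat_lit 4785459232424) (nat_lit 76) (nat_lit 663882855246) (nat_lit 76) (nat_lit 662725221882) (nat_lit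 1) (nat_lit 4) (nat_lit 2) (nat_lit 5) (nat_lit 2) (nat_lit 4) (nat_lit 522) (nat_lit 377) (nat_lit 301)) (XT.nd (nat_lit 78) (nat_lit 0) (nat_lit 0) (XT.lf (nat_lit 0) (nat_lit 5182836032616) (nat_lit 76) (nat_lit 709395844421) (nat_lit 76) (nat_lit 708237963152) (nat_lit 1) (nat_lit 4) (nat_lit 2) (nat_lit 5) (nat_lit 2) (nat_lit 4) (nat_lit 523) (nat_lit 377) (nat_lit 300)) (XT.lf (nat_lit 0) (nat_lit 5611997030313) (nat_lit 76) (nat_lit 758552941984) (nat_lit 76) (nat_lit 757394831173) (nat_lit 1) (nat_lit 4) (nat_lit 2) (nat_lit 5) (nat_lit 2) (nat_lit 4) (nat_lit 524) (nat_lit 377) (nat_lit 299))))) (XT.nd (nat_lit 234) (nat_lit 0) (nat_lit 0) (XT.nd (nat_lit 78) (nat_lit 0) (nat_lit 0) (XT.lf (nat_lit 0) (nat_lit 6075485401797) (nat_lit 76) (nat_lit 811645449253) (nat_lit 76) (nat_lit 810487125903) (nat_lit 1) (nat_lit 4) (nat_lit 2) (nat_lit 5) (nat_lit 2) (nat_lit 4) (nat_lit 525)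 (nat_lit 377) (nat_lit 298)) (XT.nd (nat_lit 78) (nat_lit 0) (nat_lit 0) (XT.lf (nat_lit 0) (nat_lit 6576047744825) (nat_lit 76) (nat_lit 868987988495) (nat_lit 76) (nat_lit 867829468350) (nat_lit 1) (nat_lit 4) (nat_lit 2) (nat_lit 5) (nat_lit 2) (nat_lit 4) (nat_lit 526) (nat_lit 377) (nat_lit 297)) (XT.lf (nat_lit 0) (nat_lit 7116650354765) (nat_lit 76) (nat_lit 930920367348) (nat_lit 76) (nat_lit 929761664986) (nat_lit 1) (nat_lit 4) (nat_lit 2) (nat_lit 5) (nat_lit 2) (nat_lit 4) (nat_lit 527) (nat_lit 377) (nat_lit 296)))) (XT.nd (nat_lit 156) (nat_lit 0) (nat_lit 0) (XT.nd (nat_lit 78) (nat_lit 0) (nat_lit 0) (XT.lf (nat_lit 0) (nat_lit 7700496802636) (nat_lit 76) (nat_lit 997809592503) (nat_lit 76) (nat_lit 996650721421) (nat_lit 1) (nat_lit 4) (nat_lit 2) (nat_lit 5) (nat_lit 2) (nat_lit 4) (nat_lit 528) (nat_lit 377) (nat_lit 295)) (XT.lf (nat_lit 0) (nat_lit 8331046919243) (nat_lit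 76) (nat_lit 1070052044553) (nat_lit 76) (nat_lit 1068893017248) (nat_lit 1) (nat_lit 4) (nat_lit 2) (nat_lit 5) (nat_lit 2) (nat_lit 4) (nat_lit 529) (nat_lit 377) (nat_lit 294))) (XT.nd (nat_lit 78) (nat_lit 0) (nat_lit 0) (XT.lf (nat_lit 0) (nat_lit 9012037297867) (nat_lit 76) (nat_lit 1148075826917) (nat_lit 76) (nat_lit 1146916654962) (nat_lit 1) (nat_lit 4) (nat_lit 2) (nat_lit 5) (nat_lit 2) (nat_lit 4) (nat_lit 530) (nat_lit 377) (nat_lit 293)) (XT.lf (nat_lit 0) (nat_lit 9747503437050) (nat_lit 76) (nat_lit 1232343302751) (nat_lit 76) (nat_lit 1231183996860) (nat_lit 1) (nat_lit 4) (nat_lit 2) (nat_lit 5) (nat_lit 2) (nat_lit 4) (nat_lit 531) (nat_lit 377) (nat_lit 292))))))) (XT.nd (nat_lit 56160) (nat_lit 0) (nat_lit 304) (XT.nd (nat_lit 55692) (nat_lit 0) (nat_lit 912) (XT.nd (nat_lit 234) (nat_lit 0) (nat_lit 0) (XT.nd (nat_lit 78) (nat_lit 0) (nat_lit 0) (XT.lf (nat_lit 0)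 (nat_lit 10541803654652) (nat_lit 76) (nat_lit 1323353834874) (nat_lit 76) (nat_lit 1322194404969) (nat_lit 1) (nat_lit 4) (nat_lit 2) (nat_lit 5) (nat_lit 2) (nat_lit 4) (nat_lit 532) (nat_lit 377) (nat_lit 291)) (XT.nd (nat_lit 78) (nat_lit 0) (nat_lit 0) (XT.lf (nat_lit 0) (nat_lit 11399644914927) (nat_lit 76) (nat_lit 1421646744957) (nat_lit 76) (nat_lit 1420487200224) (nat_lit 1) (nat_lit 4) (nat_lit 2) (nat_lit 5) (nat_lit 2) (nat_lit 4) (nat_lit 533) (nat_lit 377) (nat_lit 290)) (XT.lf (nat_lit 0) (nat_lit 12326110721639) (nat_lit 76) (nat_lit 1527804509506) (nat_lit 76) (nat_lit 1526644858451) (nat_lit 1) (nat_lit 4) (nat_lit 2) (nat_lit 5) (nat_lit 2) (nat_lit 4) (nat_lit 534) (nat_lit 377) (nat_lit 289)))) (XT.nd (nat_lit 78) (nat_lit 0) (nat_lit 0) (XT.lf (nat_lit 0) (nat_lit 13326691242532) (nat_lit 76) (nat_lit 1642456211569) (nat_lit 76) (nat_lit 1641296462067) (nat_lit 1)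 (nat_lit 4) (nat_lit 2) (nat_lit 5) (nat_lit 2) (nat_lit 4) (nat_lit 535) (nat_lit 377) (nat_lit 288)) (XT.nd (nat_lit 55302) (nat_lit 0) (nat_lit 1368) (XT.lf (nat_lit 0) (nat_lit 14407315843655) (nat_lit 76) (nat_lit 1766281268639) (nat_lit 76) (nat_lit 1765121427983) (nat_lit 1) (nat_lit 4) (nat_lit 2) (nat_lit 5) (nat_lit 2) (nat_lit 4) (nat_lit 536) (nat_lit 377) (nat_lit 287)) (XT.lf (nat_lit 0) (nat_lit 7685756203) (nat_lit 76) (nat_lit 2220939748) (nat_lit 76) (nat_lit 2220939748) (nat_lit 19) (nat_lit 4) (nat_lit 20) (nat_lit 5) (nat_lit 20) (nat_lit 4) (nat_lit 444) (nat_lit 378) (nat_lit 378))))) (XT.nd (nat_lit 234) (nat_lit 228) (nat_lit 0) (XT.nd (nat_lit 78) (nat_lit 76) (nat_lit 0) (XT.lf (nat_lit 0) (nat_lit 4757883777) (nat_lit 152) (nat_lit 16068483606) (nat_lit 0) (nat_lit 4621414927) (nat_lit 17) (nat_lit 5) (nat_lit 19) (nat_lit 4) (nat_lit 17) (nat_lit 4) (nat_lit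 445) (nat_lit 378) (nat_lit 377)) (XT.nd (nat_lit 78) (nat_lit 0) (nat_lit 0) (XT.lf (nat_lit 0) (nat_lit 1768155822) (nat_lit 76) (nat_lit 12613453699) (nat_lit 76) (nat_lit 12350624801) (nat_lit 16) (nat_lit 4) (nat_lit 17) (nat_lit 5) (nat_lit 17) (nat_lit 4) (nat_lit 446) (nat_lit 378) (nat_lit 376)) (XT.lf (nat_lit 0) (nat_lit 20994649693) (nat_lit 76) (nat_lit 3753401298) (nat_lit 76) (nat_lit 3373572357) (nat_lit 16) (nat_lit 4) (nat_lit 17) (nat_lit 5) (nat_lit 17) (nat_lit 4) (nat_lit 447) (nat_lit 378) (nat_lit 375)))) (XT.nd (nat_lit 78) (nat_lit 76) (nat_lit 0) (XT.lf (nat_lit 0) (nat_lit 5982776388) (nat_lit 152) (nat_lit 18098266074) (nat_lit 0) (nat_lit 5530774245) (nat_lit 14) (nat_lit 5) (nat_lit 16) (nat_lit 4) (nat_lit 14) (nat_lit 4) (nat_lit 448) (nat_lit 378) (nat_lit 374)) (XT.nd (nat_lit 78) (nat_lit 76) (nat_lit 0) (XT.lf (nat_lit 0) (nat_lit 15760432623) (nat_lit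 152) (nat_lit 249830983) (nat_lit 0) (nat_lit 15215552073) (nat_lit 14) (nat_lit 5) (nat_lit 16) (nat_lit 4) (nat_lit 14) (nat_lit 4) (nat_lit 449) (nat_lit 378) (nat_lit 373)) (XT.lf (nat_lit 0) (nat_lit 19146630989) (nat_lit 76) (nat_lit 7224558121) (nat_lit 76) (nat_lit 6593679046) (nat_lit 13) (nat_lit 4) (nat_lit 14) (nat_lit 5) (nat_lit 14) (nat_lit 4) (nat_lit 450) (nat_lit 378) (nat_lit 372)))))) (XT.nd (nat_lit 468) (nat_lit 228) (nat_lit 0) (XT.nd (nat_lit 234) (nat_lit 152) (nat_lit 0) (XT.nd (nat_lit 78) (nat_lit 76) (nat_lit 0) (XT.lf (nat_lit 0) (nat_lit 2595402804) (nat_lit 152) (nat_lit 30323803764) (nat_lit 0) (nat_lit 1937525639) (nat_lit 11) (nat_lit 5) (nat_lit 13) (nat_lit 4) (nat_lit 11) (nat_lit 4) (nat_lit 451) (nat_lit 378) (nat_lit 371)) (XT.nd (nat_lit 78) (nat_lit 76) (nat_lit 0) (XT.lf (nat_lit 0) (nat_lit 12330025144) (nat_lit 152) (nat_lit 12939011657) (nat_lit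 0) (nat_lit 11603879577) (nat_lit 11) (nat_lit 5) (nat_lit 13) (nat_lit 4) (nat_lit 11) (nat_lit 4) (nat_lit 452) (nat_lit 378) (nat_lit 370)) (XT.lf (nat_lit 0) (nat_lit 5326531898) (nat_lit 76) (nat_lit 17266622427) (nat_lit 76) (nat_lit 16477265378) (nat_lit 10) (nat_lit 4) (nat_lit 11) (nat_lit 5) (nat_lit 11) (nat_lit 4) (nat_lit 453) (nat_lit 378) (nat_lit 369)))) (XT.nd (nat_lit 78) (nat_lit 152) (nat_lit 0) (XT.lf (nat_lit 0) (nat_lit 25032343266) (nat_lit 76) (nat_lit 8630225294) (nat_lit 76) (nat_lit 7782339093) (nat_lit 10) (nat_lit 4) (nat_lit 11) (nat_lit 5) (nat_lit 11) (nat_lit 4) (nat_lit 454) (nat_lit 378) (nat_lit 368)) (XT.nd (nat_lit 78) (nat_lit 0) (nat_lit 0) (XT.lf (nat_lit 0) (nat_lit 1226710291) (nat_lit 152) (nat_lit 42412183591) (nat_lit 0) (nat_lit 391451162) (nat_lit 8) (nat_lit 5) (nat_lit 10) (nat_lit 4) (nat_lit 8) (nat_lit 4) (nat_lit 455) (nat_lit 378)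 (nat_lit 367)) (XT.lf (nat_lit 0) (nat_lit 10870911323) (nat_lit 152) (nat_lit 25919557539) (nat_lit 0) (nat_lit 9989189868) (nat_lit 8) (nat_lit 5) (nat_lit 10) (nat_lit 4) (nat_lit 8) (nat_lit 4) (nat_lit 456) (nat_lit 378) (nat_lit 366))))) (XT.nd (nat_lit 234) (nat_lit 152) (nat_lit 0) (XT.nd (nat_lit 78) (nat_lit 76) (nat_lit 0) (XT.lf (nat_lit 0) (nat_lit 20962861445) (nat_lit 152) (nat_lit 8773842013) (nat_lit 0) (nat_lit 20038119316) (nat_lit 8) (nat_lit 5) (nat_lit 10) (nat_lit 4) (nat_lit 8) (nat_lit 4) (nat_lit 457) (nat_lit 378) (nat_lit 365)) (XT.nd (nat_lit 78) (nat_lit 0) (nat_lit 0) (XT.lf (nat_lit 0) (nat_lit 9607156082) (nat_lit 76) (nat_lit 22186261057) (nat_lit 76) (nat_lit 21221684972) (nat_lit 7) (nat_lit 4) (nat_lit 8) (nat_lit 5) (nat_lit 8) (nat_lit 4) (nat_lit 458) (nat_lit 378) (nat_lit 364)) (XT.lf (nat_lit 0) (nat_lit 29356265996) (nat_lit 76) (nat_lit 14081986181)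 (nat_lit 76) (nat_lit 13080526802) (nat_lit 7) (nat_lit 4) (nat_lit 8) (nat_lit 5) (nat_lit 8) (nat_lit 4) (nat_lit 459) (nat_lit 378) (nat_lit 363)))) (XT.nd (nat_lit 156) (nat_lit 0) (nat_lit 0) (XT.nd (nat_lit 78) (nat_lit 152) (nat_lit 0) (XT.lf (nat_lit 0) (nat_lit 50128504520) (nat_lit 76) (nat_lit 5615745886) (nat_lit 76) (nat_lit 4580135310) (nat_lit 7) (nat_lit 4) (nat_lit 8) (nat_lit 5) (nat_lit 8) (nat_lit 4) (nat_lit 460) (nat_lit 378) (nat_lit 362)) (XT.lf (nat_lit 0) (nat_lit 4388938878) (nat_lit 152) (nat_lit 56634389560) (nat_lit 0) (nat_lit 3400761049) (nat_lit 5) (nat_lit 5) (nat_lit 7) (nat_lit 4) (nat_lit 5) (nat_lit 4) (nat_lit 461) (nat_lit 378) (nat_lit 361))) (XT.nd (nat_lit 78) (nat_lit 0) (nat_lit 0) (XT.lf (nat_lit 0) (nat_lit 14003316772) (nat_lit 152) (nat_lit 41836890530) (nat_lit 0) (nat_lit 12988028621) (nat_lit 5) (nat_lit 5) (nat_lit 7) (nat_lit 4) (nat_lit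 5) (nat_lit 4) (nat_lit 462) (nat_lit 378) (nat_lit 360)) (XT.lf (nat_lit 0) (nat_lit 24149202473) (nat_lit 152) (nat_lit 26345712167) (nat_lit 0) (nat_lit 23108812173) (nat_lit 5) (nat_lit 5) (nat_lit 7) (nat_lit 4) (nat_lit 5) (nat_lit 4) (nat_lit 463) (nat_lit 378) (nat_lit 359))))))))
noncomputable def xc43 : XT := (XT.nd (nat_lit 1950) (nat_lit 0) (nat_lit 0) (XT.nd (nat_lit 936) (nat_lit 76) (nat_lit 0) (XT.nd (nat_lit 468) (nat_lit 152) (nat_lit 0) (XT.nd (nat_lit 234) (nat_lit 0) (nat_lit 0) (XT.nd (nat_lit 78) (nat_lit 76) (nat_lit 0) (XT.lf (nat_lit 0) (nat_lit 34886719750) (nat_lit 152) (nat_lit 10069054894) (nat_lit 0) (nat_lit 33823086719) (nat_lit 5) (nat_lit 5) (nat_lit 7) (nat_lit 4) (nat_lit 5) (nat_lit 4) (nat_lit 464) (nat_lit 378) (nat_lit 358)) (XT.nd (nat_lit 78) (nat_lit 0) (nat_lit 0) (XT.lf (nat_lit 0) (nat_lit 7462857930) (nat_lit 76) (nat_lit 38996122315) (nat_lit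 76) (nat_lit 37910968237) (nat_lit 4) (nat_lit 4) (nat_lit 5) (nat_lit 5) (nat_lit 5) (nat_lit 4) (nat_lit 465) (nat_lit 378) (nat_lit 357)) (XT.lf (nat_lit 0) (nat_lit 26560398409) (nat_lit 76) (nat_lit 32473430797) (nat_lit 76) (nat_lit 31368349823) (nat_lit 4) (nat_lit 4) (nat_lit 5) (nat_lit 5) (nat_lit 5) (nat_lit 4) (nat_lit 466) (nat_lit 378) (nat_lit 356)))) (XT.nd (nat_lit 78) (nat_lit 0) (nat_lit 0) (XT.lf (nat_lit 0) (nat_lit 46806518563) (nat_lit 76) (nat_lit 25624352908) (nat_lit 76) (nat_lit 24500821105) (nat_lit 4) (nat_lit 4) (nat_lit 5) (nat_lit 5) (nat_lit 5) (nat_lit 4) (nat_lit 467) (nat_lit 378) (nat_lit 355)) (XT.nd (nat_lit 78) (nat_lit 0) (nat_lit 0) (XT.lf (nat_lit 0) (nat_lit 68321195401) (nat_lit 76) (nat_lit 18408301520) (nat_lit 76) (nat_lit 17267685616) (nat_lit 4) (nat_lit 4) (nat_lit 5) (nat_lit 5) (nat_lit 5) (nat_lit 4) (nat_lit 468) (nat_lit 378) (nat_lit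 354)) (XT.lf (nat_lit 0) (nat_lit 91231923305) (nat_lit 76) (nat_lit 10782514848) (nat_lit 76) (nat_lit 9626080331) (nat_lit 4) (nat_lit 4) (nat_lit 5) (nat_lit 5) (nat_lit 5) (nat_lit 4) (nat_lit 469) (nat_lit 378) (nat_lit 353))))) (XT.nd (nat_lit 234) (nat_lit 0) (nat_lit 0) (XT.nd (nat_lit 78) (nat_lit 152) (nat_lit 0) (XT.lf (nat_lit 0) (nat_lit 115674469551) (nat_lit 76) (nat_lit 2701803044) (nat_lit 76) (nat_lit 1530721664) (nat_lit 4) (nat_lit 4) (nat_lit 5) (nat_lit 5) (nat_lit 5) (nat_lit 4) (nat_lit 470) (nat_lit 378) (nat_lit 352)) (XT.nd (nat_lit 78) (nat_lit 0) (nat_lit 0) (XT.lf (nat_lit 0) (nat_lit 7190644119) (nat_lit 152) (nat_lit 115509382839) (nat_lit 0) (nat_lit 6093752183) (nat_lit 2) (nat_lit 5) (nat_lit 4) (nat_lit 4) (nat_lit 2) (nat_lit 4) (nat_lit 471) (nat_lit 378) (nat_lit 351)) (XT.lf (nat_lit 0) (nat_lit 16577428064) (nat_lit 152) (nat_lit 106337957066) (nat_lit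 0) (nat_lit 15468908977) (nat_lit 2) (nat_lit 5) (nat_lit 4) (nat_lit 4) (nat_lit 2) (nat_lit 4) (nat_lit 472) (nat_lit 378) (nat_lit 350)))) (XT.nd (nat_lit 78) (nat_lit 0) (nat_lit 0) (XT.lf (nat_lit 0) (nat_lit 26586914320) (nat_lit 152) (nat_lit 96697766409) (nat_lit 0) (nat_lit 25467629350) (nat_lit 2) (nat_lit 5) (nat_lit 4) (nat_lit 4) (nat_lit 2) (nat_lit 4) (nat_lit 473) (nat_lit 378) (nat_lit 349)) (XT.nd (nat_lit 78) (nat_lit 0) (nat_lit 0) (XT.lf (nat_lit 0) (nat_lit 37278418359) (nat_lit 152) (nat_lit 86531683811) (nat_lit 0) (nat_lit 36149164981) (nat_lit 2) (nat_lit 5) (nat_lit 4) (nat_lit 4) (nat_lit 2) (nat_lit 4) (nat_lit 474) (nat_lit 378) (nat_lit 348)) (XT.lf (nat_lit 0) (nat_lit 48715297244) (nat_lit 152) (nat_lit 75779465822) (nat_lit 0) (nat_lit 47576813857) (nat_lit 2) (nat_lit 5) (nat_lit 4) (nat_lit 4) (nat_lit 2) (nat_lit 4) (nat_lit 475) (nat_lit 378) (nat_lit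 347)))))) (XT.nd (nat_lit 468) (nat_lit 0) (nat_lit 0) (XT.nd (nat_lit 234) (nat_lit 76) (nat_lit 0) (XT.nd (nat_lit 78) (nat_lit 0) (nat_lit 0) (XT.lf (nat_lit 0) (nat_lit 60965325071) (nat_lit 152) (nat_lit 64377395592) (nat_lit 0) (nat_lit 59818295380) (nat_lit 2) (nat_lit 5) (nat_lit 4) (nat_lit 4) (nat_lit 2) (nat_lit 4) (nat_lit 476) (nat_lit 378) (nat_lit 346)) (XT.nd (nat_lit 78) (nat_lit 0) (nat_lit 0) (XT.lf (nat_lit 0) (nat_lit 74101094598) (nat_lit 152) (nat_lit 52257905299) (nat_lit 0) (nat_lit 72946151663) (nat_lit 2) (nat_lit 5) (nat_lit 4) (nat_lit 4) (nat_lit 2) (nat_lit 4) (nat_lit 477) (nat_lit 378) (nat_lit 345)) (XT.lf (nat_lit 0) (nat_lit 88200447422) (nat_lit 152) (nat_lit 39349175741) (nat_lit 0) (nat_lit 87038177408) (nat_lit 2) (nat_lit 5) (nat_lit 4) (nat_lit 4) (nat_lit 2) (nat_lit 4) (nat_lit 478) (nat_lit 378) (nat_lit 344)))) (XT.nd (nat_lit 78) (nat_lit 76)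 (nat_lit 0) (XT.lf (nat_lit 0) (nat_lit 103346935263) (nat_lit 152) (nat_lit 25574710742) (nat_lit 0) (nat_lit 102177880918) (nat_lit 2) (nat_lit 5) (nat_lit 4) (nat_lit 4) (nat_lit 2) (nat_lit 4) (nat_lit 479) (nat_lit 378) (nat_lit 343)) (XT.nd (nat_lit 78) (nat_lit 76) (nat_lit 0) (XT.lf (nat_lit 0) (nat_lit 119630315086) (nat_lit 152) (nat_lit 10852883844) (nat_lit 0) (nat_lit 118454978953) (nat_lit 2) (nat_lit 5) (nat_lit 4) (nat_lit 4) (nat_lit 2) (nat_lit 4) (nat_lit 480) (nat_lit 378) (nat_lit 342)) (XT.lf (nat_lit 0) (nat_lit 5161757419) (nat_lit 76) (nat_lit 132109463965) (nat_lit 76) (nat_lit 130928311361) (nat_lit 1) (nat_lit 4) (nat_lit 2) (nat_lit 5) (nat_lit 2) (nat_lit 4) (nat_lit 481) (nat_lit 378) (nat_lit 341))))) (XT.nd (nat_lit 234) (nat_lit 0) (nat_lit 0) (XT.nd (nat_lit 78) (nat_lit 0) (nat_lit 0) (XT.lf (nat_lit 0) (nat_lit 22935263203) (nat_lit 76) (nat_lit 133617366474)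 (nat_lit 76) (nat_lit 132430828248) (nat_lit 1) (nat_lit 4) (nat_lit 2) (nat_lit 5) (nat_lit 2) (nat_lit 4) (nat_lit 482) (nat_lit 378) (nat_lit 340)) (XT.nd (nat_lit 78) (nat_lit 0) (nat_lit 0) (XT.lf (nat_lit 0) (nat_lit 42001464354) (nat_lit 76) (nat_lit 135312579253) (nat_lit 76) (nat_lit 134121054342) (nat_lit 1) (nat_lit 4) (nat_lit 2) (nat_lit 5) (nat_lit 2) (nat_lit 4) (nat_lit 483) (nat_lit 378) (nat_lit 339)) (XT.lf (nat_lit 0) (nat_lit 62473345768) (nat_lit 76) (nat_lit 137205148009) (nat_lit 76) (nat_lit 136009005795) (nat_lit 1) (nat_lit 4) (nat_lit 2) (nat_lit 5) (nat_lit 2) (nat_lit 4) (nat_lit 484) (nat_lit 378) (nat_lit 338)))) (XT.nd (nat_lit 156) (nat_lit 0) (nat_lit 0) (XT.nd (nat_lit 78) (nat_lit 0) (nat_lit 0) (XT.lf (nat_lit 0) (nat_lit 84472222298) (nat_lit 76) (nat_lit 139306287963) (nat_lit 76) (nat_lit 138105870469) (nat_lit 1) (nat_lit 4) (nat_lit 2) (nat_lit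 5) (nat_lit 2) (nat_lit 4) (nat_lit 485) (nat_lit 378) (nat_lit 337)) (XT.lf (nat_lit 0) (nat_lit 108128457656) (nat_lit 76) (nat_lit 141628450314) (nat_lit 76) (nat_lit 140424074228) (nat_lit 1) (nat_lit 4) (nat_lit 2) (nat_lit 5) (nat_lit 2) (nat_lit 4) (nat_lit 486) (nat_lit 378) (nat_lit 336))) (XT.nd (nat_lit 78) (nat_lit 0) (nat_lit 0) (XT.lf (nat_lit 0) (nat_lit 133582236942) (nat_lit 76) (nat_lit 144185396026) (nat_lit 76) (nat_lit 142977354577) (nat_lit 1) (nat_lit 4) (nat_lit 2) (nat_lit 5) (nat_lit 2) (nat_lit 4) (nat_lit 487) (nat_lit 378) (nat_lit 335)) (XT.lf (nat_lit 0) (nat_lit 160984397365) (nat_lit 76) (nat_lit 146992277369) (nat_lit 76) (nat_lit 145780842065) (nat_lit 1) (nat_lit 4) (nat_lit 2) (nat_lit 5) (nat_lit 2) (nat_lit 4) (nat_lit 488) (nat_lit 378) (nat_lit 334))))))) (XT.nd (nat_lit 936) (nat_lit 0) (nat_lit 0) (XT.nd (nat_lit 468) (nat_lit 0) (nat_lit 0) (XT.nd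 (nat_lit 234) (nat_lit 0) (nat_lit 0) (XT.nd (nat_lit 78) (nat_lit 0) (nat_lit 0) (XT.lf (nat_lit 0) (nat_lit 190497322099) (nat_lit 76) (nat_lit 150065727714) (nat_lit 76) (nat_lit 148851149952) (nat_lit 1) (nat_lit 4) (nat_lit 2) (nat_lit 5) (nat_lit 2) (nat_lit 4) (nat_lit 489) (nat_lit 378) (nat_lit 333)) (XT.nd (nat_lit 78) (nat_lit 0) (nat_lit 0) (XT.lf (nat_lit 0) (nat_lit 222295902549) (nat_lit 76) (nat_lit 153423960100) (nat_lit 76) (nat_lit 152206472654) (nat_lit 1) (nat_lit 4) (nat_lit 2) (nat_lit 5) (nat_lit 2) (nat_lit 4) (nat_lit 490) (nat_lit 378) (nat_lit 332)) (XT.lf (nat_lit 0) (nat_lit 256568574747) (nat_lit 76) (nat_lit 157086875163) (nat_lit 76) (nat_lit 155866693565) (nat_lit 1) (nat_lit 4) (nat_lit 2) (nat_lit 5) (nat_lit 2) (nat_lit 4) (nat_lit 491) (nat_lit 378) (nat_lit 331)))) (XT.nd (nat_lit 78) (nat_lit 0) (nat_lit 0) (XT.lf (nat_lit 0) (nat_lit 293518436011)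 (nat_lit 76) (nat_lit 161076179067) (nat_lit 76) (nat_lit 159853502884) (nat_lit 1) (nat_lit 4) (nat_lit 2) (nat_lit 5) (nat_lit 2) (nat_lit 4) (nat_lit 492) (nat_lit 378) (nat_lit 330)) (XT.nd (nat_lit 78) (nat_lit 0) (nat_lit 0) (XT.lf (nat_lit 0) (nat_lit 333364448482) (nat_lit 76) (nat_lit 165415512131) (nat_lit 76) (nat_lit 164190526148) (nat_lit 1) (nat_lit 4) (nat_lit 2) (nat_lit 5) (nat_lit 2) (nat_lit 4) (nat_lit 493) (nat_lit 378) (nat_lit 329)) (XT.lf (nat_lit 0) (nat_lit 376342736676) (nat_lit 76) (nat_lit 170130588921) (nat_lit 76) (nat_lit 168903464234) (nat_lit 1) (nat_lit 4) (nat_lit 2) (nat_lit 5) (nat_lit 2) (nat_lit 4) (nat_lit 494) (nat_lit 378) (nat_lit 328))))) (XT.nd (nat_lit 234) (nat_lit 0) (nat_lit 0) (XT.nd (nat_lit 78) (nat_lit 0) (nat_lit 0) (XT.lf (nat_lit 0) (nat_lit 422707986748) (nat_lit 76) (nat_lit 175249350633) (nat_lit 76) (nat_lit 174020245665) (nat_lit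 1) (nat_lit 4) (nat_lit 2) (nat_lit 5) (nat_lit 2) (nat_lit 4) (nat_lit 495) (nat_lit 378) (nat_lit 327)) (XT.nd (nat_lit 78) (nat_lit 0) (nat_lit 0) (XT.lf (nat_lit 0) (nat_lit 472734955734) (nat_lit 76) (nat_lit 180802130671) (nat_lit 76) (nat_lit 179571192108) (nat_lit 1) (nat_lit 4) (nat_lit 2) (nat_lit 5) (nat_lit 2) (nat_lit 4) (nat_lit 496) (nat_lit 378) (nat_lit 326)) (XT.lf (nat_lit 0) (nat_lit 526720099746) (nat_lit 76) (nat_lit 186821834396) (nat_lit 76) (nat_lit 185589198061) (nat_lit 1) (nat_lit 4) (nat_lit 2) (nat_lit 5) (nat_lit 2) (nat_lit 4) (nat_lit 497) (nat_lit 378) (nat_lit 325)))) (XT.nd (nat_lit 78) (nat_lit 0) (nat_lit 0) (XT.lf (nat_lit 0) (nat_lit 584983330750) (nat_lit 76) (nat_lit 193344134128) (nat_lit 76) (nat_lit 192109925782) (nat_lit 1) (nat_lit 4) (nat_lit 2) (nat_lit 5) (nat_lit 2) (nat_lit 4) (nat_lit 498) (nat_lit 378) (nat_lit 324)) (XT.nd (nat_lit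 78) (nat_lit 0) (nat_lit 0) (XT.lf (nat_lit 0) (nat_lit 647869912336) (nat_lit 76) (nat_lit 200407680532) (nat_lit 76) (nat_lit 199172016619) (nat_lit 1) (nat_lit 4) (nat_lit 2) (nat_lit 5) (nat_lit 2) (nat_lit 4) (nat_lit 499) (nat_lit 378) (nat_lit 323)) (XT.lf (nat_lit 0) (nat_lit 715752505729) (nat_lit 76) (nat_lit 208054331660) (nat_lit 76) (nat_lit 206817320001) (nat_lit 1) (nat_lit 4) (nat_lit 2) (nat_lit 5) (nat_lit 2) (nat_lit 4) (nat_lit 500) (nat_lit 378) (nat_lit 322)))))) (XT.nd (nat_lit 468) (nat_lit 0) (nat_lit 0) (XT.nd (nat_lit 234) (nat_lit 0) (nat_lit 0) (XT.nd (nat_lit 78) (nat_lit 0) (nat_lit 0) (XT.lf (nat_lit 0) (nat_lit 789033378149) (nat_lit 76) (nat_lit 216329401001) (nat_lit 76) (nat_lit 215091141428) (nat_lit 1) (nat_lit 4) (nat_lit 2) (nat_lit 5) (nat_lit 2) (nat_lit 4) (nat_lit 501) (nat_lit 378) (nat_lit 321)) (XT.nd (nat_lit 78) (nat_lit 0) (nat_lit 0) (XT.lf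 (nat_lit 0) (nat_lit 868146786617) (nat_lit 76) (nat_lit 225281926002) (nat_lit 76) (nat_lit 224042510953) (nat_lit 1) (nat_lit 4) (nat_lit 2) (nat_lit 5) (nat_lit 2) (nat_lit 4) (nat_lit 502) (nat_lit 378) (nat_lit 320)) (XT.lf (nat_lit 0) (nat_lit 953561551332) (nat_lit 76) (nat_lit 234964958663) (nat_lit 76) (nat_lit 233724473730) (nat_lit 1) (nat_lit 4) (nat_lit 2) (nat_lit 5) (nat_lit 2) (nat_lit 4) (nat_lit 503) (nat_lit 378) (nat_lit 319)))) (XT.nd (nat_lit 78) (nat_lit 0) (nat_lit 0) (XT.lf (nat_lit 0) (nat_lit 1045783833862) (nat_lit 76) (nat_lit 245435879919) (nat_lit 76) (nat_lit 244194404353) (nat_lit 1) (nat_lit 4) (nat_lit 2) (nat_lit 5) (nat_lit 2) (nat_lit 4) (nat_lit 504) (nat_lit 378) (nat_lit 318)) (XT.nd (nat_lit 78) (nat_lit 0) (nat_lit 0) (XT.lf (nat_lit 0) (nat_lit 1145360136623) (nat_lit 76) (nat_lit 256756739674) (nat_lit 76) (nat_lit 255514346854) (nat_lit 1) (nat_lit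 4) (nat_lit 2) (nat_lit 5) (nat_lit 2) (nat_lit 4) (nat_lit 505) (nat_lit 378) (nat_lit 317)) (XT.lf (nat_lit 0) (nat_lit 1252880541409) (nat_lit 76) (nat_lit 268994624504) (nat_lit 76) (nat_lit 267751382374) (nat_lit 1) (nat_lit 4) (nat_lit 2) (nat_lit 5) (nat_lit 2) (nat_lit 4) (nat_lit 506) (nat_lit 378) (nat_lit 316))))) (XT.nd (nat_lit 234) (nat_lit 0) (nat_lit 0) (XT.nd (nat_lit 78) (nat_lit 0) (nat_lit 0) (XT.lf (nat_lit 0) (nat_lit 1368982206173) (nat_lit 76) (nat_lit 282222055207) (nat_lit 76) (nat_lit 280978026681) (nat_lit 1) (nat_lit 4) (nat_lit 2) (nat_lit 5) (nat_lit 2) (nat_lit 4) (nat_lit 507) (nat_lit 378) (nat_lit 315)) (XT.nd (nat_lit 78) (nat_lit 0) (nat_lit 0) (XT.lf (nat_lit 0) (nat_lit 1494353140782) (nat_lit 76) (nat_lit 296517416559) (nat_lit 76) (nat_lit 295272659887) (nat_lit 1) (nat_lit 4) (nat_lit 2) (nat_lit 5) (nat_lit 2) (nat_lit 4) (nat_lit 508) (nat_lit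 378) (nat_lit 314)) (XT.lf (nat_lit 0) (nat_lit 1629736284106) (nat_lit 76) (nat_lit 311965421811) (nat_lit 76) (nat_lit 310719990930) (nat_lit 1) (nat_lit 4) (nat_lit 2) (nat_lit 5) (nat_lit 2) (nat_lit 4) (nat_lit 509) (nat_lit 378) (nat_lit 313)))) (XT.nd (nat_lit 156) (nat_lit 0) (nat_lit 0) (XT.nd (nat_lit 78) (nat_lit 0) (nat_lit 0) (XT.lf (nat_lit 0) (nat_lit 1775933906626) (nat_lit 76) (nat_lit 328657614699) (nat_lit 76) (nat_lit 327411559551) (nat_lit 1) (nat_lit 4) (nat_lit 2) (nat_lit 5) (nat_lit 2) (nat_lit 4) (nat_lit 510) (nat_lit 378) (nat_lit 312)) (XT.lf (nat_lit 0) (nat_lit 1933812364622) (nat_lit 76) (nat_lit 346692911922) (nat_lit 76) (nat_lit 345446278748) (nat_lit 1) (nat_lit 4) (nat_lit 2) (nat_lit 5) (nat_lit 2) (nat_lit 4) (nat_lit 511) (nat_lit 378) (nat_lit 311))) (XT.nd (nat_lit 78) (nat_lit 0) (nat_lit 0) (XT.lf (nat_lit 0) (nat_lit 2104307234141) (nat_lit 76)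 (nat_lit 366178189314) (nat_lit 76) (nat_lit 364931020931) (nat_lit 1) (nat_lit 4) (nat_lit 2) (nat_lit 5) (nat_lit 2) (nat_lit 4) (nat_lit 512) (nat_lit 378) (nat_lit 310)) (XT.lf (nat_lit 0) (nat_lit 2288428855153) (nat_lit 76) (nat_lit 387228915186) (nat_lit 76) (nat_lit 385981251240) (nat_lit 1) (nat_lit 4) (nat_lit 2) (nat_lit 5) (nat_lit 2) (nat_lit 4) (nat_lit 513) (nat_lit 378) (nat_lit 309))))))))
noncomputable def xc44 : XT := (XT.nd (nat_lit 57018) (nat_lit 0) (nat_lit 228) (XT.nd (nat_lit 936) (nat_lit 0) (nat_lit 0) (XT.nd (nat_lit 468) (nat_lit 0) (nat_lit 0) (XT.nd (nat_lit 234) (nat_lit 0) (nat_lit 0) (XT.nd (nat_lit 78) (nat_lit 0) (nat_lit 0) (XT.lf (nat_lit 0) (nat_lit 2487268318743) (nat_lit 76) (nat_lit 409969834580) (nat_lit 76) (nat_lit 408721711779) (nat_lit 1) (nat_lit 4) (nat_lit 2) (nat_lit 5) (nat_lit 2) (nat_lit 4) (nat_lit 514) (nat_lit 378) (nat_lit 308))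 (XT.nd (nat_lit 78) (nat_lit 0) (nat_lit 0) (XT.lf (nat_lit 0) (nat_lit 2702003932844) (nat_lit 76) (nat_lit 434535708501) (nat_lit 76) (nat_lit 433287160834) (nat_lit 1) (nat_lit 4) (nat_lit 2) (nat_lit 5) (nat_lit 2) (nat_lit 4) (nat_lit 515) (nat_lit 378) (nat_lit 307)) (XT.lf (nat_lit 0) (nat_lit 2933908204800) (nat_lit 76) (nat_lit 461072112496) (nat_lit 76) (nat_lit 459823171435) (nat_lit 1) (nat_lit 4) (nat_lit 2) (nat_lit 5) (nat_lit 2) (nat_lit 4) (nat_lit 516) (nat_lit 378) (nat_lit 306)))) (XT.nd (nat_lit 78) (nat_lit 0) (nat_lit 0) (XT.lf (nat_lit 0) (nat_lit 3184355382147) (nat_lit 76) (nat_lit 489736299332) (nat_lit 76) (nat_lit 488486994017) (nat_lit 1) (nat_lit 4) (nat_lit 2) (nat_lit 5) (nat_lit 2) (nat_lit 4) (nat_lit 517) (nat_lit 378) (nat_lit 305)) (XT.nd (nat_lit 78) (nat_lit 0) (nat_lit 0) (XT.lf (nat_lit 0) (nat_lit 3454829596307) (nat_lit 76) (nat_lit 520698130855)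 (nat_lit 76) (nat_lit 519448488267) (nat_lit 1) (nat_lit 4) (nat_lit 2) (nat_lit 5) (nat_lit 2) (nat_lit 4) (nat_lit 518) (nat_lit 378) (nat_lit 304)) (XT.lf (nat_lit 0) (nat_lit 3746933657438) (nat_lit 76) (nat_lit 554141084586) (nat_lit 76) (nat_lit 552891129709) (nat_lit 1) (nat_lit 4) (nat_lit 2) (nat_lit 5) (nat_lit 2) (nat_lit 4) (nat_lit 519) (nat_lit 378) (nat_lit 303))))) (XT.nd (nat_lit 234) (nat_lit 0) (nat_lit 0) (XT.nd (nat_lit 78) (nat_lit 0) (nat_lit 0) (XT.lf (nat_lit 0) (nat_lit 4062398552568) (nat_lit 76) (nat_lit 590263340991) (nat_lit 76) (nat_lit 589013096957) (nat_lit 1) (nat_lit 4) (nat_lit 2) (nat_lit 5) (nat_lit 2) (nat_lit 4) (nat_lit 520) (nat_lit 378) (nat_lit 302)) (XT.nd (nat_lit 78) (nat_lit 0) (nat_lit 0) (XT.lf (nat_lit 0) (nat_lit 4403093703300) (nat_lit 76) (nat_lit 629278957886) (nat_lit 76) (nat_lit 628028446115) (nat_lit 1) (nat_lit 4) (nat_lit 2) (nat_lit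 5) (nat_lit 2) (nat_lit 4) (nat_lit 521) (nat_lit 378) (nat_lit 301)) (XT.lf (nat_lit 0) (nat_lit 4771038043858) (nat_lit 76) (nat_lit 671419138927) (nat_lit 76) (nat_lit 670168379251) (nat_lit 1) (nat_lit 4) (nat_lit 2) (nat_lit 5) (nat_lit 2) (nat_lit 4) (nat_lit 522) (nat_lit 378) (nat_lit 300)))) (XT.nd (nat_lit 78) (nat_lit 0) (nat_lit 0) (XT.lf (nat_lit 0) (nat_lit 5168411985151) (nat_lit 76) (nat_lit 716933603704) (nat_lit 76) (nat_lit 715682614487) (nat_lit 1) (nat_lit 4) (nat_lit 2) (nat_lit 5) (nat_lit 2) (nat_lit 4) (nat_lit 523) (nat_lit 378) (nat_lit 299)) (XT.nd (nat_lit 78) (nat_lit 0) (nat_lit 0) (XT.lf (nat_lit 0) (nat_lit 5597570335718) (nat_lit 76) (nat_lit 766092067566) (nat_lit 76) (nat_lit 764840865810) (nat_lit 1) (nat_lit 4) (nat_lit 2) (nat_lit 5) (nat_lit 2) (nat_lit 4) (nat_lit 524) (nat_lit 378) (nat_lit 298)) (XT.lf (nat_lit 0) (nat_lit 6061056256157) (nat_lit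 76) (nat_lit 819185839927) (nat_lit 76) (nat_lit 817934441376) (nat_lit 1) (nat_lit 4) (nat_lit 2) (nat_lit 5) (nat_lit 2) (nat_lit 4) (nat_lit 525) (nat_lit 378) (nat_lit 297)))))) (XT.nd (nat_lit 468) (nat_lit 0) (nat_lit 0) (XT.nd (nat_lit 234) (nat_lit 0) (nat_lit 0) (XT.nd (nat_lit 78) (nat_lit 0) (nat_lit 0) (XT.lf (nat_lit 0) (nat_lit 6561616329700) (nat_lit 76) (nat_lit 876529550550) (nat_lit 76) (nat_lit 875277969781) (nat_lit 1) (nat_lit 4) (nat_lit 2) (nat_lit 5) (nat_lit 2) (nat_lit 4) (nat_lit 526) (nat_lit 378) (nat_lit 296)) (XT.nd (nat_lit 78) (nat_lit 0) (nat_lit 0) (XT.lf (nat_lit 0) (nat_lit 7102216838263) (nat_lit 76) (nat_lit 938463014015) (nat_lit 76) (nat_lit 937211264526) (nat_lit 1) (nat_lit 4) (nat_lit 2) (nat_lit 5) (nat_lit 2) (nat_lit 4) (nat_lit 527) (nat_lit 378) (nat_lit 295)) (XT.lf (nat_lit 0) (nat_lit 7686061340415) (nat_lit 76) (nat_lit 1005353243441)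 (nat_lit 76) (nat_lit 1004101337729) (nat_lit 1) (nat_lit 4) (nat_lit 2) (nat_lit 5) (nat_lit 2) (nat_lit 4) (nat_lit 528) (nat_lit 378) (nat_lit 294)))) (XT.nd (nat_lit 78) (nat_lit 0) (nat_lit 0) (XT.lf (nat_lit 0) (nat_lit 8316609655430) (nat_lit 76) (nat_lit 1077596625371) (nat_lit 76) (nat_lit 1076344575009) (nat_lit 1) (nat_lit 4) (nat_lit 2) (nat_lit 5) (nat_lit 2) (nat_lit 4) (nat_lit 529) (nat_lit 378) (nat_lit 293)) (XT.nd (nat_lit 78) (nat_lit 0) (nat_lit 0) (XT.lf (nat_lit 0) (nat_lit 8997598365914) (nat_lit 76) (nat_lit 1155621268735) (nat_lit 76) (nat_lit 1154369084438) (nat_lit 1) (nat_lit 4) (nat_lit 2) (nat_lit 5) (nat_lit 2) (nat_lit 4) (nat_lit 530) (nat_lit 378) (nat_lit 292)) (XT.lf (nat_lit 0) (nat_lit 9733062960523) (nat_lit 76) (nat_lit 1239889541791) (nat_lit 76) (nat_lit 1238637233479) (nat_lit 1) (nat_lit 4) (nat_lit 2) (nat_lit 5) (nat_lit 2) (nat_lit 4) (nat_lit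 531) (nat_lit 378) (nat_lit 291))))) (XT.nd (nat_lit 234) (nat_lit 0) (nat_lit 0) (XT.nd (nat_lit 78) (nat_lit 0) (nat_lit 0) (XT.lf (nat_lit 0) (nat_lit 10527361747964) (nat_lit 76) (nat_lit 1330900812083) (nat_lit 76) (nat_lit 1329648388943) (nat_lit 1) (nat_lit 4) (nat_lit 2) (nat_lit 5) (nat_lit 2) (nat_lit 4) (nat_lit 532) (nat_lit 378) (nat_lit 290)) (XT.nd (nat_lit 78) (nat_lit 0) (nat_lit 0) (XT.lf (nat_lit 0) (nat_lit 11385201684015) (nat_lit 76) (nat_lit 1429194405656) (nat_lit 76) (nat_lit 1427941876194) (nat_lit 1) (nat_lit 4) (nat_lit 2) (nat_lit 5) (nat_lit 2) (nat_lit 4) (nat_lit 533) (nat_lit 378) (nat_lit 289)) (XT.lf (nat_lit 0) (nat_lit 12311666264594) (nat_lit 76) (nat_lit 1535352803065) (nat_lit 76) (nat_lit 1534100175157) (nat_lit 1) (nat_lit 4) (nat_lit 2) (nat_lit 5) (nat_lit 2) (nat_lit 4) (nat_lit 534) (nat_lit 378) (nat_lit 288)))) (XT.nd (nat_lit 55224) (nat_lit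 0) (nat_lit 1444) (XT.nd (nat_lit 78) (nat_lit 0) (nat_lit 0) (XT.lf (nat_lit 0) (nat_lit 13312245650179) (nat_lit 76) (nat_lit 1650005091110) (nat_lit 76) (nat_lit 1648752372047) (nat_lit 1) (nat_lit 4) (nat_lit 2) (nat_lit 5) (nat_lit 2) (nat_lit 4) (nat_lit 535) (nat_lit 378) (nat_lit 287)) (XT.lf (nat_lit 0) (nat_lit 14392869200091) (nat_lit 76) (nat_lit 1773830690757) (nat_lit 76) (nat_lit 1772577887292) (nat_lit 1) (nat_lit 4) (nat_lit 2) (nat_lit 5) (nat_lit 2) (nat_lit 4) (nat_lit 536) (nat_lit 378) (nat_lit 286))) (XT.nd (nat_lit 78) (nat_lit 0) (nat_lit 0) (XT.lf (nat_lit 0) (nat_lit 512545258) (nat_lit 152) (nat_lit 10028734274) (nat_lit 0) (nat_lit 512545258) (nat_lit 20) (nat_lit 5) (nat_lit 22) (nat_lit 4) (nat_lit 20) (nat_lit 4) (nat_lit 442) (nat_lit 379) (nat_lit 379)) (XT.lf (nat_lit 0) (nat_lit 10067879377) (nat_lit 152) (nat_lit 3168902683) (nat_lit 0) (nat_lit 9908702110)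 (nat_lit 20) (nat_lit 5) (nat_lit 22) (nat_lit 4) (nat_lit 20) (nat_lit 4) (nat_lit 443) (nat_lit 379) (nat_lit 378))))))) (XT.nd (nat_lit 936) (nat_lit 456) (nat_lit 0) (XT.nd (nat_lit 468) (nat_lit 304) (nat_lit 0) (XT.nd (nat_lit 234) (nat_lit 152) (nat_lit 0) (XT.nd (nat_lit 78) (nat_lit 228) (nat_lit 0) (XT.lf (nat_lit 0) (nat_lit 14915183748) (nat_lit 76) (nat_lit 4832329763) (nat_lit 76) (nat_lit 4525766137) (nat_lit 19) (nat_lit 4) (nat_lit 20) (nat_lit 5) (nat_lit 20) (nat_lit 4) (nat_lit 444) (nat_lit 379) (nat_lit 377)) (XT.nd (nat_lit 78) (nat_lit 76) (nat_lit 0) (XT.lf (nat_lit 0) (nat_lit 4426123980) (nat_lit 152) (nat_lit 17044088067) (nat_lit 0) (nat_lit 4015908724) (nat_lit 17) (nat_lit 5) (nat_lit 19) (nat_lit 4) (nat_lit 17) (nat_lit 4) (nat_lit 445) (nat_lit 379) (nat_lit 376)) (XT.lf (nat_lit 0) (nat_lit 284011599) (nat_lit 76) (nat_lit 13516849302) (nat_lit 76) (nat_lit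 12989634002) (nat_lit 16) (nat_lit 4) (nat_lit 17) (nat_lit 5) (nat_lit 17) (nat_lit 4) (nat_lit 446) (nat_lit 379) (nat_lit 375)))) (XT.nd (nat_lit 78) (nat_lit 152) (nat_lit 0) (XT.lf (nat_lit 0) (nat_lit 19087203469) (nat_lit 76) (nat_lit 4872422998) (nat_lit 76) (nat_lit 4236874325) (nat_lit 16) (nat_lit 4) (nat_lit 17) (nat_lit 5) (nat_lit 17) (nat_lit 4) (nat_lit 447) (nat_lit 379) (nat_lit 374)) (XT.nd (nat_lit 78) (nat_lit 0) (nat_lit 0) (XT.lf (nat_lit 0) (nat_lit 4871587550) (nat_lit 152) (nat_lit 20649817655) (nat_lit 0) (nat_lit 4190238150) (nat_lit 14) (nat_lit 5) (nat_lit 16) (nat_lit 4) (nat_lit 14) (nat_lit 4) (nat_lit 448) (nat_lit 379) (nat_lit 373)) (XT.lf (nat_lit 0) (nat_lit 14452325909) (nat_lit 152) (nat_lit 3204094080) (nat_lit 0) (nat_lit 13684977984) (nat_lit 14) (nat_lit 5) (nat_lit 16) (nat_lit 4) (nat_lit 14) (nat_lit 4) (nat_lit 449) (nat_lit 379) (nat_lit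 372))))) (XT.nd (nat_lit 234) (nat_lit 76) (nat_lit 0) (XT.nd (nat_lit 78) (nat_lit 152) (nat_lit 0) (XT.lf (nat_lit 0) (nat_lit 15644285346) (nat_lit 76) (nat_lit 9152234186) (nat_lit 76) (nat_lit 8305257997) (nat_lit 13) (nat_lit 4) (nat_lit 14) (nat_lit 5) (nat_lit 14) (nat_lit 4) (nat_lit 450) (nat_lit 379) (nat_lit 371)) (XT.nd (nat_lit 78) (nat_lit 0) (nat_lit 0) (XT.lf (nat_lit 0) (nat_lit 405663747) (nat_lit 76) (nat_lit 232014045) (nat_lit 152) (nat_lit 34385799920) (nat_lit 11) (nat_lit 5) (nat_lit 12) (nat_lit 5) (nat_lit 13) (nat_lit 4) (nat_lit 451) (nat_lit 379) (nat_lit 370)) (XT.lf (nat_lit 0) (nat_lit 10184813379) (nat_lit 152) (nat_lit 17600752790) (nat_lit 0) (nat_lit 9269096282) (nat_lit 11) (nat_lit 5) (nat_lit 13) (nat_lit 4) (nat_lit 11) (nat_lit 4) (nat_lit 452) (nat_lit 379) (nat_lit 369)))) (XT.nd (nat_lit 78) (nat_lit 0) (nat_lit 0) (XT.lf (nat_lit 0) (nat_lit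 55451772) (nat_lit 76) (nat_lit 20097288954) (nat_lit 76) (nat_lit 19123042706) (nat_lit 10) (nat_lit 4) (nat_lit 11) (nat_lit 5) (nat_lit 11) (nat_lit 4) (nat_lit 453) (nat_lit 379) (nat_lit 368)) (XT.nd (nat_lit 78) (nat_lit 0) (nat_lit 0) (XT.lf (nat_lit 0) (nat_lit 19424355764) (nat_lit 76) (nat_lit 11633740796) (nat_lit 76) (nat_lit 10605300890) (nat_lit 10) (nat_lit 4) (nat_lit 11) (nat_lit 5) (nat_lit 11) (nat_lit 4) (nat_lit 454) (nat_lit 379) (nat_lit 367)) (XT.lf (nat_lit 0) (nat_lit 39693913426) (nat_lit 76) (nat_lit 2826003108) (nat_lit 76) (nat_lit 1747383889) (nat_lit 10) (nat_lit 4) (nat_lit 11) (nat_lit 5) (nat_lit 11) (nat_lit 4) (nat_lit 455) (nat_lit 379) (nat_lit 366)))))) (XT.nd (nat_lit 468) (nat_lit 228) (nat_lit 0) (XT.nd (nat_lit 234) (nat_lit 0) (nat_lit 0) (XT.nd (nat_lit 78) (nat_lit 76) (nat_lit 0) (XT.lf (nat_lit 0) (nat_lit 7641806823) (nat_lit 152) (nat_lit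 32805499437) (nat_lit 0) (nat_lit 6600064650) (nat_lit 8) (nat_lit 5) (nat_lit 10) (nat_lit 4) (nat_lit 8) (nat_lit 4) (nat_lit 456) (nat_lit 379) (nat_lit 365)) (XT.nd (nat_lit 78) (nat_lit 76) (nat_lit 0) (XT.lf (nat_lit 0) (nat_lit 17589620996) (nat_lit 152) (nat_lit 15956400992) (nat_lit 0) (nat_lit 16508044868) (nat_lit 8) (nat_lit 5) (nat_lit 10) (nat_lit 4) (nat_lit 8) (nat_lit 4) (nat_lit 457) (nat_lit 379) (nat_lit 364)) (XT.lf (nat_lit 0) (nat_lit 1757268488) (nat_lit 76) (nat_lit 26340659006) (nat_lit 76) (nat_lit 25222199584) (nat_lit 7) (nat_lit 4) (nat_lit 8) (nat_lit 5) (nat_lit 8) (nat_lit 4) (nat_lit 458) (nat_lit 379) (nat_lit 363)))) (XT.nd (nat_lit 78) (nat_lit 0) (nat_lit 0) (XT.lf (nat_lit 0) (nat_lit 21238686006) (nat_lit 76) (nat_lit 18374065174) (nat_lit 76) (nat_lit 17221454554) (nat_lit 7) (nat_lit 4) (nat_lit 8) (nat_lit 5) (nat_lit 8) (nat_lit 4) (nat_lit 459)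 (nat_lit 379) (nat_lit 362)) (XT.nd (nat_lit 78) (nat_lit 0) (nat_lit 0) (XT.lf (nat_lit 0) (nat_lit 41763061200) (nat_lit 76) (nat_lit 10035307327) (nat_lit 76) (nat_lit 8851075229) (nat_lit 7) (nat_lit 4) (nat_lit 8) (nat_lit 5) (nat_lit 8) (nat_lit 4) (nat_lit 460) (nat_lit 379) (nat_lit 361)) (XT.lf (nat_lit 0) (nat_lit 63452019996) (nat_lit 76) (nat_lit 1274970605) (nat_lit 76) (nat_lit 61459359) (nat_lit 7) (nat_lit 4) (nat_lit 8) (nat_lit 5) (nat_lit 8) (nat_lit 4) (nat_lit 461) (nat_lit 379) (nat_lit 360))))) (XT.nd (nat_lit 234) (nat_lit 76) (nat_lit 0) (XT.nd (nat_lit 78) (nat_lit 0) (nat_lit 0) (XT.lf (nat_lit 0) (nat_lit 9376366274) (nat_lit 152) (nat_lit 51603076553) (nat_lit 0) (nat_lit 8227642601) (nat_lit 5) (nat_lit 5) (nat_lit 7) (nat_lit 4) (nat_lit 5) (nat_lit 4) (nat_lit 462) (nat_lit 379) (nat_lit 359)) (XT.nd (nat_lit 78) (nat_lit 0) (nat_lit 0) (XT.lf (nat_lit 0)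 (nat_lit 19416463860) (nat_lit 152) (nat_lit 36330078651) (nat_lit 0) (nat_lit 18244497455) (nat_lit 5) (nat_lit 5) (nat_lit 7) (nat_lit 4) (nat_lit 5) (nat_lit 4) (nat_lit 463) (nat_lit 379) (nat_lit 358)) (XT.lf (nat_lit 0) (nat_lit 30056029177) (nat_lit 152) (nat_lit 20255440324) (nat_lit 0) (nat_lit 28862541725) (nat_lit 5) (nat_lit 5) (nat_lit 7) (nat_lit 4) (nat_lit 5) (nat_lit 4) (nat_lit 464) (nat_lit 379) (nat_lit 357)))) (XT.nd (nat_lit 156) (nat_lit 0) (nat_lit 0) (XT.nd (nat_lit 78) (nat_lit 76) (nat_lit 0) (XT.lf (nat_lit 0) (nat_lit 41358111502) (nat_lit 152) (nat_lit 3283904456) (nat_lit 0) (nat_lit 40144697155) (nat_lit 5) (nat_lit 5) (nat_lit 7) (nat_lit 4) (nat_lit 5) (nat_lit 4) (nat_lit 465) (nat_lit 379) (nat_lit 356)) (XT.lf (nat_lit 0) (nat_lit 15458392412) (nat_lit 76) (nat_lit 38303068434) (nat_lit 76) (nat_lit 37071203257) (nat_lit 4) (nat_lit 4) (nat_lit 5) (nat_lit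 5) (nat_lit 5) (nat_lit 4) (nat_lit 466) (nat_lit 379) (nat_lit 355))) (XT.nd (nat_lit 78) (nat_lit 0) (nat_lit 0) (XT.lf (nat_lit 0) (nat_lit 35535698659) (nat_lit 76) (nat_lit 31540987051) (nat_lit 76) (nat_lit 30292037773) (nat_lit 4) (nat_lit 4) (nat_lit 5) (nat_lit 5) (nat_lit 5) (nat_lit 4) (nat_lit 467) (nat_lit 379) (nat_lit 354)) (XT.lf (nat_lit 0) (nat_lit 56894066323) (nat_lit 76) (nat_lit 24405487984) (nat_lit 76) (nat_lit 23140720093) (nat_lit 4) (nat_lit 4) (nat_lit 5) (nat_lit 5) (nat_lit 5) (nat_lit 4) (nat_lit 468) (nat_lit 379) (nat_lit 353))))))))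
noncomputable def xc45 : XT := (XT.nd (nat_lit 1950) (nat_lit 0) (nat_lit 0) (XT.nd (nat_lit 936) (nat_lit 76) (nat_lit 0) (XT.nd (nat_lit 468) (nat_lit 0) (nat_lit 0) (XT.nd (nat_lit 234) (nat_lit 0) (nat_lit 0) (XT.nd (nat_lit 78) (nat_lit 152) (nat_lit 0) (XT.lf (nat_lit 0) (nat_lit 79660063510) (nat_lit 76) (nat_lit 16854286793) (nat_lit 76) (nat_lit 15574872039) (nat_lit 4) (nat_lit 4) (nat_lit 5) (nat_lit 5) (nat_lit 5) (nat_lit 4) (nat_lit 469) (nat_lit 379) (nat_lit 352)) (XT.nd (nat_lit 78) (nat_lit 152) (nat_lit 0) (XT.lf (nat_lit 0) (nat_lit 103968599833) (nat_lit 76) (nat_lit 8842635620) (nat_lit 76) (nat_lit 7549658956) (nat_lit 4) (nat_lit 4) (nat_lit 5) (nat_lit 5) (nat_lit 5) (nat_lit 4) (nat_lit 470) (nat_lit 379) (nat_lit 351)) (XT.lf (nat_lit 0) (nat_lit 669268932) (nat_lit 76) (nat_lit 280155548) (nat_lit 152) (nat_lit 128351705476) (nat_lit 2) (nat_lit 5) (nat_lit 3)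 (nat_lit 5) (nat_lit 4) (nat_lit 4) (nat_lit 471) (nat_lit 379) (nat_lit 350)))) (XT.nd (nat_lit 78) (nat_lit 0) (nat_lit 0) (XT.lf (nat_lit 0) (nat_lit 10267816637) (nat_lit 152) (nat_lit 119581076916) (nat_lit 0) (nat_lit 9048222988) (nat_lit 2) (nat_lit 5) (nat_lit 4) (nat_lit 4) (nat_lit 2) (nat_lit 4) (nat_lit 472) (nat_lit 379) (nat_lit 349)) (XT.nd (nat_lit 78) (nat_lit 0) (nat_lit 0) (XT.lf (nat_lit 0) (nat_lit 20220215817) (nat_lit 152) (nat_lit 110058830159) (nat_lit 0) (nat_lit 18990653760) (nat_lit 2) (nat_lit 5) (nat_lit 4) (nat_lit 4) (nat_lit 2) (nat_lit 4) (nat_lit 473) (nat_lit 379) (nat_lit 348)) (XT.lf (nat_lit 0) (nat_lit 30858861454) (nat_lit 152) (nat_lit 100001954877) (nat_lit 0) (nat_lit 29620069388) (nat_lit 2) (nat_lit 5) (nat_lit 4) (nat_lit 4) (nat_lit 2) (nat_lit 4) (nat_lit 474) (nat_lit 379) (nat_lit 347))))) (XT.nd (nat_lit 234) (nat_lit 0) (nat_lit 0) (XT.nd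 (nat_lit 78) (nat_lit 0) (nat_lit 0) (XT.lf (nat_lit 0) (nat_lit 42246797373) (nat_lit 152) (nat_lit 89350854772) (nat_lit 0) (nat_lit 40999459003) (nat_lit 2) (nat_lit 5) (nat_lit 4) (nat_lit 4) (nat_lit 2) (nat_lit 4) (nat_lit 475) (nat_lit 379) (nat_lit 346)) (XT.nd (nat_lit 78) (nat_lit 0) (nat_lit 0) (XT.lf (nat_lit 0) (nat_lit 54451507639) (nat_lit 152) (nat_lit 78042412213) (nat_lit 0) (nat_lit 53196256025) (nat_lit 2) (nat_lit 5) (nat_lit 4) (nat_lit 4) (nat_lit 2) (nat_lit 4) (nat_lit 476) (nat_lit 379) (nat_lit 345)) (XT.lf (nat_lit 0) (nat_lit 67545316462) (nat_lit 152) (nat_lit 66009614207) (nat_lit 0) (nat_lit 66282737769) (nat_lit 2) (nat_lit 5) (nat_lit 4) (nat_lit 4) (nat_lit 2) (nat_lit 4) (nat_lit 477) (nat_lit 379) (nat_lit 344)))) (XT.nd (nat_lit 78) (nat_lit 0) (nat_lit 0) (XT.lf (nat_lit 0) (nat_lit 81605816782) (nat_lit 152) (nat_lit 53181155286) (nat_lit 0) (nat_lit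 80336453757) (nat_lit 2) (nat_lit 5) (nat_lit 4) (nat_lit 4) (nat_lit 2) (nat_lit 4) (nat_lit 478) (nat_lit 379) (nat_lit 343)) (XT.nd (nat_lit 78) (nat_lit 0) (nat_lit 0) (XT.lf (nat_lit 0) (nat_lit 96716330082) (nat_lit 152) (nat_lit 39481014951) (nat_lit 0) (nat_lit 95440685269) (nat_lit 2) (nat_lit 5) (nat_lit 4) (nat_lit 4) (nat_lit 2) (nat_lit 4) (nat_lit 479) (nat_lit 379) (nat_lit 342)) (XT.lf (nat_lit 0) (nat_lit 112966400145) (nat_lit 152) (nat_lit 24828007186) (nat_lit 0) (nat_lit 111684938862) (nat_lit 2) (nat_lit 5) (nat_lit 4) (nat_lit 4) (nat_lit 2) (nat_lit 4) (nat_lit 480) (nat_lit 379) (nat_lit 341)))))) (XT.nd (nat_lit 468) (nat_lit 0) (nat_lit 0) (XT.nd (nat_lit 234) (nat_lit 0) (nat_lit 0) (XT.nd (nat_lit 78) (nat_lit 76) (nat_lit 0) (XT.lf (nat_lit 0) (nat_lit 130452323684) (nat_lit 152) (nat_lit 9135299352) (nat_lit 0) (nat_lit 129165476779) (nat_lit 2) (nat_lit 5)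 (nat_lit 4) (nat_lit 4) (nat_lit 2) (nat_lit 4) (nat_lit 481) (nat_lit 379) (nat_lit 340)) (XT.nd (nat_lit 78) (nat_lit 0) (nat_lit 0) (XT.lf (nat_lit 0) (nat_lit 8095049537) (nat_lit 76) (nat_lit 141377357583) (nat_lit 76) (nat_lit 140085523992) (nat_lit 1) (nat_lit 4) (nat_lit 2) (nat_lit 5) (nat_lit 2) (nat_lit 4) (nat_lit 482) (nat_lit 379) (nat_lit 339)) (XT.lf (nat_lit 0) (nat_lit 27103743078) (nat_lit 76) (nat_lit 143102252551) (nat_lit 76) (nat_lit 141805801658) (nat_lit 1) (nat_lit 4) (nat_lit 2) (nat_lit 5) (nat_lit 2) (nat_lit 4) (nat_lit 483) (nat_lit 379) (nat_lit 338)))) (XT.nd (nat_lit 78) (nat_lit 0) (nat_lit 0) (XT.lf (nat_lit 0) (nat_lit 47522376705) (nat_lit 76) (nat_lit 145022304816) (nat_lit 76) (nat_lit 143721578643) (nat_lit 1) (nat_lit 4) (nat_lit 2) (nat_lit 5) (nat_lit 2) (nat_lit 4) (nat_lit 484) (nat_lit 379) (nat_lit 337)) (XT.nd (nat_lit 78) (nat_lit 0) (nat_lit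 0) (XT.lf (nat_lit 0) (nat_lit 69471949728) (nat_lit 76) (nat_lit 147148892462) (nat_lit 76) (nat_lit 145844207697) (nat_lit 1) (nat_lit 4) (nat_lit 2) (nat_lit 5) (nat_lit 2) (nat_lit 4) (nat_lit 485) (nat_lit 379) (nat_lit 336)) (XT.lf (nat_lit 0) (nat_lit 93082533691) (nat_lit 76) (nat_lit 149494617493) (nat_lit 76) (nat_lit 148186267364) (nat_lit 1) (nat_lit 4) (nat_lit 2) (nat_lit 5) (nat_lit 2) (nat_lit 4) (nat_lit 486) (nat_lit 379) (nat_lit 335))))) (XT.nd (nat_lit 234) (nat_lit 0) (nat_lit 0) (XT.nd (nat_lit 78) (nat_lit 0) (nat_lit 0) (XT.lf (nat_lit 0) (nat_lit 118494043167) (nat_lit 76) (nat_lit 152073380500) (nat_lit 76) (nat_lit 150761636517) (nat_lit 1) (nat_lit 4) (nat_lit 2) (nat_lit 5) (nat_lit 2) (nat_lit 4) (nat_lit 487) (nat_lit 379) (nat_lit 334)) (XT.nd (nat_lit 78) (nat_lit 0) (nat_lit 0) (XT.lf (nat_lit 0) (nat_lit 145857064877) (nat_lit 76) (nat_lit 154900463042)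 (nat_lit 76) (nat_lit 153585576601) (nat_lit 1) (nat_lit 4) (nat_lit 2) (nat_lit 5) (nat_lit 2) (nat_lit 4) (nat_lit 488) (nat_lit 379) (nat_lit 333)) (XT.lf (nat_lit 0) (nat_lit 175333750061) (nat_lit 76) (nat_lit 157992618201) (nat_lit 76) (nat_lit 156674822076) (nat_lit 1) (nat_lit 4) (nat_lit 2) (nat_lit 5) (nat_lit 2) (nat_lit 4) (nat_lit 489) (nat_lit 379) (nat_lit 332)))) (XT.nd (nat_lit 156) (nat_lit 0) (nat_lit 0) (XT.nd (nat_lit 78) (nat_lit 0) (nat_lit 0) (XT.lf (nat_lit 0) (nat_lit 207098775373) (nat_lit 76) (nat_lit 161368169859) (nat_lit 76) (nat_lit 160047679583) (nat_lit 1) (nat_lit 4) (nat_lit 2) (nat_lit 5) (nat_lit 2) (nat_lit 4) (nat_lit 490) (nat_lit 379) (nat_lit 331)) (XT.lf (nat_lit 0) (nat_lit 241340377999) (nat_lit 76) (nat_lit 165047121286) (nat_lit 76) (nat_lit 163724136424) (nat_lit 1) (nat_lit 4) (nat_lit 2) (nat_lit 5) (nat_lit 2) (nat_lit 4) (nat_lit 491)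 (nat_lit 379) (nat_lit 330))) (XT.nd (nat_lit 78) (nat_lit 0) (nat_lit 0) (XT.lf (nat_lit 0) (nat_lit 278261471141) (nat_lit 76) (nat_lit 169051273674) (nat_lit 76) (nat_lit 167725979012) (nat_lit 1) (nat_lit 4) (nat_lit 2) (nat_lit 5) (nat_lit 2) (nat_lit 4) (nat_lit 492) (nat_lit 379) (nat_lit 329)) (XT.lf (nat_lit 0) (nat_lit 318080846460) (nat_lit 76) (nat_lit 173404355335) (nat_lit 76) (nat_lit 172076921968) (nat_lit 1) (nat_lit 4) (nat_lit 2) (nat_lit 5) (nat_lit 2) (nat_lit 4) (nat_lit 493) (nat_lit 379) (nat_lit 328))))))) (XT.nd (nat_lit 936) (nat_lit 0) (nat_lit 0) (XT.nd (nat_lit 468) (nat_lit 0) (nat_lit 0) (XT.nd (nat_lit 234) (nat_lit 0) (nat_lit 0) (XT.nd (nat_lit 78) (nat_lit 0) (nat_lit 0) (XT.lf (nat_lit 0) (nat_lit 361034470627) (nat_lit 76) (nat_lit 178132162307) (nat_lit 76) (nat_lit 176802748659) (nat_lit 1) (nat_lit 4) (nat_lit 2) (nat_lit 5) (nat_lit 2) (nat_lit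 4) (nat_lit 494) (nat_lit 379) (nat_lit 327)) (XT.nd (nat_lit 78) (nat_lit 0) (nat_lit 0) (XT.lf (nat_lit 0) (nat_lit 407376883635) (nat_lit 76) (nat_lit 183262711225) (nat_lit 76) (nat_lit 181931463983) (nat_lit 1) (nat_lit 4) (nat_lit 2) (nat_lit 5) (nat_lit 2) (nat_lit 4) (nat_lit 495) (nat_lit 379) (nat_lit 326)) (XT.lf (nat_lit 0) (nat_lit 457382707192) (nat_lit 76) (nat_lit 188826405342) (nat_lit 76) (nat_lit 187493460328) (nat_lit 1) (nat_lit 4) (nat_lit 2) (nat_lit 5) (nat_lit 2) (nat_lit 4) (nat_lit 496) (nat_lit 379) (nat_lit 325)))) (XT.nd (nat_lit 78) (nat_lit 0) (nat_lit 0) (XT.lf (nat_lit 0) (nat_lit 511348272104) (nat_lit 76) (nat_lit 194856214697) (nat_lit 76) (nat_lit 193521697671) (nat_lit 1) (nat_lit 4) (nat_lit 2) (nat_lit 5) (nat_lit 2) (nat_lit 4) (nat_lit 497) (nat_lit 379) (nat_lit 324)) (XT.nd (nat_lit 78) (nat_lit 0) (nat_lit 0) (XT.lf (nat_lit 0) (nat_lit 569593374311)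 (nat_lit 76) (nat_lit 201387871493) (nat_lit 76) (nat_lit 200051898901) (nat_lit 1) (nat_lit 4) (nat_lit 2) (nat_lit 5) (nat_lit 2) (nat_lit 4) (nat_lit 498) (nat_lit 379) (nat_lit 323)) (XT.lf (nat_lit 0) (nat_lit 632463169974) (nat_lit 76) (nat_lit 208460081845) (nat_lit 76) (nat_lit 207122761506) (nat_lit 1) (nat_lit 4) (nat_lit 2) (nat_lit 5) (nat_lit 2) (nat_lit 4) (nat_lit 499) (nat_lit 379) (nat_lit 322))))) (XT.nd (nat_lit 234) (nat_lit 0) (nat_lit 0) (XT.nd (nat_lit 78) (nat_lit 0) (nat_lit 0) (XT.lf (nat_lit 0) (nat_lit 700330220845) (nat_lit 76) (nat_lit 216114755147) (nat_lit 76) (nat_lit 214776186895) (nat_lit 1) (nat_lit 4) (nat_lit 2) (nat_lit 5) (nat_lit 2) (nat_lit 4) (nat_lit 500) (nat_lit 379) (nat_lit 321)) (XT.nd (nat_lit 78) (nat_lit 0) (nat_lit 0) (XT.lf (nat_lit 0) (nat_lit 773596702041) (nat_lit 76) (nat_lit 224397252427) (nat_lit 76) (nat_lit 223057528699) (nat_lit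 1) (nat_lit 4) (nat_lit 2) (nat_lit 5) (nat_lit 2) (nat_lit 4) (nat_lit 501) (nat_lit 379) (nat_lit 320)) (XT.lf (nat_lit 0) (nat_lit 852696785302) (nat_lit 76) (nat_lit 233356655149) (nat_lit 76) (nat_lit 232015861537) (nat_lit 1) (nat_lit 4) (nat_lit 2) (nat_lit 5) (nat_lit 2) (nat_lit 4) (nat_lit 502) (nat_lit 379) (nat_lit 319)))) (XT.nd (nat_lit 78) (nat_lit 0) (nat_lit 0) (XT.lf (nat_lit 0) (nat_lit 938099211862) (nat_lit 76) (nat_lit 243046056071) (nat_lit 76) (nat_lit 241704271825) (nat_lit 1) (nat_lit 4) (nat_lit 2) (nat_lit 5) (nat_lit 2) (nat_lit 4) (nat_lit 503) (nat_lit 379) (nat_lit 318)) (XT.nd (nat_lit 78) (nat_lit 0) (nat_lit 0) (XT.lf (nat_lit 0) (nat_lit 1030310070176) (nat_lit 76) (nat_lit 253522873865) (nat_lit 76) (nat_lit 252180172365) (nat_lit 1) (nat_lit 4) (nat_lit 2) (nat_lit 5) (nat_lit 2) (nat_lit 4) (nat_lit 504) (nat_lit 379) (nat_lit 317)) (XT.lf (nat_lit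 0) (nat_lit 1129875794957) (nat_lit 76) (nat_lit 264849193376) (nat_lit 76) (nat_lit 263505642568) (nat_lit 1) (nat_lit 4) (nat_lit 2) (nat_lit 5) (nat_lit 2) (nat_lit 4) (nat_lit 505) (nat_lit 379) (nat_lit 316)))))) (XT.nd (nat_lit 468) (nat_lit 0) (nat_lit 0) (XT.nd (nat_lit 234) (nat_lit 0) (nat_lit 0) (XT.nd (nat_lit 78) (nat_lit 0) (nat_lit 0) (XT.lf (nat_lit 0) (nat_lit 1237386405318) (nat_lit 76) (nat_lit 277092133536) (nat_lit 76) (nat_lit 275747796331) (nat_lit 1) (nat_lit 4) (nat_lit 2) (nat_lit 5) (nat_lit 2) (nat_lit 4) (nat_lit 506) (nat_lit 379) (nat_lit 315)) (XT.nd (nat_lit 78) (nat_lit 0) (nat_lit 0) (XT.lf (nat_lit 0) (nat_lit 1353479001170) (nat_lit 76) (nat_lit 290324245101) (nat_lit 76) (nat_lit 288979179750) (nat_lit 1) (nat_lit 4) (nat_lit 2) (nat_lit 5) (nat_lit 2) (nat_lit 4) (nat_lit 507) (nat_lit 379) (nat_lit 314)) (XT.lf (nat_lit 0) (nat_lit 1478841538638)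 (nat_lit 76) (nat_lit 304623940584) (nat_lit 76) (nat_lit 303278201024) (nat_lit 1) (nat_lit 4) (nat_lit 2) (nat_lit 5) (nat_lit 2) (nat_lit 4) (nat_lit 508) (nat_lit 379) (nat_lit 313)))) (XT.nd (nat_lit 78) (nat_lit 0) (nat_lit 0) (XT.lf (nat_lit 0) (nat_lit 1614216906833) (nat_lit 76) (nat_lit 320075958921) (nat_lit 76) (nat_lit 318729595093) (nat_lit 1) (nat_lit 4) (nat_lit 2) (nat_lit 5) (nat_lit 2) (nat_lit 4) (nat_lit 509) (nat_lit 379) (nat_lit 312)) (XT.nd (nat_lit 78) (nat_lit 0) (nat_lit 0) (XT.lf (nat_lit 0) (nat_lit 1760407330157) (nat_lit 76) (nat_lit 336771867628) (nat_lit 76) (nat_lit 335424925775) (nat_lit 1) (nat_lit 4) (nat_lit 2) (nat_lit 5) (nat_lit 2) (nat_lit 4) (nat_lit 510) (nat_lit 379) (nat_lit 311)) (XT.lf (nat_lit 0) (nat_lit 1918279122232) (nat_lit 76) (nat_lit 354810605423) (nat_lit 76) (nat_lit 353463128362) (nat_lit 1) (nat_lit 4) (nat_lit 2) (nat_lit 5)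 (nat_lit 2) (nat_lit 4) (nat_lit 511) (nat_lit 379) (nat_lit 310))))) (XT.nd (nat_lit 234) (nat_lit 0) (nat_lit 0) (XT.nd (nat_lit 78) (nat_lit 0) (nat_lit 0) (XT.lf (nat_lit 0) (nat_lit 2088767819603) (nat_lit 76) (nat_lit 374299068531) (nat_lit 76) (nat_lit 372951095906) (nat_lit 1) (nat_lit 4) (nat_lit 2) (nat_lit 5) (nat_lit 2) (nat_lit 4) (nat_lit 512) (nat_lit 379) (nat_lit 309)) (XT.nd (nat_lit 78) (nat_lit 0) (nat_lit 0) (XT.lf (nat_lit 0) (nat_lit 2272883725661) (nat_lit 76) (nat_lit 395352744140) (nat_lit 76) (nat_lit 394004312660) (nat_lit 1) (nat_lit 4) (nat_lit 2) (nat_lit 5) (nat_lit 2) (nat_lit 4) (nat_lit 513) (nat_lit 379) (nat_lit 308)) (XT.lf (nat_lit 0) (nat_lit 2471717897628) (nat_lit 76) (nat_lit 418096394772) (nat_lit 76) (nat_lit 416747538426) (nat_lit 1) (nat_lit 4) (nat_lit 2) (nat_lit 5) (nat_lit 2) (nat_lit 4) (nat_lit 514) (nat_lit 379) (nat_lit 307)))) (XT.nd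 (nat_lit 156) (nat_lit 0) (nat_lit 0) (XT.nd (nat_lit 78) (nat_lit 0) (nat_lit 0) (XT.lf (nat_lit 0) (nat_lit 2686448612079) (nat_lit 76) (nat_lit 442664797616) (nat_lit 76) (nat_lit 441315547876) (nat_lit 1) (nat_lit 4) (nat_lit 2) (nat_lit 5) (nat_lit 2) (nat_lit 4) (nat_lit 515) (nat_lit 379) (nat_lit 306)) (XT.lf (nat_lit 0) (nat_lit 2918348347320) (nat_lit 76) (nat_lit 469203543208) (nat_lit 76) (nat_lit 467853929214) (nat_lit 1) (nat_lit 4) (nat_lit 2) (nat_lit 5) (nat_lit 2) (nat_lit 4) (nat_lit 516) (nat_lit 379) (nat_lit 305))) (XT.nd (nat_lit 78) (nat_lit 0) (nat_lit 0) (XT.lf (nat_lit 0) (nat_lit 3168791324006) (nat_lit 76) (nat_lit 497869898188) (nat_lit 76) (nat_lit 496519946921) (nat_lit 1) (nat_lit 4) (nat_lit 2) (nat_lit 5) (nat_lit 2) (nat_lit 4) (nat_lit 517) (nat_lit 379) (nat_lit 304)) (XT.lf (nat_lit 0) (nat_lit 3439261648665) (nat_lit 76) (nat_lit 528833737252) (nat_lit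 76) (nat_lit 527483473697) (nat_lit 1) (nat_lit 4) (nat_lit 2) (nat_lit 5) (nat_lit 2) (nat_lit 4) (nat_lit 518) (nat_lit 379) (nat_lit 303))))))))
noncomputable def xc46 : XT := (XT.nd (nat_lit 56940) (nat_lit 0) (nat_lit 76) (XT.nd (nat_lit 936) (nat_lit 0) (nat_lit 0) (XT.nd (nat_lit 468) (nat_lit 0) (nat_lit 0) (XT.nd (nat_lit 234) (nat_lit 0) (nat_lit 0) (XT.nd (nat_lit 78) (nat_lit 0) (nat_lit 0) (XT.lf (nat_lit 0) (nat_lit 3731362108407) (nat_lit 76) (nat_lit 562278549818) (nat_lit 76) (nat_lit 560927997105) (nat_lit 1) (nat_lit 4) (nat_lit 2) (nat_lit 5) (nat_lit 2) (nat_lit 4) (nat_lit 519) (nat_lit 379) (nat_lit 302)) (XT.nd (nat_lit 78) (nat_lit 0) (nat_lit 0) (XT.lf (nat_lit 0) (nat_lit 4046823668917) (nat_lit 76) (nat_lit 598402527366) (nat_lit 76) (nat_lit 597051706916) (nat_lit 1) (nat_lit 4) (nat_lit 2) (nat_lit 5) (nat_lit 2) (nat_lit 4) (nat_lit 520) (nat_lit 379) (nat_lit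 301)) (XT.lf (nat_lit 0) (nat_lit 4387515732037) (nat_lit 76) (nat_lit 637419737912) (nat_lit 76) (nat_lit 636068669557) (nat_lit 1) (nat_lit 4) (nat_lit 2) (nat_lit 5) (nat_lit 2) (nat_lit 4) (nat_lit 521) (nat_lit 379) (nat_lit 300)))) (XT.nd (nat_lit 78) (nat_lit 0) (nat_lit 0) (XT.lf (nat_lit 0) (nat_lit 4755457213696) (nat_lit 76) (nat_lit 679561394556) (nat_lit 76) (nat_lit 678210096659) (nat_lit 1) (nat_lit 4) (nat_lit 2) (nat_lit 5) (nat_lit 2) (nat_lit 4) (nat_lit 522) (nat_lit 379) (nat_lit 299)) (XT.nd (nat_lit 78) (nat_lit 0) (nat_lit 0) (XT.lf (nat_lit 0) (nat_lit 5152828507860) (nat_lit 76) (nat_lit 725077225632) (nat_lit 76) (nat_lit 723725715197) (nat_lit 1) (nat_lit 4) (nat_lit 2) (nat_lit 5) (nat_lit 2) (nat_lit 4) (nat_lit 523) (nat_lit 379) (nat_lit 298)) (XT.lf (nat_lit 0) (nat_lit 5581984407383) (nat_lit 76) (nat_lit 774236954586) (nat_lit 76) (nat_lit 772885247355)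 (nat_lit 1) (nat_lit 4) (nat_lit 2) (nat_lit 5) (nat_lit 2) (nat_lit 4) (nat_lit 524) (nat_lit 379) (nat_lit 297))))) (XT.nd (nat_lit 234) (nat_lit 0) (nat_lit 0) (XT.nd (nat_lit 78) (nat_lit 0) (nat_lit 0) (XT.lf (nat_lit 0) (nat_lit 6045468058335) (nat_lit 76) (nat_lit 827331898328) (nat_lit 76) (nat_lit 825980008879) (nat_lit 1) (nat_lit 4) (nat_lit 2) (nat_lit 5) (nat_lit 2) (nat_lit 4) (nat_lit 525) (nat_lit 379) (nat_lit 296)) (XT.nd (nat_lit 78) (nat_lit 0) (nat_lit 0) (XT.lf (nat_lit 0) (nat_lit 6546026030501) (nat_lit 76) (nat_lit 884676693563) (nat_lit 76) (nat_lit 883324635394) (nat_lit 1) (nat_lit 4) (nat_lit 2) (nat_lit 5) (nat_lit 2) (nat_lit 4) (nat_lit 526) (nat_lit 379) (nat_lit 295)) (XT.lf (nat_lit 0) (nat_lit 7086624593345) (nat_lit 76) (nat_lit 946611161299) (nat_lit 76) (nat_lit 945258946908) (nat_lit 1) (nat_lit 4) (nat_lit 2) (nat_lit 5) (nat_lit 2) (nat_lit 4) (nat_lit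 527) (nat_lit 379) (nat_lit 294)))) (XT.nd (nat_lit 78) (nat_lit 0) (nat_lit 0) (XT.lf (nat_lit 0) (nat_lit 7670467293906) (nat_lit 76) (nat_lit 1013502320604) (nat_lit 76) (nat_lit 1012149961563) (nat_lit 1) (nat_lit 4) (nat_lit 2) (nat_lit 5) (nat_lit 2) (nat_lit 4) (nat_lit 528) (nat_lit 379) (nat_lit 293)) (XT.nd (nat_lit 78) (nat_lit 0) (nat_lit 0) (XT.lf (nat_lit 0) (nat_lit 8301013940781) (nat_lit 76) (nat_lit 1085746563534) (nat_lit 76) (nat_lit 1084394070557) (nat_lit 1) (nat_lit 4) (nat_lit 2) (nat_lit 5) (nat_lit 2) (nat_lit 4) (nat_lit 529) (nat_lit 379) (nat_lit 292)) (XT.lf (nat_lit 0) (nat_lit 8982001106691) (nat_lit 76) (nat_lit 1163772004121) (nat_lit 76) (nat_lit 1162419387130) (nat_lit 1) (nat_lit 4) (nat_lit 2) (nat_lit 5) (nat_lit 2) (nat_lit 4) (nat_lit 530) (nat_lit 379) (nat_lit 291)))))) (XT.nd (nat_lit 55458) (nat_lit 0) (nat_lit 1140) (XT.nd (nat_lit 234) (nat_lit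 0) (nat_lit 0) (XT.nd (nat_lit 78) (nat_lit 0) (nat_lit 0) (XT.lf (nat_lit 0) (nat_lit 9717464271138) (nat_lit 76) (nat_lit 1248041015346) (nat_lit 76) (nat_lit 1246688283526) (nat_lit 1) (nat_lit 4) (nat_lit 2) (nat_lit 5) (nat_lit 2) (nat_lit 4) (nat_lit 531) (nat_lit 379) (nat_lit 290)) (XT.nd (nat_lit 78) (nat_lit 0) (nat_lit 0) (XT.lf (nat_lit 0) (nat_lit 10511761734355) (nat_lit 76) (nat_lit 1339052969127) (nat_lit 76) (nat_lit 1337700130985) (nat_lit 1) (nat_lit 4) (nat_lit 2) (nat_lit 5) (nat_lit 2) (nat_lit 4) (nat_lit 532) (nat_lit 379) (nat_lit 289)) (XT.lf (nat_lit 0) (nat_lit 11369600444274) (nat_lit 76) (nat_lit 1437347195560) (nat_lit 76) (nat_lit 1435994258973) (nat_lit 1) (nat_lit 4) (nat_lit 2) (nat_lit 5) (nat_lit 2) (nat_lit 4) (nat_lit 533) (nat_lit 379) (nat_lit 288)))) (XT.nd (nat_lit 78) (nat_lit 0) (nat_lit 0) (XT.lf (nat_lit 0) (nat_lit 12296063889545) (nat_lit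 76) (nat_lit 1543506178952) (nat_lit 76) (nat_lit 1542153151210) (nat_lit 1) (nat_lit 4) (nat_lit 2) (nat_lit 5) (nat_lit 2) (nat_lit 4) (nat_lit 534) (nat_lit 379) (nat_lit 287)) (XT.nd (nat_lit 55068) (nat_lit 0) (nat_lit 1672) (XT.lf (nat_lit 0) (nat_lit 13296642223918) (nat_lit 76) (nat_lit 1658159009573) (nat_lit 76) (nat_lit 1656805897429) (nat_lit 1) (nat_lit 4) (nat_lit 2) (nat_lit 5) (nat_lit 2) (nat_lit 4) (nat_lit 535) (nat_lit 379) (nat_lit 286)) (XT.lf (nat_lit 0) (nat_lit 2435886054) (nat_lit 152) (nat_lit 5227182758) (nat_lit 0) (nat_lit 2435886054) (nat_lit 23) (nat_lit 5) (nat_lit 25) (nat_lit 4) (nat_lit 23) (nat_lit 4) (nat_lit 440) (nat_lit 380) (nat_lit 380))))) (XT.nd (nat_lit 234) (nat_lit 304) (nat_lit 0) (XT.nd (nat_lit 78) (nat_lit 152) (nat_lit 0) (XT.lf (nat_lit 0) (nat_lit 6098045245) (nat_lit 76) (nat_lit 7604908099) (nat_lit 76) (nat_lit 7419243734) (nat_lit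 22) (nat_lit 4) (nat_lit 23) (nat_lit 5) (nat_lit 23) (nat_lit 4) (nat_lit 441) (nat_lit 380) (nat_lit 379)) (XT.nd (nat_lit 78) (nat_lit 0) (nat_lit 0) (XT.lf (nat_lit 0) (nat_lit 965794545) (nat_lit 152) (nat_lit 20525649899) (nat_lit 0) (nat_lit 634705829) (nat_lit 20) (nat_lit 5) (nat_lit 22) (nat_lit 4) (nat_lit 20) (nat_lit 4) (nat_lit 442) (nat_lit 380) (nat_lit 378)) (XT.lf (nat_lit 0) (nat_lit 9794502463) (nat_lit 152) (nat_lit 4070585284) (nat_lit 0) (nat_lit 9316027387) (nat_lit 20) (nat_lit 5) (nat_lit 22) (nat_lit 4) (nat_lit 20) (nat_lit 4) (nat_lit 443) (nat_lit 380) (nat_lit 377)))) (XT.nd (nat_lit 156) (nat_lit 76) (nat_lit 0) (XT.nd (nat_lit 78) (nat_lit 152) (nat_lit 0) (XT.lf (nat_lit 0) (nat_lit 13543493604) (nat_lit 76) (nat_lit 5699430716) (nat_lit 76) (nat_lit 5084486790) (nat_lit 19) (nat_lit 4) (nat_lit 20) (nat_lit 5) (nat_lit 20) (nat_lit 4) (nat_lit 444) (nat_lit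 380) (nat_lit 376)) (XT.lf (nat_lit 0) (nat_lit 3624169552) (nat_lit 152) (nat_lit 19001078349) (nat_lit 0) (nat_lit 2937776985) (nat_lit 17) (nat_lit 5) (nat_lit 19) (nat_lit 4) (nat_lit 17) (nat_lit 4) (nat_lit 445) (nat_lit 380) (nat_lit 375))) (XT.nd (nat_lit 78) (nat_lit 76) (nat_lit 0) (XT.lf (nat_lit 0) (nat_lit 12794580506) (nat_lit 152) (nat_lit 2089312813) (nat_lit 0) (nat_lit 11999854565) (nat_lit 17) (nat_lit 5) (nat_lit 19) (nat_lit 4) (nat_lit 17) (nat_lit 4) (nat_lit 446) (nat_lit 380) (nat_lit 374)) (XT.lf (nat_lit 0) (nat_lit 16211913250) (nat_lit 76) (nat_lit 6496246324) (nat_lit 76) (nat_lit 5601211703) (nat_lit 16) (nat_lit 4) (nat_lit 17) (nat_lit 5) (nat_lit 17) (nat_lit 4) (nat_lit 447) (nat_lit 380) (nat_lit 373))))))) (XT.nd (nat_lit 936) (nat_lit 380) (nat_lit 0) (XT.nd (nat_lit 468) (nat_lit 304) (nat_lit 0) (XT.nd (nat_lit 234) (nat_lit 152) (nat_lit 0) (XT.nd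 (nat_lit 78) (nat_lit 76) (nat_lit 0) (XT.lf (nat_lit 0) (nat_lit 3261914423) (nat_lit 152) (nat_lit 24243133315) (nat_lit 0) (nat_lit 2347180139) (nat_lit 14) (nat_lit 5) (nat_lit 16) (nat_lit 4) (nat_lit 14) (nat_lit 4) (nat_lit 448) (nat_lit 380) (nat_lit 372)) (XT.nd (nat_lit 78) (nat_lit 76) (nat_lit 0) (XT.lf (nat_lit 0) (nat_lit 12660321415) (nat_lit 152) (nat_lit 7170290771) (nat_lit 0) (nat_lit 11665958867) (nat_lit 14) (nat_lit 5) (nat_lit 16) (nat_lit 4) (nat_lit 14) (nat_lit 4) (nat_lit 449) (nat_lit 380) (nat_lit 371)) (XT.lf (nat_lit 0) (nat_lit 11105794759) (nat_lit 76) (nat_lit 11620744132) (nat_lit 76) (nat_lit 10552651710) (nat_lit 13) (nat_lit 4) (nat_lit 14) (nat_lit 5) (nat_lit 14) (nat_lit 4) (nat_lit 450) (nat_lit 380) (nat_lit 370)))) (XT.nd (nat_lit 78) (nat_lit 152) (nat_lit 0) (XT.lf (nat_lit 0) (nat_lit 30551787466) (nat_lit 76) (nat_lit 2900335591) (nat_lit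 76) (nat_lit 1763974768) (nat_lit 13) (nat_lit 4) (nat_lit 14) (nat_lit 5) (nat_lit 14) (nat_lit 4) (nat_lit 451) (nat_lit 380) (nat_lit 369)) (XT.nd (nat_lit 78) (nat_lit 0) (nat_lit 0) (XT.lf (nat_lit 0) (nat_lit 7517645632) (nat_lit 152) (nat_lit 23354402305) (nat_lit 0) (nat_lit 6406930534) (nat_lit 11) (nat_lit 5) (nat_lit 13) (nat_lit 4) (nat_lit 11) (nat_lit 4) (nat_lit 452) (nat_lit 380) (nat_lit 368)) (XT.lf (nat_lit 0) (nat_lit 17328283592) (nat_lit 152) (nat_lit 6021025569) (nat_lit 0) (nat_lit 16163374836) (nat_lit 11) (nat_lit 5) (nat_lit 13) (nat_lit 4) (nat_lit 11) (nat_lit 4) (nat_lit 453) (nat_lit 380) (nat_lit 367))))) (XT.nd (nat_lit 234) (nat_lit 76) (nat_lit 0) (XT.nd (nat_lit 78) (nat_lit 152) (nat_lit 0) (XT.lf (nat_lit 0) (nat_lit 12718870612) (nat_lit 76) (nat_lit 15210431861) (nat_lit 76) (nat_lit 13995343791) (nat_lit 10) (nat_lit 4) (nat_lit 11) (nat_lit 5) (nat_lit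 11) (nat_lit 4) (nat_lit 454) (nat_lit 380) (nat_lit 366)) (XT.nd (nat_lit 78) (nat_lit 152) (nat_lit 0) (XT.lf (nat_lit 0) (nat_lit 32699584502) (nat_lit 76) (nat_lit 6550884310) (nat_lit 76) (nat_lit 5289333913) (nat_lit 10) (nat_lit 4) (nat_lit 11) (nat_lit 5) (nat_lit 11) (nat_lit 4) (nat_lit 455) (nat_lit 380) (nat_lit 365)) (XT.lf (nat_lit 0) (nat_lit 3854571190) (nat_lit 152) (nat_lit 40859280215) (nat_lit 0) (nat_lit 2646635014) (nat_lit 8) (nat_lit 5) (nat_lit 10) (nat_lit 4) (nat_lit 8) (nat_lit 4) (nat_lit 456) (nat_lit 380) (nat_lit 364)))) (XT.nd (nat_lit 78) (nat_lit 76) (nat_lit 0) (XT.lf (nat_lit 0) (nat_lit 13668926153) (nat_lit 152) (nat_lit 24284827215) (nat_lit 0) (nat_lit 12424106684) (nat_lit 8) (nat_lit 5) (nat_lit 10) (nat_lit 4) (nat_lit 8) (nat_lit 4) (nat_lit 457) (nat_lit 380) (nat_lit 363)) (XT.nd (nat_lit 78) (nat_lit 76) (nat_lit 0) (XT.lf (nat_lit 0) (nat_lit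 24011396958) (nat_lit 152) (nat_lit 6913364760) (nat_lit 0) (nat_lit 22732426292) (nat_lit 8) (nat_lit 5) (nat_lit 10) (nat_lit 4) (nat_lit 8) (nat_lit 4) (nat_lit 458) (nat_lit 380) (nat_lit 362)) (XT.lf (nat_lit 0) (nat_lit 11956143891) (nat_lit 76) (nat_lit 23274673978) (nat_lit 76) (nat_lit 21964081833) (nat_lit 7) (nat_lit 4) (nat_lit 8) (nat_lit 5) (nat_lit 8) (nat_lit 4) (nat_lit 459) (nat_lit 380) (nat_lit 361)))))) (XT.nd (nat_lit 468) (nat_lit 228) (nat_lit 0) (XT.nd (nat_lit 234) (nat_lit 0) (nat_lit 0) (XT.nd (nat_lit 78) (nat_lit 152) (nat_lit 0) (XT.lf (nat_lit 0) (nat_lit 32251016001) (nat_lit 76) (nat_lit 15053955436) (nat_lit 76) (nat_lit 13714084143) (nat_lit 7) (nat_lit 4) (nat_lit 8) (nat_lit 5) (nat_lit 8) (nat_lit 4) (nat_lit 460) (nat_lit 380) (nat_lit 360)) (XT.nd (nat_lit 78) (nat_lit 152) (nat_lit 0) (XT.lf (nat_lit 0) (nat_lit 53727471942) (nat_lit 76) (nat_lit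 6402914365) (nat_lit 76) (nat_lit 5035932751) (nat_lit 7) (nat_lit 4) (nat_lit 8) (nat_lit 5) (nat_lit 8) (nat_lit 4) (nat_lit 461) (nat_lit 380) (nat_lit 359)) (XT.lf (nat_lit 0) (nat_lit 4159220456) (nat_lit 152) (nat_lit 62604372816) (nat_lit 0) (nat_lit 2870254008) (nat_lit 5) (nat_lit 5) (nat_lit 7) (nat_lit 4) (nat_lit 5) (nat_lit 4) (nat_lit 462) (nat_lit 380) (nat_lit 358)))) (XT.nd (nat_lit 78) (nat_lit 0) (nat_lit 0) (XT.lf (nat_lit 0) (nat_lit 14101366082) (nat_lit 152) (nat_lit 47533393860) (nat_lit 0) (nat_lit 12790878587) (nat_lit 5) (nat_lit 5) (nat_lit 7) (nat_lit 4) (nat_lit 5) (nat_lit 4) (nat_lit 463) (nat_lit 380) (nat_lit 357)) (XT.nd (nat_lit 78) (nat_lit 0) (nat_lit 0) (XT.lf (nat_lit 0) (nat_lit 24650235141) (nat_lit 152) (nat_lit 31645810112) (nat_lit 0) (nat_lit 23319820750) (nat_lit 5) (nat_lit 5) (nat_lit 7) (nat_lit 4) (nat_lit 5) (nat_lit 4) (nat_lit 464) (nat_lit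 380) (nat_lit 356)) (XT.lf (nat_lit 0) (nat_lit 35868339449) (nat_lit 152) (nat_lit 14847472929) (nat_lit 0) (nat_lit 34519474229) (nat_lit 5) (nat_lit 5) (nat_lit 7) (nat_lit 4) (nat_lit 5) (nat_lit 4) (nat_lit 465) (nat_lit 380) (nat_lit 355))))) (XT.nd (nat_lit 234) (nat_lit 152) (nat_lit 0) (XT.nd (nat_lit 78) (nat_lit 0) (nat_lit 0) (XT.lf (nat_lit 0) (nat_lit 3117093008) (nat_lit 76) (nat_lit 44780029814) (nat_lit 76) (nat_lit 43414080493) (nat_lit 4) (nat_lit 4) (nat_lit 5) (nat_lit 5) (nat_lit 5) (nat_lit 4) (nat_lit 466) (nat_lit 380) (nat_lit 354)) (XT.nd (nat_lit 78) (nat_lit 0) (nat_lit 0) (XT.lf (nat_lit 0) (nat_lit 23038090080) (nat_lit 76) (nat_lit 38098500752) (nat_lit 76) (nat_lit 36716732818) (nat_lit 4) (nat_lit 4) (nat_lit 5) (nat_lit 5) (nat_lit 5) (nat_lit 4) (nat_lit 467) (nat_lit 380) (nat_lit 353)) (XT.lf (nat_lit 0) (nat_lit 44251727028) (nat_lit 76) (nat_lit 31037587166)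 (nat_lit 76) (nat_lit 29641172369) (nat_lit 4) (nat_lit 4) (nat_lit 5) (nat_lit 5) (nat_lit 5) (nat_lit 4) (nat_lit 468) (nat_lit 380) (nat_lit 352)))) (XT.nd (nat_lit 156) (nat_lit 152) (nat_lit 0) (XT.nd (nat_lit 78) (nat_lit 0) (nat_lit 0) (XT.lf (nat_lit 0) (nat_lit 66883714293) (nat_lit 76) (nat_lit 23555446607) (nat_lit 76) (nat_lit 22145469899) (nat_lit 4) (nat_lit 4) (nat_lit 5) (nat_lit 5) (nat_lit 5) (nat_lit 4) (nat_lit 469) (nat_lit 380) (nat_lit 351)) (XT.lf (nat_lit 0) (nat_lit 91068167354) (nat_lit 76) (nat_lit 15607740462) (nat_lit 76) (nat_lit 14185206431) (nat_lit 4) (nat_lit 4) (nat_lit 5) (nat_lit 5) (nat_lit 5) (nat_lit 4) (nat_lit 470) (nat_lit 380) (nat_lit 350))) (XT.nd (nat_lit 78) (nat_lit 152) (nat_lit 0) (XT.lf (nat_lit 0) (nat_lit 116948401489) (nat_lit 76) (nat_lit 7147371216) (nat_lit 76) (nat_lit 5713210032) (nat_lit 4) (nat_lit 4) (nat_lit 5) (nat_lit 5)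 (nat_lit 5) (nat_lit 4) (nat_lit 471) (nat_lit 380) (nat_lit 349)) (XT.lf (nat_lit 0) (nat_lit 3334695179) (nat_lit 152) (nat_lit 134128969667) (nat_lit 0) (nat_lit 1996799748) (nat_lit 2) (nat_lit 5) (nat_lit 4) (nat_lit 4) (nat_lit 2) (nat_lit 4) (nat_lit 472) (nat_lit 380) (nat_lit 348))))))))
noncomputable def xc47 : XT := (XT.nd (nat_lit 1950) (nat_lit 0) (nat_lit 0) (XT.nd (nat_lit 936) (nat_lit 0) (nat_lit 0) (XT.nd (nat_lit 468) (nat_lit 76) (nat_lit 0) (XT.nd (nat_lit 234) (nat_lit 0) (nat_lit 0) (XT.nd (nat_lit 78) (nat_lit 0) (nat_lit 0) (XT.lf (nat_lit 0) (nat_lit 13234235957) (nat_lit 152) (nat_lit 124715930225) (nat_lit 0) (nat_lit 11887110517) (nat_lit 2) (nat_lit 5) (nat_lit 4) (nat_lit 4) (nat_lit 2) (nat_lit 4) (nat_lit 473) (nat_lit 380) (nat_lit 347)) (XT.nd (nat_lit 78) (nat_lit 0) (nat_lit 0) (XT.lf (nat_lit 0) (nat_lit 23823938628) (nat_lit 152) (nat_lit 114760172827)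 (nat_lit 0) (nat_lit 22468266885) (nat_lit 2) (nat_lit 5) (nat_lit 4) (nat_lit 4) (nat_lit 2) (nat_lit 4) (nat_lit 474) (nat_lit 380) (nat_lit 346)) (XT.lf (nat_lit 0) (nat_lit 35166556986) (nat_lit 152) (nat_lit 104202700393) (nat_lit 0) (nat_lit 33802971998) (nat_lit 2) (nat_lit 5) (nat_lit 4) (nat_lit 4) (nat_lit 2) (nat_lit 4) (nat_lit 475) (nat_lit 380) (nat_lit 345)))) (XT.nd (nat_lit 78) (nat_lit 0) (nat_lit 0) (XT.lf (nat_lit 0) (nat_lit 47329306548) (nat_lit 152) (nat_lit 92980950121) (nat_lit 0) (nat_lit 45958394482) (nat_lit 2) (nat_lit 5) (nat_lit 4) (nat_lit 4) (nat_lit 2) (nat_lit 4) (nat_lit 476) (nat_lit 380) (nat_lit 344)) (XT.nd (nat_lit 78) (nat_lit 0) (nat_lit 0) (XT.lf (nat_lit 0) (nat_lit 60384262867) (nat_lit 152) (nat_lit 81028422753) (nat_lit 0) (nat_lit 59006566469) (nat_lit 2) (nat_lit 5) (nat_lit 4) (nat_lit 4) (nat_lit 2) (nat_lit 4) (nat_lit 477) (nat_lit 380)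 (nat_lit 343)) (XT.lf (nat_lit 0) (nat_lit 74408788645) (nat_lit 152) (nat_lit 68274288495) (nat_lit 0) (nat_lit 73024810459) (nat_lit 2) (nat_lit 5) (nat_lit 4) (nat_lit 4) (nat_lit 2) (nat_lit 4) (nat_lit 478) (nat_lit 380) (nat_lit 342))))) (XT.nd (nat_lit 234) (nat_lit 76) (nat_lit 0) (XT.nd (nat_lit 78) (nat_lit 0) (nat_lit 0) (XT.lf (nat_lit 0) (nat_lit 89485992186) (nat_lit 152) (nat_lit 54642967293) (nat_lit 0) (nat_lit 88096197529) (nat_lit 2) (nat_lit 5) (nat_lit 4) (nat_lit 4) (nat_lit 2) (nat_lit 4) (nat_lit 479) (nat_lit 380) (nat_lit 341)) (XT.nd (nat_lit 78) (nat_lit 0) (nat_lit 0) (XT.lf (nat_lit 0) (nat_lit 105705219879) (nat_lit 152) (nat_lit 40053680947) (nat_lit 0) (nat_lit 104310039601) (nat_lit 2) (nat_lit 5) (nat_lit 4) (nat_lit 4) (nat_lit 2) (nat_lit 4) (nat_lit 480) (nat_lit 380) (nat_lit 340)) (XT.lf (nat_lit 0) (nat_lit 123162585667) (nat_lit 152) (nat_lit 24419974427)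 (nat_lit 0) (nat_lit 121762418702) (nat_lit 2) (nat_lit 5) (nat_lit 4) (nat_lit 4) (nat_lit 2) (nat_lit 4) (nat_lit 481) (nat_lit 380) (nat_lit 339)))) (XT.nd (nat_lit 78) (nat_lit 76) (nat_lit 0) (XT.lf (nat_lit 0) (nat_lit 141961540606) (nat_lit 152) (nat_lit 7649203547) (nat_lit 0) (nat_lit 140556756339) (nat_lit 2) (nat_lit 5) (nat_lit 4) (nat_lit 4) (nat_lit 2) (nat_lit 4) (nat_lit 482) (nat_lit 380) (nat_lit 338)) (XT.nd (nat_lit 78) (nat_lit 0) (nat_lit 0) (XT.lf (nat_lit 0) (nat_lit 10903448702) (nat_lit 76) (nat_lit 151572265411) (nat_lit 76) (nat_lit 150163205865) (nat_lit 1) (nat_lit 4) (nat_lit 2) (nat_lit 5) (nat_lit 2) (nat_lit 4) (nat_lit 483) (nat_lit 380) (nat_lit 337)) (XT.lf (nat_lit 0) (nat_lit 31272778823) (nat_lit 76) (nat_lit 153517765368) (nat_lit 76) (nat_lit 152104747230) (nat_lit 1) (nat_lit 4) (nat_lit 2) (nat_lit 5) (nat_lit 2) (nat_lit 4) (nat_lit 484) (nat_lit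 380) (nat_lit 336)))))) (XT.nd (nat_lit 468) (nat_lit 0) (nat_lit 0) (XT.nd (nat_lit 234) (nat_lit 0) (nat_lit 0) (XT.nd (nat_lit 78) (nat_lit 0) (nat_lit 0) (XT.lf (nat_lit 0) (nat_lit 53176700451) (nat_lit 76) (nat_lit 155667915694) (nat_lit 76) (nat_lit 154251232192) (nat_lit 1) (nat_lit 4) (nat_lit 2) (nat_lit 5) (nat_lit 2) (nat_lit 4) (nat_lit 485) (nat_lit 380) (nat_lit 335)) (XT.nd (nat_lit 78) (nat_lit 0) (nat_lit 0) (XT.lf (nat_lit 0) (nat_lit 76745014604) (nat_lit 76) (nat_lit 158035458020) (nat_lit 76) (nat_lit 156615380663) (nat_lit 1) (nat_lit 4) (nat_lit 2) (nat_lit 5) (nat_lit 2) (nat_lit 4) (nat_lit 486) (nat_lit 380) (nat_lit 334)) (XT.lf (nat_lit 0) (nat_lit 102117385366) (nat_lit 76) (nat_lit 160634422226) (nat_lit 76) (nat_lit 159211202411) (nat_lit 1) (nat_lit 4) (nat_lit 2) (nat_lit 5) (nat_lit 2) (nat_lit 4) (nat_lit 487) (nat_lit 380) (nat_lit 333)))) (XT.nd (nat_lit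 78) (nat_lit 0) (nat_lit 0) (XT.lf (nat_lit 0) (nat_lit 129444167527) (nat_lit 76) (nat_lit 163480209583) (nat_lit 76) (nat_lit 162054080084) (nat_lit 1) (nat_lit 4) (nat_lit 2) (nat_lit 5) (nat_lit 2) (nat_lit 4) (nat_lit 488) (nat_lit 380) (nat_lit 332)) (XT.nd (nat_lit 78) (nat_lit 0) (nat_lit 0) (XT.lf (nat_lit 0) (nat_lit 158887297573) (nat_lit 76) (nat_lit 166589684014) (nat_lit 76) (nat_lit 165160860364) (nat_lit 1) (nat_lit 4) (nat_lit 2) (nat_lit 5) (nat_lit 2) (nat_lit 4) (nat_lit 489) (nat_lit 380) (nat_lit 331)) (XT.lf (nat_lit 0) (nat_lit 190621253313) (nat_lit 76) (nat_lit 169981272035) (nat_lit 76) (nat_lit 168549953800) (nat_lit 1) (nat_lit 4) (nat_lit 2) (nat_lit 5) (nat_lit 2) (nat_lit 4) (nat_lit 490) (nat_lit 380) (nat_lit 330))))) (XT.nd (nat_lit 234) (nat_lit 0) (nat_lit 0) (XT.nd (nat_lit 78) (nat_lit 0) (nat_lit 0) (XT.lf (nat_lit 0) (nat_lit 224834087817) (nat_lit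 76) (nat_lit 173675071946) (nat_lit 76) (nat_lit 172241443911) (nat_lit 1) (nat_lit 4) (nat_lit 2) (nat_lit 5) (nat_lit 2) (nat_lit 4) (nat_lit 491) (nat_lit 380) (nat_lit 329)) (XT.nd (nat_lit 78) (nat_lit 0) (nat_lit 0) (XT.lf (nat_lit 0) (nat_lit 261728543808) (nat_lit 76) (nat_lit 177692972931) (nat_lit 76) (nat_lit 176257206191) (nat_lit 1) (nat_lit 4) (nat_lit 2) (nat_lit 5) (nat_lit 2) (nat_lit 4) (nat_lit 492) (nat_lit 380) (nat_lit 328)) (XT.lf (nat_lit 0) (nat_lit 301523255099) (nat_lit 76) (nat_lit 182058784774) (nat_lit 76) (nat_lit 180621037753) (nat_lit 1) (nat_lit 4) (nat_lit 2) (nat_lit 5) (nat_lit 2) (nat_lit 4) (nat_lit 493) (nat_lit 380) (nat_lit 327)))) (XT.nd (nat_lit 156) (nat_lit 0) (nat_lit 0) (XT.nd (nat_lit 78) (nat_lit 0) (nat_lit 0) (XT.lf (nat_lit 0) (nat_lit 344454042202) (nat_lit 76) (nat_lit 186798378952) (nat_lit 76) (nat_lit 185358798337) (nat_lit 1) (nat_lit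 4) (nat_lit 2) (nat_lit 5) (nat_lit 2) (nat_lit 4) (nat_lit 494) (nat_lit 380) (nat_lit 326)) (XT.lf (nat_lit 0) (nat_lit 390775309782) (nat_lit 76) (nat_lit 191939841950) (nat_lit 76) (nat_lit 190498563562) (nat_lit 1) (nat_lit 4) (nat_lit 2) (nat_lit 5) (nat_lit 2) (nat_lit 4) (nat_lit 495) (nat_lit 380) (nat_lit 325))) (XT.nd (nat_lit 78) (nat_lit 0) (nat_lit 0) (XT.lf (nat_lit 0) (nat_lit 440761554238) (nat_lit 76) (nat_lit 197513641696) (nat_lit 76) (nat_lit 196070791296) (nat_lit 1) (nat_lit 4) (nat_lit 2) (nat_lit 5) (nat_lit 2) (nat_lit 4) (nat_lit 496) (nat_lit 380) (nat_lit 324)) (XT.lf (nat_lit 0) (nat_lit 494708990352) (nat_lit 76) (nat_lit 203552808115) (nat_lit 76) (nat_lit 202108502149) (nat_lit 1) (nat_lit 4) (nat_lit 2) (nat_lit 5) (nat_lit 2) (nat_lit 4) (nat_lit 497) (nat_lit 380) (nat_lit 323))))))) (XT.nd (nat_lit 1014) (nat_lit 0) (nat_lit 0) (XT.nd (nat_lit 468) (nat_lit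 0) (nat_lit 0) (XT.nd (nat_lit 234) (nat_lit 0) (nat_lit 0) (XT.nd (nat_lit 78) (nat_lit 0) (nat_lit 0) (XT.lf (nat_lit 0) (nat_lit 552937306636) (nat_lit 76) (nat_lit 210093128859) (nat_lit 76) (nat_lit 208647475146) (nat_lit 1) (nat_lit 4) (nat_lit 2) (nat_lit 5) (nat_lit 2) (nat_lit 4) (nat_lit 498) (nat_lit 380) (nat_lit 322)) (XT.nd (nat_lit 78) (nat_lit 0) (nat_lit 0) (XT.lf (nat_lit 0) (nat_lit 615791559777) (nat_lit 76) (nat_lit 217173361385) (nat_lit 76) (nat_lit 215726459759) (nat_lit 1) (nat_lit 4) (nat_lit 2) (nat_lit 5) (nat_lit 2) (nat_lit 4) (nat_lit 499) (nat_lit 380) (nat_lit 321)) (XT.lf (nat_lit 0) (nat_lit 683644219425) (nat_lit 76) (nat_lit 224835462626) (nat_lit 76) (nat_lit 223387405525) (nat_lit 1) (nat_lit 4) (nat_lit 2) (nat_lit 5) (nat_lit 2) (nat_lit 4) (nat_lit 500) (nat_lit 380) (nat_lit 320)))) (XT.nd (nat_lit 78) (nat_lit 0) (nat_lit 0) (XT.lf (nat_lit 0)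 (nat_lit 756897375414) (nat_lit 76) (nat_lit 233124837627) (nat_lit 76) (nat_lit 231675710641) (nat_lit 1) (nat_lit 4) (nat_lit 2) (nat_lit 5) (nat_lit 2) (nat_lit 4) (nat_lit 501) (nat_lit 380) (nat_lit 319)) (XT.nd (nat_lit 78) (nat_lit 0) (nat_lit 0) (XT.lf (nat_lit 0) (nat_lit 835985120521) (nat_lit 76) (nat_lit 242090608610) (nat_lit 76) (nat_lit 240640490990) (nat_lit 1) (nat_lit 4) (nat_lit 2) (nat_lit 5) (nat_lit 2) (nat_lit 4) (nat_lit 502) (nat_lit 380) (nat_lit 318)) (XT.lf (nat_lit 0) (nat_lit 921376122864) (nat_lit 76) (nat_lit 251785906069) (nat_lit 76) (nat_lit 250334871196) (nat_lit 1) (nat_lit 4) (nat_lit 2) (nat_lit 5) (nat_lit 2) (nat_lit 4) (nat_lit 503) (nat_lit 380) (nat_lit 317))))) (XT.nd (nat_lit 234) (nat_lit 0) (nat_lit 0) (XT.nd (nat_lit 78) (nat_lit 0) (nat_lit 0) (XT.lf (nat_lit 0) (nat_lit 1013576403198) (nat_lit 76) (nat_lit 262268183620) (nat_lit 76) (nat_lit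 260816299438) (nat_lit 1) (nat_lit 4) (nat_lit 2) (nat_lit 5) (nat_lit 2) (nat_lit 4) (nat_lit 504) (nat_lit 380) (nat_lit 316)) (XT.nd (nat_lit 78) (nat_lit 0) (nat_lit 0) (XT.lf (nat_lit 0) (nat_lit 1113132333555) (nat_lit 76) (nat_lit 273599558462) (nat_lit 76) (nat_lit 272146887883) (nat_lit 1) (nat_lit 4) (nat_lit 2) (nat_lit 5) (nat_lit 2) (nat_lit 4) (nat_lit 505) (nat_lit 380) (nat_lit 315)) (XT.lf (nat_lit 0) (nat_lit 1220633875003) (nat_lit 76) (nat_lit 285847179484) (nat_lit 76) (nat_lit 284393780759) (nat_lit 1) (nat_lit 4) (nat_lit 2) (nat_lit 5) (nat_lit 2) (nat_lit 4) (nat_lit 506) (nat_lit 380) (nat_lit 314)))) (XT.nd (nat_lit 156) (nat_lit 0) (nat_lit 0) (XT.nd (nat_lit 78) (nat_lit 0) (nat_lit 0) (XT.lf (nat_lit 0) (nat_lit 1336718073715) (nat_lit 76) (nat_lit 299083625180) (nat_lit 76) (nat_lit 297629552246) (nat_lit 1) (nat_lit 4) (nat_lit 2) (nat_lit 5) (nat_lit 2)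 (nat_lit 4) (nat_lit 507) (nat_lit 380) (nat_lit 313)) (XT.lf (nat_lit 0) (nat_lit 1462072836053) (nat_lit 76) (nat_lit 313387333747) (nat_lit 76) (nat_lit 311932636546) (nat_lit 1) (nat_lit 4) (nat_lit 2) (nat_lit 5) (nat_lit 2) (nat_lit 4) (nat_lit 508) (nat_lit 380) (nat_lit 312))) (XT.nd (nat_lit 78) (nat_lit 0) (nat_lit 0) (XT.lf (nat_lit 0) (nat_lit 1597441005052) (nat_lit 76) (nat_lit 328843067902) (nat_lit 76) (nat_lit 327387792676) (nat_lit 1) (nat_lit 4) (nat_lit 2) (nat_lit 5) (nat_lit 2) (nat_lit 4) (nat_lit 509) (nat_lit 380) (nat_lit 311)) (XT.lf (nat_lit 0) (nat_lit 1743624762456) (nat_lit 76) (nat_lit 345542417182) (nat_lit 76) (nat_lit 344086606747) (nat_lit 1) (nat_lit 4) (nat_lit 2) (nat_lit 5) (nat_lit 2) (nat_lit 4) (nat_lit 510) (nat_lit 380) (nat_lit 310)))))) (XT.nd (nat_lit 468) (nat_lit 0) (nat_lit 0) (XT.nd (nat_lit 234) (nat_lit 0) (nat_lit 0) (XT.nd (nat_lit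 78) (nat_lit 0) (nat_lit 0) (XT.lf (nat_lit 0) (nat_lit 1901490382381) (nat_lit 76) (nat_lit 363584340693) (nat_lit 76) (nat_lit 362128034695) (nat_lit 1) (nat_lit 4) (nat_lit 2) (nat_lit 5) (nat_lit 2) (nat_lit 4) (nat_lit 511) (nat_lit 380) (nat_lit 309)) (XT.nd (nat_lit 78) (nat_lit 0) (nat_lit 0) (XT.lf (nat_lit 0) (nat_lit 2071973364799) (nat_lit 76) (nat_lit 383075753538) (nat_lit 76) (nat_lit 381618988684) (nat_lit 1) (nat_lit 4) (nat_lit 2) (nat_lit 5) (nat_lit 2) (nat_lit 4) (nat_lit 512) (nat_lit 380) (nat_lit 308)) (XT.lf (nat_lit 0) (nat_lit 2256083979235) (nat_lit 76) (nat_lit 404132160385) (nat_lit 76) (nat_lit 402674970665) (nat_lit 1) (nat_lit 4) (nat_lit 2) (nat_lit 5) (nat_lit 2) (nat_lit 4) (nat_lit 513) (nat_lit 380) (nat_lit 307)))) (XT.nd (nat_lit 78) (nat_lit 0) (nat_lit 0) (XT.lf (nat_lit 0) (nat_lit 2454913251551) (nat_lit 76) (nat_lit 426878339941) (nat_lit 76)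 (nat_lit 425420756827) (nat_lit 1) (nat_lit 4) (nat_lit 2) (nat_lit 5) (nat_lit 2) (nat_lit 4) (nat_lit 514) (nat_lit 380) (nat_lit 306)) (XT.nd (nat_lit 78) (nat_lit 0) (nat_lit 0) (XT.lf (nat_lit 0) (nat_lit 2669639429287) (nat_lit 76) (nat_lit 451449084381) (nat_lit 76) (nat_lit 449991137013) (nat_lit 1) (nat_lit 4) (nat_lit 2) (nat_lit 5) (nat_lit 2) (nat_lit 4) (nat_lit 515) (nat_lit 380) (nat_lit 305)) (XT.lf (nat_lit 0) (nat_lit 2901534963868) (nat_lit 76) (nat_lit 477989998118) (nat_lit 76) (nat_lit 476531713477) (nat_lit 1) (nat_lit 4) (nat_lit 2) (nat_lit 5) (nat_lit 2) (nat_lit 4) (nat_lit 516) (nat_lit 380) (nat_lit 304))))) (XT.nd (nat_lit 234) (nat_lit 0) (nat_lit 0) (XT.nd (nat_lit 78) (nat_lit 0) (nat_lit 0) (XT.lf (nat_lit 0) (nat_lit 3151974051053) (nat_lit 76) (nat_lit 506658360639) (nat_lit 76) (nat_lit 505199763710) (nat_lit 1) (nat_lit 4) (nat_lit 2) (nat_lit 5) (nat_lit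 2) (nat_lit 4) (nat_lit 517) (nat_lit 380) (nat_lit 303)) (XT.nd (nat_lit 78) (nat_lit 0) (nat_lit 0) (XT.lf (nat_lit 0) (nat_lit 3422440774322) (nat_lit 76) (nat_lit 537624058538) (nat_lit 76) (nat_lit 536165172452) (nat_lit 1) (nat_lit 4) (nat_lit 2) (nat_lit 5) (nat_lit 2) (nat_lit 4) (nat_lit 518) (nat_lit 380) (nat_lit 302)) (XT.lf (nat_lit 0) (nat_lit 3714537899443) (nat_lit 76) (nat_lit 571070592246) (nat_lit 76) (nat_lit 569611438423) (nat_lit 1) (nat_lit 4) (nat_lit 2) (nat_lit 5) (nat_lit 2) (nat_lit 4) (nat_lit 519) (nat_lit 380) (nat_lit 301)))) (XT.nd (nat_lit 156) (nat_lit 0) (nat_lit 0) (XT.nd (nat_lit 78) (nat_lit 0) (nat_lit 0) (XT.lf (nat_lit 0) (nat_lit 4029996372343) (nat_lit 76) (nat_lit 607196163445) (nat_lit 76) (nat_lit 605736761717) (nat_lit 1) (nat_lit 4) (nat_lit 2) (nat_lit 5) (nat_lit 2) (nat_lit 4) (nat_lit 520) (nat_lit 380) (nat_lit 300)) (XT.lf (nat_lit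 0) (nat_lit 4370685576564) (nat_lit 76) (nat_lit 646214849594) (nat_lit 76) (nat_lit 644755218324) (nat_lit 1) (nat_lit 4) (nat_lit 2) (nat_lit 5) (nat_lit 2) (nat_lit 4) (nat_lit 521) (nat_lit 380) (nat_lit 299))) (XT.nd (nat_lit 78) (nat_lit 0) (nat_lit 0) (XT.lf (nat_lit 0) (nat_lit 4738624411094) (nat_lit 76) (nat_lit 688357872537) (nat_lit 76) (nat_lit 686898028727) (nat_lit 1) (nat_lit 4) (nat_lit 2) (nat_lit 5) (nat_lit 2) (nat_lit 4) (nat_lit 522) (nat_lit 380) (nat_lit 298)) (XT.lf (nat_lit 0) (nat_lit 5135993254212) (nat_lit 76) (nat_lit 733874968705) (nat_lit 76) (nat_lit 732414928101) (nat_lit 1) (nat_lit 4) (nat_lit 2) (nat_lit 5) (nat_lit 2) (nat_lit 4) (nat_lit 523) (nat_lit 380) (nat_lit 297))))))))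
noncomputable def xc48 : XT := (XT.nd (nat_lit 56784) (nat_lit 0) (nat_lit 76) (XT.nd (nat_lit 55770) (nat_lit 0) (nat_lit 912) (XT.nd (nat_lit 468) (nat_lit 0) (nat_lit 0) (XT.nd (nat_lit 234) (nat_lit 0) (nat_lit 0) (XT.nd (nat_lit 78) (nat_lit 0) (nat_lit 0) (XT.lf (nat_lit 0) (nat_lit 5565146884248) (nat_lit 76) (nat_lit 783035869039) (nat_lit 76) (nat_lit 781575646217) (nat_lit 1) (nat_lit 4) (nat_lit 2) (nat_lit 5) (nat_lit 2) (nat_lit 4) (nat_lit 524) (nat_lit 380) (nat_lit 296)) (XT.nd (nat_lit 78) (nat_lit 0) (nat_lit 0) (XT.lf (nat_lit 0) (nat_lit 6028628433824) (nat_lit 76) (nat_lit 836131897394) (nat_lit 76) (nat_lit 834671505851) (nat_lit 1) (nat_lit 4) (nat_lit 2) (nat_lit 5) (nat_lit 2) (nat_lit 4) (nat_lit 525) (nat_lit 380) (nat_lit 295)) (XT.lf (nat_lit 0) (nat_lit 6529184460271) (nat_lit 76) (nat_lit 893477696899) (nat_lit 76) (nat_lit 892017149134) (nat_lit 1) (nat_lit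 4) (nat_lit 2) (nat_lit 5) (nat_lit 2) (nat_lit 4) (nat_lit 526) (nat_lit 380) (nat_lit 294)))) (XT.nd (nat_lit 78) (nat_lit 0) (nat_lit 0) (XT.lf (nat_lit 0) (nat_lit 7069781221524) (nat_lit 76) (nat_lit 955413094515) (nat_lit 76) (nat_lit 953952402100) (nat_lit 1) (nat_lit 4) (nat_lit 2) (nat_lit 5) (nat_lit 2) (nat_lit 4) (nat_lit 527) (nat_lit 380) (nat_lit 293)) (XT.nd (nat_lit 78) (nat_lit 0) (nat_lit 0) (XT.lf (nat_lit 0) (nat_lit 7653622253945) (nat_lit 76) (nat_lit 1022305114820) (nat_lit 76) (nat_lit 1020844288470) (nat_lit 1) (nat_lit 4) (nat_lit 2) (nat_lit 5) (nat_lit 2) (nat_lit 4) (nat_lit 528) (nat_lit 380) (nat_lit 292)) (XT.lf (nat_lit 0) (nat_lit 8284167356245) (nat_lit 76) (nat_lit 1094550154973) (nat_lit 76) (nat_lit 1093089204608) (nat_lit 1) (nat_lit 4) (nat_lit 2) (nat_lit 5) (nat_lit 2) (nat_lit 4) (nat_lit 529) (nat_lit 380) (nat_lit 291))))) (XT.nd (nat_lit 234)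 (nat_lit 0) (nat_lit 0) (XT.nd (nat_lit 78) (nat_lit 0) (nat_lit 0) (XT.lf (nat_lit 0) (nat_lit 8965153091994) (nat_lit 76) (nat_lit 1172576333728) (nat_lit 76) (nat_lit 1171115268536) (nat_lit 1) (nat_lit 4) (nat_lit 2) (nat_lit 5) (nat_lit 2) (nat_lit 4) (nat_lit 530) (nat_lit 380) (nat_lit 290)) (XT.nd (nat_lit 78) (nat_lit 0) (nat_lit 0) (XT.lf (nat_lit 0) (nat_lit 9700614932217) (nat_lit 76) (nat_lit 1256846028443) (nat_lit 76) (nat_lit 1255384856928) (nat_lit 1) (nat_lit 4) (nat_lit 2) (nat_lit 5) (nat_lit 2) (nat_lit 4) (nat_lit 531) (nat_lit 380) (nat_lit 289)) (XT.lf (nat_lit 0) (nat_lit 10494911169302) (nat_lit 76) (nat_lit 1347858615084) (nat_lit 76) (nat_lit 1346397345123) (nat_lit 1) (nat_lit 4) (nat_lit 2) (nat_lit 5) (nat_lit 2) (nat_lit 4) (nat_lit 532) (nat_lit 380) (nat_lit 288)))) (XT.nd (nat_lit 78) (nat_lit 0) (nat_lit 0) (XT.lf (nat_lit 0) (nat_lit 11352748743912)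 (nat_lit 76) (nat_lit 1446153427500) (nat_lit 76) (nat_lit 1444692066385) (nat_lit 1) (nat_lit 4) (nat_lit 2) (nat_lit 5) (nat_lit 2) (nat_lit 4) (nat_lit 533) (nat_lit 380) (nat_lit 287)) (XT.nd (nat_lit 78) (nat_lit 0) (nat_lit 0) (XT.lf (nat_lit 0) (nat_lit 12279211137972) (nat_lit 76) (nat_lit 1552312953468) (nat_lit 76) (nat_lit 1550851507950) (nat_lit 1) (nat_lit 4) (nat_lit 2) (nat_lit 5) (nat_lit 2) (nat_lit 4) (nat_lit 534) (nat_lit 380) (nat_lit 286)) (XT.lf (nat_lit 0) (nat_lit 13279788499001) (nat_lit 76) (nat_lit 1666966286474) (nat_lit 76) (nat_lit 1665504762806) (nat_lit 1) (nat_lit 4) (nat_lit 2) (nat_lit 5) (nat_lit 2) (nat_lit 4) (nat_lit 535) (nat_lit 380) (nat_lit 285)))))) (XT.nd (nat_lit 468) (nat_lit 532) (nat_lit 0) (XT.nd (nat_lit 234) (nat_lit 228) (nat_lit 0) (XT.nd (nat_lit 78) (nat_lit 228) (nat_lit 0) (XT.lf (nat_lit 0) (nat_lit 3736465819) (nat_lit 152) (nat_lit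 1783774909) (nat_lit 0) (nat_lit 3736465819) (nat_lit 26) (nat_lit 5) (nat_lit 28) (nat_lit 4) (nat_lit 26) (nat_lit 4) (nat_lit 438) (nat_lit 381) (nat_lit 381)) (XT.nd (nat_lit 78) (nat_lit 152) (nat_lit 0) (XT.lf (nat_lit 0) (nat_lit 12546761197) (nat_lit 76) (nat_lit 3503496761) (nat_lit 76) (nat_lit 3286937846) (nat_lit 25) (nat_lit 4) (nat_lit 26) (nat_lit 5) (nat_lit 26) (nat_lit 4) (nat_lit 439) (nat_lit 381) (nat_lit 380)) (XT.lf (nat_lit 0) (nat_lit 4857218766) (nat_lit 152) (nat_lit 10886864532) (nat_lit 0) (nat_lit 4471036887) (nat_lit 23) (nat_lit 5) (nat_lit 25) (nat_lit 4) (nat_lit 23) (nat_lit 4) (nat_lit 440) (nat_lit 381) (nat_lit 379)))) (XT.nd (nat_lit 78) (nat_lit 152) (nat_lit 0) (XT.lf (nat_lit 0) (nat_lit 5221221925) (nat_lit 76) (nat_lit 8246950771) (nat_lit 76) (nat_lit 7688857443) (nat_lit 22) (nat_lit 4) (nat_lit 23) (nat_lit 5) (nat_lit 23) (nat_lit 4) (nat_lit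 441) (nat_lit 381) (nat_lit 378)) (XT.nd (nat_lit 78) (nat_lit 0) (nat_lit 0) (XT.lf (nat_lit 0) (nat_lit 243115483) (nat_lit 76) (nat_lit 218608592) (nat_lit 152) (nat_lit 21719617308) (nat_lit 20) (nat_lit 5) (nat_lit 21) (nat_lit 5) (nat_lit 22) (nat_lit 4) (nat_lit 442) (nat_lit 381) (nat_lit 377)) (XT.lf (nat_lit 0) (nat_lit 9086951355) (nat_lit 152) (nat_lit 5879293790) (nat_lit 0) (nat_lit 8286343064) (nat_lit 20) (nat_lit 5) (nat_lit 22) (nat_lit 4) (nat_lit 20) (nat_lit 4) (nat_lit 443) (nat_lit 381) (nat_lit 376))))) (XT.nd (nat_lit 234) (nat_lit 304) (nat_lit 0) (XT.nd (nat_lit 78) (nat_lit 152) (nat_lit 0) (XT.lf (nat_lit 0) (nat_lit 11248313439) (nat_lit 76) (nat_lit 7048320731) (nat_lit 76) (nat_lit 6121352393) (nat_lit 19) (nat_lit 4) (nat_lit 20) (nat_lit 5) (nat_lit 20) (nat_lit 4) (nat_lit 444) (nat_lit 381) (nat_lit 375)) (XT.nd (nat_lit 78) (nat_lit 0) (nat_lit 0) (XT.lf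 (nat_lit 0) (nat_lit 2347268169) (nat_lit 152) (nat_lit 21951051432) (nat_lit 0) (nat_lit 1380630779) (nat_lit 17) (nat_lit 5) (nat_lit 19) (nat_lit 4) (nat_lit 17) (nat_lit 4) (nat_lit 445) (nat_lit 381) (nat_lit 374)) (XT.lf (nat_lit 0) (nat_lit 11334812938) (nat_lit 152) (nat_lit 5411625450) (nat_lit 0) (nat_lit 10267866869) (nat_lit 17) (nat_lit 5) (nat_lit 19) (nat_lit 4) (nat_lit 17) (nat_lit 4) (nat_lit 446) (nat_lit 381) (nat_lit 373)))) (XT.nd (nat_lit 156) (nat_lit 76) (nat_lit 0) (XT.nd (nat_lit 78) (nat_lit 152) (nat_lit 0) (XT.lf (nat_lit 0) (nat_lit 12351740278) (nat_lit 76) (nat_lit 8634493931) (nat_lit 76) (nat_lit 7474669455) (nat_lit 16) (nat_lit 4) (nat_lit 17) (nat_lit 5) (nat_lit 17) (nat_lit 4) (nat_lit 447) (nat_lit 381) (nat_lit 372)) (XT.lf (nat_lit 0) (nat_lit 1134641722) (nat_lit 76) (nat_lit 9812471) (nat_lit 152) (nat_lit 28889930293) (nat_lit 14) (nat_lit 5)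 (nat_lit 15) (nat_lit 5) (nat_lit 16) (nat_lit 4) (nat_lit 448) (nat_lit 381) (nat_lit 371))) (XT.nd (nat_lit 78) (nat_lit 76) (nat_lit 0) (XT.lf (nat_lit 0) (nat_lit 10373799856) (nat_lit 152) (nat_lit 12171924446) (nat_lit 0) (nat_lit 9146530167) (nat_lit 14) (nat_lit 5) (nat_lit 16) (nat_lit 4) (nat_lit 14) (nat_lit 4) (nat_lit 449) (nat_lit 381) (nat_lit 370)) (XT.lf (nat_lit 0) (nat_lit 5504264468) (nat_lit 76) (nat_lit 14644716166) (nat_lit 76) (nat_lit 13349178075) (nat_lit 13) (nat_lit 4) (nat_lit 14) (nat_lit 5) (nat_lit 14) (nat_lit 4) (nat_lit 450) (nat_lit 381) (nat_lit 369))))))) (XT.nd (nat_lit 936) (nat_lit 380) (nat_lit 0) (XT.nd (nat_lit 468) (nat_lit 228) (nat_lit 0) (XT.nd (nat_lit 234) (nat_lit 76) (nat_lit 0) (XT.nd (nat_lit 78) (nat_lit 152) (nat_lit 0) (XT.lf (nat_lit 0) (nat_lit 24638665092) (nat_lit 76) (nat_lit 6083665394) (nat_lit 76) (nat_lit 4724915821) (nat_lit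 13) (nat_lit 4) (nat_lit 14) (nat_lit 5) (nat_lit 14) (nat_lit 4) (nat_lit 451) (nat_lit 381) (nat_lit 368)) (XT.nd (nat_lit 78) (nat_lit 0) (nat_lit 0) (XT.lf (nat_lit 0) (nat_lit 4312716463) (nat_lit 152) (nat_lit 30234055903) (nat_lit 0) (nat_lit 3000421348) (nat_lit 11) (nat_lit 5) (nat_lit 13) (nat_lit 4) (nat_lit 11) (nat_lit 4) (nat_lit 452) (nat_lit 381) (nat_lit 367)) (XT.lf (nat_lit 0) (nat_lit 13978950933) (nat_lit 152) (nat_lit 13197025375) (nat_lit 0) (nat_lit 12616476505) (nat_lit 11) (nat_lit 5) (nat_lit 13) (nat_lit 4) (nat_lit 11) (nat_lit 4) (nat_lit 453) (nat_lit 381) (nat_lit 366)))) (XT.nd (nat_lit 78) (nat_lit 0) (nat_lit 0) (XT.lf (nat_lit 0) (nat_lit 4876151602) (nat_lit 76) (nat_lit 19381493696) (nat_lit 76) (nat_lit 17972556940) (nat_lit 10) (nat_lit 4) (nat_lit 11) (nat_lit 5) (nat_lit 11) (nat_lit 4) (nat_lit 454) (nat_lit 381) (nat_lit 365)) (XT.nd (nat_lit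 78) (nat_lit 0) (nat_lit 0) (XT.lf (nat_lit 0) (nat_lit 24589417554) (nat_lit 76) (nat_lit 10859159234) (nat_lit 76) (nat_lit 9407201806) (nat_lit 10) (nat_lit 4) (nat_lit 11) (nat_lit 5) (nat_lit 11) (nat_lit 4) (nat_lit 455) (nat_lit 381) (nat_lit 364)) (XT.lf (nat_lit 0) (nat_lit 45364659867) (nat_lit 76) (nat_lit 1919300263) (nat_lit 76) (nat_lit 427508877) (nat_lit 10) (nat_lit 4) (nat_lit 11) (nat_lit 5) (nat_lit 11) (nat_lit 4) (nat_lit 456) (nat_lit 381) (nat_lit 363))))) (XT.nd (nat_lit 234) (nat_lit 0) (nat_lit 0) (XT.nd (nat_lit 78) (nat_lit 76) (nat_lit 0) (XT.lf (nat_lit 0) (nat_lit 9177543167) (nat_lit 152) (nat_lit 33808474321) (nat_lit 0) (nat_lit 7762103650) (nat_lit 8) (nat_lit 5) (nat_lit 10) (nat_lit 4) (nat_lit 8) (nat_lit 4) (nat_lit 457) (nat_lit 381) (nat_lit 362)) (XT.nd (nat_lit 78) (nat_lit 76) (nat_lit 0) (XT.lf (nat_lit 0) (nat_lit 19405594210) (nat_lit 152)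 (nat_lit 16672476068) (nat_lit 0) (nat_lit 17958533214) (nat_lit 8) (nat_lit 5) (nat_lit 10) (nat_lit 4) (nat_lit 8) (nat_lit 4) (nat_lit 458) (nat_lit 381) (nat_lit 361)) (XT.lf (nat_lit 0) (nat_lit 1453631993) (nat_lit 76) (nat_lit 28812853240) (nat_lit 76) (nat_lit 27336513096) (nat_lit 7) (nat_lit 4) (nat_lit 8) (nat_lit 5) (nat_lit 8) (nat_lit 4) (nat_lit 459) (nat_lit 381) (nat_lit 360)))) (XT.nd (nat_lit 78) (nat_lit 0) (nat_lit 0) (XT.lf (nat_lit 0) (nat_lit 21536001249) (nat_lit 76) (nat_lit 20701430349) (nat_lit 76) (nat_lit 19197979884) (nat_lit 7) (nat_lit 4) (nat_lit 8) (nat_lit 5) (nat_lit 8) (nat_lit 4) (nat_lit 460) (nat_lit 381) (nat_lit 359)) (XT.nd (nat_lit 78) (nat_lit 0) (nat_lit 0) (XT.lf (nat_lit 0) (nat_lit 42815695287) (nat_lit 76) (nat_lit 12151588956) (nat_lit 76) (nat_lit 10623036341) (nat_lit 7) (nat_lit 4) (nat_lit 8) (nat_lit 5) (nat_lit 8) (nat_lit 4) (nat_lit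 461) (nat_lit 381) (nat_lit 358)) (XT.lf (nat_lit 0) (nat_lit 65418816000) (nat_lit 76) (nat_lit 3112663334) (nat_lit 76) (nat_lit 1560867988) (nat_lit 7) (nat_lit 4) (nat_lit 8) (nat_lit 5) (nat_lit 8) (nat_lit 4) (nat_lit 462) (nat_lit 381) (nat_lit 357)))))) (XT.nd (nat_lit 468) (nat_lit 152) (nat_lit 0) (XT.nd (nat_lit 234) (nat_lit 76) (nat_lit 0) (XT.nd (nat_lit 78) (nat_lit 0) (nat_lit 0) (XT.lf (nat_lit 0) (nat_lit 8172412265) (nat_lit 152) (nat_lit 60022047811) (nat_lit 0) (nat_lit 6715637827) (nat_lit 5) (nat_lit 5) (nat_lit 7) (nat_lit 4) (nat_lit 5) (nat_lit 4) (nat_lit 463) (nat_lit 381) (nat_lit 356)) (XT.nd (nat_lit 78) (nat_lit 0) (nat_lit 0) (XT.lf (nat_lit 0) (nat_lit 18637303306) (nat_lit 152) (nat_lit 44307662748) (nat_lit 0) (nat_lit 17162078039) (nat_lit 5) (nat_lit 5) (nat_lit 7) (nat_lit 4) (nat_lit 5) (nat_lit 4) (nat_lit 464) (nat_lit 381) (nat_lit 355)) (XT.lf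 (nat_lit 0) (nat_lit 29777650191) (nat_lit 152) (nat_lit 27669694717) (nat_lit 0) (nat_lit 28285340822) (nat_lit 5) (nat_lit 5) (nat_lit 7) (nat_lit 4) (nat_lit 5) (nat_lit 4) (nat_lit 465) (nat_lit 381) (nat_lit 354)))) (XT.nd (nat_lit 78) (nat_lit 76) (nat_lit 0) (XT.lf (nat_lit 0) (nat_lit 41659469788) (nat_lit 152) (nat_lit 10009548352) (nat_lit 0) (nat_lit 40151341808) (nat_lit 5) (nat_lit 5) (nat_lit 7) (nat_lit 4) (nat_lit 5) (nat_lit 4) (nat_lit 466) (nat_lit 381) (nat_lit 353)) (XT.nd (nat_lit 78) (nat_lit 0) (nat_lit 0) (XT.lf (nat_lit 0) (nat_lit 9239632925) (nat_lit 76) (nat_lit 45335753350) (nat_lit 76) (nat_lit 43812978506) (nat_lit 4) (nat_lit 4) (nat_lit 5) (nat_lit 5) (nat_lit 5) (nat_lit 4) (nat_lit 467) (nat_lit 381) (nat_lit 352)) (XT.lf (nat_lit 0) (nat_lit 30319259951) (nat_lit 76) (nat_lit 38343900396) (nat_lit 76) (nat_lit 36807563642) (nat_lit 4) (nat_lit 4) (nat_lit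 5) (nat_lit 5) (nat_lit 5) (nat_lit 4) (nat_lit 468) (nat_lit 381) (nat_lit 351))))) (XT.nd (nat_lit 234) (nat_lit 152) (nat_lit 0) (XT.nd (nat_lit 78) (nat_lit 0) (nat_lit 0) (XT.lf (nat_lit 0) (nat_lit 52827163953) (nat_lit 76) (nat_lit 30925704865) (nat_lit 76) (nat_lit 29376810787) (nat_lit 4) (nat_lit 4) (nat_lit 5) (nat_lit 5) (nat_lit 5) (nat_lit 4) (nat_lit 469) (nat_lit 381) (nat_lit 350)) (XT.nd (nat_lit 78) (nat_lit 0) (nat_lit 0) (XT.lf (nat_lit 0) (nat_lit 76896725106) (nat_lit 76) (nat_lit 23037207081) (nat_lit 76) (nat_lit 21476685850) (nat_lit 4) (nat_lit 4) (nat_lit 5) (nat_lit 5) (nat_lit 5) (nat_lit 4) (nat_lit 470) (nat_lit 381) (nat_lit 349)) (XT.lf (nat_lit 0) (nat_lit 102670577844) (nat_lit 76) (nat_lit 14631660391) (nat_lit 76) (nat_lit 13060373278) (nat_lit 4) (nat_lit 4) (nat_lit 5) (nat_lit 5) (nat_lit 5) (nat_lit 4) (nat_lit 471) (nat_lit 381) (nat_lit 348))))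 (XT.nd (nat_lit 156) (nat_lit 0) (nat_lit 0) (XT.nd (nat_lit 78) (nat_lit 152) (nat_lit 0) (XT.lf (nat_lit 0) (nat_lit 130301456110) (nat_lit 76) (nat_lit 5659254146) (nat_lit 76) (nat_lit 4077998624) (nat_lit 4) (nat_lit 4) (nat_lit 5) (nat_lit 5) (nat_lit 5) (nat_lit 4) (nat_lit 472) (nat_lit 381) (nat_lit 347)) (XT.lf (nat_lit 0) (nat_lit 5587576339) (nat_lit 152) (nat_lit 140755923496) (nat_lit 0) (nat_lit 4114904552) (nat_lit 2) (nat_lit 5) (nat_lit 4) (nat_lit 4) (nat_lit 2) (nat_lit 4) (nat_lit 473) (nat_lit 381) (nat_lit 346))) (XT.nd (nat_lit 78) (nat_lit 0) (nat_lit 0) (XT.lf (nat_lit 0) (nat_lit 16131961449) (nat_lit 152) (nat_lit 130893793769) (nat_lit 0) (nat_lit 14651376418) (nat_lit 2) (nat_lit 5) (nat_lit 4) (nat_lit 4) (nat_lit 2) (nat_lit 4) (nat_lit 474) (nat_lit 381) (nat_lit 345)) (XT.lf (nat_lit 0) (nat_lit 27432619103) (nat_lit 152) (nat_lit 120423013621) (nat_lit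 0) (nat_lit 25944706994) (nat_lit 2) (nat_lit 5) (nat_lit 4) (nat_lit 4) (nat_lit 2) (nat_lit 4) (nat_lit 475) (nat_lit 381) (nat_lit 344))))))))
noncomputable def xc49 : XT := (XT.nd (nat_lit 1950) (nat_lit 0) (nat_lit 0) (XT.nd (nat_lit 936) (nat_lit 0) (nat_lit 0) (XT.nd (nat_lit 468) (nat_lit 76) (nat_lit 0) (XT.nd (nat_lit 234) (nat_lit 0) (nat_lit 0) (XT.nd (nat_lit 78) (nat_lit 0) (nat_lit 0) (XT.lf (nat_lit 0) (nat_lit 39556516161) (nat_lit 152) (nat_lit 109281533987) (nat_lit 0) (nat_lit 38061819720) (nat_lit 2) (nat_lit 5) (nat_lit 4) (nat_lit 4) (nat_lit 2) (nat_lit 4) (nat_lit 476) (nat_lit 381) (nat_lit 343)) (XT.nd (nat_lit 78) (nat_lit 0) (nat_lit 0) (XT.lf (nat_lit 0) (nat_lit 52575497939) (nat_lit 152) (nat_lit 97403331282) (nat_lit 0) (nat_lit 51074519709) (nat_lit 2) (nat_lit 5) (nat_lit 4) (nat_lit 4) (nat_lit 2) (nat_lit 4) (nat_lit 477) (nat_lit 381) (nat_lit 342))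 (XT.lf (nat_lit 0) (nat_lit 66566713958) (nat_lit 152) (nat_lit 84718016157) (nat_lit 0) (nat_lit 65059919257) (nat_lit 2) (nat_lit 5) (nat_lit 4) (nat_lit 4) (nat_lit 2) (nat_lit 4) (nat_lit 478) (nat_lit 381) (nat_lit 341)))) (XT.nd (nat_lit 78) (nat_lit 0) (nat_lit 0) (XT.lf (nat_lit 0) (nat_lit 81613075127) (nat_lit 152) (nat_lit 71150416374) (nat_lit 0) (nat_lit 80100894806) (nat_lit 2) (nat_lit 5) (nat_lit 4) (nat_lit 4) (nat_lit 2) (nat_lit 4) (nat_lit 479) (nat_lit 381) (nat_lit 340)) (XT.nd (nat_lit 78) (nat_lit 0) (nat_lit 0) (XT.lf (nat_lit 0) (nat_lit 97803745070) (nat_lit 152) (nat_lit 56620131343) (nat_lit 0) (nat_lit 96286578062) (nat_lit 2) (nat_lit 5) (nat_lit 4) (nat_lit 4) (nat_lit 2) (nat_lit 4) (nat_lit 480) (nat_lit 381) (nat_lit 339)) (XT.lf (nat_lit 0) (nat_lit 115234668497) (nat_lit 152) (nat_lit 41041055670) (nat_lit 0) (nat_lit 113712884186) (nat_lit 2) (nat_lit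 5) (nat_lit 4) (nat_lit 4) (nat_lit 2) (nat_lit 4) (nat_lit 481) (nat_lit 381) (nat_lit 338))))) (XT.nd (nat_lit 234) (nat_lit 0) (nat_lit 0) (XT.nd (nat_lit 78) (nat_lit 76) (nat_lit 0) (XT.lf (nat_lit 0) (nat_lit 134009139768) (nat_lit 152) (nat_lit 24320868907) (nat_lit 0) (nat_lit 132483080178) (nat_lit 2) (nat_lit 5) (nat_lit 4) (nat_lit 4) (nat_lit 2) (nat_lit 4) (nat_lit 482) (nat_lit 381) (nat_lit 337)) (XT.nd (nat_lit 78) (nat_lit 76) (nat_lit 0) (XT.lf (nat_lit 0) (nat_lit 154238415010) (nat_lit 152) (nat_lit 6360488465) (nat_lit 0) (nat_lit 152708396827) (nat_lit 2) (nat_lit 5) (nat_lit 4) (nat_lit 4) (nat_lit 2) (nat_lit 4) (nat_lit 483) (nat_lit 381) (nat_lit 336)) (XT.lf (nat_lit 0) (nat_lit 13628258208) (nat_lit 76) (nat_lit 162741873138) (nat_lit 76) (nat_lit 161208189592) (nat_lit 1) (nat_lit 4) (nat_lit 2) (nat_lit 5) (nat_lit 2) (nat_lit 4) (nat_lit 484) (nat_lit 381)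 (nat_lit 335)))) (XT.nd (nat_lit 78) (nat_lit 0) (nat_lit 0) (XT.lf (nat_lit 0) (nat_lit 35489910026) (nat_lit 76) (nat_lit 164913840758) (nat_lit 76) (nat_lit 163376763358) (nat_lit 1) (nat_lit 4) (nat_lit 2) (nat_lit 5) (nat_lit 2) (nat_lit 4) (nat_lit 485) (nat_lit 381) (nat_lit 334)) (XT.nd (nat_lit 78) (nat_lit 0) (nat_lit 0) (XT.lf (nat_lit 0) (nat_lit 59019085466) (nat_lit 76) (nat_lit 167301584284) (nat_lit 76) (nat_lit 165761364425) (nat_lit 1) (nat_lit 4) (nat_lit 2) (nat_lit 5) (nat_lit 2) (nat_lit 4) (nat_lit 486) (nat_lit 381) (nat_lit 333)) (XT.lf (nat_lit 0) (nat_lit 84355216679) (nat_lit 76) (nat_lit 169919253304) (nat_lit 76) (nat_lit 168376123762) (nat_lit 1) (nat_lit 4) (nat_lit 2) (nat_lit 5) (nat_lit 2) (nat_lit 4) (nat_lit 487) (nat_lit 381) (nat_lit 332)))))) (XT.nd (nat_lit 468) (nat_lit 0) (nat_lit 0) (XT.nd (nat_lit 234) (nat_lit 0) (nat_lit 0) (XT.nd (nat_lit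 78) (nat_lit 0) (nat_lit 0) (XT.lf (nat_lit 0) (nat_lit 111648443702) (nat_lit 76) (nat_lit 172782359933) (nat_lit 76) (nat_lit 171236536239) (nat_lit 1) (nat_lit 4) (nat_lit 2) (nat_lit 5) (nat_lit 2) (nat_lit 4) (nat_lit 488) (nat_lit 381) (nat_lit 331)) (XT.nd (nat_lit 78) (nat_lit 0) (nat_lit 0) (XT.lf (nat_lit 0) (nat_lit 141060504176) (nat_lit 76) (nat_lit 175907870727) (nat_lit 76) (nat_lit 174359552449) (nat_lit 1) (nat_lit 4) (nat_lit 2) (nat_lit 5) (nat_lit 2) (nat_lit 4) (nat_lit 489) (nat_lit 381) (nat_lit 330)) (XT.lf (nat_lit 0) (nat_lit 172765691793) (nat_lit 76) (nat_lit 179314307233) (nat_lit 76) (nat_lit 177763679154) (nat_lit 1) (nat_lit 4) (nat_lit 2) (nat_lit 5) (nat_lit 2) (nat_lit 4) (nat_lit 490) (nat_lit 381) (nat_lit 329)))) (XT.nd (nat_lit 78) (nat_lit 0) (nat_lit 0) (XT.lf (nat_lit 0) (nat_lit 206951889146) (nat_lit 76) (nat_lit 183021855741) (nat_lit 76) (nat_lit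 181469088957) (nat_lit 1) (nat_lit 4) (nat_lit 2) (nat_lit 5) (nat_lit 2) (nat_lit 4) (nat_lit 491) (nat_lit 381) (nat_lit 328)) (XT.nd (nat_lit 78) (nat_lit 0) (nat_lit 0) (XT.lf (nat_lit 0) (nat_lit 243821681109) (nat_lit 76) (nat_lit 187052486908) (nat_lit 76) (nat_lit 185497739843) (nat_lit 1) (nat_lit 4) (nat_lit 2) (nat_lit 5) (nat_lit 2) (nat_lit 4) (nat_lit 492) (nat_lit 381) (nat_lit 327)) (XT.lf (nat_lit 0) (nat_lit 283593555337) (nat_lit 76) (nat_lit 191430085957) (nat_lit 76) (nat_lit 189873505297) (nat_lit 1) (nat_lit 4) (nat_lit 2) (nat_lit 5) (nat_lit 2) (nat_lit 4) (nat_lit 493) (nat_lit 381) (nat_lit 326))))) (XT.nd (nat_lit 234) (nat_lit 0) (nat_lit 0) (XT.nd (nat_lit 78) (nat_lit 0) (nat_lit 0) (XT.lf (nat_lit 0) (nat_lit 326503197011) (nat_lit 76) (nat_lit 196180594214) (nat_lit 76) (nat_lit 194622315783) (nat_lit 1) (nat_lit 4) (nat_lit 2) (nat_lit 5) (nat_lit 2) (nat_lit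 4) (nat_lit 494) (nat_lit 381) (nat_lit 325)) (XT.nd (nat_lit 78) (nat_lit 0) (nat_lit 0) (XT.lf (nat_lit 0) (nat_lit 372804885490) (nat_lit 76) (nat_lit 201332162841) (nat_lit 76) (nat_lit 199772312398) (nat_lit 1) (nat_lit 4) (nat_lit 2) (nat_lit 5) (nat_lit 2) (nat_lit 4) (nat_lit 495) (nat_lit 381) (nat_lit 324)) (XT.lf (nat_lit 0) (nat_lit 422773001149) (nat_lit 76) (nat_lit 206915319651) (nat_lit 76) (nat_lit 205354013642) (nat_lit 1) (nat_lit 4) (nat_lit 2) (nat_lit 5) (nat_lit 2) (nat_lit 4) (nat_lit 496) (nat_lit 381) (nat_lit 323)))) (XT.nd (nat_lit 156) (nat_lit 0) (nat_lit 0) (XT.nd (nat_lit 78) (nat_lit 0) (nat_lit 0) (XT.lf (nat_lit 0) (nat_lit 476703651340) (nat_lit 76) (nat_lit 212963150018) (nat_lit 76) (nat_lit 211400496262) (nat_lit 1) (nat_lit 4) (nat_lit 2) (nat_lit 5) (nat_lit 2) (nat_lit 4) (nat_lit 497) (nat_lit 381) (nat_lit 322)) (XT.lf (nat_lit 0) (nat_lit 534916425102)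 (nat_lit 76) (nat_lit 219511492936) (nat_lit 76) (nat_lit 217947591267) (nat_lit 1) (nat_lit 4) (nat_lit 2) (nat_lit 5) (nat_lit 2) (nat_lit 4) (nat_lit 498) (nat_lit 381) (nat_lit 321))) (XT.nd (nat_lit 78) (nat_lit 0) (nat_lit 0) (XT.lf (nat_lit 0) (nat_lit 597756287020) (nat_lit 76) (nat_lit 226599153401) (nat_lit 76) (nat_lit 225034096256) (nat_lit 1) (nat_lit 4) (nat_lit 2) (nat_lit 5) (nat_lit 2) (nat_lit 4) (nat_lit 499) (nat_lit 381) (nat_lit 320)) (XT.lf (nat_lit 0) (nat_lit 665595621461) (nat_lit 76) (nat_lit 234268132364) (nat_lit 76) (nat_lit 232702005334) (nat_lit 1) (nat_lit 4) (nat_lit 2) (nat_lit 5) (nat_lit 2) (nat_lit 4) (nat_lit 500) (nat_lit 381) (nat_lit 319))))))) (XT.nd (nat_lit 936) (nat_lit 0) (nat_lit 0) (XT.nd (nat_lit 468) (nat_lit 0) (nat_lit 0) (XT.nd (nat_lit 234) (nat_lit 0) (nat_lit 0) (XT.nd (nat_lit 78) (nat_lit 0) (nat_lit 0) (XT.lf (nat_lit 0) (nat_lit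 738836439295) (nat_lit 76) (nat_lit 242563875625) (nat_lit 76) (nat_lit 240996757962) (nat_lit 1) (nat_lit 4) (nat_lit 2) (nat_lit 5) (nat_lit 2) (nat_lit 4) (nat_lit 501) (nat_lit 381) (nat_lit 318)) (XT.nd (nat_lit 78) (nat_lit 0) (nat_lit 0) (XT.lf (nat_lit 0) (nat_lit 817912760185) (nat_lit 76) (nat_lit 251535543145) (nat_lit 76) (nat_lit 249967508229) (nat_lit 1) (nat_lit 4) (nat_lit 2) (nat_lit 5) (nat_lit 2) (nat_lit 4) (nat_lit 502) (nat_lit 381) (nat_lit 317)) (XT.lf (nat_lit 0) (nat_lit 903293184549) (nat_lit 76) (nat_lit 261236300362) (nat_lit 76) (nat_lit 259667416136) (nat_lit 1) (nat_lit 4) (nat_lit 2) (nat_lit 5) (nat_lit 2) (nat_lit 4) (nat_lit 503) (nat_lit 381) (nat_lit 316)))) (XT.nd (nat_lit 78) (nat_lit 0) (nat_lit 0) (XT.lf (nat_lit 0) (nat_lit 995483670458) (nat_lit 76) (nat_lit 271723633243) (nat_lit 76) (nat_lit 270153962620) (nat_lit 1) (nat_lit 4) (nat_lit 2)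 (nat_lit 5) (nat_lit 2) (nat_lit 4) (nat_lit 504) (nat_lit 381) (nat_lit 315)) (XT.nd (nat_lit 78) (nat_lit 0) (nat_lit 0) (XT.lf (nat_lit 0) (nat_lit 1095030531903) (nat_lit 76) (nat_lit 283059688947) (nat_lit 76) (nat_lit 281489290178) (nat_lit 1) (nat_lit 4) (nat_lit 2) (nat_lit 5) (nat_lit 2) (nat_lit 4) (nat_lit 505) (nat_lit 381) (nat_lit 314)) (XT.lf (nat_lit 0) (nat_lit 1202523676211) (nat_lit 76) (nat_lit 295311644099) (nat_lit 76) (nat_lit 293740571122) (nat_lit 1) (nat_lit 4) (nat_lit 2) (nat_lit 5) (nat_lit 2) (nat_lit 4) (nat_lit 506) (nat_lit 381) (nat_lit 313))))) (XT.nd (nat_lit 234) (nat_lit 0) (nat_lit 0) (XT.nd (nat_lit 78) (nat_lit 0) (nat_lit 0) (XT.lf (nat_lit 0) (nat_lit 1318600099792) (nat_lit 76) (nat_lit 308552102880) (nat_lit 76) (nat_lit 306980405635) (nat_lit 1) (nat_lit 4) (nat_lit 2) (nat_lit 5) (nat_lit 2) (nat_lit 4) (nat_lit 507) (nat_lit 381) (nat_lit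 312)) (XT.nd (nat_lit 78) (nat_lit 0) (nat_lit 0) (XT.lf (nat_lit 0) (nat_lit 1443947662935) (nat_lit 76) (nat_lit 322859527266) (nat_lit 76) (nat_lit 321287251996) (nat_lit 1) (nat_lit 4) (nat_lit 2) (nat_lit 5) (nat_lit 2) (nat_lit 4) (nat_lit 508) (nat_lit 381) (nat_lit 311)) (XT.lf (nat_lit 0) (nat_lit 1579309166013) (nat_lit 76) (nat_lit 338318701994) (nat_lit 76) (nat_lit 336745891516) (nat_lit 1) (nat_lit 4) (nat_lit 2) (nat_lit 5) (nat_lit 2) (nat_lit 4) (nat_lit 509) (nat_lit 381) (nat_lit 310)))) (XT.nd (nat_lit 78) (nat_lit 0) (nat_lit 0) (XT.lf (nat_lit 0) (nat_lit 1725486751268) (nat_lit 76) (nat_lit 355021236990) (nat_lit 76) (nat_lit 353447930948) (nat_lit 1) (nat_lit 4) (nat_lit 2) (nat_lit 5) (nat_lit 2) (nat_lit 4) (nat_lit 510) (nat_lit 381) (nat_lit 309)) (XT.nd (nat_lit 78) (nat_lit 0) (nat_lit 0) (XT.lf (nat_lit 0) (nat_lit 1883346656241) (nat_lit 76) (nat_lit 373066110238)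 (nat_lit 76) (nat_lit 371492345341) (nat_lit 1) (nat_lit 4) (nat_lit 2) (nat_lit 5) (nat_lit 2) (nat_lit 4) (nat_lit 511) (nat_lit 381) (nat_lit 308)) (XT.lf (nat_lit 0) (nat_lit 2053824347035) (nat_lit 76) (nat_lit 392560254320) (nat_lit 76) (nat_lit 390986064557) (nat_lit 1) (nat_lit 4) (nat_lit 2) (nat_lit 5) (nat_lit 2) (nat_lit 4) (nat_lit 512) (nat_lit 381) (nat_lit 307)))))) (XT.nd (nat_lit 468) (nat_lit 0) (nat_lit 0) (XT.nd (nat_lit 234) (nat_lit 0) (nat_lit 0) (XT.nd (nat_lit 78) (nat_lit 0) (nat_lit 0) (XT.lf (nat_lit 0) (nat_lit 2237930061820) (nat_lit 76) (nat_lit 413619190091) (nat_lit 76) (nat_lit 412044606933) (nat_lit 1) (nat_lit 4) (nat_lit 2) (nat_lit 5) (nat_lit 2) (nat_lit 4) (nat_lit 513) (nat_lit 381) (nat_lit 306)) (XT.nd (nat_lit 78) (nat_lit 0) (nat_lit 0) (XT.lf (nat_lit 0) (nat_lit 2436754797422) (nat_lit 76) (nat_lit 436367711243) (nat_lit 76) (nat_lit 434792763831)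 (nat_lit 1) (nat_lit 4) (nat_lit 2) (nat_lit 5) (nat_lit 2) (nat_lit 4) (nat_lit 514) (nat_lit 381) (nat_lit 305)) (XT.lf (nat_lit 0) (nat_lit 2651476774498) (nat_lit 76) (nat_lit 460940623828) (nat_lit 76) (nat_lit 459365339144) (nat_lit 1) (nat_lit 4) (nat_lit 2) (nat_lit 5) (nat_lit 2) (nat_lit 4) (nat_lit 515) (nat_lit 381) (nat_lit 304)))) (XT.nd (nat_lit 78) (nat_lit 0) (nat_lit 0) (XT.lf (nat_lit 0) (nat_lit 2883368419577) (nat_lit 76) (nat_lit 487483545106) (nat_lit 76) (nat_lit 485907948133) (nat_lit 1) (nat_lit 4) (nat_lit 2) (nat_lit 5) (nat_lit 2) (nat_lit 4) (nat_lit 516) (nat_lit 381) (nat_lit 303)) (XT.nd (nat_lit 78) (nat_lit 0) (nat_lit 0) (XT.lf (nat_lit 0) (nat_lit 3133803905373) (nat_lit 76) (nat_lit 516153766462) (nat_lit 76) (nat_lit 514577880332) (nat_lit 1) (nat_lit 4) (nat_lit 2) (nat_lit 5) (nat_lit 2) (nat_lit 4) (nat_lit 517) (nat_lit 381) (nat_lit 302)) (XT.lf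 (nat_lit 0) (nat_lit 3404267294022) (nat_lit 76) (nat_lit 547121185504) (nat_lit 76) (nat_lit 545545031637) (nat_lit 1) (nat_lit 4) (nat_lit 2) (nat_lit 5) (nat_lit 2) (nat_lit 4) (nat_lit 518) (nat_lit 381) (nat_lit 301))))) (XT.nd (nat_lit 234) (nat_lit 0) (nat_lit 0) (XT.nd (nat_lit 78) (nat_lit 0) (nat_lit 0) (XT.lf (nat_lit 0) (nat_lit 3696361331532) (nat_lit 76) (nat_lit 580569312863) (nat_lit 76) (nat_lit 578992911091) (nat_lit 1) (nat_lit 4) (nat_lit 2) (nat_lit 5) (nat_lit 2) (nat_lit 4) (nat_lit 519) (nat_lit 381) (nat_lit 300)) (XT.nd (nat_lit 78) (nat_lit 0) (nat_lit 0) (XT.lf (nat_lit 0) (nat_lit 4011816945532) (nat_lit 76) (nat_lit 616696359665) (nat_lit 76) (nat_lit 615119728351) (nat_lit 1) (nat_lit 4) (nat_lit 2) (nat_lit 5) (nat_lit 2) (nat_lit 4) (nat_lit 520) (nat_lit 381) (nat_lit 299)) (XT.lf (nat_lit 0) (nat_lit 4352503502624) (nat_lit 76) (nat_lit 655716412113) (nat_lit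 76) (nat_lit 654139568260) (nat_lit 1) (nat_lit 4) (nat_lit 2) (nat_lit 5) (nat_lit 2) (nat_lit 4) (nat_lit 521) (nat_lit 381) (nat_lit 298)))) (XT.nd (nat_lit 156) (nat_lit 0) (nat_lit 0) (XT.nd (nat_lit 78) (nat_lit 0) (nat_lit 0) (XT.lf (nat_lit 0) (nat_lit 4720439886108) (nat_lit 76) (nat_lit 697860700147) (nat_lit 76) (nat_lit 696283659499) (nat_lit 1) (nat_lit 4) (nat_lit 2) (nat_lit 5) (nat_lit 2) (nat_lit 4) (nat_lit 522) (nat_lit 381) (nat_lit 297)) (XT.lf (nat_lit 0) (nat_lit 5117806459740) (nat_lit 76) (nat_lit 743378967696) (nat_lit 76) (nat_lit 741801744831) (nat_lit 1) (nat_lit 4) (nat_lit 2) (nat_lit 5) (nat_lit 2) (nat_lit 4) (nat_lit 523) (nat_lit 381) (nat_lit 296))) (XT.nd (nat_lit 78) (nat_lit 0) (nat_lit 0) (XT.lf (nat_lit 0) (nat_lit 5546957988400) (nat_lit 76) (nat_lit 792540952643) (nat_lit 76) (nat_lit 790963561057) (nat_lit 1) (nat_lit 4) (nat_lit 2) (nat_lit 5)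 (nat_lit 2) (nat_lit 4) (nat_lit 524) (nat_lit 381) (nat_lit 295)) (XT.lf (nat_lit 0) (nat_lit 6010437592257) (nat_lit 76) (nat_lit 845637985267) (nat_lit 76) (nat_lit 844060437459) (nat_lit 1) (nat_lit 4) (nat_lit 2) (nat_lit 5) (nat_lit 2) (nat_lit 4) (nat_lit 525) (nat_lit 381) (nat_lit 294))))))))
noncomputable def xc50 : XT := (XT.nd (nat_lit 56628) (nat_lit 0) (nat_lit 76) (XT.nd (nat_lit 55614) (nat_lit 0) (nat_lit 988) (XT.nd (nat_lit 468) (nat_lit 0) (nat_lit 0) (XT.nd (nat_lit 234) (nat_lit 0) (nat_lit 0) (XT.nd (nat_lit 78) (nat_lit 0) (nat_lit 0) (XT.lf (nat_lit 0) (nat_lit 6510991817113) (nat_lit 76) (nat_lit 902984714653) (nat_lit 76) (nat_lit 901407022194) (nat_lit 1) (nat_lit 4) (nat_lit 2) (nat_lit 5) (nat_lit 2) (nat_lit 4) (nat_lit 526) (nat_lit 381) (nat_lit 293)) (XT.nd (nat_lit 78) (nat_lit 0) (nat_lit 0) (XT.lf (nat_lit 0) (nat_lit 7051586910225) (nat_lit 76) (nat_lit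 964920973269) (nat_lit 76) (nat_lit 963343146875) (nat_lit 1) (nat_lit 4) (nat_lit 2) (nat_lit 5) (nat_lit 2) (nat_lit 4) (nat_lit 527) (nat_lit 381) (nat_lit 292)) (XT.lf (nat_lit 0) (nat_lit 7635426398072) (nat_lit 76) (nat_lit 1031813790796) (nat_lit 76) (nat_lit 1030235840388) (nat_lit 1) (nat_lit 4) (nat_lit 2) (nat_lit 5) (nat_lit 2) (nat_lit 4) (nat_lit 528) (nat_lit 381) (nat_lit 291)))) (XT.nd (nat_lit 78) (nat_lit 0) (nat_lit 0) (XT.lf (nat_lit 0) (nat_lit 8265970070211) (nat_lit 76) (nat_lit 1104059569117) (nat_lit 76) (nat_lit 1102481503881) (nat_lit 1) (nat_lit 4) (nat_lit 2) (nat_lit 5) (nat_lit 2) (nat_lit 4) (nat_lit 529) (nat_lit 381) (nat_lit 290)) (XT.nd (nat_lit 78) (nat_lit 0) (nat_lit 0) (XT.lf (nat_lit 0) (nat_lit 8946954481736) (nat_lit 76) (nat_lit 1182086431363) (nat_lit 76) (nat_lit 1180508259804) (nat_lit 1) (nat_lit 4) (nat_lit 2) (nat_lit 5) (nat_lit 2) (nat_lit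 4) (nat_lit 530) (nat_lit 381) (nat_lit 289)) (XT.lf (nat_lit 0) (nat_lit 9682415095826) (nat_lit 76) (nat_lit 1266356758938) (nat_lit 76) (nat_lit 1264778488933) (nat_lit 1) (nat_lit 4) (nat_lit 2) (nat_lit 5) (nat_lit 2) (nat_lit 4) (nat_lit 531) (nat_lit 381) (nat_lit 288))))) (XT.nd (nat_lit 234) (nat_lit 0) (nat_lit 0) (XT.nd (nat_lit 78) (nat_lit 0) (nat_lit 0) (XT.lf (nat_lit 0) (nat_lit 10476710197603) (nat_lit 76) (nat_lit 1357369931562) (nat_lit 76) (nat_lit 1355791570402) (nat_lit 1) (nat_lit 4) (nat_lit 2) (nat_lit 5) (nat_lit 2) (nat_lit 4) (nat_lit 532) (nat_lit 381) (nat_lit 287)) (XT.nd (nat_lit 78) (nat_lit 0) (nat_lit 0) (XT.lf (nat_lit 0) (nat_lit 11334546721002) (nat_lit 76) (nat_lit 1455665286554) (nat_lit 76) (nat_lit 1454086840993) (nat_lit 1) (nat_lit 4) (nat_lit 2) (nat_lit 5) (nat_lit 2) (nat_lit 4) (nat_lit 533) (nat_lit 381) (nat_lit 286)) (XT.lf (nat_lit 0)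 (nat_lit 12261008141718) (nat_lit 76) (nat_lit 1561825314907) (nat_lit 76) (nat_lit 1560246791195) (nat_lit 1) (nat_lit 4) (nat_lit 2) (nat_lit 5) (nat_lit 2) (nat_lit 4) (nat_lit 534) (nat_lit 381) (nat_lit 285)))) (XT.nd (nat_lit 54756) (nat_lit 0) (nat_lit 2052) (XT.lf (nat_lit 0) (nat_lit 13261584601503) (nat_lit 76) (nat_lit 1676479113084) (nat_lit 76) (nat_lit 1674900517012) (nat_lit 1) (nat_lit 4) (nat_lit 2) (nat_lit 5) (nat_lit 2) (nat_lit 4) (nat_lit 535) (nat_lit 381) (nat_lit 284)) (XT.nd (nat_lit 78) (nat_lit 0) (nat_lit 0) (XT.lf (nat_lit 0) (nat_lit 715658043) (nat_lit 76) (nat_lit 3895786992) (nat_lit 76) (nat_lit 3895786992) (nat_lit 28) (nat_lit 4) (nat_lit 29) (nat_lit 5) (nat_lit 29) (nat_lit 4) (nat_lit 436) (nat_lit 382) (nat_lit 382)) (XT.lf (nat_lit 0) (nat_lit 16861907915) (nat_lit 76) (nat_lit 573140163) (nat_lit 76) (nat_lit 320545845) (nat_lit 28) (nat_lit 4)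 (nat_lit 29) (nat_lit 5) (nat_lit 29) (nat_lit 4) (nat_lit 437) (nat_lit 382) (nat_lit 381)))))) (XT.nd (nat_lit 468) (nat_lit 456) (nat_lit 0) (XT.nd (nat_lit 234) (nat_lit 228) (nat_lit 0) (XT.nd (nat_lit 78) (nat_lit 228) (nat_lit 0) (XT.lf (nat_lit 0) (nat_lit 7506520949) (nat_lit 152) (nat_lit 3966842862) (nat_lit 0) (nat_lit 7056078406) (nat_lit 26) (nat_lit 5) (nat_lit 28) (nat_lit 4) (nat_lit 26) (nat_lit 4) (nat_lit 438) (nat_lit 382) (nat_lit 380)) (XT.nd (nat_lit 78) (nat_lit 152) (nat_lit 0) (XT.lf (nat_lit 0) (nat_lit 11737257732) (nat_lit 76) (nat_lit 4141663259) (nat_lit 76) (nat_lit 3490703202) (nat_lit 25) (nat_lit 4) (nat_lit 26) (nat_lit 5) (nat_lit 26) (nat_lit 4) (nat_lit 439) (nat_lit 382) (nat_lit 379)) (XT.lf (nat_lit 0) (nat_lit 4427290616) (nat_lit 152) (nat_lit 12186924533) (nat_lit 0) (nat_lit 3652638374) (nat_lit 23) (nat_lit 5) (nat_lit 25) (nat_lit 4) (nat_lit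 23) (nat_lit 4) (nat_lit 440) (nat_lit 382) (nat_lit 378)))) (XT.nd (nat_lit 78) (nat_lit 152) (nat_lit 0) (XT.lf (nat_lit 0) (nat_lit 3462379297) (nat_lit 76) (nat_lit 9349176447) (nat_lit 76) (nat_lit 8415346937) (nat_lit 22) (nat_lit 4) (nat_lit 23) (nat_lit 5) (nat_lit 23) (nat_lit 4) (nat_lit 441) (nat_lit 382) (nat_lit 377)) (XT.nd (nat_lit 78) (nat_lit 152) (nat_lit 0) (XT.lf (nat_lit 0) (nat_lit 20304973962) (nat_lit 76) (nat_lit 1521602224) (nat_lit 76) (nat_lit 440386355) (nat_lit 22) (nat_lit 4) (nat_lit 23) (nat_lit 5) (nat_lit 23) (nat_lit 4) (nat_lit 442) (nat_lit 382) (nat_lit 376)) (XT.lf (nat_lit 0) (nat_lit 7941033158) (nat_lit 152) (nat_lit 8605746475) (nat_lit 0) (nat_lit 6813547306) (nat_lit 20) (nat_lit 5) (nat_lit 22) (nat_lit 4) (nat_lit 20) (nat_lit 4) (nat_lit 443) (nat_lit 382) (nat_lit 375))))) (XT.nd (nat_lit 234) (nat_lit 228) (nat_lit 0) (XT.nd (nat_lit 78)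 (nat_lit 152) (nat_lit 0) (XT.lf (nat_lit 0) (nat_lit 8016042186) (nat_lit 76) (nat_lit 8886993230) (nat_lit 76) (nat_lit 7642507335) (nat_lit 19) (nat_lit 4) (nat_lit 20) (nat_lit 5) (nat_lit 20) (nat_lit 4) (nat_lit 444) (nat_lit 382) (nat_lit 374)) (XT.nd (nat_lit 78) (nat_lit 76) (nat_lit 0) (XT.lf (nat_lit 0) (nat_lit 606968989) (nat_lit 152) (nat_lit 90323770) (nat_lit 76) (nat_lit 25135762184) (nat_lit 18) (nat_lit 5) (nat_lit 20) (nat_lit 5) (nat_lit 19) (nat_lit 4) (nat_lit 445) (nat_lit 382) (nat_lit 373)) (XT.lf (nat_lit 0) (nat_lit 9406077235) (nat_lit 152) (nat_lit 9716821503) (nat_lit 0) (nat_lit 8060588395) (nat_lit 17) (nat_lit 5) (nat_lit 19) (nat_lit 4) (nat_lit 17) (nat_lit 4) (nat_lit 446) (nat_lit 382) (nat_lit 372)))) (XT.nd (nat_lit 156) (nat_lit 152) (nat_lit 0) (XT.nd (nat_lit 78) (nat_lit 0) (nat_lit 0) (XT.lf (nat_lit 0) (nat_lit 7483809456) (nat_lit 76) (nat_lit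 11299836918) (nat_lit 76) (nat_lit 9868349553) (nat_lit 16) (nat_lit 4) (nat_lit 17) (nat_lit 5) (nat_lit 17) (nat_lit 4) (nat_lit 447) (nat_lit 382) (nat_lit 371)) (XT.lf (nat_lit 0) (nat_lit 25965924758) (nat_lit 76) (nat_lit 2893663588) (nat_lit 76) (nat_lit 1382547959) (nat_lit 16) (nat_lit 4) (nat_lit 17) (nat_lit 5) (nat_lit 17) (nat_lit 4) (nat_lit 448) (nat_lit 382) (nat_lit 370))) (XT.nd (nat_lit 78) (nat_lit 0) (nat_lit 0) (XT.lf (nat_lit 0) (nat_lit 7579211473) (nat_lit 152) (nat_lit 18238634415) (nat_lit 0) (nat_lit 6111761933) (nat_lit 14) (nat_lit 5) (nat_lit 16) (nat_lit 4) (nat_lit 14) (nat_lit 4) (nat_lit 449) (nat_lit 382) (nat_lit 369)) (XT.lf (nat_lit 0) (nat_lit 17077274042) (nat_lit 152) (nat_lit 1133796086) (nat_lit 0) (nat_lit 15546613019) (nat_lit 14) (nat_lit 5) (nat_lit 16) (nat_lit 4) (nat_lit 14) (nat_lit 4) (nat_lit 450) (nat_lit 382) (nat_lit 368))))))) (XT.nd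 (nat_lit 936) (nat_lit 380) (nat_lit 0) (XT.nd (nat_lit 468) (nat_lit 228) (nat_lit 0) (XT.nd (nat_lit 234) (nat_lit 76) (nat_lit 0) (XT.nd (nat_lit 78) (nat_lit 152) (nat_lit 0) (XT.lf (nat_lit 0) (nat_lit 17652389656) (nat_lit 76) (nat_lit 9828572841) (nat_lit 76) (nat_lit 8239382667) (nat_lit 13) (nat_lit 4) (nat_lit 14) (nat_lit 5) (nat_lit 14) (nat_lit 4) (nat_lit 451) (nat_lit 382) (nat_lit 367)) (XT.nd (nat_lit 78) (nat_lit 76) (nat_lit 0) (XT.lf (nat_lit 0) (nat_lit 586335570) (nat_lit 152) (nat_lit 423805844) (nat_lit 76) (nat_lit 36847932043) (nat_lit 12) (nat_lit 5) (nat_lit 14) (nat_lit 5) (nat_lit 13) (nat_lit 4) (nat_lit 452) (nat_lit 382) (nat_lit 366)) (XT.lf (nat_lit 0) (nat_lit 10083561235) (nat_lit 152) (nat_lit 21517846009) (nat_lit 0) (nat_lit 8515447212) (nat_lit 11) (nat_lit 5) (nat_lit 13) (nat_lit 4) (nat_lit 11) (nat_lit 4) (nat_lit 453) (nat_lit 382) (nat_lit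 365)))) (XT.nd (nat_lit 78) (nat_lit 76) (nat_lit 0) (XT.lf (nat_lit 0) (nat_lit 20121181318) (nat_lit 152) (nat_lit 3942662992) (nat_lit 0) (nat_lit 18510046622) (nat_lit 11) (nat_lit 5) (nat_lit 13) (nat_lit 4) (nat_lit 11) (nat_lit 4) (nat_lit 454) (nat_lit 382) (nat_lit 364)) (XT.nd (nat_lit 78) (nat_lit 0) (nat_lit 0) (XT.lf (nat_lit 0) (nat_lit 15315352335) (nat_lit 76) (nat_lit 15776358399) (nat_lit 76) (nat_lit 14125389746) (nat_lit 10) (nat_lit 4) (nat_lit 11) (nat_lit 5) (nat_lit 11) (nat_lit 4) (nat_lit 455) (nat_lit 382) (nat_lit 363)) (XT.lf (nat_lit 0) (nat_lit 35861301148) (nat_lit 76) (nat_lit 6954137536) (nat_lit 76) (nat_lit 5266285590) (nat_lit 10) (nat_lit 4) (nat_lit 11) (nat_lit 5) (nat_lit 11) (nat_lit 4) (nat_lit 456) (nat_lit 382) (nat_lit 362))))) (XT.nd (nat_lit 234) (nat_lit 76) (nat_lit 0) (XT.nd (nat_lit 78) (nat_lit 0) (nat_lit 0) (XT.lf (nat_lit 0) (nat_lit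 4088856437) (nat_lit 152) (nat_lit 44583778735) (nat_lit 0) (nat_lit 2494409082) (nat_lit 8) (nat_lit 5) (nat_lit 10) (nat_lit 4) (nat_lit 8) (nat_lit 4) (nat_lit 457) (nat_lit 382) (nat_lit 361)) (XT.nd (nat_lit 78) (nat_lit 0) (nat_lit 0) (XT.lf (nat_lit 0) (nat_lit 14210963255) (nat_lit 152) (nat_lit 27665802891) (nat_lit 0) (nat_lit 12587236753) (nat_lit 8) (nat_lit 5) (nat_lit 10) (nat_lit 4) (nat_lit 8) (nat_lit 4) (nat_lit 458) (nat_lit 382) (nat_lit 360)) (XT.lf (nat_lit 0) (nat_lit 24938797889) (nat_lit 152) (nat_lit 9814283991) (nat_lit 0) (nat_lit 23287961066) (nat_lit 8) (nat_lit 5) (nat_lit 10) (nat_lit 4) (nat_lit 8) (nat_lit 4) (nat_lit 459) (nat_lit 382) (nat_lit 359)))) (XT.nd (nat_lit 78) (nat_lit 0) (nat_lit 0) (XT.lf (nat_lit 0) (nat_lit 9554520559) (nat_lit 76) (nat_lit 27011198584) (nat_lit 76) (nat_lit 25335259611) (nat_lit 7) (nat_lit 4) (nat_lit 8) (nat_lit 5) (nat_lit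 8) (nat_lit 4) (nat_lit 460) (nat_lit 382) (nat_lit 358)) (XT.nd (nat_lit 78) (nat_lit 0) (nat_lit 0) (XT.lf (nat_lit 0) (nat_lit 30652027651) (nat_lit 76) (nat_lit 18555060596) (nat_lit 76) (nat_lit 16855878892) (nat_lit 7) (nat_lit 4) (nat_lit 8) (nat_lit 5) (nat_lit 8) (nat_lit 4) (nat_lit 461) (nat_lit 382) (nat_lit 357)) (XT.lf (nat_lit 0) (nat_lit 53086456746) (nat_lit 76) (nat_lit 9602897387) (nat_lit 76) (nat_lit 7882194635) (nat_lit 7) (nat_lit 4) (nat_lit 8) (nat_lit 5) (nat_lit 8) (nat_lit 4) (nat_lit 462) (nat_lit 382) (nat_lit 356)))))) (XT.nd (nat_lit 468) (nat_lit 152) (nat_lit 0) (XT.nd (nat_lit 234) (nat_lit 76) (nat_lit 0) (XT.nd (nat_lit 78) (nat_lit 0) (nat_lit 0) (XT.lf (nat_lit 0) (nat_lit 1576770619) (nat_lit 76) (nat_lit 18133355) (nat_lit 152) (nat_lit 73852350095) (nat_lit 5) (nat_lit 5) (nat_lit 6) (nat_lit 5) (nat_lit 7) (nat_lit 4) (nat_lit 463) (nat_lit 382)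 (nat_lit 355)) (XT.nd (nat_lit 78) (nat_lit 0) (nat_lit 0) (XT.lf (nat_lit 0) (nat_lit 11981601484) (nat_lit 152) (nat_lit 58316031432) (nat_lit 0) (nat_lit 10352823265) (nat_lit 5) (nat_lit 5) (nat_lit 7) (nat_lit 4) (nat_lit 5) (nat_lit 4) (nat_lit 464) (nat_lit 382) (nat_lit 354)) (XT.lf (nat_lit 0) (nat_lit 23049950755) (nat_lit 152) (nat_lit 41826553356) (nat_lit 0) (nat_lit 21405353923) (nat_lit 5) (nat_lit 5) (nat_lit 7) (nat_lit 4) (nat_lit 5) (nat_lit 4) (nat_lit 465) (nat_lit 382) (nat_lit 353)))) (XT.nd (nat_lit 78) (nat_lit 76) (nat_lit 0) (XT.lf (nat_lit 0) (nat_lit 34865105895) (nat_lit 152) (nat_lit 24303897691) (nat_lit 0) (nat_lit 33205862200) (nat_lit 5) (nat_lit 5) (nat_lit 7) (nat_lit 4) (nat_lit 5) (nat_lit 4) (nat_lit 466) (nat_lit 382) (nat_lit 352)) (XT.nd (nat_lit 78) (nat_lit 76) (nat_lit 0) (XT.lf (nat_lit 0) (nat_lit 47497082639) (nat_lit 152) (nat_lit 5644226476)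 (nat_lit 0) (nat_lit 45824277034) (nat_lit 5) (nat_lit 5) (nat_lit 7) (nat_lit 4) (nat_lit 5) (nat_lit 4) (nat_lit 467) (nat_lit 382) (nat_lit 351)) (XT.lf (nat_lit 0) (nat_lit 15014102322) (nat_lit 76) (nat_lit 46367724344) (nat_lit 76) (nat_lit 44682361415) (nat_lit 4) (nat_lit 4) (nat_lit 5) (nat_lit 5) (nat_lit 5) (nat_lit 4) (nat_lit 468) (nat_lit 382) (nat_lit 350))))) (XT.nd (nat_lit 234) (nat_lit 152) (nat_lit 0) (XT.nd (nat_lit 78) (nat_lit 0) (nat_lit 0) (XT.lf (nat_lit 0) (nat_lit 37407114416) (nat_lit 76) (nat_lit 39008737174) (nat_lit 76) (nat_lit 37311747092) (nat_lit 4) (nat_lit 4) (nat_lit 5) (nat_lit 5) (nat_lit 5) (nat_lit 4) (nat_lit 469) (nat_lit 382) (nat_lit 349)) (XT.nd (nat_lit 78) (nat_lit 0) (nat_lit 0) (XT.lf (nat_lit 0) (nat_lit 61370294171) (nat_lit 76) (nat_lit 31175061946) (nat_lit 76) (nat_lit 29467305982) (nat_lit 4) (nat_lit 4) (nat_lit 5) (nat_lit 5) (nat_lit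 5) (nat_lit 4) (nat_lit 470) (nat_lit 382) (nat_lit 348)) (XT.lf (nat_lit 0) (nat_lit 87045645615) (nat_lit 76) (nat_lit 22820276880) (nat_lit 76) (nat_lit 21102552508) (nat_lit 4) (nat_lit 4) (nat_lit 5) (nat_lit 5) (nat_lit 5) (nat_lit 4) (nat_lit 471) (nat_lit 382) (nat_lit 347)))) (XT.nd (nat_lit 156) (nat_lit 152) (nat_lit 0) (XT.nd (nat_lit 78) (nat_lit 0) (nat_lit 0) (XT.lf (nat_lit 0) (nat_lit 114585318980) (nat_lit 76) (nat_lit 13894872141) (nat_lit 76) (nat_lit 12167917760) (nat_lit 4) (nat_lit 4) (nat_lit 5) (nat_lit 5) (nat_lit 5) (nat_lit 4) (nat_lit 472) (nat_lit 382) (nat_lit 346)) (XT.lf (nat_lit 0) (nat_lit 144152512329) (nat_lit 76) (nat_lit 4345956439) (nat_lit 76) (nat_lit 2610455755) (nat_lit 4) (nat_lit 4) (nat_lit 5) (nat_lit 5) (nat_lit 5) (nat_lit 4) (nat_lit 473) (nat_lit 382) (nat_lit 345))) (XT.nd (nat_lit 78) (nat_lit 0) (nat_lit 0) (XT.lf (nat_lit 0) (nat_lit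 7737347831) (nat_lit 152) (nat_lit 148498424343) (nat_lit 0) (nat_lit 6123075675) (nat_lit 2) (nat_lit 5) (nat_lit 4) (nat_lit 4) (nat_lit 2) (nat_lit 4) (nat_lit 474) (nat_lit 382) (nat_lit 344)) (XT.lf (nat_lit 0) (nat_lit 18999152981) (nat_lit 152) (nat_lit 138107914833) (nat_lit 0) (nat_lit 17378096493) (nat_lit 2) (nat_lit 5) (nat_lit 4) (nat_lit 4) (nat_lit 2) (nat_lit 4) (nat_lit 475) (nat_lit 382) (nat_lit 343))))))))
noncomputable def xc51 : XT := (XT.nd (nat_lit 1950) (nat_lit 0) (nat_lit 0) (XT.nd (nat_lit 936) (nat_lit 0) (nat_lit 0) (XT.nd (nat_lit 468) (nat_lit 76) (nat_lit 0) (XT.nd (nat_lit 234) (nat_lit 0) (nat_lit 0) (XT.nd (nat_lit 78) (nat_lit 0) (nat_lit 0) (XT.lf (nat_lit 0) (nat_lit 31087075498) (nat_lit 152) (nat_lit 127040759862) (nat_lit 0) (nat_lit 29459737222) (nat_lit 2) (nat_lit 5) (nat_lit 4) (nat_lit 4) (nat_lit 2) (nat_lit 4) (nat_lit 476) (nat_lit 382)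 (nat_lit 342)) (XT.nd (nat_lit 78) (nat_lit 0) (nat_lit 0) (XT.lf (nat_lit 0) (nat_lit 44072747516) (nat_lit 152) (nat_lit 115231376290) (nat_lit 0) (nat_lit 42439592768) (nat_lit 2) (nat_lit 5) (nat_lit 4) (nat_lit 4) (nat_lit 2) (nat_lit 4) (nat_lit 477) (nat_lit 382) (nat_lit 341)) (XT.lf (nat_lit 0) (nat_lit 58033121164) (nat_lit 152) (nat_lit 102609782584) (nat_lit 0) (nat_lit 56394580795) (nat_lit 2) (nat_lit 5) (nat_lit 4) (nat_lit 4) (nat_lit 2) (nat_lit 4) (nat_lit 478) (nat_lit 382) (nat_lit 340)))) (XT.nd (nat_lit 78) (nat_lit 0) (nat_lit 0) (XT.lf (nat_lit 0) (nat_lit 73050924584) (nat_lit 152) (nat_lit 89101184116) (nat_lit 0) (nat_lit 71407397529) (nat_lit 2) (nat_lit 5) (nat_lit 4) (nat_lit 4) (nat_lit 2) (nat_lit 4) (nat_lit 479) (nat_lit 382) (nat_lit 339)) (XT.nd (nat_lit 78) (nat_lit 0) (nat_lit 0) (XT.lf (nat_lit 0) (nat_lit 89215152165) (nat_lit 152) (nat_lit 74625529931)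 (nat_lit 0) (nat_lit 87567007808) (nat_lit 2) (nat_lit 5) (nat_lit 4) (nat_lit 4) (nat_lit 2) (nat_lit 4) (nat_lit 480) (nat_lit 382) (nat_lit 338)) (XT.lf (nat_lit 0) (nat_lit 106621591924) (nat_lit 152) (nat_lit 59097038375) (nat_lit 0) (nat_lit 104969172287) (nat_lit 2) (nat_lit 5) (nat_lit 4) (nat_lit 4) (nat_lit 2) (nat_lit 4) (nat_lit 481) (nat_lit 382) (nat_lit 337))))) (XT.nd (nat_lit 234) (nat_lit 76) (nat_lit 0) (XT.nd (nat_lit 78) (nat_lit 0) (nat_lit 0) (XT.lf (nat_lit 0) (nat_lit 125373393132) (nat_lit 152) (nat_lit 42423688758) (nat_lit 0) (nat_lit 123717014902) (nat_lit 2) (nat_lit 5) (nat_lit 4) (nat_lit 4) (nat_lit 2) (nat_lit 4) (nat_lit 482) (nat_lit 382) (nat_lit 336)) (XT.nd (nat_lit 78) (nat_lit 0) (nat_lit 0) (XT.lf (nat_lit 0) (nat_lit 145581677574) (nat_lit 152) (nat_lit 24506676043) (nat_lit 0) (nat_lit 143921633982) (nat_lit 2) (nat_lit 5) (nat_lit 4) (nat_lit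 4) (nat_lit 2) (nat_lit 4) (nat_lit 483) (nat_lit 382) (nat_lit 335)) (XT.lf (nat_lit 0) (nat_lit 167366198049) (nat_lit 152) (nat_lit 5239825343) (nat_lit 0) (nat_lit 165702760601) (nat_lit 2) (nat_lit 5) (nat_lit 4) (nat_lit 4) (nat_lit 2) (nat_lit 4) (nat_lit 484) (nat_lit 382) (nat_lit 334)))) (XT.nd (nat_lit 78) (nat_lit 0) (nat_lit 0) (XT.lf (nat_lit 0) (nat_lit 16306767845) (nat_lit 76) (nat_lit 174941458322) (nat_lit 76) (nat_lit 173274878417) (nat_lit 1) (nat_lit 4) (nat_lit 2) (nat_lit 5) (nat_lit 2) (nat_lit 4) (nat_lit 485) (nat_lit 382) (nat_lit 333)) (XT.nd (nat_lit 78) (nat_lit 0) (nat_lit 0) (XT.lf (nat_lit 0) (nat_lit 39799703735) (nat_lit 76) (nat_lit 177347906662) (nat_lit 76) (nat_lit 175678417072) (nat_lit 1) (nat_lit 4) (nat_lit 2) (nat_lit 5) (nat_lit 2) (nat_lit 4) (nat_lit 486) (nat_lit 382) (nat_lit 332)) (XT.lf (nat_lit 0) (nat_lit 65102279810) (nat_lit 76) (nat_lit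 179982894954) (nat_lit 76) (nat_lit 178310711214) (nat_lit 1) (nat_lit 4) (nat_lit 2) (nat_lit 5) (nat_lit 2) (nat_lit 4) (nat_lit 487) (nat_lit 382) (nat_lit 331)))))) (XT.nd (nat_lit 468) (nat_lit 0) (nat_lit 0) (XT.nd (nat_lit 234) (nat_lit 0) (nat_lit 0) (XT.nd (nat_lit 78) (nat_lit 0) (nat_lit 0) (XT.lf (nat_lit 0) (nat_lit 92364437261) (nat_lit 76) (nat_lit 182862037946) (nat_lit 76) (nat_lit 181187359621) (nat_lit 1) (nat_lit 4) (nat_lit 2) (nat_lit 5) (nat_lit 2) (nat_lit 4) (nat_lit 488) (nat_lit 382) (nat_lit 330)) (XT.nd (nat_lit 78) (nat_lit 0) (nat_lit 0) (XT.lf (nat_lit 0) (nat_lit 121747729612) (nat_lit 76) (nat_lit 186002397225) (nat_lit 76) (nat_lit 184325409099) (nat_lit 1) (nat_lit 4) (nat_lit 2) (nat_lit 5) (nat_lit 2) (nat_lit 4) (nat_lit 489) (nat_lit 382) (nat_lit 329)) (XT.lf (nat_lit 0) (nat_lit 153426280078) (nat_lit 76) (nat_lit 189422582328) (nat_lit 76) (nat_lit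 187743455498) (nat_lit 1) (nat_lit 4) (nat_lit 2) (nat_lit 5) (nat_lit 2) (nat_lit 4) (nat_lit 490) (nat_lit 382) (nat_lit 328)))) (XT.nd (nat_lit 78) (nat_lit 0) (nat_lit 0) (XT.lf (nat_lit 0) (nat_lit 187587813403) (nat_lit 76) (nat_lit 193142861018) (nat_lit 76) (nat_lit 191461753906) (nat_lit 1) (nat_lit 4) (nat_lit 2) (nat_lit 5) (nat_lit 2) (nat_lit 4) (nat_lit 491) (nat_lit 382) (nat_lit 327)) (XT.nd (nat_lit 78) (nat_lit 0) (nat_lit 0) (XT.lf (nat_lit 0) (nat_lit 224434768303) (nat_lit 76) (nat_lit 197185279391) (nat_lit 76) (nat_lit 195502338685) (nat_lit 1) (nat_lit 4) (nat_lit 2) (nat_lit 5) (nat_lit 2) (nat_lit 4) (nat_lit 492) (nat_lit 382) (nat_lit 326)) (XT.lf (nat_lit 0) (nat_lit 264185497102) (nat_lit 76) (nat_lit 201573792519) (nat_lit 76) (nat_lit 199889154040) (nat_lit 1) (nat_lit 4) (nat_lit 2) (nat_lit 5) (nat_lit 2) (nat_lit 4) (nat_lit 493) (nat_lit 382) (nat_lit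 325))))) (XT.nd (nat_lit 234) (nat_lit 0) (nat_lit 0) (XT.nd (nat_lit 78) (nat_lit 0) (nat_lit 0) (XT.lf (nat_lit 0) (nat_lit 307075559676) (nat_lit 76) (nat_lit 206334406406) (nat_lit 76) (nat_lit 204648195916) (nat_lit 1) (nat_lit 4) (nat_lit 2) (nat_lit 5) (nat_lit 2) (nat_lit 4) (nat_lit 494) (nat_lit 382) (nat_lit 324)) (XT.nd (nat_lit 78) (nat_lit 0) (nat_lit 0) (XT.lf (nat_lit 0) (nat_lit 353359119357) (nat_lit 76) (nat_lit 211495332096) (nat_lit 76) (nat_lit 209807666040) (nat_lit 1) (nat_lit 4) (nat_lit 2) (nat_lit 5) (nat_lit 2) (nat_lit 4) (nat_lit 495) (nat_lit 382) (nat_lit 323)) (XT.lf (nat_lit 0) (nat_lit 403310449093) (nat_lit 76) (nat_lit 217087152854) (nat_lit 76) (nat_lit 215398139052) (nat_lit 1) (nat_lit 4) (nat_lit 2) (nat_lit 5) (nat_lit 2) (nat_lit 4) (nat_lit 496) (nat_lit 382) (nat_lit 322)))) (XT.nd (nat_lit 156) (nat_lit 0) (nat_lit 0) (XT.nd (nat_lit 78) (nat_lit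 0) (nat_lit 0) (XT.lf (nat_lit 0) (nat_lit 457225556763) (nat_lit 76) (nat_lit 223143005395) (nat_lit 76) (nat_lit 221452743679) (nat_lit 1) (nat_lit 4) (nat_lit 2) (nat_lit 5) (nat_lit 2) (nat_lit 4) (nat_lit 497) (nat_lit 382) (nat_lit 321)) (XT.lf (nat_lit 0) (nat_lit 515423939301) (nat_lit 76) (nat_lit 229698776253) (nat_lit 76) (nat_lit 228007359061) (nat_lit 1) (nat_lit 4) (nat_lit 2) (nat_lit 5) (nat_lit 2) (nat_lit 4) (nat_lit 498) (nat_lit 382) (nat_lit 320))) (XT.nd (nat_lit 78) (nat_lit 0) (nat_lit 0) (XT.lf (nat_lit 0) (nat_lit 578250476012) (nat_lit 76) (nat_lit 236793314439) (nat_lit 76) (nat_lit 235100827363) (nat_lit 1) (nat_lit 4) (nat_lit 2) (nat_lit 5) (nat_lit 2) (nat_lit 4) (nat_lit 499) (nat_lit 382) (nat_lit 319)) (XT.lf (nat_lit 0) (nat_lit 646077472298) (nat_lit 76) (nat_lit 244468661662) (nat_lit 76) (nat_lit 242775183952) (nat_lit 1) (nat_lit 4) (nat_lit 2) (nat_lit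 5) (nat_lit 2) (nat_lit 4) (nat_lit 500) (nat_lit 382) (nat_lit 318))))))) (XT.nd (nat_lit 936) (nat_lit 0) (nat_lit 0) (XT.nd (nat_lit 468) (nat_lit 0) (nat_lit 0) (XT.nd (nat_lit 234) (nat_lit 0) (nat_lit 0) (XT.nd (nat_lit 78) (nat_lit 0) (nat_lit 0) (XT.lf (nat_lit 0) (nat_lit 719306865915) (nat_lit 76) (nat_lit 252770301461) (nat_lit 76) (nat_lit 251075906497) (nat_lit 1) (nat_lit 4) (nat_lit 2) (nat_lit 5) (nat_lit 2) (nat_lit 4) (nat_lit 501) (nat_lit 382) (nat_lit 317)) (XT.nd (nat_lit 78) (nat_lit 0) (nat_lit 0) (XT.lf (nat_lit 0) (nat_lit 798372608825) (nat_lit 76) (nat_lit 261747428738) (nat_lit 76) (nat_lit 260052184466) (nat_lit 1) (nat_lit 4) (nat_lit 2) (nat_lit 5) (nat_lit 2) (nat_lit 4) (nat_lit 502) (nat_lit 382) (nat_lit 316)) (XT.lf (nat_lit 0) (nat_lit 883743238765) (nat_lit 76) (nat_lit 271453241285) (nat_lit 76) (nat_lit 269757210615) (nat_lit 1) (nat_lit 4) (nat_lit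 2) (nat_lit 5) (nat_lit 2) (nat_lit 4) (nat_lit 503) (nat_lit 382) (nat_lit 315)))) (XT.nd (nat_lit 78) (nat_lit 0) (nat_lit 0) (XT.lf (nat_lit 0) (nat_lit 975924655762) (nat_lit 76) (nat_lit 281945255028) (nat_lit 76) (nat_lit 280248496213) (nat_lit 1) (nat_lit 4) (nat_lit 2) (nat_lit 5) (nat_lit 2) (nat_lit 4) (nat_lit 504) (nat_lit 382) (nat_lit 314)) (XT.nd (nat_lit 78) (nat_lit 0) (nat_lit 0) (XT.lf (nat_lit 0) (nat_lit 1075463120066) (nat_lit 76) (nat_lit 293285644863) (nat_lit 76) (nat_lit 291588211839) (nat_lit 1) (nat_lit 4) (nat_lit 2) (nat_lit 5) (nat_lit 2) (nat_lit 4) (nat_lit 505) (nat_lit 382) (nat_lit 313)) (XT.lf (nat_lit 0) (nat_lit 1182948489243) (nat_lit 76) (nat_lit 305541613100) (nat_lit 76) (nat_lit 303843555808) (nat_lit 1) (nat_lit 4) (nat_lit 2) (nat_lit 5) (nat_lit 2) (nat_lit 4) (nat_lit 506) (nat_lit 382) (nat_lit 312))))) (XT.nd (nat_lit 234) (nat_lit 0) (nat_lit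 0) (XT.nd (nat_lit 78) (nat_lit 0) (nat_lit 0) (XT.lf (nat_lit 0) (nat_lit 1299017713630) (nat_lit 76) (nat_lit 318785787699) (nat_lit 76) (nat_lit 317087152382) (nat_lit 1) (nat_lit 4) (nat_lit 2) (nat_lit 5) (nat_lit 2) (nat_lit 4) (nat_lit 507) (nat_lit 382) (nat_lit 311)) (XT.nd (nat_lit 78) (nat_lit 0) (nat_lit 0) (XT.lf (nat_lit 0) (nat_lit 1424358610852) (nat_lit 76) (nat_lit 333096652658) (nat_lit 76) (nat_lit 331397482133) (nat_lit 1) (nat_lit 4) (nat_lit 2) (nat_lit 5) (nat_lit 2) (nat_lit 4) (nat_lit 508) (nat_lit 382) (nat_lit 310)) (XT.lf (nat_lit 0) (nat_lit 1559713941781) (nat_lit 76) (nat_lit 348559013102) (nat_lit 76) (nat_lit 346859347013) (nat_lit 1) (nat_lit 4) (nat_lit 2) (nat_lit 5) (nat_lit 2) (nat_lit 4) (nat_lit 509) (nat_lit 382) (nat_lit 309)))) (XT.nd (nat_lit 78) (nat_lit 0) (nat_lit 0) (XT.lf (nat_lit 0) (nat_lit 1705885812083) (nat_lit 76) (nat_lit 365264497835)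 (nat_lit 76) (nat_lit 363564372891) (nat_lit 1) (nat_lit 4) (nat_lit 2) (nat_lit 5) (nat_lit 2) (nat_lit 4) (nat_lit 510) (nat_lit 382) (nat_lit 308)) (XT.nd (nat_lit 78) (nat_lit 0) (nat_lit 0) (XT.lf (nat_lit 0) (nat_lit 1863740425433) (nat_lit 76) (nat_lit 383312102320) (nat_lit 76) (nat_lit 381611552510) (nat_lit 1) (nat_lit 4) (nat_lit 2) (nat_lit 5) (nat_lit 2) (nat_lit 4) (nat_lit 511) (nat_lit 382) (nat_lit 307)) (XT.lf (nat_lit 0) (nat_lit 2034213216576) (nat_lit 76) (nat_lit 402808775327) (nat_lit 76) (nat_lit 401107832122) (nat_lit 1) (nat_lit 4) (nat_lit 2) (nat_lit 5) (nat_lit 2) (nat_lit 4) (nat_lit 512) (nat_lit 382) (nat_lit 306)))))) (XT.nd (nat_lit 468) (nat_lit 0) (nat_lit 0) (XT.nd (nat_lit 234) (nat_lit 0) (nat_lit 0) (XT.nd (nat_lit 78) (nat_lit 0) (nat_lit 0) (XT.lf (nat_lit 0) (nat_lit 2218314394647) (nat_lit 76) (nat_lit 423870052693) (nat_lit 76) (nat_lit 422168745235)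 (nat_lit 1) (nat_lit 4) (nat_lit 2) (nat_lit 5) (nat_lit 2) (nat_lit 4) (nat_lit 513) (nat_lit 382) (nat_lit 305)) (XT.nd (nat_lit 78) (nat_lit 0) (nat_lit 0) (XT.lf (nat_lit 0) (nat_lit 2417134929588) (nat_lit 76) (nat_lit 446620741990) (nat_lit 76) (nat_lit 444919097259) (nat_lit 1) (nat_lit 4) (nat_lit 2) (nat_lit 5) (nat_lit 2) (nat_lit 4) (nat_lit 514) (nat_lit 382) (nat_lit 304)) (XT.lf (nat_lit 0) (nat_lit 2631853017163) (nat_lit 76) (nat_lit 471195662116) (nat_lit 76) (nat_lit 469493705097) (nat_lit 1) (nat_lit 4) (nat_lit 2) (nat_lit 5) (nat_lit 2) (nat_lit 4) (nat_lit 515) (nat_lit 382) (nat_lit 303)))) (XT.nd (nat_lit 78) (nat_lit 0) (nat_lit 0) (XT.lf (nat_lit 0) (nat_lit 2863741060853) (nat_lit 76) (nat_lit 497740442229) (nat_lit 76) (nat_lit 496038196052) (nat_lit 1) (nat_lit 4) (nat_lit 2) (nat_lit 5) (nat_lit 2) (nat_lit 4) (nat_lit 516) (nat_lit 382) (nat_lit 302)) (XT.nd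 (nat_lit 78) (nat_lit 0) (nat_lit 0) (XT.lf (nat_lit 0) (nat_lit 3114173212028) (nat_lit 76) (nat_lit 526412384728) (nat_lit 76) (nat_lit 524709870814) (nat_lit 1) (nat_lit 4) (nat_lit 2) (nat_lit 5) (nat_lit 2) (nat_lit 4) (nat_lit 517) (nat_lit 382) (nat_lit 301)) (XT.lf (nat_lit 0) (nat_lit 3384633513066) (nat_lit 76) (nat_lit 557381397421) (nat_lit 76) (nat_lit 555678635602) (nat_lit 1) (nat_lit 4) (nat_lit 2) (nat_lit 5) (nat_lit 2) (nat_lit 4) (nat_lit 518) (nat_lit 382) (nat_lit 300))))) (XT.nd (nat_lit 234) (nat_lit 0) (nat_lit 0) (XT.nd (nat_lit 78) (nat_lit 0) (nat_lit 0) (XT.lf (nat_lit 0) (nat_lit 3676724691677) (nat_lit 76) (nat_lit 590831000383) (nat_lit 76) (nat_lit 589128009022) (nat_lit 1) (nat_lit 4) (nat_lit 2) (nat_lit 5) (nat_lit 2) (nat_lit 4) (nat_lit 519) (nat_lit 382) (nat_lit 299)) (XT.nd (nat_lit 78) (nat_lit 0) (nat_lit 0) (XT.lf (nat_lit 0) (nat_lit 3992177658548)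 (nat_lit 76) (nat_lit 626959413484) (nat_lit 76) (nat_lit 625256209584) (nat_lit 1) (nat_lit 4) (nat_lit 2) (nat_lit 5) (nat_lit 2) (nat_lit 4) (nat_lit 520) (nat_lit 382) (nat_lit 298)) (XT.lf (nat_lit 0) (nat_lit 4332861764594) (nat_lit 76) (nat_lit 665980731023) (nat_lit 76) (nat_lit 664277330328) (nat_lit 1) (nat_lit 4) (nat_lit 2) (nat_lit 5) (nat_lit 2) (nat_lit 4) (nat_lit 521) (nat_lit 382) (nat_lit 297)))) (XT.nd (nat_lit 156) (nat_lit 0) (nat_lit 0) (XT.nd (nat_lit 78) (nat_lit 0) (nat_lit 0) (XT.lf (nat_lit 0) (nat_lit 4700795878593) (nat_lit 76) (nat_lit 708126190438) (nat_lit 76) (nat_lit 706422607526) (nat_lit 1) (nat_lit 4) (nat_lit 2) (nat_lit 5) (nat_lit 2) (nat_lit 4) (nat_lit 522) (nat_lit 382) (nat_lit 296)) (XT.lf (nat_lit 0) (nat_lit 5098160350848) (nat_lit 76) (nat_lit 753645542600) (nat_lit 76) (nat_lit 751941790967) (nat_lit 1) (nat_lit 4) (nat_lit 2) (nat_lit 5)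 (nat_lit 2) (nat_lit 4) (nat_lit 523) (nat_lit 382) (nat_lit 295))) (XT.nd (nat_lit 78) (nat_lit 0) (nat_lit 0) (XT.lf (nat_lit 0) (nat_lit 5527309933789) (nat_lit 76) (nat_lit 802808531817) (nat_lit 76) (nat_lit 801104623962) (nat_lit 1) (nat_lit 4) (nat_lit 2) (nat_lit 5) (nat_lit 2) (nat_lit 4) (nat_lit 524) (nat_lit 382) (nat_lit 294)) (XT.lf (nat_lit 0) (nat_lit 5990787736055) (nat_lit 76) (nat_lit 855906494321) (nat_lit 76) (nat_lit 854202441816) (nat_lit 1) (nat_lit 4) (nat_lit 2) (nat_lit 5) (nat_lit 2) (nat_lit 4) (nat_lit 525) (nat_lit 382) (nat_lit 293))))))))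
noncomputable def xc52 : XT := (XT.nd (nat_lit 56472) (nat_lit 0) (nat_lit 228) (XT.nd (nat_lit 55458) (nat_lit 0) (nat_lit 1140) (XT.nd (nat_lit 468) (nat_lit 0) (nat_lit 0) (XT.nd (nat_lit 234) (nat_lit 0) (nat_lit 0) (XT.nd (nat_lit 78) (nat_lit 0) (nat_lit 0) (XT.lf (nat_lit 0) (nat_lit 6491340292770) (nat_lit 76) (nat_lit 913254084707) (nat_lit 76) (nat_lit 911549898266) (nat_lit 1) (nat_lit 4) (nat_lit 2) (nat_lit 5) (nat_lit 2) (nat_lit 4) (nat_lit 526) (nat_lit 382) (nat_lit 292)) (XT.nd (nat_lit 78) (nat_lit 0) (nat_lit 0) (XT.lf (nat_lit 0) (nat_lit 7031933841308) (nat_lit 76) (nat_lit 975191140545) (nat_lit 76) (nat_lit 973486830090) (nat_lit 1) (nat_lit 4) (nat_lit 2) (nat_lit 5) (nat_lit 2) (nat_lit 4) (nat_lit 527) (nat_lit 382) (nat_lit 291)) (XT.lf (nat_lit 0) (nat_lit 7615771898994) (nat_lit 76) (nat_lit 1042084696242) (nat_lit 76) (nat_lit 1040380270959) (nat_lit 1) (nat_lit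 4) (nat_lit 2) (nat_lit 5) (nat_lit 2) (nat_lit 4) (nat_lit 528) (nat_lit 382) (nat_lit 290)))) (XT.nd (nat_lit 78) (nat_lit 0) (nat_lit 0) (XT.lf (nat_lit 0) (nat_lit 8246314246909) (nat_lit 76) (nat_lit 1114331158052) (nat_lit 76) (nat_lit 1112626626447) (nat_lit 1) (nat_lit 4) (nat_lit 2) (nat_lit 5) (nat_lit 2) (nat_lit 4) (nat_lit 529) (nat_lit 382) (nat_lit 289)) (XT.nd (nat_lit 78) (nat_lit 0) (nat_lit 0) (XT.lf (nat_lit 0) (nat_lit 8927297432301) (nat_lit 76) (nat_lit 1192358653158) (nat_lit 76) (nat_lit 1190654023106) (nat_lit 1) (nat_lit 4) (nat_lit 2) (nat_lit 5) (nat_lit 2) (nat_lit 4) (nat_lit 530) (nat_lit 382) (nat_lit 288)) (XT.lf (nat_lit 0) (nat_lit 9662756911083) (nat_lit 76) (nat_lit 1276629566715) (nat_lit 76) (nat_lit 1274924845509) (nat_lit 1) (nat_lit 4) (nat_lit 2) (nat_lit 5) (nat_lit 2) (nat_lit 4) (nat_lit 531) (nat_lit 382) (nat_lit 287))))) (XT.nd (nat_lit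 234) (nat_lit 0) (nat_lit 0) (XT.nd (nat_lit 78) (nat_lit 0) (nat_lit 0) (XT.lf (nat_lit 0) (nat_lit 10457050961648) (nat_lit 76) (nat_lit 1367643281915) (nat_lit 76) (nat_lit 1365938476307) (nat_lit 1) (nat_lit 4) (nat_lit 2) (nat_lit 5) (nat_lit 2) (nat_lit 4) (nat_lit 532) (nat_lit 382) (nat_lit 286)) (XT.nd (nat_lit 78) (nat_lit 0) (nat_lit 0) (XT.lf (nat_lit 0) (nat_lit 11314886511703) (nat_lit 76) (nat_lit 1465939139293) (nat_lit 76) (nat_lit 1464234255535) (nat_lit 1) (nat_lit 4) (nat_lit 2) (nat_lit 5) (nat_lit 2) (nat_lit 4) (nat_lit 533) (nat_lit 382) (nat_lit 285)) (XT.lf (nat_lit 0) (nat_lit 12241347031175) (nat_lit 76) (nat_lit 1572099632817) (nat_lit 76) (nat_lit 1570394676698) (nat_lit 1) (nat_lit 4) (nat_lit 2) (nat_lit 5) (nat_lit 2) (nat_lit 4) (nat_lit 534) (nat_lit 382) (nat_lit 284)))) (XT.nd (nat_lit 54600) (nat_lit 0) (nat_lit 2128) (XT.lf (nat_lit 0) (nat_lit 13241922656475)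 (nat_lit 76) (nat_lit 1686753861709) (nat_lit 76) (nat_lit 1685048838589) (nat_lit 1) (nat_lit 4) (nat_lit 2) (nat_lit 5) (nat_lit 2) (nat_lit 4) (nat_lit 535) (nat_lit 382) (nat_lit 283)) (XT.nd (nat_lit 78) (nat_lit 152) (nat_lit 0) (XT.lf (nat_lit 0) (nat_lit 2571094197) (nat_lit 76) (nat_lit 2632181904) (nat_lit 76) (nat_lit 2632181904) (nat_lit 31) (nat_lit 4) (nat_lit 32) (nat_lit 5) (nat_lit 32) (nat_lit 4) (nat_lit 434) (nat_lit 383) (nat_lit 383)) (XT.lf (nat_lit 0) (nat_lit 1841263942) (nat_lit 152) (nat_lit 12922565447) (nat_lit 0) (nat_lit 1568462078) (nat_lit 29) (nat_lit 5) (nat_lit 31) (nat_lit 4) (nat_lit 29) (nat_lit 4) (nat_lit 435) (nat_lit 383) (nat_lit 382)))))) (XT.nd (nat_lit 468) (nat_lit 456) (nat_lit 0) (XT.nd (nat_lit 234) (nat_lit 304) (nat_lit 0) (XT.nd (nat_lit 78) (nat_lit 152) (nat_lit 0) (XT.lf (nat_lit 0) (nat_lit 1043567059) (nat_lit 76) (nat_lit 8255995036)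 (nat_lit 76) (nat_lit 7730598854) (nat_lit 28) (nat_lit 4) (nat_lit 29) (nat_lit 5) (nat_lit 29) (nat_lit 4) (nat_lit 436) (nat_lit 383) (nat_lit 381)) (XT.nd (nat_lit 78) (nat_lit 152) (nat_lit 0) (XT.lf (nat_lit 0) (nat_lit 16115132012) (nat_lit 76) (nat_lit 1214986387) (nat_lit 76) (nat_lit 455706576) (nat_lit 28) (nat_lit 4) (nat_lit 29) (nat_lit 5) (nat_lit 29) (nat_lit 4) (nat_lit 437) (nat_lit 383) (nat_lit 380)) (XT.lf (nat_lit 0) (nat_lit 7157045389) (nat_lit 152) (nat_lit 5167088172) (nat_lit 0) (nat_lit 6253491013) (nat_lit 26) (nat_lit 5) (nat_lit 28) (nat_lit 4) (nat_lit 26) (nat_lit 4) (nat_lit 438) (nat_lit 383) (nat_lit 379)))) (XT.nd (nat_lit 78) (nat_lit 228) (nat_lit 0) (XT.lf (nat_lit 0) (nat_lit 10113453744) (nat_lit 76) (nat_lit 5205219068) (nat_lit 76) (nat_lit 4116000327) (nat_lit 25) (nat_lit 4) (nat_lit 26) (nat_lit 5) (nat_lit 26) (nat_lit 4) (nat_lit 439) (nat_lit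 383) (nat_lit 378)) (XT.nd (nat_lit 78) (nat_lit 76) (nat_lit 0) (XT.lf (nat_lit 0) (nat_lit 3579439938) (nat_lit 152) (nat_lit 14362249580) (nat_lit 0) (nat_lit 2411726799) (nat_lit 23) (nat_lit 5) (nat_lit 25) (nat_lit 4) (nat_lit 23) (nat_lit 4) (nat_lit 440) (nat_lit 383) (nat_lit 377)) (XT.lf (nat_lit 0) (nat_lit 811094589) (nat_lit 76) (nat_lit 10918116836) (nat_lit 76) (nat_lit 9603017339) (nat_lit 22) (nat_lit 4) (nat_lit 23) (nat_lit 5) (nat_lit 23) (nat_lit 4) (nat_lit 441) (nat_lit 383) (nat_lit 376))))) (XT.nd (nat_lit 234) (nat_lit 228) (nat_lit 0) (XT.nd (nat_lit 78) (nat_lit 228) (nat_lit 0) (XT.lf (nat_lit 0) (nat_lit 17319049532) (nat_lit 76) (nat_lit 3259050740) (nat_lit 76) (nat_lit 1807482392) (nat_lit 22) (nat_lit 4) (nat_lit 23) (nat_lit 5) (nat_lit 23) (nat_lit 4) (nat_lit 442) (nat_lit 383) (nat_lit 375)) (XT.nd (nat_lit 78) (nat_lit 76) (nat_lit 0) (XT.lf (nat_lit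 0) (nat_lit 6349957246) (nat_lit 152) (nat_lit 12266100095) (nat_lit 0) (nat_lit 4888912436) (nat_lit 20) (nat_lit 5) (nat_lit 22) (nat_lit 4) (nat_lit 20) (nat_lit 4) (nat_lit 443) (nat_lit 383) (nat_lit 374)) (XT.lf (nat_lit 0) (nat_lit 3827525645) (nat_lit 76) (nat_lit 11226344051) (nat_lit 76) (nat_lit 9656965867) (nat_lit 19) (nat_lit 4) (nat_lit 20) (nat_lit 5) (nat_lit 20) (nat_lit 4) (nat_lit 444) (nat_lit 383) (nat_lit 373)))) (XT.nd (nat_lit 156) (nat_lit 76) (nat_lit 0) (XT.nd (nat_lit 78) (nat_lit 152) (nat_lit 0) (XT.lf (nat_lit 0) (nat_lit 21260240623) (nat_lit 76) (nat_lit 3210639705) (nat_lit 76) (nat_lit 1540952842) (nat_lit 19) (nat_lit 4) (nat_lit 20) (nat_lit 5) (nat_lit 20) (nat_lit 4) (nat_lit 445) (nat_lit 383) (nat_lit 372)) (XT.lf (nat_lit 0) (nat_lit 6996943854) (nat_lit 152) (nat_lit 15030413242) (nat_lit 0) (nat_lit 5364938975) (nat_lit 17) (nat_lit 5) (nat_lit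 19) (nat_lit 4) (nat_lit 17) (nat_lit 4) (nat_lit 446) (nat_lit 383) (nat_lit 371))) (XT.nd (nat_lit 78) (nat_lit 0) (nat_lit 0) (XT.lf (nat_lit 0) (nat_lit 1579273784) (nat_lit 76) (nat_lit 14508069909) (nat_lit 76) (nat_lit 12796436766) (nat_lit 16) (nat_lit 4) (nat_lit 17) (nat_lit 5) (nat_lit 17) (nat_lit 4) (nat_lit 447) (nat_lit 383) (nat_lit 370)) (XT.lf (nat_lit 0) (nat_lit 19773296858) (nat_lit 76) (nat_lit 6248648077) (nat_lit 76) (nat_lit 4463285061) (nat_lit 16) (nat_lit 4) (nat_lit 17) (nat_lit 5) (nat_lit 17) (nat_lit 4) (nat_lit 448) (nat_lit 383) (nat_lit 369))))))) (XT.nd (nat_lit 936) (nat_lit 304) (nat_lit 0) (XT.nd (nat_lit 468) (nat_lit 228) (nat_lit 0) (XT.nd (nat_lit 234) (nat_lit 152) (nat_lit 0) (XT.nd (nat_lit 78) (nat_lit 76) (nat_lit 0) (XT.lf (nat_lit 0) (nat_lit 4259995743) (nat_lit 152) (nat_lit 25406371551) (nat_lit 0) (nat_lit 2543670356) (nat_lit 14) (nat_lit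 5) (nat_lit 16) (nat_lit 4) (nat_lit 14) (nat_lit 4) (nat_lit 449) (nat_lit 383) (nat_lit 368)) (XT.nd (nat_lit 78) (nat_lit 76) (nat_lit 0) (XT.lf (nat_lit 0) (nat_lit 13624039314) (nat_lit 152) (nat_lit 8575611912) (nat_lit 0) (nat_lit 11849184776) (nat_lit 14) (nat_lit 5) (nat_lit 16) (nat_lit 4) (nat_lit 14) (nat_lit 4) (nat_lit 450) (nat_lit 383) (nat_lit 367)) (XT.lf (nat_lit 0) (nat_lit 9551561006) (nat_lit 76) (nat_lit 14157249974) (nat_lit 76) (nat_lit 12328201778) (nat_lit 13) (nat_lit 4) (nat_lit 14) (nat_lit 5) (nat_lit 14) (nat_lit 4) (nat_lit 451) (nat_lit 383) (nat_lit 366)))) (XT.nd (nat_lit 78) (nat_lit 152) (nat_lit 0) (XT.lf (nat_lit 0) (nat_lit 29102118576) (nat_lit 76) (nat_lit 5481353337) (nat_lit 76) (nat_lit 3602125827) (nat_lit 13) (nat_lit 4) (nat_lit 14) (nat_lit 5) (nat_lit 14) (nat_lit 4) (nat_lit 452) (nat_lit 383) (nat_lit 365)) (XT.nd (nat_lit 78) (nat_lit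 0) (nat_lit 0) (XT.lf (nat_lit 0) (nat_lit 5619030707) (nat_lit 152) (nat_lit 31032796040) (nat_lit 0) (nat_lit 3835984562) (nat_lit 11) (nat_lit 5) (nat_lit 13) (nat_lit 4) (nat_lit 11) (nat_lit 4) (nat_lit 453) (nat_lit 383) (nat_lit 364)) (XT.lf (nat_lit 0) (nat_lit 15542018643) (nat_lit 152) (nat_lit 13692862197) (nat_lit 0) (nat_lit 13719138541) (nat_lit 11) (nat_lit 5) (nat_lit 13) (nat_lit 4) (nat_lit 11) (nat_lit 4) (nat_lit 454) (nat_lit 383) (nat_lit 363))))) (XT.nd (nat_lit 234) (nat_lit 152) (nat_lit 0) (XT.nd (nat_lit 78) (nat_lit 0) (nat_lit 0) (XT.lf (nat_lit 0) (nat_lit 4822431419) (nat_lit 76) (nat_lit 21331620763) (nat_lit 76) (nat_lit 19471857368) (nat_lit 10) (nat_lit 4) (nat_lit 11) (nat_lit 5) (nat_lit 11) (nat_lit 4) (nat_lit 455) (nat_lit 383) (nat_lit 362)) (XT.nd (nat_lit 78) (nat_lit 0) (nat_lit 0) (XT.lf (nat_lit 0) (nat_lit 25156071438) (nat_lit 76) (nat_lit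 12618324074) (nat_lit 76) (nat_lit 10724409482) (nat_lit 10) (nat_lit 4) (nat_lit 11) (nat_lit 5) (nat_lit 11) (nat_lit 4) (nat_lit 456) (nat_lit 383) (nat_lit 361)) (XT.lf (nat_lit 0) (nat_lit 46707511644) (nat_lit 76) (nat_lit 3417743541) (nat_lit 76) (nat_lit 1492207470) (nat_lit 10) (nat_lit 4) (nat_lit 11) (nat_lit 5) (nat_lit 11) (nat_lit 4) (nat_lit 457) (nat_lit 383) (nat_lit 360)))) (XT.nd (nat_lit 78) (nat_lit 0) (nat_lit 0) (XT.lf (nat_lit 0) (nat_lit 8396721094) (nat_lit 152) (nat_lit 39958490872) (nat_lit 0) (nat_lit 6586707003) (nat_lit 8) (nat_lit 5) (nat_lit 10) (nat_lit 4) (nat_lit 8) (nat_lit 4) (nat_lit 458) (nat_lit 383) (nat_lit 359)) (XT.nd (nat_lit 78) (nat_lit 0) (nat_lit 0) (XT.lf (nat_lit 0) (nat_lit 19033725632) (nat_lit 152) (nat_lit 22293891047) (nat_lit 0) (nat_lit 17198609392) (nat_lit 8) (nat_lit 5) (nat_lit 10) (nat_lit 4) (nat_lit 8) (nat_lit 4) (nat_lit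 459) (nat_lit 383) (nat_lit 358)) (XT.lf (nat_lit 0) (nat_lit 30346758496) (nat_lit 152) (nat_lit 3576115528) (nat_lit 0) (nat_lit 28488399524) (nat_lit 8) (nat_lit 5) (nat_lit 10) (nat_lit 4) (nat_lit 8) (nat_lit 4) (nat_lit 460) (nat_lit 383) (nat_lit 357)))))) (XT.nd (nat_lit 468) (nat_lit 76) (nat_lit 0) (XT.nd (nat_lit 234) (nat_lit 152) (nat_lit 0) (XT.nd (nat_lit 78) (nat_lit 0) (nat_lit 0) (XT.lf (nat_lit 0) (nat_lit 17164388039) (nat_lit 76) (nat_lit 25651275785) (nat_lit 76) (nat_lit 23771395766) (nat_lit 7) (nat_lit 4) (nat_lit 8) (nat_lit 5) (nat_lit 8) (nat_lit 4) (nat_lit 461) (nat_lit 383) (nat_lit 356)) (XT.nd (nat_lit 78) (nat_lit 0) (nat_lit 0) (XT.lf (nat_lit 0) (nat_lit 39442621192) (nat_lit 76) (nat_lit 16779448142) (nat_lit 76) (nat_lit 14879641227) (nat_lit 7) (nat_lit 4) (nat_lit 8) (nat_lit 5) (nat_lit 8) (nat_lit 4) (nat_lit 462) (nat_lit 383) (nat_lit 355)) (XT.lf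 (nat_lit 0) (nat_lit 63202291182) (nat_lit 76) (nat_lit 7352594639) (nat_lit 76) (nat_lit 5434336895) (nat_lit 7) (nat_lit 4) (nat_lit 8) (nat_lit 5) (nat_lit 8) (nat_lit 4) (nat_lit 463) (nat_lit 383) (nat_lit 354)))) (XT.nd (nat_lit 78) (nat_lit 0) (nat_lit 0) (XT.lf (nat_lit 0) (nat_lit 4643688479) (nat_lit 152) (nat_lit 73753928718) (nat_lit 0) (nat_lit 2851705289) (nat_lit 5) (nat_lit 5) (nat_lit 7) (nat_lit 4) (nat_lit 5) (nat_lit 4) (nat_lit 464) (nat_lit 383) (nat_lit 353)) (XT.nd (nat_lit 78) (nat_lit 0) (nat_lit 0) (XT.lf (nat_lit 0) (nat_lit 15645373292) (nat_lit 152) (nat_lit 57401941343) (nat_lit 0) (nat_lit 13838743238) (nat_lit 5) (nat_lit 5) (nat_lit 7) (nat_lit 4) (nat_lit 5) (nat_lit 4) (nat_lit 465) (nat_lit 383) (nat_lit 352)) (XT.lf (nat_lit 0) (nat_lit 27398802082) (nat_lit 152) (nat_lit 40006591881) (nat_lit 0) (nat_lit 25578610118) (nat_lit 5) (nat_lit 5) (nat_lit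 7) (nat_lit 4) (nat_lit 5) (nat_lit 4) (nat_lit 466) (nat_lit 383) (nat_lit 351))))) (XT.nd (nat_lit 234) (nat_lit 0) (nat_lit 0) (XT.nd (nat_lit 78) (nat_lit 76) (nat_lit 0) (XT.lf (nat_lit 0) (nat_lit 39973624799) (nat_lit 152) (nat_lit 21464796781) (nat_lit 0) (nat_lit 38140875511) (nat_lit 5) (nat_lit 5) (nat_lit 7) (nat_lit 4) (nat_lit 5) (nat_lit 4) (nat_lit 467) (nat_lit 383) (nat_lit 350)) (XT.nd (nat_lit 78) (nat_lit 76) (nat_lit 0) (XT.lf (nat_lit 0) (nat_lit 53444358910) (nat_lit 152) (nat_lit 1666678737) (nat_lit 0) (nat_lit 51599982469) (nat_lit 5) (nat_lit 5) (nat_lit 7) (nat_lit 4) (nat_lit 5) (nat_lit 4) (nat_lit 468) (nat_lit 383) (nat_lit 349)) (XT.lf (nat_lit 0) (nat_lit 20532187609) (nat_lit 76) (nat_lit 47852442983) (nat_lit 76) (nat_lit 45997300661) (nat_lit 4) (nat_lit 4) (nat_lit 5) (nat_lit 5) (nat_lit 5) (nat_lit 4) (nat_lit 469) (nat_lit 383) (nat_lit 348))))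 (XT.nd (nat_lit 156) (nat_lit 0) (nat_lit 0) (XT.nd (nat_lit 78) (nat_lit 0) (nat_lit 0) (XT.lf (nat_lit 0) (nat_lit 44396866071) (nat_lit 76) (nat_lit 40069529380) (nat_lit 76) (nat_lit 38204418649) (nat_lit 4) (nat_lit 4) (nat_lit 5) (nat_lit 5) (nat_lit 5) (nat_lit 4) (nat_lit 470) (nat_lit 383) (nat_lit 347)) (XT.lf (nat_lit 0) (nat_lit 69981012613) (nat_lit 76) (nat_lit 31761745820) (nat_lit 76) (nat_lit 29887405081) (nat_lit 4) (nat_lit 4) (nat_lit 5) (nat_lit 5) (nat_lit 5) (nat_lit 4) (nat_lit 471) (nat_lit 383) (nat_lit 346))) (XT.nd (nat_lit 78) (nat_lit 0) (nat_lit 0) (XT.lf (nat_lit 0) (nat_lit 97436236995) (nat_lit 76) (nat_lit 22879860993) (nat_lit 76) (nat_lit 20996973950) (nat_lit 4) (nat_lit 4) (nat_lit 5) (nat_lit 5) (nat_lit 5) (nat_lit 4) (nat_lit 472) (nat_lit 383) (nat_lit 345)) (XT.lf (nat_lit 0) (nat_lit 126925236841) (nat_lit 76) (nat_lit 13371241506) (nat_lit 76)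 (nat_lit 11480441219) (nat_lit 4) (nat_lit 4) (nat_lit 5) (nat_lit 5) (nat_lit 5) (nat_lit 4) (nat_lit 473) (nat_lit 383) (nat_lit 344))))))))
noncomputable def xc53 : XT := (XT.nd (nat_lit 1950) (nat_lit 0) (nat_lit 0) (XT.nd (nat_lit 936) (nat_lit 76) (nat_lit 0) (XT.nd (nat_lit 468) (nat_lit 0) (nat_lit 0) (XT.nd (nat_lit 234) (nat_lit 0) (nat_lit 0) (XT.nd (nat_lit 78) (nat_lit 152) (nat_lit 0) (XT.lf (nat_lit 0) (nat_lit 158622761780) (nat_lit 76) (nat_lit 3179539986) (nat_lit 76) (nat_lit 1281412621) (nat_lit 4) (nat_lit 4) (nat_lit 5) (nat_lit 5) (nat_lit 5) (nat_lit 4) (nat_lit 474) (nat_lit 383) (nat_lit 343)) (XT.nd (nat_lit 78) (nat_lit 0) (nat_lit 0) (XT.lf (nat_lit 0) (nat_lit 9816182525) (nat_lit 152) (nat_lit 157362203442) (nat_lit 0) (nat_lit 8052375397) (nat_lit 2) (nat_lit 5) (nat_lit 4) (nat_lit 4) (nat_lit 2) (nat_lit 4) (nat_lit 475) (nat_lit 383) (nat_lit 342)) (XT.lf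 (nat_lit 0) (nat_lit 21870795281) (nat_lit 152) (nat_lit 146363867604) (nat_lit 0) (nat_lit 20101171683) (nat_lit 2) (nat_lit 5) (nat_lit 4) (nat_lit 4) (nat_lit 2) (nat_lit 4) (nat_lit 476) (nat_lit 383) (nat_lit 341)))) (XT.nd (nat_lit 78) (nat_lit 0) (nat_lit 0) (XT.lf (nat_lit 0) (nat_lit 34825624929) (nat_lit 152) (nat_lit 134618205451) (nat_lit 0) (nat_lit 33050615709) (nat_lit 2) (nat_lit 5) (nat_lit 4) (nat_lit 4) (nat_lit 2) (nat_lit 4) (nat_lit 477) (nat_lit 383) (nat_lit 340)) (XT.nd (nat_lit 78) (nat_lit 0) (nat_lit 0) (XT.lf (nat_lit 0) (nat_lit 48757440827) (nat_lit 152) (nat_lit 122055613060) (nat_lit 0) (nat_lit 46977444921) (nat_lit 2) (nat_lit 5) (nat_lit 4) (nat_lit 4) (nat_lit 2) (nat_lit 4) (nat_lit 478) (nat_lit 383) (nat_lit 339)) (XT.lf (nat_lit 0) (nat_lit 63748801885) (nat_lit 152) (nat_lit 108601645438) (nat_lit 0) (nat_lit 61964188677) (nat_lit 2) (nat_lit 5)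 (nat_lit 4) (nat_lit 4) (nat_lit 2) (nat_lit 4) (nat_lit 479) (nat_lit 383) (nat_lit 338))))) (XT.nd (nat_lit 234) (nat_lit 0) (nat_lit 0) (XT.nd (nat_lit 78) (nat_lit 0) (nat_lit 0) (XT.lf (nat_lit 0) (nat_lit 79888545798) (nat_lit 152) (nat_lit 94176575370) (nat_lit 0) (nat_lit 78099657310) (nat_lit 2) (nat_lit 5) (nat_lit 4) (nat_lit 4) (nat_lit 2) (nat_lit 4) (nat_lit 480) (nat_lit 383) (nat_lit 337)) (XT.nd (nat_lit 78) (nat_lit 0) (nat_lit 0) (XT.lf (nat_lit 0) (nat_lit 97272315494) (nat_lit 152) (nat_lit 78694920960) (nat_lit 0) (nat_lit 95479468414) (nat_lit 2) (nat_lit 5) (nat_lit 4) (nat_lit 4) (nat_lit 2) (nat_lit 4) (nat_lit 481) (nat_lit 383) (nat_lit 336)) (XT.lf (nat_lit 0) (nat_lit 116003125903) (nat_lit 152) (nat_lit 62064939070) (nat_lit 0) (nat_lit 114206613459) (nat_lit 2) (nat_lit 5) (nat_lit 4) (nat_lit 4) (nat_lit 2) (nat_lit 4) (nat_lit 482) (nat_lit 383) (nat_lit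 335)))) (XT.nd (nat_lit 78) (nat_lit 0) (nat_lit 0) (XT.lf (nat_lit 0) (nat_lit 136191974420) (nat_lit 152) (nat_lit 44188081659) (nat_lit 0) (nat_lit 134392068122) (nat_lit 2) (nat_lit 5) (nat_lit 4) (nat_lit 4) (nat_lit 2) (nat_lit 4) (nat_lit 483) (nat_lit 383) (nat_lit 334)) (XT.nd (nat_lit 78) (nat_lit 0) (nat_lit 0) (XT.lf (nat_lit 0) (nat_lit 157958498668) (nat_lit 152) (nat_lit 24958411794) (nat_lit 0) (nat_lit 156155449911) (nat_lit 2) (nat_lit 5) (nat_lit 4) (nat_lit 4) (nat_lit 2) (nat_lit 4) (nat_lit 484) (nat_lit 383) (nat_lit 333)) (XT.lf (nat_lit 0) (nat_lit 181431685455) (nat_lit 152) (nat_lit 4261975876) (nat_lit 0) (nat_lit 179625727015) (nat_lit 2) (nat_lit 5) (nat_lit 4) (nat_lit 4) (nat_lit 2) (nat_lit 4) (nat_lit 485) (nat_lit 383) (nat_lit 332)))))) (XT.nd (nat_lit 468) (nat_lit 0) (nat_lit 0) (XT.nd (nat_lit 234) (nat_lit 0) (nat_lit 0) (XT.nd (nat_lit 78) (nat_lit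 0) (nat_lit 0) (XT.lf (nat_lit 0) (nat_lit 18972976779) (nat_lit 76) (nat_lit 188233958916) (nat_lit 76) (nat_lit 186425306325) (nat_lit 1) (nat_lit 4) (nat_lit 2) (nat_lit 5) (nat_lit 2) (nat_lit 4) (nat_lit 486) (nat_lit 383) (nat_lit 331)) (XT.nd (nat_lit 78) (nat_lit 0) (nat_lit 0) (XT.lf (nat_lit 0) (nat_lit 44244483281) (nat_lit 76) (nat_lit 190884983573) (nat_lit 76) (nat_lit 189073836396) (nat_lit 1) (nat_lit 4) (nat_lit 2) (nat_lit 5) (nat_lit 2) (nat_lit 4) (nat_lit 487) (nat_lit 383) (nat_lit 330)) (XT.lf (nat_lit 0) (nat_lit 71477872609) (nat_lit 76) (nat_lit 193778975049) (nat_lit 76) (nat_lit 191965518072) (nat_lit 1) (nat_lit 4) (nat_lit 2) (nat_lit 5) (nat_lit 2) (nat_lit 4) (nat_lit 488) (nat_lit 383) (nat_lit 329)))) (XT.nd (nat_lit 78) (nat_lit 0) (nat_lit 0) (XT.lf (nat_lit 0) (nat_lit 100834527810) (nat_lit 76) (nat_lit 196933082925) (nat_lit 76) (nat_lit 195117487244)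 (nat_lit 1) (nat_lit 4) (nat_lit 2) (nat_lit 5) (nat_lit 2) (nat_lit 4) (nat_lit 489) (nat_lit 383) (nat_lit 328)) (XT.nd (nat_lit 78) (nat_lit 0) (nat_lit 0) (XT.lf (nat_lit 0) (nat_lit 132488414248) (nat_lit 76) (nat_lit 200365998210) (nat_lit 76) (nat_lit 198548422247) (nat_lit 1) (nat_lit 4) (nat_lit 2) (nat_lit 5) (nat_lit 2) (nat_lit 4) (nat_lit 490) (nat_lit 383) (nat_lit 327)) (XT.lf (nat_lit 0) (nat_lit 166627110509) (nat_lit 76) (nat_lit 204098064105) (nat_lit 76) (nat_lit 202278654548) (nat_lit 1) (nat_lit 4) (nat_lit 2) (nat_lit 5) (nat_lit 2) (nat_lit 4) (nat_lit 491) (nat_lit 383) (nat_lit 326))))) (XT.nd (nat_lit 234) (nat_lit 0) (nat_lit 0) (XT.nd (nat_lit 78) (nat_lit 0) (nat_lit 0) (XT.lf (nat_lit 0) (nat_lit 203452919980) (nat_lit 76) (nat_lit 208151396558) (nat_lit 76) (nat_lit 206330289228) (nat_lit 1) (nat_lit 4) (nat_lit 2) (nat_lit 5) (nat_lit 2) (nat_lit 4) (nat_lit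 492) (nat_lit 383) (nat_lit 325)) (XT.nd (nat_lit 78) (nat_lit 0) (nat_lit 0) (XT.lf (nat_lit 0) (nat_lit 243184069678) (nat_lit 76) (nat_lit 212550015315) (nat_lit 76) (nat_lit 210727335974) (nat_lit 1) (nat_lit 4) (nat_lit 2) (nat_lit 5) (nat_lit 2) (nat_lit 4) (nat_lit 493) (nat_lit 383) (nat_lit 324)) (XT.lf (nat_lit 0) (nat_lit 286056003455) (nat_lit 76) (nat_lit 217319986265) (nat_lit 76) (nat_lit 215495851358) (nat_lit 1) (nat_lit 4) (nat_lit 2) (nat_lit 5) (nat_lit 2) (nat_lit 4) (nat_lit 494) (nat_lit 383) (nat_lit 323)))) (XT.nd (nat_lit 156) (nat_lit 0) (nat_lit 0) (XT.nd (nat_lit 78) (nat_lit 0) (nat_lit 0) (XT.lf (nat_lit 0) (nat_lit 332322777213) (nat_lit 76) (nat_lit 222489575904) (nat_lit 76) (nat_lit 220664093251) (nat_lit 1) (nat_lit 4) (nat_lit 2) (nat_lit 5) (nat_lit 2) (nat_lit 4) (nat_lit 495) (nat_lit 383) (nat_lit 322)) (XT.lf (nat_lit 0) (nat_lit 382258564428) (nat_lit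 76) (nat_lit 228089418836) (nat_lit 76) (nat_lit 226262688269) (nat_lit 1) (nat_lit 4) (nat_lit 2) (nat_lit 5) (nat_lit 2) (nat_lit 4) (nat_lit 496) (nat_lit 383) (nat_lit 321))) (XT.nd (nat_lit 78) (nat_lit 0) (nat_lit 0) (XT.lf (nat_lit 0) (nat_lit 436159280874) (nat_lit 76) (nat_lit 234152699316) (nat_lit 76) (nat_lit 232324813274) (nat_lit 1) (nat_lit 4) (nat_lit 2) (nat_lit 5) (nat_lit 2) (nat_lit 4) (nat_lit 497) (nat_lit 383) (nat_lit 320)) (XT.lf (nat_lit 0) (nat_lit 494344338205) (nat_lit 76) (nat_lit 240715347895) (nat_lit 76) (nat_lit 238886391968) (nat_lit 1) (nat_lit 4) (nat_lit 2) (nat_lit 5) (nat_lit 2) (nat_lit 4) (nat_lit 498) (nat_lit 383) (nat_lit 319))))))) (XT.nd (nat_lit 936) (nat_lit 0) (nat_lit 0) (XT.nd (nat_lit 468) (nat_lit 0) (nat_lit 0) (XT.nd (nat_lit 234) (nat_lit 0) (nat_lit 0) (XT.nd (nat_lit 78) (nat_lit 0) (nat_lit 0) (XT.lf (nat_lit 0) (nat_lit 557158536762)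 (nat_lit 76) (nat_lit 247816254342) (nat_lit 76) (nat_lit 245986307781) (nat_lit 1) (nat_lit 4) (nat_lit 2) (nat_lit 5) (nat_lit 2) (nat_lit 4) (nat_lit 499) (nat_lit 383) (nat_lit 318)) (XT.nd (nat_lit 78) (nat_lit 0) (nat_lit 0) (XT.lf (nat_lit 0) (nat_lit 624974108830) (nat_lit 76) (nat_lit 255497498102) (nat_lit 76) (nat_lit 253666634288) (nat_lit 1) (nat_lit 4) (nat_lit 2) (nat_lit 5) (nat_lit 2) (nat_lit 4) (nat_lit 500) (nat_lit 383) (nat_lit 317)) (XT.lf (nat_lit 0) (nat_lit 698192924469) (nat_lit 76) (nat_lit 263804597658) (nat_lit 76) (nat_lit 261972884535) (nat_lit 1) (nat_lit 4) (nat_lit 2) (nat_lit 5) (nat_lit 2) (nat_lit 4) (nat_lit 501) (nat_lit 383) (nat_lit 316)))) (XT.nd (nat_lit 78) (nat_lit 0) (nat_lit 0) (XT.lf (nat_lit 0) (nat_lit 777248872954) (nat_lit 76) (nat_lit 272786780266) (nat_lit 76) (nat_lit 270954280746) (nat_lit 1) (nat_lit 4) (nat_lit 2) (nat_lit 5) (nat_lit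 2) (nat_lit 4) (nat_lit 502) (nat_lit 383) (nat_lit 315)) (XT.nd (nat_lit 78) (nat_lit 0) (nat_lit 0) (XT.lf (nat_lit 0) (nat_lit 862610433981) (nat_lit 76) (nat_lit 282497273675) (nat_lit 76) (nat_lit 280664046009) (nat_lit 1) (nat_lit 4) (nat_lit 2) (nat_lit 5) (nat_lit 2) (nat_lit 4) (nat_lit 503) (nat_lit 383) (nat_lit 314)) (XT.lf (nat_lit 0) (nat_lit 954783453837) (nat_lit 76) (nat_lit 292993621548) (nat_lit 76) (nat_lit 291159719674) (nat_lit 1) (nat_lit 4) (nat_lit 2) (nat_lit 5) (nat_lit 2) (nat_lit 4) (nat_lit 504) (nat_lit 383) (nat_lit 313))))) (XT.nd (nat_lit 234) (nat_lit 0) (nat_lit 0) (XT.nd (nat_lit 78) (nat_lit 0) (nat_lit 0) (XT.lf (nat_lit 0) (nat_lit 1054314143011) (nat_lit 76) (nat_lit 304338024468) (nat_lit 76) (nat_lit 302503498325) (nat_lit 1) (nat_lit 4) (nat_lit 2) (nat_lit 5) (nat_lit 2) (nat_lit 4) (nat_lit 505) (nat_lit 383) (nat_lit 312)) (XT.nd (nat_lit 78)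 (nat_lit 0) (nat_lit 0) (XT.lf (nat_lit 0) (nat_lit 1161792312994) (nat_lit 76) (nat_lit 316597708523) (nat_lit 76) (nat_lit 314762604356) (nat_lit 1) (nat_lit 4) (nat_lit 2) (nat_lit 5) (nat_lit 2) (nat_lit 4) (nat_lit 506) (nat_lit 383) (nat_lit 311)) (XT.lf (nat_lit 0) (nat_lit 1277854871459) (nat_lit 76) (nat_lit 329845323696) (nat_lit 76) (nat_lit 328009684320) (nat_lit 1) (nat_lit 4) (nat_lit 2) (nat_lit 5) (nat_lit 2) (nat_lit 4) (nat_lit 507) (nat_lit 383) (nat_lit 310)))) (XT.nd (nat_lit 78) (nat_lit 0) (nat_lit 0) (XT.lf (nat_lit 0) (nat_lit 1403189596532) (nat_lit 76) (nat_lit 344159374370) (nat_lit 76) (nat_lit 342323239431) (nat_lit 1) (nat_lit 4) (nat_lit 2) (nat_lit 5) (nat_lit 2) (nat_lit 4) (nat_lit 508) (nat_lit 383) (nat_lit 309)) (XT.nd (nat_lit 78) (nat_lit 0) (nat_lit 0) (XT.lf (nat_lit 0) (nat_lit 1538539212508) (nat_lit 76) (nat_lit 359624684552) (nat_lit 76) (nat_lit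 357788090757) (nat_lit 1) (nat_lit 4) (nat_lit 2) (nat_lit 5) (nat_lit 2) (nat_lit 4) (nat_lit 509) (nat_lit 383) (nat_lit 308)) (XT.lf (nat_lit 0) (nat_lit 1684705791187) (nat_lit 76) (nat_lit 376332900522) (nat_lit 76) (nat_lit 374495881861) (nat_lit 1) (nat_lit 4) (nat_lit 2) (nat_lit 5) (nat_lit 2) (nat_lit 4) (nat_lit 510) (nat_lit 383) (nat_lit 307)))))) (XT.nd (nat_lit 468) (nat_lit 0) (nat_lit 0) (XT.nd (nat_lit 234) (nat_lit 0) (nat_lit 0) (XT.nd (nat_lit 78) (nat_lit 0) (nat_lit 0) (XT.lf (nat_lit 0) (nat_lit 1842555504886) (nat_lit 76) (nat_lit 394383033931) (nat_lit 76) (nat_lit 392545621876) (nat_lit 1) (nat_lit 4) (nat_lit 2) (nat_lit 5) (nat_lit 2) (nat_lit 4) (nat_lit 511) (nat_lit 383) (nat_lit 306)) (XT.nd (nat_lit 78) (nat_lit 0) (nat_lit 0) (XT.lf (nat_lit 0) (nat_lit 2013023759316) (nat_lit 76) (nat_lit 413882048534) (nat_lit 76) (nat_lit 412044272224) (nat_lit 1) (nat_lit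 4) (nat_lit 2) (nat_lit 5) (nat_lit 2) (nat_lit 4) (nat_lit 512) (nat_lit 383) (nat_lit 305)) (XT.lf (nat_lit 0) (nat_lit 2197120736725) (nat_lit 76) (nat_lit 434945494045) (nat_lit 76) (nat_lit 433107380463) (nat_lit 1) (nat_lit 4) (nat_lit 2) (nat_lit 5) (nat_lit 2) (nat_lit 4) (nat_lit 513) (nat_lit 383) (nat_lit 304)))) (XT.nd (nat_lit 78) (nat_lit 0) (nat_lit 0) (XT.lf (nat_lit 0) (nat_lit 2395937382166) (nat_lit 76) (nat_lit 457698190883) (nat_lit 76) (nat_lit 455859765012) (nat_lit 1) (nat_lit 4) (nat_lit 2) (nat_lit 5) (nat_lit 2) (nat_lit 4) (nat_lit 514) (nat_lit 383) (nat_lit 303)) (XT.nd (nat_lit 78) (nat_lit 0) (nat_lit 0) (XT.lf (nat_lit 0) (nat_lit 2610651868351) (nat_lit 76) (nat_lit 482274969844) (nat_lit 76) (nat_lit 480436254817) (nat_lit 1) (nat_lit 4) (nat_lit 2) (nat_lit 5) (nat_lit 2) (nat_lit 4) (nat_lit 515) (nat_lit 383) (nat_lit 302)) (XT.lf (nat_lit 0) (nat_lit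 2842536577420) (nat_lit 76) (nat_lit 508821471099) (nat_lit 76) (nat_lit 506982488335) (nat_lit 1) (nat_lit 4) (nat_lit 2) (nat_lit 5) (nat_lit 2) (nat_lit 4) (nat_lit 516) (nat_lit 383) (nat_lit 301))))) (XT.nd (nat_lit 234) (nat_lit 0) (nat_lit 0) (XT.nd (nat_lit 78) (nat_lit 0) (nat_lit 0) (XT.lf (nat_lit 0) (nat_lit 3092965640984) (nat_lit 76) (nat_lit 537495007249) (nat_lit 76) (nat_lit 535655776579) (nat_lit 1) (nat_lit 4) (nat_lit 2) (nat_lit 5) (nat_lit 2) (nat_lit 4) (nat_lit 517) (nat_lit 383) (nat_lit 300)) (XT.nd (nat_lit 78) (nat_lit 0) (nat_lit 0) (XT.lf (nat_lit 0) (nat_lit 3363423083123) (nat_lit 76) (nat_lit 568465495545) (nat_lit 76) (nat_lit 566626035333) (nat_lit 1) (nat_lit 4) (nat_lit 2) (nat_lit 5) (nat_lit 2) (nat_lit 4) (nat_lit 518) (nat_lit 383) (nat_lit 299)) (XT.lf (nat_lit 0) (nat_lit 3655511614605) (nat_lit 76) (nat_lit 601916464806) (nat_lit 76) (nat_lit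 600076792056) (nat_lit 1) (nat_lit 4) (nat_lit 2) (nat_lit 5) (nat_lit 2) (nat_lit 4) (nat_lit 519) (nat_lit 383) (nat_lit 298)))) (XT.nd (nat_lit 156) (nat_lit 0) (nat_lit 0) (XT.nd (nat_lit 78) (nat_lit 0) (nat_lit 0) (XT.lf (nat_lit 0) (nat_lit 3970962130431) (nat_lit 76) (nat_lit 638046142998) (nat_lit 76) (nat_lit 636206273453) (nat_lit 1) (nat_lit 4) (nat_lit 2) (nat_lit 5) (nat_lit 2) (nat_lit 4) (nat_lit 520) (nat_lit 383) (nat_lit 297)) (XT.lf (nat_lit 0) (nat_lit 4311643966991) (nat_lit 76) (nat_lit 677068631919) (nat_lit 76) (nat_lit 675228580156) (nat_lit 1) (nat_lit 4) (nat_lit 2) (nat_lit 5) (nat_lit 2) (nat_lit 4) (nat_lit 521) (nat_lit 383) (nat_lit 296))) (XT.nd (nat_lit 78) (nat_lit 0) (nat_lit 0) (XT.lf (nat_lit 0) (nat_lit 4679575979613) (nat_lit 76) (nat_lit 719215175946) (nat_lit 76) (nat_lit 717374955463) (nat_lit 1) (nat_lit 4) (nat_lit 2) (nat_lit 5) (nat_lit 2)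 (nat_lit 4) (nat_lit 522) (nat_lit 383) (nat_lit 295)) (XT.lf (nat_lit 0) (nat_lit 5076938506150) (nat_lit 76) (nat_lit 764735532378) (nat_lit 76) (nat_lit 762895155672) (nat_lit 1) (nat_lit 4) (nat_lit 2) (nat_lit 5) (nat_lit 2) (nat_lit 4) (nat_lit 523) (nat_lit 383) (nat_lit 294))))))))
noncomputable def xc54 : XT := (XT.nd (nat_lit 56316) (nat_lit 0) (nat_lit 228) (XT.nd (nat_lit 55302) (nat_lit 0) (nat_lit 1444) (XT.nd (nat_lit 468) (nat_lit 0) (nat_lit 0) (XT.nd (nat_lit 234) (nat_lit 0) (nat_lit 0) (XT.nd (nat_lit 78) (nat_lit 0) (nat_lit 0) (XT.lf (nat_lit 0) (nat_lit 5506086287499) (nat_lit 76) (nat_lit 813899451475) (nat_lit 76) (nat_lit 812058930119) (nat_lit 1) (nat_lit 4) (nat_lit 2) (nat_lit 5) (nat_lit 2) (nat_lit 4) (nat_lit 524) (nat_lit 383) (nat_lit 293)) (XT.nd (nat_lit 78) (nat_lit 0) (nat_lit 0) (XT.lf (nat_lit 0) (nat_lit 5969562421625) (nat_lit 76) (nat_lit 866998274980)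 (nat_lit 76) (nat_lit 865157619688) (nat_lit 1) (nat_lit 4) (nat_lit 2) (nat_lit 5) (nat_lit 2) (nat_lit 4) (nat_lit 525) (nat_lit 383) (nat_lit 292)) (XT.lf (nat_lit 0) (nat_lit 6470113433766) (nat_lit 76) (nat_lit 924346662587) (nat_lit 76) (nat_lit 922505883282) (nat_lit 1) (nat_lit 4) (nat_lit 2) (nat_lit 5) (nat_lit 2) (nat_lit 4) (nat_lit 526) (nat_lit 383) (nat_lit 291)))) (XT.nd (nat_lit 78) (nat_lit 0) (nat_lit 0) (XT.lf (nat_lit 0) (nat_lit 7010705552142) (nat_lit 76) (nat_lit 986284456595) (nat_lit 76) (nat_lit 984443562461) (nat_lit 1) (nat_lit 4) (nat_lit 2) (nat_lit 5) (nat_lit 2) (nat_lit 4) (nat_lit 527) (nat_lit 383) (nat_lit 290)) (XT.nd (nat_lit 78) (nat_lit 0) (nat_lit 0) (XT.lf (nat_lit 0) (nat_lit 7594542285604) (nat_lit 76) (nat_lit 1053178695781) (nat_lit 76) (nat_lit 1051337695325) (nat_lit 1) (nat_lit 4) (nat_lit 2) (nat_lit 5) (nat_lit 2) (nat_lit 4) (nat_lit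 528) (nat_lit 383) (nat_lit 289)) (XT.lf (nat_lit 0) (nat_lit 8225083407386) (nat_lit 76) (nat_lit 1125425790452) (nat_lit 76) (nat_lit 1123584691550) (nat_lit 1) (nat_lit 4) (nat_lit 2) (nat_lit 5) (nat_lit 2) (nat_lit 4) (nat_lit 529) (nat_lit 383) (nat_lit 288))))) (XT.nd (nat_lit 234) (nat_lit 0) (nat_lit 0) (XT.nd (nat_lit 78) (nat_lit 0) (nat_lit 0) (XT.lf (nat_lit 0) (nat_lit 8906065457470) (nat_lit 76) (nat_lit 1203453871540) (nat_lit 76) (nat_lit 1201612681483) (nat_lit 1) (nat_lit 4) (nat_lit 2) (nat_lit 5) (nat_lit 2) (nat_lit 4) (nat_lit 530) (nat_lit 383) (nat_lit 287)) (XT.nd (nat_lit 78) (nat_lit 0) (nat_lit 0) (XT.lf (nat_lit 0) (nat_lit 9641523885041) (nat_lit 76) (nat_lit 1287725327673) (nat_lit 76) (nat_lit 1285884053215) (nat_lit 1) (nat_lit 4) (nat_lit 2) (nat_lit 5) (nat_lit 2) (nat_lit 4) (nat_lit 531) (nat_lit 383) (nat_lit 286)) (XT.lf (nat_lit 0) (nat_lit 10435816962262)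 (nat_lit 76) (nat_lit 1378739545259) (nat_lit 76) (nat_lit 1376898192650) (nat_lit 1) (nat_lit 4) (nat_lit 2) (nat_lit 5) (nat_lit 2) (nat_lit 4) (nat_lit 532) (nat_lit 383) (nat_lit 285)))) (XT.nd (nat_lit 78) (nat_lit 0) (nat_lit 0) (XT.lf (nat_lit 0) (nat_lit 11293651611073) (nat_lit 76) (nat_lit 1477035867808) (nat_lit 76) (nat_lit 1475194442838) (nat_lit 1) (nat_lit 4) (nat_lit 2) (nat_lit 5) (nat_lit 2) (nat_lit 4) (nat_lit 533) (nat_lit 383) (nat_lit 284)) (XT.nd (nat_lit 78) (nat_lit 0) (nat_lit 0) (XT.lf (nat_lit 0) (nat_lit 12220111296059) (nat_lit 76) (nat_lit 1583196792046) (nat_lit 76) (nat_lit 1581355300075) (nat_lit 1) (nat_lit 4) (nat_lit 2) (nat_lit 5) (nat_lit 2) (nat_lit 4) (nat_lit 534) (nat_lit 383) (nat_lit 283)) (XT.lf (nat_lit 0) (nat_lit 13220686148687) (nat_lit 76) (nat_lit 1697851419748) (nat_lit 76) (nat_lit 1696009865739) (nat_lit 1) (nat_lit 4) (nat_lit 2)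 (nat_lit 5) (nat_lit 2) (nat_lit 4) (nat_lit 535) (nat_lit 383) (nat_lit 282)))))) (XT.nd (nat_lit 468) (nat_lit 608) (nat_lit 0) (XT.nd (nat_lit 234) (nat_lit 228) (nat_lit 0) (XT.nd (nat_lit 78) (nat_lit 228) (nat_lit 0) (XT.lf (nat_lit 0) (nat_lit 3905278053) (nat_lit 76) (nat_lit 1664109685) (nat_lit 76) (nat_lit 1664109685) (nat_lit 34) (nat_lit 4) (nat_lit 35) (nat_lit 5) (nat_lit 35) (nat_lit 4) (nat_lit 432) (nat_lit 384) (nat_lit 384)) (XT.nd (nat_lit 78) (nat_lit 76) (nat_lit 0) (XT.lf (nat_lit 0) (nat_lit 3414297879) (nat_lit 152) (nat_lit 8546737546) (nat_lit 0) (nat_lit 3096101785) (nat_lit 32) (nat_lit 5) (nat_lit 34) (nat_lit 4) (nat_lit 32) (nat_lit 4) (nat_lit 433) (nat_lit 384) (nat_lit 383)) (XT.lf (nat_lit 0) (nat_lit 4784835689) (nat_lit 76) (nat_lit 5756780300) (nat_lit 76) (nat_lit 5143958193) (nat_lit 31) (nat_lit 4) (nat_lit 32) (nat_lit 5) (nat_lit 32) (nat_lit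 4) (nat_lit 434) (nat_lit 384) (nat_lit 382)))) (XT.nd (nat_lit 78) (nat_lit 76) (nat_lit 0) (XT.lf (nat_lit 0) (nat_lit 1747336665) (nat_lit 152) (nat_lit 13688738126) (nat_lit 0) (nat_lit 927314470) (nat_lit 29) (nat_lit 5) (nat_lit 31) (nat_lit 4) (nat_lit 29) (nat_lit 4) (nat_lit 435) (nat_lit 384) (nat_lit 381)) (XT.nd (nat_lit 78) (nat_lit 76) (nat_lit 0) (XT.lf (nat_lit 0) (nat_lit 9007569908) (nat_lit 152) (nat_lit 115875968) (nat_lit 0) (nat_lit 7953664084) (nat_lit 29) (nat_lit 5) (nat_lit 31) (nat_lit 4) (nat_lit 29) (nat_lit 4) (nat_lit 436) (nat_lit 384) (nat_lit 380)) (XT.lf (nat_lit 0) (nat_lit 14617154868) (nat_lit 76) (nat_lit 2249888049) (nat_lit 76) (nat_lit 979423310) (nat_lit 28) (nat_lit 4) (nat_lit 29) (nat_lit 5) (nat_lit 29) (nat_lit 4) (nat_lit 437) (nat_lit 384) (nat_lit 379))))) (XT.nd (nat_lit 234) (nat_lit 228) (nat_lit 0) (XT.nd (nat_lit 78) (nat_lit 228)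 (nat_lit 0) (XT.lf (nat_lit 0) (nat_lit 6422433989) (nat_lit 152) (nat_lit 7175398313) (nat_lit 0) (nat_lit 5060413385) (nat_lit 26) (nat_lit 5) (nat_lit 28) (nat_lit 4) (nat_lit 26) (nat_lit 4) (nat_lit 438) (nat_lit 384) (nat_lit 378)) (XT.nd (nat_lit 78) (nat_lit 152) (nat_lit 0) (XT.lf (nat_lit 0) (nat_lit 7665726691) (nat_lit 76) (nat_lit 6700466740) (nat_lit 76) (nat_lit 5166534687) (nat_lit 25) (nat_lit 4) (nat_lit 26) (nat_lit 5) (nat_lit 26) (nat_lit 4) (nat_lit 439) (nat_lit 384) (nat_lit 377)) (XT.lf (nat_lit 0) (nat_lit 2308642430) (nat_lit 152) (nat_lit 17425730489) (nat_lit 0) (nat_lit 740948615) (nat_lit 23) (nat_lit 5) (nat_lit 25) (nat_lit 4) (nat_lit 23) (nat_lit 4) (nat_lit 440) (nat_lit 384) (nat_lit 376)))) (XT.nd (nat_lit 156) (nat_lit 152) (nat_lit 0) (XT.nd (nat_lit 78) (nat_lit 76) (nat_lit 0) (XT.lf (nat_lit 0) (nat_lit 10280823573) (nat_lit 152) (nat_lit 2610860242)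 (nat_lit 0) (nat_lit 8576660907) (nat_lit 23) (nat_lit 5) (nat_lit 25) (nat_lit 4) (nat_lit 23) (nat_lit 4) (nat_lit 441) (nat_lit 384) (nat_lit 375)) (XT.lf (nat_lit 0) (nat_lit 13449759833) (nat_lit 76) (nat_lit 5460029310) (nat_lit 76) (nat_lit 3629506597) (nat_lit 22) (nat_lit 4) (nat_lit 23) (nat_lit 5) (nat_lit 23) (nat_lit 4) (nat_lit 442) (nat_lit 384) (nat_lit 374))) (XT.nd (nat_lit 78) (nat_lit 0) (nat_lit 0) (XT.lf (nat_lit 0) (nat_lit 4304295021) (nat_lit 152) (nat_lit 16882045634) (nat_lit 0) (nat_lit 2501033209) (nat_lit 20) (nat_lit 5) (nat_lit 22) (nat_lit 4) (nat_lit 20) (nat_lit 4) (nat_lit 443) (nat_lit 384) (nat_lit 373)) (XT.lf (nat_lit 0) (nat_lit 12770455494) (nat_lit 152) (nat_lit 1274921894) (nat_lit 0) (nat_lit 10866885003) (nat_lit 20) (nat_lit 5) (nat_lit 22) (nat_lit 4) (nat_lit 20) (nat_lit 4) (nat_lit 444) (nat_lit 384) (nat_lit 372))))))) (XT.nd (nat_lit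 936) (nat_lit 456) (nat_lit 0) (XT.nd (nat_lit 468) (nat_lit 304) (nat_lit 0) (XT.nd (nat_lit 234) (nat_lit 228) (nat_lit 0) (XT.nd (nat_lit 78) (nat_lit 152) (nat_lit 0) (XT.lf (nat_lit 0) (nat_lit 15803093495) (nat_lit 76) (nat_lit 6210272887) (nat_lit 76) (nat_lit 4213823989) (nat_lit 19) (nat_lit 4) (nat_lit 20) (nat_lit 5) (nat_lit 20) (nat_lit 4) (nat_lit 445) (nat_lit 384) (nat_lit 371)) (XT.nd (nat_lit 78) (nat_lit 0) (nat_lit 0) (XT.lf (nat_lit 0) (nat_lit 4093136449) (nat_lit 152) (nat_lit 21383888620) (nat_lit 0) (nat_lit 2164944391) (nat_lit 17) (nat_lit 5) (nat_lit 19) (nat_lit 4) (nat_lit 17) (nat_lit 4) (nat_lit 446) (nat_lit 384) (nat_lit 370)) (XT.lf (nat_lit 0) (nat_lit 13011142610) (nat_lit 152) (nat_lit 5126883952) (nat_lit 0) (nat_lit 11009220679) (nat_lit 17) (nat_lit 5) (nat_lit 19) (nat_lit 4) (nat_lit 17) (nat_lit 4) (nat_lit 447) (nat_lit 384) (nat_lit 369))))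 (XT.nd (nat_lit 78) (nat_lit 152) (nat_lit 0) (XT.lf (nat_lit 0) (nat_lit 12530414433) (nat_lit 76) (nat_lit 10154663841) (nat_lit 76) (nat_lit 8084473508) (nat_lit 16) (nat_lit 4) (nat_lit 17) (nat_lit 5) (nat_lit 17) (nat_lit 4) (nat_lit 448) (nat_lit 384) (nat_lit 368)) (XT.nd (nat_lit 78) (nat_lit 76) (nat_lit 0) (XT.lf (nat_lit 0) (nat_lit 465930222) (nat_lit 152) (nat_lit 1164266954) (nat_lit 76) (nat_lit 30899452828) (nat_lit 15) (nat_lit 5) (nat_lit 17) (nat_lit 5) (nat_lit 16) (nat_lit 4) (nat_lit 449) (nat_lit 384) (nat_lit 367)) (XT.lf (nat_lit 0) (nat_lit 9636435147) (nat_lit 152) (nat_lit 17140628260) (nat_lit 0) (nat_lit 7606869437) (nat_lit 14) (nat_lit 5) (nat_lit 16) (nat_lit 4) (nat_lit 14) (nat_lit 4) (nat_lit 450) (nat_lit 384) (nat_lit 366))))) (XT.nd (nat_lit 234) (nat_lit 152) (nat_lit 0) (XT.nd (nat_lit 78) (nat_lit 76) (nat_lit 0) (XT.lf (nat_lit 0) (nat_lit 288174234)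 (nat_lit 76) (nat_lit 19095348215) (nat_lit 76) (nat_lit 17015603192) (nat_lit 13) (nat_lit 4) (nat_lit 14) (nat_lit 5) (nat_lit 14) (nat_lit 4) (nat_lit 451) (nat_lit 384) (nat_lit 365)) (XT.nd (nat_lit 78) (nat_lit 76) (nat_lit 0) (XT.lf (nat_lit 0) (nat_lit 19609702321) (nat_lit 76) (nat_lit 10536584295) (nat_lit 76) (nat_lit 8410376945) (nat_lit 13) (nat_lit 4) (nat_lit 14) (nat_lit 5) (nat_lit 14) (nat_lit 4) (nat_lit 452) (nat_lit 384) (nat_lit 364)) (XT.lf (nat_lit 0) (nat_lit 617978188) (nat_lit 152) (nat_lit 883833392) (nat_lit 76) (nat_lit 39400984028) (nat_lit 12) (nat_lit 5) (nat_lit 14) (nat_lit 5) (nat_lit 13) (nat_lit 4) (nat_lit 453) (nat_lit 384) (nat_lit 363)))) (XT.nd (nat_lit 78) (nat_lit 76) (nat_lit 0) (XT.lf (nat_lit 0) (nat_lit 10375749931) (nat_lit 152) (nat_lit 24676149822) (nat_lit 0) (nat_lit 8330322172) (nat_lit 11) (nat_lit 5) (nat_lit 13) (nat_lit 4) (nat_lit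 11) (nat_lit 4) (nat_lit 454) (nat_lit 384) (nat_lit 362)) (XT.nd (nat_lit 78) (nat_lit 76) (nat_lit 0) (XT.lf (nat_lit 0) (nat_lit 20773525290) (nat_lit 152) (nat_lit 6603782005) (nat_lit 0) (nat_lit 18693946333) (nat_lit 11) (nat_lit 5) (nat_lit 13) (nat_lit 4) (nat_lit 11) (nat_lit 4) (nat_lit 455) (nat_lit 384) (nat_lit 361)) (XT.lf (nat_lit 0) (nat_lit 13185532337) (nat_lit 76) (nat_lit 18945425426) (nat_lit 76) (nat_lit 16834224990) (nat_lit 10) (nat_lit 4) (nat_lit 11) (nat_lit 5) (nat_lit 11) (nat_lit 4) (nat_lit 456) (nat_lit 384) (nat_lit 360)))))) (XT.nd (nat_lit 468) (nat_lit 228) (nat_lit 0) (XT.nd (nat_lit 234) (nat_lit 76) (nat_lit 0) (XT.nd (nat_lit 78) (nat_lit 152) (nat_lit 0) (XT.lf (nat_lit 0) (nat_lit 34554951971) (nat_lit 76) (nat_lit 9838229817) (nat_lit 76) (nat_lit 7697750234) (nat_lit 10) (nat_lit 4) (nat_lit 11) (nat_lit 5) (nat_lit 11) (nat_lit 4) (nat_lit 457)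 (nat_lit 384) (nat_lit 359)) (XT.nd (nat_lit 78) (nat_lit 0) (nat_lit 0) (XT.lf (nat_lit 0) (nat_lit 1847648765) (nat_lit 76) (nat_lit 82754441) (nat_lit 152) (nat_lit 53542621373) (nat_lit 8) (nat_lit 5) (nat_lit 9) (nat_lit 5) (nat_lit 10) (nat_lit 4) (nat_lit 458) (nat_lit 384) (nat_lit 358)) (XT.lf (nat_lit 0) (nat_lit 12481315557) (nat_lit 152) (nat_lit 36131858960) (nat_lit 0) (nat_lit 10451045136) (nat_lit 8) (nat_lit 5) (nat_lit 10) (nat_lit 4) (nat_lit 8) (nat_lit 4) (nat_lit 459) (nat_lit 384) (nat_lit 357)))) (XT.nd (nat_lit 78) (nat_lit 76) (nat_lit 0) (XT.lf (nat_lit 0) (nat_lit 23716476253) (nat_lit 152) (nat_lit 17574336422) (nat_lit 0) (nat_lit 21664684785) (nat_lit 8) (nat_lit 5) (nat_lit 10) (nat_lit 4) (nat_lit 8) (nat_lit 4) (nat_lit 460) (nat_lit 384) (nat_lit 356)) (XT.nd (nat_lit 78) (nat_lit 0) (nat_lit 0) (XT.lf (nat_lit 0) (nat_lit 2272849698) (nat_lit 76) (nat_lit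 33482286168) (nat_lit 76) (nat_lit 31410567804) (nat_lit 7) (nat_lit 4) (nat_lit 8) (nat_lit 5) (nat_lit 8) (nat_lit 4) (nat_lit 461) (nat_lit 384) (nat_lit 355)) (XT.lf (nat_lit 0) (nat_lit 24406456979) (nat_lit 76) (nat_lit 24684843309) (nat_lit 76) (nat_lit 22594674116) (nat_lit 7) (nat_lit 4) (nat_lit 8) (nat_lit 5) (nat_lit 8) (nat_lit 4) (nat_lit 462) (nat_lit 384) (nat_lit 354))))) (XT.nd (nat_lit 234) (nat_lit 76) (nat_lit 0) (XT.nd (nat_lit 78) (nat_lit 152) (nat_lit 0) (XT.lf (nat_lit 0) (nat_lit 48032214125) (nat_lit 76) (nat_lit 15326864606) (nat_lit 76) (nat_lit 13219611312) (nat_lit 7) (nat_lit 4) (nat_lit 8) (nat_lit 5) (nat_lit 8) (nat_lit 4) (nat_lit 463) (nat_lit 384) (nat_lit 353)) (XT.nd (nat_lit 78) (nat_lit 152) (nat_lit 0) (XT.lf (nat_lit 0) (nat_lit 73290125623) (nat_lit 76) (nat_lit 5352895370) (nat_lit 76) (nat_lit 3229823464) (nat_lit 7) (nat_lit 4) (nat_lit 8)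 (nat_lit 5) (nat_lit 8) (nat_lit 4) (nat_lit 464) (nat_lit 384) (nat_lit 352)) (XT.lf (nat_lit 0) (nat_lit 7520038825) (nat_lit 152) (nat_lit 74488157272) (nat_lit 0) (nat_lit 5540669593) (nat_lit 5) (nat_lit 5) (nat_lit 7) (nat_lit 4) (nat_lit 5) (nat_lit 4) (nat_lit 465) (nat_lit 384) (nat_lit 351)))) (XT.nd (nat_lit 156) (nat_lit 76) (nat_lit 0) (XT.nd (nat_lit 78) (nat_lit 0) (nat_lit 0) (XT.lf (nat_lit 0) (nat_lit 19216313588) (nat_lit 152) (nat_lit 57210683925) (nat_lit 0) (nat_lit 17224387032) (nat_lit 5) (nat_lit 5) (nat_lit 7) (nat_lit 4) (nat_lit 5) (nat_lit 4) (nat_lit 466) (nat_lit 384) (nat_lit 350)) (XT.lf (nat_lit 0) (nat_lit 31738215909) (nat_lit 152) (nat_lit 38778033375) (nat_lit 0) (nat_lit 29734662201) (nat_lit 5) (nat_lit 5) (nat_lit 7) (nat_lit 4) (nat_lit 5) (nat_lit 4) (nat_lit 467) (nat_lit 384) (nat_lit 349))) (XT.nd (nat_lit 78) (nat_lit 76) (nat_lit 0) (XT.lf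 (nat_lit 0) (nat_lit 45159949653) (nat_lit 152) (nat_lit 19080975100) (nat_lit 0) (nat_lit 43145630063) (nat_lit 5) (nat_lit 5) (nat_lit 7) (nat_lit 4) (nat_lit 5) (nat_lit 4) (nat_lit 468) (nat_lit 384) (nat_lit 348)) (XT.lf (nat_lit 0) (nat_lit 2102383967) (nat_lit 76) (nat_lit 57509229438) (nat_lit 76) (nat_lit 55484941440) (nat_lit 4) (nat_lit 4) (nat_lit 5) (nat_lit 5) (nat_lit 5) (nat_lit 4) (nat_lit 469) (nat_lit 384) (nat_lit 347))))))))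
noncomputable def xc55 : XT := (XT.nd (nat_lit 1950) (nat_lit 0) (nat_lit 0) (XT.nd (nat_lit 936) (nat_lit 76) (nat_lit 0) (XT.nd (nat_lit 468) (nat_lit 152) (nat_lit 0) (XT.nd (nat_lit 234) (nat_lit 0) (nat_lit 0) (XT.nd (nat_lit 78) (nat_lit 0) (nat_lit 0) (XT.lf (nat_lit 0) (nat_lit 25875857527) (nat_lit 76) (nat_lit 49773317341) (nat_lit 76) (nat_lit 47739799334) (nat_lit 4) (nat_lit 4) (nat_lit 5) (nat_lit 5) (nat_lit 5) (nat_lit 4) (nat_lit 470) (nat_lit 384) (nat_lit 346)) (XT.nd (nat_lit 78) (nat_lit 0) (nat_lit 0) (XT.lf (nat_lit 0) (nat_lit 51375555086) (nat_lit 76) (nat_lit 41509053693) (nat_lit 76) (nat_lit 39466989382) (nat_lit 4) (nat_lit 4) (nat_lit 5) (nat_lit 5) (nat_lit 5) (nat_lit 4) (nat_lit 471) (nat_lit 384) (nat_lit 345)) (XT.lf (nat_lit 0) (nat_lit 78752585965) (nat_lit 76) (nat_lit 32667465080) (nat_lit 76) (nat_lit 30617487525) (nat_lit 4) (nat_lit 4) (nat_lit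 5) (nat_lit 5) (nat_lit 5) (nat_lit 4) (nat_lit 472) (nat_lit 384) (nat_lit 344)))) (XT.nd (nat_lit 78) (nat_lit 0) (nat_lit 0) (XT.lf (nat_lit 0) (nat_lit 108169184420) (nat_lit 76) (nat_lit 23196156904) (nat_lit 76) (nat_lit 21138852271) (nat_lit 4) (nat_lit 4) (nat_lit 5) (nat_lit 5) (nat_lit 5) (nat_lit 4) (nat_lit 473) (nat_lit 384) (nat_lit 343)) (XT.nd (nat_lit 78) (nat_lit 0) (nat_lit 0) (XT.lf (nat_lit 0) (nat_lit 139799671034) (nat_lit 76) (nat_lit 13039002894) (nat_lit 76) (nat_lit 10974913929) (nat_lit 4) (nat_lit 4) (nat_lit 5) (nat_lit 5) (nat_lit 5) (nat_lit 4) (nat_lit 474) (nat_lit 384) (nat_lit 342)) (XT.lf (nat_lit 0) (nat_lit 173831485728) (nat_lit 76) (nat_lit 2135812506) (nat_lit 76) (nat_lit 65441753) (nat_lit 4) (nat_lit 4) (nat_lit 5) (nat_lit 5) (nat_lit 5) (nat_lit 4) (nat_lit 475) (nat_lit 384) (nat_lit 341))))) (XT.nd (nat_lit 234) (nat_lit 0) (nat_lit 0) (XT.nd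 (nat_lit 78) (nat_lit 0) (nat_lit 0) (XT.lf (nat_lit 0) (nat_lit 11853060517) (nat_lit 152) (nat_lit 167365364517) (nat_lit 0) (nat_lit 9930664939) (nat_lit 2) (nat_lit 5) (nat_lit 4) (nat_lit 4) (nat_lit 2) (nat_lit 4) (nat_lit 476) (nat_lit 384) (nat_lit 340)) (XT.nd (nat_lit 78) (nat_lit 0) (nat_lit 0) (XT.lf (nat_lit 0) (nat_lit 24779332414) (nat_lit 152) (nat_lit 155678703679) (nat_lit 0) (nat_lit 22851950149) (nat_lit 2) (nat_lit 5) (nat_lit 4) (nat_lit 4) (nat_lit 2) (nat_lit 4) (nat_lit 477) (nat_lit 384) (nat_lit 339)) (XT.lf (nat_lit 0) (nat_lit 38684705950) (nat_lit 152) (nat_lit 143170742134) (nat_lit 0) (nat_lit 36752706384) (nat_lit 2) (nat_lit 5) (nat_lit 4) (nat_lit 4) (nat_lit 2) (nat_lit 4) (nat_lit 478) (nat_lit 384) (nat_lit 338)))) (XT.nd (nat_lit 78) (nat_lit 0) (nat_lit 0) (XT.lf (nat_lit 0) (nat_lit 53651583340) (nat_lit 152) (nat_lit 129767358630) (nat_lit 0) (nat_lit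 51715308494) (nat_lit 2) (nat_lit 5) (nat_lit 4) (nat_lit 4) (nat_lit 2) (nat_lit 4) (nat_lit 479) (nat_lit 384) (nat_lit 337)) (XT.nd (nat_lit 78) (nat_lit 0) (nat_lit 0) (XT.lf (nat_lit 0) (nat_lit 69768657191) (nat_lit 152) (nat_lit 115389125707) (nat_lit 0) (nat_lit 67828423752) (nat_lit 2) (nat_lit 5) (nat_lit 4) (nat_lit 4) (nat_lit 2) (nat_lit 4) (nat_lit 480) (nat_lit 384) (nat_lit 336)) (XT.lf (nat_lit 0) (nat_lit 87131436087) (nat_lit 152) (nat_lit 99950839024) (nat_lit 0) (nat_lit 85187537285) (nat_lit 2) (nat_lit 5) (nat_lit 4) (nat_lit 4) (nat_lit 2) (nat_lit 4) (nat_lit 481) (nat_lit 384) (nat_lit 335)))))) (XT.nd (nat_lit 468) (nat_lit 0) (nat_lit 0) (XT.nd (nat_lit 234) (nat_lit 76) (nat_lit 0) (XT.nd (nat_lit 78) (nat_lit 0) (nat_lit 0) (XT.lf (nat_lit 0) (nat_lit 105842810571) (nat_lit 152) (nat_lit 83361012437) (nat_lit 0) (nat_lit 103895517914) (nat_lit 2) (nat_lit 5)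 (nat_lit 4) (nat_lit 4) (nat_lit 2) (nat_lit 4) (nat_lit 482) (nat_lit 384) (nat_lit 334)) (XT.nd (nat_lit 78) (nat_lit 0) (nat_lit 0) (XT.lf (nat_lit 0) (nat_lit 126013662862) (nat_lit 152) (nat_lit 65521335862) (nat_lit 0) (nat_lit 124063227747) (nat_lit 2) (nat_lit 5) (nat_lit 4) (nat_lit 4) (nat_lit 2) (nat_lit 4) (nat_lit 483) (nat_lit 384) (nat_lit 333)) (XT.lf (nat_lit 0) (nat_lit 147763523936) (nat_lit 152) (nat_lit 46326092698) (nat_lit 0) (nat_lit 145810179137) (nat_lit 2) (nat_lit 5) (nat_lit 4) (nat_lit 4) (nat_lit 2) (nat_lit 4) (nat_lit 484) (nat_lit 384) (nat_lit 332)))) (XT.nd (nat_lit 78) (nat_lit 76) (nat_lit 0) (XT.lf (nat_lit 0) (nat_lit 171221281859) (nat_lit 152) (nat_lit 25661533354) (nat_lit 0) (nat_lit 169265242909) (nat_lit 2) (nat_lit 5) (nat_lit 4) (nat_lit 4) (nat_lit 2) (nat_lit 4) (nat_lit 485) (nat_lit 384) (nat_lit 331)) (XT.nd (nat_lit 78) (nat_lit 76)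 (nat_lit 0) (XT.lf (nat_lit 0) (nat_lit 196525945567) (nat_lit 152) (nat_lit 3405201185) (nat_lit 0) (nat_lit 194567412032) (nat_lit 2) (nat_lit 5) (nat_lit 4) (nat_lit 4) (nat_lit 2) (nat_lit 4) (nat_lit 486) (nat_lit 384) (nat_lit 330)) (XT.lf (nat_lit 0) (nat_lit 21658225334) (nat_lit 76) (nat_lit 202690124128) (nat_lit 76) (nat_lit 200729280792) (nat_lit 1) (nat_lit 4) (nat_lit 2) (nat_lit 5) (nat_lit 2) (nat_lit 4) (nat_lit 487) (nat_lit 384) (nat_lit 329))))) (XT.nd (nat_lit 234) (nat_lit 0) (nat_lit 0) (XT.nd (nat_lit 78) (nat_lit 0) (nat_lit 0) (XT.lf (nat_lit 0) (nat_lit 48864977512) (nat_lit 76) (nat_lit 205597864201) (nat_lit 76) (nat_lit 203634882161) (nat_lit 1) (nat_lit 4) (nat_lit 2) (nat_lit 5) (nat_lit 2) (nat_lit 4) (nat_lit 488) (nat_lit 384) (nat_lit 328)) (XT.nd (nat_lit 78) (nat_lit 0) (nat_lit 0) (XT.lf (nat_lit 0) (nat_lit 78196968684) (nat_lit 76) (nat_lit 208764702259)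 (nat_lit 76) (nat_lit 206799739938) (nat_lit 1) (nat_lit 4) (nat_lit 2) (nat_lit 5) (nat_lit 2) (nat_lit 4) (nat_lit 489) (nat_lit 384) (nat_lit 327)) (XT.lf (nat_lit 0) (nat_lit 109828018059) (nat_lit 76) (nat_lit 212209404750) (nat_lit 76) (nat_lit 210242608834) (nat_lit 1) (nat_lit 4) (nat_lit 2) (nat_lit 5) (nat_lit 2) (nat_lit 4) (nat_lit 490) (nat_lit 384) (nat_lit 326)))) (XT.nd (nat_lit 156) (nat_lit 0) (nat_lit 0) (XT.nd (nat_lit 78) (nat_lit 0) (nat_lit 0) (XT.lf (nat_lit 0) (nat_lit 143945568892) (nat_lit 76) (nat_lit 215952384725) (nat_lit 76) (nat_lit 213983891037) (nat_lit 1) (nat_lit 4) (nat_lit 2) (nat_lit 5) (nat_lit 2) (nat_lit 4) (nat_lit 491) (nat_lit 384) (nat_lit 325)) (XT.lf (nat_lit 0) (nat_lit 180751799262) (nat_lit 76) (nat_lit 220015822806) (nat_lit 76) (nat_lit 218045757107) (nat_lit 1) (nat_lit 4) (nat_lit 2) (nat_lit 5) (nat_lit 2) (nat_lit 4) (nat_lit 492)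 (nat_lit 384) (nat_lit 324))) (XT.nd (nat_lit 78) (nat_lit 0) (nat_lit 0) (XT.lf (nat_lit 0) (nat_lit 220464820163) (nat_lit 76) (nat_lit 224423798627) (nat_lit 76) (nat_lit 222452277361) (nat_lit 1) (nat_lit 4) (nat_lit 2) (nat_lit 5) (nat_lit 2) (nat_lit 4) (nat_lit 493) (nat_lit 384) (nat_lit 323)) (XT.lf (nat_lit 0) (nat_lit 263319968016) (nat_lit 76) (nat_lit 229202433526) (nat_lit 76) (nat_lit 227229564514) (nat_lit 1) (nat_lit 4) (nat_lit 2) (nat_lit 5) (nat_lit 2) (nat_lit 4) (nat_lit 494) (nat_lit 384) (nat_lit 322))))))) (XT.nd (nat_lit 1014) (nat_lit 0) (nat_lit 0) (XT.nd (nat_lit 468) (nat_lit 0) (nat_lit 0) (XT.nd (nat_lit 234) (nat_lit 0) (nat_lit 0) (XT.nd (nat_lit 78) (nat_lit 0) (nat_lit 0) (XT.lf (nat_lit 0) (nat_lit 309571199253) (nat_lit 76) (nat_lit 234380045339) (nat_lit 76) (nat_lit 232405928413) (nat_lit 1) (nat_lit 4) (nat_lit 2) (nat_lit 5) (nat_lit 2) (nat_lit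 4) (nat_lit 495) (nat_lit 384) (nat_lit 321)) (XT.nd (nat_lit 78) (nat_lit 0) (nat_lit 0) (XT.lf (nat_lit 0) (nat_lit 359492595244) (nat_lit 76) (nat_lit 239987316210) (nat_lit 76) (nat_lit 238012043809) (nat_lit 1) (nat_lit 4) (nat_lit 2) (nat_lit 5) (nat_lit 2) (nat_lit 4) (nat_lit 496) (nat_lit 384) (nat_lit 320)) (XT.lf (nat_lit 0) (nat_lit 413379986483) (nat_lit 76) (nat_lit 246057474411) (nat_lit 76) (nat_lit 244081132126) (nat_lit 1) (nat_lit 4) (nat_lit 2) (nat_lit 5) (nat_lit 2) (nat_lit 4) (nat_lit 497) (nat_lit 384) (nat_lit 319)))) (XT.nd (nat_lit 78) (nat_lit 0) (nat_lit 0) (XT.lf (nat_lit 0) (nat_lit 471552705660) (nat_lit 76) (nat_lit 252626491251) (nat_lit 76) (nat_lit 250649158331) (nat_lit 1) (nat_lit 4) (nat_lit 2) (nat_lit 5) (nat_lit 2) (nat_lit 4) (nat_lit 498) (nat_lit 384) (nat_lit 318)) (XT.nd (nat_lit 78) (nat_lit 0) (nat_lit 0) (XT.lf (nat_lit 0) (nat_lit 534355479999)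 (nat_lit 76) (nat_lit 259733294235) (nat_lit 76) (nat_lit 257755044062) (nat_lit 1) (nat_lit 4) (nat_lit 2) (nat_lit 5) (nat_lit 2) (nat_lit 4) (nat_lit 499) (nat_lit 384) (nat_lit 317)) (XT.lf (nat_lit 0) (nat_lit 602160474089) (nat_lit 76) (nat_lit 267419997752) (nat_lit 76) (nat_lit 265440898270) (nat_lit 1) (nat_lit 4) (nat_lit 2) (nat_lit 5) (nat_lit 2) (nat_lit 4) (nat_lit 500) (nat_lit 384) (nat_lit 316))))) (XT.nd (nat_lit 234) (nat_lit 0) (nat_lit 0) (XT.nd (nat_lit 78) (nat_lit 0) (nat_lit 0) (XT.lf (nat_lit 0) (nat_lit 675369495302) (nat_lit 76) (nat_lit 275732152639) (nat_lit 76) (nat_lit 273752266760) (nat_lit 1) (nat_lit 4) (nat_lit 2) (nat_lit 5) (nat_lit 2) (nat_lit 4) (nat_lit 501) (nat_lit 384) (nat_lit 315)) (XT.nd (nat_lit 78) (nat_lit 0) (nat_lit 0) (XT.lf (nat_lit 0) (nat_lit 754416374875) (nat_lit 76) (nat_lit 284719016108) (nat_lit 76) (nat_lit 282738402084) (nat_lit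 1) (nat_lit 4) (nat_lit 2) (nat_lit 5) (nat_lit 2) (nat_lit 4) (nat_lit 502) (nat_lit 384) (nat_lit 314)) (XT.lf (nat_lit 0) (nat_lit 839769538762) (nat_lit 76) (nat_lit 294433843648) (nat_lit 76) (nat_lit 292452555414) (nat_lit 1) (nat_lit 4) (nat_lit 2) (nat_lit 5) (nat_lit 2) (nat_lit 4) (nat_lit 503) (nat_lit 384) (nat_lit 313)))) (XT.nd (nat_lit 156) (nat_lit 0) (nat_lit 0) (XT.nd (nat_lit 78) (nat_lit 0) (nat_lit 0) (XT.lf (nat_lit 0) (nat_lit 931934783488) (nat_lit 76) (nat_lit 304934204606) (nat_lit 76) (nat_lit 302952292105) (nat_lit 1) (nat_lit 4) (nat_lit 2) (nat_lit 5) (nat_lit 2) (nat_lit 4) (nat_lit 504) (nat_lit 384) (nat_lit 312)) (XT.lf (nat_lit 0) (nat_lit 1031458273467) (nat_lit 76) (nat_lit 316282323344) (nat_lit 76) (nat_lit 314299832818) (nat_lit 1) (nat_lit 4) (nat_lit 2) (nat_lit 5) (nat_lit 2) (nat_lit 4) (nat_lit 505) (nat_lit 384) (nat_lit 311))) (XT.nd (nat_lit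 78) (nat_lit 0) (nat_lit 0) (XT.lf (nat_lit 0) (nat_lit 1138929777528) (nat_lit 76) (nat_lit 328545447973) (nat_lit 76) (nat_lit 326562422238) (nat_lit 1) (nat_lit 4) (nat_lit 2) (nat_lit 5) (nat_lit 2) (nat_lit 4) (nat_lit 506) (nat_lit 384) (nat_lit 310)) (XT.lf (nat_lit 0) (nat_lit 1254986163845) (nat_lit 76) (nat_lit 341796248861) (nat_lit 76) (nat_lit 339812727562) (nat_lit 1) (nat_lit 4) (nat_lit 2) (nat_lit 5) (nat_lit 2) (nat_lit 4) (nat_lit 507) (nat_lit 384) (nat_lit 309)))))) (XT.nd (nat_lit 468) (nat_lit 0) (nat_lit 0) (XT.nd (nat_lit 234) (nat_lit 0) (nat_lit 0) (XT.nd (nat_lit 78) (nat_lit 0) (nat_lit 0) (XT.lf (nat_lit 0) (nat_lit 1380315173965) (nat_lit 76) (nat_lit 356113249272) (nat_lit 76) (nat_lit 354129269119) (nat_lit 1) (nat_lit 4) (nat_lit 2) (nat_lit 5) (nat_lit 2) (nat_lit 4) (nat_lit 508) (nat_lit 384) (nat_lit 308)) (XT.nd (nat_lit 78) (nat_lit 0) (nat_lit 0)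 (XT.lf (nat_lit 0) (nat_lit 1515659498318) (nat_lit 76) (nat_lit 371581290691) (nat_lit 76) (nat_lit 369596885672) (nat_lit 1) (nat_lit 4) (nat_lit 2) (nat_lit 5) (nat_lit 2) (nat_lit 4) (nat_lit 509) (nat_lit 384) (nat_lit 307)) (XT.lf (nat_lit 0) (nat_lit 1661821177346) (nat_lit 76) (nat_lit 388292035585) (nat_lit 76) (nat_lit 386307237171) (nat_lit 1) (nat_lit 4) (nat_lit 2) (nat_lit 5) (nat_lit 2) (nat_lit 4) (nat_lit 510) (nat_lit 384) (nat_lit 306)))) (XT.nd (nat_lit 78) (nat_lit 0) (nat_lit 0) (XT.lf (nat_lit 0) (nat_lit 1819666354331) (nat_lit 76) (nat_lit 406344510591) (nat_lit 76) (nat_lit 404359347923) (nat_lit 1) (nat_lit 4) (nat_lit 2) (nat_lit 5) (nat_lit 2) (nat_lit 4) (nat_lit 511) (nat_lit 384) (nat_lit 305)) (XT.nd (nat_lit 78) (nat_lit 0) (nat_lit 0) (XT.lf (nat_lit 0) (nat_lit 1990130408100) (nat_lit 76) (nat_lit 425845693338) (nat_lit 76) (nat_lit 423860193398) (nat_lit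 1) (nat_lit 4) (nat_lit 2) (nat_lit 5) (nat_lit 2) (nat_lit 4) (nat_lit 512) (nat_lit 384) (nat_lit 304)) (XT.lf (nat_lit 0) (nat_lit 2174223496008) (nat_lit 76) (nat_lit 446911146390) (nat_lit 76) (nat_lit 444925334161) (nat_lit 1) (nat_lit 4) (nat_lit 2) (nat_lit 5) (nat_lit 2) (nat_lit 4) (nat_lit 513) (nat_lit 384) (nat_lit 303))))) (XT.nd (nat_lit 234) (nat_lit 0) (nat_lit 0) (XT.nd (nat_lit 78) (nat_lit 0) (nat_lit 0) (XT.lf (nat_lit 0) (nat_lit 2373036540059) (nat_lit 76) (nat_lit 469665702063) (nat_lit 76) (nat_lit 467679600677) (nat_lit 1) (nat_lit 4) (nat_lit 2) (nat_lit 5) (nat_lit 2) (nat_lit 4) (nat_lit 514) (nat_lit 384) (nat_lit 302)) (XT.nd (nat_lit 78) (nat_lit 0) (nat_lit 0) (XT.lf (nat_lit 0) (nat_lit 2587747691624) (nat_lit 76) (nat_lit 494244202167) (nat_lit 76) (nat_lit 492257833044) (nat_lit 1) (nat_lit 4) (nat_lit 2) (nat_lit 5) (nat_lit 2) (nat_lit 4) (nat_lit 515)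 (nat_lit 384) (nat_lit 301)) (XT.lf (nat_lit 0) (nat_lit 2819629313082) (nat_lit 76) (nat_lit 520792297074) (nat_lit 76) (nat_lit 518805680045) (nat_lit 1) (nat_lit 4) (nat_lit 2) (nat_lit 5) (nat_lit 2) (nat_lit 4) (nat_lit 516) (nat_lit 384) (nat_lit 300)))) (XT.nd (nat_lit 156) (nat_lit 0) (nat_lit 0) (XT.nd (nat_lit 78) (nat_lit 0) (nat_lit 0) (XT.lf (nat_lit 0) (nat_lit 3070055517747) (nat_lit 76) (nat_lit 549467308826) (nat_lit 76) (nat_lit 547480462256) (nat_lit 1) (nat_lit 4) (nat_lit 2) (nat_lit 5) (nat_lit 2) (nat_lit 4) (nat_lit 517) (nat_lit 384) (nat_lit 299)) (XT.lf (nat_lit 0) (nat_lit 3340510312757) (nat_lit 76) (nat_lit 580439163421) (nat_lit 76) (nat_lit 578452104312) (nat_lit 1) (nat_lit 4) (nat_lit 2) (nat_lit 5) (nat_lit 2) (nat_lit 4) (nat_lit 518) (nat_lit 384) (nat_lit 298))) (XT.nd (nat_lit 78) (nat_lit 0) (nat_lit 0) (XT.lf (nat_lit 0) (nat_lit 3632596393193) (nat_lit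 76) (nat_lit 613891397774) (nat_lit 76) (nat_lit 611904141869) (nat_lit 1) (nat_lit 4) (nat_lit 2) (nat_lit 5) (nat_lit 2) (nat_lit 4) (nat_lit 519) (nat_lit 384) (nat_lit 297)) (XT.lf (nat_lit 0) (nat_lit 3948044639532) (nat_lit 76) (nat_lit 650022247347) (nat_lit 76) (nat_lit 648034809225) (nat_lit 1) (nat_lit 4) (nat_lit 2) (nat_lit 5) (nat_lit 2) (nat_lit 4) (nat_lit 520) (nat_lit 384) (nat_lit 296))))))))
noncomputable def xc56 : XT := (XT.nd (nat_lit 56160) (nat_lit 0) (nat_lit 456) (XT.nd (nat_lit 936) (nat_lit 0) (nat_lit 0) (XT.nd (nat_lit 468) (nat_lit 0) (nat_lit 0) (XT.nd (nat_lit 234) (nat_lit 0) (nat_lit 0) (XT.nd (nat_lit 78) (nat_lit 0) (nat_lit 0) (XT.lf (nat_lit 0) (nat_lit 4288724374716) (nat_lit 76) (nat_lit 689045820879) (nat_lit 76) (nat_lit 687058214037) (nat_lit 1) (nat_lit 4) (nat_lit 2) (nat_lit 5) (nat_lit 2) (nat_lit 4) (nat_lit 521) (nat_lit 384) (nat_lit 295))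 (XT.nd (nat_lit 78) (nat_lit 0) (nat_lit 0) (XT.lf (nat_lit 0) (nat_lit 4656654441619) (nat_lit 76) (nat_lit 731193369177) (nat_lit 76) (nat_lit 729205606113) (nat_lit 1) (nat_lit 4) (nat_lit 2) (nat_lit 5) (nat_lit 2) (nat_lit 4) (nat_lit 522) (nat_lit 384) (nat_lit 294)) (XT.lf (nat_lit 0) (nat_lit 5054015166565) (nat_lit 76) (nat_lit 776714655489) (nat_lit 76) (nat_lit 774726747774) (nat_lit 1) (nat_lit 4) (nat_lit 2) (nat_lit 5) (nat_lit 2) (nat_lit 4) (nat_lit 523) (nat_lit 384) (nat_lit 293)))) (XT.nd (nat_lit 78) (nat_lit 0) (nat_lit 0) (XT.lf (nat_lit 0) (nat_lit 5483161279774) (nat_lit 76) (nat_lit 825879435586) (nat_lit 76) (nat_lit 823891393936) (nat_lit 1) (nat_lit 4) (nat_lit 2) (nat_lit 5) (nat_lit 2) (nat_lit 4) (nat_lit 524) (nat_lit 384) (nat_lit 292)) (XT.nd (nat_lit 78) (nat_lit 0) (nat_lit 0) (XT.lf (nat_lit 0) (nat_lit 5946635869325) (nat_lit 76) (nat_lit 878979056313)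 (nat_lit 76) (nat_lit 876990890649) (nat_lit 1) (nat_lit 4) (nat_lit 2) (nat_lit 5) (nat_lit 2) (nat_lit 4) (nat_lit 525) (nat_lit 384) (nat_lit 291)) (XT.lf (nat_lit 0) (nat_lit 6447185451305) (nat_lit 76) (nat_lit 936328182090) (nat_lit 76) (nat_lit 934339901597) (nat_lit 1) (nat_lit 4) (nat_lit 2) (nat_lit 5) (nat_lit 2) (nat_lit 4) (nat_lit 526) (nat_lit 384) (nat_lit 290))))) (XT.nd (nat_lit 234) (nat_lit 0) (nat_lit 0) (XT.nd (nat_lit 78) (nat_lit 0) (nat_lit 0) (XT.lf (nat_lit 0) (nat_lit 6987776245458) (nat_lit 76) (nat_lit 998266659586) (nat_lit 76) (nat_lit 996278272772) (nat_lit 1) (nat_lit 4) (nat_lit 2) (nat_lit 5) (nat_lit 2) (nat_lit 4) (nat_lit 527) (nat_lit 384) (nat_lit 289)) (XT.nd (nat_lit 78) (nat_lit 0) (nat_lit 0) (XT.lf (nat_lit 0) (nat_lit 7571611752787) (nat_lit 76) (nat_lit 1065161531633) (nat_lit 76) (nat_lit 1063173046372) (nat_lit 1) (nat_lit 4) (nat_lit 2)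 (nat_lit 5) (nat_lit 2) (nat_lit 4) (nat_lit 528) (nat_lit 384) (nat_lit 288)) (XT.lf (nat_lit 0) (nat_lit 8202151739261) (nat_lit 76) (nat_lit 1137409212287) (nat_lit 76) (nat_lit 1135420635871) (nat_lit 1) (nat_lit 4) (nat_lit 2) (nat_lit 5) (nat_lit 2) (nat_lit 4) (nat_lit 529) (nat_lit 384) (nat_lit 287)))) (XT.nd (nat_lit 78) (nat_lit 0) (nat_lit 0) (XT.lf (nat_lit 0) (nat_lit 8883132738133) (nat_lit 76) (nat_lit 1215437835951) (nat_lit 76) (nat_lit 1213449175133) (nat_lit 1) (nat_lit 4) (nat_lit 2) (nat_lit 5) (nat_lit 2) (nat_lit 4) (nat_lit 530) (nat_lit 384) (nat_lit 286)) (XT.nd (nat_lit 78) (nat_lit 0) (nat_lit 0) (XT.lf (nat_lit 0) (nat_lit 9618590192360) (nat_lit 76) (nat_lit 1299709794469) (nat_lit 76) (nat_lit 1297721055502) (nat_lit 1) (nat_lit 4) (nat_lit 2) (nat_lit 5) (nat_lit 2) (nat_lit 4) (nat_lit 531) (nat_lit 384) (nat_lit 285)) (XT.lf (nat_lit 0) (nat_lit 10412882368337)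 (nat_lit 76) (nat_lit 1390724477226) (nat_lit 76) (nat_lit 1388735665898) (nat_lit 1) (nat_lit 4) (nat_lit 2) (nat_lit 5) (nat_lit 2) (nat_lit 4) (nat_lit 532) (nat_lit 384) (nat_lit 284)))))) (XT.nd (nat_lit 54678) (nat_lit 0) (nat_lit 1824) (XT.nd (nat_lit 54444) (nat_lit 0) (nat_lit 2508) (XT.nd (nat_lit 78) (nat_lit 0) (nat_lit 0) (XT.lf (nat_lit 0) (nat_lit 11270716182663) (nat_lit 76) (nat_lit 1489021230490) (nat_lit 76) (nat_lit 1487032352160) (nat_lit 1) (nat_lit 4) (nat_lit 2) (nat_lit 5) (nat_lit 2) (nat_lit 4) (nat_lit 533) (nat_lit 384) (nat_lit 283)) (XT.nd (nat_lit 78) (nat_lit 0) (nat_lit 0) (XT.lf (nat_lit 0) (nat_lit 12197175094977) (nat_lit 76) (nat_lit 1595182553538) (nat_lit 76) (nat_lit 1593193613170) (nat_lit 1) (nat_lit 4) (nat_lit 2) (nat_lit 5) (nat_lit 2) (nat_lit 4) (nat_lit 534) (nat_lit 384) (nat_lit 282)) (XT.lf (nat_lit 0) (nat_lit 13197749232168) (nat_lit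 76) (nat_lit 1709837550508) (nat_lit 76) (nat_lit 1707848552698) (nat_lit 1) (nat_lit 4) (nat_lit 2) (nat_lit 5) (nat_lit 2) (nat_lit 4) (nat_lit 535) (nat_lit 384) (nat_lit 281)))) (XT.nd (nat_lit 78) (nat_lit 228) (nat_lit 0) (XT.lf (nat_lit 0) (nat_lit 4878798793) (nat_lit 76) (nat_lit 906784493) (nat_lit 76) (nat_lit 906784493) (nat_lit 37) (nat_lit 4) (nat_lit 38) (nat_lit 5) (nat_lit 38) (nat_lit 4) (nat_lit 430) (nat_lit 385) (nat_lit 385)) (XT.nd (nat_lit 78) (nat_lit 76) (nat_lit 0) (XT.lf (nat_lit 0) (nat_lit 4562049758) (nat_lit 152) (nat_lit 5160064910) (nat_lit 0) (nat_lit 4190905834) (nat_lit 35) (nat_lit 5) (nat_lit 37) (nat_lit 4) (nat_lit 35) (nat_lit 4) (nat_lit 431) (nat_lit 385) (nat_lit 384)) (XT.lf (nat_lit 0) (nat_lit 7481626726) (nat_lit 76) (nat_lit 3856940428) (nat_lit 76) (nat_lit 3142144722) (nat_lit 34) (nat_lit 4) (nat_lit 35) (nat_lit 5) (nat_lit 35) (nat_lit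 4) (nat_lit 432) (nat_lit 385) (nat_lit 383))))) (XT.nd (nat_lit 234) (nat_lit 304) (nat_lit 0) (XT.nd (nat_lit 78) (nat_lit 228) (nat_lit 0) (XT.lf (nat_lit 0) (nat_lit 3394910692) (nat_lit 152) (nat_lit 9252848615) (nat_lit 0) (nat_lit 2438436803) (nat_lit 32) (nat_lit 5) (nat_lit 34) (nat_lit 4) (nat_lit 32) (nat_lit 4) (nat_lit 433) (nat_lit 385) (nat_lit 382)) (XT.nd (nat_lit 78) (nat_lit 152) (nat_lit 0) (XT.lf (nat_lit 0) (nat_lit 3710659928) (nat_lit 76) (nat_lit 6624125694) (nat_lit 76) (nat_lit 5394849941) (nat_lit 31) (nat_lit 4) (nat_lit 32) (nat_lit 5) (nat_lit 32) (nat_lit 4) (nat_lit 434) (nat_lit 385) (nat_lit 381)) (XT.lf (nat_lit 0) (nat_lit 1197794568) (nat_lit 76) (nat_lit 90505739) (nat_lit 152) (nat_lit 15137294694) (nat_lit 29) (nat_lit 5) (nat_lit 30) (nat_lit 5) (nat_lit 31) (nat_lit 4) (nat_lit 435) (nat_lit 385) (nat_lit 380)))) (XT.nd (nat_lit 156) (nat_lit 228)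 (nat_lit 0) (XT.nd (nat_lit 78) (nat_lit 76) (nat_lit 0) (XT.lf (nat_lit 0) (nat_lit 8386202164) (nat_lit 152) (nat_lit 1968564292) (nat_lit 0) (nat_lit 6797541331) (nat_lit 29) (nat_lit 5) (nat_lit 31) (nat_lit 4) (nat_lit 29) (nat_lit 4) (nat_lit 436) (nat_lit 385) (nat_lit 379)) (XT.lf (nat_lit 0) (nat_lit 12359099581) (nat_lit 76) (nat_lit 3683977900) (nat_lit 76) (nat_lit 1894799553) (nat_lit 28) (nat_lit 4) (nat_lit 29) (nat_lit 5) (nat_lit 29) (nat_lit 4) (nat_lit 437) (nat_lit 385) (nat_lit 378))) (XT.nd (nat_lit 78) (nat_lit 76) (nat_lit 0) (XT.lf (nat_lit 0) (nat_lit 5298333498) (nat_lit 152) (nat_lit 10003674383) (nat_lit 0) (nat_lit 3469775432) (nat_lit 26) (nat_lit 5) (nat_lit 28) (nat_lit 4) (nat_lit 26) (nat_lit 4) (nat_lit 438) (nat_lit 385) (nat_lit 377)) (XT.lf (nat_lit 0) (nat_lit 4379571525) (nat_lit 76) (nat_lit 8636267003) (nat_lit 76) (nat_lit 6648531669) (nat_lit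 25) (nat_lit 4) (nat_lit 26) (nat_lit 5) (nat_lit 26) (nat_lit 4) (nat_lit 439) (nat_lit 385) (nat_lit 376))))))) (XT.nd (nat_lit 936) (nat_lit 532) (nat_lit 0) (XT.nd (nat_lit 468) (nat_lit 380) (nat_lit 0) (XT.nd (nat_lit 234) (nat_lit 228) (nat_lit 0) (XT.nd (nat_lit 78) (nat_lit 152) (nat_lit 0) (XT.lf (nat_lit 0) (nat_lit 661273033) (nat_lit 152) (nat_lit 759673782) (nat_lit 76) (nat_lit 19208032309) (nat_lit 24) (nat_lit 5) (nat_lit 26) (nat_lit 5) (nat_lit 25) (nat_lit 4) (nat_lit 440) (nat_lit 385) (nat_lit 375)) (XT.nd (nat_lit 78) (nat_lit 76) (nat_lit 0) (XT.lf (nat_lit 0) (nat_lit 8433174973) (nat_lit 152) (nat_lit 6875002535) (nat_lit 0) (nat_lit 6329850396) (nat_lit 23) (nat_lit 5) (nat_lit 25) (nat_lit 4) (nat_lit 23) (nat_lit 4) (nat_lit 441) (nat_lit 385) (nat_lit 374)) (XT.lf (nat_lit 0) (nat_lit 8674175740) (nat_lit 76) (nat_lit 8137580769) (nat_lit 76) (nat_lit 5917256148)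 (nat_lit 22) (nat_lit 4) (nat_lit 23) (nat_lit 5) (nat_lit 23) (nat_lit 4) (nat_lit 442) (nat_lit 385) (nat_lit 373)))) (XT.nd (nat_lit 78) (nat_lit 76) (nat_lit 0) (XT.lf (nat_lit 0) (nat_lit 1417724283) (nat_lit 76) (nat_lit 383421042) (nat_lit 152) (nat_lit 22106737086) (nat_lit 20) (nat_lit 5) (nat_lit 21) (nat_lit 5) (nat_lit 22) (nat_lit 4) (nat_lit 443) (nat_lit 385) (nat_lit 372)) (XT.nd (nat_lit 78) (nat_lit 76) (nat_lit 0) (XT.lf (nat_lit 0) (nat_lit 10123177204) (nat_lit 152) (nat_lit 7146992425) (nat_lit 0) (nat_lit 7874133988) (nat_lit 20) (nat_lit 5) (nat_lit 22) (nat_lit 4) (nat_lit 20) (nat_lit 4) (nat_lit 444) (nat_lit 385) (nat_lit 371)) (XT.lf (nat_lit 0) (nat_lit 9355546747) (nat_lit 76) (nat_lit 9730563516) (nat_lit 76) (nat_lit 7395521775) (nat_lit 19) (nat_lit 4) (nat_lit 20) (nat_lit 5) (nat_lit 20) (nat_lit 4) (nat_lit 445) (nat_lit 385) (nat_lit 370))))) (XT.nd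 (nat_lit 234) (nat_lit 152) (nat_lit 0) (XT.nd (nat_lit 78) (nat_lit 152) (nat_lit 0) (XT.lf (nat_lit 0) (nat_lit 739110041) (nat_lit 152) (nat_lit 877321119) (nat_lit 76) (nat_lit 26312622662) (nat_lit 18) (nat_lit 5) (nat_lit 20) (nat_lit 5) (nat_lit 19) (nat_lit 4) (nat_lit 446) (nat_lit 385) (nat_lit 369)) (XT.nd (nat_lit 78) (nat_lit 76) (nat_lit 0) (XT.lf (nat_lit 0) (nat_lit 9470997779) (nat_lit 152) (nat_lit 12811301238) (nat_lit 0) (nat_lit 7166923818) (nat_lit 17) (nat_lit 5) (nat_lit 19) (nat_lit 4) (nat_lit 17) (nat_lit 4) (nat_lit 447) (nat_lit 385) (nat_lit 368)) (XT.lf (nat_lit 0) (nat_lit 4194356699) (nat_lit 76) (nat_lit 14634857638) (nat_lit 76) (nat_lit 12267572194) (nat_lit 16) (nat_lit 4) (nat_lit 17) (nat_lit 5) (nat_lit 17) (nat_lit 4) (nat_lit 448) (nat_lit 385) (nat_lit 367)))) (XT.nd (nat_lit 78) (nat_lit 152) (nat_lit 0) (XT.lf (nat_lit 0) (nat_lit 22813367775)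 (nat_lit 76) (nat_lit 6239626402) (nat_lit 76) (nat_lit 3813811807) (nat_lit 16) (nat_lit 4) (nat_lit 17) (nat_lit 5) (nat_lit 17) (nat_lit 4) (nat_lit 449) (nat_lit 385) (nat_lit 366)) (XT.nd (nat_lit 78) (nat_lit 0) (nat_lit 0) (XT.lf (nat_lit 0) (nat_lit 5090831292) (nat_lit 152) (nat_lit 26879600782) (nat_lit 0) (nat_lit 2794527354) (nat_lit 14) (nat_lit 5) (nat_lit 16) (nat_lit 4) (nat_lit 14) (nat_lit 4) (nat_lit 450) (nat_lit 385) (nat_lit 365)) (XT.lf (nat_lit 0) (nat_lit 14724599396) (nat_lit 152) (nat_lit 9682786430) (nat_lit 0) (nat_lit 12381833131) (nat_lit 14) (nat_lit 5) (nat_lit 16) (nat_lit 4) (nat_lit 14) (nat_lit 4) (nat_lit 451) (nat_lit 385) (nat_lit 364)))))) (XT.nd (nat_lit 468) (nat_lit 228) (nat_lit 0) (XT.nd (nat_lit 234) (nat_lit 76) (nat_lit 0) (XT.nd (nat_lit 78) (nat_lit 152) (nat_lit 0) (XT.lf (nat_lit 0) (nat_lit 8916798945) (nat_lit 76) (nat_lit 16221822668)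 (nat_lit 76) (nat_lit 13836035729) (nat_lit 13) (nat_lit 4) (nat_lit 14) (nat_lit 5) (nat_lit 14) (nat_lit 4) (nat_lit 452) (nat_lit 385) (nat_lit 363)) (XT.nd (nat_lit 78) (nat_lit 152) (nat_lit 0) (XT.lf (nat_lit 0) (nat_lit 29146599591) (nat_lit 76) (nat_lit 7304368997) (nat_lit 76) (nat_lit 4878748102) (nat_lit 13) (nat_lit 4) (nat_lit 14) (nat_lit 5) (nat_lit 14) (nat_lit 4) (nat_lit 453) (nat_lit 385) (nat_lit 362)) (XT.lf (nat_lit 0) (nat_lit 4591760257) (nat_lit 152) (nat_lit 36957612016) (nat_lit 0) (nat_lit 2311663786) (nat_lit 11) (nat_lit 5) (nat_lit 13) (nat_lit 4) (nat_lit 11) (nat_lit 4) (nat_lit 454) (nat_lit 385) (nat_lit 361)))) (XT.nd (nat_lit 78) (nat_lit 76) (nat_lit 0) (XT.lf (nat_lit 0) (nat_lit 14898536921) (nat_lit 152) (nat_lit 19071992578) (nat_lit 0) (nat_lit 12586818971) (nat_lit 11) (nat_lit 5) (nat_lit 13) (nat_lit 4) (nat_lit 11) (nat_lit 4) (nat_lit 455)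 (nat_lit 385) (nat_lit 360)) (XT.nd (nat_lit 78) (nat_lit 76) (nat_lit 0) (XT.lf (nat_lit 0) (nat_lit 25854598975) (nat_lit 152) (nat_lit 115187131) (nat_lit 0) (nat_lit 23513601878) (nat_lit 11) (nat_lit 5) (nat_lit 13) (nat_lit 4) (nat_lit 11) (nat_lit 4) (nat_lit 456) (nat_lit 385) (nat_lit 359)) (XT.lf (nat_lit 0) (nat_lit 21079629385) (nat_lit 76) (nat_lit 16952207439) (nat_lit 76) (nat_lit 14584100020) (nat_lit 10) (nat_lit 4) (nat_lit 11) (nat_lit 5) (nat_lit 11) (nat_lit 4) (nat_lit 457) (nat_lit 385) (nat_lit 358))))) (XT.nd (nat_lit 234) (nat_lit 76) (nat_lit 0) (XT.nd (nat_lit 78) (nat_lit 152) (nat_lit 0) (XT.lf (nat_lit 0) (nat_lit 43651991149) (nat_lit 76) (nat_lit 7376351146) (nat_lit 76) (nat_lit 4983141577) (nat_lit 10) (nat_lit 4) (nat_lit 11) (nat_lit 5) (nat_lit 11) (nat_lit 4) (nat_lit 458) (nat_lit 385) (nat_lit 357)) (XT.nd (nat_lit 78) (nat_lit 0) (nat_lit 0) (XT.lf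 (nat_lit 0) (nat_lit 5242738567) (nat_lit 152) (nat_lit 51410190504) (nat_lit 0) (nat_lit 3005282734) (nat_lit 8) (nat_lit 5) (nat_lit 10) (nat_lit 4) (nat_lit 8) (nat_lit 4) (nat_lit 459) (nat_lit 385) (nat_lit 356)) (XT.lf (nat_lit 0) (nat_lit 16405795403) (nat_lit 152) (nat_lit 33001050354) (nat_lit 0) (nat_lit 14148412675) (nat_lit 8) (nat_lit 5) (nat_lit 10) (nat_lit 4) (nat_lit 8) (nat_lit 4) (nat_lit 460) (nat_lit 385) (nat_lit 355)))) (XT.nd (nat_lit 156) (nat_lit 0) (nat_lit 0) (XT.nd (nat_lit 78) (nat_lit 76) (nat_lit 0) (XT.lf (nat_lit 0) (nat_lit 28323030095) (nat_lit 152) (nat_lit 13404952481) (nat_lit 0) (nat_lit 26047196537) (nat_lit 8) (nat_lit 5) (nat_lit 10) (nat_lit 4) (nat_lit 8) (nat_lit 4) (nat_lit 461) (nat_lit 385) (nat_lit 354)) (XT.lf (nat_lit 0) (nat_lit 7888860912) (nat_lit 76) (nat_lit 33365929674) (nat_lit 76) (nat_lit 31073012015) (nat_lit 7) (nat_lit 4) (nat_lit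 8) (nat_lit 5) (nat_lit 8) (nat_lit 4) (nat_lit 462) (nat_lit 385) (nat_lit 353))) (XT.nd (nat_lit 78) (nat_lit 0) (nat_lit 0) (XT.lf (nat_lit 0) (nat_lit 31390624684) (nat_lit 76) (nat_lit 24071723934) (nat_lit 76) (nat_lit 21762987663) (nat_lit 7) (nat_lit 4) (nat_lit 8) (nat_lit 5) (nat_lit 8) (nat_lit 4) (nat_lit 463) (nat_lit 385) (nat_lit 352)) (XT.lf (nat_lit 0) (nat_lit 56533727502) (nat_lit 76) (nat_lit 14156803738) (nat_lit 76) (nat_lit 11833420603) (nat_lit 7) (nat_lit 4) (nat_lit 8) (nat_lit 5) (nat_lit 8) (nat_lit 4) (nat_lit 464) (nat_lit 385) (nat_lit 351))))))))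
noncomputable def xc57 : XT := (XT.nd (nat_lit 1950) (nat_lit 0) (nat_lit 0) (XT.nd (nat_lit 936) (nat_lit 152) (nat_lit 0) (XT.nd (nat_lit 468) (nat_lit 76) (nat_lit 0) (XT.nd (nat_lit 234) (nat_lit 76) (nat_lit 0) (XT.nd (nat_lit 78) (nat_lit 152) (nat_lit 0) (XT.lf (nat_lit 0) (nat_lit 83467165531) (nat_lit 76) (nat_lit 3562414002) (nat_lit 76) (nat_lit 1225468958) (nat_lit 7) (nat_lit 4) (nat_lit 8) (nat_lit 5) (nat_lit 8) (nat_lit 4) (nat_lit 465) (nat_lit 385) (nat_lit 350)) (XT.nd (nat_lit 78) (nat_lit 0) (nat_lit 0) (XT.lf (nat_lit 0) (nat_lit 10269151590) (nat_lit 152) (nat_lit 76018123997) (nat_lit 0) (nat_lit 8093686434) (nat_lit 5) (nat_lit 5) (nat_lit 7) (nat_lit 4) (nat_lit 5) (nat_lit 4) (nat_lit 466) (nat_lit 385) (nat_lit 349)) (XT.lf (nat_lit 0) (nat_lit 22742053545) (nat_lit 152) (nat_lit 57686533215) (nat_lit 0) (nat_lit 20555822506) (nat_lit 5) (nat_lit 5) (nat_lit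 7) (nat_lit 4) (nat_lit 5) (nat_lit 4) (nat_lit 467) (nat_lit 385) (nat_lit 348)))) (XT.nd (nat_lit 78) (nat_lit 76) (nat_lit 0) (XT.lf (nat_lit 0) (nat_lit 36118416580) (nat_lit 152) (nat_lit 38083048801) (nat_lit 0) (nat_lit 33922217132) (nat_lit 5) (nat_lit 5) (nat_lit 7) (nat_lit 4) (nat_lit 5) (nat_lit 4) (nat_lit 468) (nat_lit 385) (nat_lit 347)) (XT.nd (nat_lit 78) (nat_lit 76) (nat_lit 0) (XT.lf (nat_lit 0) (nat_lit 50477508031) (nat_lit 152) (nat_lit 17091501957) (nat_lit 0) (nat_lit 48272078575) (nat_lit 5) (nat_lit 5) (nat_lit 7) (nat_lit 4) (nat_lit 5) (nat_lit 4) (nat_lit 469) (nat_lit 385) (nat_lit 346)) (XT.lf (nat_lit 0) (nat_lit 5697514415) (nat_lit 76) (nat_lit 60343929755) (nat_lit 76) (nat_lit 58129953995) (nat_lit 4) (nat_lit 4) (nat_lit 5) (nat_lit 5) (nat_lit 5) (nat_lit 4) (nat_lit 470) (nat_lit 385) (nat_lit 345))))) (XT.nd (nat_lit 234) (nat_lit 76) (nat_lit 0)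 (XT.nd (nat_lit 78) (nat_lit 0) (nat_lit 0) (XT.lf (nat_lit 0) (nat_lit 31119018471) (nat_lit 76) (nat_lit 52119962322) (nat_lit 76) (nat_lit 49898073318) (nat_lit 4) (nat_lit 4) (nat_lit 5) (nat_lit 5) (nat_lit 5) (nat_lit 4) (nat_lit 471) (nat_lit 385) (nat_lit 344)) (XT.nd (nat_lit 78) (nat_lit 0) (nat_lit 0) (XT.lf (nat_lit 0) (nat_lit 58423647959) (nat_lit 76) (nat_lit 43315685020) (nat_lit 76) (nat_lit 41086468938) (nat_lit 4) (nat_lit 4) (nat_lit 5) (nat_lit 5) (nat_lit 5) (nat_lit 4) (nat_lit 472) (nat_lit 385) (nat_lit 343)) (XT.lf (nat_lit 0) (nat_lit 87773208088) (nat_lit 76) (nat_lit 33878924353) (nat_lit 76) (nat_lit 31642923939) (nat_lit 4) (nat_lit 4) (nat_lit 5) (nat_lit 5) (nat_lit 5) (nat_lit 4) (nat_lit 473) (nat_lit 385) (nat_lit 342)))) (XT.nd (nat_lit 78) (nat_lit 76) (nat_lit 0) (XT.lf (nat_lit 0) (nat_lit 119341622179) (nat_lit 76) (nat_lit 23753758777) (nat_lit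 76) (nat_lit 21511476575) (nat_lit 4) (nat_lit 4) (nat_lit 5) (nat_lit 5) (nat_lit 5) (nat_lit 4) (nat_lit 474) (nat_lit 385) (nat_lit 341)) (XT.nd (nat_lit 78) (nat_lit 76) (nat_lit 0) (XT.lf (nat_lit 0) (nat_lit 153315962314) (nat_lit 76) (nat_lit 12880187311) (nat_lit 76) (nat_lit 10632088638) (nat_lit 4) (nat_lit 4) (nat_lit 5) (nat_lit 5) (nat_lit 5) (nat_lit 4) (nat_lit 475) (nat_lit 385) (nat_lit 340)) (XT.lf (nat_lit 0) (nat_lit 1006699316) (nat_lit 152) (nat_lit 159549715) (nat_lit 76) (nat_lit 188863333657) (nat_lit 3) (nat_lit 5) (nat_lit 5) (nat_lit 5) (nat_lit 4) (nat_lit 4) (nat_lit 476) (nat_lit 385) (nat_lit 339)))))) (XT.nd (nat_lit 468) (nat_lit 76) (nat_lit 0) (XT.nd (nat_lit 234) (nat_lit 0) (nat_lit 0) (XT.nd (nat_lit 78) (nat_lit 0) (nat_lit 0) (XT.lf (nat_lit 0) (nat_lit 13874336386) (nat_lit 152) (nat_lit 178537673925) (nat_lit 0) (nat_lit 11783159552) (nat_lit 2)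 (nat_lit 5) (nat_lit 4) (nat_lit 4) (nat_lit 2) (nat_lit 4) (nat_lit 477) (nat_lit 385) (nat_lit 338)) (XT.nd (nat_lit 78) (nat_lit 0) (nat_lit 0) (XT.lf (nat_lit 0) (nat_lit 27755226254) (nat_lit 152) (nat_lit 166080296498) (nat_lit 0) (nat_lit 25659774141) (nat_lit 2) (nat_lit 5) (nat_lit 4) (nat_lit 4) (nat_lit 2) (nat_lit 4) (nat_lit 478) (nat_lit 385) (nat_lit 337)) (XT.lf (nat_lit 0) (nat_lit 42699433582) (nat_lit 152) (nat_lit 152723750139) (nat_lit 0) (nat_lit 40600022875) (nat_lit 2) (nat_lit 5) (nat_lit 4) (nat_lit 4) (nat_lit 2) (nat_lit 4) (nat_lit 479) (nat_lit 385) (nat_lit 336)))) (XT.nd (nat_lit 78) (nat_lit 0) (nat_lit 0) (XT.lf (nat_lit 0) (nat_lit 58795516633) (nat_lit 152) (nat_lit 138388884944) (nat_lit 0) (nat_lit 56692440563) (nat_lit 2) (nat_lit 5) (nat_lit 4) (nat_lit 4) (nat_lit 2) (nat_lit 4) (nat_lit 480) (nat_lit 385) (nat_lit 335)) (XT.nd (nat_lit 78) (nat_lit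 0) (nat_lit 0) (XT.lf (nat_lit 0) (nat_lit 76138859604) (nat_lit 152) (nat_lit 122990753564) (nat_lit 0) (nat_lit 74032389680) (nat_lit 2) (nat_lit 5) (nat_lit 4) (nat_lit 4) (nat_lit 2) (nat_lit 4) (nat_lit 481) (nat_lit 385) (nat_lit 334)) (XT.lf (nat_lit 0) (nat_lit 94832237861) (nat_lit 152) (nat_lit 106438107813) (nat_lit 0) (nat_lit 92722625479) (nat_lit 2) (nat_lit 5) (nat_lit 4) (nat_lit 4) (nat_lit 2) (nat_lit 4) (nat_lit 482) (nat_lit 385) (nat_lit 333))))) (XT.nd (nat_lit 234) (nat_lit 76) (nat_lit 0) (XT.nd (nat_lit 78) (nat_lit 0) (nat_lit 0) (XT.lf (nat_lit 0) (nat_lit 114986426979) (nat_lit 152) (nat_lit 88632857938) (nat_lit 0) (nat_lit 112873904913) (nat_lit 2) (nat_lit 5) (nat_lit 4) (nat_lit 4) (nat_lit 2) (nat_lit 4) (nat_lit 483) (nat_lit 385) (nat_lit 332)) (XT.nd (nat_lit 78) (nat_lit 0) (nat_lit 0) (XT.lf (nat_lit 0) (nat_lit 136720859189) (nat_lit 152) (nat_lit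 69469491348) (nat_lit 0) (nat_lit 134605642972) (nat_lit 2) (nat_lit 5) (nat_lit 4) (nat_lit 4) (nat_lit 2) (nat_lit 4) (nat_lit 484) (nat_lit 385) (nat_lit 331)) (XT.lf (nat_lit 0) (nat_lit 160164331127) (nat_lit 152) (nat_lit 48834447352) (nat_lit 0) (nat_lit 158046620325) (nat_lit 2) (nat_lit 5) (nat_lit 4) (nat_lit 4) (nat_lit 2) (nat_lit 4) (nat_lit 485) (nat_lit 385) (nat_lit 330)))) (XT.nd (nat_lit 156) (nat_lit 76) (nat_lit 0) (XT.nd (nat_lit 78) (nat_lit 0) (nat_lit 0) (XT.lf (nat_lit 0) (nat_lit 185455767071) (nat_lit 152) (nat_lit 26605444206) (nat_lit 0) (nat_lit 183335746468) (nat_lit 2) (nat_lit 5) (nat_lit 4) (nat_lit 4) (nat_lit 2) (nat_lit 4) (nat_lit 486) (nat_lit 385) (nat_lit 329)) (XT.lf (nat_lit 0) (nat_lit 212745042197) (nat_lit 152) (nat_lit 2650754486) (nat_lit 0) (nat_lit 210622882890) (nat_lit 2) (nat_lit 5) (nat_lit 4) (nat_lit 4) (nat_lit 2) (nat_lit 4) (nat_lit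 487) (nat_lit 385) (nat_lit 328))) (XT.nd (nat_lit 78) (nat_lit 0) (nat_lit 0) (XT.lf (nat_lit 0) (nat_lit 24391749628) (nat_lit 76) (nat_lit 218388743264) (nat_lit 76) (nat_lit 216264603675) (nat_lit 1) (nat_lit 4) (nat_lit 2) (nat_lit 5) (nat_lit 2) (nat_lit 4) (nat_lit 488) (nat_lit 385) (nat_lit 327)) (XT.lf (nat_lit 0) (nat_lit 53700903737) (nat_lit 76) (nat_lit 221567368528) (nat_lit 76) (nat_lit 219441395345) (nat_lit 1) (nat_lit 4) (nat_lit 2) (nat_lit 5) (nat_lit 2) (nat_lit 4) (nat_lit 489) (nat_lit 385) (nat_lit 326))))))) (XT.nd (nat_lit 936) (nat_lit 0) (nat_lit 0) (XT.nd (nat_lit 468) (nat_lit 0) (nat_lit 0) (XT.nd (nat_lit 234) (nat_lit 0) (nat_lit 0) (XT.nd (nat_lit 78) (nat_lit 0) (nat_lit 0) (XT.lf (nat_lit 0) (nat_lit 85310807684) (nat_lit 76) (nat_lit 225022985098) (nat_lit 76) (nat_lit 222895314143) (nat_lit 1) (nat_lit 4) (nat_lit 2) (nat_lit 5) (nat_lit 2) (nat_lit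 4) (nat_lit 490) (nat_lit 385) (nat_lit 325)) (XT.nd (nat_lit 78) (nat_lit 0) (nat_lit 0) (XT.lf (nat_lit 0) (nat_lit 119408779416) (nat_lit 76) (nat_lit 228776070702) (nat_lit 76) (nat_lit 226646827735) (nat_lit 1) (nat_lit 4) (nat_lit 2) (nat_lit 5) (nat_lit 2) (nat_lit 4) (nat_lit 491) (nat_lit 385) (nat_lit 324)) (XT.lf (nat_lit 0) (nat_lit 156196880988) (nat_lit 76) (nat_lit 232848865848) (nat_lit 76) (nat_lit 230718167314) (nat_lit 1) (nat_lit 4) (nat_lit 2) (nat_lit 5) (nat_lit 2) (nat_lit 4) (nat_lit 492) (nat_lit 385) (nat_lit 323)))) (XT.nd (nat_lit 78) (nat_lit 0) (nat_lit 0) (XT.lf (nat_lit 0) (nat_lit 195893115966) (nat_lit 76) (nat_lit 237265505617) (nat_lit 76) (nat_lit 235133459337) (nat_lit 1) (nat_lit 4) (nat_lit 2) (nat_lit 5) (nat_lit 2) (nat_lit 4) (nat_lit 493) (nat_lit 385) (nat_lit 322)) (XT.nd (nat_lit 78) (nat_lit 0) (nat_lit 0) (XT.lf (nat_lit 0) (nat_lit 238732721298)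 (nat_lit 76) (nat_lit 242052162690) (nat_lit 76) (nat_lit 239918868497) (nat_lit 1) (nat_lit 4) (nat_lit 2) (nat_lit 5) (nat_lit 2) (nat_lit 4) (nat_lit 494) (nat_lit 385) (nat_lit 321)) (XT.lf (nat_lit 0) (nat_lit 284969561311) (nat_lit 76) (nat_lit 247237202442) (nat_lit 76) (nat_lit 245102752773) (nat_lit 1) (nat_lit 4) (nat_lit 2) (nat_lit 5) (nat_lit 2) (nat_lit 4) (nat_lit 495) (nat_lit 385) (nat_lit 320))))) (XT.nd (nat_lit 234) (nat_lit 0) (nat_lit 0) (XT.nd (nat_lit 78) (nat_lit 0) (nat_lit 0) (XT.lf (nat_lit 0) (nat_lit 334877632095) (nat_lit 76) (nat_lit 252851351034) (nat_lit 76) (nat_lit 250715831481) (nat_lit 1) (nat_lit 4) (nat_lit 2) (nat_lit 5) (nat_lit 2) (nat_lit 4) (nat_lit 496) (nat_lit 385) (nat_lit 319)) (XT.nd (nat_lit 78) (nat_lit 0) (nat_lit 0) (XT.lf (nat_lit 0) (nat_lit 388752685180) (nat_lit 76) (nat_lit 258927877496) (nat_lit 76) (nat_lit 256791367309) (nat_lit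 1) (nat_lit 4) (nat_lit 2) (nat_lit 5) (nat_lit 2) (nat_lit 4) (nat_lit 497) (nat_lit 385) (nat_lit 318)) (XT.lf (nat_lit 0) (nat_lit 446913980139) (nat_lit 76) (nat_lit 265502790873) (nat_lit 76) (nat_lit 263365363432) (nat_lit 1) (nat_lit 4) (nat_lit 2) (nat_lit 5) (nat_lit 2) (nat_lit 4) (nat_lit 498) (nat_lit 385) (nat_lit 317)))) (XT.nd (nat_lit 78) (nat_lit 0) (nat_lit 0) (XT.lf (nat_lit 0) (nat_lit 509706176499) (nat_lit 76) (nat_lit 272615053614) (nat_lit 76) (nat_lit 270476776864) (nat_lit 1) (nat_lit 4) (nat_lit 2) (nat_lit 5) (nat_lit 2) (nat_lit 4) (nat_lit 499) (nat_lit 385) (nat_lit 316)) (XT.nd (nat_lit 78) (nat_lit 0) (nat_lit 0) (XT.lf (nat_lit 0) (nat_lit 577501376164) (nat_lit 76) (nat_lit 280306812462) (nat_lit 76) (nat_lit 278167749315) (nat_lit 1) (nat_lit 4) (nat_lit 2) (nat_lit 5) (nat_lit 2) (nat_lit 4) (nat_lit 500) (nat_lit 385) (nat_lit 315)) (XT.lf (nat_lit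 0) (nat_lit 650701328465) (nat_lit 76) (nat_lit 288623648210) (nat_lit 76) (nat_lit 286483856918) (nat_lit 1) (nat_lit 4) (nat_lit 2) (nat_lit 5) (nat_lit 2) (nat_lit 4) (nat_lit 501) (nat_lit 385) (nat_lit 314)))))) (XT.nd (nat_lit 468) (nat_lit 0) (nat_lit 0) (XT.nd (nat_lit 234) (nat_lit 0) (nat_lit 0) (XT.nd (nat_lit 78) (nat_lit 0) (nat_lit 0) (XT.lf (nat_lit 0) (nat_lit 729739810898) (nat_lit 76) (nat_lit 297614845810) (nat_lit 76) (nat_lit 295474380309) (nat_lit 1) (nat_lit 4) (nat_lit 2) (nat_lit 5) (nat_lit 2) (nat_lit 4) (nat_lit 502) (nat_lit 385) (nat_lit 313)) (XT.nd (nat_lit 78) (nat_lit 0) (nat_lit 0) (XT.lf (nat_lit 0) (nat_lit 815085199654) (nat_lit 76) (nat_lit 307333686434) (nat_lit 76) (nat_lit 305192596666) (nat_lit 1) (nat_lit 4) (nat_lit 2) (nat_lit 5) (nat_lit 2) (nat_lit 4) (nat_lit 503) (nat_lit 385) (nat_lit 312)) (XT.lf (nat_lit 0) (nat_lit 907243245185) (nat_lit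 76) (nat_lit 317837763211) (nat_lit 76) (nat_lit 315696095418) (nat_lit 1) (nat_lit 4) (nat_lit 2) (nat_lit 5) (nat_lit 2) (nat_lit 4) (nat_lit 504) (nat_lit 385) (nat_lit 311)))) (XT.nd (nat_lit 78) (nat_lit 0) (nat_lit 0) (XT.lf (nat_lit 0) (nat_lit 1006760069243) (nat_lit 76) (nat_lit 329189322522) (nat_lit 76) (nat_lit 327047119520) (nat_lit 1) (nat_lit 4) (nat_lit 2) (nat_lit 5) (nat_lit 2) (nat_lit 4) (nat_lit 505) (nat_lit 385) (nat_lit 310)) (XT.nd (nat_lit 78) (nat_lit 0) (nat_lit 0) (XT.lf (nat_lit 0) (nat_lit 1114225401156) (nat_lit 76) (nat_lit 341455632867) (nat_lit 76) (nat_lit 339312934301) (nat_lit 1) (nat_lit 4) (nat_lit 2) (nat_lit 5) (nat_lit 2) (nat_lit 4) (nat_lit 506) (nat_lit 385) (nat_lit 309)) (XT.lf (nat_lit 0) (nat_lit 1230276072519) (nat_lit 76) (nat_lit 354709383492) (nat_lit 76) (nat_lit 352566226071) (nat_lit 1) (nat_lit 4) (nat_lit 2) (nat_lit 5) (nat_lit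 2) (nat_lit 4) (nat_lit 507) (nat_lit 385) (nat_lit 308))))) (XT.nd (nat_lit 234) (nat_lit 0) (nat_lit 0) (XT.nd (nat_lit 78) (nat_lit 0) (nat_lit 0) (XT.lf (nat_lit 0) (nat_lit 1355599791016) (nat_lit 76) (nat_lit 369029115141) (nat_lit 76) (nat_lit 366885532854) (nat_lit 1) (nat_lit 4) (nat_lit 2) (nat_lit 5) (nat_lit 2) (nat_lit 4) (nat_lit 508) (nat_lit 385) (nat_lit 307)) (XT.nd (nat_lit 78) (nat_lit 0) (nat_lit 0) (XT.lf (nat_lit 0) (nat_lit 1490939215718) (nat_lit 76) (nat_lit 384499685484) (nat_lit 76) (nat_lit 382355709802) (nat_lit 1) (nat_lit 4) (nat_lit 2) (nat_lit 5) (nat_lit 2) (nat_lit 4) (nat_lit 509) (nat_lit 385) (nat_lit 306)) (XT.lf (nat_lit 0) (nat_lit 1637096358032) (nat_lit 76) (nat_lit 401212771974) (nat_lit 76) (nat_lit 399068432039) (nat_lit 1) (nat_lit 4) (nat_lit 2) (nat_lit 5) (nat_lit 2) (nat_lit 4) (nat_lit 510) (nat_lit 385) (nat_lit 305)))) (XT.nd (nat_lit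 156) (nat_lit 0) (nat_lit 0) (XT.nd (nat_lit 78) (nat_lit 0) (nat_lit 0) (XT.lf (nat_lit 0) (nat_lit 1794937334356) (nat_lit 76) (nat_lit 419267415124) (nat_lit 76) (nat_lit 417122737917) (nat_lit 1) (nat_lit 4) (nat_lit 2) (nat_lit 5) (nat_lit 2) (nat_lit 4) (nat_lit 511) (nat_lit 385) (nat_lit 304)) (XT.lf (nat_lit 0) (nat_lit 1965397498624) (nat_lit 76) (nat_lit 438770605412) (nat_lit 76) (nat_lit 436625615916) (nat_lit 1) (nat_lit 4) (nat_lit 2) (nat_lit 5) (nat_lit 2) (nat_lit 4) (nat_lit 512) (nat_lit 385) (nat_lit 303))) (XT.nd (nat_lit 78) (nat_lit 0) (nat_lit 0) (XT.lf (nat_lit 0) (nat_lit 2149486985143) (nat_lit 76) (nat_lit 459837917300) (nat_lit 76) (nat_lit 457692638646) (nat_lit 1) (nat_lit 4) (nat_lit 2) (nat_lit 5) (nat_lit 2) (nat_lit 4) (nat_lit 513) (nat_lit 385) (nat_lit 302)) (XT.lf (nat_lit 0) (nat_lit 2348296694573) (nat_lit 76) (nat_lit 482594194115) (nat_lit 76)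 (nat_lit 480448647724) (nat_lit 1) (nat_lit 4) (nat_lit 2) (nat_lit 5) (nat_lit 2) (nat_lit 4) (nat_lit 514) (nat_lit 385) (nat_lit 301))))))))
noncomputable def xc58 : XT := (XT.nd (nat_lit 56004) (nat_lit 0) (nat_lit 760) (XT.nd (nat_lit 936) (nat_lit 0) (nat_lit 0) (XT.nd (nat_lit 468) (nat_lit 0) (nat_lit 0) (XT.nd (nat_lit 234) (nat_lit 0) (nat_lit 0) (XT.nd (nat_lit 78) (nat_lit 0) (nat_lit 0) (XT.lf (nat_lit 0) (nat_lit 2563004758527) (nat_lit 76) (nat_lit 507174287870) (nat_lit 76) (nat_lit 505028493574) (nat_lit 1) (nat_lit 4) (nat_lit 2) (nat_lit 5) (nat_lit 2) (nat_lit 4) (nat_lit 515) (nat_lit 385) (nat_lit 300)) (XT.nd (nat_lit 78) (nat_lit 0) (nat_lit 0) (XT.lf (nat_lit 0) (nat_lit 2794883521086) (nat_lit 76) (nat_lit 533723858380) (nat_lit 76) (nat_lit 531577834542) (nat_lit 1) (nat_lit 4) (nat_lit 2) (nat_lit 5) (nat_lit 2) (nat_lit 4) (nat_lit 516) (nat_lit 385) (nat_lit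 299)) (XT.lf (nat_lit 0) (nat_lit 3045307078622) (nat_lit 76) (nat_lit 562400236431) (nat_lit 76) (nat_lit 560254000055) (nat_lit 1) (nat_lit 4) (nat_lit 2) (nat_lit 5) (nat_lit 2) (nat_lit 4) (nat_lit 517) (nat_lit 385) (nat_lit 298)))) (XT.nd (nat_lit 78) (nat_lit 0) (nat_lit 0) (XT.lf (nat_lit 0) (nat_lit 3315759422587) (nat_lit 76) (nat_lit 593373356117) (nat_lit 76) (nat_lit 591226922946) (nat_lit 1) (nat_lit 4) (nat_lit 2) (nat_lit 5) (nat_lit 2) (nat_lit 4) (nat_lit 518) (nat_lit 385) (nat_lit 297)) (XT.nd (nat_lit 78) (nat_lit 0) (nat_lit 0) (XT.lf (nat_lit 0) (nat_lit 3607843233536) (nat_lit 76) (nat_lit 626826761851) (nat_lit 76) (nat_lit 624680146462) (nat_lit 1) (nat_lit 4) (nat_lit 2) (nat_lit 5) (nat_lit 2) (nat_lit 4) (nat_lit 519) (nat_lit 385) (nat_lit 296)) (XT.lf (nat_lit 0) (nat_lit 3923289378499) (nat_lit 76) (nat_lit 662958696037) (nat_lit 76) (nat_lit 660811911927)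 (nat_lit 1) (nat_lit 4) (nat_lit 2) (nat_lit 5) (nat_lit 2) (nat_lit 4) (nat_lit 520) (nat_lit 385) (nat_lit 295))))) (XT.nd (nat_lit 234) (nat_lit 0) (nat_lit 0) (XT.nd (nat_lit 78) (nat_lit 0) (nat_lit 0) (XT.lf (nat_lit 0) (nat_lit 4263967167964) (nat_lit 76) (nat_lit 701983273839) (nat_lit 76) (nat_lit 699836333508) (nat_lit 1) (nat_lit 4) (nat_lit 2) (nat_lit 5) (nat_lit 2) (nat_lit 4) (nat_lit 521) (nat_lit 385) (nat_lit 294)) (XT.nd (nat_lit 78) (nat_lit 0) (nat_lit 0) (XT.lf (nat_lit 0) (nat_lit 4631895433276) (nat_lit 76) (nat_lit 744131752017) (nat_lit 76) (nat_lit 741984667035) (nat_lit 1) (nat_lit 4) (nat_lit 2) (nat_lit 5) (nat_lit 2) (nat_lit 4) (nat_lit 522) (nat_lit 385) (nat_lit 293)) (XT.lf (nat_lit 0) (nat_lit 5029254490081) (nat_lit 76) (nat_lit 789653899329) (nat_lit 76) (nat_lit 787506680412) (nat_lit 1) (nat_lit 4) (nat_lit 2) (nat_lit 5) (nat_lit 2) (nat_lit 4) (nat_lit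 523) (nat_lit 385) (nat_lit 292)))) (XT.nd (nat_lit 78) (nat_lit 0) (nat_lit 0) (XT.lf (nat_lit 0) (nat_lit 5458399058716) (nat_lit 76) (nat_lit 838819476649) (nat_lit 76) (nat_lit 836672133717) (nat_lit 1) (nat_lit 4) (nat_lit 2) (nat_lit 5) (nat_lit 2) (nat_lit 4) (nat_lit 524) (nat_lit 385) (nat_lit 291)) (XT.nd (nat_lit 78) (nat_lit 0) (nat_lit 0) (XT.lf (nat_lit 0) (nat_lit 5921872218106) (nat_lit 76) (nat_lit 891919835544) (nat_lit 76) (nat_lit 889772377785) (nat_lit 1) (nat_lit 4) (nat_lit 2) (nat_lit 5) (nat_lit 2) (nat_lit 4) (nat_lit 525) (nat_lit 385) (nat_lit 290)) (XT.lf (nat_lit 0) (nat_lit 6422420475862) (nat_lit 76) (nat_lit 949269644810) (nat_lit 76) (nat_lit 947122080728) (nat_lit 1) (nat_lit 4) (nat_lit 2) (nat_lit 5) (nat_lit 2) (nat_lit 4) (nat_lit 526) (nat_lit 385) (nat_lit 289)))))) (XT.nd (nat_lit 468) (nat_lit 0) (nat_lit 0) (XT.nd (nat_lit 234) (nat_lit 0) (nat_lit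 0) (XT.nd (nat_lit 78) (nat_lit 0) (nat_lit 0) (XT.lf (nat_lit 0) (nat_lit 6963010043882) (nat_lit 76) (nat_lit 1011208755168) (nat_lit 76) (nat_lit 1009061092639) (nat_lit 1) (nat_lit 4) (nat_lit 2) (nat_lit 5) (nat_lit 2) (nat_lit 4) (nat_lit 527) (nat_lit 385) (nat_lit 288)) (XT.nd (nat_lit 78) (nat_lit 0) (nat_lit 0) (XT.lf (nat_lit 0) (nat_lit 7546844415903) (nat_lit 76) (nat_lit 1078104213197) (nat_lit 76) (nat_lit 1075956459514) (nat_lit 1) (nat_lit 4) (nat_lit 2) (nat_lit 5) (nat_lit 2) (nat_lit 4) (nat_lit 528) (nat_lit 385) (nat_lit 287)) (XT.lf (nat_lit 0) (nat_lit 8177383351165) (nat_lit 76) (nat_lit 1150352436427) (nat_lit 76) (nat_lit 1148204598342) (nat_lit 1) (nat_lit 4) (nat_lit 2) (nat_lit 5) (nat_lit 2) (nat_lit 4) (nat_lit 529) (nat_lit 385) (nat_lit 286)))) (XT.nd (nat_lit 78) (nat_lit 0) (nat_lit 0) (XT.lf (nat_lit 0) (nat_lit 8858363376694) (nat_lit 76) (nat_lit 1228381562476)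 (nat_lit 76) (nat_lit 1226233646241) (nat_lit 1) (nat_lit 4) (nat_lit 2) (nat_lit 5) (nat_lit 2) (nat_lit 4) (nat_lit 530) (nat_lit 385) (nat_lit 285)) (XT.nd (nat_lit 78) (nat_lit 0) (nat_lit 0) (XT.lf (nat_lit 0) (nat_lit 9593819929677) (nat_lit 76) (nat_lit 1312653986166) (nat_lit 76) (nat_lit 1310505997570) (nat_lit 1) (nat_lit 4) (nat_lit 2) (nat_lit 5) (nat_lit 2) (nat_lit 4) (nat_lit 531) (nat_lit 385) (nat_lit 284)) (XT.lf (nat_lit 0) (nat_lit 10388111271168) (nat_lit 76) (nat_lit 1403669099637) (nat_lit 76) (nat_lit 1401521044040) (nat_lit 1) (nat_lit 4) (nat_lit 2) (nat_lit 5) (nat_lit 2) (nat_lit 4) (nat_lit 532) (nat_lit 385) (nat_lit 283))))) (XT.nd (nat_lit 54288) (nat_lit 0) (nat_lit 2584) (XT.nd (nat_lit 78) (nat_lit 0) (nat_lit 0) (XT.lf (nat_lit 0) (nat_lit 11245944312822) (nat_lit 76) (nat_lit 1501966251710) (nat_lit 76) (nat_lit 1499818134075) (nat_lit 1) (nat_lit 4)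 (nat_lit 2) (nat_lit 5) (nat_lit 2) (nat_lit 4) (nat_lit 533) (nat_lit 385) (nat_lit 282)) (XT.nd (nat_lit 78) (nat_lit 0) (nat_lit 0) (XT.lf (nat_lit 0) (nat_lit 12172402509700) (nat_lit 76) (nat_lit 1608127944027) (nat_lit 76) (nat_lit 1605979768949) (nat_lit 1) (nat_lit 4) (nat_lit 2) (nat_lit 5) (nat_lit 2) (nat_lit 4) (nat_lit 534) (nat_lit 385) (nat_lit 281)) (XT.lf (nat_lit 0) (nat_lit 13172975984449) (nat_lit 76) (nat_lit 1722783282912) (nat_lit 76) (nat_lit 1720635054646) (nat_lit 1) (nat_lit 4) (nat_lit 2) (nat_lit 5) (nat_lit 2) (nat_lit 4) (nat_lit 535) (nat_lit 385) (nat_lit 280)))) (XT.nd (nat_lit 156) (nat_lit 228) (nat_lit 0) (XT.nd (nat_lit 78) (nat_lit 152) (nat_lit 0) (XT.lf (nat_lit 0) (nat_lit 5611404029) (nat_lit 76) (nat_lit 296803852) (nat_lit 76) (nat_lit 296803852) (nat_lit 40) (nat_lit 4) (nat_lit 41) (nat_lit 5) (nat_lit 41) (nat_lit 4) (nat_lit 428) (nat_lit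 386) (nat_lit 386)) (XT.lf (nat_lit 0) (nat_lit 5421826837) (nat_lit 152) (nat_lit 2472996031) (nat_lit 0) (nat_lit 4988924564) (nat_lit 38) (nat_lit 5) (nat_lit 40) (nat_lit 4) (nat_lit 38) (nat_lit 4) (nat_lit 429) (nat_lit 386) (nat_lit 385))) (XT.nd (nat_lit 78) (nat_lit 152) (nat_lit 0) (XT.lf (nat_lit 0) (nat_lit 9455311036) (nat_lit 76) (nat_lit 2388015953) (nat_lit 76) (nat_lit 1554278241) (nat_lit 37) (nat_lit 4) (nat_lit 38) (nat_lit 5) (nat_lit 38) (nat_lit 4) (nat_lit 430) (nat_lit 386) (nat_lit 384)) (XT.lf (nat_lit 0) (nat_lit 4622926903) (nat_lit 152) (nat_lit 5810012913) (nat_lit 0) (nat_lit 3507295759) (nat_lit 35) (nat_lit 5) (nat_lit 37) (nat_lit 4) (nat_lit 35) (nat_lit 4) (nat_lit 431) (nat_lit 386) (nat_lit 383))))))) (XT.nd (nat_lit 936) (nat_lit 836) (nat_lit 0) (XT.nd (nat_lit 468) (nat_lit 456) (nat_lit 0) (XT.nd (nat_lit 234) (nat_lit 228) (nat_lit 0) (XT.nd (nat_lit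 78) (nat_lit 228) (nat_lit 0) (XT.lf (nat_lit 0) (nat_lit 6492889371) (nat_lit 76) (nat_lit 4731441061) (nat_lit 76) (nat_lit 3297613822) (nat_lit 34) (nat_lit 4) (nat_lit 35) (nat_lit 5) (nat_lit 35) (nat_lit 4) (nat_lit 432) (nat_lit 386) (nat_lit 382)) (XT.nd (nat_lit 78) (nat_lit 76) (nat_lit 0) (XT.lf (nat_lit 0) (nat_lit 3037825337) (nat_lit 152) (nat_lit 10669255116) (nat_lit 0) (nat_lit 1437405659) (nat_lit 32) (nat_lit 5) (nat_lit 34) (nat_lit 4) (nat_lit 32) (nat_lit 4) (nat_lit 433) (nat_lit 386) (nat_lit 381)) (XT.lf (nat_lit 0) (nat_lit 1913295624) (nat_lit 76) (nat_lit 7871539814) (nat_lit 76) (nat_lit 6018525818) (nat_lit 31) (nat_lit 4) (nat_lit 32) (nat_lit 5) (nat_lit 32) (nat_lit 4) (nat_lit 434) (nat_lit 386) (nat_lit 380)))) (XT.nd (nat_lit 78) (nat_lit 152) (nat_lit 0) (XT.lf (nat_lit 0) (nat_lit 517858175) (nat_lit 152) (nat_lit 1009752618) (nat_lit 76) (nat_lit 14987152635)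 (nat_lit 30) (nat_lit 5) (nat_lit 32) (nat_lit 5) (nat_lit 31) (nat_lit 4) (nat_lit 435) (nat_lit 386) (nat_lit 379)) (XT.nd (nat_lit 78) (nat_lit 76) (nat_lit 0) (XT.lf (nat_lit 0) (nat_lit 7406678872) (nat_lit 152) (nat_lit 4577680258) (nat_lit 0) (nat_lit 5273848743) (nat_lit 29) (nat_lit 5) (nat_lit 31) (nat_lit 4) (nat_lit 29) (nat_lit 4) (nat_lit 436) (nat_lit 386) (nat_lit 378)) (XT.lf (nat_lit 0) (nat_lit 9327585083) (nat_lit 76) (nat_lit 5525754250) (nat_lit 76) (nat_lit 3207259757) (nat_lit 28) (nat_lit 4) (nat_lit 29) (nat_lit 5) (nat_lit 29) (nat_lit 4) (nat_lit 437) (nat_lit 386) (nat_lit 377))))) (XT.nd (nat_lit 234) (nat_lit 228) (nat_lit 0) (XT.nd (nat_lit 78) (nat_lit 76) (nat_lit 0) (XT.lf (nat_lit 0) (nat_lit 3778082580) (nat_lit 152) (nat_lit 13668676536) (nat_lit 0) (nat_lit 1472151152) (nat_lit 26) (nat_lit 5) (nat_lit 28) (nat_lit 4) (nat_lit 26) (nat_lit 4) (nat_lit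 438) (nat_lit 386) (nat_lit 376)) (XT.nd (nat_lit 78) (nat_lit 0) (nat_lit 0) (XT.lf (nat_lit 0) (nat_lit 235514732) (nat_lit 76) (nat_lit 11024091266) (nat_lit 76) (nat_lit 8570773479) (nat_lit 25) (nat_lit 4) (nat_lit 26) (nat_lit 5) (nat_lit 26) (nat_lit 4) (nat_lit 439) (nat_lit 386) (nat_lit 375)) (XT.lf (nat_lit 0) (nat_lit 15478456591) (nat_lit 76) (nat_lit 3959134209) (nat_lit 76) (nat_lit 1369347571) (nat_lit 25) (nat_lit 4) (nat_lit 26) (nat_lit 5) (nat_lit 26) (nat_lit 4) (nat_lit 440) (nat_lit 386) (nat_lit 374)))) (XT.nd (nat_lit 78) (nat_lit 76) (nat_lit 0) (XT.lf (nat_lit 0) (nat_lit 6155809752) (nat_lit 152) (nat_lit 12047175515) (nat_lit 0) (nat_lit 3640859118) (nat_lit 23) (nat_lit 5) (nat_lit 25) (nat_lit 4) (nat_lit 23) (nat_lit 4) (nat_lit 441) (nat_lit 386) (nat_lit 373)) (XT.nd (nat_lit 78) (nat_lit 0) (nat_lit 0) (XT.lf (nat_lit 0) (nat_lit 2963997496) (nat_lit 76)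 (nat_lit 11307572088) (nat_lit 76) (nat_lit 8684288081) (nat_lit 22) (nat_lit 4) (nat_lit 23) (nat_lit 5) (nat_lit 23) (nat_lit 4) (nat_lit 442) (nat_lit 386) (nat_lit 372)) (XT.lf (nat_lit 0) (nat_lit 19349579911) (nat_lit 76) (nat_lit 3762409125) (nat_lit 76) (nat_lit 1038816438) (nat_lit 22) (nat_lit 4) (nat_lit 23) (nat_lit 5) (nat_lit 23) (nat_lit 4) (nat_lit 443) (nat_lit 386) (nat_lit 371)))))) (XT.nd (nat_lit 468) (nat_lit 380) (nat_lit 0) (XT.nd (nat_lit 234) (nat_lit 228) (nat_lit 0) (XT.nd (nat_lit 78) (nat_lit 76) (nat_lit 0) (XT.lf (nat_lit 0) (nat_lit 7004295168) (nat_lit 152) (nat_lit 14014951735) (nat_lit 0) (nat_lit 4396451564) (nat_lit 20) (nat_lit 5) (nat_lit 22) (nat_lit 4) (nat_lit 20) (nat_lit 4) (nat_lit 444) (nat_lit 386) (nat_lit 370)) (XT.nd (nat_lit 78) (nat_lit 0) (nat_lit 0) (XT.lf (nat_lit 0) (nat_lit 1879392695) (nat_lit 76) (nat_lit 13792372574) (nat_lit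 76) (nat_lit 11104900706) (nat_lit 19) (nat_lit 4) (nat_lit 20) (nat_lit 5) (nat_lit 20) (nat_lit 4) (nat_lit 445) (nat_lit 386) (nat_lit 369)) (XT.lf (nat_lit 0) (nat_lit 19367509289) (nat_lit 76) (nat_lit 5814142875) (nat_lit 76) (nat_lit 3052941133) (nat_lit 19) (nat_lit 4) (nat_lit 20) (nat_lit 5) (nat_lit 20) (nat_lit 4) (nat_lit 446) (nat_lit 386) (nat_lit 368)))) (XT.nd (nat_lit 78) (nat_lit 76) (nat_lit 0) (XT.lf (nat_lit 0) (nat_lit 5407948992) (nat_lit 152) (nat_lit 21598517031) (nat_lit 0) (nat_lit 2788069229) (nat_lit 17) (nat_lit 5) (nat_lit 19) (nat_lit 4) (nat_lit 17) (nat_lit 4) (nat_lit 447) (nat_lit 386) (nat_lit 367)) (XT.nd (nat_lit 78) (nat_lit 76) (nat_lit 0) (XT.lf (nat_lit 0) (nat_lit 14558590508) (nat_lit 152) (nat_lit 5019934356) (nat_lit 0) (nat_lit 11880181594) (nat_lit 17) (nat_lit 5) (nat_lit 19) (nat_lit 4) (nat_lit 17) (nat_lit 4) (nat_lit 448) (nat_lit 386)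 (nat_lit 366)) (XT.lf (nat_lit 0) (nat_lit 13122979482) (nat_lit 76) (nat_lit 11428414262) (nat_lit 76) (nat_lit 8695811690) (nat_lit 16) (nat_lit 4) (nat_lit 17) (nat_lit 5) (nat_lit 17) (nat_lit 4) (nat_lit 449) (nat_lit 386) (nat_lit 365))))) (XT.nd (nat_lit 234) (nat_lit 228) (nat_lit 0) (XT.nd (nat_lit 78) (nat_lit 76) (nat_lit 0) (XT.lf (nat_lit 0) (nat_lit 92126721) (nat_lit 152) (nat_lit 2591158304) (nat_lit 76) (nat_lit 32500341796) (nat_lit 15) (nat_lit 5) (nat_lit 17) (nat_lit 5) (nat_lit 16) (nat_lit 4) (nat_lit 450) (nat_lit 386) (nat_lit 364)) (XT.nd (nat_lit 78) (nat_lit 0) (nat_lit 0) (XT.lf (nat_lit 0) (nat_lit 9495550979) (nat_lit 152) (nat_lit 20854883576) (nat_lit 0) (nat_lit 6875880412) (nat_lit 14) (nat_lit 5) (nat_lit 16) (nat_lit 4) (nat_lit 14) (nat_lit 4) (nat_lit 451) (nat_lit 386) (nat_lit 363)) (XT.lf (nat_lit 0) (nat_lit 19603912888) (nat_lit 152) (nat_lit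 2887885948) (nat_lit 0) (nat_lit 16944408365) (nat_lit 14) (nat_lit 5) (nat_lit 16) (nat_lit 4) (nat_lit 14) (nat_lit 4) (nat_lit 452) (nat_lit 386) (nat_lit 362)))) (XT.nd (nat_lit 156) (nat_lit 152) (nat_lit 0) (XT.nd (nat_lit 78) (nat_lit 0) (nat_lit 0) (XT.lf (nat_lit 0) (nat_lit 17008032754) (nat_lit 76) (nat_lit 13746288813) (nat_lit 76) (nat_lit 11049900996) (nat_lit 13) (nat_lit 4) (nat_lit 14) (nat_lit 5) (nat_lit 14) (nat_lit 4) (nat_lit 453) (nat_lit 386) (nat_lit 361)) (XT.lf (nat_lit 0) (nat_lit 38309707090) (nat_lit 76) (nat_lit 4394941047) (nat_lit 76) (nat_lit 1664402032) (nat_lit 13) (nat_lit 4) (nat_lit 14) (nat_lit 5) (nat_lit 14) (nat_lit 4) (nat_lit 454) (nat_lit 386) (nat_lit 360))) (XT.nd (nat_lit 78) (nat_lit 0) (nat_lit 0) (XT.lf (nat_lit 0) (nat_lit 8378292740) (nat_lit 152) (nat_lit 32897323543) (nat_lit 0) (nat_lit 5820736727) (nat_lit 11) (nat_lit 5) (nat_lit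 13) (nat_lit 4) (nat_lit 11) (nat_lit 4) (nat_lit 455) (nat_lit 386) (nat_lit 359)) (XT.lf (nat_lit 0) (nat_lit 19256338081) (nat_lit 152) (nat_lit 14100624731) (nat_lit 0) (nat_lit 16671671747) (nat_lit 11) (nat_lit 5) (nat_lit 13) (nat_lit 4) (nat_lit 11) (nat_lit 4) (nat_lit 456) (nat_lit 386) (nat_lit 358))))))))
noncomputable def xc59 : XT := (XT.nd (nat_lit 1950) (nat_lit 76) (nat_lit 0) (XT.nd (nat_lit 936) (nat_lit 228) (nat_lit 0) (XT.nd (nat_lit 468) (nat_lit 228) (nat_lit 0) (XT.nd (nat_lit 234) (nat_lit 152) (nat_lit 0) (XT.nd (nat_lit 78) (nat_lit 0) (nat_lit 0) (XT.lf (nat_lit 0) (nat_lit 6201690123) (nat_lit 76) (nat_lit 24801833313) (nat_lit 76) (nat_lit 22192064829) (nat_lit 10) (nat_lit 4) (nat_lit 11) (nat_lit 5) (nat_lit 11) (nat_lit 4) (nat_lit 457) (nat_lit 386) (nat_lit 357)) (XT.nd (nat_lit 78) (nat_lit 0) (nat_lit 0) (XT.lf (nat_lit 0) (nat_lit 28629558088) (nat_lit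 76) (nat_lit 15300108982) (nat_lit 76) (nat_lit 12667097767) (nat_lit 10) (nat_lit 4) (nat_lit 11) (nat_lit 5) (nat_lit 11) (nat_lit 4) (nat_lit 458) (nat_lit 386) (nat_lit 356)) (XT.lf (nat_lit 0) (nat_lit 52573371137) (nat_lit 76) (nat_lit 5181019374) (nat_lit 76) (nat_lit 2526487112) (nat_lit 10) (nat_lit 4) (nat_lit 11) (nat_lit 5) (nat_lit 11) (nat_lit 4) (nat_lit 459) (nat_lit 386) (nat_lit 355)))) (XT.nd (nat_lit 78) (nat_lit 0) (nat_lit 0) (XT.lf (nat_lit 0) (nat_lit 8371393394) (nat_lit 152) (nat_lit 49947674890) (nat_lit 0) (nat_lit 5895042323) (nat_lit 8) (nat_lit 5) (nat_lit 10) (nat_lit 4) (nat_lit 8) (nat_lit 4) (nat_lit 460) (nat_lit 386) (nat_lit 354)) (XT.nd (nat_lit 78) (nat_lit 0) (nat_lit 0) (XT.lf (nat_lit 0) (nat_lit 20226810649) (nat_lit 152) (nat_lit 30478790998) (nat_lit 0) (nat_lit 17733375476) (nat_lit 8) (nat_lit 5) (nat_lit 10) (nat_lit 4) (nat_lit 8) (nat_lit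 4) (nat_lit 461) (nat_lit 386) (nat_lit 353)) (XT.lf (nat_lit 0) (nat_lit 32911605478) (nat_lit 152) (nat_lit 9697401101) (nat_lit 0) (nat_lit 30402351693) (nat_lit 8) (nat_lit 5) (nat_lit 10) (nat_lit 4) (nat_lit 8) (nat_lit 4) (nat_lit 462) (nat_lit 386) (nat_lit 352))))) (XT.nd (nat_lit 234) (nat_lit 152) (nat_lit 0) (XT.nd (nat_lit 78) (nat_lit 0) (nat_lit 0) (XT.lf (nat_lit 0) (nat_lit 13178906032) (nat_lit 76) (nat_lit 33638994011) (nat_lit 76) (nat_lit 31115093362) (nat_lit 7) (nat_lit 4) (nat_lit 8) (nat_lit 5) (nat_lit 8) (nat_lit 4) (nat_lit 463) (nat_lit 386) (nat_lit 351)) (XT.nd (nat_lit 78) (nat_lit 0) (nat_lit 0) (XT.lf (nat_lit 0) (nat_lit 38215704516) (nat_lit 76) (nat_lit 23778748851) (nat_lit 76) (nat_lit 21241286293) (nat_lit 7) (nat_lit 4) (nat_lit 8) (nat_lit 5) (nat_lit 8) (nat_lit 4) (nat_lit 464) (nat_lit 386) (nat_lit 350)) (XT.lf (nat_lit 0) (nat_lit 65050712608)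 (nat_lit 76) (nat_lit 13234984150) (nat_lit 76) (nat_lit 10684964267) (nat_lit 7) (nat_lit 4) (nat_lit 8) (nat_lit 5) (nat_lit 8) (nat_lit 4) (nat_lit 465) (nat_lit 386) (nat_lit 349)))) (XT.nd (nat_lit 78) (nat_lit 76) (nat_lit 0) (XT.lf (nat_lit 0) (nat_lit 585592436) (nat_lit 152) (nat_lit 1343614768) (nat_lit 76) (nat_lit 93241349004) (nat_lit 6) (nat_lit 5) (nat_lit 8) (nat_lit 5) (nat_lit 7) (nat_lit 4) (nat_lit 466) (nat_lit 386) (nat_lit 348)) (XT.nd (nat_lit 78) (nat_lit 0) (nat_lit 0) (XT.lf (nat_lit 0) (nat_lit 12931827116) (nat_lit 152) (nat_lit 78302346673) (nat_lit 0) (nat_lit 10549963304) (nat_lit 5) (nat_lit 5) (nat_lit 7) (nat_lit 4) (nat_lit 5) (nat_lit 4) (nat_lit 467) (nat_lit 386) (nat_lit 347)) (XT.lf (nat_lit 0) (nat_lit 26266180234) (nat_lit 152) (nat_lit 58785504721) (nat_lit 0) (nat_lit 23875086414) (nat_lit 5) (nat_lit 5) (nat_lit 7) (nat_lit 4) (nat_lit 5) (nat_lit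 4) (nat_lit 468) (nat_lit 386) (nat_lit 346)))))) (XT.nd (nat_lit 468) (nat_lit 152) (nat_lit 0) (XT.nd (nat_lit 234) (nat_lit 0) (nat_lit 0) (XT.nd (nat_lit 78) (nat_lit 76) (nat_lit 0) (XT.lf (nat_lit 0) (nat_lit 40586373615) (nat_lit 152) (nat_lit 37874182380) (nat_lit 0) (nat_lit 38186733491) (nat_lit 5) (nat_lit 5) (nat_lit 7) (nat_lit 4) (nat_lit 5) (nat_lit 4) (nat_lit 469) (nat_lit 386) (nat_lit 345)) (XT.nd (nat_lit 78) (nat_lit 76) (nat_lit 0) (XT.lf (nat_lit 0) (nat_lit 55977267663) (nat_lit 152) (nat_lit 15444460701) (nat_lit 0) (nat_lit 53569714295) (nat_lit 5) (nat_lit 5) (nat_lit 7) (nat_lit 4) (nat_lit 5) (nat_lit 4) (nat_lit 470) (nat_lit 386) (nat_lit 344)) (XT.lf (nat_lit 0) (nat_lit 9091364033) (nat_lit 76) (nat_lit 63657351167) (nat_lit 76) (nat_lit 61242470720) (nat_lit 4) (nat_lit 4) (nat_lit 5) (nat_lit 5) (nat_lit 5) (nat_lit 4) (nat_lit 471) (nat_lit 386) (nat_lit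 343)))) (XT.nd (nat_lit 78) (nat_lit 0) (nat_lit 0) (XT.lf (nat_lit 0) (nat_lit 36328955195) (nat_lit 76) (nat_lit 54887621375) (nat_lit 76) (nat_lit 52465956596) (nat_lit 4) (nat_lit 4) (nat_lit 5) (nat_lit 5) (nat_lit 5) (nat_lit 4) (nat_lit 472) (nat_lit 386) (nat_lit 342)) (XT.nd (nat_lit 78) (nat_lit 0) (nat_lit 0) (XT.lf (nat_lit 0) (nat_lit 65616442801) (nat_lit 76) (nat_lit 45482849143) (nat_lit 76) (nat_lit 43054902575) (nat_lit 4) (nat_lit 4) (nat_lit 5) (nat_lit 5) (nat_lit 5) (nat_lit 4) (nat_lit 473) (nat_lit 386) (nat_lit 341)) (XT.lf (nat_lit 0) (nat_lit 97127382333) (nat_lit 76) (nat_lit 35387302488) (nat_lit 76) (nat_lit 32953539450) (nat_lit 4) (nat_lit 4) (nat_lit 5) (nat_lit 5) (nat_lit 5) (nat_lit 4) (nat_lit 474) (nat_lit 386) (nat_lit 340))))) (XT.nd (nat_lit 234) (nat_lit 0) (nat_lit 0) (XT.nd (nat_lit 78) (nat_lit 152) (nat_lit 0) (XT.lf (nat_lit 0) (nat_lit 131048505284)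 (nat_lit 76) (nat_lit 24541155948) (nat_lit 76) (nat_lit 22102007289) (nat_lit 4) (nat_lit 4) (nat_lit 5) (nat_lit 5) (nat_lit 5) (nat_lit 4) (nat_lit 475) (nat_lit 386) (nat_lit 339)) (XT.nd (nat_lit 78) (nat_lit 152) (nat_lit 0) (XT.lf (nat_lit 0) (nat_lit 167580825717) (nat_lit 76) (nat_lit 12880136063) (nat_lit 76) (nat_lit 10436000718) (nat_lit 4) (nat_lit 4) (nat_lit 5) (nat_lit 5) (nat_lit 5) (nat_lit 4) (nat_lit 476) (nat_lit 386) (nat_lit 338)) (XT.lf (nat_lit 0) (nat_lit 1818613658) (nat_lit 76) (nat_lit 233004757) (nat_lit 152) (nat_lit 203103175768) (nat_lit 2) (nat_lit 5) (nat_lit 3) (nat_lit 5) (nat_lit 4) (nat_lit 4) (nat_lit 477) (nat_lit 386) (nat_lit 337)))) (XT.nd (nat_lit 156) (nat_lit 0) (nat_lit 0) (XT.nd (nat_lit 78) (nat_lit 0) (nat_lit 0) (XT.lf (nat_lit 0) (nat_lit 15904234452) (nat_lit 152) (nat_lit 190920036474) (nat_lit 0) (nat_lit 13632912297) (nat_lit 2) (nat_lit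 5) (nat_lit 4) (nat_lit 4) (nat_lit 2) (nat_lit 4) (nat_lit 478) (nat_lit 386) (nat_lit 336)) (XT.lf (nat_lit 0) (nat_lit 30827450980) (nat_lit 152) (nat_lit 177606857842) (nat_lit 0) (nat_lit 28552463462) (nat_lit 2) (nat_lit 5) (nat_lit 4) (nat_lit 4) (nat_lit 2) (nat_lit 4) (nat_lit 479) (nat_lit 386) (nat_lit 335))) (XT.nd (nat_lit 78) (nat_lit 0) (nat_lit 0) (XT.lf (nat_lit 0) (nat_lit 46904098106) (nat_lit 152) (nat_lit 163312147950) (nat_lit 0) (nat_lit 44625716733) (nat_lit 2) (nat_lit 5) (nat_lit 4) (nat_lit 4) (nat_lit 2) (nat_lit 4) (nat_lit 480) (nat_lit 386) (nat_lit 334)) (XT.lf (nat_lit 0) (nat_lit 64229444851) (nat_lit 152) (nat_lit 147951197407) (nat_lit 0) (nat_lit 61947921019) (nat_lit 2) (nat_lit 5) (nat_lit 4) (nat_lit 4) (nat_lit 2) (nat_lit 4) (nat_lit 481) (nat_lit 386) (nat_lit 333))))))) (XT.nd (nat_lit 936) (nat_lit 0) (nat_lit 0) (XT.nd (nat_lit 468) (nat_lit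 76) (nat_lit 0) (XT.nd (nat_lit 234) (nat_lit 0) (nat_lit 0) (XT.nd (nat_lit 78) (nat_lit 0) (nat_lit 0) (XT.lf (nat_lit 0) (nat_lit 82906159935) (nat_lit 152) (nat_lit 131432978356) (nat_lit 0) (nat_lit 80621726420) (nat_lit 2) (nat_lit 5) (nat_lit 4) (nat_lit 4) (nat_lit 2) (nat_lit 4) (nat_lit 482) (nat_lit 386) (nat_lit 332)) (XT.nd (nat_lit 78) (nat_lit 0) (nat_lit 0) (XT.lf (nat_lit 0) (nat_lit 103044920189) (nat_lit 152) (nat_lit 113659605055) (nat_lit 0) (nat_lit 100757792522) (nat_lit 2) (nat_lit 5) (nat_lit 4) (nat_lit 4) (nat_lit 2) (nat_lit 4) (nat_lit 483) (nat_lit 386) (nat_lit 331)) (XT.lf (nat_lit 0) (nat_lit 124765066414) (nat_lit 152) (nat_lit 94525753812) (nat_lit 0) (nat_lit 122475444163) (nat_lit 2) (nat_lit 5) (nat_lit 4) (nat_lit 4) (nat_lit 2) (nat_lit 4) (nat_lit 484) (nat_lit 386) (nat_lit 330)))) (XT.nd (nat_lit 78) (nat_lit 0) (nat_lit 0) (XT.lf (nat_lit 0) (nat_lit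 148195310588) (nat_lit 152) (nat_lit 73918038839) (nat_lit 0) (nat_lit 145903378536) (nat_lit 2) (nat_lit 5) (nat_lit 4) (nat_lit 4) (nat_lit 2) (nat_lit 4) (nat_lit 485) (nat_lit 386) (nat_lit 329)) (XT.nd (nat_lit 78) (nat_lit 0) (nat_lit 0) (XT.lf (nat_lit 0) (nat_lit 173474498602) (nat_lit 152) (nat_lit 51714340346) (nat_lit 0) (nat_lit 171180427846) (nat_lit 2) (nat_lit 5) (nat_lit 4) (nat_lit 4) (nat_lit 2) (nat_lit 4) (nat_lit 486) (nat_lit 386) (nat_lit 328)) (XT.lf (nat_lit 0) (nat_lit 200752433052) (nat_lit 152) (nat_lit 27783080860) (nat_lit 0) (nat_lit 198456382014) (nat_lit 2) (nat_lit 5) (nat_lit 4) (nat_lit 4) (nat_lit 2) (nat_lit 4) (nat_lit 487) (nat_lit 386) (nat_lit 327))))) (XT.nd (nat_lit 234) (nat_lit 0) (nat_lit 0) (XT.nd (nat_lit 78) (nat_lit 76) (nat_lit 0) (XT.lf (nat_lit 0) (nat_lit 230190760957) (nat_lit 152) (nat_lit 1982445509) (nat_lit 0) (nat_lit 227892876325)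 (nat_lit 2) (nat_lit 5) (nat_lit 4) (nat_lit 4) (nat_lit 2) (nat_lit 4) (nat_lit 488) (nat_lit 386) (nat_lit 326)) (XT.nd (nat_lit 78) (nat_lit 0) (nat_lit 0) (XT.lf (nat_lit 0) (nat_lit 27201171103) (nat_lit 76) (nat_lit 235416949384) (nat_lit 76) (nat_lit 233117366979) (nat_lit 1) (nat_lit 4) (nat_lit 2) (nat_lit 5) (nat_lit 2) (nat_lit 4) (nat_lit 489) (nat_lit 386) (nat_lit 325)) (XT.lf (nat_lit 0) (nat_lit 58791495948) (nat_lit 76) (nat_lit 238882671583) (nat_lit 76) (nat_lit 236581517167) (nat_lit 1) (nat_lit 4) (nat_lit 2) (nat_lit 5) (nat_lit 2) (nat_lit 4) (nat_lit 490) (nat_lit 386) (nat_lit 324)))) (XT.nd (nat_lit 78) (nat_lit 0) (nat_lit 0) (XT.lf (nat_lit 0) (nat_lit 92871338883) (nat_lit 76) (nat_lit 242645114251) (nat_lit 76) (nat_lit 240342504269) (nat_lit 1) (nat_lit 4) (nat_lit 2) (nat_lit 5) (nat_lit 2) (nat_lit 4) (nat_lit 491) (nat_lit 386) (nat_lit 323)) (XT.nd (nat_lit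 78) (nat_lit 0) (nat_lit 0) (XT.lf (nat_lit 0) (nat_lit 129642654532) (nat_lit 76) (nat_lit 246726573344) (nat_lit 76) (nat_lit 244422615616) (nat_lit 1) (nat_lit 4) (nat_lit 2) (nat_lit 5) (nat_lit 2) (nat_lit 4) (nat_lit 492) (nat_lit 386) (nat_lit 322)) (XT.lf (nat_lit 0) (nat_lit 169323346989) (nat_lit 76) (nat_lit 251151235288) (nat_lit 76) (nat_lit 248846029646) (nat_lit 1) (nat_lit 4) (nat_lit 2) (nat_lit 5) (nat_lit 2) (nat_lit 4) (nat_lit 493) (nat_lit 386) (nat_lit 321)))))) (XT.nd (nat_lit 468) (nat_lit 0) (nat_lit 0) (XT.nd (nat_lit 234) (nat_lit 0) (nat_lit 0) (XT.nd (nat_lit 78) (nat_lit 0) (nat_lit 0) (XT.lf (nat_lit 0) (nat_lit 212148561097) (nat_lit 76) (nat_lit 255945320300) (nat_lit 76) (nat_lit 253638959182) (nat_lit 1) (nat_lit 4) (nat_lit 2) (nat_lit 5) (nat_lit 2) (nat_lit 4) (nat_lit 494) (nat_lit 386) (nat_lit 320)) (XT.nd (nat_lit 78) (nat_lit 0) (nat_lit 0) (XT.lf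 (nat_lit 0) (nat_lit 258372075904) (nat_lit 76) (nat_lit 261137237773) (nat_lit 76) (nat_lit 258829806771) (nat_lit 1) (nat_lit 4) (nat_lit 2) (nat_lit 5) (nat_lit 2) (nat_lit 4) (nat_lit 495) (nat_lit 386) (nat_lit 319)) (XT.lf (nat_lit 0) (nat_lit 308267808533) (nat_lit 76) (nat_lit 266757754626) (nat_lit 76) (nat_lit 264449332990) (nat_lit 1) (nat_lit 4) (nat_lit 2) (nat_lit 5) (nat_lit 2) (nat_lit 4) (nat_lit 496) (nat_lit 386) (nat_lit 318)))) (XT.nd (nat_lit 78) (nat_lit 0) (nat_lit 0) (XT.lf (nat_lit 0) (nat_lit 362131437400) (nat_lit 76) (nat_lit 272840177625) (nat_lit 76) (nat_lit 270530838736) (nat_lit 1) (nat_lit 4) (nat_lit 2) (nat_lit 5) (nat_lit 2) (nat_lit 4) (nat_lit 497) (nat_lit 386) (nat_lit 317)) (XT.nd (nat_lit 78) (nat_lit 0) (nat_lit 0) (XT.lf (nat_lit 0) (nat_lit 420282154381) (nat_lit 76) (nat_lit 279420550759) (nat_lit 76) (nat_lit 277110362561) (nat_lit 1) (nat_lit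 4) (nat_lit 2) (nat_lit 5) (nat_lit 2) (nat_lit 4) (nat_lit 498) (nat_lit 386) (nat_lit 316)) (XT.lf (nat_lit 0) (nat_lit 483064556316) (nat_lit 76) (nat_lit 286537868831) (nat_lit 76) (nat_lit 284226894235) (nat_lit 1) (nat_lit 4) (nat_lit 2) (nat_lit 5) (nat_lit 2) (nat_lit 4) (nat_lit 499) (nat_lit 386) (nat_lit 315))))) (XT.nd (nat_lit 234) (nat_lit 0) (nat_lit 0) (XT.nd (nat_lit 78) (nat_lit 0) (nat_lit 0) (XT.lf (nat_lit 0) (nat_lit 550850687068) (nat_lit 76) (nat_lit 294234308540) (nat_lit 76) (nat_lit 291922605799) (nat_lit 1) (nat_lit 4) (nat_lit 2) (nat_lit 5) (nat_lit 2) (nat_lit 4) (nat_lit 500) (nat_lit 386) (nat_lit 314)) (XT.nd (nat_lit 78) (nat_lit 0) (nat_lit 0) (XT.lf (nat_lit 0) (nat_lit 624042242229) (nat_lit 76) (nat_lit 302555478419) (nat_lit 76) (nat_lit 300243101470) (nat_lit 1) (nat_lit 4) (nat_lit 2) (nat_lit 5) (nat_lit 2) (nat_lit 4) (nat_lit 501) (nat_lit 386)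 (nat_lit 313)) (XT.lf (nat_lit 0) (nat_lit 703072949531) (nat_lit 76) (nat_lit 311550689104) (nat_lit 76) (nat_lit 309237687887) (nat_lit 1) (nat_lit 4) (nat_lit 2) (nat_lit 5) (nat_lit 2) (nat_lit 4) (nat_lit 502) (nat_lit 386) (nat_lit 312)))) (XT.nd (nat_lit 156) (nat_lit 0) (nat_lit 0) (XT.nd (nat_lit 78) (nat_lit 0) (nat_lit 0) (XT.lf (nat_lit 0) (nat_lit 788411139092) (nat_lit 76) (nat_lit 321273245547) (nat_lit 76) (nat_lit 318959666304) (nat_lit 1) (nat_lit 4) (nat_lit 2) (nat_lit 5) (nat_lit 2) (nat_lit 4) (nat_lit 503) (nat_lit 386) (nat_lit 311)) (XT.lf (nat_lit 0) (nat_lit 880562518702) (nat_lit 76) (nat_lit 331780762897) (nat_lit 76) (nat_lit 329466648446) (nat_lit 1) (nat_lit 4) (nat_lit 2) (nat_lit 5) (nat_lit 2) (nat_lit 4) (nat_lit 504) (nat_lit 386) (nat_lit 310))) (XT.nd (nat_lit 78) (nat_lit 0) (nat_lit 0) (XT.lf (nat_lit 0) (nat_lit 980073170611) (nat_lit 76) (nat_lit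 343135507924) (nat_lit 76) (nat_lit 340820897909) (nat_lit 1) (nat_lit 4) (nat_lit 2) (nat_lit 5) (nat_lit 2) (nat_lit 4) (nat_lit 505) (nat_lit 386) (nat_lit 309)) (XT.lf (nat_lit 0) (nat_lit 1087532787571) (nat_lit 76) (nat_lit 355404768005) (nat_lit 76) (nat_lit 353089699135) (nat_lit 1) (nat_lit 4) (nat_lit 2) (nat_lit 5) (nat_lit 2) (nat_lit 4) (nat_lit 506) (nat_lit 386) (nat_lit 308))))))))
noncomputable def xc60 : XT := (XT.nd (nat_lit 1950) (nat_lit 0) (nat_lit 0) (XT.nd (nat_lit 936) (nat_lit 0) (nat_lit 0) (XT.nd (nat_lit 468) (nat_lit 0) (nat_lit 0) (XT.nd (nat_lit 234) (nat_lit 0) (nat_lit 0) (XT.nd (nat_lit 78) (nat_lit 0) (nat_lit 0) (XT.lf (nat_lit 0) (nat_lit 1203578167312) (nat_lit 76) (nat_lit 368661249868) (nat_lit 76) (nat_lit 366345756132) (nat_lit 1) (nat_lit 4) (nat_lit 2) (nat_lit 5) (nat_lit 2) (nat_lit 4) (nat_lit 507) (nat_lit 386) (nat_lit 307)) (XT.nd (nat_lit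 78) (nat_lit 0) (nat_lit 0) (XT.lf (nat_lit 0) (nat_lit 1328896986157) (nat_lit 76) (nat_lit 382983510441) (nat_lit 76) (nat_lit 380667623310) (nat_lit 1) (nat_lit 4) (nat_lit 2) (nat_lit 5) (nat_lit 2) (nat_lit 4) (nat_lit 508) (nat_lit 386) (nat_lit 306)) (XT.lf (nat_lit 0) (nat_lit 1464231874146) (nat_lit 76) (nat_lit 398456422380) (nat_lit 76) (nat_lit 396140170995) (nat_lit 1) (nat_lit 4) (nat_lit 2) (nat_lit 5) (nat_lit 2) (nat_lit 4) (nat_lit 509) (nat_lit 386) (nat_lit 305)))) (XT.nd (nat_lit 78) (nat_lit 0) (nat_lit 0) (XT.lf (nat_lit 0) (nat_lit 1610384815799) (nat_lit 76) (nat_lit 415171677015) (nat_lit 76) (nat_lit 412855088358) (nat_lit 1) (nat_lit 4) (nat_lit 2) (nat_lit 5) (nat_lit 2) (nat_lit 4) (nat_lit 510) (nat_lit 386) (nat_lit 304)) (XT.nd (nat_lit 78) (nat_lit 0) (nat_lit 0) (XT.lf (nat_lit 0) (nat_lit 1768221902622) (nat_lit 76) (nat_lit 433228327706) (nat_lit 76)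 (nat_lit 430911426761) (nat_lit 1) (nat_lit 4) (nat_lit 2) (nat_lit 5) (nat_lit 2) (nat_lit 4) (nat_lit 511) (nat_lit 386) (nat_lit 303)) (XT.lf (nat_lit 0) (nat_lit 1938678465500) (nat_lit 76) (nat_lit 452733376829) (nat_lit 76) (nat_lit 450416186727) (nat_lit 1) (nat_lit 4) (nat_lit 2) (nat_lit 5) (nat_lit 2) (nat_lit 4) (nat_lit 512) (nat_lit 386) (nat_lit 302))))) (XT.nd (nat_lit 234) (nat_lit 0) (nat_lit 0) (XT.nd (nat_lit 78) (nat_lit 0) (nat_lit 0) (XT.lf (nat_lit 0) (nat_lit 2122764617399) (nat_lit 76) (nat_lit 473802409859) (nat_lit 76) (nat_lit 471484952019) (nat_lit 1) (nat_lit 4) (nat_lit 2) (nat_lit 5) (nat_lit 2) (nat_lit 4) (nat_lit 513) (nat_lit 386) (nat_lit 301)) (XT.nd (nat_lit 78) (nat_lit 0) (nat_lit 0) (XT.lf (nat_lit 0) (nat_lit 2321571239218) (nat_lit 76) (nat_lit 496560280326) (nat_lit 76) (nat_lit 494242574581) (nat_lit 1) (nat_lit 4) (nat_lit 2) (nat_lit 5) (nat_lit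 2) (nat_lit 4) (nat_lit 514) (nat_lit 386) (nat_lit 300)) (XT.lf (nat_lit 0) (nat_lit 2536276444272) (nat_lit 76) (nat_lit 521141849684) (nat_lit 76) (nat_lit 518823914397) (nat_lit 1) (nat_lit 4) (nat_lit 2) (nat_lit 5) (nat_lit 2) (nat_lit 4) (nat_lit 515) (nat_lit 386) (nat_lit 299)))) (XT.nd (nat_lit 78) (nat_lit 0) (nat_lit 0) (XT.lf (nat_lit 0) (nat_lit 2768152559703) (nat_lit 76) (nat_lit 547692786492) (nat_lit 76) (nat_lit 545374638666) (nat_lit 1) (nat_lit 4) (nat_lit 2) (nat_lit 5) (nat_lit 2) (nat_lit 4) (nat_lit 516) (nat_lit 386) (nat_lit 298)) (XT.nd (nat_lit 78) (nat_lit 0) (nat_lit 0) (XT.lf (nat_lit 0) (nat_lit 3018573666193) (nat_lit 76) (nat_lit 576370429635) (nat_lit 76) (nat_lit 574052085014) (nat_lit 1) (nat_lit 4) (nat_lit 2) (nat_lit 5) (nat_lit 2) (nat_lit 4) (nat_lit 517) (nat_lit 386) (nat_lit 297)) (XT.lf (nat_lit 0) (nat_lit 3289023740671) (nat_lit 76) (nat_lit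 607344720702) (nat_lit 76) (nat_lit 605026193864) (nat_lit 1) (nat_lit 4) (nat_lit 2) (nat_lit 5) (nat_lit 2) (nat_lit 4) (nat_lit 518) (nat_lit 386) (nat_lit 296)))))) (XT.nd (nat_lit 468) (nat_lit 0) (nat_lit 0) (XT.nd (nat_lit 234) (nat_lit 0) (nat_lit 0) (XT.nd (nat_lit 78) (nat_lit 0) (nat_lit 0) (XT.lf (nat_lit 0) (nat_lit 3581105450245) (nat_lit 76) (nat_lit 640799211048) (nat_lit 76) (nat_lit 638480515489) (nat_lit 1) (nat_lit 4) (nat_lit 2) (nat_lit 5) (nat_lit 2) (nat_lit 4) (nat_lit 519) (nat_lit 386) (nat_lit 295)) (XT.nd (nat_lit 78) (nat_lit 0) (nat_lit 0) (XT.lf (nat_lit 0) (nat_lit 3896549649489) (nat_lit 76) (nat_lit 676932149504) (nat_lit 76) (nat_lit 674613297723) (nat_lit 1) (nat_lit 4) (nat_lit 2) (nat_lit 5) (nat_lit 2) (nat_lit 4) (nat_lit 520) (nat_lit 386) (nat_lit 294)) (XT.lf (nat_lit 0) (nat_lit 4237225637362) (nat_lit 76) (nat_lit 715957657187) (nat_lit 76)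 (nat_lit 713638660756) (nat_lit 1) (nat_lit 4) (nat_lit 2) (nat_lit 5) (nat_lit 2) (nat_lit 4) (nat_lit 521) (nat_lit 386) (nat_lit 293)))) (XT.nd (nat_lit 78) (nat_lit 0) (nat_lit 0) (XT.lf (nat_lit 0) (nat_lit 4605152234534) (nat_lit 76) (nat_lit 758106996365) (nat_lit 76) (nat_lit 755787865998) (nat_lit 1) (nat_lit 4) (nat_lit 2) (nat_lit 5) (nat_lit 2) (nat_lit 4) (nat_lit 522) (nat_lit 386) (nat_lit 292)) (XT.nd (nat_lit 78) (nat_lit 0) (nat_lit 0) (XT.lf (nat_lit 0) (nat_lit 5002509746765) (nat_lit 76) (nat_lit 803629940899) (nat_lit 76) (nat_lit 801310686518) (nat_lit 1) (nat_lit 4) (nat_lit 2) (nat_lit 5) (nat_lit 2) (nat_lit 4) (nat_lit 523) (nat_lit 386) (nat_lit 291)) (XT.lf (nat_lit 0) (nat_lit 5431652885238) (nat_lit 76) (nat_lit 852796256387) (nat_lit 76) (nat_lit 850476887178) (nat_lit 1) (nat_lit 4) (nat_lit 2) (nat_lit 5) (nat_lit 2) (nat_lit 4) (nat_lit 524) (nat_lit 386)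 (nat_lit 290))))) (XT.nd (nat_lit 234) (nat_lit 0) (nat_lit 0) (XT.nd (nat_lit 78) (nat_lit 0) (nat_lit 0) (XT.lf (nat_lit 0) (nat_lit 5895124720404) (nat_lit 76) (nat_lit 905897298772) (nat_lit 76) (nat_lit 903577823241) (nat_lit 1) (nat_lit 4) (nat_lit 2) (nat_lit 5) (nat_lit 2) (nat_lit 4) (nat_lit 525) (nat_lit 386) (nat_lit 289)) (XT.nd (nat_lit 78) (nat_lit 0) (nat_lit 0) (XT.lf (nat_lit 0) (nat_lit 6395671752027) (nat_lit 76) (nat_lit 963247740899) (nat_lit 76) (nat_lit 960928166922) (nat_lit 1) (nat_lit 4) (nat_lit 2) (nat_lit 5) (nat_lit 2) (nat_lit 4) (nat_lit 526) (nat_lit 386) (nat_lit 288)) (XT.lf (nat_lit 0) (nat_lit 6936260184739) (nat_lit 76) (nat_lit 1025187437239) (nat_lit 76) (nat_lit 1022867772107) (nat_lit 1) (nat_lit 4) (nat_lit 2) (nat_lit 5) (nat_lit 2) (nat_lit 4) (nat_lit 527) (nat_lit 386) (nat_lit 287)))) (XT.nd (nat_lit 156) (nat_lit 0) (nat_lit 0) (XT.nd (nat_lit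 78) (nat_lit 0) (nat_lit 0) (XT.lf (nat_lit 0) (nat_lit 7520093505549) (nat_lit 76) (nat_lit 1092083437844) (nat_lit 76) (nat_lit 1089763688310) (nat_lit 1) (nat_lit 4) (nat_lit 2) (nat_lit 5) (nat_lit 2) (nat_lit 4) (nat_lit 528) (nat_lit 386) (nat_lit 286)) (XT.lf (nat_lit 0) (nat_lit 8150631467468) (nat_lit 76) (nat_lit 1164332163459) (nat_lit 76) (nat_lit 1162012335775) (nat_lit 1) (nat_lit 4) (nat_lit 2) (nat_lit 5) (nat_lit 2) (nat_lit 4) (nat_lit 529) (nat_lit 386) (nat_lit 285))) (XT.nd (nat_lit 78) (nat_lit 0) (nat_lit 0) (XT.lf (nat_lit 0) (nat_lit 8831610591752) (nat_lit 76) (nat_lit 1242361754680) (nat_lit 76) (nat_lit 1240041854635) (nat_lit 1) (nat_lit 4) (nat_lit 2) (nat_lit 5) (nat_lit 2) (nat_lit 4) (nat_lit 530) (nat_lit 386) (nat_lit 284)) (XT.lf (nat_lit 0) (nat_lit 9567066310249) (nat_lit 76) (nat_lit 1326634609084) (nat_lit 76) (nat_lit 1324314642038) (nat_lit 1) (nat_lit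 4) (nat_lit 2) (nat_lit 5) (nat_lit 2) (nat_lit 4) (nat_lit 531) (nat_lit 386) (nat_lit 283))))))) (XT.nd (nat_lit 54834) (nat_lit 0) (nat_lit 1368) (XT.nd (nat_lit 54366) (nat_lit 0) (nat_lit 2356) (XT.nd (nat_lit 234) (nat_lit 0) (nat_lit 0) (XT.nd (nat_lit 78) (nat_lit 0) (nat_lit 0) (XT.lf (nat_lit 0) (nat_lit 10361356879069) (nat_lit 76) (nat_lit 1417650121365) (nat_lit 76) (nat_lit 1415330092281) (nat_lit 1) (nat_lit 4) (nat_lit 2) (nat_lit 5) (nat_lit 2) (nat_lit 4) (nat_lit 532) (nat_lit 386) (nat_lit 282)) (XT.nd (nat_lit 78) (nat_lit 0) (nat_lit 0) (XT.lf (nat_lit 0) (nat_lit 11219189205286) (nat_lit 76) (nat_lit 1515947642706) (nat_lit 76) (nat_lit 1513627556179) (nat_lit 1) (nat_lit 4) (nat_lit 2) (nat_lit 5) (nat_lit 2) (nat_lit 4) (nat_lit 533) (nat_lit 386) (nat_lit 281)) (XT.lf (nat_lit 0) (nat_lit 12145646739722) (nat_lit 76) (nat_lit 1622109676938) (nat_lit 76) (nat_lit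 1619789537223) (nat_lit 1) (nat_lit 4) (nat_lit 2) (nat_lit 5) (nat_lit 2) (nat_lit 4) (nat_lit 534) (nat_lit 386) (nat_lit 280)))) (XT.nd (nat_lit 53976) (nat_lit 0) (nat_lit 3040) (XT.lf (nat_lit 0) (nat_lit 13146219601100) (nat_lit 76) (nat_lit 1736765332411) (nat_lit 76) (nat_lit 1734445143448) (nat_lit 1) (nat_lit 4) (nat_lit 2) (nat_lit 5) (nat_lit 2) (nat_lit 4) (nat_lit 535) (nat_lit 386) (nat_lit 279)) (XT.nd (nat_lit 78) (nat_lit 0) (nat_lit 0) (XT.lf (nat_lit 0) (nat_lit 219247654) (nat_lit 152) (nat_lit 5325656588) (nat_lit 0) (nat_lit 219247654) (nat_lit 41) (nat_lit 5) (nat_lit 43) (nat_lit 4) (nat_lit 41) (nat_lit 4) (nat_lit 426) (nat_lit 387) (nat_lit 387)) (XT.lf (nat_lit 0) (nat_lit 6096722670) (nat_lit 152) (nat_lit 268067901) (nat_lit 0) (nat_lit 5591785458) (nat_lit 41) (nat_lit 5) (nat_lit 43) (nat_lit 4) (nat_lit 41) (nat_lit 4) (nat_lit 427) (nat_lit 387) (nat_lit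 386))))) (XT.nd (nat_lit 234) (nat_lit 380) (nat_lit 0) (XT.nd (nat_lit 78) (nat_lit 228) (nat_lit 0) (XT.lf (nat_lit 0) (nat_lit 10945569803) (nat_lit 76) (nat_lit 1224519243) (nat_lit 76) (nat_lit 252047577) (nat_lit 40) (nat_lit 4) (nat_lit 41) (nat_lit 5) (nat_lit 41) (nat_lit 4) (nat_lit 428) (nat_lit 387) (nat_lit 385)) (XT.nd (nat_lit 78) (nat_lit 76) (nat_lit 0) (XT.lf (nat_lit 0) (nat_lit 5570139827) (nat_lit 152) (nat_lit 3070299134) (nat_lit 0) (nat_lit 4268867661) (nat_lit 38) (nat_lit 5) (nat_lit 40) (nat_lit 4) (nat_lit 38) (nat_lit 4) (nat_lit 429) (nat_lit 387) (nat_lit 384)) (XT.lf (nat_lit 0) (nat_lit 8546660056) (nat_lit 76) (nat_lit 3281023272) (nat_lit 76) (nat_lit 1608607182) (nat_lit 37) (nat_lit 4) (nat_lit 38) (nat_lit 5) (nat_lit 38) (nat_lit 4) (nat_lit 430) (nat_lit 387) (nat_lit 383)))) (XT.nd (nat_lit 78) (nat_lit 228) (nat_lit 0) (XT.lf (nat_lit 0) (nat_lit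 4373898022) (nat_lit 152) (nat_lit 7113760462) (nat_lit 0) (nat_lit 2507168510) (nat_lit 35) (nat_lit 5) (nat_lit 37) (nat_lit 4) (nat_lit 35) (nat_lit 4) (nat_lit 431) (nat_lit 387) (nat_lit 382)) (XT.nd (nat_lit 78) (nat_lit 152) (nat_lit 0) (XT.lf (nat_lit 0) (nat_lit 4838484858) (nat_lit 76) (nat_lit 5956903492) (nat_lit 76) (nat_lit 3795547968) (nat_lit 34) (nat_lit 4) (nat_lit 35) (nat_lit 5) (nat_lit 35) (nat_lit 4) (nat_lit 432) (nat_lit 387) (nat_lit 381)) (XT.lf (nat_lit 0) (nat_lit 2340925752) (nat_lit 152) (nat_lit 12804350567) (nat_lit 0) (nat_lit 87076318) (nat_lit 32) (nat_lit 5) (nat_lit 34) (nat_lit 4) (nat_lit 32) (nat_lit 4) (nat_lit 433) (nat_lit 387) (nat_lit 380)))))) (XT.nd (nat_lit 468) (nat_lit 532) (nat_lit 0) (XT.nd (nat_lit 234) (nat_lit 228) (nat_lit 0) (XT.nd (nat_lit 78) (nat_lit 228) (nat_lit 0) (XT.lf (nat_lit 0) (nat_lit 8903367184) (nat_lit 152) (nat_lit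 586997994) (nat_lit 0) (nat_lit 6415634121) (nat_lit 32) (nat_lit 5) (nat_lit 34) (nat_lit 4) (nat_lit 32) (nat_lit 4) (nat_lit 434) (nat_lit 387) (nat_lit 379)) (XT.nd (nat_lit 78) (nat_lit 152) (nat_lit 0) (XT.lf (nat_lit 0) (nat_lit 12725301172) (nat_lit 76) (nat_lit 3304702077) (nat_lit 76) (nat_lit 600410100) (nat_lit 31) (nat_lit 4) (nat_lit 32) (nat_lit 5) (nat_lit 32) (nat_lit 4) (nat_lit 435) (nat_lit 387) (nat_lit 378)) (XT.lf (nat_lit 0) (nat_lit 6063195449) (nat_lit 152) (nat_lit 7958685292) (nat_lit 0) (nat_lit 3373557031) (nat_lit 29) (nat_lit 5) (nat_lit 31) (nat_lit 4) (nat_lit 29) (nat_lit 4) (nat_lit 436) (nat_lit 387) (nat_lit 377)))) (XT.nd (nat_lit 78) (nat_lit 152) (nat_lit 0) (XT.lf (nat_lit 0) (nat_lit 5504646843) (nat_lit 76) (nat_lit 7786131330) (nat_lit 76) (nat_lit 4924581463) (nat_lit 28) (nat_lit 4) (nat_lit 29) (nat_lit 5) (nat_lit 29) (nat_lit 4) (nat_lit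 437) (nat_lit 387) (nat_lit 376)) (XT.nd (nat_lit 78) (nat_lit 0) (nat_lit 0) (XT.lf (nat_lit 0) (nat_lit 882556351) (nat_lit 76) (nat_lit 994022247) (nat_lit 152) (nat_lit 17222007315) (nat_lit 26) (nat_lit 5) (nat_lit 27) (nat_lit 5) (nat_lit 28) (nat_lit 4) (nat_lit 438) (nat_lit 387) (nat_lit 375)) (XT.lf (nat_lit 0) (nat_lit 9202312228) (nat_lit 152) (nat_lit 4551335783) (nat_lit 0) (nat_lit 6268873808) (nat_lit 26) (nat_lit 5) (nat_lit 28) (nat_lit 4) (nat_lit 26) (nat_lit 4) (nat_lit 439) (nat_lit 387) (nat_lit 374))))) (XT.nd (nat_lit 234) (nat_lit 304) (nat_lit 0) (XT.nd (nat_lit 78) (nat_lit 152) (nat_lit 0) (XT.lf (nat_lit 0) (nat_lit 10206688637) (nat_lit 76) (nat_lit 6935616572) (nat_lit 76) (nat_lit 3875818106) (nat_lit 25) (nat_lit 4) (nat_lit 26) (nat_lit 5) (nat_lit 26) (nat_lit 4) (nat_lit 440) (nat_lit 387) (nat_lit 373)) (XT.nd (nat_lit 78) (nat_lit 0) (nat_lit 0) (XT.lf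 (nat_lit 0) (nat_lit 3435232412) (nat_lit 152) (nat_lit 18158029099) (nat_lit 0) (nat_lit 493752311) (nat_lit 23) (nat_lit 5) (nat_lit 25) (nat_lit 4) (nat_lit 23) (nat_lit 4) (nat_lit 441) (nat_lit 387) (nat_lit 372)) (XT.lf (nat_lit 0) (nat_lit 11363511942) (nat_lit 152) (nat_lit 3528793005) (nat_lit 0) (nat_lit 8321723161) (nat_lit 23) (nat_lit 5) (nat_lit 25) (nat_lit 4) (nat_lit 23) (nat_lit 4) (nat_lit 442) (nat_lit 387) (nat_lit 371)))) (XT.nd (nat_lit 156) (nat_lit 76) (nat_lit 0) (XT.nd (nat_lit 78) (nat_lit 152) (nat_lit 0) (XT.lf (nat_lit 0) (nat_lit 12443219251) (nat_lit 76) (nat_lit 7558309240) (nat_lit 76) (nat_lit 4423642052) (nat_lit 22) (nat_lit 4) (nat_lit 23) (nat_lit 5) (nat_lit 23) (nat_lit 4) (nat_lit 443) (nat_lit 387) (nat_lit 370)) (XT.lf (nat_lit 0) (nat_lit 3395327122) (nat_lit 152) (nat_lit 21919498844) (nat_lit 0) (nat_lit 413229241) (nat_lit 20) (nat_lit 5)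 (nat_lit 22) (nat_lit 4) (nat_lit 20) (nat_lit 4) (nat_lit 444) (nat_lit 387) (nat_lit 369))) (XT.nd (nat_lit 78) (nat_lit 76) (nat_lit 0) (XT.lf (nat_lit 0) (nat_lit 11910504013) (nat_lit 152) (nat_lit 6336027800) (nat_lit 0) (nat_lit 8854676257) (nat_lit 20) (nat_lit 5) (nat_lit 22) (nat_lit 4) (nat_lit 20) (nat_lit 4) (nat_lit 445) (nat_lit 387) (nat_lit 368)) (XT.lf (nat_lit 0) (nat_lit 10607076335) (nat_lit 76) (nat_lit 10548664490) (nat_lit 76) (nat_lit 7424568333) (nat_lit 19) (nat_lit 4) (nat_lit 20) (nat_lit 5) (nat_lit 20) (nat_lit 4) (nat_lit 446) (nat_lit 387) (nat_lit 367))))))))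
noncomputable def xc61 : XT := (XT.nd (nat_lit 1950) (nat_lit 304) (nat_lit 0) (XT.nd (nat_lit 936) (nat_lit 380) (nat_lit 0) (XT.nd (nat_lit 468) (nat_lit 304) (nat_lit 0) (XT.nd (nat_lit 234) (nat_lit 152) (nat_lit 0) (XT.nd (nat_lit 78) (nat_lit 152) (nat_lit 0) (XT.lf (nat_lit 0) (nat_lit 886445333) (nat_lit 152) (nat_lit 1343501347) (nat_lit 76) (nat_lit 27948201995) (nat_lit 18) (nat_lit 5) (nat_lit 20) (nat_lit 5) (nat_lit 19) (nat_lit 4) (nat_lit 447) (nat_lit 387) (nat_lit 366)) (XT.nd (nat_lit 78) (nat_lit 76) (nat_lit 0) (XT.lf (nat_lit 0) (nat_lit 9849763529) (nat_lit 152) (nat_lit 15163184522) (nat_lit 0) (nat_lit 6844359093) (nat_lit 17) (nat_lit 5) (nat_lit 19) (nat_lit 4) (nat_lit 17) (nat_lit 4) (nat_lit 448) (nat_lit 387) (nat_lit 365)) (XT.lf (nat_lit 0) (nat_lit 2249533008) (nat_lit 76) (nat_lit 17240048487) (nat_lit 76) (nat_lit 14184464738) (nat_lit 16) (nat_lit 4)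 (nat_lit 17) (nat_lit 5) (nat_lit 17) (nat_lit 4) (nat_lit 449) (nat_lit 387) (nat_lit 364)))) (XT.nd (nat_lit 78) (nat_lit 152) (nat_lit 0) (XT.lf (nat_lit 0) (nat_lit 21539993979) (nat_lit 76) (nat_lit 8589916495) (nat_lit 76) (nat_lit 5487870419) (nat_lit 16) (nat_lit 4) (nat_lit 17) (nat_lit 5) (nat_lit 17) (nat_lit 4) (nat_lit 450) (nat_lit 387) (nat_lit 363)) (XT.nd (nat_lit 78) (nat_lit 0) (nat_lit 0) (XT.lf (nat_lit 0) (nat_lit 3658459646) (nat_lit 152) (nat_lit 33308737864) (nat_lit 0) (nat_lit 746360803) (nat_lit 14) (nat_lit 5) (nat_lit 16) (nat_lit 4) (nat_lit 14) (nat_lit 4) (nat_lit 451) (nat_lit 387) (nat_lit 362)) (XT.lf (nat_lit 0) (nat_lit 13682366853) (nat_lit 152) (nat_lit 15514456301) (nat_lit 0) (nat_lit 10733384718) (nat_lit 14) (nat_lit 5) (nat_lit 16) (nat_lit 4) (nat_lit 14) (nat_lit 4) (nat_lit 452) (nat_lit 387) (nat_lit 361))))) (XT.nd (nat_lit 234) (nat_lit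 152) (nat_lit 0) (XT.nd (nat_lit 78) (nat_lit 76) (nat_lit 0) (XT.lf (nat_lit 0) (nat_lit 3548226074) (nat_lit 76) (nat_lit 20882641986) (nat_lit 76) (nat_lit 17899508653) (nat_lit 13) (nat_lit 4) (nat_lit 14) (nat_lit 5) (nat_lit 14) (nat_lit 4) (nat_lit 453) (nat_lit 387) (nat_lit 360)) (XT.nd (nat_lit 78) (nat_lit 76) (nat_lit 0) (XT.lf (nat_lit 0) (nat_lit 24694026792) (nat_lit 76) (nat_lit 11611012779) (nat_lit 76) (nat_lit 8596257967) (nat_lit 13) (nat_lit 4) (nat_lit 14) (nat_lit 5) (nat_lit 14) (nat_lit 4) (nat_lit 454) (nat_lit 387) (nat_lit 359)) (XT.lf (nat_lit 0) (nat_lit 1228175155) (nat_lit 152) (nat_lit 489429634) (nat_lit 76) (nat_lit 45969534884) (nat_lit 12) (nat_lit 5) (nat_lit 14) (nat_lit 5) (nat_lit 13) (nat_lit 4) (nat_lit 455) (nat_lit 387) (nat_lit 358)))) (XT.nd (nat_lit 78) (nat_lit 76) (nat_lit 0) (XT.lf (nat_lit 0) (nat_lit 11979961905) (nat_lit 152) (nat_lit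 29513250858) (nat_lit 0) (nat_lit 9136309794) (nat_lit 11) (nat_lit 5) (nat_lit 13) (nat_lit 4) (nat_lit 11) (nat_lit 4) (nat_lit 456) (nat_lit 387) (nat_lit 357)) (XT.nd (nat_lit 78) (nat_lit 76) (nat_lit 0) (XT.lf (nat_lit 0) (nat_lit 23511109708) (nat_lit 152) (nat_lit 9658435294) (nat_lit 0) (nat_lit 20644214865) (nat_lit 11) (nat_lit 5) (nat_lit 13) (nat_lit 4) (nat_lit 11) (nat_lit 4) (nat_lit 457) (nat_lit 387) (nat_lit 356)) (XT.lf (nat_lit 0) (nat_lit 12127046029) (nat_lit 76) (nat_lit 24000540114) (nat_lit 76) (nat_lit 21112124224) (nat_lit 10) (nat_lit 4) (nat_lit 11) (nat_lit 5) (nat_lit 11) (nat_lit 4) (nat_lit 458) (nat_lit 387) (nat_lit 355)))))) (XT.nd (nat_lit 468) (nat_lit 152) (nat_lit 0) (XT.nd (nat_lit 234) (nat_lit 76) (nat_lit 0) (XT.nd (nat_lit 78) (nat_lit 152) (nat_lit 0) (XT.lf (nat_lit 0) (nat_lit 35946978935) (nat_lit 76) (nat_lit 13945006716) (nat_lit 76) (nat_lit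 11036663930) (nat_lit 10) (nat_lit 4) (nat_lit 11) (nat_lit 5) (nat_lit 11) (nat_lit 4) (nat_lit 459) (nat_lit 387) (nat_lit 354)) (XT.nd (nat_lit 78) (nat_lit 152) (nat_lit 0) (XT.lf (nat_lit 0) (nat_lit 61433922495) (nat_lit 76) (nat_lit 3207435197) (nat_lit 76) (nat_lit 280641582) (nat_lit 10) (nat_lit 4) (nat_lit 11) (nat_lit 5) (nat_lit 11) (nat_lit 4) (nat_lit 460) (nat_lit 387) (nat_lit 353)) (XT.lf (nat_lit 0) (nat_lit 11363837841) (nat_lit 152) (nat_lit 49163541304) (nat_lit 0) (nat_lit 8638025141) (nat_lit 8) (nat_lit 5) (nat_lit 10) (nat_lit 4) (nat_lit 8) (nat_lit 4) (nat_lit 461) (nat_lit 387) (nat_lit 352)))) (XT.nd (nat_lit 78) (nat_lit 76) (nat_lit 0) (XT.lf (nat_lit 0) (nat_lit 23995634181) (nat_lit 152) (nat_lit 28491216892) (nat_lit 0) (nat_lit 21255174618) (nat_lit 8) (nat_lit 5) (nat_lit 10) (nat_lit 4) (nat_lit 8) (nat_lit 4) (nat_lit 462) (nat_lit 387) (nat_lit 351))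 (XT.nd (nat_lit 78) (nat_lit 76) (nat_lit 0) (XT.lf (nat_lit 0) (nat_lit 37535903065) (nat_lit 152) (nat_lit 6375158572) (nat_lit 0) (nat_lit 34781881591) (nat_lit 8) (nat_lit 5) (nat_lit 10) (nat_lit 4) (nat_lit 8) (nat_lit 4) (nat_lit 463) (nat_lit 387) (nat_lit 350)) (XT.lf (nat_lit 0) (nat_lit 18227505420) (nat_lit 76) (nat_lit 34275749645) (nat_lit 76) (nat_lit 31509170847) (nat_lit 7) (nat_lit 4) (nat_lit 8) (nat_lit 5) (nat_lit 8) (nat_lit 4) (nat_lit 464) (nat_lit 387) (nat_lit 349))))) (XT.nd (nat_lit 234) (nat_lit 0) (nat_lit 0) (XT.nd (nat_lit 78) (nat_lit 152) (nat_lit 0) (XT.lf (nat_lit 0) (nat_lit 44971374679) (nat_lit 76) (nat_lit 23778859976) (nat_lit 76) (nat_lit 21000654025) (nat_lit 7) (nat_lit 4) (nat_lit 8) (nat_lit 5) (nat_lit 8) (nat_lit 4) (nat_lit 465) (nat_lit 387) (nat_lit 348)) (XT.nd (nat_lit 78) (nat_lit 152) (nat_lit 0) (XT.lf (nat_lit 0) (nat_lit 73679226840)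 (nat_lit 76) (nat_lit 12532496971) (nat_lit 76) (nat_lit 9743525139) (nat_lit 7) (nat_lit 4) (nat_lit 8) (nat_lit 5) (nat_lit 8) (nat_lit 4) (nat_lit 466) (nat_lit 387) (nat_lit 347)) (XT.lf (nat_lit 0) (nat_lit 1897835949) (nat_lit 76) (nat_lit 360229527) (nat_lit 152) (nat_lit 100396075531) (nat_lit 5) (nat_lit 5) (nat_lit 6) (nat_lit 5) (nat_lit 7) (nat_lit 4) (nat_lit 467) (nat_lit 387) (nat_lit 346)))) (XT.nd (nat_lit 156) (nat_lit 0) (nat_lit 0) (XT.nd (nat_lit 78) (nat_lit 0) (nat_lit 0) (XT.lf (nat_lit 0) (nat_lit 15544856994) (nat_lit 152) (nat_lit 81311024081) (nat_lit 0) (nat_lit 12944699356) (nat_lit 5) (nat_lit 5) (nat_lit 7) (nat_lit 4) (nat_lit 5) (nat_lit 4) (nat_lit 468) (nat_lit 387) (nat_lit 345)) (XT.lf (nat_lit 0) (nat_lit 29829033643) (nat_lit 152) (nat_lit 60473983686) (nat_lit 0) (nat_lit 27220962760) (nat_lit 5) (nat_lit 5) (nat_lit 7) (nat_lit 4) (nat_lit 5) (nat_lit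 4) (nat_lit 469) (nat_lit 387) (nat_lit 344))) (XT.nd (nat_lit 78) (nat_lit 0) (nat_lit 0) (XT.lf (nat_lit 0) (nat_lit 45186578865) (nat_lit 152) (nat_lit 38113041588) (nat_lit 0) (nat_lit 42571180904) (nat_lit 5) (nat_lit 5) (nat_lit 7) (nat_lit 4) (nat_lit 5) (nat_lit 4) (nat_lit 470) (nat_lit 387) (nat_lit 343)) (XT.lf (nat_lit 0) (nat_lit 61708500337) (nat_lit 152) (nat_lit 14095688499) (nat_lit 0) (nat_lit 59086318044) (nat_lit 5) (nat_lit 5) (nat_lit 7) (nat_lit 4) (nat_lit 5) (nat_lit 4) (nat_lit 471) (nat_lit 387) (nat_lit 342))))))) (XT.nd (nat_lit 936) (nat_lit 76) (nat_lit 0) (XT.nd (nat_lit 468) (nat_lit 152) (nat_lit 0) (XT.nd (nat_lit 234) (nat_lit 0) (nat_lit 0) (XT.nd (nat_lit 78) (nat_lit 0) (nat_lit 0) (XT.lf (nat_lit 0) (nat_lit 12337576161) (nat_lit 76) (nat_lit 67451848582) (nat_lit 76) (nat_lit 64823384501) (nat_lit 4) (nat_lit 4) (nat_lit 5) (nat_lit 5) (nat_lit 5)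 (nat_lit 4) (nat_lit 472) (nat_lit 387) (nat_lit 341)) (XT.nd (nat_lit 78) (nat_lit 0) (nat_lit 0) (XT.lf (nat_lit 0) (nat_lit 41567589208) (nat_lit 76) (nat_lit 58076695271) (nat_lit 76) (nat_lit 55442414719) (nat_lit 4) (nat_lit 4) (nat_lit 5) (nat_lit 5) (nat_lit 5) (nat_lit 4) (nat_lit 473) (nat_lit 387) (nat_lit 340)) (XT.lf (nat_lit 0) (nat_lit 73025311556) (nat_lit 76) (nat_lit 48008573543) (nat_lit 76) (nat_lit 45368907369) (nat_lit 4) (nat_lit 4) (nat_lit 5) (nat_lit 5) (nat_lit 5) (nat_lit 4) (nat_lit 474) (nat_lit 387) (nat_lit 339)))) (XT.nd (nat_lit 78) (nat_lit 0) (nat_lit 0) (XT.lf (nat_lit 0) (nat_lit 106897159337) (nat_lit 76) (nat_lit 37187820454) (nat_lit 76) (nat_lit 34543167594) (nat_lit 4) (nat_lit 4) (nat_lit 5) (nat_lit 5) (nat_lit 5) (nat_lit 4) (nat_lit 475) (nat_lit 387) (nat_lit 338)) (XT.nd (nat_lit 78) (nat_lit 0) (nat_lit 0) (XT.lf (nat_lit 0) (nat_lit 143383854612)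 (nat_lit 76) (nat_lit 25550313023) (nat_lit 76) (nat_lit 22901042862) (nat_lit 4) (nat_lit 4) (nat_lit 5) (nat_lit 5) (nat_lit 5) (nat_lit 4) (nat_lit 476) (nat_lit 387) (nat_lit 337)) (XT.lf (nat_lit 0) (nat_lit 182701614835) (nat_lit 76) (nat_lit 13027088244) (nat_lit 76) (nat_lit 10373542802) (nat_lit 4) (nat_lit 4) (nat_lit 5) (nat_lit 5) (nat_lit 5) (nat_lit 4) (nat_lit 477) (nat_lit 387) (nat_lit 336))))) (XT.nd (nat_lit 234) (nat_lit 0) (nat_lit 0) (XT.nd (nat_lit 78) (nat_lit 0) (nat_lit 0) (XT.lf (nat_lit 0) (nat_lit 3061502443) (nat_lit 152) (nat_lit 217837160520) (nat_lit 0) (nat_lit 600850560) (nat_lit 2) (nat_lit 5) (nat_lit 4) (nat_lit 4) (nat_lit 2) (nat_lit 4) (nat_lit 478) (nat_lit 387) (nat_lit 335)) (XT.nd (nat_lit 78) (nat_lit 0) (nat_lit 0) (XT.lf (nat_lit 0) (nat_lit 17965283046) (nat_lit 152) (nat_lit 204564137192) (nat_lit 0) (nat_lit 15501237308) (nat_lit 2) (nat_lit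 5) (nat_lit 4) (nat_lit 4) (nat_lit 2) (nat_lit 4) (nat_lit 479) (nat_lit 387) (nat_lit 334)) (XT.lf (nat_lit 0) (nat_lit 34023933946) (nat_lit 152) (nat_lit 190306608136) (nat_lit 0) (nat_lit 31556745749) (nat_lit 2) (nat_lit 5) (nat_lit 4) (nat_lit 4) (nat_lit 2) (nat_lit 4) (nat_lit 480) (nat_lit 387) (nat_lit 333)))) (XT.nd (nat_lit 78) (nat_lit 0) (nat_lit 0) (XT.lf (nat_lit 0) (nat_lit 51332617517) (nat_lit 152) (nat_lit 174980084293) (nat_lit 0) (nat_lit 48862519637) (nat_lit 2) (nat_lit 5) (nat_lit 4) (nat_lit 4) (nat_lit 2) (nat_lit 4) (nat_lit 481) (nat_lit 387) (nat_lit 332)) (XT.nd (nat_lit 78) (nat_lit 0) (nat_lit 0) (XT.lf (nat_lit 0) (nat_lit 69993903737) (nat_lit 152) (nat_lit 158493741816) (nat_lit 0) (nat_lit 67521111706) (nat_lit 2) (nat_lit 5) (nat_lit 4) (nat_lit 4) (nat_lit 2) (nat_lit 4) (nat_lit 482) (nat_lit 387) (nat_lit 331)) (XT.lf (nat_lit 0) (nat_lit 90118378006)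 (nat_lit 152) (nat_lit 140749883862) (nat_lit 0) (nat_lit 87643091390) (nat_lit 2) (nat_lit 5) (nat_lit 4) (nat_lit 4) (nat_lit 2) (nat_lit 4) (nat_lit 483) (nat_lit 387) (nat_lit 330)))))) (XT.nd (nat_lit 468) (nat_lit 76) (nat_lit 0) (XT.nd (nat_lit 234) (nat_lit 0) (nat_lit 0) (XT.nd (nat_lit 78) (nat_lit 0) (nat_lit 0) (XT.lf (nat_lit 0) (nat_lit 111825296467) (nat_lit 152) (nat_lit 121643361643) (nat_lit 0) (nat_lit 109347700050) (nat_lit 2) (nat_lit 5) (nat_lit 4) (nat_lit 4) (nat_lit 2) (nat_lit 4) (nat_lit 484) (nat_lit 387) (nat_lit 329)) (XT.nd (nat_lit 78) (nat_lit 0) (nat_lit 0) (XT.lf (nat_lit 0) (nat_lit 135243292711) (nat_lit 152) (nat_lit 101060951323) (nat_lit 0) (nat_lit 132763557591) (nat_lit 2) (nat_lit 5) (nat_lit 4) (nat_lit 4) (nat_lit 2) (nat_lit 4) (nat_lit 485) (nat_lit 387) (nat_lit 328)) (XT.lf (nat_lit 0) (nat_lit 160511140050) (nat_lit 152) (nat_lit 78880683064)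 (nat_lit 0) (nat_lit 158029424647) (nat_lit 2) (nat_lit 5) (nat_lit 4) (nat_lit 4) (nat_lit 2) (nat_lit 4) (nat_lit 486) (nat_lit 387) (nat_lit 327)))) (XT.nd (nat_lit 78) (nat_lit 0) (nat_lit 0) (XT.lf (nat_lit 0) (nat_lit 187778573875) (nat_lit 152) (nat_lit 54971118238) (nat_lit 0) (nat_lit 185295024878) (nat_lit 2) (nat_lit 5) (nat_lit 4) (nat_lit 4) (nat_lit 2) (nat_lit 4) (nat_lit 487) (nat_lit 387) (nat_lit 326)) (XT.nd (nat_lit 78) (nat_lit 0) (nat_lit 0) (XT.lf (nat_lit 0) (nat_lit 217207178978) (nat_lit 152) (nat_lit 29190570537) (nat_lit 0) (nat_lit 214721932209) (nat_lit 2) (nat_lit 5) (nat_lit 4) (nat_lit 4) (nat_lit 2) (nat_lit 4) (nat_lit 488) (nat_lit 387) (nat_lit 325)) (XT.lf (nat_lit 0) (nat_lit 248971347095) (nat_lit 152) (nat_lit 1386266342) (nat_lit 0) (nat_lit 246484528314) (nat_lit 2) (nat_lit 5) (nat_lit 4) (nat_lit 4) (nat_lit 2) (nat_lit 4) (nat_lit 489) (nat_lit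 387) (nat_lit 324))))) (XT.nd (nat_lit 234) (nat_lit 0) (nat_lit 0) (XT.nd (nat_lit 78) (nat_lit 0) (nat_lit 0) (XT.lf (nat_lit 0) (nat_lit 30112931376) (nat_lit 76) (nat_lit 253870595679) (nat_lit 76) (nat_lit 251382321332) (nat_lit 1) (nat_lit 4) (nat_lit 2) (nat_lit 5) (nat_lit 2) (nat_lit 4) (nat_lit 490) (nat_lit 387) (nat_lit 323)) (XT.nd (nat_lit 78) (nat_lit 0) (nat_lit 0) (XT.lf (nat_lit 0) (nat_lit 64175988388) (nat_lit 76) (nat_lit 257641702295) (nat_lit 76) (nat_lit 255152080202) (nat_lit 1) (nat_lit 4) (nat_lit 2) (nat_lit 5) (nat_lit 2) (nat_lit 4) (nat_lit 491) (nat_lit 387) (nat_lit 322)) (XT.lf (nat_lit 0) (nat_lit 100931761516) (nat_lit 76) (nat_lit 261731183563) (nat_lit 76) (nat_lit 259240313556) (nat_lit 1) (nat_lit 4) (nat_lit 2) (nat_lit 5) (nat_lit 2) (nat_lit 4) (nat_lit 492) (nat_lit 387) (nat_lit 321)))) (XT.nd (nat_lit 156) (nat_lit 0) (nat_lit 0) (XT.nd (nat_lit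 78) (nat_lit 0) (nat_lit 0) (XT.lf (nat_lit 0) (nat_lit 140598062749) (nat_lit 76) (nat_lit 266163273446) (nat_lit 76) (nat_lit 263671247963) (nat_lit 1) (nat_lit 4) (nat_lit 2) (nat_lit 5) (nat_lit 2) (nat_lit 4) (nat_lit 493) (nat_lit 387) (nat_lit 320)) (XT.lf (nat_lit 0) (nat_lit 183409951650) (nat_lit 76) (nat_lit 270964236179) (nat_lit 76) (nat_lit 268471140812) (nat_lit 1) (nat_lit 4) (nat_lit 2) (nat_lit 5) (nat_lit 2) (nat_lit 4) (nat_lit 494) (nat_lit 387) (nat_lit 319))) (XT.nd (nat_lit 78) (nat_lit 0) (nat_lit 0) (XT.lf (nat_lit 0) (nat_lit 229621128301) (nat_lit 76) (nat_lit 276162521913) (nat_lit 76) (nat_lit 273668435912) (nat_lit 1) (nat_lit 4) (nat_lit 2) (nat_lit 5) (nat_lit 2) (nat_lit 4) (nat_lit 495) (nat_lit 387) (nat_lit 318)) (XT.lf (nat_lit 0) (nat_lit 279505436713) (nat_lit 76) (nat_lit 281788935303) (nat_lit 76) (nat_lit 279293932049) (nat_lit 1) (nat_lit 4) (nat_lit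 2) (nat_lit 5) (nat_lit 2) (nat_lit 4) (nat_lit 496) (nat_lit 387) (nat_lit 317))))))))
noncomputable def xc62 : XT := (XT.nd (nat_lit 1950) (nat_lit 0) (nat_lit 0) (XT.nd (nat_lit 936) (nat_lit 0) (nat_lit 0) (XT.nd (nat_lit 468) (nat_lit 0) (nat_lit 0) (XT.nd (nat_lit 234) (nat_lit 0) (nat_lit 0) (XT.nd (nat_lit 78) (nat_lit 0) (nat_lit 0) (XT.lf (nat_lit 0) (nat_lit 333358487602) (nat_lit 76) (nat_lit 287876818059) (nat_lit 76) (nat_lit 285380965496) (nat_lit 1) (nat_lit 4) (nat_lit 2) (nat_lit 5) (nat_lit 2) (nat_lit 4) (nat_lit 497) (nat_lit 387) (nat_lit 316)) (XT.nd (nat_lit 78) (nat_lit 0) (nat_lit 0) (XT.lf (nat_lit 0) (nat_lit 391499410157) (nat_lit 76) (nat_lit 294462246524) (nat_lit 76) (nat_lit 291965607563) (nat_lit 1) (nat_lit 4) (nat_lit 2) (nat_lit 5) (nat_lit 2) (nat_lit 4) (nat_lit 498) (nat_lit 387) (nat_lit 315)) (XT.lf (nat_lit 0) (nat_lit 454272743180) (nat_lit 76)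 (nat_lit 301584245457) (nat_lit 76) (nat_lit 299086878351) (nat_lit 1) (nat_lit 4) (nat_lit 2) (nat_lit 5) (nat_lit 2) (nat_lit 4) (nat_lit 499) (nat_lit 387) (nat_lit 314)))) (XT.nd (nat_lit 78) (nat_lit 0) (nat_lit 0) (XT.lf (nat_lit 0) (nat_lit 522050476792) (nat_lit 76) (nat_lit 309285019298) (nat_lit 76) (nat_lit 306786977983) (nat_lit 1) (nat_lit 4) (nat_lit 2) (nat_lit 5) (nat_lit 2) (nat_lit 4) (nat_lit 500) (nat_lit 387) (nat_lit 313)) (XT.nd (nat_lit 78) (nat_lit 0) (nat_lit 0) (XT.lf (nat_lit 0) (nat_lit 595234256822) (nat_lit 76) (nat_lit 317610202261) (nat_lit 76) (nat_lit 315111536679) (nat_lit 1) (nat_lit 4) (nat_lit 2) (nat_lit 5) (nat_lit 2) (nat_lit 4) (nat_lit 501) (nat_lit 387) (nat_lit 312)) (XT.lf (nat_lit 0) (nat_lit 674257764930) (nat_lit 76) (nat_lit 326609128765) (nat_lit 76) (nat_lit 324109885157) (nat_lit 1) (nat_lit 4) (nat_lit 2) (nat_lit 5) (nat_lit 2) (nat_lit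 4) (nat_lit 502) (nat_lit 387) (nat_lit 311))))) (XT.nd (nat_lit 234) (nat_lit 0) (nat_lit 0) (XT.nd (nat_lit 78) (nat_lit 0) (nat_lit 0) (XT.lf (nat_lit 0) (nat_lit 759589288570) (nat_lit 76) (nat_lit 336335125780) (nat_lit 76) (nat_lit 333835346964) (nat_lit 1) (nat_lit 4) (nat_lit 2) (nat_lit 5) (nat_lit 2) (nat_lit 4) (nat_lit 503) (nat_lit 387) (nat_lit 310)) (XT.nd (nat_lit 78) (nat_lit 0) (nat_lit 0) (XT.lf (nat_lit 0) (nat_lit 851734496031) (nat_lit 76) (nat_lit 346845828846) (nat_lit 76) (nat_lit 344345554467) (nat_lit 1) (nat_lit 4) (nat_lit 2) (nat_lit 5) (nat_lit 2) (nat_lit 4) (nat_lit 504) (nat_lit 387) (nat_lit 309)) (XT.lf (nat_lit 0) (nat_lit 951239432987) (nat_lit 76) (nat_lit 358203523610) (nat_lit 76) (nat_lit 355702790375) (nat_lit 1) (nat_lit 4) (nat_lit 2) (nat_lit 5) (nat_lit 2) (nat_lit 4) (nat_lit 505) (nat_lit 387) (nat_lit 308)))) (XT.nd (nat_lit 78) (nat_lit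 0) (nat_lit 0) (XT.lf (nat_lit 0) (nat_lit 1058693758324) (nat_lit 76) (nat_lit 370475514929) (nat_lit 76) (nat_lit 367974356828) (nat_lit 1) (nat_lit 4) (nat_lit 2) (nat_lit 5) (nat_lit 2) (nat_lit 4) (nat_lit 506) (nat_lit 387) (nat_lit 307)) (XT.nd (nat_lit 78) (nat_lit 0) (nat_lit 0) (XT.lf (nat_lit 0) (nat_lit 1174734238413) (nat_lit 76) (nat_lit 383734525715) (nat_lit 76) (nat_lit 381232974220) (nat_lit 1) (nat_lit 4) (nat_lit 2) (nat_lit 5) (nat_lit 2) (nat_lit 4) (nat_lit 507) (nat_lit 387) (nat_lit 306)) (XT.lf (nat_lit 0) (nat_lit 1300048520545) (nat_lit 76) (nat_lit 398059127884) (nat_lit 76) (nat_lit 395557212135) (nat_lit 1) (nat_lit 4) (nat_lit 2) (nat_lit 5) (nat_lit 2) (nat_lit 4) (nat_lit 508) (nat_lit 387) (nat_lit 305)))))) (XT.nd (nat_lit 468) (nat_lit 0) (nat_lit 0) (XT.nd (nat_lit 234) (nat_lit 0) (nat_lit 0) (XT.nd (nat_lit 78) (nat_lit 0) (nat_lit 0) (XT.lf (nat_lit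 0) (nat_lit 1435379207873) (nat_lit 76) (nat_lit 413534207968) (nat_lit 76) (nat_lit 411031954947) (nat_lit 1) (nat_lit 4) (nat_lit 2) (nat_lit 5) (nat_lit 2) (nat_lit 4) (nat_lit 509) (nat_lit 387) (nat_lit 304)) (XT.nd (nat_lit 78) (nat_lit 0) (nat_lit 0) (XT.lf (nat_lit 0) (nat_lit 1581528260025) (nat_lit 76) (nat_lit 430251470144) (nat_lit 76) (nat_lit 427748904834) (nat_lit 1) (nat_lit 4) (nat_lit 2) (nat_lit 5) (nat_lit 2) (nat_lit 4) (nat_lit 510) (nat_lit 387) (nat_lit 303)) (XT.lf (nat_lit 0) (nat_lit 1739361745458) (nat_lit 76) (nat_lit 448309979670) (nat_lit 76) (nat_lit 445807125203) (nat_lit 1) (nat_lit 4) (nat_lit 2) (nat_lit 5) (nat_lit 2) (nat_lit 4) (nat_lit 511) (nat_lit 387) (nat_lit 302)))) (XT.nd (nat_lit 78) (nat_lit 0) (nat_lit 0) (XT.lf (nat_lit 0) (nat_lit 1909814973716) (nat_lit 76) (nat_lit 467816749936) (nat_lit 76) (nat_lit 465313627732) (nat_lit 1) (nat_lit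 4) (nat_lit 2) (nat_lit 5) (nat_lit 2) (nat_lit 4) (nat_lit 512) (nat_lit 387) (nat_lit 301)) (XT.nd (nat_lit 78) (nat_lit 0) (nat_lit 0) (XT.lf (nat_lit 0) (nat_lit 2093898038004) (nat_lit 76) (nat_lit 488887376617) (nat_lit 76) (nat_lit 486384006508) (nat_lit 1) (nat_lit 4) (nat_lit 2) (nat_lit 5) (nat_lit 2) (nat_lit 4) (nat_lit 513) (nat_lit 387) (nat_lit 300)) (XT.lf (nat_lit 0) (nat_lit 2292701800924) (nat_lit 76) (nat_lit 511646722687) (nat_lit 76) (nat_lit 509143123035) (nat_lit 1) (nat_lit 4) (nat_lit 2) (nat_lit 5) (nat_lit 2) (nat_lit 4) (nat_lit 514) (nat_lit 387) (nat_lit 299))))) (XT.nd (nat_lit 234) (nat_lit 0) (nat_lit 0) (XT.nd (nat_lit 78) (nat_lit 0) (nat_lit 0) (XT.lf (nat_lit 0) (nat_lit 2507404358849) (nat_lit 76) (nat_lit 536229658343) (nat_lit 76) (nat_lit 533725846153) (nat_lit 1) (nat_lit 4) (nat_lit 2) (nat_lit 5) (nat_lit 2) (nat_lit 4) (nat_lit 515) (nat_lit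 387) (nat_lit 298)) (XT.nd (nat_lit 78) (nat_lit 0) (nat_lit 0) (XT.lf (nat_lit 0) (nat_lit 2739278023234) (nat_lit 76) (nat_lit 562781860243) (nat_lit 76) (nat_lit 560277851258) (nat_lit 1) (nat_lit 4) (nat_lit 2) (nat_lit 5) (nat_lit 2) (nat_lit 4) (nat_lit 516) (nat_lit 387) (nat_lit 297)) (XT.lf (nat_lit 0) (nat_lit 2989696860238) (nat_lit 76) (nat_lit 591460674767) (nat_lit 76) (nat_lit 588956483564) (nat_lit 1) (nat_lit 4) (nat_lit 2) (nat_lit 5) (nat_lit 2) (nat_lit 4) (nat_lit 517) (nat_lit 387) (nat_lit 296)))) (XT.nd (nat_lit 156) (nat_lit 0) (nat_lit 0) (XT.nd (nat_lit 78) (nat_lit 0) (nat_lit 0) (XT.lf (nat_lit 0) (nat_lit 3260144833340) (nat_lit 76) (nat_lit 622436050447) (nat_lit 76) (nat_lit 619931690524) (nat_lit 1) (nat_lit 4) (nat_lit 2) (nat_lit 5) (nat_lit 2) (nat_lit 4) (nat_lit 518) (nat_lit 387) (nat_lit 295)) (XT.lf (nat_lit 0) (nat_lit 3552224597194) (nat_lit 76)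 (nat_lit 655891545063) (nat_lit 76) (nat_lit 653387028918) (nat_lit 1) (nat_lit 4) (nat_lit 2) (nat_lit 5) (nat_lit 2) (nat_lit 4) (nat_lit 519) (nat_lit 387) (nat_lit 294))) (XT.nd (nat_lit 78) (nat_lit 0) (nat_lit 0) (XT.lf (nat_lit 0) (nat_lit 3867666994847) (nat_lit 76) (nat_lit 692025413399) (nat_lit 76) (nat_lit 689520752603) (nat_lit 1) (nat_lit 4) (nat_lit 2) (nat_lit 5) (nat_lit 2) (nat_lit 4) (nat_lit 520) (nat_lit 387) (nat_lit 293)) (XT.lf (nat_lit 0) (nat_lit 4208341314580) (nat_lit 76) (nat_lit 731051782082) (nat_lit 76) (nat_lit 728546987351) (nat_lit 1) (nat_lit 4) (nat_lit 2) (nat_lit 5) (nat_lit 2) (nat_lit 4) (nat_lit 521) (nat_lit 387) (nat_lit 292))))))) (XT.nd (nat_lit 936) (nat_lit 0) (nat_lit 0) (XT.nd (nat_lit 468) (nat_lit 0) (nat_lit 0) (XT.nd (nat_lit 234) (nat_lit 0) (nat_lit 0) (XT.nd (nat_lit 78) (nat_lit 0) (nat_lit 0) (XT.lf (nat_lit 0) (nat_lit 4576266367177)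 (nat_lit 76) (nat_lit 773201918482) (nat_lit 76) (nat_lit 770696999737) (nat_lit 1) (nat_lit 4) (nat_lit 2) (nat_lit 5) (nat_lit 2) (nat_lit 4) (nat_lit 522) (nat_lit 387) (nat_lit 291)) (XT.nd (nat_lit 78) (nat_lit 0) (nat_lit 0) (XT.lf (nat_lit 0) (nat_lit 4973622449247) (nat_lit 76) (nat_lit 818725601185) (nat_lit 76) (nat_lit 816220567612) (nat_lit 1) (nat_lit 4) (nat_lit 2) (nat_lit 5) (nat_lit 2) (nat_lit 4) (nat_lit 523) (nat_lit 387) (nat_lit 290)) (XT.lf (nat_lit 0) (nat_lit 5402764263497) (nat_lit 76) (nat_lit 867892600163) (nat_lit 76) (nat_lit 865387460267) (nat_lit 1) (nat_lit 4) (nat_lit 2) (nat_lit 5) (nat_lit 2) (nat_lit 4) (nat_lit 524) (nat_lit 387) (nat_lit 289)))) (XT.nd (nat_lit 78) (nat_lit 0) (nat_lit 0) (XT.lf (nat_lit 0) (nat_lit 5866234872530) (nat_lit 76) (nat_lit 920994275409) (nat_lit 76) (nat_lit 918489037067) (nat_lit 1) (nat_lit 4) (nat_lit 2) (nat_lit 5)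 (nat_lit 2) (nat_lit 4) (nat_lit 525) (nat_lit 387) (nat_lit 288)) (XT.nd (nat_lit 78) (nat_lit 0) (nat_lit 0) (XT.lf (nat_lit 0) (nat_lit 6366780768845) (nat_lit 76) (nat_lit 978345303518) (nat_lit 76) (nat_lit 975839974021) (nat_lit 1) (nat_lit 4) (nat_lit 2) (nat_lit 5) (nat_lit 2) (nat_lit 4) (nat_lit 526) (nat_lit 387) (nat_lit 287)) (XT.lf (nat_lit 0) (nat_lit 6907368150346) (nat_lit 76) (nat_lit 1040285542434) (nat_lit 76) (nat_lit 1037780128535) (nat_lit 1) (nat_lit 4) (nat_lit 2) (nat_lit 5) (nat_lit 2) (nat_lit 4) (nat_lit 527) (nat_lit 387) (nat_lit 286))))) (XT.nd (nat_lit 234) (nat_lit 0) (nat_lit 0) (XT.nd (nat_lit 78) (nat_lit 0) (nat_lit 0) (XT.lf (nat_lit 0) (nat_lit 7491200497811) (nat_lit 76) (nat_lit 1107182045424) (nat_lit 76) (nat_lit 1104676553375) (nat_lit 1) (nat_lit 4) (nat_lit 2) (nat_lit 5) (nat_lit 2) (nat_lit 4) (nat_lit 528) (nat_lit 387) (nat_lit 285)) (XT.nd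 (nat_lit 78) (nat_lit 0) (nat_lit 0) (XT.lf (nat_lit 0) (nat_lit 8121737558486) (nat_lit 76) (nat_lit 1179431236211) (nat_lit 76) (nat_lit 1176925671801) (nat_lit 1) (nat_lit 4) (nat_lit 2) (nat_lit 5) (nat_lit 2) (nat_lit 4) (nat_lit 529) (nat_lit 387) (nat_lit 284)) (XT.lf (nat_lit 0) (nat_lit 8802715848285) (nat_lit 76) (nat_lit 1257461258146) (nat_lit 76) (nat_lit 1254955626735) (nat_lit 1) (nat_lit 4) (nat_lit 2) (nat_lit 5) (nat_lit 2) (nat_lit 4) (nat_lit 530) (nat_lit 387) (nat_lit 283)))) (XT.nd (nat_lit 78) (nat_lit 0) (nat_lit 0) (XT.lf (nat_lit 0) (nat_lit 9538170794110) (nat_lit 76) (nat_lit 1341734511360) (nat_lit 76) (nat_lit 1339228817911) (nat_lit 1) (nat_lit 4) (nat_lit 2) (nat_lit 5) (nat_lit 2) (nat_lit 4) (nat_lit 531) (nat_lit 387) (nat_lit 282)) (XT.nd (nat_lit 78) (nat_lit 0) (nat_lit 0) (XT.lf (nat_lit 0) (nat_lit 10332460647493) (nat_lit 76) (nat_lit 1432750392909)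 (nat_lit 76) (nat_lit 1430244642017) (nat_lit 1) (nat_lit 4) (nat_lit 2) (nat_lit 5) (nat_lit 2) (nat_lit 4) (nat_lit 532) (nat_lit 387) (nat_lit 281)) (XT.lf (nat_lit 0) (nat_lit 11190292311269) (nat_lit 76) (nat_lit 1531048256165) (nat_lit 76) (nat_lit 1528542452086) (nat_lit 1) (nat_lit 4) (nat_lit 2) (nat_lit 5) (nat_lit 2) (nat_lit 4) (nat_lit 533) (nat_lit 387) (nat_lit 280)))))) (XT.nd (nat_lit 54210) (nat_lit 0) (nat_lit 2356) (XT.nd (nat_lit 53976) (nat_lit 0) (nat_lit 3040) (XT.nd (nat_lit 78) (nat_lit 0) (nat_lit 0) (XT.lf (nat_lit 0) (nat_lit 12116749232333) (nat_lit 76) (nat_lit 1637210606984) (nat_lit 76) (nat_lit 1634704753657) (nat_lit 1) (nat_lit 4) (nat_lit 2) (nat_lit 5) (nat_lit 2) (nat_lit 4) (nat_lit 534) (nat_lit 387) (nat_lit 279)) (XT.nd (nat_lit 53820) (nat_lit 0) (nat_lit 3344) (XT.lf (nat_lit 0) (nat_lit 13117321525774) (nat_lit 76) (nat_lit 1751866555594) (nat_lit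 76) (nat_lit 1749360656668) (nat_lit 1) (nat_lit 4) (nat_lit 2) (nat_lit 5) (nat_lit 2) (nat_lit 4) (nat_lit 535) (nat_lit 387) (nat_lit 278)) (XT.lf (nat_lit 0) (nat_lit 678550751) (nat_lit 152) (nat_lit 4008129533) (nat_lit 0) (nat_lit 678550751) (nat_lit 45) (nat_lit 5) (nat_lit 47) (nat_lit 4) (nat_lit 45) (nat_lit 4) (nat_lit 424) (nat_lit 388) (nat_lit 388)))) (XT.nd (nat_lit 78) (nat_lit 152) (nat_lit 0) (XT.lf (nat_lit 0) (nat_lit 1705265841) (nat_lit 152) (nat_lit 5000932247) (nat_lit 152) (nat_lit 4411973484) (nat_lit 43) (nat_lit 4) (nat_lit 45) (nat_lit 5) (nat_lit 45) (nat_lit 4) (nat_lit 425) (nat_lit 388) (nat_lit 387)) (XT.nd (nat_lit 78) (nat_lit 0) (nat_lit 0) (XT.lf (nat_lit 0) (nat_lit 598971056) (nat_lit 76) (nat_lit 234327985) (nat_lit 152) (nat_lit 10707060034) (nat_lit 41) (nat_lit 5) (nat_lit 42) (nat_lit 5) (nat_lit 43) (nat_lit 4) (nat_lit 426) (nat_lit 388) (nat_lit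 386)) (XT.lf (nat_lit 0) (nat_lit 6341294468) (nat_lit 152) (nat_lit 815876825) (nat_lit 0) (nat_lit 4823490613) (nat_lit 41) (nat_lit 5) (nat_lit 43) (nat_lit 4) (nat_lit 41) (nat_lit 4) (nat_lit 427) (nat_lit 388) (nat_lit 385))))) (XT.nd (nat_lit 234) (nat_lit 380) (nat_lit 0) (XT.nd (nat_lit 78) (nat_lit 228) (nat_lit 0) (XT.lf (nat_lit 0) (nat_lit 10112212144) (nat_lit 76) (nat_lit 2148520927) (nat_lit 76) (nat_lit 197814799) (nat_lit 40) (nat_lit 4) (nat_lit 41) (nat_lit 5) (nat_lit 41) (nat_lit 4) (nat_lit 428) (nat_lit 388) (nat_lit 384)) (XT.nd (nat_lit 78) (nat_lit 76) (nat_lit 0) (XT.lf (nat_lit 0) (nat_lit 5434742426) (nat_lit 152) (nat_lit 4268444913) (nat_lit 0) (nat_lit 3257389124) (nat_lit 38) (nat_lit 5) (nat_lit 40) (nat_lit 4) (nat_lit 38) (nat_lit 4) (nat_lit 429) (nat_lit 388) (nat_lit 383)) (XT.lf (nat_lit 0) (nat_lit 7026260049) (nat_lit 76) (nat_lit 4497882840) (nat_lit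 76) (nat_lit 1976877756) (nat_lit 37) (nat_lit 4) (nat_lit 38) (nat_lit 5) (nat_lit 38) (nat_lit 4) (nat_lit 430) (nat_lit 388) (nat_lit 382)))) (XT.nd (nat_lit 156) (nat_lit 152) (nat_lit 0) (XT.nd (nat_lit 78) (nat_lit 76) (nat_lit 0) (XT.lf (nat_lit 0) (nat_lit 3813487388) (nat_lit 152) (nat_lit 9079033470) (nat_lit 0) (nat_lit 1184597408) (nat_lit 35) (nat_lit 5) (nat_lit 37) (nat_lit 4) (nat_lit 35) (nat_lit 4) (nat_lit 431) (nat_lit 388) (nat_lit 381)) (XT.lf (nat_lit 0) (nat_lit 2508609308) (nat_lit 76) (nat_lit 7540589723) (nat_lit 76) (nat_lit 4638897879) (nat_lit 34) (nat_lit 4) (nat_lit 35) (nat_lit 5) (nat_lit 35) (nat_lit 4) (nat_lit 432) (nat_lit 388) (nat_lit 380))) (XT.nd (nat_lit 78) (nat_lit 76) (nat_lit 0) (XT.lf (nat_lit 0) (nat_lit 1349881788) (nat_lit 152) (nat_lit 346532042) (nat_lit 76) (nat_lit 13649918577) (nat_lit 33) (nat_lit 5) (nat_lit 35) (nat_lit 5) (nat_lit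 34) (nat_lit 4) (nat_lit 433) (nat_lit 388) (nat_lit 379)) (XT.lf (nat_lit 0) (nat_lit 7734232979) (nat_lit 152) (nat_lit 3702960158) (nat_lit 0) (nat_lit 4597038728) (nat_lit 32) (nat_lit 5) (nat_lit 34) (nat_lit 4) (nat_lit 32) (nat_lit 4) (nat_lit 434) (nat_lit 388) (nat_lit 378))))))))
noncomputable def xc63 : XT := (XT.nd (nat_lit 1950) (nat_lit 608) (nat_lit 0) (XT.nd (nat_lit 936) (nat_lit 684) (nat_lit 0) (XT.nd (nat_lit 468) (nat_lit 456) (nat_lit 0) (XT.nd (nat_lit 234) (nat_lit 228) (nat_lit 0) (XT.nd (nat_lit 78) (nat_lit 228) (nat_lit 0) (XT.lf (nat_lit 0) (nat_lit 9202049716) (nat_lit 76) (nat_lit 5455297440) (nat_lit 76) (nat_lit 2117585675) (nat_lit 31) (nat_lit 4) (nat_lit 32) (nat_lit 5) (nat_lit 32) (nat_lit 4) (nat_lit 435) (nat_lit 388) (nat_lit 377)) (XT.nd (nat_lit 78) (nat_lit 76) (nat_lit 0) (XT.lf (nat_lit 0) (nat_lit 4347790512) (nat_lit 152) (nat_lit 12131614981)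 (nat_lit 0) (nat_lit 1085405207) (nat_lit 29) (nat_lit 5) (nat_lit 31) (nat_lit 4) (nat_lit 29) (nat_lit 4) (nat_lit 436) (nat_lit 388) (nat_lit 376)) (XT.lf (nat_lit 0) (nat_lit 867630412) (nat_lit 76) (nat_lit 10478503966) (nat_lit 76) (nat_lit 7056941393) (nat_lit 28) (nat_lit 4) (nat_lit 29) (nat_lit 5) (nat_lit 29) (nat_lit 4) (nat_lit 437) (nat_lit 388) (nat_lit 375)))) (XT.nd (nat_lit 78) (nat_lit 228) (nat_lit 0) (XT.lf (nat_lit 0) (nat_lit 15126155640) (nat_lit 76) (nat_lit 3871855021) (nat_lit 76) (nat_lit 302906090) (nat_lit 28) (nat_lit 4) (nat_lit 29) (nat_lit 5) (nat_lit 29) (nat_lit 4) (nat_lit 438) (nat_lit 388) (nat_lit 374)) (XT.nd (nat_lit 78) (nat_lit 76) (nat_lit 0) (XT.lf (nat_lit 0) (nat_lit 6743463017) (nat_lit 152) (nat_lit 10193016431) (nat_lit 0) (nat_lit 3312520626) (nat_lit 26) (nat_lit 5) (nat_lit 28) (nat_lit 4) (nat_lit 26) (nat_lit 4) (nat_lit 439) (nat_lit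 388) (nat_lit 373)) (XT.lf (nat_lit 0) (nat_lit 4040841749) (nat_lit 76) (nat_lit 10386112696) (nat_lit 76) (nat_lit 6838170262) (nat_lit 25) (nat_lit 4) (nat_lit 26) (nat_lit 5) (nat_lit 26) (nat_lit 4) (nat_lit 440) (nat_lit 388) (nat_lit 372))))) (XT.nd (nat_lit 234) (nat_lit 228) (nat_lit 0) (XT.nd (nat_lit 78) (nat_lit 152) (nat_lit 0) (XT.lf (nat_lit 0) (nat_lit 405761795) (nat_lit 152) (nat_lit 2812291273) (nat_lit 76) (nat_lit 19138888886) (nat_lit 24) (nat_lit 5) (nat_lit 26) (nat_lit 5) (nat_lit 25) (nat_lit 4) (nat_lit 441) (nat_lit 388) (nat_lit 371)) (XT.nd (nat_lit 78) (nat_lit 76) (nat_lit 0) (XT.lf (nat_lit 0) (nat_lit 8076011570) (nat_lit 152) (nat_lit 10830896842) (nat_lit 0) (nat_lit 4597692601) (nat_lit 23) (nat_lit 5) (nat_lit 25) (nat_lit 4) (nat_lit 23) (nat_lit 4) (nat_lit 442) (nat_lit 388) (nat_lit 370)) (XT.lf (nat_lit 0) (nat_lit 4545719778) (nat_lit 76) (nat_lit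 11878753868) (nat_lit 76) (nat_lit 8314436374) (nat_lit 22) (nat_lit 4) (nat_lit 23) (nat_lit 5) (nat_lit 23) (nat_lit 4) (nat_lit 443) (nat_lit 388) (nat_lit 369)))) (XT.nd (nat_lit 78) (nat_lit 228) (nat_lit 0) (XT.lf (nat_lit 0) (nat_lit 21362289578) (nat_lit 76) (nat_lit 4173031750) (nat_lit 76) (nat_lit 529085992) (nat_lit 22) (nat_lit 4) (nat_lit 23) (nat_lit 5) (nat_lit 23) (nat_lit 4) (nat_lit 444) (nat_lit 388) (nat_lit 368)) (XT.nd (nat_lit 78) (nat_lit 76) (nat_lit 0) (XT.lf (nat_lit 0) (nat_lit 7690902580) (nat_lit 152) (nat_lit 15524799423) (nat_lit 0) (nat_lit 4248610329) (nat_lit 20) (nat_lit 5) (nat_lit 22) (nat_lit 4) (nat_lit 20) (nat_lit 4) (nat_lit 445) (nat_lit 388) (nat_lit 367)) (XT.lf (nat_lit 0) (nat_lit 738728742) (nat_lit 76) (nat_lit 15868261005) (nat_lit 76) (nat_lit 12362757271) (nat_lit 19) (nat_lit 4) (nat_lit 20) (nat_lit 5) (nat_lit 20) (nat_lit 4) (nat_lit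 446) (nat_lit 388) (nat_lit 366)))))) (XT.nd (nat_lit 468) (nat_lit 304) (nat_lit 0) (XT.nd (nat_lit 234) (nat_lit 228) (nat_lit 0) (XT.nd (nat_lit 78) (nat_lit 152) (nat_lit 0) (XT.lf (nat_lit 0) (nat_lit 18809322333) (nat_lit 76) (nat_lit 7665621872) (nat_lit 76) (nat_lit 4101588987) (nat_lit 19) (nat_lit 4) (nat_lit 20) (nat_lit 5) (nat_lit 20) (nat_lit 4) (nat_lit 447) (nat_lit 388) (nat_lit 365)) (XT.nd (nat_lit 78) (nat_lit 0) (nat_lit 0) (XT.lf (nat_lit 0) (nat_lit 4573954860) (nat_lit 152) (nat_lit 26505320656) (nat_lit 0) (nat_lit 1223745097) (nat_lit 17) (nat_lit 5) (nat_lit 19) (nat_lit 4) (nat_lit 17) (nat_lit 4) (nat_lit 448) (nat_lit 388) (nat_lit 364)) (XT.lf (nat_lit 0) (nat_lit 14074969077) (nat_lit 152) (nat_lit 9377599134) (nat_lit 0) (nat_lit 10678296988) (nat_lit 17) (nat_lit 5) (nat_lit 19) (nat_lit 4) (nat_lit 17) (nat_lit 4) (nat_lit 449) (nat_lit 388) (nat_lit 363))))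 (XT.nd (nat_lit 78) (nat_lit 152) (nat_lit 0) (XT.lf (nat_lit 0) (nat_lit 9250955035) (nat_lit 76) (nat_lit 15144464488) (nat_lit 76) (nat_lit 11704771726) (nat_lit 16) (nat_lit 4) (nat_lit 17) (nat_lit 5) (nat_lit 17) (nat_lit 4) (nat_lit 450) (nat_lit 388) (nat_lit 362)) (XT.nd (nat_lit 78) (nat_lit 152) (nat_lit 0) (XT.lf (nat_lit 0) (nat_lit 29579359596) (nat_lit 76) (nat_lit 6059713631) (nat_lit 76) (nat_lit 2580186912) (nat_lit 16) (nat_lit 4) (nat_lit 17) (nat_lit 5) (nat_lit 17) (nat_lit 4) (nat_lit 451) (nat_lit 388) (nat_lit 361)) (XT.lf (nat_lit 0) (nat_lit 7124443636) (nat_lit 152) (nat_lit 29483790633) (nat_lit 0) (nat_lit 3868508439) (nat_lit 14) (nat_lit 5) (nat_lit 16) (nat_lit 4) (nat_lit 14) (nat_lit 4) (nat_lit 452) (nat_lit 388) (nat_lit 360))))) (XT.nd (nat_lit 234) (nat_lit 228) (nat_lit 0) (XT.nd (nat_lit 78) (nat_lit 76) (nat_lit 0) (XT.lf (nat_lit 0) (nat_lit 17715203626)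 (nat_lit 152) (nat_lit 10746681084) (nat_lit 0) (nat_lit 14427646950) (nat_lit 14) (nat_lit 5) (nat_lit 16) (nat_lit 4) (nat_lit 14) (nat_lit 4) (nat_lit 453) (nat_lit 388) (nat_lit 359)) (XT.nd (nat_lit 78) (nat_lit 0) (nat_lit 0) (XT.lf (nat_lit 0) (nat_lit 9688891028) (nat_lit 76) (nat_lit 19557902290) (nat_lit 76) (nat_lit 16241066467) (nat_lit 13) (nat_lit 4) (nat_lit 14) (nat_lit 5) (nat_lit 14) (nat_lit 4) (nat_lit 454) (nat_lit 388) (nat_lit 358)) (XT.lf (nat_lit 0) (nat_lit 32092518258) (nat_lit 76) (nat_lit 9766420602) (nat_lit 76) (nat_lit 6422474458) (nat_lit 13) (nat_lit 4) (nat_lit 14) (nat_lit 5) (nat_lit 14) (nat_lit 4) (nat_lit 455) (nat_lit 388) (nat_lit 357)))) (XT.nd (nat_lit 156) (nat_lit 76) (nat_lit 0) (XT.nd (nat_lit 78) (nat_lit 0) (nat_lit 0) (XT.lf (nat_lit 0) (nat_lit 3982351182) (nat_lit 152) (nat_lit 46444399593) (nat_lit 0) (nat_lit 862862020) (nat_lit 11)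 (nat_lit 5) (nat_lit 13) (nat_lit 4) (nat_lit 11) (nat_lit 4) (nat_lit 456) (nat_lit 388) (nat_lit 356)) (XT.lf (nat_lit 0) (nat_lit 15451566802) (nat_lit 152) (nat_lit 26716681838) (nat_lit 0) (nat_lit 12310556594) (nat_lit 11) (nat_lit 5) (nat_lit 13) (nat_lit 4) (nat_lit 11) (nat_lit 4) (nat_lit 457) (nat_lit 388) (nat_lit 355))) (XT.nd (nat_lit 78) (nat_lit 76) (nat_lit 0) (XT.lf (nat_lit 0) (nat_lit 27719042877) (nat_lit 152) (nat_lit 5655527628) (nat_lit 0) (nat_lit 24558105773) (nat_lit 11) (nat_lit 5) (nat_lit 13) (nat_lit 4) (nat_lit 11) (nat_lit 4) (nat_lit 458) (nat_lit 388) (nat_lit 354)) (XT.lf (nat_lit 0) (nat_lit 17751891379) (nat_lit 76) (nat_lit 23532517597) (nat_lit 76) (nat_lit 20353129663) (nat_lit 10) (nat_lit 4) (nat_lit 11) (nat_lit 5) (nat_lit 11) (nat_lit 4) (nat_lit 459) (nat_lit 388) (nat_lit 353))))))) (XT.nd (nat_lit 1014) (nat_lit 228) (nat_lit 0) (XT.nd (nat_lit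 468) (nat_lit 152) (nat_lit 0) (XT.nd (nat_lit 234) (nat_lit 76) (nat_lit 0) (XT.nd (nat_lit 78) (nat_lit 152) (nat_lit 0) (XT.lf (nat_lit 0) (nat_lit 43132627682) (nat_lit 76) (nat_lit 12849435284) (nat_lit 76) (nat_lit 9652963249) (nat_lit 10) (nat_lit 4) (nat_lit 11) (nat_lit 5) (nat_lit 11) (nat_lit 4) (nat_lit 460) (nat_lit 388) (nat_lit 352)) (XT.nd (nat_lit 78) (nat_lit 0) (nat_lit 0) (XT.lf (nat_lit 0) (nat_lit 353491359) (nat_lit 76) (nat_lit 1360826913) (nat_lit 152) (nat_lit 68241828849) (nat_lit 8) (nat_lit 5) (nat_lit 9) (nat_lit 5) (nat_lit 10) (nat_lit 4) (nat_lit 461) (nat_lit 388) (nat_lit 351)) (XT.lf (nat_lit 0) (nat_lit 14264314017) (nat_lit 152) (nat_lit 48998589990) (nat_lit 0) (nat_lit 11276408915) (nat_lit 8) (nat_lit 5) (nat_lit 10) (nat_lit 4) (nat_lit 8) (nat_lit 4) (nat_lit 462) (nat_lit 388) (nat_lit 350)))) (XT.nd (nat_lit 78) (nat_lit 76) (nat_lit 0) (XT.lf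 (nat_lit 0) (nat_lit 27759145239) (nat_lit 152) (nat_lit 26976037745) (nat_lit 0) (nat_lit 24758682812) (nat_lit 8) (nat_lit 5) (nat_lit 10) (nat_lit 4) (nat_lit 8) (nat_lit 4) (nat_lit 463) (nat_lit 388) (nat_lit 349)) (XT.nd (nat_lit 78) (nat_lit 76) (nat_lit 0) (XT.lf (nat_lit 0) (nat_lit 42246053387) (nat_lit 152) (nat_lit 3371767094) (nat_lit 0) (nat_lit 39233963808) (nat_lit 8) (nat_lit 5) (nat_lit 10) (nat_lit 4) (nat_lit 8) (nat_lit 4) (nat_lit 464) (nat_lit 388) (nat_lit 348)) (XT.lf (nat_lit 0) (nat_lit 23110163077) (nat_lit 76) (nat_lit 35256523706) (nat_lit 76) (nat_lit 32233668246) (nat_lit 7) (nat_lit 4) (nat_lit 8) (nat_lit 5) (nat_lit 8) (nat_lit 4) (nat_lit 465) (nat_lit 388) (nat_lit 347))))) (XT.nd (nat_lit 234) (nat_lit 0) (nat_lit 0) (XT.nd (nat_lit 78) (nat_lit 152) (nat_lit 0) (XT.lf (nat_lit 0) (nat_lit 51739878379) (nat_lit 76) (nat_lit 24050348486) (nat_lit 76)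 (nat_lit 21017524617) (nat_lit 7) (nat_lit 4) (nat_lit 8) (nat_lit 5) (nat_lit 8) (nat_lit 4) (nat_lit 466) (nat_lit 388) (nat_lit 346)) (XT.nd (nat_lit 78) (nat_lit 152) (nat_lit 0) (XT.lf (nat_lit 0) (nat_lit 82509485103) (nat_lit 76) (nat_lit 12025077944) (nat_lit 76) (nat_lit 8983024066) (nat_lit 7) (nat_lit 4) (nat_lit 8) (nat_lit 5) (nat_lit 8) (nat_lit 4) (nat_lit 467) (nat_lit 388) (nat_lit 345)) (XT.lf (nat_lit 0) (nat_lit 3890913092) (nat_lit 152) (nat_lit 105793091439) (nat_lit 0) (nat_lit 1066283295) (nat_lit 5) (nat_lit 5) (nat_lit 7) (nat_lit 4) (nat_lit 5) (nat_lit 4) (nat_lit 468) (nat_lit 388) (nat_lit 344)))) (XT.nd (nat_lit 156) (nat_lit 0) (nat_lit 0) (XT.nd (nat_lit 78) (nat_lit 0) (nat_lit 0) (XT.lf (nat_lit 0) (nat_lit 18141740915) (nat_lit 152) (nat_lit 85024830625) (nat_lit 0) (nat_lit 15309784039) (nat_lit 5) (nat_lit 5) (nat_lit 7) (nat_lit 4) (nat_lit 5) (nat_lit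 4) (nat_lit 469) (nat_lit 388) (nat_lit 343)) (XT.lf (nat_lit 0) (nat_lit 33468407595) (nat_lit 152) (nat_lit 62727573324) (nat_lit 0) (nat_lit 30629666387) (nat_lit 5) (nat_lit 5) (nat_lit 7) (nat_lit 4) (nat_lit 5) (nat_lit 4) (nat_lit 470) (nat_lit 388) (nat_lit 342))) (XT.nd (nat_lit 78) (nat_lit 0) (nat_lit 0) (XT.lf (nat_lit 0) (nat_lit 49961737823) (nat_lit 152) (nat_lit 38769187640) (nat_lit 0) (nat_lit 47116714827) (nat_lit 5) (nat_lit 5) (nat_lit 7) (nat_lit 4) (nat_lit 5) (nat_lit 4) (nat_lit 471) (nat_lit 388) (nat_lit 341)) (XT.lf (nat_lit 0) (nat_lit 67719469853) (nat_lit 152) (nat_lit 13007697954) (nat_lit 0) (nat_lit 64868630386) (nat_lit 5) (nat_lit 5) (nat_lit 7) (nat_lit 4) (nat_lit 5) (nat_lit 4) (nat_lit 472) (nat_lit 388) (nat_lit 340)))))) (XT.nd (nat_lit 468) (nat_lit 152) (nat_lit 0) (XT.nd (nat_lit 234) (nat_lit 0) (nat_lit 0) (XT.nd (nat_lit 78) (nat_lit 0) (nat_lit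 0) (XT.lf (nat_lit 0) (nat_lit 15484135585) (nat_lit 76) (nat_lit 71735092937) (nat_lit 76) (nat_lit 68878867848) (nat_lit 4) (nat_lit 4) (nat_lit 5) (nat_lit 5) (nat_lit 5) (nat_lit 4) (nat_lit 473) (nat_lit 388) (nat_lit 339)) (XT.nd (nat_lit 78) (nat_lit 0) (nat_lit 0) (XT.lf (nat_lit 0) (nat_lit 46892582762) (nat_lit 76) (nat_lit 61692364659) (nat_lit 76) (nat_lit 58831152885) (nat_lit 4) (nat_lit 4) (nat_lit 5) (nat_lit 5) (nat_lit 5) (nat_lit 4) (nat_lit 474) (nat_lit 388) (nat_lit 338)) (XT.lf (nat_lit 0) (nat_lit 80718805386) (nat_lit 76) (nat_lit 50895124025) (nat_lit 76) (nat_lit 48029294949) (nat_lit 4) (nat_lit 4) (nat_lit 5) (nat_lit 5) (nat_lit 5) (nat_lit 4) (nat_lit 475) (nat_lit 388) (nat_lit 337)))) (XT.nd (nat_lit 78) (nat_lit 0) (nat_lit 0) (XT.lf (nat_lit 0) (nat_lit 117163255144) (nat_lit 76) (nat_lit 39279387386) (nat_lit 76) (nat_lit 36409283029) (nat_lit 4) (nat_lit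 4) (nat_lit 5) (nat_lit 5) (nat_lit 5) (nat_lit 4) (nat_lit 476) (nat_lit 388) (nat_lit 336)) (XT.nd (nat_lit 78) (nat_lit 0) (nat_lit 0) (XT.lf (nat_lit 0) (nat_lit 156441899148) (nat_lit 76) (nat_lit 26776320746) (nat_lit 76) (nat_lit 23902257797) (nat_lit 4) (nat_lit 4) (nat_lit 5) (nat_lit 5) (nat_lit 5) (nat_lit 4) (nat_lit 477) (nat_lit 388) (nat_lit 335)) (XT.lf (nat_lit 0) (nat_lit 198787499732) (nat_lit 76) (nat_lit 13311831860) (nat_lit 76) (nat_lit 10434103548) (nat_lit 4) (nat_lit 4) (nat_lit 5) (nat_lit 5) (nat_lit 5) (nat_lit 4) (nat_lit 478) (nat_lit 388) (nat_lit 334))))) (XT.nd (nat_lit 234) (nat_lit 0) (nat_lit 0) (XT.nd (nat_lit 78) (nat_lit 0) (nat_lit 0) (XT.lf (nat_lit 0) (nat_lit 4036709526) (nat_lit 152) (nat_lit 233755335029) (nat_lit 0) (nat_lit 1369003816) (nat_lit 2) (nat_lit 5) (nat_lit 4) (nat_lit 4) (nat_lit 2) (nat_lit 4) (nat_lit 479) (nat_lit 388) (nat_lit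 333)) (XT.nd (nat_lit 78) (nat_lit 0) (nat_lit 0) (XT.lf (nat_lit 0) (nat_lit 20078697252) (nat_lit 152) (nat_lit 219532232674) (nat_lit 0) (nat_lit 17408081858) (nat_lit 2) (nat_lit 5) (nat_lit 4) (nat_lit 4) (nat_lit 2) (nat_lit 4) (nat_lit 480) (nat_lit 388) (nat_lit 332)) (XT.lf (nat_lit 0) (nat_lit 37371951960) (nat_lit 152) (nat_lit 204237585404) (nat_lit 0) (nat_lit 34698642414) (nat_lit 2) (nat_lit 5) (nat_lit 4) (nat_lit 4) (nat_lit 2) (nat_lit 4) (nat_lit 481) (nat_lit 388) (nat_lit 331)))) (XT.nd (nat_lit 156) (nat_lit 0) (nat_lit 0) (XT.nd (nat_lit 78) (nat_lit 0) (nat_lit 0) (XT.lf (nat_lit 0) (nat_lit 56018952195) (nat_lit 152) (nat_lit 187780758274) (nat_lit 0) (nat_lit 53343148065) (nat_lit 2) (nat_lit 5) (nat_lit 4) (nat_lit 4) (nat_lit 2) (nat_lit 4) (nat_lit 482) (nat_lit 388) (nat_lit 330)) (XT.lf (nat_lit 0) (nat_lit 76130198699) (nat_lit 152) (nat_lit 170064229345)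 (nat_lit 0) (nat_lit 73452084769) (nat_lit 2) (nat_lit 5) (nat_lit 4) (nat_lit 4) (nat_lit 2) (nat_lit 4) (nat_lit 483) (nat_lit 388) (nat_lit 329))) (XT.nd (nat_lit 78) (nat_lit 0) (nat_lit 0) (XT.lf (nat_lit 0) (nat_lit 97824869231) (nat_lit 152) (nat_lit 150983011778) (nat_lit 0) (nat_lit 95144616596) (nat_lit 2) (nat_lit 5) (nat_lit 4) (nat_lit 4) (nat_lit 2) (nat_lit 4) (nat_lit 484) (nat_lit 388) (nat_lit 328)) (XT.lf (nat_lit 0) (nat_lit 121231524800) (nat_lit 152) (nat_lit 130424031692) (nat_lit 0) (nat_lit 118549291883) (nat_lit 2) (nat_lit 5) (nat_lit 4) (nat_lit 4) (nat_lit 2) (nat_lit 4) (nat_lit 485) (nat_lit 388) (nat_lit 327))))))))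
noncomputable def xc64 : XT := (XT.nd (nat_lit 1950) (nat_lit 0) (nat_lit 0) (XT.nd (nat_lit 936) (nat_lit 0) (nat_lit 0) (XT.nd (nat_lit 468) (nat_lit 0) (nat_lit 0) (XT.nd (nat_lit 234) (nat_lit 76) (nat_lit 0) (XT.nd (nat_lit 78) (nat_lit 0) (nat_lit 0) (XT.lf (nat_lit 0) (nat_lit 146488871513) (nat_lit 152) (nat_lit 108265458094) (nat_lit 0) (nat_lit 143804805002) (nat_lit 2) (nat_lit 5) (nat_lit 4) (nat_lit 4) (nat_lit 2) (nat_lit 4) (nat_lit 486) (nat_lit 388) (nat_lit 326)) (XT.nd (nat_lit 78) (nat_lit 0) (nat_lit 0) (XT.lf (nat_lit 0) (nat_lit 173746582536) (nat_lit 152) (nat_lit 84375980917) (nat_lit 0) (nat_lit 171060818253) (nat_lit 2) (nat_lit 5) (nat_lit 4) (nat_lit 4) (nat_lit 2) (nat_lit 4) (nat_lit 487) (nat_lit 388) (nat_lit 325)) (XT.lf (nat_lit 0) (nat_lit 203166185046) (nat_lit 152) (nat_lit 58614032890) (nat_lit 0) (nat_lit 200478848751) (nat_lit 2) (nat_lit 5) (nat_lit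 4) (nat_lit 4) (nat_lit 2) (nat_lit 4) (nat_lit 488) (nat_lit 388) (nat_lit 324)))) (XT.nd (nat_lit 78) (nat_lit 76) (nat_lit 0) (XT.lf (nat_lit 0) (nat_lit 234922017427) (nat_lit 152) (nat_lit 30826950617) (nat_lit 0) (nat_lit 232233225566) (nat_lit 2) (nat_lit 5) (nat_lit 4) (nat_lit 4) (nat_lit 2) (nat_lit 4) (nat_lit 489) (nat_lit 388) (nat_lit 323)) (XT.nd (nat_lit 78) (nat_lit 76) (nat_lit 0) (XT.lf (nat_lit 0) (nat_lit 269202262391) (nat_lit 152) (nat_lit 850069906) (nat_lit 0) (nat_lit 266512122784) (nat_lit 2) (nat_lit 5) (nat_lit 4) (nat_lit 4) (nat_lit 2) (nat_lit 4) (nat_lit 490) (nat_lit 388) (nat_lit 322)) (XT.lf (nat_lit 0) (nat_lit 33152681408) (nat_lit 76) (nat_lit 273854703506) (nat_lit 76) (nat_lit 271163315985) (nat_lit 1) (nat_lit 4) (nat_lit 2) (nat_lit 5) (nat_lit 2) (nat_lit 4) (nat_lit 491) (nat_lit 388) (nat_lit 321))))) (XT.nd (nat_lit 234) (nat_lit 0) (nat_lit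 0) (XT.nd (nat_lit 78) (nat_lit 0) (nat_lit 0) (XT.lf (nat_lit 0) (nat_lit 69894063312) (nat_lit 76) (nat_lit 277951612713) (nat_lit 76) (nat_lit 275259069717) (nat_lit 1) (nat_lit 4) (nat_lit 2) (nat_lit 5) (nat_lit 2) (nat_lit 4) (nat_lit 492) (nat_lit 388) (nat_lit 320)) (XT.nd (nat_lit 78) (nat_lit 0) (nat_lit 0) (XT.lf (nat_lit 0) (nat_lit 109547039338) (nat_lit 76) (nat_lit 282390580316) (nat_lit 76) (nat_lit 279696967436) (nat_lit 1) (nat_lit 4) (nat_lit 2) (nat_lit 5) (nat_lit 2) (nat_lit 4) (nat_lit 493) (nat_lit 388) (nat_lit 319)) (XT.lf (nat_lit 0) (nat_lit 152346590085) (nat_lit 76) (nat_lit 287197911310) (nat_lit 76) (nat_lit 284503307796) (nat_lit 1) (nat_lit 4) (nat_lit 2) (nat_lit 5) (nat_lit 2) (nat_lit 4) (nat_lit 494) (nat_lit 388) (nat_lit 318)))) (XT.nd (nat_lit 78) (nat_lit 0) (nat_lit 0) (XT.lf (nat_lit 0) (nat_lit 198546342519) (nat_lit 76) (nat_lit 292402093581)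 (nat_lit 76) (nat_lit 289706572813) (nat_lit 1) (nat_lit 4) (nat_lit 2) (nat_lit 5) (nat_lit 2) (nat_lit 4) (nat_lit 495) (nat_lit 388) (nat_lit 317)) (XT.nd (nat_lit 78) (nat_lit 0) (nat_lit 0) (XT.lf (nat_lit 0) (nat_lit 248420072952) (nat_lit 76) (nat_lit 298033966729) (nat_lit 76) (nat_lit 295337596652) (nat_lit 1) (nat_lit 4) (nat_lit 2) (nat_lit 5) (nat_lit 2) (nat_lit 4) (nat_lit 496) (nat_lit 388) (nat_lit 316)) (XT.lf (nat_lit 0) (nat_lit 302263329415) (nat_lit 76) (nat_lit 304126904816) (nat_lit 76) (nat_lit 301429748341) (nat_lit 1) (nat_lit 4) (nat_lit 2) (nat_lit 5) (nat_lit 2) (nat_lit 4) (nat_lit 497) (nat_lit 388) (nat_lit 315)))))) (XT.nd (nat_lit 468) (nat_lit 0) (nat_lit 0) (XT.nd (nat_lit 234) (nat_lit 0) (nat_lit 0) (XT.nd (nat_lit 78) (nat_lit 0) (nat_lit 0) (XT.lf (nat_lit 0) (nat_lit 360395183059) (nat_lit 76) (nat_lit 310717014141) (nat_lit 76) (nat_lit 308019129522)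 (nat_lit 1) (nat_lit 4) (nat_lit 2) (nat_lit 5) (nat_lit 2) (nat_lit 4) (nat_lit 498) (nat_lit 388) (nat_lit 314)) (XT.nd (nat_lit 78) (nat_lit 0) (nat_lit 0) (XT.lf (nat_lit 0) (nat_lit 423160118941) (nat_lit 76) (nat_lit 317843347206) (nat_lit 76) (nat_lit 315144788377) (nat_lit 1) (nat_lit 4) (nat_lit 2) (nat_lit 5) (nat_lit 2) (nat_lit 4) (nat_lit 499) (nat_lit 388) (nat_lit 313)) (XT.lf (nat_lit 0) (nat_lit 490930077423) (nat_lit 76) (nat_lit 325548134131) (nat_lit 76) (nat_lit 322848951035) (nat_lit 1) (nat_lit 4) (nat_lit 2) (nat_lit 5) (nat_lit 2) (nat_lit 4) (nat_lit 500) (nat_lit 388) (nat_lit 312)))) (XT.nd (nat_lit 78) (nat_lit 0) (nat_lit 0) (XT.lf (nat_lit 0) (nat_lit 564106658258) (nat_lit 76) (nat_lit 333877032913) (nat_lit 76) (nat_lit 331177271792) (nat_lit 1) (nat_lit 4) (nat_lit 2) (nat_lit 5) (nat_lit 2) (nat_lit 4) (nat_lit 501) (nat_lit 388) (nat_lit 311)) (XT.nd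 (nat_lit 78) (nat_lit 0) (nat_lit 0) (XT.lf (nat_lit 0) (nat_lit 643123500445) (nat_lit 76) (nat_lit 342879399990) (nat_lit 76) (nat_lit 340179103660) (nat_lit 1) (nat_lit 4) (nat_lit 2) (nat_lit 5) (nat_lit 2) (nat_lit 4) (nat_lit 502) (nat_lit 388) (nat_lit 310)) (XT.lf (nat_lit 0) (nat_lit 728448851936) (nat_lit 76) (nat_lit 352608582721) (nat_lit 76) (nat_lit 349907790828) (nat_lit 1) (nat_lit 4) (nat_lit 2) (nat_lit 5) (nat_lit 2) (nat_lit 4) (nat_lit 503) (nat_lit 388) (nat_lit 309))))) (XT.nd (nat_lit 234) (nat_lit 0) (nat_lit 0) (XT.nd (nat_lit 78) (nat_lit 0) (nat_lit 0) (XT.lf (nat_lit 0) (nat_lit 820588344444) (nat_lit 76) (nat_lit 363122235524) (nat_lit 76) (nat_lit 360420984775) (nat_lit 1) (nat_lit 4) (nat_lit 2) (nat_lit 5) (nat_lit 2) (nat_lit 4) (nat_lit 504) (nat_lit 388) (nat_lit 308)) (XT.nd (nat_lit 78) (nat_lit 0) (nat_lit 0) (XT.lf (nat_lit 0) (nat_lit 920087989777)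 (nat_lit 76) (nat_lit 374482661525) (nat_lit 76) (nat_lit 371780985910) (nat_lit 1) (nat_lit 4) (nat_lit 2) (nat_lit 5) (nat_lit 2) (nat_lit 4) (nat_lit 505) (nat_lit 388) (nat_lit 307)) (XT.lf (nat_lit 0) (nat_lit 1027537415463) (nat_lit 76) (nat_lit 386757181768) (nat_lit 76) (nat_lit 384055112759) (nat_lit 1) (nat_lit 4) (nat_lit 2) (nat_lit 5) (nat_lit 2) (nat_lit 4) (nat_lit 506) (nat_lit 388) (nat_lit 306)))) (XT.nd (nat_lit 156) (nat_lit 0) (nat_lit 0) (XT.nd (nat_lit 78) (nat_lit 0) (nat_lit 0) (XT.lf (nat_lit 0) (nat_lit 1143573358838) (nat_lit 76) (nat_lit 400018534151) (nat_lit 76) (nat_lit 397316100888) (nat_lit 1) (nat_lit 4) (nat_lit 2) (nat_lit 5) (nat_lit 2) (nat_lit 4) (nat_lit 507) (nat_lit 388) (nat_lit 305)) (XT.lf (nat_lit 0) (nat_lit 1268883440309) (nat_lit 76) (nat_lit 414345304464) (nat_lit 76) (nat_lit 411642533929) (nat_lit 1) (nat_lit 4) (nat_lit 2) (nat_lit 5)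 (nat_lit 2) (nat_lit 4) (nat_lit 508) (nat_lit 388) (nat_lit 304))) (XT.nd (nat_lit 78) (nat_lit 0) (nat_lit 0) (XT.lf (nat_lit 0) (nat_lit 1404210238136) (nat_lit 76) (nat_lit 429822392089) (nat_lit 76) (nat_lit 427119309265) (nat_lit 1) (nat_lit 4) (nat_lit 2) (nat_lit 5) (nat_lit 2) (nat_lit 4) (nat_lit 509) (nat_lit 388) (nat_lit 303)) (XT.lf (nat_lit 0) (nat_lit 1550355688898) (nat_lit 76) (nat_lit 446541513100) (nat_lit 76) (nat_lit 443838141119) (nat_lit 1) (nat_lit 4) (nat_lit 2) (nat_lit 5) (nat_lit 2) (nat_lit 4) (nat_lit 510) (nat_lit 388) (nat_lit 302))))))) (XT.nd (nat_lit 936) (nat_lit 0) (nat_lit 0) (XT.nd (nat_lit 468) (nat_lit 0) (nat_lit 0) (XT.nd (nat_lit 234) (nat_lit 0) (nat_lit 0) (XT.nd (nat_lit 78) (nat_lit 0) (nat_lit 0) (XT.lf (nat_lit 0) (nat_lit 1708185839711) (nat_lit 76) (nat_lit 464601743769) (nat_lit 76) (nat_lit 461898104051) (nat_lit 1) (nat_lit 4) (nat_lit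 2) (nat_lit 5) (nat_lit 2) (nat_lit 4) (nat_lit 511) (nat_lit 388) (nat_lit 301)) (XT.nd (nat_lit 78) (nat_lit 0) (nat_lit 0) (XT.lf (nat_lit 0) (nat_lit 1878635980358) (nat_lit 76) (nat_lit 484110107686) (nat_lit 76) (nat_lit 481406220063) (nat_lit 1) (nat_lit 4) (nat_lit 2) (nat_lit 5) (nat_lit 2) (nat_lit 4) (nat_lit 512) (nat_lit 388) (nat_lit 300)) (XT.lf (nat_lit 0) (nat_lit 2062716185746) (nat_lit 76) (nat_lit 505182209970) (nat_lit 76) (nat_lit 502478092805) (nat_lit 1) (nat_lit 4) (nat_lit 2) (nat_lit 5) (nat_lit 2) (nat_lit 4) (nat_lit 513) (nat_lit 388) (nat_lit 299)))) (XT.nd (nat_lit 78) (nat_lit 0) (nat_lit 0) (XT.lf (nat_lit 0) (nat_lit 2261517301537) (nat_lit 76) (nat_lit 527942922338) (nat_lit 76) (nat_lit 525238592634) (nat_lit 1) (nat_lit 4) (nat_lit 2) (nat_lit 5) (nat_lit 2) (nat_lit 4) (nat_lit 514) (nat_lit 388) (nat_lit 298)) (XT.nd (nat_lit 78) (nat_lit 0) (nat_lit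 0) (XT.lf (nat_lit 0) (nat_lit 2476217408417) (nat_lit 76) (nat_lit 552527123087) (nat_lit 76) (nat_lit 549822596587) (nat_lit 1) (nat_lit 4) (nat_lit 2) (nat_lit 5) (nat_lit 2) (nat_lit 4) (nat_lit 515) (nat_lit 388) (nat_lit 297)) (XT.lf (nat_lit 0) (nat_lit 2708088803316) (nat_lit 76) (nat_lit 579080496367) (nat_lit 76) (nat_lit 576375787650) (nat_lit 1) (nat_lit 4) (nat_lit 2) (nat_lit 5) (nat_lit 2) (nat_lit 4) (nat_lit 516) (nat_lit 388) (nat_lit 296))))) (XT.nd (nat_lit 234) (nat_lit 0) (nat_lit 0) (XT.nd (nat_lit 78) (nat_lit 0) (nat_lit 0) (XT.lf (nat_lit 0) (nat_lit 2958505538944) (nat_lit 76) (nat_lit 607760395504) (nat_lit 76) (nat_lit 605055518067) (nat_lit 1) (nat_lit 4) (nat_lit 2) (nat_lit 5) (nat_lit 2) (nat_lit 4) (nat_lit 517) (nat_lit 388) (nat_lit 295)) (XT.nd (nat_lit 78) (nat_lit 0) (nat_lit 0) (XT.lf (nat_lit 0) (nat_lit 3228951566327) (nat_lit 76) (nat_lit 638736775454)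 (nat_lit 76) (nat_lit 636031741794) (nat_lit 1) (nat_lit 4) (nat_lit 2) (nat_lit 5) (nat_lit 2) (nat_lit 4) (nat_lit 518) (nat_lit 388) (nat_lit 294)) (XT.lf (nat_lit 0) (nat_lit 3521029528590) (nat_lit 76) (nat_lit 672193199950) (nat_lit 76) (nat_lit 669488021640) (nat_lit 1) (nat_lit 4) (nat_lit 2) (nat_lit 5) (nat_lit 2) (nat_lit 4) (nat_lit 519) (nat_lit 388) (nat_lit 293)))) (XT.nd (nat_lit 78) (nat_lit 0) (nat_lit 0) (XT.lf (nat_lit 0) (nat_lit 3836470258102) (nat_lit 76) (nat_lit 708327929286) (nat_lit 76) (nat_lit 705622617041) (nat_lit 1) (nat_lit 4) (nat_lit 2) (nat_lit 5) (nat_lit 2) (nat_lit 4) (nat_lit 520) (nat_lit 388) (nat_lit 292)) (XT.nd (nat_lit 78) (nat_lit 0) (nat_lit 0) (XT.lf (nat_lit 0) (nat_lit 4177143033261) (nat_lit 76) (nat_lit 747355095191) (nat_lit 76) (nat_lit 744649658932) (nat_lit 1) (nat_lit 4) (nat_lit 2) (nat_lit 5) (nat_lit 2) (nat_lit 4) (nat_lit 521)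 (nat_lit 388) (nat_lit 291)) (XT.lf (nat_lit 0) (nat_lit 4545066655697) (nat_lit 76) (nat_lit 789505969760) (nat_lit 76) (nat_lit 786800418673) (nat_lit 1) (nat_lit 4) (nat_lit 2) (nat_lit 5) (nat_lit 2) (nat_lit 4) (nat_lit 522) (nat_lit 388) (nat_lit 290)))))) (XT.nd (nat_lit 468) (nat_lit 0) (nat_lit 0) (XT.nd (nat_lit 234) (nat_lit 0) (nat_lit 0) (XT.nd (nat_lit 78) (nat_lit 0) (nat_lit 0) (XT.lf (nat_lit 0) (nat_lit 4942421413543) (nat_lit 76) (nat_lit 835030335953) (nat_lit 76) (nat_lit 832324678543) (nat_lit 1) (nat_lit 4) (nat_lit 2) (nat_lit 5) (nat_lit 2) (nat_lit 4) (nat_lit 523) (nat_lit 388) (nat_lit 289)) (XT.nd (nat_lit 78) (nat_lit 0) (nat_lit 0) (XT.lf (nat_lit 0) (nat_lit 5371562001660) (nat_lit 76) (nat_lit 884197967791) (nat_lit 76) (nat_lit 881492211935) (nat_lit 1) (nat_lit 4) (nat_lit 2) (nat_lit 5) (nat_lit 2) (nat_lit 4) (nat_lit 524) (nat_lit 388) (nat_lit 288))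 (XT.lf (nat_lit 0) (nat_lit 5835031475385) (nat_lit 76) (nat_lit 937300229020) (nat_lit 76) (nat_lit 934594382009) (nat_lit 1) (nat_lit 4) (nat_lit 2) (nat_lit 5) (nat_lit 2) (nat_lit 4) (nat_lit 525) (nat_lit 388) (nat_lit 287)))) (XT.nd (nat_lit 78) (nat_lit 0) (nat_lit 0) (XT.lf (nat_lit 0) (nat_lit 6335576320488) (nat_lit 76) (nat_lit 994651799704) (nat_lit 76) (nat_lit 991945868292) (nat_lit 1) (nat_lit 4) (nat_lit 2) (nat_lit 5) (nat_lit 2) (nat_lit 4) (nat_lit 526) (nat_lit 388) (nat_lit 286)) (XT.nd (nat_lit 78) (nat_lit 0) (nat_lit 0) (XT.lf (nat_lit 0) (nat_lit 6876162728645) (nat_lit 76) (nat_lit 1056592541006) (nat_lit 76) (nat_lit 1053886531443) (nat_lit 1) (nat_lit 4) (nat_lit 2) (nat_lit 5) (nat_lit 2) (nat_lit 4) (nat_lit 527) (nat_lit 388) (nat_lit 285)) (XT.lf (nat_lit 0) (nat_lit 7459994174866) (nat_lit 76) (nat_lit 1123489509167) (nat_lit 76) (nat_lit 1120783427244)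 (nat_lit 1) (nat_lit 4) (nat_lit 2) (nat_lit 5) (nat_lit 2) (nat_lit 4) (nat_lit 528) (nat_lit 388) (nat_lit 284))))) (XT.nd (nat_lit 234) (nat_lit 0) (nat_lit 0) (XT.nd (nat_lit 78) (nat_lit 0) (nat_lit 0) (XT.lf (nat_lit 0) (nat_lit 8090530401055) (nat_lit 76) (nat_lit 1195739130668) (nat_lit 76) (nat_lit 1193032981743) (nat_lit 1) (nat_lit 4) (nat_lit 2) (nat_lit 5) (nat_lit 2) (nat_lit 4) (nat_lit 529) (nat_lit 388) (nat_lit 283)) (XT.nd (nat_lit 78) (nat_lit 0) (nat_lit 0) (XT.lf (nat_lit 0) (nat_lit 8771507918183) (nat_lit 76) (nat_lit 1273769551413) (nat_lit 76) (nat_lit 1271063340450) (nat_lit 1) (nat_lit 4) (nat_lit 2) (nat_lit 5) (nat_lit 2) (nat_lit 4) (nat_lit 530) (nat_lit 388) (nat_lit 282)) (XT.lf (nat_lit 0) (nat_lit 9506962148571) (nat_lit 76) (nat_lit 1358043173895) (nat_lit 76) (nat_lit 1355336905490) (nat_lit 1) (nat_lit 4) (nat_lit 2) (nat_lit 5) (nat_lit 2) (nat_lit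 4) (nat_lit 531) (nat_lit 388) (nat_lit 281)))) (XT.nd (nat_lit 156) (nat_lit 0) (nat_lit 0) (XT.nd (nat_lit 78) (nat_lit 0) (nat_lit 0) (XT.lf (nat_lit 0) (nat_lit 10301251339513) (nat_lit 76) (nat_lit 1449059397359) (nat_lit 76) (nat_lit 1446353075766) (nat_lit 1) (nat_lit 4) (nat_lit 2) (nat_lit 5) (nat_lit 2) (nat_lit 4) (nat_lit 532) (nat_lit 388) (nat_lit 280)) (XT.lf (nat_lit 0) (nat_lit 11159082389917) (nat_lit 76) (nat_lit 1547357577203) (nat_lit 76) (nat_lit 1544651206362) (nat_lit 1) (nat_lit 4) (nat_lit 2) (nat_lit 5) (nat_lit 2) (nat_lit 4) (nat_lit 533) (nat_lit 388) (nat_lit 279))) (XT.nd (nat_lit 78) (nat_lit 0) (nat_lit 0) (XT.lf (nat_lit 0) (nat_lit 12085538743045) (nat_lit 76) (nat_lit 1653520221160) (nat_lit 76) (nat_lit 1650813804719) (nat_lit 1) (nat_lit 4) (nat_lit 2) (nat_lit 5) (nat_lit 2) (nat_lit 4) (nat_lit 534) (nat_lit 388) (nat_lit 278)) (XT.lf (nat_lit 0)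 (nat_lit 13086110510618) (nat_lit 76) (nat_lit 1768176441193) (nat_lit 76) (nat_lit 1765469982530) (nat_lit 1) (nat_lit 4) (nat_lit 2) (nat_lit 5) (nat_lit 2) (nat_lit 4) (nat_lit 535) (nat_lit 388) (nat_lit 277))))))))
noncomputable def xc65 : XT := (XT.nd (nat_lit 1950) (nat_lit 1140) (nat_lit 0) (XT.nd (nat_lit 936) (nat_lit 988) (nat_lit 0) (XT.nd (nat_lit 468) (nat_lit 608) (nat_lit 0) (XT.nd (nat_lit 234) (nat_lit 304) (nat_lit 0) (XT.nd (nat_lit 78) (nat_lit 304) (nat_lit 0) (XT.lf (nat_lit 0) (nat_lit 1102798854) (nat_lit 152) (nat_lit 2801343278) (nat_lit 0) (nat_lit 1102798854) (nat_lit 49) (nat_lit 5) (nat_lit 51) (nat_lit 4) (nat_lit 49) (nat_lit 4) (nat_lit 422) (nat_lit 389) (nat_lit 389)) (XT.nd (nat_lit 78) (nat_lit 152) (nat_lit 0) (XT.lf (nat_lit 0) (nat_lit 3493608964) (nat_lit 152) (nat_lit 3778542149) (nat_lit 152) (nat_lit 3091580647) (nat_lit 47) (nat_lit 4) (nat_lit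 49) (nat_lit 5) (nat_lit 49) (nat_lit 4) (nat_lit 423) (nat_lit 389) (nat_lit 388)) (XT.lf (nat_lit 0) (nat_lit 1845440454) (nat_lit 152) (nat_lit 8276449479) (nat_lit 0) (nat_lit 620406226) (nat_lit 45) (nat_lit 5) (nat_lit 47) (nat_lit 4) (nat_lit 45) (nat_lit 4) (nat_lit 424) (nat_lit 389) (nat_lit 387)))) (XT.nd (nat_lit 78) (nat_lit 152) (nat_lit 0) (XT.lf (nat_lit 0) (nat_lit 1177770947) (nat_lit 152) (nat_lit 5867286761) (nat_lit 152) (nat_lit 4096920345) (nat_lit 43) (nat_lit 4) (nat_lit 45) (nat_lit 5) (nat_lit 45) (nat_lit 4) (nat_lit 425) (nat_lit 389) (nat_lit 386)) (XT.nd (nat_lit 78) (nat_lit 76) (nat_lit 0) (XT.lf (nat_lit 0) (nat_lit 982430140) (nat_lit 228) (nat_lit 231848934) (nat_lit 76) (nat_lit 10361305304) (nat_lit 42) (nat_lit 5) (nat_lit 45) (nat_lit 5) (nat_lit 43) (nat_lit 4) (nat_lit 426) (nat_lit 389) (nat_lit 385)) (XT.lf (nat_lit 0) (nat_lit 6326950168) (nat_lit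 152) (nat_lit 1914740947) (nat_lit 0) (nat_lit 3787285276) (nat_lit 41) (nat_lit 5) (nat_lit 43) (nat_lit 4) (nat_lit 41) (nat_lit 4) (nat_lit 427) (nat_lit 389) (nat_lit 384))))) (XT.nd (nat_lit 234) (nat_lit 304) (nat_lit 0) (XT.nd (nat_lit 78) (nat_lit 228) (nat_lit 0) (XT.lf (nat_lit 0) (nat_lit 8717796666) (nat_lit 76) (nat_lit 3371088323) (nat_lit 76) (nat_lit 430587993) (nat_lit 40) (nat_lit 4) (nat_lit 41) (nat_lit 5) (nat_lit 41) (nat_lit 4) (nat_lit 428) (nat_lit 389) (nat_lit 383)) (XT.nd (nat_lit 78) (nat_lit 76) (nat_lit 0) (XT.lf (nat_lit 0) (nat_lit 5014832279) (nat_lit 152) (nat_lit 6074533491) (nat_lit 0) (nat_lit 1948495007) (nat_lit 38) (nat_lit 5) (nat_lit 40) (nat_lit 4) (nat_lit 38) (nat_lit 4) (nat_lit 429) (nat_lit 389) (nat_lit 382)) (XT.lf (nat_lit 0) (nat_lit 4885101236) (nat_lit 76) (nat_lit 6045805675) (nat_lit 76) (nat_lit 2661272309) (nat_lit 37) (nat_lit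 4) (nat_lit 38) (nat_lit 5) (nat_lit 38) (nat_lit 4) (nat_lit 430) (nat_lit 389) (nat_lit 381)))) (XT.nd (nat_lit 78) (nat_lit 152) (nat_lit 0) (XT.lf (nat_lit 0) (nat_lit 2457316122) (nat_lit 76) (nat_lit 492912484) (nat_lit 152) (nat_lit 11236420071) (nat_lit 35) (nat_lit 5) (nat_lit 36) (nat_lit 5) (nat_lit 37) (nat_lit 4) (nat_lit 431) (nat_lit 389) (nat_lit 380)) (XT.nd (nat_lit 78) (nat_lit 152) (nat_lit 0) (XT.lf (nat_lit 0) (nat_lit 8993619206) (nat_lit 152) (nat_lit 485004471) (nat_lit 0) (nat_lit 5334395832) (nat_lit 35) (nat_lit 5) (nat_lit 37) (nat_lit 4) (nat_lit 35) (nat_lit 4) (nat_lit 432) (nat_lit 389) (nat_lit 379)) (XT.lf (nat_lit 0) (nat_lit 96181097) (nat_lit 152) (nat_lit 3693050318) (nat_lit 76) (nat_lit 11694880600) (nat_lit 33) (nat_lit 5) (nat_lit 35) (nat_lit 5) (nat_lit 34) (nat_lit 4) (nat_lit 433) (nat_lit 389) (nat_lit 378)))))) (XT.nd (nat_lit 468) (nat_lit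 456) (nat_lit 0) (XT.nd (nat_lit 234) (nat_lit 228) (nat_lit 0) (XT.nd (nat_lit 78) (nat_lit 228) (nat_lit 0) (XT.lf (nat_lit 0) (nat_lit 6224489816) (nat_lit 152) (nat_lit 7548766624) (nat_lit 0) (nat_lit 2419243596) (nat_lit 32) (nat_lit 5) (nat_lit 34) (nat_lit 4) (nat_lit 32) (nat_lit 4) (nat_lit 434) (nat_lit 389) (nat_lit 377)) (XT.nd (nat_lit 78) (nat_lit 152) (nat_lit 0) (XT.lf (nat_lit 0) (nat_lit 4928537075) (nat_lit 76) (nat_lit 8006300310) (nat_lit 76) (nat_lit 4015389726) (nat_lit 31) (nat_lit 4) (nat_lit 32) (nat_lit 5) (nat_lit 32) (nat_lit 4) (nat_lit 435) (nat_lit 389) (nat_lit 376)) (XT.lf (nat_lit 0) (nat_lit 602271807) (nat_lit 76) (nat_lit 1688638692) (nat_lit 152) (nat_lit 15473170905) (nat_lit 29) (nat_lit 5) (nat_lit 30) (nat_lit 5) (nat_lit 31) (nat_lit 4) (nat_lit 436) (nat_lit 389) (nat_lit 375)))) (XT.nd (nat_lit 78) (nat_lit 228) (nat_lit 0) (XT.lf (nat_lit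 0) (nat_lit 9118777421) (nat_lit 152) (nat_lit 4380284789) (nat_lit 0) (nat_lit 5116926217) (nat_lit 29) (nat_lit 5) (nat_lit 31) (nat_lit 4) (nat_lit 29) (nat_lit 4) (nat_lit 437) (nat_lit 389) (nat_lit 374)) (XT.nd (nat_lit 78) (nat_lit 152) (nat_lit 0) (XT.lf (nat_lit 0) (nat_lit 9438093669) (nat_lit 76) (nat_lit 7115703899) (nat_lit 76) (nat_lit 2977383844) (nat_lit 28) (nat_lit 4) (nat_lit 29) (nat_lit 5) (nat_lit 29) (nat_lit 4) (nat_lit 438) (nat_lit 389) (nat_lit 373)) (XT.lf (nat_lit 0) (nat_lit 3774518520) (nat_lit 76) (nat_lit 90480816) (nat_lit 152) (nat_lit 16646436042) (nat_lit 26) (nat_lit 5) (nat_lit 27) (nat_lit 5) (nat_lit 28) (nat_lit 4) (nat_lit 439) (nat_lit 389) (nat_lit 372))))) (XT.nd (nat_lit 234) (nat_lit 228) (nat_lit 0) (XT.nd (nat_lit 78) (nat_lit 228) (nat_lit 0) (XT.lf (nat_lit 0) (nat_lit 11348935334) (nat_lit 152) (nat_lit 2902767814) (nat_lit 0) (nat_lit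 7291824088) (nat_lit 26) (nat_lit 5) (nat_lit 28) (nat_lit 4) (nat_lit 26) (nat_lit 4) (nat_lit 440) (nat_lit 389) (nat_lit 371)) (XT.nd (nat_lit 78) (nat_lit 152) (nat_lit 0) (XT.lf (nat_lit 0) (nat_lit 12264591681) (nat_lit 76) (nat_lit 7271336357) (nat_lit 76) (nat_lit 3113916432) (nat_lit 25) (nat_lit 4) (nat_lit 26) (nat_lit 5) (nat_lit 26) (nat_lit 4) (nat_lit 441) (nat_lit 389) (nat_lit 370)) (XT.lf (nat_lit 0) (nat_lit 4318302774) (nat_lit 152) (nat_lit 19133856898) (nat_lit 0) (nat_lit 382841356) (nat_lit 23) (nat_lit 5) (nat_lit 25) (nat_lit 4) (nat_lit 23) (nat_lit 4) (nat_lit 442) (nat_lit 389) (nat_lit 369)))) (XT.nd (nat_lit 156) (nat_lit 152) (nat_lit 0) (XT.nd (nat_lit 78) (nat_lit 76) (nat_lit 0) (XT.lf (nat_lit 0) (nat_lit 12465199976) (nat_lit 152) (nat_lit 4170127005) (nat_lit 0) (nat_lit 8450110294) (nat_lit 23) (nat_lit 5) (nat_lit 25) (nat_lit 4) (nat_lit 23) (nat_lit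 4) (nat_lit 443) (nat_lit 389) (nat_lit 368)) (XT.lf (nat_lit 0) (nat_lit 12246055867) (nat_lit 76) (nat_lit 9134663224) (nat_lit 76) (nat_lit 5045843669) (nat_lit 22) (nat_lit 4) (nat_lit 23) (nat_lit 5) (nat_lit 23) (nat_lit 4) (nat_lit 444) (nat_lit 389) (nat_lit 367))) (XT.nd (nat_lit 78) (nat_lit 0) (nat_lit 0) (XT.lf (nat_lit 0) (nat_lit 2011574901) (nat_lit 76) (nat_lit 954128396) (nat_lit 152) (nat_lit 24904207403) (nat_lit 20) (nat_lit 5) (nat_lit 21) (nat_lit 5) (nat_lit 22) (nat_lit 4) (nat_lit 445) (nat_lit 389) (nat_lit 366)) (XT.lf (nat_lit 0) (nat_lit 11756062722) (nat_lit 152) (nat_lit 9780964337) (nat_lit 0) (nat_lit 7848378055) (nat_lit 20) (nat_lit 5) (nat_lit 22) (nat_lit 4) (nat_lit 20) (nat_lit 4) (nat_lit 446) (nat_lit 389) (nat_lit 365))))))) (XT.nd (nat_lit 936) (nat_lit 456) (nat_lit 0) (XT.nd (nat_lit 468) (nat_lit 304) (nat_lit 0) (XT.nd (nat_lit 234) (nat_lit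 152) (nat_lit 0) (XT.nd (nat_lit 78) (nat_lit 152) (nat_lit 0) (XT.lf (nat_lit 0) (nat_lit 7606789904) (nat_lit 76) (nat_lit 13686855426) (nat_lit 76) (nat_lit 9724977101) (nat_lit 19) (nat_lit 4) (nat_lit 20) (nat_lit 5) (nat_lit 20) (nat_lit 4) (nat_lit 447) (nat_lit 389) (nat_lit 364)) (XT.nd (nat_lit 78) (nat_lit 152) (nat_lit 0) (XT.lf (nat_lit 0) (nat_lit 26618663362) (nat_lit 76) (nat_lit 5083624899) (nat_lit 76) (nat_lit 1071567261) (nat_lit 19) (nat_lit 4) (nat_lit 20) (nat_lit 5) (nat_lit 20) (nat_lit 4) (nat_lit 448) (nat_lit 389) (nat_lit 363)) (XT.lf (nat_lit 0) (nat_lit 8122486495) (nat_lit 152) (nat_lit 22145523947) (nat_lit 0) (nat_lit 4364597638) (nat_lit 17) (nat_lit 5) (nat_lit 19) (nat_lit 4) (nat_lit 17) (nat_lit 4) (nat_lit 449) (nat_lit 389) (nat_lit 362)))) (XT.nd (nat_lit 78) (nat_lit 152) (nat_lit 0) (XT.lf (nat_lit 0) (nat_lit 18147832573) (nat_lit 152) (nat_lit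 4127601175) (nat_lit 0) (nat_lit 14350109759) (nat_lit 17) (nat_lit 5) (nat_lit 19) (nat_lit 4) (nat_lit 17) (nat_lit 4) (nat_lit 450) (nat_lit 389) (nat_lit 361)) (XT.nd (nat_lit 78) (nat_lit 76) (nat_lit 0) (XT.lf (nat_lit 0) (nat_lit 15839333382) (nat_lit 76) (nat_lit 13376951107) (nat_lit 76) (nat_lit 9542345001) (nat_lit 16) (nat_lit 4) (nat_lit 17) (nat_lit 5) (nat_lit 17) (nat_lit 4) (nat_lit 451) (nat_lit 389) (nat_lit 360)) (XT.lf (nat_lit 0) (nat_lit 78529980) (nat_lit 152) (nat_lit 3705414945) (nat_lit 76) (nat_lit 37280125627) (nat_lit 15) (nat_lit 5) (nat_lit 17) (nat_lit 5) (nat_lit 16) (nat_lit 4) (nat_lit 452) (nat_lit 389) (nat_lit 359))))) (XT.nd (nat_lit 234) (nat_lit 152) (nat_lit 0) (XT.nd (nat_lit 78) (nat_lit 76) (nat_lit 0) (XT.lf (nat_lit 0) (nat_lit 10414998594) (nat_lit 152) (nat_lit 26278668215) (nat_lit 0) (nat_lit 6803536758) (nat_lit 14) (nat_lit 5) (nat_lit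 16) (nat_lit 4) (nat_lit 14) (nat_lit 4) (nat_lit 453) (nat_lit 389) (nat_lit 358)) (XT.nd (nat_lit 78) (nat_lit 76) (nat_lit 0) (XT.lf (nat_lit 0) (nat_lit 21651493497) (nat_lit 152) (nat_lit 6454725137) (nat_lit 0) (nat_lit 18012921340) (nat_lit 14) (nat_lit 5) (nat_lit 16) (nat_lit 4) (nat_lit 14) (nat_lit 4) (nat_lit 454) (nat_lit 389) (nat_lit 357)) (XT.lf (nat_lit 0) (nat_lit 15485270202) (nat_lit 76) (nat_lit 18554503733) (nat_lit 76) (nat_lit 14890829426) (nat_lit 13) (nat_lit 4) (nat_lit 14) (nat_lit 5) (nat_lit 14) (nat_lit 4) (nat_lit 455) (nat_lit 389) (nat_lit 356)))) (XT.nd (nat_lit 78) (nat_lit 152) (nat_lit 0) (XT.lf (nat_lit 0) (nat_lit 39309241840) (nat_lit 76) (nat_lit 8169928010) (nat_lit 76) (nat_lit 4483010971) (nat_lit 13) (nat_lit 4) (nat_lit 14) (nat_lit 5) (nat_lit 14) (nat_lit 4) (nat_lit 456) (nat_lit 389) (nat_lit 355)) (XT.nd (nat_lit 78) (nat_lit 0) (nat_lit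 0) (XT.lf (nat_lit 0) (nat_lit 6627983669) (nat_lit 152) (nat_lit 45384369071) (nat_lit 0) (nat_lit 3194244701) (nat_lit 11) (nat_lit 5) (nat_lit 13) (nat_lit 4) (nat_lit 11) (nat_lit 4) (nat_lit 457) (nat_lit 389) (nat_lit 354)) (XT.lf (nat_lit 0) (nat_lit 18842362881) (nat_lit 152) (nat_lit 24432180747) (nat_lit 0) (nat_lit 15390173083) (nat_lit 11) (nat_lit 5) (nat_lit 13) (nat_lit 4) (nat_lit 11) (nat_lit 4) (nat_lit 458) (nat_lit 389) (nat_lit 353)))))) (XT.nd (nat_lit 468) (nat_lit 228) (nat_lit 0) (XT.nd (nat_lit 234) (nat_lit 152) (nat_lit 0) (XT.nd (nat_lit 78) (nat_lit 76) (nat_lit 0) (XT.lf (nat_lit 0) (nat_lit 31931631802) (nat_lit 152) (nat_lit 2013677580) (nat_lit 0) (nat_lit 28462357903) (nat_lit 11) (nat_lit 5) (nat_lit 13) (nat_lit 4) (nat_lit 11) (nat_lit 4) (nat_lit 459) (nat_lit 389) (nat_lit 352)) (XT.nd (nat_lit 78) (nat_lit 0) (nat_lit 0) (XT.lf (nat_lit 0) (nat_lit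 23162681978) (nat_lit 76) (nat_lit 23367737552) (nat_lit 76) (nat_lit 19882645041) (nat_lit 10) (nat_lit 4) (nat_lit 11) (nat_lit 5) (nat_lit 11) (nat_lit 4) (nat_lit 460) (nat_lit 389) (nat_lit 351)) (XT.lf (nat_lit 0) (nat_lit 50278274276) (nat_lit 76) (nat_lit 11981666540) (nat_lit 76) (nat_lit 8481927165) (nat_lit 10) (nat_lit 4) (nat_lit 11) (nat_lit 5) (nat_lit 11) (nat_lit 4) (nat_lit 461) (nat_lit 389) (nat_lit 350)))) (XT.nd (nat_lit 78) (nat_lit 0) (nat_lit 0) (XT.lf (nat_lit 0) (nat_lit 3659977903) (nat_lit 152) (nat_lit 71341045572) (nat_lit 0) (nat_lit 406921158) (nat_lit 8) (nat_lit 5) (nat_lit 10) (nat_lit 4) (nat_lit 8) (nat_lit 4) (nat_lit 462) (nat_lit 389) (nat_lit 349)) (XT.nd (nat_lit 78) (nat_lit 0) (nat_lit 0) (XT.lf (nat_lit 0) (nat_lit 17112737215) (nat_lit 152) (nat_lit 49405073025) (nat_lit 0) (nat_lit 13848053318) (nat_lit 8) (nat_lit 5) (nat_lit 10) (nat_lit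 4) (nat_lit 8) (nat_lit 4) (nat_lit 463) (nat_lit 389) (nat_lit 348)) (XT.lf (nat_lit 0) (nat_lit 31560689892) (nat_lit 152) (nat_lit 25880968761) (nat_lit 0) (nat_lit 28285240113) (nat_lit 8) (nat_lit 5) (nat_lit 10) (nat_lit 4) (nat_lit 8) (nat_lit 4) (nat_lit 464) (nat_lit 389) (nat_lit 347))))) (XT.nd (nat_lit 234) (nat_lit 152) (nat_lit 0) (XT.nd (nat_lit 78) (nat_lit 76) (nat_lit 0) (XT.lf (nat_lit 0) (nat_lit 47089453430) (nat_lit 152) (nat_lit 629330680) (nat_lit 0) (nat_lit 43804035242) (nat_lit 8) (nat_lit 5) (nat_lit 10) (nat_lit 4) (nat_lit 8) (nat_lit 4) (nat_lit 465) (nat_lit 389) (nat_lit 346)) (XT.nd (nat_lit 78) (nat_lit 0) (nat_lit 0) (XT.lf (nat_lit 0) (nat_lit 27894896240) (nat_lit 76) (nat_lit 36567026817) (nat_lit 76) (nat_lit 33272378621) (nat_lit 7) (nat_lit 4) (nat_lit 8) (nat_lit 5) (nat_lit 8) (nat_lit 4) (nat_lit 466) (nat_lit 389) (nat_lit 345)) (XT.lf (nat_lit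 0) (nat_lit 58597513202) (nat_lit 76) (nat_lit 24576210823) (nat_lit 76) (nat_lit 21273016323) (nat_lit 7) (nat_lit 4) (nat_lit 8) (nat_lit 5) (nat_lit 8) (nat_lit 4) (nat_lit 467) (nat_lit 389) (nat_lit 344)))) (XT.nd (nat_lit 156) (nat_lit 0) (nat_lit 0) (XT.nd (nat_lit 78) (nat_lit 152) (nat_lit 0) (XT.lf (nat_lit 0) (nat_lit 91627322200) (nat_lit 76) (nat_lit 11692486456) (nat_lit 76) (nat_lit 8381378711) (nat_lit 7) (nat_lit 4) (nat_lit 8) (nat_lit 5) (nat_lit 8) (nat_lit 4) (nat_lit 468) (nat_lit 389) (nat_lit 343)) (XT.lf (nat_lit 0) (nat_lit 5455237400) (nat_lit 152) (nat_lit 111672209697) (nat_lit 0) (nat_lit 2382612564) (nat_lit 5) (nat_lit 5) (nat_lit 7) (nat_lit 4) (nat_lit 5) (nat_lit 4) (nat_lit 469) (nat_lit 389) (nat_lit 342))) (XT.nd (nat_lit 78) (nat_lit 0) (nat_lit 0) (XT.lf (nat_lit 0) (nat_lit 20753312837) (nat_lit 152) (nat_lit 89433919800) (nat_lit 0) (nat_lit 17674406212)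 (nat_lit 5) (nat_lit 5) (nat_lit 7) (nat_lit 4) (nat_lit 5) (nat_lit 4) (nat_lit 470) (nat_lit 389) (nat_lit 341)) (XT.lf (nat_lit 0) (nat_lit 37220169691) (nat_lit 152) (nat_lit 65530133564) (nat_lit 0) (nat_lit 34135446596) (nat_lit 5) (nat_lit 5) (nat_lit 7) (nat_lit 4) (nat_lit 5) (nat_lit 4) (nat_lit 471) (nat_lit 389) (nat_lit 340))))))))
noncomputable def xc66 : XT := (XT.nd (nat_lit 1950) (nat_lit 0) (nat_lit 0) (XT.nd (nat_lit 936) (nat_lit 76) (nat_lit 0) (XT.nd (nat_lit 468) (nat_lit 152) (nat_lit 0) (XT.nd (nat_lit 234) (nat_lit 0) (nat_lit 0) (XT.nd (nat_lit 78) (nat_lit 76) (nat_lit 0) (XT.lf (nat_lit 0) (nat_lit 54953389339) (nat_lit 152) (nat_lit 39819198924) (nat_lit 0) (nat_lit 51863280622) (nat_lit 5) (nat_lit 5) (nat_lit 7) (nat_lit 4) (nat_lit 5) (nat_lit 4) (nat_lit 472) (nat_lit 389) (nat_lit 339)) (XT.nd (nat_lit 78) (nat_lit 76) (nat_lit 0) (XT.lf (nat_lit 0) (nat_lit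 74058057525) (nat_lit 152) (nat_lit 12148754784) (nat_lit 0) (nat_lit 70962962122) (nat_lit 5) (nat_lit 5) (nat_lit 7) (nat_lit 4) (nat_lit 5) (nat_lit 4) (nat_lit 473) (nat_lit 389) (nat_lit 338)) (XT.lf (nat_lit 0) (nat_lit 18574335337) (nat_lit 76) (nat_lit 76519764971) (nat_lit 76) (nat_lit 73420052266) (nat_lit 4) (nat_lit 4) (nat_lit 5) (nat_lit 5) (nat_lit 5) (nat_lit 4) (nat_lit 474) (nat_lit 389) (nat_lit 337)))) (XT.nd (nat_lit 78) (nat_lit 0) (nat_lit 0) (XT.lf (nat_lit 0) (nat_lit 52358312444) (nat_lit 76) (nat_lit 65744295128) (nat_lit 76) (nat_lit 62640307143) (nat_lit 4) (nat_lit 4) (nat_lit 5) (nat_lit 5) (nat_lit 5) (nat_lit 4) (nat_lit 475) (nat_lit 389) (nat_lit 336)) (XT.nd (nat_lit 78) (nat_lit 0) (nat_lit 0) (XT.lf (nat_lit 0) (nat_lit 88763645983) (nat_lit 76) (nat_lit 54148716628) (nat_lit 76) (nat_lit 51040770051) (nat_lit 4) (nat_lit 4) (nat_lit 5) (nat_lit 5)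 (nat_lit 5) (nat_lit 4) (nat_lit 476) (nat_lit 389) (nat_lit 335)) (XT.lf (nat_lit 0) (nat_lit 128006071266) (nat_lit 76) (nat_lit 41664314933) (nat_lit 76) (nat_lit 38552702993) (nat_lit 4) (nat_lit 4) (nat_lit 5) (nat_lit 5) (nat_lit 5) (nat_lit 4) (nat_lit 477) (nat_lit 389) (nat_lit 334))))) (XT.nd (nat_lit 234) (nat_lit 0) (nat_lit 0) (XT.nd (nat_lit 78) (nat_lit 152) (nat_lit 0) (XT.lf (nat_lit 0) (nat_lit 170318135997) (nat_lit 76) (nat_lit 28217108403) (nat_lit 76) (nat_lit 25102102608) (nat_lit 4) (nat_lit 4) (nat_lit 5) (nat_lit 5) (nat_lit 5) (nat_lit 4) (nat_lit 478) (nat_lit 389) (nat_lit 333)) (XT.nd (nat_lit 78) (nat_lit 152) (nat_lit 0) (XT.lf (nat_lit 0) (nat_lit 215950578337) (nat_lit 76) (nat_lit 13727409887) (nat_lit 76) (nat_lit 10609261634) (nat_lit 4) (nat_lit 4) (nat_lit 5) (nat_lit 5) (nat_lit 5) (nat_lit 4) (nat_lit 479) (nat_lit 389) (nat_lit 332)) (XT.lf (nat_lit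 0) (nat_lit 4985749586) (nat_lit 152) (nat_lit 251162210448) (nat_lit 0) (nat_lit 2095881126) (nat_lit 2) (nat_lit 5) (nat_lit 4) (nat_lit 4) (nat_lit 2) (nat_lit 4) (nat_lit 480) (nat_lit 389) (nat_lit 331)))) (XT.nd (nat_lit 78) (nat_lit 0) (nat_lit 0) (XT.lf (nat_lit 0) (nat_lit 22264718309) (nat_lit 152) (nat_lit 235897078526) (nat_lit 0) (nat_lit 19372355264) (nat_lit 2) (nat_lit 5) (nat_lit 4) (nat_lit 4) (nat_lit 2) (nat_lit 4) (nat_lit 481) (nat_lit 389) (nat_lit 330)) (XT.nd (nat_lit 78) (nat_lit 0) (nat_lit 0) (XT.lf (nat_lit 0) (nat_lit 40898490780) (nat_lit 152) (nat_lit 219467580420) (nat_lit 0) (nat_lit 38003817934) (nat_lit 2) (nat_lit 5) (nat_lit 4) (nat_lit 4) (nat_lit 2) (nat_lit 4) (nat_lit 482) (nat_lit 389) (nat_lit 329)) (XT.lf (nat_lit 0) (nat_lit 60997489355) (nat_lit 152) (nat_lit 201776356143) (nat_lit 0) (nat_lit 58100677805) (nat_lit 2) (nat_lit 5) (nat_lit 4)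 (nat_lit 4) (nat_lit 2) (nat_lit 4) (nat_lit 483) (nat_lit 389) (nat_lit 328)))))) (XT.nd (nat_lit 468) (nat_lit 76) (nat_lit 0) (XT.nd (nat_lit 234) (nat_lit 0) (nat_lit 0) (XT.nd (nat_lit 78) (nat_lit 0) (nat_lit 0) (XT.lf (nat_lit 0) (nat_lit 82680819211) (nat_lit 152) (nat_lit 182718568810) (nat_lit 0) (nat_lit 79782027379) (nat_lit 2) (nat_lit 5) (nat_lit 4) (nat_lit 4) (nat_lit 2) (nat_lit 4) (nat_lit 484) (nat_lit 389) (nat_lit 327)) (XT.nd (nat_lit 78) (nat_lit 0) (nat_lit 0) (XT.lf (nat_lit 0) (nat_lit 106076974154) (nat_lit 152) (nat_lit 162181283385) (nat_lit 0) (nat_lit 103176348728) (nat_lit 2) (nat_lit 5) (nat_lit 4) (nat_lit 4) (nat_lit 2) (nat_lit 4) (nat_lit 485) (nat_lit 389) (nat_lit 326)) (XT.lf (nat_lit 0) (nat_lit 131324598065) (nat_lit 152) (nat_lit 140042797435) (nat_lit 0) (nat_lit 128422274867) (nat_lit 2) (nat_lit 5) (nat_lit 4) (nat_lit 4) (nat_lit 2) (nat_lit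 4) (nat_lit 486) (nat_lit 389) (nat_lit 325)))) (XT.nd (nat_lit 78) (nat_lit 0) (nat_lit 0) (XT.lf (nat_lit 0) (nat_lit 158573306495) (nat_lit 152) (nat_lit 116171919933) (nat_lit 0) (nat_lit 155669411285) (nat_lit 2) (nat_lit 5) (nat_lit 4) (nat_lit 4) (nat_lit 2) (nat_lit 4) (nat_lit 487) (nat_lit 389) (nat_lit 324)) (XT.nd (nat_lit 78) (nat_lit 0) (nat_lit 0) (XT.lf (nat_lit 0) (nat_lit 187984573269) (nat_lit 152) (nat_lit 90427193827) (nat_lit 0) (nat_lit 185079222494) (nat_lit 2) (nat_lit 5) (nat_lit 4) (nat_lit 4) (nat_lit 2) (nat_lit 4) (nat_lit 488) (nat_lit 389) (nat_lit 323)) (XT.lf (nat_lit 0) (nat_lit 219732687378) (nat_lit 152) (nat_lit 62656057778) (nat_lit 0) (nat_lit 216825988855) (nat_lit 2) (nat_lit 5) (nat_lit 4) (nat_lit 4) (nat_lit 2) (nat_lit 4) (nat_lit 489) (nat_lit 389) (nat_lit 322))))) (XT.nd (nat_lit 234) (nat_lit 0) (nat_lit 0) (XT.nd (nat_lit 78) (nat_lit 76)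 (nat_lit 0) (XT.lf (nat_lit 0) (nat_lit 254005785792) (nat_lit 152) (nat_lit 32693942089) (nat_lit 0) (nat_lit 251097839356) (nat_lit 2) (nat_lit 5) (nat_lit 4) (nat_lit 4) (nat_lit 2) (nat_lit 4) (nat_lit 490) (nat_lit 389) (nat_lit 321)) (XT.nd (nat_lit 78) (nat_lit 76) (nat_lit 0) (XT.lf (nat_lit 0) (nat_lit 291006968355) (nat_lit 152) (nat_lit 363293483) (nat_lit 0) (nat_lit 288097866444) (nat_lit 2) (nat_lit 5) (nat_lit 4) (nat_lit 4) (nat_lit 2) (nat_lit 4) (nat_lit 491) (nat_lit 389) (nat_lit 320)) (XT.lf (nat_lit 0) (nat_lit 36345632822) (nat_lit 76) (nat_lit 295483981854) (nat_lit 76) (nat_lit 292573810059) (nat_lit 1) (nat_lit 4) (nat_lit 2) (nat_lit 5) (nat_lit 2) (nat_lit 4) (nat_lit 492) (nat_lit 389) (nat_lit 319)))) (XT.nd (nat_lit 156) (nat_lit 0) (nat_lit 0) (XT.nd (nat_lit 78) (nat_lit 0) (nat_lit 0) (XT.lf (nat_lit 0) (nat_lit 75986270694) (nat_lit 76) (nat_lit 299929317719)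 (nat_lit 76) (nat_lit 297018155289) (nat_lit 1) (nat_lit 4) (nat_lit 2) (nat_lit 5) (nat_lit 2) (nat_lit 4) (nat_lit 493) (nat_lit 389) (nat_lit 318)) (XT.lf (nat_lit 0) (nat_lit 118774397223) (nat_lit 76) (nat_lit 304742545250) (nat_lit 76) (nat_lit 301830465567) (nat_lit 1) (nat_lit 4) (nat_lit 2) (nat_lit 5) (nat_lit 2) (nat_lit 4) (nat_lit 494) (nat_lit 389) (nat_lit 317))) (XT.nd (nat_lit 78) (nat_lit 0) (nat_lit 0) (XT.lf (nat_lit 0) (nat_lit 164963571678) (nat_lit 76) (nat_lit 309952187278) (nat_lit 76) (nat_lit 307039258286) (nat_lit 1) (nat_lit 4) (nat_lit 2) (nat_lit 5) (nat_lit 2) (nat_lit 4) (nat_lit 495) (nat_lit 389) (nat_lit 316)) (XT.lf (nat_lit 0) (nat_lit 214827507686) (nat_lit 76) (nat_lit 315589115756) (nat_lit 76) (nat_lit 312675400367) (nat_lit 1) (nat_lit 4) (nat_lit 2) (nat_lit 5) (nat_lit 2) (nat_lit 4) (nat_lit 496) (nat_lit 389) (nat_lit 315))))))) (XT.nd (nat_lit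 936) (nat_lit 0) (nat_lit 0) (XT.nd (nat_lit 468) (nat_lit 0) (nat_lit 0) (XT.nd (nat_lit 234) (nat_lit 0) (nat_lit 0) (XT.nd (nat_lit 78) (nat_lit 0) (nat_lit 0) (XT.lf (nat_lit 0) (nat_lit 268661695237) (nat_lit 76) (nat_lit 321686734704) (nat_lit 76) (nat_lit 318772291170) (nat_lit 1) (nat_lit 4) (nat_lit 2) (nat_lit 5) (nat_lit 2) (nat_lit 4) (nat_lit 497) (nat_lit 389) (nat_lit 314)) (XT.nd (nat_lit 78) (nat_lit 0) (nat_lit 0) (XT.lf (nat_lit 0) (nat_lit 326785151740) (nat_lit 76) (nat_lit 328281178161) (nat_lit 76) (nat_lit 325366060418) (nat_lit 1) (nat_lit 4) (nat_lit 2) (nat_lit 5) (nat_lit 2) (nat_lit 4) (nat_lit 498) (nat_lit 389) (nat_lit 313)) (XT.lf (nat_lit 0) (nat_lit 389542312492) (nat_lit 76) (nat_lit 335411524310) (nat_lit 76) (nat_lit 332495782299) (nat_lit 1) (nat_lit 4) (nat_lit 2) (nat_lit 5) (nat_lit 2) (nat_lit 4) (nat_lit 499) (nat_lit 389) (nat_lit 312)))) (XT.nd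 (nat_lit 78) (nat_lit 0) (nat_lit 0) (XT.lf (nat_lit 0) (nat_lit 457305071779) (nat_lit 76) (nat_lit 343120027054) (nat_lit 76) (nat_lit 340203707018) (nat_lit 1) (nat_lit 4) (nat_lit 2) (nat_lit 5) (nat_lit 2) (nat_lit 4) (nat_lit 500) (nat_lit 389) (nat_lit 311)) (XT.nd (nat_lit 78) (nat_lit 0) (nat_lit 0) (XT.lf (nat_lit 0) (nat_lit 530474986693) (nat_lit 76) (nat_lit 351452366409) (nat_lit 76) (nat_lit 348535511164) (nat_lit 1) (nat_lit 4) (nat_lit 2) (nat_lit 5) (nat_lit 2) (nat_lit 4) (nat_lit 501) (nat_lit 389) (nat_lit 310)) (XT.lf (nat_lit 0) (nat_lit 609485656731) (nat_lit 76) (nat_lit 360457919202) (nat_lit 76) (nat_lit 357540568393) (nat_lit 1) (nat_lit 4) (nat_lit 2) (nat_lit 5) (nat_lit 2) (nat_lit 4) (nat_lit 502) (nat_lit 389) (nat_lit 309))))) (XT.nd (nat_lit 234) (nat_lit 0) (nat_lit 0) (XT.nd (nat_lit 78) (nat_lit 0) (nat_lit 0) (XT.lf (nat_lit 0) (nat_lit 694805293269)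 (nat_lit 76) (nat_lit 370190051670) (nat_lit 76) (nat_lit 367272242006) (nat_lit 1) (nat_lit 4) (nat_lit 2) (nat_lit 5) (nat_lit 2) (nat_lit 4) (nat_lit 503) (nat_lit 389) (nat_lit 308)) (XT.nd (nat_lit 78) (nat_lit 0) (nat_lit 0) (XT.lf (nat_lit 0) (nat_lit 786939494154) (nat_lit 76) (nat_lit 380706435710) (nat_lit 76) (nat_lit 377788201181) (nat_lit 1) (nat_lit 4) (nat_lit 2) (nat_lit 5) (nat_lit 2) (nat_lit 4) (nat_lit 504) (nat_lit 389) (nat_lit 307)) (XT.lf (nat_lit 0) (nat_lit 886434239836) (nat_lit 76) (nat_lit 392069390635) (nat_lit 76) (nat_lit 389150762711) (nat_lit 1) (nat_lit 4) (nat_lit 2) (nat_lit 5) (nat_lit 2) (nat_lit 4) (nat_lit 505) (nat_lit 389) (nat_lit 306)))) (XT.nd (nat_lit 78) (nat_lit 0) (nat_lit 0) (XT.lf (nat_lit 0) (nat_lit 993879128808) (nat_lit 76) (nat_lit 404346252475) (nat_lit 76) (nat_lit 401427260297) (nat_lit 1) (nat_lit 4) (nat_lit 2) (nat_lit 5) (nat_lit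 2) (nat_lit 4) (nat_lit 506) (nat_lit 389) (nat_lit 305)) (XT.nd (nat_lit 78) (nat_lit 0) (nat_lit 0) (XT.lf (nat_lit 0) (nat_lit 1109910871523) (nat_lit 76) (nat_lit 417609773002) (nat_lit 76) (nat_lit 414690443551) (nat_lit 1) (nat_lit 4) (nat_lit 2) (nat_lit 5) (nat_lit 2) (nat_lit 4) (nat_lit 507) (nat_lit 389) (nat_lit 304)) (XT.lf (nat_lit 0) (nat_lit 1235217063492) (nat_lit 76) (nat_lit 431938550857) (nat_lit 76) (nat_lit 429018909117) (nat_lit 1) (nat_lit 4) (nat_lit 2) (nat_lit 5) (nat_lit 2) (nat_lit 4) (nat_lit 508) (nat_lit 389) (nat_lit 303)))))) (XT.nd (nat_lit 468) (nat_lit 0) (nat_lit 0) (XT.nd (nat_lit 234) (nat_lit 0) (nat_lit 0) (XT.nd (nat_lit 78) (nat_lit 0) (nat_lit 0) (XT.lf (nat_lit 0) (nat_lit 1370540259929) (nat_lit 76) (nat_lit 447417497316) (nat_lit 76) (nat_lit 444497566420) (nat_lit 1) (nat_lit 4) (nat_lit 2) (nat_lit 5) (nat_lit 2) (nat_lit 4) (nat_lit 509)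 (nat_lit 389) (nat_lit 302)) (XT.nd (nat_lit 78) (nat_lit 0) (nat_lit 0) (XT.lf (nat_lit 0) (nat_lit 1516682376071) (nat_lit 76) (nat_lit 464138339470) (nat_lit 76) (nat_lit 461218140837) (nat_lit 1) (nat_lit 4) (nat_lit 2) (nat_lit 5) (nat_lit 2) (nat_lit 4) (nat_lit 510) (nat_lit 389) (nat_lit 301)) (XT.lf (nat_lit 0) (nat_lit 1674509439273) (nat_lit 76) (nat_lit 482200163790) (nat_lit 76) (nat_lit 479279717252) (nat_lit 1) (nat_lit 4) (nat_lit 2) (nat_lit 5) (nat_lit 2) (nat_lit 4) (nat_lit 511) (nat_lit 389) (nat_lit 300)))) (XT.nd (nat_lit 78) (nat_lit 0) (nat_lit 0) (XT.lf (nat_lit 0) (nat_lit 1844956721021) (nat_lit 76) (nat_lit 501710003310) (nat_lit 76) (nat_lit 498789327229) (nat_lit 1) (nat_lit 4) (nat_lit 2) (nat_lit 5) (nat_lit 2) (nat_lit 4) (nat_lit 512) (nat_lit 389) (nat_lit 299)) (XT.nd (nat_lit 78) (nat_lit 0) (nat_lit 0) (XT.lf (nat_lit 0) (nat_lit 2029034279280) (nat_lit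 76) (nat_lit 522783471893) (nat_lit 76) (nat_lit 519862583274) (nat_lit 1) (nat_lit 4) (nat_lit 2) (nat_lit 5) (nat_lit 2) (nat_lit 4) (nat_lit 513) (nat_lit 389) (nat_lit 298)) (XT.lf (nat_lit 0) (nat_lit 2227832944026) (nat_lit 76) (nat_lit 545545449353) (nat_lit 76) (nat_lit 542624363938) (nat_lit 1) (nat_lit 4) (nat_lit 2) (nat_lit 5) (nat_lit 2) (nat_lit 4) (nat_lit 514) (nat_lit 389) (nat_lit 297))))) (XT.nd (nat_lit 234) (nat_lit 0) (nat_lit 0) (XT.nd (nat_lit 78) (nat_lit 0) (nat_lit 0) (XT.lf (nat_lit 0) (nat_lit 2442530781419) (nat_lit 76) (nat_lit 570130821482) (nat_lit 76) (nat_lit 567209553850) (nat_lit 1) (nat_lit 4) (nat_lit 2) (nat_lit 5) (nat_lit 2) (nat_lit 4) (nat_lit 515) (nat_lit 389) (nat_lit 296)) (XT.nd (nat_lit 78) (nat_lit 0) (nat_lit 0) (XT.lf (nat_lit 0) (nat_lit 2674400074942) (nat_lit 76) (nat_lit 596685279375) (nat_lit 76) (nat_lit 593763843023) (nat_lit 1)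 (nat_lit 4) (nat_lit 2) (nat_lit 5) (nat_lit 2) (nat_lit 4) (nat_lit 516) (nat_lit 389) (nat_lit 295)) (XT.lf (nat_lit 0) (nat_lit 2924814864851) (nat_lit 76) (nat_lit 625366182782) (nat_lit 76) (nat_lit 622444590207) (nat_lit 1) (nat_lit 4) (nat_lit 2) (nat_lit 5) (nat_lit 2) (nat_lit 4) (nat_lit 517) (nat_lit 389) (nat_lit 294)))) (XT.nd (nat_lit 156) (nat_lit 0) (nat_lit 0) (XT.nd (nat_lit 78) (nat_lit 0) (nat_lit 0) (XT.lf (nat_lit 0) (nat_lit 3195259090642) (nat_lit 76) (nat_lit 656343492611) (nat_lit 76) (nat_lit 653421755387) (nat_lit 1) (nat_lit 4) (nat_lit 2) (nat_lit 5) (nat_lit 2) (nat_lit 4) (nat_lit 518) (nat_lit 389) (nat_lit 293)) (XT.lf (nat_lit 0) (nat_lit 3487335384765) (nat_lit 76) (nat_lit 689800778108) (nat_lit 76) (nat_lit 686878906948) (nat_lit 1) (nat_lit 4) (nat_lit 2) (nat_lit 5) (nat_lit 2) (nat_lit 4) (nat_lit 519) (nat_lit 389) (nat_lit 292))) (XT.nd (nat_lit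 78) (nat_lit 0) (nat_lit 0) (XT.lf (nat_lit 0) (nat_lit 3802774569703) (nat_lit 76) (nat_lit 725936304666) (nat_lit 76) (nat_lit 723014309492) (nat_lit 1) (nat_lit 4) (nat_lit 2) (nat_lit 5) (nat_lit 2) (nat_lit 4) (nat_lit 520) (nat_lit 389) (nat_lit 291)) (XT.lf (nat_lit 0) (nat_lit 4143445914701) (nat_lit 76) (nat_lit 764964208740) (nat_lit 76) (nat_lit 762042098738) (nat_lit 1) (nat_lit 4) (nat_lit 2) (nat_lit 5) (nat_lit 2) (nat_lit 4) (nat_lit 521) (nat_lit 389) (nat_lit 290))))))))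
noncomputable def xc67 : XT := (XT.nd (nat_lit 55380) (nat_lit 0) (nat_lit 988) (XT.nd (nat_lit 936) (nat_lit 0) (nat_lit 0) (XT.nd (nat_lit 468) (nat_lit 0) (nat_lit 0) (XT.nd (nat_lit 234) (nat_lit 0) (nat_lit 0) (XT.nd (nat_lit 78) (nat_lit 0) (nat_lit 0) (XT.lf (nat_lit 0) (nat_lit 4511368212913) (nat_lit 76) (nat_lit 807115766799) (nat_lit 76) (nat_lit 804193550474) (nat_lit 1) (nat_lit 4) (nat_lit 2) (nat_lit 5) (nat_lit 2) (nat_lit 4) (nat_lit 522) (nat_lit 389) (nat_lit 289)) (XT.nd (nat_lit 78) (nat_lit 0) (nat_lit 0) (XT.lf (nat_lit 0) (nat_lit 4908721744626) (nat_lit 76) (nat_lit 852640765852) (nat_lit 76) (nat_lit 849718451081) (nat_lit 1) (nat_lit 4) (nat_lit 2) (nat_lit 5) (nat_lit 2) (nat_lit 4) (nat_lit 523) (nat_lit 389) (nat_lit 288)) (XT.lf (nat_lit 0) (nat_lit 5337861197434) (nat_lit 76) (nat_lit 901808983673) (nat_lit 76) (nat_lit 898886577747) (nat_lit 1) (nat_lit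 4) (nat_lit 2) (nat_lit 5) (nat_lit 2) (nat_lit 4) (nat_lit 524) (nat_lit 389) (nat_lit 287)))) (XT.nd (nat_lit 78) (nat_lit 0) (nat_lit 0) (XT.lf (nat_lit 0) (nat_lit 5801329619948) (nat_lit 76) (nat_lit 954911787477) (nat_lit 76) (nat_lit 951989297149) (nat_lit 1) (nat_lit 4) (nat_lit 2) (nat_lit 5) (nat_lit 2) (nat_lit 4) (nat_lit 525) (nat_lit 389) (nat_lit 286)) (XT.nd (nat_lit 78) (nat_lit 0) (nat_lit 0) (XT.lf (nat_lit 0) (nat_lit 6301873491708) (nat_lit 76) (nat_lit 1012263860547) (nat_lit 76) (nat_lit 1009341292070) (nat_lit 1) (nat_lit 4) (nat_lit 2) (nat_lit 5) (nat_lit 2) (nat_lit 4) (nat_lit 526) (nat_lit 389) (nat_lit 285)) (XT.lf (nat_lit 0) (nat_lit 6842458998621) (nat_lit 76) (nat_lit 1074205067020) (nat_lit 76) (nat_lit 1071282426181) (nat_lit 1) (nat_lit 4) (nat_lit 2) (nat_lit 5) (nat_lit 2) (nat_lit 4) (nat_lit 527) (nat_lit 389) (nat_lit 284))))) (XT.nd (nat_lit 234)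 (nat_lit 0) (nat_lit 0) (XT.nd (nat_lit 78) (nat_lit 0) (nat_lit 0) (XT.lf (nat_lit 0) (nat_lit 7426289610356) (nat_lit 76) (nat_lit 1141102465896) (nat_lit 76) (nat_lit 1138179758056) (nat_lit 1) (nat_lit 4) (nat_lit 2) (nat_lit 5) (nat_lit 2) (nat_lit 4) (nat_lit 528) (nat_lit 389) (nat_lit 283)) (XT.nd (nat_lit 78) (nat_lit 0) (nat_lit 0) (XT.lf (nat_lit 0) (nat_lit 8056825063874) (nat_lit 76) (nat_lit 1213352486207) (nat_lit 76) (nat_lit 1210429716329) (nat_lit 1) (nat_lit 4) (nat_lit 2) (nat_lit 5) (nat_lit 2) (nat_lit 4) (nat_lit 529) (nat_lit 389) (nat_lit 282)) (XT.lf (nat_lit 0) (nat_lit 8737801865564) (nat_lit 76) (nat_lit 1291383276220) (nat_lit 76) (nat_lit 1288460448899) (nat_lit 1) (nat_lit 4) (nat_lit 2) (nat_lit 5) (nat_lit 2) (nat_lit 4) (nat_lit 530) (nat_lit 389) (nat_lit 281)))) (XT.nd (nat_lit 78) (nat_lit 0) (nat_lit 0) (XT.lf (nat_lit 0) (nat_lit 9473255433511) (nat_lit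 76) (nat_lit 1375657240617) (nat_lit 76) (nat_lit 1372734360109) (nat_lit 1) (nat_lit 4) (nat_lit 2) (nat_lit 5) (nat_lit 2) (nat_lit 4) (nat_lit 531) (nat_lit 389) (nat_lit 280)) (XT.nd (nat_lit 78) (nat_lit 0) (nat_lit 0) (XT.lf (nat_lit 0) (nat_lit 10267544011081) (nat_lit 76) (nat_lit 1466673780669) (nat_lit 76) (nat_lit 1463750850913) (nat_lit 1) (nat_lit 4) (nat_lit 2) (nat_lit 5) (nat_lit 2) (nat_lit 4) (nat_lit 532) (nat_lit 389) (nat_lit 279)) (XT.lf (nat_lit 0) (nat_lit 11125374493548) (nat_lit 76) (nat_lit 1564972253650) (nat_lit 76) (nat_lit 1562049278294) (nat_lit 1) (nat_lit 4) (nat_lit 2) (nat_lit 5) (nat_lit 2) (nat_lit 4) (nat_lit 533) (nat_lit 389) (nat_lit 278)))))) (XT.nd (nat_lit 53898) (nat_lit 0) (nat_lit 2736) (XT.nd (nat_lit 53664) (nat_lit 0) (nat_lit 3496) (XT.nd (nat_lit 78) (nat_lit 0) (nat_lit 0) (XT.lf (nat_lit 0) (nat_lit 12051830320809) (nat_lit 76) (nat_lit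 1671135169029) (nat_lit 76) (nat_lit 1668212151451) (nat_lit 1) (nat_lit 4) (nat_lit 2) (nat_lit 5) (nat_lit 2) (nat_lit 4) (nat_lit 534) (nat_lit 389) (nat_lit 277)) (XT.nd (nat_lit 53508) (nat_lit 0) (nat_lit 3952) (XT.lf (nat_lit 0) (nat_lit 13052401601468) (nat_lit 76) (nat_lit 1785791640380) (nat_lit 76) (nat_lit 1782868583708) (nat_lit 1) (nat_lit 4) (nat_lit 2) (nat_lit 5) (nat_lit 2) (nat_lit 4) (nat_lit 535) (nat_lit 389) (nat_lit 276)) (XT.lf (nat_lit 0) (nat_lit 1515657617) (nat_lit 228) (nat_lit 1655101456) (nat_lit 0) (nat_lit 1515657617) (nat_lit 53) (nat_lit 5) (nat_lit 56) (nat_lit 4) (nat_lit 53) (nat_lit 4) (nat_lit 420) (nat_lit 390) (nat_lit 390)))) (XT.nd (nat_lit 78) (nat_lit 304) (nat_lit 0) (XT.lf (nat_lit 0) (nat_lit 5189415838) (nat_lit 152) (nat_lit 2649626659) (nat_lit 152) (nat_lit 1848354764) (nat_lit 51) (nat_lit 4) (nat_lit 53) (nat_lit 5) (nat_lit 53) (nat_lit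 4) (nat_lit 421) (nat_lit 390) (nat_lit 389)) (XT.nd (nat_lit 78) (nat_lit 152) (nat_lit 0) (XT.lf (nat_lit 0) (nat_lit 2807060367) (nat_lit 152) (nat_lit 5839895315) (nat_lit 0) (nat_lit 1378180443) (nat_lit 49) (nat_lit 5) (nat_lit 51) (nat_lit 4) (nat_lit 49) (nat_lit 4) (nat_lit 422) (nat_lit 390) (nat_lit 388)) (XT.lf (nat_lit 0) (nat_lit 3012705738) (nat_lit 152) (nat_lit 4719290667) (nat_lit 152) (nat_lit 2654335279) (nat_lit 47) (nat_lit 4) (nat_lit 49) (nat_lit 5) (nat_lit 49) (nat_lit 4) (nat_lit 423) (nat_lit 390) (nat_lit 387))))) (XT.nd (nat_lit 234) (nat_lit 380) (nat_lit 0) (XT.nd (nat_lit 78) (nat_lit 228) (nat_lit 0) (XT.lf (nat_lit 0) (nat_lit 1709216554) (nat_lit 76) (nat_lit 388442438) (nat_lit 152) (nat_lit 8679462200) (nat_lit 45) (nat_lit 5) (nat_lit 46) (nat_lit 5) (nat_lit 47) (nat_lit 4) (nat_lit 424) (nat_lit 390) (nat_lit 386)) (XT.nd (nat_lit 78) (nat_lit 76)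 (nat_lit 0) (XT.lf (nat_lit 0) (nat_lit 119655264) (nat_lit 152) (nat_lit 7016170978) (nat_lit 152) (nat_lit 4053905848) (nat_lit 43) (nat_lit 4) (nat_lit 45) (nat_lit 5) (nat_lit 45) (nat_lit 4) (nat_lit 425) (nat_lit 390) (nat_lit 385)) (XT.lf (nat_lit 0) (nat_lit 897592379) (nat_lit 228) (nat_lit 1562807435) (nat_lit 76) (nat_lit 9172923031) (nat_lit 42) (nat_lit 5) (nat_lit 45) (nat_lit 5) (nat_lit 43) (nat_lit 4) (nat_lit 426) (nat_lit 390) (nat_lit 384)))) (XT.nd (nat_lit 156) (nat_lit 228) (nat_lit 0) (XT.nd (nat_lit 78) (nat_lit 76) (nat_lit 0) (XT.lf (nat_lit 0) (nat_lit 6053604765) (nat_lit 152) (nat_lit 3571172056) (nat_lit 0) (nat_lit 2477028970) (nat_lit 41) (nat_lit 5) (nat_lit 43) (nat_lit 4) (nat_lit 41) (nat_lit 4) (nat_lit 427) (nat_lit 390) (nat_lit 383)) (XT.lf (nat_lit 0) (nat_lit 6754060165) (nat_lit 76) (nat_lit 4899466273) (nat_lit 76) (nat_lit 951746554) (nat_lit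 40) (nat_lit 4) (nat_lit 41) (nat_lit 5) (nat_lit 41) (nat_lit 4) (nat_lit 428) (nat_lit 390) (nat_lit 382))) (XT.nd (nat_lit 78) (nat_lit 76) (nat_lit 0) (XT.lf (nat_lit 0) (nat_lit 4307921030) (nat_lit 152) (nat_lit 8499267616) (nat_lit 0) (nat_lit 334428899) (nat_lit 38) (nat_lit 5) (nat_lit 40) (nat_lit 4) (nat_lit 38) (nat_lit 4) (nat_lit 429) (nat_lit 390) (nat_lit 381)) (XT.lf (nat_lit 0) (nat_lit 2110495270) (nat_lit 76) (nat_lit 7933964654) (nat_lit 76) (nat_lit 3665846511) (nat_lit 37) (nat_lit 4) (nat_lit 38) (nat_lit 5) (nat_lit 38) (nat_lit 4) (nat_lit 430) (nat_lit 390) (nat_lit 380))))))) (XT.nd (nat_lit 936) (nat_lit 760) (nat_lit 0) (XT.nd (nat_lit 468) (nat_lit 532) (nat_lit 0) (XT.nd (nat_lit 234) (nat_lit 228) (nat_lit 0) (XT.nd (nat_lit 78) (nat_lit 152) (nat_lit 0) (XT.lf (nat_lit 0) (nat_lit 1824562369) (nat_lit 152) (nat_lit 745830278) (nat_lit 76) (nat_lit 11750030145)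 (nat_lit 36) (nat_lit 5) (nat_lit 38) (nat_lit 5) (nat_lit 37) (nat_lit 4) (nat_lit 431) (nat_lit 390) (nat_lit 379)) (XT.nd (nat_lit 78) (nat_lit 76) (nat_lit 0) (XT.lf (nat_lit 0) (nat_lit 7687381776) (nat_lit 152) (nat_lit 4024920983) (nat_lit 0) (nat_lit 3248942586) (nat_lit 35) (nat_lit 5) (nat_lit 37) (nat_lit 4) (nat_lit 35) (nat_lit 4) (nat_lit 432) (nat_lit 390) (nat_lit 378)) (XT.lf (nat_lit 0) (nat_lit 7860087912) (nat_lit 76) (nat_lit 6221628174) (nat_lit 76) (nat_lit 1566630068) (nat_lit 34) (nat_lit 4) (nat_lit 35) (nat_lit 5) (nat_lit 35) (nat_lit 4) (nat_lit 433) (nat_lit 390) (nat_lit 377)))) (XT.nd (nat_lit 78) (nat_lit 76) (nat_lit 0) (XT.lf (nat_lit 0) (nat_lit 4230961954) (nat_lit 76) (nat_lit 137536879) (nat_lit 152) (nat_lit 12012978242) (nat_lit 32) (nat_lit 5) (nat_lit 33) (nat_lit 5) (nat_lit 34) (nat_lit 4) (nat_lit 434) (nat_lit 390) (nat_lit 376)) (XT.nd (nat_lit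 78) (nat_lit 76) (nat_lit 0) (XT.lf (nat_lit 0) (nat_lit 10855165977) (nat_lit 152) (nat_lit 114530304) (nat_lit 0) (nat_lit 6187406732) (nat_lit 32) (nat_lit 5) (nat_lit 34) (nat_lit 4) (nat_lit 32) (nat_lit 4) (nat_lit 435) (nat_lit 390) (nat_lit 375)) (XT.lf (nat_lit 0) (nat_lit 13157460535) (nat_lit 76) (nat_lit 4827176926) (nat_lit 76) (nat_lit 240413) (nat_lit 31) (nat_lit 4) (nat_lit 32) (nat_lit 5) (nat_lit 32) (nat_lit 4) (nat_lit 436) (nat_lit 390) (nat_lit 374))))) (XT.nd (nat_lit 234) (nat_lit 228) (nat_lit 0) (XT.nd (nat_lit 78) (nat_lit 152) (nat_lit 0) (XT.lf (nat_lit 0) (nat_lit 6525844509) (nat_lit 152) (nat_lit 10415097888) (nat_lit 0) (nat_lit 1919989999) (nat_lit 29) (nat_lit 5) (nat_lit 31) (nat_lit 4) (nat_lit 29) (nat_lit 4) (nat_lit 437) (nat_lit 390) (nat_lit 373)) (XT.nd (nat_lit 78) (nat_lit 76) (nat_lit 0) (XT.lf (nat_lit 0) (nat_lit 2891526957) (nat_lit 76)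 (nat_lit 10818443871) (nat_lit 76) (nat_lit 6086229314) (nat_lit 28) (nat_lit 4) (nat_lit 29) (nat_lit 5) (nat_lit 29) (nat_lit 4) (nat_lit 438) (nat_lit 390) (nat_lit 372)) (XT.lf (nat_lit 0) (nat_lit 727685082) (nat_lit 152) (nat_lit 3335629628) (nat_lit 76) (nat_lit 16733842480) (nat_lit 27) (nat_lit 5) (nat_lit 29) (nat_lit 5) (nat_lit 28) (nat_lit 4) (nat_lit 439) (nat_lit 390) (nat_lit 371)))) (XT.nd (nat_lit 78) (nat_lit 152) (nat_lit 0) (XT.lf (nat_lit 0) (nat_lit 7936659574) (nat_lit 152) (nat_lit 10568251601) (nat_lit 0) (nat_lit 3346337376) (nat_lit 26) (nat_lit 5) (nat_lit 28) (nat_lit 4) (nat_lit 26) (nat_lit 4) (nat_lit 440) (nat_lit 390) (nat_lit 370)) (XT.nd (nat_lit 78) (nat_lit 76) (nat_lit 0) (XT.lf (nat_lit 0) (nat_lit 4015189442) (nat_lit 76) (nat_lit 11824161715) (nat_lit 76) (nat_lit 7140961110) (nat_lit 25) (nat_lit 4) (nat_lit 26) (nat_lit 5) (nat_lit 26) (nat_lit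 4) (nat_lit 441) (nat_lit 390) (nat_lit 369)) (XT.lf (nat_lit 0) (nat_lit 283974357) (nat_lit 152) (nat_lit 4178532465) (nat_lit 76) (nat_lit 19727410721) (nat_lit 24) (nat_lit 5) (nat_lit 26) (nat_lit 5) (nat_lit 25) (nat_lit 4) (nat_lit 442) (nat_lit 390) (nat_lit 368)))))) (XT.nd (nat_lit 468) (nat_lit 380) (nat_lit 0) (XT.nd (nat_lit 234) (nat_lit 228) (nat_lit 0) (XT.nd (nat_lit 78) (nat_lit 76) (nat_lit 0) (XT.lf (nat_lit 0) (nat_lit 8129607256) (nat_lit 152) (nat_lit 13694897316) (nat_lit 0) (nat_lit 3639952262) (nat_lit 23) (nat_lit 5) (nat_lit 25) (nat_lit 4) (nat_lit 23) (nat_lit 4) (nat_lit 443) (nat_lit 390) (nat_lit 367)) (XT.nd (nat_lit 78) (nat_lit 0) (nat_lit 0) (XT.lf (nat_lit 0) (nat_lit 2052324856) (nat_lit 76) (nat_lit 14668560932) (nat_lit 76) (nat_lit 10110637536) (nat_lit 22) (nat_lit 4) (nat_lit 23) (nat_lit 5) (nat_lit 23) (nat_lit 4) (nat_lit 444) (nat_lit 390)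 (nat_lit 366)) (XT.lf (nat_lit 0) (nat_lit 19515759633) (nat_lit 76) (nat_lit 6698091501) (nat_lit 76) (nat_lit 2076956623) (nat_lit 22) (nat_lit 4) (nat_lit 23) (nat_lit 5) (nat_lit 23) (nat_lit 4) (nat_lit 445) (nat_lit 390) (nat_lit 365)))) (XT.nd (nat_lit 78) (nat_lit 76) (nat_lit 0) (XT.lf (nat_lit 0) (nat_lit 6372517686) (nat_lit 152) (nat_lit 21433869145) (nat_lit 0) (nat_lit 2039495436) (nat_lit 20) (nat_lit 5) (nat_lit 22) (nat_lit 4) (nat_lit 20) (nat_lit 4) (nat_lit 446) (nat_lit 390) (nat_lit 364)) (XT.nd (nat_lit 78) (nat_lit 76) (nat_lit 0) (XT.lf (nat_lit 0) (nat_lit 15654270592) (nat_lit 152) (nat_lit 4574227629) (nat_lit 0) (nat_lit 11271069030) (nat_lit 20) (nat_lit 5) (nat_lit 22) (nat_lit 4) (nat_lit 20) (nat_lit 4) (nat_lit 447) (nat_lit 390) (nat_lit 363)) (XT.lf (nat_lit 0) (nat_lit 14052921284) (nat_lit 76) (nat_lit 11823242080) (nat_lit 76) (nat_lit 7393578190)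 (nat_lit 19) (nat_lit 4) (nat_lit 20) (nat_lit 5) (nat_lit 20) (nat_lit 4) (nat_lit 448) (nat_lit 390) (nat_lit 362))))) (XT.nd (nat_lit 234) (nat_lit 152) (nat_lit 0) (XT.nd (nat_lit 78) (nat_lit 152) (nat_lit 0) (XT.lf (nat_lit 0) (nat_lit 1635648381) (nat_lit 152) (nat_lit 1070535928) (nat_lit 76) (nat_lit 32472960772) (nat_lit 18) (nat_lit 5) (nat_lit 20) (nat_lit 5) (nat_lit 19) (nat_lit 4) (nat_lit 449) (nat_lit 390) (nat_lit 361)) (XT.nd (nat_lit 78) (nat_lit 76) (nat_lit 0) (XT.lf (nat_lit 0) (nat_lit 11500865016) (nat_lit 152) (nat_lit 18361419669) (nat_lit 0) (nat_lit 7322607128) (nat_lit 17) (nat_lit 5) (nat_lit 19) (nat_lit 4) (nat_lit 17) (nat_lit 4) (nat_lit 450) (nat_lit 390) (nat_lit 360)) (XT.lf (nat_lit 0) (nat_lit 722544786) (nat_lit 76) (nat_lit 21420954205) (nat_lit 76) (nat_lit 17208545119) (nat_lit 16) (nat_lit 4) (nat_lit 17) (nat_lit 5) (nat_lit 17) (nat_lit 4)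 (nat_lit 451) (nat_lit 390) (nat_lit 359)))) (XT.nd (nat_lit 156) (nat_lit 0) (nat_lit 0) (XT.nd (nat_lit 78) (nat_lit 152) (nat_lit 0) (XT.lf (nat_lit 0) (nat_lit 22120456341) (nat_lit 76) (nat_lit 11893034374) (nat_lit 76) (nat_lit 7649003809) (nat_lit 16) (nat_lit 4) (nat_lit 17) (nat_lit 5) (nat_lit 17) (nat_lit 4) (nat_lit 452) (nat_lit 390) (nat_lit 358)) (XT.lf (nat_lit 0) (nat_lit 804027402) (nat_lit 76) (nat_lit 1637000056) (nat_lit 152) (nat_lit 41719643198) (nat_lit 14) (nat_lit 5) (nat_lit 15) (nat_lit 5) (nat_lit 16) (nat_lit 4) (nat_lit 453) (nat_lit 390) (nat_lit 357))) (XT.nd (nat_lit 78) (nat_lit 0) (nat_lit 0) (XT.lf (nat_lit 0) (nat_lit 13580674020) (nat_lit 152) (nat_lit 23610877937) (nat_lit 0) (nat_lit 9598803618) (nat_lit 14) (nat_lit 5) (nat_lit 16) (nat_lit 4) (nat_lit 14) (nat_lit 4) (nat_lit 454) (nat_lit 390) (nat_lit 356)) (XT.lf (nat_lit 0) (nat_lit 25543312549)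 (nat_lit 152) (nat_lit 2554358948) (nat_lit 0) (nat_lit 21538199417) (nat_lit 14) (nat_lit 5) (nat_lit 16) (nat_lit 4) (nat_lit 14) (nat_lit 4) (nat_lit 455) (nat_lit 390) (nat_lit 355))))))))
noncomputable def xc68 : XT := (XT.nd (nat_lit 1950) (nat_lit 228) (nat_lit 0) (XT.nd (nat_lit 936) (nat_lit 228) (nat_lit 0) (XT.nd (nat_lit 468) (nat_lit 228) (nat_lit 0) (XT.nd (nat_lit 234) (nat_lit 76) (nat_lit 0) (XT.nd (nat_lit 78) (nat_lit 152) (nat_lit 0) (XT.lf (nat_lit 0) (nat_lit 21029019708) (nat_lit 76) (nat_lit 17837191587) (nat_lit 76) (nat_lit 13810557407) (nat_lit 13) (nat_lit 4) (nat_lit 14) (nat_lit 5) (nat_lit 14) (nat_lit 4) (nat_lit 456) (nat_lit 390) (nat_lit 354)) (XT.nd (nat_lit 78) (nat_lit 152) (nat_lit 0) (XT.lf (nat_lit 0) (nat_lit 46440025530) (nat_lit 76) (nat_lit 6784936653) (nat_lit 76) (nat_lit 2738375578) (nat_lit 13) (nat_lit 4) (nat_lit 14) (nat_lit 5) (nat_lit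 14) (nat_lit 4) (nat_lit 457) (nat_lit 390) (nat_lit 353)) (XT.lf (nat_lit 0) (nat_lit 9153287858) (nat_lit 152) (nat_lit 44920826340) (nat_lit 0) (nat_lit 5389387946) (nat_lit 11) (nat_lit 5) (nat_lit 13) (nat_lit 4) (nat_lit 11) (nat_lit 4) (nat_lit 458) (nat_lit 390) (nat_lit 352)))) (XT.nd (nat_lit 78) (nat_lit 76) (nat_lit 0) (XT.lf (nat_lit 0) (nat_lit 22197034776) (nat_lit 152) (nat_lit 22595743857) (nat_lit 0) (nat_lit 18417316252) (nat_lit 11) (nat_lit 5) (nat_lit 13) (nat_lit 4) (nat_lit 11) (nat_lit 4) (nat_lit 459) (nat_lit 390) (nat_lit 351)) (XT.nd (nat_lit 78) (nat_lit 0) (nat_lit 0) (XT.lf (nat_lit 0) (nat_lit 1405744963) (nat_lit 76) (nat_lit 34824672681) (nat_lit 76) (nat_lit 31030307294) (nat_lit 10) (nat_lit 4) (nat_lit 11) (nat_lit 5) (nat_lit 11) (nat_lit 4) (nat_lit 460) (nat_lit 390) (nat_lit 350)) (XT.lf (nat_lit 0) (nat_lit 28437026517) (nat_lit 76) (nat_lit 23481856957)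 (nat_lit 76) (nat_lit 19673929659) (nat_lit 10) (nat_lit 4) (nat_lit 11) (nat_lit 5) (nat_lit 11) (nat_lit 4) (nat_lit 461) (nat_lit 390) (nat_lit 349))))) (XT.nd (nat_lit 234) (nat_lit 76) (nat_lit 0) (XT.nd (nat_lit 78) (nat_lit 152) (nat_lit 0) (XT.lf (nat_lit 0) (nat_lit 57468434348) (nat_lit 76) (nat_lit 11314922456) (nat_lit 76) (nat_lit 7494437834) (nat_lit 10) (nat_lit 4) (nat_lit 11) (nat_lit 5) (nat_lit 11) (nat_lit 4) (nat_lit 462) (nat_lit 390) (nat_lit 348)) (XT.nd (nat_lit 78) (nat_lit 0) (nat_lit 0) (XT.lf (nat_lit 0) (nat_lit 5533589169) (nat_lit 152) (nat_lit 73795177214) (nat_lit 0) (nat_lit 1985337526) (nat_lit 8) (nat_lit 5) (nat_lit 10) (nat_lit 4) (nat_lit 8) (nat_lit 4) (nat_lit 463) (nat_lit 390) (nat_lit 347)) (XT.lf (nat_lit 0) (nat_lit 19945471965) (nat_lit 152) (nat_lit 50345301086) (nat_lit 0) (nat_lit 16387251913) (nat_lit 8) (nat_lit 5) (nat_lit 10) (nat_lit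 4) (nat_lit 8) (nat_lit 4) (nat_lit 464) (nat_lit 390) (nat_lit 346)))) (XT.nd (nat_lit 78) (nat_lit 76) (nat_lit 0) (XT.lf (nat_lit 0) (nat_lit 35440837465) (nat_lit 152) (nat_lit 25162392760) (nat_lit 0) (nat_lit 31873387405) (nat_lit 8) (nat_lit 5) (nat_lit 10) (nat_lit 4) (nat_lit 8) (nat_lit 4) (nat_lit 465) (nat_lit 390) (nat_lit 345)) (XT.nd (nat_lit 78) (nat_lit 0) (nat_lit 0) (XT.lf (nat_lit 0) (nat_lit 2002976824) (nat_lit 76) (nat_lit 50156704874) (nat_lit 76) (nat_lit 46580708510) (nat_lit 7) (nat_lit 4) (nat_lit 8) (nat_lit 5) (nat_lit 8) (nat_lit 4) (nat_lit 466) (nat_lit 390) (nat_lit 344)) (XT.lf (nat_lit 0) (nat_lit 32643566228) (nat_lit 76) (nat_lit 38197791239) (nat_lit 76) (nat_lit 34613881630) (nat_lit 7) (nat_lit 4) (nat_lit 8) (nat_lit 5) (nat_lit 8) (nat_lit 4) (nat_lit 467) (nat_lit 390) (nat_lit 343)))))) (XT.nd (nat_lit 468) (nat_lit 76) (nat_lit 0) (XT.nd (nat_lit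 234) (nat_lit 0) (nat_lit 0) (XT.nd (nat_lit 78) (nat_lit 152) (nat_lit 0) (XT.lf (nat_lit 0) (nat_lit 65615942303) (nat_lit 76) (nat_lit 25343606093) (nat_lit 76) (nat_lit 21752369406) (nat_lit 7) (nat_lit 4) (nat_lit 8) (nat_lit 5) (nat_lit 8) (nat_lit 4) (nat_lit 468) (nat_lit 390) (nat_lit 342)) (XT.nd (nat_lit 78) (nat_lit 152) (nat_lit 0) (XT.lf (nat_lit 0) (nat_lit 101115496907) (nat_lit 76) (nat_lit 11517976487) (nat_lit 76) (nat_lit 7919955468) (nat_lit 7) (nat_lit 4) (nat_lit 8) (nat_lit 5) (nat_lit 8) (nat_lit 4) (nat_lit 469) (nat_lit 390) (nat_lit 341)) (XT.lf (nat_lit 0) (nat_lit 6965945881) (nat_lit 152) (nat_lit 118390340847) (nat_lit 0) (nat_lit 3628628467) (nat_lit 5) (nat_lit 5) (nat_lit 7) (nat_lit 4) (nat_lit 5) (nat_lit 4) (nat_lit 470) (nat_lit 390) (nat_lit 340)))) (XT.nd (nat_lit 78) (nat_lit 0) (nat_lit 0) (XT.lf (nat_lit 0) (nat_lit 23408290354) (nat_lit 152)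 (nat_lit 94537109657) (nat_lit 0) (nat_lit 20065587318) (nat_lit 5) (nat_lit 5) (nat_lit 7) (nat_lit 4) (nat_lit 5) (nat_lit 4) (nat_lit 471) (nat_lit 390) (nat_lit 339)) (XT.nd (nat_lit 78) (nat_lit 0) (nat_lit 0) (XT.lf (nat_lit 0) (nat_lit 41118813350) (nat_lit 152) (nat_lit 68872985243) (nat_lit 0) (nat_lit 37771123629) (nat_lit 5) (nat_lit 5) (nat_lit 7) (nat_lit 4) (nat_lit 5) (nat_lit 4) (nat_lit 472) (nat_lit 390) (nat_lit 338)) (XT.lf (nat_lit 0) (nat_lit 60202466119) (nat_lit 152) (nat_lit 41245883906) (nat_lit 0) (nat_lit 56850159095) (nat_lit 5) (nat_lit 5) (nat_lit 7) (nat_lit 4) (nat_lit 5) (nat_lit 4) (nat_lit 473) (nat_lit 390) (nat_lit 337))))) (XT.nd (nat_lit 234) (nat_lit 0) (nat_lit 0) (XT.nd (nat_lit 78) (nat_lit 76) (nat_lit 0) (XT.lf (nat_lit 0) (nat_lit 80772336972) (nat_lit 152) (nat_lit 11492089488) (nat_lit 0) (nat_lit 77415754668) (nat_lit 5) (nat_lit 5) (nat_lit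 7) (nat_lit 4) (nat_lit 5) (nat_lit 4) (nat_lit 474) (nat_lit 390) (nat_lit 336)) (XT.nd (nat_lit 78) (nat_lit 0) (nat_lit 0) (XT.lf (nat_lit 0) (nat_lit 21647618331) (nat_lit 76) (nat_lit 81823328850) (nat_lit 76) (nat_lit 78462787954) (nat_lit 4) (nat_lit 4) (nat_lit 5) (nat_lit 5) (nat_lit 5) (nat_lit 4) (nat_lit 475) (nat_lit 390) (nat_lit 335)) (XT.lf (nat_lit 0) (nat_lit 58016733150) (nat_lit 76) (nat_lit 70246415295) (nat_lit 76) (nat_lit 66882209036) (nat_lit 4) (nat_lit 4) (nat_lit 5) (nat_lit 5) (nat_lit 5) (nat_lit 4) (nat_lit 476) (nat_lit 390) (nat_lit 334)))) (XT.nd (nat_lit 156) (nat_lit 0) (nat_lit 0) (XT.nd (nat_lit 78) (nat_lit 0) (nat_lit 0) (XT.lf (nat_lit 0) (nat_lit 97225622579) (nat_lit 76) (nat_lit 57779295955) (nat_lit 76) (nat_lit 54411695842) (nat_lit 4) (nat_lit 4) (nat_lit 5) (nat_lit 5) (nat_lit 5) (nat_lit 4) (nat_lit 477) (nat_lit 390) (nat_lit 333)) (XT.lf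 (nat_lit 0) (nat_lit 139506635594) (nat_lit 76) (nat_lit 44348091606) (nat_lit 76) (nat_lit 40977349034) (nat_lit 4) (nat_lit 4) (nat_lit 5) (nat_lit 5) (nat_lit 5) (nat_lit 4) (nat_lit 478) (nat_lit 390) (nat_lit 332))) (XT.nd (nat_lit 78) (nat_lit 0) (nat_lit 0) (XT.lf (nat_lit 0) (nat_lit 185110326346) (nat_lit 76) (nat_lit 29873209926) (nat_lit 76) (nat_lit 26499557670) (nat_lit 4) (nat_lit 4) (nat_lit 5) (nat_lit 5) (nat_lit 5) (nat_lit 4) (nat_lit 479) (nat_lit 390) (nat_lit 331)) (XT.lf (nat_lit 0) (nat_lit 234306938927) (nat_lit 76) (nat_lit 14268873836) (nat_lit 76) (nat_lit 10892527429) (nat_lit 4) (nat_lit 4) (nat_lit 5) (nat_lit 5) (nat_lit 5) (nat_lit 4) (nat_lit 480) (nat_lit 390) (nat_lit 330))))))) (XT.nd (nat_lit 936) (nat_lit 0) (nat_lit 0) (XT.nd (nat_lit 468) (nat_lit 76) (nat_lit 0) (XT.nd (nat_lit 234) (nat_lit 0) (nat_lit 0) (XT.nd (nat_lit 78) (nat_lit 0) (nat_lit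 0) (XT.lf (nat_lit 0) (nat_lit 5921392216) (nat_lit 152) (nat_lit 270146175468) (nat_lit 0) (nat_lit 2792835742) (nat_lit 2) (nat_lit 5) (nat_lit 4) (nat_lit 4) (nat_lit 2) (nat_lit 4) (nat_lit 481) (nat_lit 390) (nat_lit 329)) (XT.nd (nat_lit 78) (nat_lit 0) (nat_lit 0) (XT.lf (nat_lit 0) (nat_lit 24542916758) (nat_lit 152) (nat_lit 253741982014) (nat_lit 0) (nat_lit 21412221580) (nat_lit 2) (nat_lit 5) (nat_lit 4) (nat_lit 4) (nat_lit 2) (nat_lit 4) (nat_lit 482) (nat_lit 390) (nat_lit 328)) (XT.lf (nat_lit 0) (nat_lit 44630574657) (nat_lit 152) (nat_lit 236074187971) (nat_lit 0) (nat_lit 41497899197) (nat_lit 2) (nat_lit 5) (nat_lit 4) (nat_lit 4) (nat_lit 2) (nat_lit 4) (nat_lit 483) (nat_lit 390) (nat_lit 327)))) (XT.nd (nat_lit 78) (nat_lit 0) (nat_lit 0) (XT.lf (nat_lit 0) (nat_lit 66303403887) (nat_lit 152) (nat_lit 217038095299) (nat_lit 0) (nat_lit 63168894833) (nat_lit 2) (nat_lit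 5) (nat_lit 4) (nat_lit 4) (nat_lit 2) (nat_lit 4) (nat_lit 484) (nat_lit 390) (nat_lit 326)) (XT.nd (nat_lit 78) (nat_lit 0) (nat_lit 0) (XT.lf (nat_lit 0) (nat_lit 89689836029) (nat_lit 152) (nat_lit 196520897522) (nat_lit 0) (nat_lit 86553629203) (nat_lit 2) (nat_lit 5) (nat_lit 4) (nat_lit 4) (nat_lit 2) (nat_lit 4) (nat_lit 485) (nat_lit 390) (nat_lit 325)) (XT.lf (nat_lit 0) (nat_lit 114928457347) (nat_lit 152) (nat_lit 174401011248) (nat_lit 0) (nat_lit 111790678509) (nat_lit 2) (nat_lit 5) (nat_lit 4) (nat_lit 4) (nat_lit 2) (nat_lit 4) (nat_lit 486) (nat_lit 390) (nat_lit 324))))) (XT.nd (nat_lit 234) (nat_lit 76) (nat_lit 0) (XT.nd (nat_lit 78) (nat_lit 0) (nat_lit 0) (XT.lf (nat_lit 0) (nat_lit 142168830041) (nat_lit 152) (nat_lit 150547355667) (nat_lit 0) (nat_lit 139029595637) (nat_lit 2) (nat_lit 5) (nat_lit 4) (nat_lit 4) (nat_lit 2) (nat_lit 4) (nat_lit 487) (nat_lit 390)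 (nat_lit 323)) (XT.nd (nat_lit 78) (nat_lit 0) (nat_lit 0) (XT.lf (nat_lit 0) (nat_lit 171572378543) (nat_lit 152) (nat_lit 124818575785) (nat_lit 0) (nat_lit 168431796392) (nat_lit 2) (nat_lit 5) (nat_lit 4) (nat_lit 4) (nat_lit 2) (nat_lit 4) (nat_lit 488) (nat_lit 390) (nat_lit 322)) (XT.lf (nat_lit 0) (nat_lit 203313346102) (nat_lit 152) (nat_lit 97062204757) (nat_lit 0) (nat_lit 200171516038) (nat_lit 2) (nat_lit 5) (nat_lit 4) (nat_lit 4) (nat_lit 2) (nat_lit 4) (nat_lit 489) (nat_lit 390) (nat_lit 321)))) (XT.nd (nat_lit 78) (nat_lit 76) (nat_lit 0) (XT.lf (nat_lit 0) (nat_lit 237579827341) (nat_lit 152) (nat_lit 67113760384) (nat_lit 0) (nat_lit 234436841801) (nat_lit 2) (nat_lit 5) (nat_lit 4) (nat_lit 4) (nat_lit 2) (nat_lit 4) (nat_lit 490) (nat_lit 390) (nat_lit 320)) (XT.nd (nat_lit 78) (nat_lit 76) (nat_lit 0) (XT.lf (nat_lit 0) (nat_lit 274574882890) (nat_lit 152) (nat_lit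 34795770405) (nat_lit 0) (nat_lit 271430827466) (nat_lit 2) (nat_lit 5) (nat_lit 4) (nat_lit 4) (nat_lit 2) (nat_lit 4) (nat_lit 491) (nat_lit 390) (nat_lit 319)) (XT.lf (nat_lit 0) (nat_lit 87664531) (nat_lit 76) (nat_lit 314432186510) (nat_lit 76) (nat_lit 311287140452) (nat_lit 1) (nat_lit 4) (nat_lit 2) (nat_lit 5) (nat_lit 2) (nat_lit 4) (nat_lit 492) (nat_lit 390) (nat_lit 318)))))) (XT.nd (nat_lit 468) (nat_lit 0) (nat_lit 0) (XT.nd (nat_lit 234) (nat_lit 0) (nat_lit 0) (XT.nd (nat_lit 78) (nat_lit 0) (nat_lit 0) (XT.lf (nat_lit 0) (nat_lit 39716878185) (nat_lit 76) (nat_lit 318883418911) (nat_lit 76) (nat_lit 315737455600) (nat_lit 1) (nat_lit 4) (nat_lit 2) (nat_lit 5) (nat_lit 2) (nat_lit 4) (nat_lit 493) (nat_lit 390) (nat_lit 317)) (XT.nd (nat_lit 78) (nat_lit 0) (nat_lit 0) (XT.lf (nat_lit 0) (nat_lit 82494426735) (nat_lit 76) (nat_lit 323702106199) (nat_lit 76) (nat_lit 320555293579)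 (nat_lit 1) (nat_lit 4) (nat_lit 2) (nat_lit 5) (nat_lit 2) (nat_lit 4) (nat_lit 494) (nat_lit 390) (nat_lit 316)) (XT.lf (nat_lit 0) (nat_lit 128673806766) (nat_lit 76) (nat_lit 328916803558) (nat_lit 76) (nat_lit 325769204541) (nat_lit 1) (nat_lit 4) (nat_lit 2) (nat_lit 5) (nat_lit 2) (nat_lit 4) (nat_lit 495) (nat_lit 390) (nat_lit 315)))) (XT.nd (nat_lit 78) (nat_lit 0) (nat_lit 0) (XT.lf (nat_lit 0) (nat_lit 178528673862) (nat_lit 76) (nat_lit 334558412898) (nat_lit 76) (nat_lit 331410085735) (nat_lit 1) (nat_lit 4) (nat_lit 2) (nat_lit 5) (nat_lit 2) (nat_lit 4) (nat_lit 496) (nat_lit 390) (nat_lit 314)) (XT.nd (nat_lit 78) (nat_lit 0) (nat_lit 0) (XT.lf (nat_lit 0) (nat_lit 232354464272) (nat_lit 76) (nat_lit 340660365977) (nat_lit 76) (nat_lit 337511364605) (nat_lit 1) (nat_lit 4) (nat_lit 2) (nat_lit 5) (nat_lit 2) (nat_lit 4) (nat_lit 497) (nat_lit 390) (nat_lit 313)) (XT.lf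 (nat_lit 0) (nat_lit 290470145645) (nat_lit 76) (nat_lit 347258822518) (nat_lit 76) (nat_lit 344109196879) (nat_lit 1) (nat_lit 4) (nat_lit 2) (nat_lit 5) (nat_lit 2) (nat_lit 4) (nat_lit 498) (nat_lit 390) (nat_lit 312))))) (XT.nd (nat_lit 234) (nat_lit 0) (nat_lit 0) (XT.nd (nat_lit 78) (nat_lit 0) (nat_lit 0) (XT.lf (nat_lit 0) (nat_lit 353220107202) (nat_lit 76) (nat_lit 354392884486) (nat_lit 76) (nat_lit 351242680821) (nat_lit 1) (nat_lit 4) (nat_lit 2) (nat_lit 5) (nat_lit 2) (nat_lit 4) (nat_lit 499) (nat_lit 390) (nat_lit 311)) (XT.nd (nat_lit 78) (nat_lit 0) (nat_lit 0) (XT.lf (nat_lit 0) (nat_lit 420976200568) (nat_lit 76) (nat_lit 362104827803) (nat_lit 76) (nat_lit 358954088930) (nat_lit 1) (nat_lit 4) (nat_lit 2) (nat_lit 5) (nat_lit 2) (nat_lit 4) (nat_lit 500) (nat_lit 390) (nat_lit 310)) (XT.lf (nat_lit 0) (nat_lit 494139943333) (nat_lit 76) (nat_lit 370440352874) (nat_lit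 76) (nat_lit 367289118437) (nat_lit 1) (nat_lit 4) (nat_lit 2) (nat_lit 5) (nat_lit 2) (nat_lit 4) (nat_lit 501) (nat_lit 390) (nat_lit 309)))) (XT.nd (nat_lit 156) (nat_lit 0) (nat_lit 0) (XT.nd (nat_lit 78) (nat_lit 0) (nat_lit 0) (XT.lf (nat_lit 0) (nat_lit 573144898417) (nat_lit 76) (nat_lit 379448855403) (nat_lit 76) (nat_lit 376297162111) (nat_lit 1) (nat_lit 4) (nat_lit 2) (nat_lit 5) (nat_lit 2) (nat_lit 4) (nat_lit 502) (nat_lit 390) (nat_lit 308)) (XT.lf (nat_lit 0) (nat_lit 658459243332) (nat_lit 76) (nat_lit 389183719109) (nat_lit 76) (nat_lit 386031600951) (nat_lit 1) (nat_lit 4) (nat_lit 2) (nat_lit 5) (nat_lit 2) (nat_lit 4) (nat_lit 503) (nat_lit 390) (nat_lit 307))) (XT.nd (nat_lit 78) (nat_lit 0) (nat_lit 0) (XT.lf (nat_lit 0) (nat_lit 750588544567) (nat_lit 76) (nat_lit 399702632073) (nat_lit 76) (nat_lit 396550120521) (nat_lit 1) (nat_lit 4) (nat_lit 2) (nat_lit 5) (nat_lit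 2) (nat_lit 4) (nat_lit 504) (nat_lit 390) (nat_lit 306)) (XT.lf (nat_lit 0) (nat_lit 850078753535) (nat_lit 76) (nat_lit 411067928594) (nat_lit 76) (nat_lit 407915052788) (nat_lit 1) (nat_lit 4) (nat_lit 2) (nat_lit 5) (nat_lit 2) (nat_lit 4) (nat_lit 505) (nat_lit 390) (nat_lit 305))))))))
noncomputable def xc69 : XT := (XT.nd (nat_lit 1950) (nat_lit 0) (nat_lit 0) (XT.nd (nat_lit 936) (nat_lit 0) (nat_lit 0) (XT.nd (nat_lit 468) (nat_lit 0) (nat_lit 0) (XT.nd (nat_lit 234) (nat_lit 0) (nat_lit 0) (XT.nd (nat_lit 78) (nat_lit 0) (nat_lit 0) (XT.lf (nat_lit 0) (nat_lit 957519441846) (nat_lit 76) (nat_lit 423346958578) (nat_lit 76) (nat_lit 420193745500) (nat_lit 1) (nat_lit 4) (nat_lit 2) (nat_lit 5) (nat_lit 2) (nat_lit 4) (nat_lit 506) (nat_lit 390) (nat_lit 304)) (XT.nd (nat_lit 78) (nat_lit 0) (nat_lit 0) (XT.lf (nat_lit 0) (nat_lit 1073547295060) (nat_lit 76) (nat_lit 436612486647)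 (nat_lit 76) (nat_lit 433458961279) (nat_lit 1) (nat_lit 4) (nat_lit 2) (nat_lit 5) (nat_lit 2) (nat_lit 4) (nat_lit 507) (nat_lit 390) (nat_lit 303)) (XT.lf (nat_lit 0) (nat_lit 1198849885640) (nat_lit 76) (nat_lit 450943123336) (nat_lit 76) (nat_lit 447789308812) (nat_lit 1) (nat_lit 4) (nat_lit 2) (nat_lit 5) (nat_lit 2) (nat_lit 4) (nat_lit 508) (nat_lit 390) (nat_lit 302)))) (XT.nd (nat_lit 78) (nat_lit 0) (nat_lit 0) (XT.lf (nat_lit 0) (nat_lit 1334169747457) (nat_lit 76) (nat_lit 466423790939) (nat_lit 76) (nat_lit 463269708677) (nat_lit 1) (nat_lit 4) (nat_lit 2) (nat_lit 5) (nat_lit 2) (nat_lit 4) (nat_lit 509) (nat_lit 390) (nat_lit 301)) (XT.nd (nat_lit 78) (nat_lit 0) (nat_lit 0) (XT.lf (nat_lit 0) (nat_lit 1480308775987) (nat_lit 76) (nat_lit 483146226744) (nat_lit 76) (nat_lit 479991896577) (nat_lit 1) (nat_lit 4) (nat_lit 2) (nat_lit 5) (nat_lit 2) (nat_lit 4) (nat_lit 510)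 (nat_lit 390) (nat_lit 300)) (XT.lf (nat_lit 0) (nat_lit 1638132980290) (nat_lit 76) (nat_lit 501209526667) (nat_lit 76) (nat_lit 498054966958) (nat_lit 1) (nat_lit 4) (nat_lit 2) (nat_lit 5) (nat_lit 2) (nat_lit 4) (nat_lit 511) (nat_lit 390) (nat_lit 299))))) (XT.nd (nat_lit 234) (nat_lit 0) (nat_lit 0) (XT.nd (nat_lit 78) (nat_lit 0) (nat_lit 0) (XT.lf (nat_lit 0) (nat_lit 1808577614909) (nat_lit 76) (nat_lit 520720732485) (nat_lit 76) (nat_lit 517565960238) (nat_lit 1) (nat_lit 4) (nat_lit 2) (nat_lit 5) (nat_lit 2) (nat_lit 4) (nat_lit 512) (nat_lit 390) (nat_lit 298)) (XT.nd (nat_lit 78) (nat_lit 0) (nat_lit 0) (XT.lf (nat_lit 0) (nat_lit 1992652722123) (nat_lit 76) (nat_lit 541795466160) (nat_lit 76) (nat_lit 538640497117) (nat_lit 1) (nat_lit 4) (nat_lit 2) (nat_lit 5) (nat_lit 2) (nat_lit 4) (nat_lit 513) (nat_lit 390) (nat_lit 297)) (XT.lf (nat_lit 0) (nat_lit 2191449117382) (nat_lit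 76) (nat_lit 564558615001) (nat_lit 76) (nat_lit 561403463740) (nat_lit 1) (nat_lit 4) (nat_lit 2) (nat_lit 5) (nat_lit 2) (nat_lit 4) (nat_lit 514) (nat_lit 390) (nat_lit 296)))) (XT.nd (nat_lit 78) (nat_lit 0) (nat_lit 0) (XT.lf (nat_lit 0) (nat_lit 2406144853399) (nat_lit 76) (nat_lit 589145071742) (nat_lit 76) (nat_lit 585989751762) (nat_lit 1) (nat_lit 4) (nat_lit 2) (nat_lit 5) (nat_lit 2) (nat_lit 4) (nat_lit 515) (nat_lit 390) (nat_lit 295)) (XT.nd (nat_lit 78) (nat_lit 0) (nat_lit 0) (XT.lf (nat_lit 0) (nat_lit 2638012201203) (nat_lit 76) (nat_lit 615700533905) (nat_lit 76) (nat_lit 612545057703) (nat_lit 1) (nat_lit 4) (nat_lit 2) (nat_lit 5) (nat_lit 2) (nat_lit 4) (nat_lit 516) (nat_lit 390) (nat_lit 294)) (XT.lf (nat_lit 0) (nat_lit 2888425189520) (nat_lit 76) (nat_lit 644382367192) (nat_lit 76) (nat_lit 641226746339) (nat_lit 1) (nat_lit 4) (nat_lit 2) (nat_lit 5) (nat_lit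 2) (nat_lit 4) (nat_lit 517) (nat_lit 390) (nat_lit 293)))))) (XT.nd (nat_lit 468) (nat_lit 0) (nat_lit 0) (XT.nd (nat_lit 234) (nat_lit 0) (nat_lit 0) (XT.nd (nat_lit 78) (nat_lit 0) (nat_lit 0) (XT.lf (nat_lit 0) (nat_lit 3158867747171) (nat_lit 76) (nat_lit 675360538022) (nat_lit 76) (nat_lit 672204783234) (nat_lit 1) (nat_lit 4) (nat_lit 2) (nat_lit 5) (nat_lit 2) (nat_lit 4) (nat_lit 518) (nat_lit 390) (nat_lit 292)) (XT.nd (nat_lit 78) (nat_lit 0) (nat_lit 0) (XT.lf (nat_lit 0) (nat_lit 3450942496720) (nat_lit 76) (nat_lit 708818620741) (nat_lit 76) (nat_lit 705662741938) (nat_lit 1) (nat_lit 4) (nat_lit 2) (nat_lit 5) (nat_lit 2) (nat_lit 4) (nat_lit 519) (nat_lit 390) (nat_lit 291)) (XT.lf (nat_lit 0) (nat_lit 3766380251496) (nat_lit 76) (nat_lit 744954885468) (nat_lit 76) (nat_lit 741798891837) (nat_lit 1) (nat_lit 4) (nat_lit 2) (nat_lit 5) (nat_lit 2) (nat_lit 4) (nat_lit 520)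 (nat_lit 390) (nat_lit 290)))) (XT.nd (nat_lit 78) (nat_lit 0) (nat_lit 0) (XT.lf (nat_lit 0) (nat_lit 4107050272270) (nat_lit 76) (nat_lit 783983473031) (nat_lit 76) (nat_lit 780827373078) (nat_lit 1) (nat_lit 4) (nat_lit 2) (nat_lit 5) (nat_lit 2) (nat_lit 4) (nat_lit 521) (nat_lit 390) (nat_lit 289)) (XT.nd (nat_lit 78) (nat_lit 0) (nat_lit 0) (XT.lf (nat_lit 0) (nat_lit 4474971344350) (nat_lit 76) (nat_lit 826135663951) (nat_lit 76) (nat_lit 822979465551) (nat_lit 1) (nat_lit 4) (nat_lit 2) (nat_lit 5) (nat_lit 2) (nat_lit 4) (nat_lit 522) (nat_lit 390) (nat_lit 288)) (XT.lf (nat_lit 0) (nat_lit 4872323740754) (nat_lit 76) (nat_lit 871661248986) (nat_lit 76) (nat_lit 868504959432) (nat_lit 1) (nat_lit 4) (nat_lit 2) (nat_lit 5) (nat_lit 2) (nat_lit 4) (nat_lit 523) (nat_lit 390) (nat_lit 287))))) (XT.nd (nat_lit 234) (nat_lit 0) (nat_lit 0) (XT.nd (nat_lit 78) (nat_lit 0) (nat_lit 0)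 (XT.lf (nat_lit 0) (nat_lit 5301462142352) (nat_lit 76) (nat_lit 920830009383) (nat_lit 76) (nat_lit 917673635427) (nat_lit 1) (nat_lit 4) (nat_lit 2) (nat_lit 5) (nat_lit 2) (nat_lit 4) (nat_lit 524) (nat_lit 390) (nat_lit 286)) (XT.nd (nat_lit 78) (nat_lit 0) (nat_lit 0) (XT.lf (nat_lit 0) (nat_lit 5764929591522) (nat_lit 76) (nat_lit 973933315573) (nat_lit 76) (nat_lit 970776863467) (nat_lit 1) (nat_lit 4) (nat_lit 2) (nat_lit 5) (nat_lit 2) (nat_lit 4) (nat_lit 525) (nat_lit 390) (nat_lit 285)) (XT.lf (nat_lit 0) (nat_lit 6265472562037) (nat_lit 76) (nat_lit 1031285853814) (nat_lit 76) (nat_lit 1028129329347) (nat_lit 1) (nat_lit 4) (nat_lit 2) (nat_lit 5) (nat_lit 2) (nat_lit 4) (nat_lit 526) (nat_lit 390) (nat_lit 284)))) (XT.nd (nat_lit 156) (nat_lit 0) (nat_lit 0) (XT.nd (nat_lit 78) (nat_lit 0) (nat_lit 0) (XT.lf (nat_lit 0) (nat_lit 6806057234464) (nat_lit 76) (nat_lit 1093227491001)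 (nat_lit 76) (nat_lit 1090070899533) (nat_lit 1) (nat_lit 4) (nat_lit 2) (nat_lit 5) (nat_lit 2) (nat_lit 4) (nat_lit 527) (nat_lit 390) (nat_lit 283)) (XT.lf (nat_lit 0) (nat_lit 7389887073528) (nat_lit 76) (nat_lit 1160125288687) (nat_lit 76) (nat_lit 1156968635181) (nat_lit 1) (nat_lit 4) (nat_lit 2) (nat_lit 5) (nat_lit 2) (nat_lit 4) (nat_lit 528) (nat_lit 390) (nat_lit 282))) (XT.nd (nat_lit 78) (nat_lit 0) (nat_lit 0) (XT.lf (nat_lit 0) (nat_lit 8020421811609) (nat_lit 76) (nat_lit 1232375678266) (nat_lit 76) (nat_lit 1229218967317) (nat_lit 1) (nat_lit 4) (nat_lit 2) (nat_lit 5) (nat_lit 2) (nat_lit 4) (nat_lit 529) (nat_lit 390) (nat_lit 281)) (XT.lf (nat_lit 0) (nat_lit 8701397950858) (nat_lit 76) (nat_lit 1310406810194) (nat_lit 76) (nat_lit 1307250046057) (nat_lit 1) (nat_lit 4) (nat_lit 2) (nat_lit 5) (nat_lit 2) (nat_lit 4) (nat_lit 530) (nat_lit 390) (nat_lit 280))))))) (XT.nd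 (nat_lit 54210) (nat_lit 0) (nat_lit 2128) (XT.nd (nat_lit 53742) (nat_lit 0) (nat_lit 3344) (XT.nd (nat_lit 234) (nat_lit 0) (nat_lit 0) (XT.nd (nat_lit 78) (nat_lit 0) (nat_lit 0) (XT.lf (nat_lit 0) (nat_lit 9436850905433) (nat_lit 76) (nat_lit 1394681091179) (nat_lit 76) (nat_lit 1391524277795) (nat_lit 1) (nat_lit 4) (nat_lit 2) (nat_lit 5) (nat_lit 2) (nat_lit 4) (nat_lit 531) (nat_lit 390) (nat_lit 279)) (XT.nd (nat_lit 78) (nat_lit 0) (nat_lit 0) (XT.lf (nat_lit 0) (nat_lit 10231138915067) (nat_lit 76) (nat_lit 1485697924368) (nat_lit 76) (nat_lit 1482541065384) (nat_lit 1) (nat_lit 4) (nat_lit 2) (nat_lit 5) (nat_lit 2) (nat_lit 4) (nat_lit 532) (nat_lit 390) (nat_lit 278)) (XT.lf (nat_lit 0) (nat_lit 11088968871666) (nat_lit 76) (nat_lit 1583996668772) (nat_lit 76) (nat_lit 1580839767566) (nat_lit 1) (nat_lit 4) (nat_lit 2) (nat_lit 5) (nat_lit 2) (nat_lit 4) (nat_lit 533) (nat_lit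 390) (nat_lit 277)))) (XT.nd (nat_lit 78) (nat_lit 0) (nat_lit 0) (XT.lf (nat_lit 0) (nat_lit 12015424212012) (nat_lit 76) (nat_lit 1690159835469) (nat_lit 76) (nat_lit 1687002895169) (nat_lit 1) (nat_lit 4) (nat_lit 2) (nat_lit 5) (nat_lit 2) (nat_lit 4) (nat_lit 534) (nat_lit 390) (nat_lit 276)) (XT.nd (nat_lit 53352) (nat_lit 0) (nat_lit 4332) (XT.lf (nat_lit 0) (nat_lit 13015995041825) (nat_lit 76) (nat_lit 1804816539521) (nat_lit 76) (nat_lit 1801659563022) (nat_lit 1) (nat_lit 4) (nat_lit 2) (nat_lit 5) (nat_lit 2) (nat_lit 4) (nat_lit 535) (nat_lit 390) (nat_lit 275)) (XT.lf (nat_lit 0) (nat_lit 1936917387) (nat_lit 228) (nat_lit 527644872) (nat_lit 0) (nat_lit 1936917387) (nat_lit 58) (nat_lit 5) (nat_lit 61) (nat_lit 4) (nat_lit 58) (nat_lit 4) (nat_lit 418) (nat_lit 391) (nat_lit 391))))) (XT.nd (nat_lit 234) (nat_lit 456) (nat_lit 0) (XT.nd (nat_lit 78) (nat_lit 380) (nat_lit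 0) (XT.lf (nat_lit 0) (nat_lit 6880024036) (nat_lit 152) (nat_lit 1569409816) (nat_lit 152) (nat_lit 634806277) (nat_lit 56) (nat_lit 4) (nat_lit 58) (nat_lit 5) (nat_lit 58) (nat_lit 4) (nat_lit 419) (nat_lit 391) (nat_lit 390)) (XT.nd (nat_lit 78) (nat_lit 152) (nat_lit 0) (XT.lf (nat_lit 0) (nat_lit 3762365082) (nat_lit 228) (nat_lit 3525515303) (nat_lit 0) (nat_lit 2095719539) (nat_lit 53) (nat_lit 5) (nat_lit 56) (nat_lit 4) (nat_lit 53) (nat_lit 4) (nat_lit 420) (nat_lit 391) (nat_lit 389)) (XT.lf (nat_lit 0) (nat_lit 4752904037) (nat_lit 152) (nat_lit 3682316299) (nat_lit 152) (nat_lit 1273752334) (nat_lit 51) (nat_lit 4) (nat_lit 53) (nat_lit 5) (nat_lit 53) (nat_lit 4) (nat_lit 421) (nat_lit 391) (nat_lit 388)))) (XT.nd (nat_lit 78) (nat_lit 304) (nat_lit 0) (XT.lf (nat_lit 0) (nat_lit 3186132643) (nat_lit 152) (nat_lit 6552927273) (nat_lit 0) (nat_lit 319905360) (nat_lit 49) (nat_lit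 5) (nat_lit 51) (nat_lit 4) (nat_lit 49) (nat_lit 4) (nat_lit 422) (nat_lit 391) (nat_lit 387)) (XT.nd (nat_lit 78) (nat_lit 152) (nat_lit 0) (XT.lf (nat_lit 0) (nat_lit 2048049490) (nat_lit 152) (nat_lit 5919401008) (nat_lit 152) (nat_lit 2464214960) (nat_lit 47) (nat_lit 4) (nat_lit 49) (nat_lit 5) (nat_lit 49) (nat_lit 4) (nat_lit 423) (nat_lit 391) (nat_lit 386)) (XT.lf (nat_lit 0) (nat_lit 425944911) (nat_lit 76) (nat_lit 1702162371) (nat_lit 152) (nat_lit 8706007813) (nat_lit 45) (nat_lit 5) (nat_lit 46) (nat_lit 5) (nat_lit 47) (nat_lit 4) (nat_lit 424) (nat_lit 391) (nat_lit 385)))))) (XT.nd (nat_lit 468) (nat_lit 684) (nat_lit 0) (XT.nd (nat_lit 234) (nat_lit 228) (nat_lit 0) (XT.nd (nat_lit 78) (nat_lit 304) (nat_lit 0) (XT.lf (nat_lit 0) (nat_lit 7014523816) (nat_lit 152) (nat_lit 1401548465) (nat_lit 0) (nat_lit 2842805809) (nat_lit 45) (nat_lit 5) (nat_lit 47) (nat_lit 4) (nat_lit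 45) (nat_lit 4) (nat_lit 425) (nat_lit 391) (nat_lit 384)) (XT.nd (nat_lit 78) (nat_lit 76) (nat_lit 0) (XT.lf (nat_lit 0) (nat_lit 563877747) (nat_lit 228) (nat_lit 3431754565) (nat_lit 76) (nat_lit 7719436737) (nat_lit 42) (nat_lit 5) (nat_lit 45) (nat_lit 5) (nat_lit 43) (nat_lit 4) (nat_lit 426) (nat_lit 391) (nat_lit 383)) (XT.lf (nat_lit 0) (nat_lit 5519638436) (nat_lit 152) (nat_lit 5794986039) (nat_lit 0) (nat_lit 884957215) (nat_lit 41) (nat_lit 5) (nat_lit 43) (nat_lit 4) (nat_lit 41) (nat_lit 4) (nat_lit 427) (nat_lit 391) (nat_lit 382)))) (XT.nd (nat_lit 78) (nat_lit 152) (nat_lit 0) (XT.lf (nat_lit 0) (nat_lit 4209365684) (nat_lit 76) (nat_lit 6742711833) (nat_lit 76) (nat_lit 1764378831) (nat_lit 40) (nat_lit 4) (nat_lit 41) (nat_lit 5) (nat_lit 41) (nat_lit 4) (nat_lit 428) (nat_lit 391) (nat_lit 381)) (XT.nd (nat_lit 78) (nat_lit 0) (nat_lit 0) (XT.lf (nat_lit 0) (nat_lit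 1671852528) (nat_lit 76) (nat_lit 1678330944) (nat_lit 152) (nat_lit 9919049038) (nat_lit 38) (nat_lit 5) (nat_lit 39) (nat_lit 5) (nat_lit 40) (nat_lit 4) (nat_lit 429) (nat_lit 391) (nat_lit 380)) (XT.lf (nat_lit 0) (nat_lit 8891150639) (nat_lit 152) (nat_lit 1248268358) (nat_lit 0) (nat_lit 3714155167) (nat_lit 38) (nat_lit 5) (nat_lit 40) (nat_lit 4) (nat_lit 38) (nat_lit 4) (nat_lit 430) (nat_lit 391) (nat_lit 379))))) (XT.nd (nat_lit 234) (nat_lit 380) (nat_lit 0) (XT.nd (nat_lit 78) (nat_lit 152) (nat_lit 0) (XT.lf (nat_lit 0) (nat_lit 456490987) (nat_lit 152) (nat_lit 4480088536) (nat_lit 76) (nat_lit 9540519991) (nat_lit 36) (nat_lit 5) (nat_lit 38) (nat_lit 5) (nat_lit 37) (nat_lit 4) (nat_lit 431) (nat_lit 391) (nat_lit 378)) (XT.nd (nat_lit 78) (nat_lit 76) (nat_lit 0) (XT.lf (nat_lit 0) (nat_lit 6062413961) (nat_lit 152) (nat_lit 8257608305) (nat_lit 0) (nat_lit 818457092)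 (nat_lit 35) (nat_lit 5) (nat_lit 37) (nat_lit 4) (nat_lit 35) (nat_lit 4) (nat_lit 432) (nat_lit 391) (nat_lit 377)) (XT.lf (nat_lit 0) (nat_lit 3212587641) (nat_lit 76) (nat_lit 9037021598) (nat_lit 76) (nat_lit 3592547215) (nat_lit 34) (nat_lit 4) (nat_lit 35) (nat_lit 5) (nat_lit 35) (nat_lit 4) (nat_lit 433) (nat_lit 391) (nat_lit 376)))) (XT.nd (nat_lit 156) (nat_lit 228) (nat_lit 0) (XT.nd (nat_lit 78) (nat_lit 76) (nat_lit 0) (XT.lf (nat_lit 0) (nat_lit 2247186122) (nat_lit 152) (nat_lit 955991613) (nat_lit 76) (nat_lit 13391751148) (nat_lit 33) (nat_lit 5) (nat_lit 35) (nat_lit 5) (nat_lit 34) (nat_lit 4) (nat_lit 434) (nat_lit 391) (nat_lit 375)) (XT.lf (nat_lit 0) (nat_lit 8540996146) (nat_lit 152) (nat_lit 5676263899) (nat_lit 0) (nat_lit 3168727445) (nat_lit 32) (nat_lit 5) (nat_lit 34) (nat_lit 4) (nat_lit 32) (nat_lit 4) (nat_lit 435) (nat_lit 391) (nat_lit 374))) (XT.nd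 (nat_lit 78) (nat_lit 152) (nat_lit 0) (XT.lf (nat_lit 0) (nat_lit 7124090584) (nat_lit 76) (nat_lit 8313961916) (nat_lit 76) (nat_lit 2794306857) (nat_lit 31) (nat_lit 4) (nat_lit 32) (nat_lit 5) (nat_lit 32) (nat_lit 4) (nat_lit 436) (nat_lit 391) (nat_lit 373)) (XT.lf (nat_lit 0) (nat_lit 1778409017) (nat_lit 76) (nat_lit 1795885659) (nat_lit 152) (nat_lit 15563278560) (nat_lit 29) (nat_lit 5) (nat_lit 30) (nat_lit 5) (nat_lit 31) (nat_lit 4) (nat_lit 437) (nat_lit 391) (nat_lit 372))))))))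
noncomputable def xc70 : XT := (XT.nd (nat_lit 1950) (nat_lit 608) (nat_lit 0) (XT.nd (nat_lit 936) (nat_lit 684) (nat_lit 0) (XT.nd (nat_lit 468) (nat_lit 304) (nat_lit 0) (XT.nd (nat_lit 234) (nat_lit 228) (nat_lit 0) (XT.nd (nat_lit 78) (nat_lit 228) (nat_lit 0) (XT.lf (nat_lit 0) (nat_lit 10559161997) (nat_lit 152) (nat_lit 4324612533) (nat_lit 0) (nat_lit 5205010185) (nat_lit 29) (nat_lit 5) (nat_lit 31) (nat_lit 4) (nat_lit 29) (nat_lit 4) (nat_lit 438) (nat_lit 391) (nat_lit 371)) (XT.nd (nat_lit 78) (nat_lit 152) (nat_lit 0) (XT.lf (nat_lit 0) (nat_lit 9871258928) (nat_lit 76) (nat_lit 8348966325) (nat_lit 76) (nat_lit 2886481140) (nat_lit 28) (nat_lit 4) (nat_lit 29) (nat_lit 5) (nat_lit 29) (nat_lit 4) (nat_lit 439) (nat_lit 391) (nat_lit 370)) (XT.lf (nat_lit 0) (nat_lit 2965238068) (nat_lit 76) (nat_lit 1134777283) (nat_lit 152) (nat_lit 18095688107) (nat_lit 26) (nat_lit 5)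 (nat_lit 27) (nat_lit 5) (nat_lit 28) (nat_lit 4) (nat_lit 440) (nat_lit 391) (nat_lit 369)))) (XT.nd (nat_lit 78) (nat_lit 228) (nat_lit 0) (XT.lf (nat_lit 0) (nat_lit 11799310482) (nat_lit 152) (nat_lit 4979153725) (nat_lit 0) (nat_lit 6562576898) (nat_lit 26) (nat_lit 5) (nat_lit 28) (nat_lit 4) (nat_lit 26) (nat_lit 4) (nat_lit 441) (nat_lit 391) (nat_lit 368)) (XT.nd (nat_lit 78) (nat_lit 152) (nat_lit 0) (XT.lf (nat_lit 0) (nat_lit 10608062398) (nat_lit 76) (nat_lit 9637898282) (nat_lit 76) (nat_lit 4321536433) (nat_lit 25) (nat_lit 4) (nat_lit 26) (nat_lit 5) (nat_lit 26) (nat_lit 4) (nat_lit 442) (nat_lit 391) (nat_lit 367)) (XT.lf (nat_lit 0) (nat_lit 1527827385) (nat_lit 76) (nat_lit 1798095262) (nat_lit 152) (nat_lit 22557578524) (nat_lit 23) (nat_lit 5) (nat_lit 24) (nat_lit 5) (nat_lit 25) (nat_lit 4) (nat_lit 443) (nat_lit 391) (nat_lit 366))))) (XT.nd (nat_lit 234) (nat_lit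 152) (nat_lit 0) (XT.nd (nat_lit 78) (nat_lit 152) (nat_lit 0) (XT.lf (nat_lit 0) (nat_lit 11751375235) (nat_lit 152) (nat_lit 8815122045) (nat_lit 0) (nat_lit 6697338084) (nat_lit 23) (nat_lit 5) (nat_lit 25) (nat_lit 4) (nat_lit 23) (nat_lit 4) (nat_lit 444) (nat_lit 391) (nat_lit 365)) (XT.nd (nat_lit 78) (nat_lit 76) (nat_lit 0) (XT.lf (nat_lit 0) (nat_lit 8040602785) (nat_lit 76) (nat_lit 12909319157) (nat_lit 76) (nat_lit 7796752855) (nat_lit 22) (nat_lit 4) (nat_lit 23) (nat_lit 5) (nat_lit 23) (nat_lit 4) (nat_lit 445) (nat_lit 391) (nat_lit 364)) (XT.lf (nat_lit 0) (nat_lit 615877746) (nat_lit 152) (nat_lit 3885734248) (nat_lit 76) (nat_lit 25836981191) (nat_lit 21) (nat_lit 5) (nat_lit 23) (nat_lit 5) (nat_lit 22) (nat_lit 4) (nat_lit 446) (nat_lit 391) (nat_lit 363)))) (XT.nd (nat_lit 78) (nat_lit 76) (nat_lit 0) (XT.lf (nat_lit 0) (nat_lit 9620951372) (nat_lit 152) (nat_lit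 17603010292) (nat_lit 0) (nat_lit 4790452044) (nat_lit 20) (nat_lit 5) (nat_lit 22) (nat_lit 4) (nat_lit 20) (nat_lit 4) (nat_lit 447) (nat_lit 391) (nat_lit 362)) (XT.nd (nat_lit 78) (nat_lit 0) (nat_lit 0) (XT.lf (nat_lit 0) (nat_lit 204868029) (nat_lit 76) (nat_lit 19242441913) (nat_lit 76) (nat_lit 14368921912) (nat_lit 19) (nat_lit 4) (nat_lit 20) (nat_lit 5) (nat_lit 20) (nat_lit 4) (nat_lit 448) (nat_lit 391) (nat_lit 361)) (XT.lf (nat_lit 0) (nat_lit 20181945956) (nat_lit 76) (nat_lit 10232611580) (nat_lit 76) (nat_lit 5319257622) (nat_lit 19) (nat_lit 4) (nat_lit 20) (nat_lit 5) (nat_lit 20) (nat_lit 4) (nat_lit 449) (nat_lit 391) (nat_lit 360)))))) (XT.nd (nat_lit 468) (nat_lit 304) (nat_lit 0) (XT.nd (nat_lit 234) (nat_lit 152) (nat_lit 0) (XT.nd (nat_lit 78) (nat_lit 76) (nat_lit 0) (XT.lf (nat_lit 0) (nat_lit 3791042234) (nat_lit 76) (nat_lit 411495979) (nat_lit 152) (nat_lit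 33596019746) (nat_lit 17) (nat_lit 5) (nat_lit 18) (nat_lit 5) (nat_lit 19) (nat_lit 4) (nat_lit 450) (nat_lit 391) (nat_lit 359)) (XT.nd (nat_lit 78) (nat_lit 76) (nat_lit 0) (XT.lf (nat_lit 0) (nat_lit 14760251433) (nat_lit 152) (nat_lit 15067176354) (nat_lit 0) (nat_lit 10145076944) (nat_lit 17) (nat_lit 5) (nat_lit 19) (nat_lit 4) (nat_lit 17) (nat_lit 4) (nat_lit 451) (nat_lit 391) (nat_lit 358)) (XT.lf (nat_lit 0) (nat_lit 5422919007) (nat_lit 76) (nat_lit 20769748298) (nat_lit 76) (nat_lit 16125294662) (nat_lit 16) (nat_lit 4) (nat_lit 17) (nat_lit 5) (nat_lit 17) (nat_lit 4) (nat_lit 452) (nat_lit 391) (nat_lit 357)))) (XT.nd (nat_lit 78) (nat_lit 152) (nat_lit 0) (XT.lf (nat_lit 0) (nat_lit 28188769365) (nat_lit 76) (nat_lit 10654771343) (nat_lit 76) (nat_lit 5983207385) (nat_lit 16) (nat_lit 4) (nat_lit 17) (nat_lit 5) (nat_lit 17) (nat_lit 4) (nat_lit 453) (nat_lit 391) (nat_lit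 356)) (XT.nd (nat_lit 78) (nat_lit 0) (nat_lit 0) (XT.lf (nat_lit 0) (nat_lit 4753489745) (nat_lit 152) (nat_lit 42365911034) (nat_lit 0) (nat_lit 404724831) (nat_lit 14) (nat_lit 5) (nat_lit 16) (nat_lit 4) (nat_lit 14) (nat_lit 4) (nat_lit 454) (nat_lit 391) (nat_lit 355)) (XT.lf (nat_lit 0) (nat_lit 16666849767) (nat_lit 152) (nat_lit 21410170210) (nat_lit 0) (nat_lit 12296563806) (nat_lit 14) (nat_lit 5) (nat_lit 16) (nat_lit 4) (nat_lit 14) (nat_lit 4) (nat_lit 455) (nat_lit 391) (nat_lit 354))))) (XT.nd (nat_lit 234) (nat_lit 228) (nat_lit 0) (XT.nd (nat_lit 78) (nat_lit 0) (nat_lit 0) (XT.lf (nat_lit 0) (nat_lit 1082068021) (nat_lit 76) (nat_lit 28382327577) (nat_lit 76) (nat_lit 23992114720) (nat_lit 13) (nat_lit 4) (nat_lit 14) (nat_lit 5) (nat_lit 14) (nat_lit 4) (nat_lit 456) (nat_lit 391) (nat_lit 353)) (XT.nd (nat_lit 78) (nat_lit 0) (nat_lit 0) (XT.lf (nat_lit 0) (nat_lit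 26402123084) (nat_lit 76) (nat_lit 17376587657) (nat_lit 76) (nat_lit 12967923971) (nat_lit 13) (nat_lit 4) (nat_lit 14) (nat_lit 5) (nat_lit 14) (nat_lit 4) (nat_lit 457) (nat_lit 391) (nat_lit 352)) (XT.lf (nat_lit 0) (nat_lit 53572618127) (nat_lit 76) (nat_lit 5579973015) (nat_lit 76) (nat_lit 1154225227) (nat_lit 13) (nat_lit 4) (nat_lit 14) (nat_lit 5) (nat_lit 14) (nat_lit 4) (nat_lit 458) (nat_lit 391) (nat_lit 351)))) (XT.nd (nat_lit 156) (nat_lit 76) (nat_lit 0) (XT.nd (nat_lit 78) (nat_lit 0) (nat_lit 0) (XT.lf (nat_lit 0) (nat_lit 11595997984) (nat_lit 152) (nat_lit 45004296753) (nat_lit 0) (nat_lit 7483436502) (nat_lit 11) (nat_lit 5) (nat_lit 13) (nat_lit 4) (nat_lit 11) (nat_lit 4) (nat_lit 459) (nat_lit 391) (nat_lit 350)) (XT.lf (nat_lit 0) (nat_lit 25556544871) (nat_lit 152) (nat_lit 21153222167) (nat_lit 0) (nat_lit 21430421479) (nat_lit 11) (nat_lit 5) (nat_lit 13) (nat_lit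 4) (nat_lit 11) (nat_lit 4) (nat_lit 460) (nat_lit 391) (nat_lit 349))) (XT.nd (nat_lit 78) (nat_lit 0) (nat_lit 0) (XT.lf (nat_lit 0) (nat_lit 4686102690) (nat_lit 76) (nat_lit 35985369089) (nat_lit 76) (nat_lit 31846688372) (nat_lit 10) (nat_lit 4) (nat_lit 11) (nat_lit 5) (nat_lit 11) (nat_lit 4) (nat_lit 461) (nat_lit 391) (nat_lit 348)) (XT.lf (nat_lit 0) (nat_lit 33645227647) (nat_lit 76) (nat_lit 23855519026) (nat_lit 76) (nat_lit 19705211157) (nat_lit 10) (nat_lit 4) (nat_lit 11) (nat_lit 5) (nat_lit 11) (nat_lit 4) (nat_lit 462) (nat_lit 391) (nat_lit 347))))))) (XT.nd (nat_lit 936) (nat_lit 228) (nat_lit 0) (XT.nd (nat_lit 468) (nat_lit 152) (nat_lit 0) (XT.nd (nat_lit 234) (nat_lit 76) (nat_lit 0) (XT.nd (nat_lit 78) (nat_lit 152) (nat_lit 0) (XT.lf (nat_lit 0) (nat_lit 64781871141) (nat_lit 76) (nat_lit 10826702838) (nat_lit 76) (nat_lit 6665629088) (nat_lit 10) (nat_lit 4)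 (nat_lit 11) (nat_lit 5) (nat_lit 11) (nat_lit 4) (nat_lit 463) (nat_lit 391) (nat_lit 346)) (XT.nd (nat_lit 78) (nat_lit 0) (nat_lit 0) (XT.lf (nat_lit 0) (nat_lit 7331568684) (nat_lit 152) (nat_lit 76909737889) (nat_lit 0) (nat_lit 3469492611) (nat_lit 8) (nat_lit 5) (nat_lit 10) (nat_lit 4) (nat_lit 8) (nat_lit 4) (nat_lit 464) (nat_lit 391) (nat_lit 345)) (XT.lf (nat_lit 0) (nat_lit 22796010075) (nat_lit 152) (nat_lit 51790468227) (nat_lit 0) (nat_lit 18925387698) (nat_lit 8) (nat_lit 5) (nat_lit 10) (nat_lit 4) (nat_lit 8) (nat_lit 4) (nat_lit 465) (nat_lit 391) (nat_lit 344)))) (XT.nd (nat_lit 78) (nat_lit 76) (nat_lit 0) (XT.lf (nat_lit 0) (nat_lit 39438049234) (nat_lit 152) (nat_lit 24784220343) (nat_lit 0) (nat_lit 35559513612) (nat_lit 8) (nat_lit 5) (nat_lit 10) (nat_lit 4) (nat_lit 8) (nat_lit 4) (nat_lit 466) (nat_lit 391) (nat_lit 343)) (XT.nd (nat_lit 78) (nat_lit 0) (nat_lit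 0) (XT.lf (nat_lit 0) (nat_lit 4493843015) (nat_lit 76) (nat_lit 52970539668) (nat_lit 76) (nat_lit 49084676968) (nat_lit 7) (nat_lit 4) (nat_lit 8) (nat_lit 5) (nat_lit 8) (nat_lit 4) (nat_lit 467) (nat_lit 391) (nat_lit 342)) (XT.lf (nat_lit 0) (nat_lit 37413040457) (nat_lit 76) (nat_lit 40143705653) (nat_lit 76) (nat_lit 36251058621) (nat_lit 7) (nat_lit 4) (nat_lit 8) (nat_lit 5) (nat_lit 8) (nat_lit 4) (nat_lit 468) (nat_lit 391) (nat_lit 341))))) (XT.nd (nat_lit 234) (nat_lit 0) (nat_lit 0) (XT.nd (nat_lit 78) (nat_lit 152) (nat_lit 0) (XT.lf (nat_lit 0) (nat_lit 72863355586) (nat_lit 76) (nat_lit 26343401168) (nat_lit 76) (nat_lit 22444472348) (nat_lit 7) (nat_lit 4) (nat_lit 8) (nat_lit 5) (nat_lit 8) (nat_lit 4) (nat_lit 469) (nat_lit 391) (nat_lit 340)) (XT.nd (nat_lit 78) (nat_lit 152) (nat_lit 0) (XT.lf (nat_lit 0) (nat_lit 111054864344) (nat_lit 76) (nat_lit 11487846631) (nat_lit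 76) (nat_lit 7583101340) (nat_lit 7) (nat_lit 4) (nat_lit 8) (nat_lit 5) (nat_lit 8) (nat_lit 4) (nat_lit 470) (nat_lit 391) (nat_lit 339)) (XT.lf (nat_lit 0) (nat_lit 8444251635) (nat_lit 152) (nat_lit 125962009109) (nat_lit 0) (nat_lit 4823760050) (nat_lit 5) (nat_lit 5) (nat_lit 7) (nat_lit 4) (nat_lit 5) (nat_lit 4) (nat_lit 471) (nat_lit 391) (nat_lit 338)))) (XT.nd (nat_lit 78) (nat_lit 0) (nat_lit 0) (XT.lf (nat_lit 0) (nat_lit 26133759215) (nat_lit 152) (nat_lit 100341227497) (nat_lit 0) (nat_lit 22508650327) (nat_lit 5) (nat_lit 5) (nat_lit 7) (nat_lit 4) (nat_lit 5) (nat_lit 4) (nat_lit 472) (nat_lit 391) (nat_lit 337)) (XT.nd (nat_lit 78) (nat_lit 0) (nat_lit 0) (XT.lf (nat_lit 0) (nat_lit 45197953263) (nat_lit 152) (nat_lit 72754258385) (nat_lit 0) (nat_lit 41568569096) (nat_lit 5) (nat_lit 5) (nat_lit 7) (nat_lit 4) (nat_lit 5) (nat_lit 4) (nat_lit 473) (nat_lit 391) (nat_lit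 336)) (XT.lf (nat_lit 0) (nat_lit 65749806783) (nat_lit 152) (nat_lit 43037623435) (nat_lit 0) (nat_lit 62116464024) (nat_lit 5) (nat_lit 5) (nat_lit 7) (nat_lit 4) (nat_lit 5) (nat_lit 4) (nat_lit 474) (nat_lit 391) (nat_lit 335)))))) (XT.nd (nat_lit 468) (nat_lit 152) (nat_lit 0) (XT.nd (nat_lit 234) (nat_lit 0) (nat_lit 0) (XT.nd (nat_lit 78) (nat_lit 76) (nat_lit 0) (XT.lf (nat_lit 0) (nat_lit 87911108536) (nat_lit 152) (nat_lit 11015224071) (nat_lit 0) (nat_lit 84274100413) (nat_lit 5) (nat_lit 5) (nat_lit 7) (nat_lit 4) (nat_lit 5) (nat_lit 4) (nat_lit 475) (nat_lit 391) (nat_lit 334)) (XT.nd (nat_lit 78) (nat_lit 0) (nat_lit 0) (XT.lf (nat_lit 0) (nat_lit 24740312715) (nat_lit 76) (nat_lit 87667877155) (nat_lit 76) (nat_lit 84027475177) (nat_lit 4) (nat_lit 4) (nat_lit 5) (nat_lit 5) (nat_lit 5) (nat_lit 4) (nat_lit 476) (nat_lit 391) (nat_lit 333)) (XT.lf (nat_lit 0) (nat_lit 63918150428)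 (nat_lit 76) (nat_lit 75216759997) (nat_lit 76) (nat_lit 71573215561) (nat_lit 4) (nat_lit 4) (nat_lit 5) (nat_lit 5) (nat_lit 5) (nat_lit 4) (nat_lit 477) (nat_lit 391) (nat_lit 332)))) (XT.nd (nat_lit 78) (nat_lit 0) (nat_lit 0) (XT.lf (nat_lit 0) (nat_lit 106170411855) (nat_lit 76) (nat_lit 61800372482) (nat_lit 76) (nat_lit 58153918363) (nat_lit 4) (nat_lit 4) (nat_lit 5) (nat_lit 5) (nat_lit 5) (nat_lit 4) (nat_lit 478) (nat_lit 391) (nat_lit 331)) (XT.nd (nat_lit 78) (nat_lit 0) (nat_lit 0) (XT.lf (nat_lit 0) (nat_lit 151747480765) (nat_lit 76) (nat_lit 47339210093) (nat_lit 76) (nat_lit 43690061822) (nat_lit 4) (nat_lit 4) (nat_lit 5) (nat_lit 5) (nat_lit 5) (nat_lit 4) (nat_lit 479) (nat_lit 391) (nat_lit 330)) (XT.lf (nat_lit 0) (nat_lit 200919443493) (nat_lit 76) (nat_lit 31747577051) (nat_lit 76) (nat_lit 28095934195) (nat_lit 4) (nat_lit 4) (nat_lit 5) (nat_lit 5) (nat_lit 5)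 (nat_lit 4) (nat_lit 480) (nat_lit 391) (nat_lit 329))))) (XT.nd (nat_lit 234) (nat_lit 0) (nat_lit 0) (XT.nd (nat_lit 78) (nat_lit 152) (nat_lit 0) (XT.lf (nat_lit 0) (nat_lit 253977689449) (nat_lit 76) (nat_lit 14933078494) (nat_lit 76) (nat_lit 11279125838) (nat_lit 4) (nat_lit 4) (nat_lit 5) (nat_lit 5) (nat_lit 5) (nat_lit 4) (nat_lit 481) (nat_lit 391) (nat_lit 328)) (XT.nd (nat_lit 78) (nat_lit 0) (nat_lit 0) (XT.lf (nat_lit 0) (nat_lit 6855308209) (nat_lit 152) (nat_lit 290807070622) (nat_lit 0) (nat_lit 3470038430) (nat_lit 2) (nat_lit 5) (nat_lit 4) (nat_lit 4) (nat_lit 2) (nat_lit 4) (nat_lit 482) (nat_lit 391) (nat_lit 327)) (XT.lf (nat_lit 0) (nat_lit 26932465483) (nat_lit 152) (nat_lit 273160971240) (nat_lit 0) (nat_lit 23545362110) (nat_lit 2) (nat_lit 5) (nat_lit 4) (nat_lit 4) (nat_lit 2) (nat_lit 4) (nat_lit 483) (nat_lit 391) (nat_lit 326)))) (XT.nd (nat_lit 156) (nat_lit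 0) (nat_lit 0) (XT.nd (nat_lit 78) (nat_lit 0) (nat_lit 0) (XT.lf (nat_lit 0) (nat_lit 48595571912) (nat_lit 152) (nat_lit 254144966216) (nat_lit 0) (nat_lit 45206770767) (nat_lit 2) (nat_lit 5) (nat_lit 4) (nat_lit 4) (nat_lit 2) (nat_lit 4) (nat_lit 484) (nat_lit 391) (nat_lit 325)) (XT.lf (nat_lit 0) (nat_lit 71973001460) (nat_lit 152) (nat_lit 233646368115) (nat_lit 0) (nat_lit 68582628303) (nat_lit 2) (nat_lit 5) (nat_lit 4) (nat_lit 4) (nat_lit 2) (nat_lit 4) (nat_lit 485) (nat_lit 391) (nat_lit 324))) (XT.nd (nat_lit 78) (nat_lit 0) (nat_lit 0) (XT.lf (nat_lit 0) (nat_lit 97203287042) (nat_lit 152) (nat_lit 211543703762) (nat_lit 0) (nat_lit 93811458320) (nat_lit 2) (nat_lit 5) (nat_lit 4) (nat_lit 4) (nat_lit 2) (nat_lit 4) (nat_lit 486) (nat_lit 391) (nat_lit 323)) (XT.lf (nat_lit 0) (nat_lit 124435941463) (nat_lit 152) (nat_lit 187705994404) (nat_lit 0) (nat_lit 121042764994)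 (nat_lit 2) (nat_lit 5) (nat_lit 4) (nat_lit 4) (nat_lit 2) (nat_lit 4) (nat_lit 487) (nat_lit 391) (nat_lit 322))))))))
noncomputable def xc71 : XT := (XT.nd (nat_lit 1950) (nat_lit 0) (nat_lit 0) (XT.nd (nat_lit 936) (nat_lit 0) (nat_lit 0) (XT.nd (nat_lit 468) (nat_lit 0) (nat_lit 0) (XT.nd (nat_lit 234) (nat_lit 76) (nat_lit 0) (XT.nd (nat_lit 78) (nat_lit 0) (nat_lit 0) (XT.lf (nat_lit 0) (nat_lit 153832343415) (nat_lit 152) (nat_lit 161991979543) (nat_lit 0) (nat_lit 150437919033) (nat_lit 2) (nat_lit 5) (nat_lit 4) (nat_lit 4) (nat_lit 2) (nat_lit 4) (nat_lit 488) (nat_lit 391) (nat_lit 321)) (XT.nd (nat_lit 78) (nat_lit 0) (nat_lit 0) (XT.lf (nat_lit 0) (nat_lit 185566693799) (nat_lit 152) (nat_lit 134249279832) (nat_lit 0) (nat_lit 182171113941) (nat_lit 2) (nat_lit 5) (nat_lit 4) (nat_lit 4) (nat_lit 2) (nat_lit 4) (nat_lit 489) (nat_lit 391) (nat_lit 320)) (XT.lf (nat_lit 0)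 (nat_lit 219827048024) (nat_lit 152) (nat_lit 104313494086) (nat_lit 0) (nat_lit 216430398281) (nat_lit 2) (nat_lit 5) (nat_lit 4) (nat_lit 4) (nat_lit 2) (nat_lit 4) (nat_lit 490) (nat_lit 391) (nat_lit 319)))) (XT.nd (nat_lit 78) (nat_lit 76) (nat_lit 0) (XT.lf (nat_lit 0) (nat_lit 256816430412) (nat_lit 152) (nat_lit 72007225056) (nat_lit 0) (nat_lit 253418790035) (nat_lit 2) (nat_lit 5) (nat_lit 4) (nat_lit 4) (nat_lit 2) (nat_lit 4) (nat_lit 491) (nat_lit 391) (nat_lit 318)) (XT.nd (nat_lit 78) (nat_lit 76) (nat_lit 0) (XT.lf (nat_lit 0) (nat_lit 296754037302) (nat_lit 152) (nat_lit 37139028186) (nat_lit 0) (nat_lit 293355479672) (nat_lit 2) (nat_lit 5) (nat_lit 4) (nat_lit 4) (nat_lit 2) (nat_lit 4) (nat_lit 492) (nat_lit 391) (nat_lit 317)) (XT.lf (nat_lit 0) (nat_lit 523932080) (nat_lit 76) (nat_lit 339365204494) (nat_lit 76) (nat_lit 335965797555) (nat_lit 1) (nat_lit 4) (nat_lit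 2) (nat_lit 5) (nat_lit 2) (nat_lit 4) (nat_lit 493) (nat_lit 391) (nat_lit 316))))) (XT.nd (nat_lit 234) (nat_lit 0) (nat_lit 0) (XT.nd (nat_lit 78) (nat_lit 0) (nat_lit 0) (XT.lf (nat_lit 0) (nat_lit 43291686205) (nat_lit 76) (nat_lit 344188947112) (nat_lit 76) (nat_lit 340788753776) (nat_lit 1) (nat_lit 4) (nat_lit 2) (nat_lit 5) (nat_lit 2) (nat_lit 4) (nat_lit 494) (nat_lit 391) (nat_lit 315)) (XT.nd (nat_lit 78) (nat_lit 0) (nat_lit 0) (XT.lf (nat_lit 0) (nat_lit 89461997323) (nat_lit 76) (nat_lit 349408325333) (nat_lit 76) (nat_lit 346007403851) (nat_lit 1) (nat_lit 4) (nat_lit 2) (nat_lit 5) (nat_lit 2) (nat_lit 4) (nat_lit 495) (nat_lit 391) (nat_lit 314)) (XT.lf (nat_lit 0) (nat_lit 139308467278) (nat_lit 76) (nat_lit 355054268803) (nat_lit 76) (nat_lit 351652673113) (nat_lit 1) (nat_lit 4) (nat_lit 2) (nat_lit 5) (nat_lit 2) (nat_lit 4) (nat_lit 496) (nat_lit 391) (nat_lit 313))))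 (XT.nd (nat_lit 78) (nat_lit 0) (nat_lit 0) (XT.lf (nat_lit 0) (nat_lit 193126482559) (nat_lit 76) (nat_lit 361160234967) (nat_lit 76) (nat_lit 357758015009) (nat_lit 1) (nat_lit 4) (nat_lit 2) (nat_lit 5) (nat_lit 2) (nat_lit 4) (nat_lit 497) (nat_lit 391) (nat_lit 312)) (XT.nd (nat_lit 78) (nat_lit 0) (nat_lit 0) (XT.lf (nat_lit 0) (nat_lit 251234964737) (nat_lit 76) (nat_lit 367762407327) (nat_lit 76) (nat_lit 364359609344) (nat_lit 1) (nat_lit 4) (nat_lit 2) (nat_lit 5) (nat_lit 2) (nat_lit 4) (nat_lit 498) (nat_lit 391) (nat_lit 311)) (XT.lf (nat_lit 0) (nat_lit 313978260373) (nat_lit 76) (nat_lit 374899909868) (nat_lit 76) (nat_lit 371496576676) (nat_lit 1) (nat_lit 4) (nat_lit 2) (nat_lit 5) (nat_lit 2) (nat_lit 4) (nat_lit 499) (nat_lit 391) (nat_lit 310)))))) (XT.nd (nat_lit 468) (nat_lit 0) (nat_lit 0) (XT.nd (nat_lit 234) (nat_lit 0) (nat_lit 0) (XT.nd (nat_lit 78) (nat_lit 0)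 (nat_lit 0) (XT.lf (nat_lit 0) (nat_lit 381728181590) (nat_lit 76) (nat_lit 382615038900) (nat_lit 76) (nat_lit 379211210145) (nat_lit 1) (nat_lit 4) (nat_lit 2) (nat_lit 5) (nat_lit 2) (nat_lit 4) (nat_lit 500) (nat_lit 391) (nat_lit 309)) (XT.nd (nat_lit 78) (nat_lit 0) (nat_lit 0) (XT.lf (nat_lit 0) (nat_lit 454886209402) (nat_lit 76) (nat_lit 390953513708) (nat_lit 76) (nat_lit 387549226097) (nat_lit 1) (nat_lit 4) (nat_lit 2) (nat_lit 5) (nat_lit 2) (nat_lit 4) (nat_lit 501) (nat_lit 391) (nat_lit 308)) (XT.lf (nat_lit 0) (nat_lit 533885872863) (nat_lit 76) (nat_lit 399964747475) (nat_lit 76) (nat_lit 396560034999) (nat_lit 1) (nat_lit 4) (nat_lit 2) (nat_lit 5) (nat_lit 2) (nat_lit 4) (nat_lit 502) (nat_lit 391) (nat_lit 307)))) (XT.nd (nat_lit 78) (nat_lit 0) (nat_lit 0) (XT.lf (nat_lit 0) (nat_lit 619195318127) (nat_lit 76) (nat_lit 409702140105) (nat_lit 76) (nat_lit 406297034234)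 (nat_lit 1) (nat_lit 4) (nat_lit 2) (nat_lit 5) (nat_lit 2) (nat_lit 4) (nat_lit 503) (nat_lit 391) (nat_lit 306)) (XT.nd (nat_lit 78) (nat_lit 0) (nat_lit 0) (XT.lf (nat_lit 0) (nat_lit 711320082648) (nat_lit 76) (nat_lit 420223394665) (nat_lit 76) (nat_lit 416817924540) (nat_lit 1) (nat_lit 4) (nat_lit 2) (nat_lit 5) (nat_lit 2) (nat_lit 4) (nat_lit 504) (nat_lit 391) (nat_lit 305)) (XT.lf (nat_lit 0) (nat_lit 810806090955) (nat_lit 76) (nat_lit 431590859331) (nat_lit 76) (nat_lit 428185051934) (nat_lit 1) (nat_lit 4) (nat_lit 2) (nat_lit 5) (nat_lit 2) (nat_lit 4) (nat_lit 505) (nat_lit 391) (nat_lit 304))))) (XT.nd (nat_lit 234) (nat_lit 0) (nat_lit 0) (XT.nd (nat_lit 78) (nat_lit 0) (nat_lit 0) (XT.lf (nat_lit 0) (nat_lit 918242889765) (nat_lit 76) (nat_lit 443871896856) (nat_lit 76) (nat_lit 440465777170) (nat_lit 1) (nat_lit 4) (nat_lit 2) (nat_lit 5) (nat_lit 2) (nat_lit 4) (nat_lit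 506) (nat_lit 391) (nat_lit 303)) (XT.nd (nat_lit 78) (nat_lit 0) (nat_lit 0) (XT.lf (nat_lit 0) (nat_lit 1034267141589) (nat_lit 76) (nat_lit 457139283759) (nat_lit 76) (nat_lit 453732874916) (nat_lit 1) (nat_lit 4) (nat_lit 2) (nat_lit 5) (nat_lit 2) (nat_lit 4) (nat_lit 507) (nat_lit 391) (nat_lit 302)) (XT.lf (nat_lit 0) (nat_lit 1159566397549) (nat_lit 76) (nat_lit 471471641592) (nat_lit 76) (nat_lit 468064965012) (nat_lit 1) (nat_lit 4) (nat_lit 2) (nat_lit 5) (nat_lit 2) (nat_lit 4) (nat_lit 508) (nat_lit 391) (nat_lit 301)))) (XT.nd (nat_lit 156) (nat_lit 0) (nat_lit 0) (XT.nd (nat_lit 78) (nat_lit 0) (nat_lit 0) (XT.lf (nat_lit 0) (nat_lit 1294883171754) (nat_lit 76) (nat_lit 486953902845) (nat_lit 76) (nat_lit 483546978360) (nat_lit 1) (nat_lit 4) (nat_lit 2) (nat_lit 5) (nat_lit 2) (nat_lit 4) (nat_lit 509) (nat_lit 391) (nat_lit 300)) (XT.lf (nat_lit 0) (nat_lit 1441019341386)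 (nat_lit 76) (nat_lit 503677814253) (nat_lit 76) (nat_lit 500270660226) (nat_lit 1) (nat_lit 4) (nat_lit 2) (nat_lit 5) (nat_lit 2) (nat_lit 4) (nat_lit 510) (nat_lit 391) (nat_lit 299))) (XT.nd (nat_lit 78) (nat_lit 0) (nat_lit 0) (XT.lf (nat_lit 0) (nat_lit 1598840898560) (nat_lit 76) (nat_lit 521742480475) (nat_lit 76) (nat_lit 518335113909) (nat_lit 1) (nat_lit 4) (nat_lit 2) (nat_lit 5) (nat_lit 2) (nat_lit 4) (nat_lit 511) (nat_lit 391) (nat_lit 298)) (XT.lf (nat_lit 0) (nat_lit 1769283082133) (nat_lit 76) (nat_lit 541254951385) (nat_lit 76) (nat_lit 537847388024) (nat_lit 1) (nat_lit 4) (nat_lit 2) (nat_lit 5) (nat_lit 2) (nat_lit 4) (nat_lit 512) (nat_lit 391) (nat_lit 297))))))) (XT.nd (nat_lit 936) (nat_lit 0) (nat_lit 0) (XT.nd (nat_lit 468) (nat_lit 0) (nat_lit 0) (XT.nd (nat_lit 234) (nat_lit 0) (nat_lit 0) (XT.nd (nat_lit 78) (nat_lit 0) (nat_lit 0) (XT.lf (nat_lit 0) (nat_lit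 1953355919861) (nat_lit 76) (nat_lit 562330856440) (nat_lit 76) (nat_lit 558923110862) (nat_lit 1) (nat_lit 4) (nat_lit 2) (nat_lit 5) (nat_lit 2) (nat_lit 4) (nat_lit 513) (nat_lit 391) (nat_lit 296)) (XT.nd (nat_lit 78) (nat_lit 0) (nat_lit 0) (XT.lf (nat_lit 0) (nat_lit 2152150213743) (nat_lit 76) (nat_lit 585095089894) (nat_lit 76) (nat_lit 581687175595) (nat_lit 1) (nat_lit 4) (nat_lit 2) (nat_lit 5) (nat_lit 2) (nat_lit 4) (nat_lit 514) (nat_lit 391) (nat_lit 295)) (XT.lf (nat_lit 0) (nat_lit 2366844004042) (nat_lit 76) (nat_lit 609682550905) (nat_lit 76) (nat_lit 606274480384) (nat_lit 1) (nat_lit 4) (nat_lit 2) (nat_lit 5) (nat_lit 2) (nat_lit 4) (nat_lit 515) (nat_lit 391) (nat_lit 294)))) (XT.nd (nat_lit 78) (nat_lit 0) (nat_lit 0) (XT.lf (nat_lit 0) (nat_lit 2598709550254) (nat_lit 76) (nat_lit 636238942949) (nat_lit 76) (nat_lit 632830727777) (nat_lit 1) (nat_lit 4) (nat_lit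 2) (nat_lit 5) (nat_lit 2) (nat_lit 4) (nat_lit 516) (nat_lit 391) (nat_lit 293)) (XT.nd (nat_lit 78) (nat_lit 0) (nat_lit 0) (XT.lf (nat_lit 0) (nat_lit 2849120870431) (nat_lit 76) (nat_lit 664921637236) (nat_lit 76) (nat_lit 661513288129) (nat_lit 1) (nat_lit 4) (nat_lit 2) (nat_lit 5) (nat_lit 2) (nat_lit 4) (nat_lit 517) (nat_lit 391) (nat_lit 292)) (XT.lf (nat_lit 0) (nat_lit 3119561883508) (nat_lit 76) (nat_lit 695900605288) (nat_lit 76) (nat_lit 692492132167) (nat_lit 1) (nat_lit 4) (nat_lit 2) (nat_lit 5) (nat_lit 2) (nat_lit 4) (nat_lit 518) (nat_lit 391) (nat_lit 291))))) (XT.nd (nat_lit 234) (nat_lit 0) (nat_lit 0) (XT.nd (nat_lit 78) (nat_lit 0) (nat_lit 0) (XT.lf (nat_lit 0) (nat_lit 3411635202895) (nat_lit 76) (nat_lit 729359426175) (nat_lit 76) (nat_lit 725950838226) (nat_lit 1) (nat_lit 4) (nat_lit 2) (nat_lit 5) (nat_lit 2) (nat_lit 4) (nat_lit 519) (nat_lit 391) (nat_lit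 290)) (XT.nd (nat_lit 78) (nat_lit 0) (nat_lit 0) (XT.lf (nat_lit 0) (nat_lit 3727071633448) (nat_lit 76) (nat_lit 765496374392) (nat_lit 76) (nat_lit 762087680120) (nat_lit 1) (nat_lit 4) (nat_lit 2) (nat_lit 5) (nat_lit 2) (nat_lit 4) (nat_lit 520) (nat_lit 391) (nat_lit 289)) (XT.lf (nat_lit 0) (nat_lit 4067740428089) (nat_lit 76) (nat_lit 804525594816) (nat_lit 76) (nat_lit 801116802098) (nat_lit 1) (nat_lit 4) (nat_lit 2) (nat_lit 5) (nat_lit 2) (nat_lit 4) (nat_lit 521) (nat_lit 391) (nat_lit 288)))) (XT.nd (nat_lit 78) (nat_lit 0) (nat_lit 0) (XT.lf (nat_lit 0) (nat_lit 4435660364860) (nat_lit 76) (nat_lit 846678371718) (nat_lit 76) (nat_lit 843269487845) (nat_lit 1) (nat_lit 4) (nat_lit 2) (nat_lit 5) (nat_lit 2) (nat_lit 4) (nat_lit 522) (nat_lit 391) (nat_lit 287)) (XT.nd (nat_lit 78) (nat_lit 0) (nat_lit 0) (XT.lf (nat_lit 0) (nat_lit 4833011710054) (nat_lit 76) (nat_lit 892204499329)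 (nat_lit 76) (nat_lit 888795531055) (nat_lit 1) (nat_lit 4) (nat_lit 2) (nat_lit 5) (nat_lit 2) (nat_lit 4) (nat_lit 523) (nat_lit 391) (nat_lit 286)) (XT.lf (nat_lit 0) (nat_lit 5262149138307) (nat_lit 76) (nat_lit 941373762111) (nat_lit 76) (nat_lit 937964715687) (nat_lit 1) (nat_lit 4) (nat_lit 2) (nat_lit 5) (nat_lit 2) (nat_lit 4) (nat_lit 524) (nat_lit 391) (nat_lit 285)))))) (XT.nd (nat_lit 468) (nat_lit 0) (nat_lit 0) (XT.nd (nat_lit 234) (nat_lit 0) (nat_lit 0) (XT.nd (nat_lit 78) (nat_lit 0) (nat_lit 0) (XT.lf (nat_lit 0) (nat_lit 5725615686233) (nat_lit 76) (nat_lit 994477533473) (nat_lit 76) (nat_lit 991068414687) (nat_lit 1) (nat_lit 4) (nat_lit 2) (nat_lit 5) (nat_lit 2) (nat_lit 4) (nat_lit 525) (nat_lit 391) (nat_lit 284)) (XT.nd (nat_lit 78) (nat_lit 0) (nat_lit 0) (XT.lf (nat_lit 0) (nat_lit 6226157822263) (nat_lit 76) (nat_lit 1051830502429) (nat_lit 76) (nat_lit 1048421316642)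 (nat_lit 1) (nat_lit 4) (nat_lit 2) (nat_lit 5) (nat_lit 2) (nat_lit 4) (nat_lit 526) (nat_lit 391) (nat_lit 283)) (XT.lf (nat_lit 0) (nat_lit 6766741722018) (nat_lit 76) (nat_lit 1113772538425) (nat_lit 76) (nat_lit 1110363290600) (nat_lit 1) (nat_lit 4) (nat_lit 2) (nat_lit 5) (nat_lit 2) (nat_lit 4) (nat_lit 527) (nat_lit 391) (nat_lit 282)))) (XT.nd (nat_lit 78) (nat_lit 0) (nat_lit 0) (XT.lf (nat_lit 0) (nat_lit 7350570845646) (nat_lit 76) (nat_lit 1180670705379) (nat_lit 76) (nat_lit 1177261400112) (nat_lit 1) (nat_lit 4) (nat_lit 2) (nat_lit 5) (nat_lit 2) (nat_lit 4) (nat_lit 528) (nat_lit 391) (nat_lit 281)) (XT.nd (nat_lit 78) (nat_lit 0) (nat_lit 0) (XT.lf (nat_lit 0) (nat_lit 7981104921285) (nat_lit 76) (nat_lit 1252921436873) (nat_lit 76) (nat_lit 1249512078418) (nat_lit 1) (nat_lit 4) (nat_lit 2) (nat_lit 5) (nat_lit 2) (nat_lit 4) (nat_lit 529) (nat_lit 391) (nat_lit 280))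 (XT.lf (nat_lit 0) (nat_lit 8662080447162) (nat_lit 76) (nat_lit 1330952885389) (nat_lit 76) (nat_lit 1327543477686) (nat_lit 1) (nat_lit 4) (nat_lit 2) (nat_lit 5) (nat_lit 2) (nat_lit 4) (nat_lit 530) (nat_lit 391) (nat_lit 279))))) (XT.nd (nat_lit 234) (nat_lit 0) (nat_lit 0) (XT.nd (nat_lit 78) (nat_lit 0) (nat_lit 0) (XT.lf (nat_lit 0) (nat_lit 9397532833801) (nat_lit 76) (nat_lit 1415227459511) (nat_lit 76) (nat_lit 1411818006208) (nat_lit 1) (nat_lit 4) (nat_lit 2) (nat_lit 5) (nat_lit 2) (nat_lit 4) (nat_lit 531) (nat_lit 391) (nat_lit 278)) (XT.nd (nat_lit 78) (nat_lit 0) (nat_lit 0) (XT.lf (nat_lit 0) (nat_lit 10191820317567) (nat_lit 76) (nat_lit 1506244564123) (nat_lit 76) (nat_lit 1502835068598) (nat_lit 1) (nat_lit 4) (nat_lit 2) (nat_lit 5) (nat_lit 2) (nat_lit 4) (nat_lit 532) (nat_lit 391) (nat_lit 277)) (XT.lf (nat_lit 0) (nat_lit 11049649787252) (nat_lit 76) (nat_lit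 1604543559845) (nat_lit 76) (nat_lit 1601134025226) (nat_lit 1) (nat_lit 4) (nat_lit 2) (nat_lit 5) (nat_lit 2) (nat_lit 4) (nat_lit 533) (nat_lit 391) (nat_lit 276)))) (XT.nd (nat_lit 53274) (nat_lit 0) (nat_lit 4332) (XT.nd (nat_lit 78) (nat_lit 0) (nat_lit 0) (XT.lf (nat_lit 0) (nat_lit 11976104676752) (nat_lit 76) (nat_lit 1710706959244) (nat_lit 76) (nat_lit 1707297388426) (nat_lit 1) (nat_lit 4) (nat_lit 2) (nat_lit 5) (nat_lit 2) (nat_lit 4) (nat_lit 534) (nat_lit 391) (nat_lit 275)) (XT.lf (nat_lit 0) (nat_lit 12976675089114) (nat_lit 76) (nat_lit 1825363878760) (nat_lit 76) (nat_lit 1821954274425) (nat_lit 1) (nat_lit 4) (nat_lit 2) (nat_lit 5) (nat_lit 2) (nat_lit 4) (nat_lit 535) (nat_lit 391) (nat_lit 274))) (XT.nd (nat_lit 78) (nat_lit 228) (nat_lit 0) (XT.lf (nat_lit 0) (nat_lit 649795559) (nat_lit 228) (nat_lit 1749750443) (nat_lit 228) (nat_lit 1749750443) (nat_lit 61) (nat_lit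 4) (nat_lit 64) (nat_lit 5) (nat_lit 64) (nat_lit 4) (nat_lit 416) (nat_lit 392) (nat_lit 392)) (XT.lf (nat_lit 0) (nat_lit 79318971) (nat_lit 152) (nat_lit 482912057) (nat_lit 228) (nat_lit 7987074181) (nat_lit 58) (nat_lit 5) (nat_lit 60) (nat_lit 5) (nat_lit 61) (nat_lit 4) (nat_lit 417) (nat_lit 392) (nat_lit 391))))))))
noncomputable def xc72 : XT := (XT.nd (nat_lit 1950) (nat_lit 1292) (nat_lit 0) (XT.nd (nat_lit 936) (nat_lit 1064) (nat_lit 0) (XT.nd (nat_lit 468) (nat_lit 608) (nat_lit 0) (XT.nd (nat_lit 234) (nat_lit 456) (nat_lit 0) (XT.nd (nat_lit 78) (nat_lit 380) (nat_lit 0) (XT.lf (nat_lit 0) (nat_lit 4753849650) (nat_lit 228) (nat_lit 1249607979) (nat_lit 0) (nat_lit 2809874288) (nat_lit 58) (nat_lit 5) (nat_lit 61) (nat_lit 4) (nat_lit 58) (nat_lit 4) (nat_lit 418) (nat_lit 392) (nat_lit 390)) (XT.nd (nat_lit 78) (nat_lit 152) (nat_lit 0) (XT.lf (nat_lit 0) (nat_lit 90460780)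 (nat_lit 228) (nat_lit 2621190584) (nat_lit 76) (nat_lit 6393140422) (nat_lit 55) (nat_lit 5) (nat_lit 58) (nat_lit 5) (nat_lit 56) (nat_lit 4) (nat_lit 419) (nat_lit 392) (nat_lit 389)) (XT.lf (nat_lit 0) (nat_lit 4293201227) (nat_lit 228) (nat_lit 4172728397) (nat_lit 0) (nat_lit 950033723) (nat_lit 53) (nat_lit 5) (nat_lit 56) (nat_lit 4) (nat_lit 53) (nat_lit 4) (nat_lit 420) (nat_lit 392) (nat_lit 388)))) (XT.nd (nat_lit 78) (nat_lit 304) (nat_lit 0) (XT.lf (nat_lit 0) (nat_lit 3877293697) (nat_lit 152) (nat_lit 4952543325) (nat_lit 152) (nat_lit 922414320) (nat_lit 51) (nat_lit 4) (nat_lit 53) (nat_lit 5) (nat_lit 53) (nat_lit 4) (nat_lit 421) (nat_lit 392) (nat_lit 387)) (XT.nd (nat_lit 78) (nat_lit 152) (nat_lit 0) (XT.lf (nat_lit 0) (nat_lit 2342890224) (nat_lit 76) (nat_lit 1026866840) (nat_lit 152) (nat_lit 6743837137) (nat_lit 49) (nat_lit 5) (nat_lit 50) (nat_lit 5) (nat_lit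 51) (nat_lit 4) (nat_lit 422) (nat_lit 392) (nat_lit 386)) (XT.lf (nat_lit 0) (nat_lit 593923738) (nat_lit 152) (nat_lit 7385984936) (nat_lit 152) (nat_lit 2520093053) (nat_lit 47) (nat_lit 4) (nat_lit 49) (nat_lit 5) (nat_lit 49) (nat_lit 4) (nat_lit 423) (nat_lit 392) (nat_lit 385))))) (XT.nd (nat_lit 234) (nat_lit 304) (nat_lit 0) (XT.nd (nat_lit 78) (nat_lit 228) (nat_lit 0) (XT.lf (nat_lit 0) (nat_lit 1954318668) (nat_lit 228) (nat_lit 1305846264) (nat_lit 76) (nat_lit 7652062444) (nat_lit 46) (nat_lit 5) (nat_lit 49) (nat_lit 5) (nat_lit 47) (nat_lit 4) (nat_lit 424) (nat_lit 392) (nat_lit 384)) (XT.nd (nat_lit 78) (nat_lit 152) (nat_lit 0) (XT.lf (nat_lit 0) (nat_lit 6660756371) (nat_lit 152) (nat_lit 3435779261) (nat_lit 0) (nat_lit 1254864196) (nat_lit 45) (nat_lit 5) (nat_lit 47) (nat_lit 4) (nat_lit 45) (nat_lit 4) (nat_lit 425) (nat_lit 392) (nat_lit 383)) (XT.lf (nat_lit 0)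 (nat_lit 5970976110) (nat_lit 152) (nat_lit 5828508505) (nat_lit 152) (nat_lit 21780891) (nat_lit 43) (nat_lit 4) (nat_lit 45) (nat_lit 5) (nat_lit 45) (nat_lit 4) (nat_lit 426) (nat_lit 392) (nat_lit 382)))) (XT.nd (nat_lit 78) (nat_lit 152) (nat_lit 0) (XT.lf (nat_lit 0) (nat_lit 3696225391) (nat_lit 76) (nat_lit 1050936593) (nat_lit 152) (nat_lit 7573699510) (nat_lit 41) (nat_lit 5) (nat_lit 42) (nat_lit 5) (nat_lit 43) (nat_lit 4) (nat_lit 427) (nat_lit 392) (nat_lit 381)) (XT.nd (nat_lit 78) (nat_lit 76) (nat_lit 0) (XT.lf (nat_lit 0) (nat_lit 1068633554) (nat_lit 76) (nat_lit 8911747939) (nat_lit 76) (nat_lit 2873300421) (nat_lit 40) (nat_lit 4) (nat_lit 41) (nat_lit 5) (nat_lit 41) (nat_lit 4) (nat_lit 428) (nat_lit 392) (nat_lit 380)) (XT.lf (nat_lit 0) (nat_lit 2158721503) (nat_lit 152) (nat_lit 1842932804) (nat_lit 76) (nat_lit 9417985412) (nat_lit 39) (nat_lit 5) (nat_lit 41)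 (nat_lit 5) (nat_lit 40) (nat_lit 4) (nat_lit 429) (nat_lit 392) (nat_lit 379)))))) (XT.nd (nat_lit 468) (nat_lit 532) (nat_lit 0) (XT.nd (nat_lit 234) (nat_lit 228) (nat_lit 0) (XT.nd (nat_lit 78) (nat_lit 228) (nat_lit 0) (XT.lf (nat_lit 0) (nat_lit 7499230998) (nat_lit 152) (nat_lit 5138113789) (nat_lit 0) (nat_lit 1382679706) (nat_lit 38) (nat_lit 5) (nat_lit 40) (nat_lit 4) (nat_lit 38) (nat_lit 4) (nat_lit 430) (nat_lit 392) (nat_lit 378)) (XT.nd (nat_lit 78) (nat_lit 152) (nat_lit 0) (XT.lf (nat_lit 0) (nat_lit 5738433155) (nat_lit 76) (nat_lit 7635931822) (nat_lit 76) (nat_lit 1285496902) (nat_lit 37) (nat_lit 4) (nat_lit 38) (nat_lit 5) (nat_lit 38) (nat_lit 4) (nat_lit 431) (nat_lit 392) (nat_lit 377)) (XT.lf (nat_lit 0) (nat_lit 2083719489) (nat_lit 76) (nat_lit 2075277301) (nat_lit 152) (nat_lit 11182782199) (nat_lit 35) (nat_lit 5) (nat_lit 36) (nat_lit 5) (nat_lit 37) (nat_lit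 4) (nat_lit 432) (nat_lit 392) (nat_lit 376)))) (XT.nd (nat_lit 78) (nat_lit 228) (nat_lit 0) (XT.lf (nat_lit 0) (nat_lit 10130716440) (nat_lit 152) (nat_lit 2067480249) (nat_lit 0) (nat_lit 3864502228) (nat_lit 35) (nat_lit 5) (nat_lit 37) (nat_lit 4) (nat_lit 35) (nat_lit 4) (nat_lit 433) (nat_lit 392) (nat_lit 375)) (XT.nd (nat_lit 78) (nat_lit 152) (nat_lit 0) (XT.lf (nat_lit 0) (nat_lit 10146895001) (nat_lit 76) (nat_lit 6561151251) (nat_lit 76) (nat_lit 123025589) (nat_lit 34) (nat_lit 4) (nat_lit 35) (nat_lit 5) (nat_lit 35) (nat_lit 4) (nat_lit 434) (nat_lit 392) (nat_lit 374)) (XT.lf (nat_lit 0) (nat_lit 5604756619) (nat_lit 76) (nat_lit 261618163) (nat_lit 152) (nat_lit 11780841274) (nat_lit 32) (nat_lit 5) (nat_lit 33) (nat_lit 5) (nat_lit 34) (nat_lit 4) (nat_lit 435) (nat_lit 392) (nat_lit 373))))) (XT.nd (nat_lit 234) (nat_lit 304) (nat_lit 0) (XT.nd (nat_lit 78) (nat_lit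 152) (nat_lit 0) (XT.lf (nat_lit 0) (nat_lit 263762269) (nat_lit 76) (nat_lit 12247541035) (nat_lit 76) (nat_lit 6002458361) (nat_lit 31) (nat_lit 4) (nat_lit 32) (nat_lit 5) (nat_lit 32) (nat_lit 4) (nat_lit 436) (nat_lit 392) (nat_lit 372)) (XT.nd (nat_lit 78) (nat_lit 76) (nat_lit 0) (XT.lf (nat_lit 0) (nat_lit 403271665) (nat_lit 152) (nat_lit 5532637656) (nat_lit 76) (nat_lit 13499110225) (nat_lit 30) (nat_lit 5) (nat_lit 32) (nat_lit 5) (nat_lit 31) (nat_lit 4) (nat_lit 437) (nat_lit 392) (nat_lit 371)) (XT.lf (nat_lit 0) (nat_lit 7064749209) (nat_lit 152) (nat_lit 12290423953) (nat_lit 0) (nat_lit 1056931835) (nat_lit 29) (nat_lit 5) (nat_lit 31) (nat_lit 4) (nat_lit 29) (nat_lit 4) (nat_lit 438) (nat_lit 392) (nat_lit 370)))) (XT.nd (nat_lit 156) (nat_lit 152) (nat_lit 0) (XT.nd (nat_lit 78) (nat_lit 76) (nat_lit 0) (XT.lf (nat_lit 0) (nat_lit 1332001522) (nat_lit 76) (nat_lit 13114258973)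 (nat_lit 76) (nat_lit 7006132920) (nat_lit 28) (nat_lit 4) (nat_lit 29) (nat_lit 5) (nat_lit 29) (nat_lit 4) (nat_lit 439) (nat_lit 392) (nat_lit 369)) (XT.lf (nat_lit 0) (nat_lit 41139228) (nat_lit 152) (nat_lit 6115434865) (nat_lit 76) (nat_lit 16404369303) (nat_lit 27) (nat_lit 5) (nat_lit 29) (nat_lit 5) (nat_lit 28) (nat_lit 4) (nat_lit 440) (nat_lit 392) (nat_lit 368))) (XT.nd (nat_lit 78) (nat_lit 76) (nat_lit 0) (XT.lf (nat_lit 0) (nat_lit 7387169755) (nat_lit 152) (nat_lit 14781503810) (nat_lit 0) (nat_lit 1565870695) (nat_lit 26) (nat_lit 5) (nat_lit 28) (nat_lit 4) (nat_lit 26) (nat_lit 4) (nat_lit 441) (nat_lit 392) (nat_lit 367)) (XT.lf (nat_lit 0) (nat_lit 146435648) (nat_lit 76) (nat_lit 15367589518) (nat_lit 76) (nat_lit 9472560584) (nat_lit 25) (nat_lit 4) (nat_lit 26) (nat_lit 5) (nat_lit 26) (nat_lit 4) (nat_lit 442) (nat_lit 392) (nat_lit 366))))))) (XT.nd (nat_lit 936)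 (nat_lit 608) (nat_lit 0) (XT.nd (nat_lit 468) (nat_lit 304) (nat_lit 0) (XT.nd (nat_lit 234) (nat_lit 228) (nat_lit 0) (XT.nd (nat_lit 78) (nat_lit 152) (nat_lit 0) (XT.lf (nat_lit 0) (nat_lit 16833643090) (nat_lit 76) (nat_lit 7723576603) (nat_lit 76) (nat_lit 1760279267) (nat_lit 25) (nat_lit 4) (nat_lit 26) (nat_lit 5) (nat_lit 26) (nat_lit 4) (nat_lit 443) (nat_lit 392) (nat_lit 365)) (XT.nd (nat_lit 78) (nat_lit 0) (nat_lit 0) (XT.lf (nat_lit 0) (nat_lit 6296588427) (nat_lit 152) (nat_lit 20724676642) (nat_lit 0) (nat_lit 716487669) (nat_lit 23) (nat_lit 5) (nat_lit 25) (nat_lit 4) (nat_lit 23) (nat_lit 4) (nat_lit 444) (nat_lit 392) (nat_lit 364)) (XT.lf (nat_lit 0) (nat_lit 15238981310) (nat_lit 152) (nat_lit 4397417667) (nat_lit 0) (nat_lit 9604686894) (nat_lit 23) (nat_lit 5) (nat_lit 25) (nat_lit 4) (nat_lit 23) (nat_lit 4) (nat_lit 445) (nat_lit 392) (nat_lit 363)))) (XT.nd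 (nat_lit 78) (nat_lit 152) (nat_lit 0) (XT.lf (nat_lit 0) (nat_lit 13677071121) (nat_lit 76) (nat_lit 11427724284) (nat_lit 76) (nat_lit 5743250555) (nat_lit 22) (nat_lit 4) (nat_lit 23) (nat_lit 5) (nat_lit 23) (nat_lit 4) (nat_lit 446) (nat_lit 392) (nat_lit 362)) (XT.nd (nat_lit 78) (nat_lit 0) (nat_lit 0) (XT.lf (nat_lit 0) (nat_lit 579814638) (nat_lit 76) (nat_lit 2454200118) (nat_lit 152) (nat_lit 29542111578) (nat_lit 20) (nat_lit 5) (nat_lit 21) (nat_lit 5) (nat_lit 22) (nat_lit 4) (nat_lit 447) (nat_lit 392) (nat_lit 361)) (XT.lf (nat_lit 0) (nat_lit 12738563242) (nat_lit 152) (nat_lit 14256820059) (nat_lit 0) (nat_lit 7392307011) (nat_lit 20) (nat_lit 5) (nat_lit 22) (nat_lit 4) (nat_lit 20) (nat_lit 4) (nat_lit 448) (nat_lit 392) (nat_lit 360))))) (XT.nd (nat_lit 234) (nat_lit 76) (nat_lit 0) (XT.nd (nat_lit 78) (nat_lit 152) (nat_lit 0) (XT.lf (nat_lit 0) (nat_lit 4855323184)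 (nat_lit 76) (nat_lit 18433235538) (nat_lit 76) (nat_lit 13050096014) (nat_lit 19) (nat_lit 4) (nat_lit 20) (nat_lit 5) (nat_lit 20) (nat_lit 4) (nat_lit 449) (nat_lit 392) (nat_lit 359)) (XT.nd (nat_lit 78) (nat_lit 152) (nat_lit 0) (XT.lf (nat_lit 0) (nat_lit 26087303219) (nat_lit 76) (nat_lit 8876589276) (nat_lit 76) (nat_lit 3459298555) (nat_lit 19) (nat_lit 4) (nat_lit 20) (nat_lit 5) (nat_lit 20) (nat_lit 4) (nat_lit 450) (nat_lit 392) (nat_lit 358)) (XT.lf (nat_lit 0) (nat_lit 6694087523) (nat_lit 152) (nat_lit 32307098324) (nat_lit 0) (nat_lit 1648798448) (nat_lit 17) (nat_lit 5) (nat_lit 19) (nat_lit 4) (nat_lit 17) (nat_lit 4) (nat_lit 451) (nat_lit 392) (nat_lit 357)))) (XT.nd (nat_lit 78) (nat_lit 76) (nat_lit 0) (XT.lf (nat_lit 0) (nat_lit 17946659010) (nat_lit 152) (nat_lit 12188911155) (nat_lit 0) (nat_lit 12874259614) (nat_lit 17) (nat_lit 5) (nat_lit 19) (nat_lit 4) (nat_lit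 17) (nat_lit 4) (nat_lit 452) (nat_lit 392) (nat_lit 356)) (XT.nd (nat_lit 78) (nat_lit 0) (nat_lit 0) (XT.lf (nat_lit 0) (nat_lit 9837008561) (nat_lit 76) (nat_lit 20403822810) (nat_lit 76) (nat_lit 15306321264) (nat_lit 16) (nat_lit 4) (nat_lit 17) (nat_lit 5) (nat_lit 17) (nat_lit 4) (nat_lit 453) (nat_lit 392) (nat_lit 355)) (XT.lf (nat_lit 0) (nat_lit 34129293168) (nat_lit 76) (nat_lit 9629833280) (nat_lit 76) (nat_lit 4509089003) (nat_lit 16) (nat_lit 4) (nat_lit 17) (nat_lit 5) (nat_lit 17) (nat_lit 4) (nat_lit 454) (nat_lit 392) (nat_lit 354)))))) (XT.nd (nat_lit 468) (nat_lit 228) (nat_lit 0) (XT.nd (nat_lit 234) (nat_lit 152) (nat_lit 0) (XT.nd (nat_lit 78) (nat_lit 76) (nat_lit 0) (XT.lf (nat_lit 0) (nat_lit 6985363208) (nat_lit 152) (nat_lit 41968537655) (nat_lit 0) (nat_lit 2224006426) (nat_lit 14) (nat_lit 5) (nat_lit 16) (nat_lit 4) (nat_lit 14) (nat_lit 4) (nat_lit 455)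 (nat_lit 392) (nat_lit 353)) (XT.nd (nat_lit 78) (nat_lit 76) (nat_lit 0) (XT.lf (nat_lit 0) (nat_lit 19714636900) (nat_lit 152) (nat_lit 19616829882) (nat_lit 0) (nat_lit 14934829289) (nat_lit 14) (nat_lit 5) (nat_lit 16) (nat_lit 4) (nat_lit 14) (nat_lit 4) (nat_lit 456) (nat_lit 392) (nat_lit 352)) (XT.lf (nat_lit 0) (nat_lit 4586024017) (nat_lit 76) (nat_lit 28905155212) (nat_lit 76) (nat_lit 24108263500) (nat_lit 13) (nat_lit 4) (nat_lit 14) (nat_lit 5) (nat_lit 14) (nat_lit 4) (nat_lit 457) (nat_lit 392) (nat_lit 351)))) (XT.nd (nat_lit 78) (nat_lit 152) (nat_lit 0) (XT.lf (nat_lit 0) (nat_lit 31678543444) (nat_lit 76) (nat_lit 17148419697) (nat_lit 76) (nat_lit 12335709373) (nat_lit 13) (nat_lit 4) (nat_lit 14) (nat_lit 5) (nat_lit 14) (nat_lit 4) (nat_lit 458) (nat_lit 392) (nat_lit 350)) (XT.nd (nat_lit 78) (nat_lit 76) (nat_lit 0) (XT.lf (nat_lit 0) (nat_lit 284430021) (nat_lit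 152) (nat_lit 4235742742) (nat_lit 76) (nat_lit 60496082321) (nat_lit 12) (nat_lit 5) (nat_lit 14) (nat_lit 5) (nat_lit 13) (nat_lit 4) (nat_lit 459) (nat_lit 392) (nat_lit 349)) (XT.lf (nat_lit 0) (nat_lit 13990110519) (nat_lit 152) (nat_lit 45595213458) (nat_lit 0) (nat_lit 9507778021) (nat_lit 11) (nat_lit 5) (nat_lit 13) (nat_lit 4) (nat_lit 11) (nat_lit 4) (nat_lit 460) (nat_lit 392) (nat_lit 348))))) (XT.nd (nat_lit 234) (nat_lit 152) (nat_lit 0) (XT.nd (nat_lit 78) (nat_lit 76) (nat_lit 0) (XT.lf (nat_lit 0) (nat_lit 28958876514) (nat_lit 152) (nat_lit 20058973426) (nat_lit 0) (nat_lit 24464916863) (nat_lit 11) (nat_lit 5) (nat_lit 13) (nat_lit 4) (nat_lit 11) (nat_lit 4) (nat_lit 461) (nat_lit 392) (nat_lit 347)) (XT.nd (nat_lit 78) (nat_lit 0) (nat_lit 0) (XT.lf (nat_lit 0) (nat_lit 7776952950) (nat_lit 76) (nat_lit 37470785201) (nat_lit 76) (nat_lit 32966059669) (nat_lit 10) (nat_lit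 4) (nat_lit 11) (nat_lit 5) (nat_lit 11) (nat_lit 4) (nat_lit 462) (nat_lit 392) (nat_lit 346)) (XT.lf (nat_lit 0) (nat_lit 38851625531) (nat_lit 76) (nat_lit 24473762942) (nat_lit 76) (nat_lit 19959069001) (nat_lit 10) (nat_lit 4) (nat_lit 11) (nat_lit 5) (nat_lit 11) (nat_lit 4) (nat_lit 463) (nat_lit 392) (nat_lit 345)))) (XT.nd (nat_lit 156) (nat_lit 0) (nat_lit 0) (XT.nd (nat_lit 78) (nat_lit 152) (nat_lit 0) (XT.lf (nat_lit 0) (nat_lit 72292920529) (nat_lit 76) (nat_lit 10498211652) (nat_lit 76) (nat_lit 5974287703) (nat_lit 10) (nat_lit 4) (nat_lit 11) (nat_lit 5) (nat_lit 11) (nat_lit 4) (nat_lit 464) (nat_lit 392) (nat_lit 344)) (XT.lf (nat_lit 0) (nat_lit 9080038951) (nat_lit 152) (nat_lit 80671353082) (nat_lit 0) (nat_lit 4883307235) (nat_lit 8) (nat_lit 5) (nat_lit 10) (nat_lit 4) (nat_lit 8) (nat_lit 4) (nat_lit 465) (nat_lit 392) (nat_lit 343))) (XT.nd (nat_lit 78) (nat_lit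 0) (nat_lit 0) (XT.lf (nat_lit 0) (nat_lit 25695565670) (nat_lit 152) (nat_lit 53719665094) (nat_lit 0) (nat_lit 21491506876) (nat_lit 8) (nat_lit 5) (nat_lit 10) (nat_lit 4) (nat_lit 8) (nat_lit 4) (nat_lit 466) (nat_lit 392) (nat_lit 342)) (XT.lf (nat_lit 0) (nat_lit 43589273532) (nat_lit 152) (nat_lit 24716920385) (nat_lit 0) (nat_lit 39378430407) (nat_lit 8) (nat_lit 5) (nat_lit 10) (nat_lit 4) (nat_lit 8) (nat_lit 4) (nat_lit 467) (nat_lit 392) (nat_lit 341))))))))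
noncomputable def xc73 : XT := (XT.nd (nat_lit 1950) (nat_lit 76) (nat_lit 0) (XT.nd (nat_lit 936) (nat_lit 152) (nat_lit 0) (XT.nd (nat_lit 468) (nat_lit 76) (nat_lit 0) (XT.nd (nat_lit 234) (nat_lit 152) (nat_lit 0) (XT.nd (nat_lit 78) (nat_lit 0) (nat_lit 0) (XT.lf (nat_lit 0) (nat_lit 6851488355) (nat_lit 76) (nat_lit 56180489429) (nat_lit 76) (nat_lit 51963364515) (nat_lit 7) (nat_lit 4) (nat_lit 8) (nat_lit 5) (nat_lit 8) (nat_lit 4) (nat_lit 468) (nat_lit 392) (nat_lit 340)) (XT.nd (nat_lit 78) (nat_lit 0) (nat_lit 0) (XT.lf (nat_lit 0) (nat_lit 42256211378) (nat_lit 76) (nat_lit 42403634131) (nat_lit 76) (nat_lit 38180692745) (nat_lit 7) (nat_lit 4) (nat_lit 8) (nat_lit 5) (nat_lit 8) (nat_lit 4) (nat_lit 469) (nat_lit 392) (nat_lit 339)) (XT.lf (nat_lit 0) (nat_lit 80405505222) (nat_lit 76) (nat_lit 27569791804) (nat_lit 76) (nat_lit 23341464797) (nat_lit 7) (nat_lit 4) (nat_lit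 8) (nat_lit 5) (nat_lit 8) (nat_lit 4) (nat_lit 470) (nat_lit 392) (nat_lit 338)))) (XT.nd (nat_lit 78) (nat_lit 152) (nat_lit 0) (XT.lf (nat_lit 0) (nat_lit 121525439778) (nat_lit 76) (nat_lit 11591058197) (nat_lit 76) (nat_lit 7357744505) (nat_lit 7) (nat_lit 4) (nat_lit 8) (nat_lit 5) (nat_lit 8) (nat_lit 4) (nat_lit 471) (nat_lit 392) (nat_lit 337)) (XT.nd (nat_lit 78) (nat_lit 0) (nat_lit 0) (XT.lf (nat_lit 0) (nat_lit 9909426611) (nat_lit 152) (nat_lit 134410404160) (nat_lit 0) (nat_lit 5985416431) (nat_lit 5) (nat_lit 5) (nat_lit 7) (nat_lit 4) (nat_lit 5) (nat_lit 4) (nat_lit 472) (nat_lit 392) (nat_lit 336)) (XT.lf (nat_lit 0) (nat_lit 28955603327) (nat_lit 152) (nat_lit 106860594514) (nat_lit 0) (nat_lit 25027634554) (nat_lit 5) (nat_lit 5) (nat_lit 7) (nat_lit 4) (nat_lit 5) (nat_lit 4) (nat_lit 473) (nat_lit 392) (nat_lit 335))))) (XT.nd (nat_lit 234) (nat_lit 76) (nat_lit 0)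 (XT.nd (nat_lit 78) (nat_lit 0) (nat_lit 0) (XT.lf (nat_lit 0) (nat_lit 49490774131) (nat_lit 152) (nat_lit 77178366478) (nat_lit 0) (nat_lit 45559139995) (nat_lit 5) (nat_lit 5) (nat_lit 7) (nat_lit 4) (nat_lit 5) (nat_lit 4) (nat_lit 474) (nat_lit 392) (nat_lit 334)) (XT.nd (nat_lit 78) (nat_lit 0) (nat_lit 0) (XT.lf (nat_lit 0) (nat_lit 71636628925) (nat_lit 152) (nat_lit 45187825368) (nat_lit 0) (nat_lit 67701600934) (nat_lit 5) (nat_lit 5) (nat_lit 7) (nat_lit 4) (nat_lit 5) (nat_lit 4) (nat_lit 475) (nat_lit 392) (nat_lit 333)) (XT.lf (nat_lit 0) (nat_lit 95524402403) (nat_lit 152) (nat_lit 10699397606) (nat_lit 0) (nat_lit 91586231954) (nat_lit 5) (nat_lit 5) (nat_lit 7) (nat_lit 4) (nat_lit 5) (nat_lit 4) (nat_lit 476) (nat_lit 392) (nat_lit 332)))) (XT.nd (nat_lit 78) (nat_lit 0) (nat_lit 0) (XT.lf (nat_lit 0) (nat_lit 27886277201) (nat_lit 76) (nat_lit 94080040178) (nat_lit 76)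 (nat_lit 90138960045) (nat_lit 4) (nat_lit 4) (nat_lit 5) (nat_lit 5) (nat_lit 5) (nat_lit 4) (nat_lit 477) (nat_lit 392) (nat_lit 331)) (XT.nd (nat_lit 78) (nat_lit 0) (nat_lit 0) (XT.lf (nat_lit 0) (nat_lit 70111916786) (nat_lit 76) (nat_lit 80677371954) (nat_lit 76) (nat_lit 76733597670) (nat_lit 4) (nat_lit 4) (nat_lit 5) (nat_lit 5) (nat_lit 5) (nat_lit 4) (nat_lit 478) (nat_lit 392) (nat_lit 330)) (XT.lf (nat_lit 0) (nat_lit 115664335843) (nat_lit 76) (nat_lit 66228912612) (nat_lit 76) (nat_lit 62282643744) (nat_lit 4) (nat_lit 4) (nat_lit 5) (nat_lit 5) (nat_lit 5) (nat_lit 4) (nat_lit 479) (nat_lit 392) (nat_lit 329)))))) (XT.nd (nat_lit 468) (nat_lit 0) (nat_lit 0) (XT.nd (nat_lit 234) (nat_lit 152) (nat_lit 0) (XT.nd (nat_lit 78) (nat_lit 0) (nat_lit 0) (XT.lf (nat_lit 0) (nat_lit 164813474634) (nat_lit 76) (nat_lit 50649041652) (nat_lit 76) (nat_lit 46700462982) (nat_lit 4) (nat_lit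 4) (nat_lit 5) (nat_lit 5) (nat_lit 5) (nat_lit 4) (nat_lit 480) (nat_lit 392) (nat_lit 328)) (XT.nd (nat_lit 78) (nat_lit 0) (nat_lit 0) (XT.lf (nat_lit 0) (nat_lit 217850587313) (nat_lit 76) (nat_lit 33845433911) (nat_lit 76) (nat_lit 29894716537) (nat_lit 4) (nat_lit 4) (nat_lit 5) (nat_lit 5) (nat_lit 5) (nat_lit 4) (nat_lit 481) (nat_lit 392) (nat_lit 327)) (XT.lf (nat_lit 0) (nat_lit 275089967883) (nat_lit 76) (nat_lit 15718512455) (nat_lit 76) (nat_lit 11765814800) (nat_lit 4) (nat_lit 4) (nat_lit 5) (nat_lit 5) (nat_lit 5) (nat_lit 4) (nat_lit 482) (nat_lit 392) (nat_lit 326)))) (XT.nd (nat_lit 78) (nat_lit 0) (nat_lit 0) (XT.lf (nat_lit 0) (nat_lit 7798284147) (nat_lit 152) (nat_lit 313256479480) (nat_lit 0) (nat_lit 4136681138) (nat_lit 2) (nat_lit 5) (nat_lit 4) (nat_lit 4) (nat_lit 2) (nat_lit 4) (nat_lit 483) (nat_lit 392) (nat_lit 325)) (XT.nd (nat_lit 78) (nat_lit 0) (nat_lit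 0) (XT.lf (nat_lit 0) (nat_lit 29452387982) (nat_lit 152) (nat_lit 294259074131) (nat_lit 0) (nat_lit 25789212962) (nat_lit 2) (nat_lit 5) (nat_lit 4) (nat_lit 4) (nat_lit 2) (nat_lit 4) (nat_lit 484) (nat_lit 392) (nat_lit 324)) (XT.lf (nat_lit 0) (nat_lit 52821481795) (nat_lit 152) (nat_lit 273777697951) (nat_lit 0) (nat_lit 49156851209) (nat_lit 2) (nat_lit 5) (nat_lit 4) (nat_lit 4) (nat_lit 2) (nat_lit 4) (nat_lit 485) (nat_lit 392) (nat_lit 323))))) (XT.nd (nat_lit 234) (nat_lit 0) (nat_lit 0) (XT.nd (nat_lit 78) (nat_lit 0) (nat_lit 0) (XT.lf (nat_lit 0) (nat_lit 78044049105) (nat_lit 152) (nat_lit 251690979821) (nat_lit 0) (nat_lit 74378070772) (nat_lit 2) (nat_lit 5) (nat_lit 4) (nat_lit 4) (nat_lit 2) (nat_lit 4) (nat_lit 486) (nat_lit 392) (nat_lit 322)) (XT.nd (nat_lit 78) (nat_lit 0) (nat_lit 0) (XT.lf (nat_lit 0) (nat_lit 105269556976) (nat_lit 152) (nat_lit 227868035485)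 (nat_lit 0) (nat_lit 101602330730) (nat_lit 2) (nat_lit 5) (nat_lit 4) (nat_lit 4) (nat_lit 2) (nat_lit 4) (nat_lit 487) (nat_lit 392) (nat_lit 321)) (XT.lf (nat_lit 0) (nat_lit 134659341753) (nat_lit 152) (nat_lit 202167691941) (nat_lit 0) (nat_lit 130990960031) (nat_lit 2) (nat_lit 5) (nat_lit 4) (nat_lit 4) (nat_lit 2) (nat_lit 4) (nat_lit 488) (nat_lit 392) (nat_lit 320)))) (XT.nd (nat_lit 156) (nat_lit 0) (nat_lit 0) (XT.nd (nat_lit 78) (nat_lit 0) (nat_lit 0) (XT.lf (nat_lit 0) (nat_lit 166387565123) (nat_lit 152) (nat_lit 174437650855) (nat_lit 0) (nat_lit 162718113516) (nat_lit 2) (nat_lit 5) (nat_lit 4) (nat_lit 4) (nat_lit 2) (nat_lit 4) (nat_lit 489) (nat_lit 392) (nat_lit 319)) (XT.lf (nat_lit 0) (nat_lit 200642246186) (nat_lit 152) (nat_lit 144513586059) (nat_lit 0) (nat_lit 196971803946) (nat_lit 2) (nat_lit 5) (nat_lit 4) (nat_lit 4) (nat_lit 2) (nat_lit 4) (nat_lit 490)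 (nat_lit 392) (nat_lit 318))) (XT.nd (nat_lit 78) (nat_lit 0) (nat_lit 0) (XT.lf (nat_lit 0) (nat_lit 237626375647) (nat_lit 152) (nat_lit 112218169761) (nat_lit 0) (nat_lit 233955016153) (nat_lit 2) (nat_lit 5) (nat_lit 4) (nat_lit 4) (nat_lit 2) (nat_lit 4) (nat_lit 491) (nat_lit 392) (nat_lit 317)) (XT.lf (nat_lit 0) (nat_lit 277559118716) (nat_lit 152) (nat_lit 77360021717) (nat_lit 0) (nat_lit 273886909913) (nat_lit 2) (nat_lit 5) (nat_lit 4) (nat_lit 4) (nat_lit 2) (nat_lit 4) (nat_lit 492) (nat_lit 392) (nat_lit 316))))))) (XT.nd (nat_lit 936) (nat_lit 0) (nat_lit 0) (XT.nd (nat_lit 468) (nat_lit 0) (nat_lit 0) (XT.nd (nat_lit 234) (nat_lit 0) (nat_lit 0) (XT.nd (nat_lit 78) (nat_lit 76) (nat_lit 0) (XT.lf (nat_lit 0) (nat_lit 320677113870) (nat_lit 152) (nat_lit 39732575123) (nat_lit 0) (nat_lit 317004118670) (nat_lit 2) (nat_lit 5) (nat_lit 4) (nat_lit 4) (nat_lit 2) (nat_lit 4)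 (nat_lit 493) (nat_lit 392) (nat_lit 315)) (XT.nd (nat_lit 78) (nat_lit 0) (nat_lit 0) (XT.lf (nat_lit 0) (nat_lit 933863095) (nat_lit 76) (nat_lit 366324471490) (nat_lit 76) (nat_lit 362650748145) (nat_lit 1) (nat_lit 4) (nat_lit 2) (nat_lit 5) (nat_lit 2) (nat_lit 4) (nat_lit 494) (nat_lit 392) (nat_lit 314)) (XT.lf (nat_lit 0) (nat_lit 47095777073) (nat_lit 76) (nat_lit 371548183842) (nat_lit 76) (nat_lit 367873786287) (nat_lit 1) (nat_lit 4) (nat_lit 2) (nat_lit 5) (nat_lit 2) (nat_lit 4) (nat_lit 495) (nat_lit 392) (nat_lit 313)))) (XT.nd (nat_lit 78) (nat_lit 0) (nat_lit 0) (XT.lf (nat_lit 0) (nat_lit 96934471898) (nat_lit 76) (nat_lit 377198140397) (nat_lit 76) (nat_lit 373523118575) (nat_lit 1) (nat_lit 4) (nat_lit 2) (nat_lit 5) (nat_lit 2) (nat_lit 4) (nat_lit 496) (nat_lit 392) (nat_lit 312)) (XT.nd (nat_lit 78) (nat_lit 0) (nat_lit 0) (XT.lf (nat_lit 0) (nat_lit 150745287983)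 (nat_lit 76) (nat_lit 383307822379) (nat_lit 76) (nat_lit 379632222532) (nat_lit 1) (nat_lit 4) (nat_lit 2) (nat_lit 5) (nat_lit 2) (nat_lit 4) (nat_lit 497) (nat_lit 392) (nat_lit 311)) (XT.lf (nat_lit 0) (nat_lit 208847104240) (nat_lit 76) (nat_lit 389913435312) (nat_lit 76) (nat_lit 386237300257) (nat_lit 1) (nat_lit 4) (nat_lit 2) (nat_lit 5) (nat_lit 2) (nat_lit 4) (nat_lit 498) (nat_lit 392) (nat_lit 310))))) (XT.nd (nat_lit 234) (nat_lit 0) (nat_lit 0) (XT.nd (nat_lit 78) (nat_lit 0) (nat_lit 0) (XT.lf (nat_lit 0) (nat_lit 271584227727) (nat_lit 76) (nat_lit 397054123569) (nat_lit 76) (nat_lit 393377492949) (nat_lit 1) (nat_lit 4) (nat_lit 2) (nat_lit 5) (nat_lit 2) (nat_lit 4) (nat_lit 499) (nat_lit 392) (nat_lit 309)) (XT.nd (nat_lit 78) (nat_lit 0) (nat_lit 0) (XT.lf (nat_lit 0) (nat_lit 339328433991) (nat_lit 76) (nat_lit 404772202338) (nat_lit 76) (nat_lit 401095112864) (nat_lit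 1) (nat_lit 4) (nat_lit 2) (nat_lit 5) (nat_lit 2) (nat_lit 4) (nat_lit 500) (nat_lit 392) (nat_lit 308)) (XT.lf (nat_lit 0) (nat_lit 412481170180) (nat_lit 76) (nat_lit 413113408383) (nat_lit 76) (nat_lit 409435894043) (nat_lit 1) (nat_lit 4) (nat_lit 2) (nat_lit 5) (nat_lit 2) (nat_lit 4) (nat_lit 501) (nat_lit 392) (nat_lit 307)))) (XT.nd (nat_lit 78) (nat_lit 0) (nat_lit 0) (XT.lf (nat_lit 0) (nat_lit 491475933991) (nat_lit 76) (nat_lit 422127171074) (nat_lit 76) (nat_lit 418449263340) (nat_lit 1) (nat_lit 4) (nat_lit 2) (nat_lit 5) (nat_lit 2) (nat_lit 4) (nat_lit 502) (nat_lit 392) (nat_lit 306)) (XT.nd (nat_lit 78) (nat_lit 0) (nat_lit 0) (XT.lf (nat_lit 0) (nat_lit 576780842541) (nat_lit 76) (nat_lit 431866905300) (nat_lit 76) (nat_lit 428188633312) (nat_lit 1) (nat_lit 4) (nat_lit 2) (nat_lit 5) (nat_lit 2) (nat_lit 4) (nat_lit 503) (nat_lit 392) (nat_lit 305)) (XT.lf (nat_lit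 0) (nat_lit 668901406400) (nat_lit 76) (nat_lit 442390328005) (nat_lit 76) (nat_lit 438711718744) (nat_lit 1) (nat_lit 4) (nat_lit 2) (nat_lit 5) (nat_lit 2) (nat_lit 4) (nat_lit 504) (nat_lit 392) (nat_lit 304)))))) (XT.nd (nat_lit 468) (nat_lit 0) (nat_lit 0) (XT.nd (nat_lit 234) (nat_lit 0) (nat_lit 0) (XT.nd (nat_lit 78) (nat_lit 0) (nat_lit 0) (XT.lf (nat_lit 0) (nat_lit 768383525207) (nat_lit 76) (nat_lit 453759800213) (nat_lit 76) (nat_lit 450080878662) (nat_lit 1) (nat_lit 4) (nat_lit 2) (nat_lit 5) (nat_lit 2) (nat_lit 4) (nat_lit 505) (nat_lit 392) (nat_lit 303)) (XT.nd (nat_lit 78) (nat_lit 0) (nat_lit 0) (XT.lf (nat_lit 0) (nat_lit 875816722627) (nat_lit 76) (nat_lit 466042696572) (nat_lit 76) (nat_lit 462363485865) (nat_lit 1) (nat_lit 4) (nat_lit 2) (nat_lit 5) (nat_lit 2) (nat_lit 4) (nat_lit 506) (nat_lit 392) (nat_lit 302)) (XT.lf (nat_lit 0) (nat_lit 991837639831) (nat_lit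 76) (nat_lit 479311804618) (nat_lit 76) (nat_lit 475632326174) (nat_lit 1) (nat_lit 4) (nat_lit 2) (nat_lit 5) (nat_lit 2) (nat_lit 4) (nat_lit 507) (nat_lit 392) (nat_lit 301)))) (XT.nd (nat_lit 78) (nat_lit 0) (nat_lit 0) (XT.lf (nat_lit 0) (nat_lit 1117133808179) (nat_lit 76) (nat_lit 493645756102) (nat_lit 76) (nat_lit 489966029753) (nat_lit 1) (nat_lit 4) (nat_lit 2) (nat_lit 5) (nat_lit 2) (nat_lit 4) (nat_lit 508) (nat_lit 392) (nat_lit 300)) (XT.nd (nat_lit 78) (nat_lit 0) (nat_lit 0) (XT.lf (nat_lit 0) (nat_lit 1252447723486) (nat_lit 76) (nat_lit 509129492958) (nat_lit 76) (nat_lit 505449537067) (nat_lit 1) (nat_lit 4) (nat_lit 2) (nat_lit 5) (nat_lit 2) (nat_lit 4) (nat_lit 509) (nat_lit 392) (nat_lit 299)) (XT.lf (nat_lit 0) (nat_lit 1398581245988) (nat_lit 76) (nat_lit 525854770665) (nat_lit 76) (nat_lit 522174602235) (nat_lit 1) (nat_lit 4) (nat_lit 2) (nat_lit 5) (nat_lit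 2) (nat_lit 4) (nat_lit 510) (nat_lit 392) (nat_lit 298))))) (XT.nd (nat_lit 234) (nat_lit 0) (nat_lit 0) (XT.nd (nat_lit 78) (nat_lit 0) (nat_lit 0) (XT.lf (nat_lit 0) (nat_lit 1556400352117) (nat_lit 76) (nat_lit 543920701978) (nat_lit 76) (nat_lit 540240336753) (nat_lit 1) (nat_lit 4) (nat_lit 2) (nat_lit 5) (nat_lit 2) (nat_lit 4) (nat_lit 511) (nat_lit 392) (nat_lit 297)) (XT.nd (nat_lit 78) (nat_lit 0) (nat_lit 0) (XT.lf (nat_lit 0) (nat_lit 1726840266204) (nat_lit 76) (nat_lit 563434344269) (nat_lit 76) (nat_lit 559753796827) (nat_lit 1) (nat_lit 4) (nat_lit 2) (nat_lit 5) (nat_lit 2) (nat_lit 4) (nat_lit 512) (nat_lit 392) (nat_lit 296)) (XT.lf (nat_lit 0) (nat_lit 1910911002555) (nat_lit 76) (nat_lit 584511333937) (nat_lit 76) (nat_lit 580830617774) (nat_lit 1) (nat_lit 4) (nat_lit 2) (nat_lit 5) (nat_lit 2) (nat_lit 4) (nat_lit 513) (nat_lit 392) (nat_lit 295)))) (XT.nd (nat_lit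 156) (nat_lit 0) (nat_lit 0) (XT.nd (nat_lit 78) (nat_lit 0) (nat_lit 0) (XT.lf (nat_lit 0) (nat_lit 2109703350719) (nat_lit 76) (nat_lit 607276571660) (nat_lit 76) (nat_lit 603595699275) (nat_lit 1) (nat_lit 4) (nat_lit 2) (nat_lit 5) (nat_lit 2) (nat_lit 4) (nat_lit 514) (nat_lit 392) (nat_lit 294)) (XT.lf (nat_lit 0) (nat_lit 2324395339426) (nat_lit 76) (nat_lit 631864962552) (nat_lit 76) (nat_lit 628183945517) (nat_lit 1) (nat_lit 4) (nat_lit 2) (nat_lit 5) (nat_lit 2) (nat_lit 4) (nat_lit 515) (nat_lit 392) (nat_lit 293))) (XT.nd (nat_lit 78) (nat_lit 0) (nat_lit 0) (XT.lf (nat_lit 0) (nat_lit 2556259217498) (nat_lit 76) (nat_lit 658422215596) (nat_lit 76) (nat_lit 654741064625) (nat_lit 1) (nat_lit 4) (nat_lit 2) (nat_lit 5) (nat_lit 2) (nat_lit 4) (nat_lit 516) (nat_lit 392) (nat_lit 292)) (XT.lf (nat_lit 0) (nat_lit 2806668993100) (nat_lit 76) (nat_lit 687105707105) (nat_lit 76)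 (nat_lit 683424432120) (nat_lit 1) (nat_lit 4) (nat_lit 2) (nat_lit 5) (nat_lit 2) (nat_lit 4) (nat_lit 517) (nat_lit 392) (nat_lit 291))))))))
noncomputable def xc74 : XT := (XT.nd (nat_lit 54912) (nat_lit 0) (nat_lit 1672) (XT.nd (nat_lit 936) (nat_lit 0) (nat_lit 0) (XT.nd (nat_lit 468) (nat_lit 0) (nat_lit 0) (XT.nd (nat_lit 234) (nat_lit 0) (nat_lit 0) (XT.nd (nat_lit 78) (nat_lit 0) (nat_lit 0) (XT.lf (nat_lit 0) (nat_lit 3077108576016) (nat_lit 76) (nat_lit 718085413326) (nat_lit 76) (nat_lit 714404023513) (nat_lit 1) (nat_lit 4) (nat_lit 2) (nat_lit 5) (nat_lit 2) (nat_lit 4) (nat_lit 518) (nat_lit 392) (nat_lit 290)) (XT.nd (nat_lit 78) (nat_lit 0) (nat_lit 0) (XT.lf (nat_lit 0) (nat_lit 3369180571179) (nat_lit 76) (nat_lit 751544917703) (nat_lit 76) (nat_lit 747863421567) (nat_lit 1) (nat_lit 4) (nat_lit 2) (nat_lit 5) (nat_lit 2) (nat_lit 4) (nat_lit 519) (nat_lit 392) (nat_lit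 289)) (XT.lf (nat_lit 0) (nat_lit 3684615775600) (nat_lit 76) (nat_lit 787682498780) (nat_lit 76) (nat_lit 784000904198) (nat_lit 1) (nat_lit 4) (nat_lit 2) (nat_lit 5) (nat_lit 2) (nat_lit 4) (nat_lit 520) (nat_lit 392) (nat_lit 288)))) (XT.nd (nat_lit 78) (nat_lit 0) (nat_lit 0) (XT.lf (nat_lit 0) (nat_lit 4025283434932) (nat_lit 76) (nat_lit 826712305187) (nat_lit 76) (nat_lit 823030619451) (nat_lit 1) (nat_lit 4) (nat_lit 2) (nat_lit 5) (nat_lit 2) (nat_lit 4) (nat_lit 521) (nat_lit 392) (nat_lit 287)) (XT.nd (nat_lit 78) (nat_lit 0) (nat_lit 0) (XT.lf (nat_lit 0) (nat_lit 4393202320492) (nat_lit 76) (nat_lit 868865624664) (nat_lit 76) (nat_lit 865183854526) (nat_lit 1) (nat_lit 4) (nat_lit 2) (nat_lit 5) (nat_lit 2) (nat_lit 4) (nat_lit 522) (nat_lit 392) (nat_lit 286)) (XT.lf (nat_lit 0) (nat_lit 4790552692342) (nat_lit 76) (nat_lit 914392254661) (nat_lit 76) (nat_lit 910710406373)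 (nat_lit 1) (nat_lit 4) (nat_lit 2) (nat_lit 5) (nat_lit 2) (nat_lit 4) (nat_lit 523) (nat_lit 392) (nat_lit 285))))) (XT.nd (nat_lit 234) (nat_lit 0) (nat_lit 0) (XT.nd (nat_lit 78) (nat_lit 0) (nat_lit 0) (XT.lf (nat_lit 0) (nat_lit 5219689219351) (nat_lit 76) (nat_lit 963561982615) (nat_lit 76) (nat_lit 959880061965) (nat_lit 1) (nat_lit 4) (nat_lit 2) (nat_lit 5) (nat_lit 2) (nat_lit 4) (nat_lit 524) (nat_lit 392) (nat_lit 284)) (XT.nd (nat_lit 78) (nat_lit 0) (nat_lit 0) (XT.lf (nat_lit 0) (nat_lit 5683154932791) (nat_lit 76) (nat_lit 1016666184690) (nat_lit 76) (nat_lit 1012984197040) (nat_lit 1) (nat_lit 4) (nat_lit 2) (nat_lit 5) (nat_lit 2) (nat_lit 4) (nat_lit 525) (nat_lit 392) (nat_lit 283)) (XT.lf (nat_lit 0) (nat_lit 6183696296150) (nat_lit 76) (nat_lit 1074019552456) (nat_lit 76) (nat_lit 1070337502767) (nat_lit 1) (nat_lit 4) (nat_lit 2) (nat_lit 5) (nat_lit 2) (nat_lit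 4) (nat_lit 526) (nat_lit 392) (nat_lit 282)))) (XT.nd (nat_lit 78) (nat_lit 0) (nat_lit 0) (XT.lf (nat_lit 0) (nat_lit 6724279480468) (nat_lit 76) (nat_lit 1135961957721) (nat_lit 76) (nat_lit 1132279850590) (nat_lit 1) (nat_lit 4) (nat_lit 2) (nat_lit 5) (nat_lit 2) (nat_lit 4) (nat_lit 527) (nat_lit 392) (nat_lit 281)) (XT.nd (nat_lit 78) (nat_lit 0) (nat_lit 0) (XT.lf (nat_lit 0) (nat_lit 7308107941654) (nat_lit 76) (nat_lit 1202860466590) (nat_lit 76) (nat_lit 1199178306271) (nat_lit 1) (nat_lit 4) (nat_lit 2) (nat_lit 5) (nat_lit 2) (nat_lit 4) (nat_lit 528) (nat_lit 392) (nat_lit 280)) (XT.lf (nat_lit 0) (nat_lit 7938641403921) (nat_lit 76) (nat_lit 1275111514671) (nat_lit 76) (nat_lit 1271429305105) (nat_lit 1) (nat_lit 4) (nat_lit 2) (nat_lit 5) (nat_lit 2) (nat_lit 4) (nat_lit 529) (nat_lit 392) (nat_lit 279)))))) (XT.nd (nat_lit 53430) (nat_lit 0) (nat_lit 3952) (XT.nd (nat_lit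 234) (nat_lit 0) (nat_lit 0) (XT.nd (nat_lit 78) (nat_lit 0) (nat_lit 0) (XT.lf (nat_lit 0) (nat_lit 8619616361862) (nat_lit 76) (nat_lit 1353143256324) (nat_lit 76) (nat_lit 1349461001158) (nat_lit 1) (nat_lit 4) (nat_lit 2) (nat_lit 5) (nat_lit 2) (nat_lit 4) (nat_lit 530) (nat_lit 392) (nat_lit 278)) (XT.nd (nat_lit 78) (nat_lit 0) (nat_lit 0) (XT.lf (nat_lit 0) (nat_lit 9355068222633) (nat_lit 76) (nat_lit 1437418101870) (nat_lit 76) (nat_lit 1433735804481) (nat_lit 1) (nat_lit 4) (nat_lit 2) (nat_lit 5) (nat_lit 2) (nat_lit 4) (nat_lit 531) (nat_lit 392) (nat_lit 277)) (XT.lf (nat_lit 0) (nat_lit 10149355219485) (nat_lit 76) (nat_lit 1528435457799) (nat_lit 76) (nat_lit 1524753121316) (nat_lit 1) (nat_lit 4) (nat_lit 2) (nat_lit 5) (nat_lit 2) (nat_lit 4) (nat_lit 532) (nat_lit 392) (nat_lit 276)))) (XT.nd (nat_lit 78) (nat_lit 0) (nat_lit 0) (XT.lf (nat_lit 0) (nat_lit 11007184238324)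 (nat_lit 76) (nat_lit 1626734686223) (nat_lit 76) (nat_lit 1623052313541) (nat_lit 1) (nat_lit 4) (nat_lit 2) (nat_lit 5) (nat_lit 2) (nat_lit 4) (nat_lit 533) (nat_lit 392) (nat_lit 275)) (XT.nd (nat_lit 78) (nat_lit 0) (nat_lit 0) (XT.lf (nat_lit 0) (nat_lit 11933638710373) (nat_lit 76) (nat_lit 1732898301086) (nat_lit 76) (nat_lit 1729215894887) (nat_lit 1) (nat_lit 4) (nat_lit 2) (nat_lit 5) (nat_lit 2) (nat_lit 4) (nat_lit 534) (nat_lit 392) (nat_lit 274)) (XT.lf (nat_lit 0) (nat_lit 12934208736207) (nat_lit 76) (nat_lit 1847555420107) (nat_lit 76) (nat_lit 1843872982873) (nat_lit 1) (nat_lit 4) (nat_lit 2) (nat_lit 5) (nat_lit 2) (nat_lit 4) (nat_lit 535) (nat_lit 392) (nat_lit 273))))) (XT.nd (nat_lit 234) (nat_lit 608) (nat_lit 0) (XT.nd (nat_lit 78) (nat_lit 456) (nat_lit 0) (XT.lf (nat_lit 0) (nat_lit 1908215796) (nat_lit 228) (nat_lit 1010341527) (nat_lit 228) (nat_lit 1010341527)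 (nat_lit 67) (nat_lit 4) (nat_lit 70) (nat_lit 5) (nat_lit 70) (nat_lit 4) (nat_lit 414) (nat_lit 393) (nat_lit 393)) (XT.nd (nat_lit 78) (nat_lit 228) (nat_lit 0) (XT.lf (nat_lit 0) (nat_lit 1847009841) (nat_lit 228) (nat_lit 5557398567) (nat_lit 0) (nat_lit 669678548) (nat_lit 64) (nat_lit 5) (nat_lit 67) (nat_lit 4) (nat_lit 64) (nat_lit 4) (nat_lit 415) (nat_lit 393) (nat_lit 392)) (XT.lf (nat_lit 0) (nat_lit 1116386796) (nat_lit 228) (nat_lit 4730043248) (nat_lit 228) (nat_lit 2462590386) (nat_lit 61) (nat_lit 4) (nat_lit 64) (nat_lit 5) (nat_lit 64) (nat_lit 4) (nat_lit 416) (nat_lit 393) (nat_lit 391)))) (XT.nd (nat_lit 156) (nat_lit 380) (nat_lit 0) (XT.nd (nat_lit 78) (nat_lit 152) (nat_lit 0) (XT.lf (nat_lit 0) (nat_lit 1421848281) (nat_lit 304) (nat_lit 319380258) (nat_lit 76) (nat_lit 6826567081) (nat_lit 60) (nat_lit 5) (nat_lit 64) (nat_lit 5) (nat_lit 61) (nat_lit 4) (nat_lit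 417) (nat_lit 393) (nat_lit 390)) (XT.lf (nat_lit 0) (nat_lit 5455133819) (nat_lit 228) (nat_lit 1833714200) (nat_lit 0) (nat_lit 1555663243) (nat_lit 58) (nat_lit 5) (nat_lit 61) (nat_lit 4) (nat_lit 58) (nat_lit 4) (nat_lit 418) (nat_lit 393) (nat_lit 389))) (XT.nd (nat_lit 78) (nat_lit 152) (nat_lit 0) (XT.lf (nat_lit 0) (nat_lit 593742547) (nat_lit 228) (nat_lit 3465757972) (nat_lit 76) (nat_lit 5085864573) (nat_lit 55) (nat_lit 5) (nat_lit 58) (nat_lit 5) (nat_lit 56) (nat_lit 4) (nat_lit 419) (nat_lit 393) (nat_lit 388)) (XT.lf (nat_lit 0) (nat_lit 4203158563) (nat_lit 152) (nat_lit 434254637) (nat_lit 228) (nat_lit 4831866729) (nat_lit 53) (nat_lit 5) (nat_lit 55) (nat_lit 5) (nat_lit 56) (nat_lit 4) (nat_lit 420) (nat_lit 393) (nat_lit 387))))))) (XT.nd (nat_lit 936) (nat_lit 988) (nat_lit 0) (XT.nd (nat_lit 468) (nat_lit 532) (nat_lit 0) (XT.nd (nat_lit 234) (nat_lit 456) (nat_lit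 0) (XT.nd (nat_lit 78) (nat_lit 152) (nat_lit 0) (XT.lf (nat_lit 0) (nat_lit 2557396018) (nat_lit 152) (nat_lit 6467835009) (nat_lit 152) (nat_lit 792258717) (nat_lit 51) (nat_lit 4) (nat_lit 53) (nat_lit 5) (nat_lit 53) (nat_lit 4) (nat_lit 421) (nat_lit 393) (nat_lit 386)) (XT.nd (nat_lit 78) (nat_lit 0) (nat_lit 0) (XT.lf (nat_lit 0) (nat_lit 700294469) (nat_lit 76) (nat_lit 2648181263) (nat_lit 152) (nat_lit 6841714577) (nat_lit 49) (nat_lit 5) (nat_lit 50) (nat_lit 5) (nat_lit 51) (nat_lit 4) (nat_lit 422) (nat_lit 393) (nat_lit 385)) (XT.lf (nat_lit 0) (nat_lit 7802111634) (nat_lit 152) (nat_lit 1290341463) (nat_lit 0) (nat_lit 1496679000) (nat_lit 49) (nat_lit 5) (nat_lit 51) (nat_lit 4) (nat_lit 49) (nat_lit 4) (nat_lit 423) (nat_lit 393) (nat_lit 384)))) (XT.nd (nat_lit 78) (nat_lit 228) (nat_lit 0) (XT.lf (nat_lit 0) (nat_lit 1564949254) (nat_lit 228) (nat_lit 3517872638) (nat_lit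 76) (nat_lit 5929924154) (nat_lit 46) (nat_lit 5) (nat_lit 49) (nat_lit 5) (nat_lit 47) (nat_lit 4) (nat_lit 424) (nat_lit 393) (nat_lit 383)) (XT.nd (nat_lit 78) (nat_lit 152) (nat_lit 0) (XT.lf (nat_lit 0) (nat_lit 5450523506) (nat_lit 76) (nat_lit 634280757) (nat_lit 152) (nat_lit 5382051175) (nat_lit 45) (nat_lit 5) (nat_lit 46) (nat_lit 5) (nat_lit 47) (nat_lit 4) (nat_lit 425) (nat_lit 393) (nat_lit 382)) (XT.lf (nat_lit 0) (nat_lit 3097995694) (nat_lit 152) (nat_lit 7948088034) (nat_lit 152) (nat_lit 904842848) (nat_lit 43) (nat_lit 4) (nat_lit 45) (nat_lit 5) (nat_lit 45) (nat_lit 4) (nat_lit 426) (nat_lit 393) (nat_lit 381))))) (XT.nd (nat_lit 234) (nat_lit 228) (nat_lit 0) (XT.nd (nat_lit 78) (nat_lit 152) (nat_lit 0) (XT.lf (nat_lit 0) (nat_lit 384467434) (nat_lit 76) (nat_lit 3351765450) (nat_lit 152) (nat_lit 8729760207) (nat_lit 41) (nat_lit 5) (nat_lit 42) (nat_lit 5) (nat_lit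 43) (nat_lit 4) (nat_lit 427) (nat_lit 393) (nat_lit 380)) (XT.nd (nat_lit 78) (nat_lit 152) (nat_lit 0) (XT.lf (nat_lit 0) (nat_lit 8797296519) (nat_lit 152) (nat_lit 2552345958) (nat_lit 0) (nat_lit 1662951092) (nat_lit 41) (nat_lit 5) (nat_lit 43) (nat_lit 4) (nat_lit 41) (nat_lit 4) (nat_lit 428) (nat_lit 393) (nat_lit 379)) (XT.lf (nat_lit 0) (nat_lit 727002062) (nat_lit 152) (nat_lit 5894983002) (nat_lit 76) (nat_lit 6971703214) (nat_lit 39) (nat_lit 5) (nat_lit 41) (nat_lit 5) (nat_lit 40) (nat_lit 4) (nat_lit 429) (nat_lit 393) (nat_lit 378)))) (XT.nd (nat_lit 78) (nat_lit 152) (nat_lit 0) (XT.lf (nat_lit 0) (nat_lit 4491966763) (nat_lit 76) (nat_lit 1350200723) (nat_lit 152) (nat_lit 8369939114) (nat_lit 38) (nat_lit 5) (nat_lit 39) (nat_lit 5) (nat_lit 40) (nat_lit 4) (nat_lit 430) (nat_lit 393) (nat_lit 377)) (XT.nd (nat_lit 78) (nat_lit 76) (nat_lit 0) (XT.lf (nat_lit 0) (nat_lit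 785992014) (nat_lit 76) (nat_lit 10696814694) (nat_lit 76) (nat_lit 3387902436) (nat_lit 37) (nat_lit 4) (nat_lit 38) (nat_lit 5) (nat_lit 38) (nat_lit 4) (nat_lit 431) (nat_lit 393) (nat_lit 376)) (XT.lf (nat_lit 0) (nat_lit 2029144142) (nat_lit 152) (nat_lit 3288809954) (nat_lit 76) (nat_lit 10249331408) (nat_lit 36) (nat_lit 5) (nat_lit 38) (nat_lit 5) (nat_lit 37) (nat_lit 4) (nat_lit 432) (nat_lit 393) (nat_lit 375)))))) (XT.nd (nat_lit 468) (nat_lit 532) (nat_lit 0) (XT.nd (nat_lit 234) (nat_lit 228) (nat_lit 0) (XT.nd (nat_lit 78) (nat_lit 152) (nat_lit 0) (XT.lf (nat_lit 0) (nat_lit 7755692266) (nat_lit 152) (nat_lit 7921526212) (nat_lit 0) (nat_lit 630605103) (nat_lit 35) (nat_lit 5) (nat_lit 37) (nat_lit 4) (nat_lit 35) (nat_lit 4) (nat_lit 433) (nat_lit 393) (nat_lit 374)) (XT.nd (nat_lit 78) (nat_lit 76) (nat_lit 0) (XT.lf (nat_lit 0) (nat_lit 3832227404) (nat_lit 76) (nat_lit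 10273221733) (nat_lit 76) (nat_lit 2988957303) (nat_lit 34) (nat_lit 4) (nat_lit 35) (nat_lit 5) (nat_lit 35) (nat_lit 4) (nat_lit 434) (nat_lit 393) (nat_lit 373)) (XT.lf (nat_lit 0) (nat_lit 2933611569) (nat_lit 152) (nat_lit 1329738724) (nat_lit 76) (nat_lit 13669533696) (nat_lit 33) (nat_lit 5) (nat_lit 35) (nat_lit 5) (nat_lit 34) (nat_lit 4) (nat_lit 435) (nat_lit 393) (nat_lit 372)))) (XT.nd (nat_lit 78) (nat_lit 152) (nat_lit 0) (XT.lf (nat_lit 0) (nat_lit 9366559838) (nat_lit 152) (nat_lit 7090789782) (nat_lit 0) (nat_lit 2359041653) (nat_lit 32) (nat_lit 5) (nat_lit 34) (nat_lit 4) (nat_lit 32) (nat_lit 4) (nat_lit 436) (nat_lit 393) (nat_lit 371)) (XT.nd (nat_lit 78) (nat_lit 76) (nat_lit 0) (XT.lf (nat_lit 0) (nat_lit 6043557900) (nat_lit 76) (nat_lit 10419804145) (nat_lit 76) (nat_lit 3295285917) (nat_lit 31) (nat_lit 4) (nat_lit 32) (nat_lit 5) (nat_lit 32) (nat_lit 4) (nat_lit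 437) (nat_lit 393) (nat_lit 370)) (XT.lf (nat_lit 0) (nat_lit 3239166733) (nat_lit 152) (nat_lit 495384797) (nat_lit 76) (nat_lit 17030874079) (nat_lit 30) (nat_lit 5) (nat_lit 32) (nat_lit 5) (nat_lit 31) (nat_lit 4) (nat_lit 438) (nat_lit 393) (nat_lit 369))))) (XT.nd (nat_lit 234) (nat_lit 304) (nat_lit 0) (XT.nd (nat_lit 78) (nat_lit 152) (nat_lit 0) (XT.lf (nat_lit 0) (nat_lit 10417272544) (nat_lit 152) (nat_lit 7777406991) (nat_lit 0) (nat_lit 3627309321) (nat_lit 29) (nat_lit 5) (nat_lit 31) (nat_lit 4) (nat_lit 29) (nat_lit 4) (nat_lit 439) (nat_lit 393) (nat_lit 368)) (XT.nd (nat_lit 78) (nat_lit 76) (nat_lit 0) (XT.lf (nat_lit 0) (nat_lit 6795666930) (nat_lit 76) (nat_lit 11516006433) (nat_lit 76) (nat_lit 4640044685) (nat_lit 28) (nat_lit 4) (nat_lit 29) (nat_lit 5) (nat_lit 29) (nat_lit 4) (nat_lit 440) (nat_lit 393) (nat_lit 367)) (XT.lf (nat_lit 0) (nat_lit 2618670682) (nat_lit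 152) (nat_lit 1508754992) (nat_lit 76) (nat_lit 20032376912) (nat_lit 27) (nat_lit 5) (nat_lit 29) (nat_lit 5) (nat_lit 28) (nat_lit 4) (nat_lit 441) (nat_lit 393) (nat_lit 366)))) (XT.nd (nat_lit 156) (nat_lit 152) (nat_lit 0) (XT.nd (nat_lit 78) (nat_lit 76) (nat_lit 0) (XT.lf (nat_lit 0) (nat_lit 10540410062) (nat_lit 152) (nat_lit 10856064515) (nat_lit 0) (nat_lit 4031780538) (nat_lit 26) (nat_lit 5) (nat_lit 28) (nat_lit 4) (nat_lit 26) (nat_lit 4) (nat_lit 442) (nat_lit 393) (nat_lit 365)) (XT.lf (nat_lit 0) (nat_lit 5136794667) (nat_lit 76) (nat_lit 14110558215) (nat_lit 76) (nat_lit 7538717208) (nat_lit 25) (nat_lit 4) (nat_lit 26) (nat_lit 5) (nat_lit 26) (nat_lit 4) (nat_lit 443) (nat_lit 393) (nat_lit 364))) (XT.nd (nat_lit 78) (nat_lit 76) (nat_lit 0) (XT.lf (nat_lit 0) (nat_lit 561592782) (nat_lit 152) (nat_lit 5462257169) (nat_lit 76) (nat_lit 22213242523) (nat_lit 24) (nat_lit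 5) (nat_lit 26) (nat_lit 5) (nat_lit 25) (nat_lit 4) (nat_lit 444) (nat_lit 393) (nat_lit 363)) (XT.lf (nat_lit 0) (nat_lit 9159108145) (nat_lit 152) (nat_lit 17639211753) (nat_lit 0) (nat_lit 2969697204) (nat_lit 23) (nat_lit 5) (nat_lit 25) (nat_lit 4) (nat_lit 23) (nat_lit 4) (nat_lit 445) (nat_lit 393) (nat_lit 362))))))))
noncomputable def xc75 : XT := (XT.nd (nat_lit 1950) (nat_lit 456) (nat_lit 0) (XT.nd (nat_lit 936) (nat_lit 532) (nat_lit 0) (XT.nd (nat_lit 468) (nat_lit 380) (nat_lit 0) (XT.nd (nat_lit 234) (nat_lit 76) (nat_lit 0) (XT.nd (nat_lit 78) (nat_lit 228) (nat_lit 0) (XT.lf (nat_lit 0) (nat_lit 18642167078) (nat_lit 152) (nat_lit 357137912) (nat_lit 0) (nat_lit 12406293810) (nat_lit 23) (nat_lit 5) (nat_lit 25) (nat_lit 4) (nat_lit 23) (nat_lit 4) (nat_lit 446) (nat_lit 393) (nat_lit 361)) (XT.nd (nat_lit 78) (nat_lit 152) (nat_lit 0) (XT.lf (nat_lit 0) (nat_lit 19052118253)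 (nat_lit 76) (nat_lit 10186300589) (nat_lit 76) (nat_lit 3907406649) (nat_lit 22) (nat_lit 4) (nat_lit 23) (nat_lit 5) (nat_lit 23) (nat_lit 4) (nat_lit 447) (nat_lit 393) (nat_lit 360)) (XT.lf (nat_lit 0) (nat_lit 4910658637) (nat_lit 76) (nat_lit 488084888) (nat_lit 152) (nat_lit 29613673761) (nat_lit 20) (nat_lit 5) (nat_lit 21) (nat_lit 5) (nat_lit 22) (nat_lit 4) (nat_lit 448) (nat_lit 393) (nat_lit 359)))) (XT.nd (nat_lit 78) (nat_lit 76) (nat_lit 0) (XT.lf (nat_lit 0) (nat_lit 15770624776) (nat_lit 152) (nat_lit 11321207351) (nat_lit 0) (nat_lit 9885799600) (nat_lit 20) (nat_lit 5) (nat_lit 22) (nat_lit 4) (nat_lit 20) (nat_lit 4) (nat_lit 449) (nat_lit 393) (nat_lit 358)) (XT.nd (nat_lit 78) (nat_lit 0) (nat_lit 0) (XT.lf (nat_lit 0) (nat_lit 9216713471) (nat_lit 76) (nat_lit 17894346946) (nat_lit 76) (nat_lit 11977900290) (nat_lit 19) (nat_lit 4) (nat_lit 20) (nat_lit 5) (nat_lit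 20) (nat_lit 4) (nat_lit 450) (nat_lit 393) (nat_lit 357)) (XT.lf (nat_lit 0) (nat_lit 31852958247) (nat_lit 76) (nat_lit 7722320645) (nat_lit 76) (nat_lit 1776594842) (nat_lit 19) (nat_lit 4) (nat_lit 20) (nat_lit 5) (nat_lit 20) (nat_lit 4) (nat_lit 451) (nat_lit 393) (nat_lit 356))))) (XT.nd (nat_lit 234) (nat_lit 152) (nat_lit 0) (XT.nd (nat_lit 78) (nat_lit 76) (nat_lit 0) (XT.lf (nat_lit 0) (nat_lit 9086639953) (nat_lit 152) (nat_lit 31110518683) (nat_lit 0) (nat_lit 3556236134) (nat_lit 17) (nat_lit 5) (nat_lit 19) (nat_lit 4) (nat_lit 17) (nat_lit 4) (nat_lit 452) (nat_lit 393) (nat_lit 355)) (XT.nd (nat_lit 78) (nat_lit 76) (nat_lit 0) (XT.lf (nat_lit 0) (nat_lit 21101859720) (nat_lit 152) (nat_lit 9662961541) (nat_lit 0) (nat_lit 15548213170) (nat_lit 17) (nat_lit 5) (nat_lit 19) (nat_lit 4) (nat_lit 17) (nat_lit 4) (nat_lit 453) (nat_lit 393) (nat_lit 354)) (XT.lf (nat_lit 0)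 (nat_lit 14036397259) (nat_lit 76) (nat_lit 20297869588) (nat_lit 76) (nat_lit 14722701991) (nat_lit 16) (nat_lit 4) (nat_lit 17) (nat_lit 5) (nat_lit 17) (nat_lit 4) (nat_lit 454) (nat_lit 393) (nat_lit 353)))) (XT.nd (nat_lit 78) (nat_lit 152) (nat_lit 0) (XT.lf (nat_lit 0) (nat_lit 40019292188) (nat_lit 76) (nat_lit 8790720825) (nat_lit 76) (nat_lit 3195626332) (nat_lit 16) (nat_lit 4) (nat_lit 17) (nat_lit 5) (nat_lit 17) (nat_lit 4) (nat_lit 455) (nat_lit 393) (nat_lit 352)) (XT.nd (nat_lit 78) (nat_lit 0) (nat_lit 0) (XT.lf (nat_lit 0) (nat_lit 9131635923) (nat_lit 152) (nat_lit 42079581829) (nat_lit 0) (nat_lit 3933908773) (nat_lit 14) (nat_lit 5) (nat_lit 16) (nat_lit 4) (nat_lit 14) (nat_lit 4) (nat_lit 456) (nat_lit 393) (nat_lit 351)) (XT.lf (nat_lit 0) (nat_lit 22761663091) (nat_lit 152) (nat_lit 18180214385) (nat_lit 0) (nat_lit 17548117329) (nat_lit 14) (nat_lit 5) (nat_lit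 16) (nat_lit 4) (nat_lit 14) (nat_lit 4) (nat_lit 457) (nat_lit 393) (nat_lit 350)))))) (XT.nd (nat_lit 468) (nat_lit 228) (nat_lit 0) (XT.nd (nat_lit 234) (nat_lit 152) (nat_lit 0) (XT.nd (nat_lit 78) (nat_lit 76) (nat_lit 0) (XT.lf (nat_lit 0) (nat_lit 7882767525) (nat_lit 76) (nat_lit 29719146358) (nat_lit 76) (nat_lit 24490953732) (nat_lit 13) (nat_lit 4) (nat_lit 14) (nat_lit 5) (nat_lit 14) (nat_lit 4) (nat_lit 458) (nat_lit 393) (nat_lit 349)) (XT.nd (nat_lit 78) (nat_lit 76) (nat_lit 0) (XT.lf (nat_lit 0) (nat_lit 36925661722) (nat_lit 76) (nat_lit 17132866169) (nat_lit 76) (nat_lit 11891111633) (nat_lit 13) (nat_lit 4) (nat_lit 14) (nat_lit 5) (nat_lit 14) (nat_lit 4) (nat_lit 459) (nat_lit 393) (nat_lit 348)) (XT.lf (nat_lit 0) (nat_lit 1566302328) (nat_lit 152) (nat_lit 1996403016) (nat_lit 76) (nat_lit 66554108563) (nat_lit 12) (nat_lit 5) (nat_lit 14) (nat_lit 5) (nat_lit 13)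 (nat_lit 4) (nat_lit 460) (nat_lit 393) (nat_lit 347)))) (XT.nd (nat_lit 78) (nat_lit 76) (nat_lit 0) (XT.lf (nat_lit 0) (nat_lit 16366549039) (nat_lit 152) (nat_lit 46662731910) (nat_lit 0) (nat_lit 11490679583) (nat_lit 11) (nat_lit 5) (nat_lit 13) (nat_lit 4) (nat_lit 11) (nat_lit 4) (nat_lit 461) (nat_lit 393) (nat_lit 346)) (XT.nd (nat_lit 78) (nat_lit 76) (nat_lit 0) (XT.lf (nat_lit 0) (nat_lit 32439688189) (nat_lit 152) (nat_lit 19274711093) (nat_lit 0) (nat_lit 27553850324) (nat_lit 11) (nat_lit 5) (nat_lit 13) (nat_lit 4) (nat_lit 11) (nat_lit 4) (nat_lit 462) (nat_lit 393) (nat_lit 345)) (XT.lf (nat_lit 0) (nat_lit 10727608883) (nat_lit 76) (nat_lit 39273820604) (nat_lit 76) (nat_lit 34378752731) (nat_lit 10) (nat_lit 4) (nat_lit 11) (nat_lit 5) (nat_lit 11) (nat_lit 4) (nat_lit 463) (nat_lit 393) (nat_lit 344))))) (XT.nd (nat_lit 234) (nat_lit 76) (nat_lit 0) (XT.nd (nat_lit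 78) (nat_lit 152) (nat_lit 0) (XT.lf (nat_lit 0) (nat_lit 44115773810) (nat_lit 76) (nat_lit 25325527483) (nat_lit 76) (nat_lit 20421913306) (nat_lit 10) (nat_lit 4) (nat_lit 11) (nat_lit 5) (nat_lit 11) (nat_lit 4) (nat_lit 464) (nat_lit 393) (nat_lit 343)) (XT.nd (nat_lit 78) (nat_lit 152) (nat_lit 0) (XT.lf (nat_lit 0) (nat_lit 80072667354) (nat_lit 76) (nat_lit 10313868127) (nat_lit 76) (nat_lit 5402340705) (nat_lit 10) (nat_lit 4) (nat_lit 11) (nat_lit 5) (nat_lit 11) (nat_lit 4) (nat_lit 465) (nat_lit 393) (nat_lit 342)) (XT.lf (nat_lit 0) (nat_lit 10802622427) (nat_lit 152) (nat_lit 85075023744) (nat_lit 0) (nat_lit 6248127519) (nat_lit 8) (nat_lit 5) (nat_lit 10) (nat_lit 4) (nat_lit 8) (nat_lit 4) (nat_lit 466) (nat_lit 393) (nat_lit 341)))) (XT.nd (nat_lit 156) (nat_lit 76) (nat_lit 0) (XT.nd (nat_lit 78) (nat_lit 0) (nat_lit 0) (XT.lf (nat_lit 0) (nat_lit 28673600146) (nat_lit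 152) (nat_lit 56119055353) (nat_lit 0) (nat_lit 24112823450) (nat_lit 8) (nat_lit 5) (nat_lit 10) (nat_lit 4) (nat_lit 8) (nat_lit 4) (nat_lit 467) (nat_lit 393) (nat_lit 340)) (XT.lf (nat_lit 0) (nat_lit 47930479510) (nat_lit 152) (nat_lit 24936697212) (nat_lit 0) (nat_lit 43363886343) (nat_lit 8) (nat_lit 5) (nat_lit 10) (nat_lit 4) (nat_lit 8) (nat_lit 4) (nat_lit 468) (nat_lit 393) (nat_lit 339))) (XT.nd (nat_lit 78) (nat_lit 0) (nat_lit 0) (XT.lf (nat_lit 0) (nat_lit 9112688613) (nat_lit 76) (nat_lit 59793847126) (nat_lit 76) (nat_lit 55221868338) (nat_lit 7) (nat_lit 4) (nat_lit 8) (nat_lit 5) (nat_lit 8) (nat_lit 4) (nat_lit 469) (nat_lit 393) (nat_lit 338)) (XT.lf (nat_lit 0) (nat_lit 47222894574) (nat_lit 76) (nat_lit 44980108697) (nat_lit 76) (nat_lit 40403143222) (nat_lit 7) (nat_lit 4) (nat_lit 8) (nat_lit 5) (nat_lit 8) (nat_lit 4) (nat_lit 470) (nat_lit 393) (nat_lit 337)))))))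 (XT.nd (nat_lit 936) (nat_lit 228) (nat_lit 0) (XT.nd (nat_lit 468) (nat_lit 76) (nat_lit 0) (XT.nd (nat_lit 234) (nat_lit 0) (nat_lit 0) (XT.nd (nat_lit 78) (nat_lit 152) (nat_lit 0) (XT.lf (nat_lit 0) (nat_lit 88306636646) (nat_lit 76) (nat_lit 29019989810) (nat_lit 76) (nat_lit 24438407034) (nat_lit 7) (nat_lit 4) (nat_lit 8) (nat_lit 5) (nat_lit 8) (nat_lit 4) (nat_lit 471) (nat_lit 393) (nat_lit 336)) (XT.nd (nat_lit 78) (nat_lit 152) (nat_lit 0) (XT.lf (nat_lit 0) (nat_lit 132607374040) (nat_lit 76) (nat_lit 11818911985) (nat_lit 76) (nat_lit 7233053929) (nat_lit 7) (nat_lit 4) (nat_lit 8) (nat_lit 5) (nat_lit 8) (nat_lit 4) (nat_lit 472) (nat_lit 393) (nat_lit 335)) (XT.lf (nat_lit 0) (nat_lit 11379165347) (nat_lit 152) (nat_lit 143767003915) (nat_lit 0) (nat_lit 7129335116) (nat_lit 5) (nat_lit 5) (nat_lit 7) (nat_lit 4) (nat_lit 5) (nat_lit 4) (nat_lit 473) (nat_lit 393) (nat_lit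 334)))) (XT.nd (nat_lit 78) (nat_lit 0) (nat_lit 0) (XT.lf (nat_lit 0) (nat_lit 31898889192) (nat_lit 152) (nat_lit 114116634134) (nat_lit 0) (nat_lit 27645665107) (nat_lit 5) (nat_lit 5) (nat_lit 7) (nat_lit 4) (nat_lit 5) (nat_lit 4) (nat_lit 474) (nat_lit 393) (nat_lit 333)) (XT.nd (nat_lit 78) (nat_lit 0) (nat_lit 0) (XT.lf (nat_lit 0) (nat_lit 54030441246) (nat_lit 152) (nat_lit 82155591406) (nat_lit 0) (nat_lit 49774074702) (nat_lit 5) (nat_lit 5) (nat_lit 7) (nat_lit 4) (nat_lit 5) (nat_lit 4) (nat_lit 475) (nat_lit 393) (nat_lit 332)) (XT.lf (nat_lit 0) (nat_lit 77904971446) (nat_lit 152) (nat_lit 47694476962) (nat_lit 0) (nat_lit 73645695219) (nat_lit 5) (nat_lit 5) (nat_lit 7) (nat_lit 4) (nat_lit 5) (nat_lit 4) (nat_lit 476) (nat_lit 393) (nat_lit 331))))) (XT.nd (nat_lit 234) (nat_lit 0) (nat_lit 0) (XT.nd (nat_lit 78) (nat_lit 76) (nat_lit 0) (XT.lf (nat_lit 0) (nat_lit 103663958491)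 (nat_lit 152) (nat_lit 10529076789) (nat_lit 0) (nat_lit 99401988113) (nat_lit 5) (nat_lit 5) (nat_lit 7) (nat_lit 4) (nat_lit 5) (nat_lit 4) (nat_lit 477) (nat_lit 393) (nat_lit 330)) (XT.nd (nat_lit 78) (nat_lit 0) (nat_lit 0) (XT.lf (nat_lit 0) (nat_lit 31117470417) (nat_lit 76) (nat_lit 101090953723) (nat_lit 76) (nat_lit 96826488760) (nat_lit 4) (nat_lit 4) (nat_lit 5) (nat_lit 5) (nat_lit 5) (nat_lit 4) (nat_lit 478) (nat_lit 393) (nat_lit 329)) (XT.lf (nat_lit 0) (nat_lit 76647065536) (nat_lit 76) (nat_lit 86654256462) (nat_lit 76) (nat_lit 82387481698) (nat_lit 4) (nat_lit 4) (nat_lit 5) (nat_lit 5) (nat_lit 5) (nat_lit 4) (nat_lit 479) (nat_lit 393) (nat_lit 328)))) (XT.nd (nat_lit 78) (nat_lit 0) (nat_lit 0) (XT.lf (nat_lit 0) (nat_lit 125775071051) (nat_lit 76) (nat_lit 71085276317) (nat_lit 76) (nat_lit 66816362849) (nat_lit 4) (nat_lit 4) (nat_lit 5) (nat_lit 5) (nat_lit 5)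 (nat_lit 4) (nat_lit 480) (nat_lit 393) (nat_lit 327)) (XT.nd (nat_lit 78) (nat_lit 0) (nat_lit 0) (XT.lf (nat_lit 0) (nat_lit 178792615882) (nat_lit 76) (nat_lit 54291752665) (nat_lit 76) (nat_lit 50020858915) (nat_lit 4) (nat_lit 4) (nat_lit 5) (nat_lit 5) (nat_lit 5) (nat_lit 4) (nat_lit 481) (nat_lit 393) (nat_lit 326)) (XT.lf (nat_lit 0) (nat_lit 236013878074) (nat_lit 76) (nat_lit 36174168328) (nat_lit 76) (nat_lit 31901440985) (nat_lit 4) (nat_lit 4) (nat_lit 5) (nat_lit 5) (nat_lit 5) (nat_lit 4) (nat_lit 482) (nat_lit 393) (nat_lit 325)))))) (XT.nd (nat_lit 468) (nat_lit 76) (nat_lit 0) (XT.nd (nat_lit 234) (nat_lit 0) (nat_lit 0) (XT.nd (nat_lit 78) (nat_lit 152) (nat_lit 0) (XT.lf (nat_lit 0) (nat_lit 297777946588) (nat_lit 76) (nat_lit 16625159845) (nat_lit 76) (nat_lit 12350734729) (nat_lit 4) (nat_lit 4) (nat_lit 5) (nat_lit 5) (nat_lit 5) (nat_lit 4) (nat_lit 483) (nat_lit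 393) (nat_lit 324)) (XT.nd (nat_lit 78) (nat_lit 0) (nat_lit 0) (XT.lf (nat_lit 0) (nat_lit 8760411010) (nat_lit 152) (nat_lit 337618132276) (nat_lit 0) (nat_lit 4801154410) (nat_lit 2) (nat_lit 5) (nat_lit 4) (nat_lit 4) (nat_lit 2) (nat_lit 4) (nat_lit 484) (nat_lit 393) (nat_lit 323)) (XT.lf (nat_lit 0) (nat_lit 32121786549) (nat_lit 152) (nat_lit 317152702319) (nat_lit 0) (nat_lit 28161182203) (nat_lit 2) (nat_lit 5) (nat_lit 4) (nat_lit 4) (nat_lit 2) (nat_lit 4) (nat_lit 485) (nat_lit 393) (nat_lit 322)))) (XT.nd (nat_lit 78) (nat_lit 0) (nat_lit 0) (XT.lf (nat_lit 0) (nat_lit 57337207310) (nat_lit 152) (nat_lit 295080749210) (nat_lit 0) (nat_lit 53375355050) (nat_lit 2) (nat_lit 5) (nat_lit 4) (nat_lit 4) (nat_lit 2) (nat_lit 4) (nat_lit 486) (nat_lit 393) (nat_lit 321)) (XT.nd (nat_lit 78) (nat_lit 0) (nat_lit 0) (XT.lf (nat_lit 0) (nat_lit 84556098006) (nat_lit 152) (nat_lit 271271476191)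 (nat_lit 0) (nat_lit 80593090271) (nat_lit 2) (nat_lit 5) (nat_lit 4) (nat_lit 4) (nat_lit 2) (nat_lit 4) (nat_lit 487) (nat_lit 393) (nat_lit 320)) (XT.lf (nat_lit 0) (nat_lit 113939755769) (nat_lit 152) (nat_lit 245583791273) (nat_lit 0) (nat_lit 109975678149) (nat_lit 2) (nat_lit 5) (nat_lit 4) (nat_lit 4) (nat_lit 2) (nat_lit 4) (nat_lit 488) (nat_lit 393) (nat_lit 319))))) (XT.nd (nat_lit 234) (nat_lit 76) (nat_lit 0) (XT.nd (nat_lit 78) (nat_lit 0) (nat_lit 0) (XT.lf (nat_lit 0) (nat_lit 145662305977) (nat_lit 152) (nat_lit 217865471137) (nat_lit 0) (nat_lit 141697237723) (nat_lit 2) (nat_lit 5) (nat_lit 4) (nat_lit 4) (nat_lit 2) (nat_lit 4) (nat_lit 489) (nat_lit 393) (nat_lit 318)) (XT.nd (nat_lit 78) (nat_lit 0) (nat_lit 0) (XT.lf (nat_lit 0) (nat_lit 179911734113) (nat_lit 152) (nat_lit 187952259073) (nat_lit 0) (nat_lit 175945748606) (nat_lit 2) (nat_lit 5) (nat_lit 4) (nat_lit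 4) (nat_lit 2) (nat_lit 4) (nat_lit 490) (nat_lit 393) (nat_lit 317)) (XT.lf (nat_lit 0) (nat_lit 216890999753) (nat_lit 152) (nat_lit 155666891601) (nat_lit 0) (nat_lit 212924164937) (nat_lit 2) (nat_lit 5) (nat_lit 4) (nat_lit 4) (nat_lit 2) (nat_lit 4) (nat_lit 491) (nat_lit 393) (nat_lit 316)))) (XT.nd (nat_lit 156) (nat_lit 76) (nat_lit 0) (XT.nd (nat_lit 78) (nat_lit 0) (nat_lit 0) (XT.lf (nat_lit 0) (nat_lit 256819239283) (nat_lit 152) (nat_lit 120818048024) (nat_lit 0) (nat_lit 252851618070) (nat_lit 2) (nat_lit 5) (nat_lit 4) (nat_lit 4) (nat_lit 2) (nat_lit 4) (nat_lit 492) (nat_lit 393) (nat_lit 315)) (XT.lf (nat_lit 0) (nat_lit 299933064495) (nat_lit 152) (nat_lit 83199216679) (nat_lit 0) (nat_lit 295964715136) (nat_lit 2) (nat_lit 5) (nat_lit 4) (nat_lit 4) (nat_lit 2) (nat_lit 4) (nat_lit 493) (nat_lit 393) (nat_lit 314))) (XT.nd (nat_lit 78) (nat_lit 76) (nat_lit 0) (XT.lf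 (nat_lit 0) (nat_lit 346487964723) (nat_lit 152) (nat_lit 42587471155) (nat_lit 0) (nat_lit 342518941155) (nat_lit 2) (nat_lit 5) (nat_lit 4) (nat_lit 4) (nat_lit 2) (nat_lit 4) (nat_lit 494) (nat_lit 393) (nat_lit 313)) (XT.lf (nat_lit 0) (nat_lit 1324086931) (nat_lit 76) (nat_lit 395467578247) (nat_lit 76) (nat_lit 391497930412) (nat_lit 1) (nat_lit 4) (nat_lit 2) (nat_lit 5) (nat_lit 2) (nat_lit 4) (nat_lit 495) (nat_lit 393) (nat_lit 312))))))))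
noncomputable def xc76 : XT := (XT.nd (nat_lit 1950) (nat_lit 0) (nat_lit 0) (XT.nd (nat_lit 936) (nat_lit 0) (nat_lit 0) (XT.nd (nat_lit 468) (nat_lit 0) (nat_lit 0) (XT.nd (nat_lit 234) (nat_lit 0) (nat_lit 0) (XT.nd (nat_lit 78) (nat_lit 0) (nat_lit 0) (XT.lf (nat_lit 0) (nat_lit 51155582561) (nat_lit 76) (nat_lit 401121250621) (nat_lit 76) (nat_lit 397151024761) (nat_lit 1) (nat_lit 4) (nat_lit 2) (nat_lit 5) (nat_lit 2) (nat_lit 4) (nat_lit 496) (nat_lit 393) (nat_lit 311)) (XT.nd (nat_lit 78) (nat_lit 0) (nat_lit 0) (XT.lf (nat_lit 0) (nat_lit 104959732726) (nat_lit 76) (nat_lit 407234373176) (nat_lit 76) (nat_lit 403263612107) (nat_lit 1) (nat_lit 4) (nat_lit 2) (nat_lit 5) (nat_lit 2) (nat_lit 4) (nat_lit 497) (nat_lit 393) (nat_lit 310)) (XT.lf (nat_lit 0) (nat_lit 163055376834) (nat_lit 76) (nat_lit 413843171825) (nat_lit 76) (nat_lit 409871915193) (nat_lit 1) (nat_lit 4) (nat_lit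 2) (nat_lit 5) (nat_lit 2) (nat_lit 4) (nat_lit 498) (nat_lit 393) (nat_lit 309)))) (XT.nd (nat_lit 78) (nat_lit 0) (nat_lit 0) (XT.lf (nat_lit 0) (nat_lit 225786785368) (nat_lit 76) (nat_lit 420986809818) (nat_lit 76) (nat_lit 417015094331) (nat_lit 1) (nat_lit 4) (nat_lit 2) (nat_lit 5) (nat_lit 2) (nat_lit 4) (nat_lit 499) (nat_lit 393) (nat_lit 308)) (XT.nd (nat_lit 78) (nat_lit 0) (nat_lit 0) (XT.lf (nat_lit 0) (nat_lit 293525700009) (nat_lit 76) (nat_lit 428707619825) (nat_lit 76) (nat_lit 424735479472) (nat_lit 1) (nat_lit 4) (nat_lit 2) (nat_lit 5) (nat_lit 2) (nat_lit 4) (nat_lit 500) (nat_lit 393) (nat_lit 307)) (XT.lf (nat_lit 0) (nat_lit 366673536547) (nat_lit 76) (nat_lit 437051354795) (nat_lit 76) (nat_lit 433078821047) (nat_lit 1) (nat_lit 4) (nat_lit 2) (nat_lit 5) (nat_lit 2) (nat_lit 4) (nat_lit 501) (nat_lit 393) (nat_lit 306))))) (XT.nd (nat_lit 234) (nat_lit 0) (nat_lit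 0) (XT.nd (nat_lit 78) (nat_lit 0) (nat_lit 0) (XT.lf (nat_lit 0) (nat_lit 445663763643) (nat_lit 76) (nat_lit 446067459082) (nat_lit 76) (nat_lit 442094561080) (nat_lit 1) (nat_lit 4) (nat_lit 2) (nat_lit 5) (nat_lit 2) (nat_lit 4) (nat_lit 502) (nat_lit 393) (nat_lit 305)) (XT.nd (nat_lit 78) (nat_lit 0) (nat_lit 0) (XT.lf (nat_lit 0) (nat_lit 530964471533) (nat_lit 76) (nat_lit 455809361452) (nat_lit 76) (nat_lit 451836126178) (nat_lit 1) (nat_lit 4) (nat_lit 2) (nat_lit 5) (nat_lit 2) (nat_lit 4) (nat_lit 503) (nat_lit 393) (nat_lit 304)) (XT.lf (nat_lit 0) (nat_lit 623081145891) (nat_lit 76) (nat_lit 466334791699) (nat_lit 76) (nat_lit 462361244135) (nat_lit 1) (nat_lit 4) (nat_lit 2) (nat_lit 5) (nat_lit 2) (nat_lit 4) (nat_lit 504) (nat_lit 393) (nat_lit 303)))) (XT.nd (nat_lit 78) (nat_lit 0) (nat_lit 0) (XT.lf (nat_lit 0) (nat_lit 722559663308) (nat_lit 76) (nat_lit 477706122740)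 (nat_lit 76) (nat_lit 473732286021) (nat_lit 1) (nat_lit 4) (nat_lit 2) (nat_lit 5) (nat_lit 2) (nat_lit 4) (nat_lit 505) (nat_lit 393) (nat_lit 302)) (XT.nd (nat_lit 78) (nat_lit 0) (nat_lit 0) (XT.lf (nat_lit 0) (nat_lit 829989526108) (nat_lit 76) (nat_lit 489990740243) (nat_lit 76) (nat_lit 486016635786) (nat_lit 1) (nat_lit 4) (nat_lit 2) (nat_lit 5) (nat_lit 2) (nat_lit 4) (nat_lit 506) (nat_lit 393) (nat_lit 301)) (XT.lf (nat_lit 0) (nat_lit 946007355700) (nat_lit 76) (nat_lit 503261441940) (nat_lit 76) (nat_lit 499287089578) (nat_lit 1) (nat_lit 4) (nat_lit 2) (nat_lit 5) (nat_lit 2) (nat_lit 4) (nat_lit 507) (nat_lit 393) (nat_lit 300)))))) (XT.nd (nat_lit 468) (nat_lit 0) (nat_lit 0) (XT.nd (nat_lit 234) (nat_lit 0) (nat_lit 0) (XT.nd (nat_lit 78) (nat_lit 0) (nat_lit 0) (XT.lf (nat_lit 0) (nat_lit 1071300665150) (nat_lit 76) (nat_lit 517596869027) (nat_lit 76) (nat_lit 513622287122)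 (nat_lit 1) (nat_lit 4) (nat_lit 2) (nat_lit 5) (nat_lit 2) (nat_lit 4) (nat_lit 508) (nat_lit 393) (nat_lit 299)) (XT.nd (nat_lit 78) (nat_lit 0) (nat_lit 0) (XT.lf (nat_lit 0) (nat_lit 1206611933327) (nat_lit 76) (nat_lit 533081972182) (nat_lit 76) (nat_lit 529107177739) (nat_lit 1) (nat_lit 4) (nat_lit 2) (nat_lit 5) (nat_lit 2) (nat_lit 4) (nat_lit 509) (nat_lit 393) (nat_lit 298)) (XT.lf (nat_lit 0) (nat_lit 1352743004785) (nat_lit 76) (nat_lit 549808514980) (nat_lit 76) (nat_lit 545833523742) (nat_lit 1) (nat_lit 4) (nat_lit 2) (nat_lit 5) (nat_lit 2) (nat_lit 4) (nat_lit 510) (nat_lit 393) (nat_lit 297)))) (XT.nd (nat_lit 78) (nat_lit 0) (nat_lit 0) (XT.lf (nat_lit 0) (nat_lit 1510559841427) (nat_lit 76) (nat_lit 567875617674) (nat_lit 76) (nat_lit 563900444218) (nat_lit 1) (nat_lit 4) (nat_lit 2) (nat_lit 5) (nat_lit 2) (nat_lit 4) (nat_lit 511) (nat_lit 393) (nat_lit 296)) (XT.nd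 (nat_lit 78) (nat_lit 0) (nat_lit 0) (XT.lf (nat_lit 0) (nat_lit 1680997654137) (nat_lit 76) (nat_lit 587390344578) (nat_lit 76) (nat_lit 583415002402) (nat_lit 1) (nat_lit 4) (nat_lit 2) (nat_lit 5) (nat_lit 2) (nat_lit 4) (nat_lit 512) (nat_lit 393) (nat_lit 295)) (XT.lf (nat_lit 0) (nat_lit 1865066444769) (nat_lit 76) (nat_lit 608468338516) (nat_lit 76) (nat_lit 604492840117) (nat_lit 1) (nat_lit 4) (nat_lit 2) (nat_lit 5) (nat_lit 2) (nat_lit 4) (nat_lit 513) (nat_lit 393) (nat_lit 294))))) (XT.nd (nat_lit 234) (nat_lit 0) (nat_lit 0) (XT.nd (nat_lit 78) (nat_lit 0) (nat_lit 0) (XT.lf (nat_lit 0) (nat_lit 2063856991342) (nat_lit 76) (nat_lit 631234506119) (nat_lit 76) (nat_lit 627258863071) (nat_lit 1) (nat_lit 4) (nat_lit 2) (nat_lit 5) (nat_lit 2) (nat_lit 4) (nat_lit 514) (nat_lit 393) (nat_lit 293)) (XT.nd (nat_lit 78) (nat_lit 0) (nat_lit 0) (XT.lf (nat_lit 0) (nat_lit 2278547311909)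 (nat_lit 76) (nat_lit 655823758011) (nat_lit 76) (nat_lit 651847981027) (nat_lit 1) (nat_lit 4) (nat_lit 2) (nat_lit 5) (nat_lit 2) (nat_lit 4) (nat_lit 515) (nat_lit 393) (nat_lit 292)) (XT.lf (nat_lit 0) (nat_lit 2510409645406) (nat_lit 76) (nat_lit 682381808277) (nat_lit 76) (nat_lit 678405907278) (nat_lit 1) (nat_lit 4) (nat_lit 2) (nat_lit 5) (nat_lit 2) (nat_lit 4) (nat_lit 516) (nat_lit 393) (nat_lit 291)))) (XT.nd (nat_lit 156) (nat_lit 0) (nat_lit 0) (XT.nd (nat_lit 78) (nat_lit 0) (nat_lit 0) (XT.lf (nat_lit 0) (nat_lit 2760817990848) (nat_lit 76) (nat_lit 711066037955) (nat_lit 76) (nat_lit 707090022128) (nat_lit 1) (nat_lit 4) (nat_lit 2) (nat_lit 5) (nat_lit 2) (nat_lit 4) (nat_lit 517) (nat_lit 393) (nat_lit 290)) (XT.lf (nat_lit 0) (nat_lit 3031256249539) (nat_lit 76) (nat_lit 742046427665) (nat_lit 76) (nat_lit 738070305517) (nat_lit 1) (nat_lit 4) (nat_lit 2) (nat_lit 5)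 (nat_lit 2) (nat_lit 4) (nat_lit 518) (nat_lit 393) (nat_lit 289))) (XT.nd (nat_lit 78) (nat_lit 0) (nat_lit 0) (XT.lf (nat_lit 0) (nat_lit 3323327018570) (nat_lit 76) (nat_lit 775506564903) (nat_lit 76) (nat_lit 771530344308) (nat_lit 1) (nat_lit 4) (nat_lit 2) (nat_lit 5) (nat_lit 2) (nat_lit 4) (nat_lit 519) (nat_lit 393) (nat_lit 288)) (XT.lf (nat_lit 0) (nat_lit 3638761087682) (nat_lit 76) (nat_lit 811644731963) (nat_lit 76) (nat_lit 807668420213) (nat_lit 1) (nat_lit 4) (nat_lit 2) (nat_lit 5) (nat_lit 2) (nat_lit 4) (nat_lit 520) (nat_lit 393) (nat_lit 287))))))) (XT.nd (nat_lit 936) (nat_lit 0) (nat_lit 0) (XT.nd (nat_lit 468) (nat_lit 0) (nat_lit 0) (XT.nd (nat_lit 234) (nat_lit 0) (nat_lit 0) (XT.nd (nat_lit 78) (nat_lit 0) (nat_lit 0) (XT.lf (nat_lit 0) (nat_lit 3979427695804) (nat_lit 76) (nat_lit 850675080945) (nat_lit 76) (nat_lit 846698684794) (nat_lit 1) (nat_lit 4) (nat_lit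 2) (nat_lit 5) (nat_lit 2) (nat_lit 4) (nat_lit 521) (nat_lit 393) (nat_lit 286)) (XT.nd (nat_lit 78) (nat_lit 0) (nat_lit 0) (XT.lf (nat_lit 0) (nat_lit 4347345608020) (nat_lit 76) (nat_lit 892828902808) (nat_lit 76) (nat_lit 888852428506) (nat_lit 1) (nat_lit 4) (nat_lit 2) (nat_lit 5) (nat_lit 2) (nat_lit 4) (nat_lit 522) (nat_lit 393) (nat_lit 285)) (XT.lf (nat_lit 0) (nat_lit 4744695078625) (nat_lit 76) (nat_lit 938355997977) (nat_lit 76) (nat_lit 934379451314) (nat_lit 1) (nat_lit 4) (nat_lit 2) (nat_lit 5) (nat_lit 2) (nat_lit 4) (nat_lit 523) (nat_lit 393) (nat_lit 284)))) (XT.nd (nat_lit 78) (nat_lit 0) (nat_lit 0) (XT.lf (nat_lit 0) (nat_lit 5173830771149) (nat_lit 76) (nat_lit 987526156644) (nat_lit 76) (nat_lit 983549542981) (nat_lit 1) (nat_lit 4) (nat_lit 2) (nat_lit 5) (nat_lit 2) (nat_lit 4) (nat_lit 524) (nat_lit 393) (nat_lit 283)) (XT.nd (nat_lit 78) (nat_lit 0) (nat_lit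 0) (XT.lf (nat_lit 0) (nat_lit 5637295711917) (nat_lit 76) (nat_lit 1040630757530) (nat_lit 76) (nat_lit 1036654081828) (nat_lit 1) (nat_lit 4) (nat_lit 2) (nat_lit 5) (nat_lit 2) (nat_lit 4) (nat_lit 525) (nat_lit 393) (nat_lit 282)) (XT.lf (nat_lit 0) (nat_lit 6137836359839) (nat_lit 76) (nat_lit 1097984494564) (nat_lit 76) (nat_lit 1094007761419) (nat_lit 1) (nat_lit 4) (nat_lit 2) (nat_lit 5) (nat_lit 2) (nat_lit 4) (nat_lit 526) (nat_lit 393) (nat_lit 281))))) (XT.nd (nat_lit 234) (nat_lit 0) (nat_lit 0) (XT.nd (nat_lit 78) (nat_lit 0) (nat_lit 0) (XT.lf (nat_lit 0) (nat_lit 6678418881716) (nat_lit 76) (nat_lit 1159927241743) (nat_lit 76) (nat_lit 1155950455411) (nat_lit 1) (nat_lit 4) (nat_lit 2) (nat_lit 5) (nat_lit 2) (nat_lit 4) (nat_lit 527) (nat_lit 393) (nat_lit 280)) (XT.nd (nat_lit 78) (nat_lit 0) (nat_lit 0) (XT.lf (nat_lit 0) (nat_lit 7262246729530) (nat_lit 76) (nat_lit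 1226826067200) (nat_lit 76) (nat_lit 1222849231620) (nat_lit 1) (nat_lit 4) (nat_lit 2) (nat_lit 5) (nat_lit 2) (nat_lit 4) (nat_lit 528) (nat_lit 393) (nat_lit 279)) (XT.lf (nat_lit 0) (nat_lit 7892779623861) (nat_lit 76) (nat_lit 1299077408419) (nat_lit 76) (nat_lit 1295100527239) (nat_lit 1) (nat_lit 4) (nat_lit 2) (nat_lit 5) (nat_lit 2) (nat_lit 4) (nat_lit 529) (nat_lit 393) (nat_lit 278)))) (XT.nd (nat_lit 78) (nat_lit 0) (nat_lit 0) (XT.lf (nat_lit 0) (nat_lit 8573754055934) (nat_lit 76) (nat_lit 1377109421495) (nat_lit 76) (nat_lit 1373132498093) (nat_lit 1) (nat_lit 4) (nat_lit 2) (nat_lit 5) (nat_lit 2) (nat_lit 4) (nat_lit 530) (nat_lit 393) (nat_lit 277)) (XT.nd (nat_lit 78) (nat_lit 0) (nat_lit 0) (XT.lf (nat_lit 0) (nat_lit 9309205429791) (nat_lit 76) (nat_lit 1461384518358) (nat_lit 76) (nat_lit 1457407555862) (nat_lit 1) (nat_lit 4) (nat_lit 2) (nat_lit 5) (nat_lit 2) (nat_lit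 4) (nat_lit 531) (nat_lit 393) (nat_lit 276)) (XT.lf (nat_lit 0) (nat_lit 10103491975796) (nat_lit 76) (nat_lit 1552402106989) (nat_lit 76) (nat_lit 1548425108294) (nat_lit 1) (nat_lit 4) (nat_lit 2) (nat_lit 5) (nat_lit 2) (nat_lit 4) (nat_lit 532) (nat_lit 393) (nat_lit 275)))))) (XT.nd (nat_lit 53274) (nat_lit 0) (nat_lit 3800) (XT.nd (nat_lit 53040) (nat_lit 0) (nat_lit 5016) (XT.nd (nat_lit 78) (nat_lit 0) (nat_lit 0) (XT.lf (nat_lit 0) (nat_lit 10961320577184) (nat_lit 76) (nat_lit 1650701550877) (nat_lit 76) (nat_lit 1646724518665) (nat_lit 1) (nat_lit 4) (nat_lit 2) (nat_lit 5) (nat_lit 2) (nat_lit 4) (nat_lit 533) (nat_lit 393) (nat_lit 274)) (XT.nd (nat_lit 78) (nat_lit 0) (nat_lit 0) (XT.lf (nat_lit 0) (nat_lit 11887774662705) (nat_lit 76) (nat_lit 1756865365244) (nat_lit 76) (nat_lit 1752888301998) (nat_lit 1) (nat_lit 4) (nat_lit 2) (nat_lit 5) (nat_lit 2) (nat_lit 4) (nat_lit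 534) (nat_lit 393) (nat_lit 273)) (XT.lf (nat_lit 0) (nat_lit 12888344330643) (nat_lit 76) (nat_lit 1871522668991) (nat_lit 76) (nat_lit 1867545577009) (nat_lit 1) (nat_lit 4) (nat_lit 2) (nat_lit 5) (nat_lit 2) (nat_lit 4) (nat_lit 535) (nat_lit 393) (nat_lit 272)))) (XT.nd (nat_lit 78) (nat_lit 532) (nat_lit 0) (XT.lf (nat_lit 0) (nat_lit 3253172839) (nat_lit 456) (nat_lit 243786140) (nat_lit 456) (nat_lit 243786140) (nat_lit 74) (nat_lit 4) (nat_lit 80) (nat_lit 5) (nat_lit 80) (nat_lit 4) (nat_lit 412) (nat_lit 394) (nat_lit 394)) (XT.nd (nat_lit 78) (nat_lit 228) (nat_lit 0) (XT.lf (nat_lit 0) (nat_lit 3226549092) (nat_lit 304) (nat_lit 2582975916) (nat_lit 0) (nat_lit 1853309872) (nat_lit 70) (nat_lit 5) (nat_lit 74) (nat_lit 4) (nat_lit 70) (nat_lit 4) (nat_lit 413) (nat_lit 394) (nat_lit 393)) (XT.lf (nat_lit 0) (nat_lit 3654023181) (nat_lit 228) (nat_lit 3429360932) (nat_lit 228)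 (nat_lit 784603914) (nat_lit 67) (nat_lit 4) (nat_lit 70) (nat_lit 5) (nat_lit 70) (nat_lit 4) (nat_lit 414) (nat_lit 394) (nat_lit 392))))) (XT.nd (nat_lit 234) (nat_lit 684) (nat_lit 0) (XT.nd (nat_lit 78) (nat_lit 304) (nat_lit 0) (XT.lf (nat_lit 0) (nat_lit 2157004005) (nat_lit 152) (nat_lit 717559607) (nat_lit 228) (nat_lit 5219098863) (nat_lit 64) (nat_lit 5) (nat_lit 66) (nat_lit 5) (nat_lit 67) (nat_lit 4) (nat_lit 415) (nat_lit 394) (nat_lit 391)) (XT.nd (nat_lit 78) (nat_lit 76) (nat_lit 0) (XT.lf (nat_lit 0) (nat_lit 565688171) (nat_lit 228) (nat_lit 6161509570) (nat_lit 228) (nat_lit 1613167089) (nat_lit 61) (nat_lit 4) (nat_lit 64) (nat_lit 5) (nat_lit 64) (nat_lit 4) (nat_lit 416) (nat_lit 394) (nat_lit 390)) (XT.lf (nat_lit 0) (nat_lit 2114414093) (nat_lit 304) (nat_lit 1084964705) (nat_lit 76) (nat_lit 5407298490) (nat_lit 60) (nat_lit 5) (nat_lit 64) (nat_lit 5) (nat_lit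 61) (nat_lit 4) (nat_lit 417) (nat_lit 394) (nat_lit 389)))) (XT.nd (nat_lit 156) (nat_lit 304) (nat_lit 0) (XT.nd (nat_lit 78) (nat_lit 228) (nat_lit 0) (XT.lf (nat_lit 0) (nat_lit 5981843041) (nat_lit 228) (nat_lit 2811069778) (nat_lit 0) (nat_lit 103769275) (nat_lit 58) (nat_lit 5) (nat_lit 61) (nat_lit 4) (nat_lit 58) (nat_lit 4) (nat_lit 418) (nat_lit 394) (nat_lit 388)) (XT.lf (nat_lit 0) (nat_lit 909777015) (nat_lit 228) (nat_lit 4727655995) (nat_lit 76) (nat_lit 3569988841) (nat_lit 55) (nat_lit 5) (nat_lit 58) (nat_lit 5) (nat_lit 56) (nat_lit 4) (nat_lit 419) (nat_lit 394) (nat_lit 387))) (XT.nd (nat_lit 78) (nat_lit 152) (nat_lit 0) (XT.lf (nat_lit 0) (nat_lit 2710911982) (nat_lit 152) (nat_lit 2105369590) (nat_lit 228) (nat_lit 4726044784) (nat_lit 53) (nat_lit 5) (nat_lit 55) (nat_lit 5) (nat_lit 56) (nat_lit 4) (nat_lit 420) (nat_lit 394) (nat_lit 386)) (XT.lf (nat_lit 0)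 (nat_lit 785389382) (nat_lit 152) (nat_lit 8237170857) (nat_lit 152) (nat_lit 882514233) (nat_lit 51) (nat_lit 4) (nat_lit 53) (nat_lit 5) (nat_lit 53) (nat_lit 4) (nat_lit 421) (nat_lit 394) (nat_lit 385))))))))
noncomputable def xc77 : XT := (XT.nd (nat_lit 1950) (nat_lit 1216) (nat_lit 0) (XT.nd (nat_lit 936) (nat_lit 912) (nat_lit 0) (XT.nd (nat_lit 468) (nat_lit 532) (nat_lit 0) (XT.nd (nat_lit 234) (nat_lit 304) (nat_lit 0) (XT.nd (nat_lit 78) (nat_lit 304) (nat_lit 0) (XT.lf (nat_lit 0) (nat_lit 3148280512) (nat_lit 228) (nat_lit 1351565346) (nat_lit 76) (nat_lit 5787272208) (nat_lit 50) (nat_lit 5) (nat_lit 53) (nat_lit 5) (nat_lit 51) (nat_lit 4) (nat_lit 422) (nat_lit 394) (nat_lit 384)) (XT.nd (nat_lit 78) (nat_lit 228) (nat_lit 0) (XT.lf (nat_lit 0) (nat_lit 7061309738) (nat_lit 76) (nat_lit 374380531) (nat_lit 152) (nat_lit 3263679717) (nat_lit 49) (nat_lit 5) (nat_lit 50)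 (nat_lit 5) (nat_lit 51) (nat_lit 4) (nat_lit 423) (nat_lit 394) (nat_lit 383)) (XT.lf (nat_lit 0) (nat_lit 947447682) (nat_lit 228) (nat_lit 6244550004) (nat_lit 76) (nat_lit 3945088606) (nat_lit 46) (nat_lit 5) (nat_lit 49) (nat_lit 5) (nat_lit 47) (nat_lit 4) (nat_lit 424) (nat_lit 394) (nat_lit 382)))) (XT.nd (nat_lit 78) (nat_lit 228) (nat_lit 0) (XT.lf (nat_lit 0) (nat_lit 2422023855) (nat_lit 76) (nat_lit 2884755220) (nat_lit 152) (nat_lit 6297268056) (nat_lit 45) (nat_lit 5) (nat_lit 46) (nat_lit 5) (nat_lit 47) (nat_lit 4) (nat_lit 425) (nat_lit 394) (nat_lit 381)) (XT.nd (nat_lit 78) (nat_lit 228) (nat_lit 0) (XT.lf (nat_lit 0) (nat_lit 10053224868) (nat_lit 152) (nat_lit 320364583) (nat_lit 0) (nat_lit 1731724362) (nat_lit 45) (nat_lit 5) (nat_lit 47) (nat_lit 4) (nat_lit 45) (nat_lit 4) (nat_lit 426) (nat_lit 394) (nat_lit 380)) (XT.lf (nat_lit 0) (nat_lit 2543259427) (nat_lit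 228) (nat_lit 3349716990) (nat_lit 76) (nat_lit 6737868184) (nat_lit 42) (nat_lit 5) (nat_lit 45) (nat_lit 5) (nat_lit 43) (nat_lit 4) (nat_lit 427) (nat_lit 394) (nat_lit 379))))) (XT.nd (nat_lit 234) (nat_lit 304) (nat_lit 0) (XT.nd (nat_lit 78) (nat_lit 152) (nat_lit 0) (XT.lf (nat_lit 0) (nat_lit 6446513921) (nat_lit 76) (nat_lit 948119027) (nat_lit 152) (nat_lit 5799594365) (nat_lit 41) (nat_lit 5) (nat_lit 42) (nat_lit 5) (nat_lit 43) (nat_lit 4) (nat_lit 428) (nat_lit 394) (nat_lit 378)) (XT.nd (nat_lit 78) (nat_lit 76) (nat_lit 0) (XT.lf (nat_lit 0) (nat_lit 3176514562) (nat_lit 76) (nat_lit 9571107218) (nat_lit 76) (nat_lit 1045991961) (nat_lit 40) (nat_lit 4) (nat_lit 41) (nat_lit 5) (nat_lit 41) (nat_lit 4) (nat_lit 429) (nat_lit 394) (nat_lit 377)) (XT.lf (nat_lit 0) (nat_lit 3935825518) (nat_lit 152) (nat_lit 572481806) (nat_lit 76) (nat_lit 9920596622) (nat_lit 39) (nat_lit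 5) (nat_lit 41) (nat_lit 5) (nat_lit 40) (nat_lit 4) (nat_lit 430) (nat_lit 394) (nat_lit 376)))) (XT.nd (nat_lit 78) (nat_lit 228) (nat_lit 0) (XT.lf (nat_lit 0) (nat_lit 9389965277) (nat_lit 152) (nat_lit 4633202724) (nat_lit 0) (nat_lit 1079263610) (nat_lit 38) (nat_lit 5) (nat_lit 40) (nat_lit 4) (nat_lit 38) (nat_lit 4) (nat_lit 431) (nat_lit 394) (nat_lit 375)) (XT.nd (nat_lit 78) (nat_lit 152) (nat_lit 0) (XT.lf (nat_lit 0) (nat_lit 6530767801) (nat_lit 76) (nat_lit 8892030356) (nat_lit 76) (nat_lit 395664324) (nat_lit 37) (nat_lit 4) (nat_lit 38) (nat_lit 5) (nat_lit 38) (nat_lit 4) (nat_lit 432) (nat_lit 394) (nat_lit 374)) (XT.lf (nat_lit 0) (nat_lit 1958383066) (nat_lit 76) (nat_lit 3150588350) (nat_lit 152) (nat_lit 11470130910) (nat_lit 35) (nat_lit 5) (nat_lit 36) (nat_lit 5) (nat_lit 37) (nat_lit 4) (nat_lit 433) (nat_lit 394) (nat_lit 373)))))) (XT.nd (nat_lit 468) (nat_lit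 456) (nat_lit 0) (XT.nd (nat_lit 234) (nat_lit 228) (nat_lit 0) (XT.nd (nat_lit 78) (nat_lit 228) (nat_lit 0) (XT.lf (nat_lit 0) (nat_lit 11220694149) (nat_lit 152) (nat_lit 3116912625) (nat_lit 0) (nat_lit 3047124938) (nat_lit 35) (nat_lit 5) (nat_lit 37) (nat_lit 4) (nat_lit 35) (nat_lit 4) (nat_lit 434) (nat_lit 394) (nat_lit 372)) (XT.nd (nat_lit 78) (nat_lit 152) (nat_lit 0) (XT.lf (nat_lit 0) (nat_lit 9439461896) (nat_lit 76) (nat_lit 8555743437) (nat_lit 76) (nat_lit 245705375) (nat_lit 34) (nat_lit 4) (nat_lit 35) (nat_lit 5) (nat_lit 35) (nat_lit 4) (nat_lit 435) (nat_lit 394) (nat_lit 371)) (XT.lf (nat_lit 0) (nat_lit 3800263130) (nat_lit 76) (nat_lit 2082747080) (nat_lit 152) (nat_lit 13267205442) (nat_lit 32) (nat_lit 5) (nat_lit 33) (nat_lit 5) (nat_lit 34) (nat_lit 4) (nat_lit 436) (nat_lit 394) (nat_lit 370)))) (XT.nd (nat_lit 78) (nat_lit 228) (nat_lit 0) (XT.lf (nat_lit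 0) (nat_lit 12720197340) (nat_lit 152) (nat_lit 2592662761) (nat_lit 0) (nat_lit 4800384236) (nat_lit 32) (nat_lit 5) (nat_lit 34) (nat_lit 4) (nat_lit 32) (nat_lit 4) (nat_lit 437) (nat_lit 394) (nat_lit 369)) (XT.nd (nat_lit 78) (nat_lit 152) (nat_lit 0) (XT.lf (nat_lit 0) (nat_lit 11464195009) (nat_lit 76) (nat_lit 8846375297) (nat_lit 76) (nat_lit 826253514) (nat_lit 31) (nat_lit 4) (nat_lit 32) (nat_lit 5) (nat_lit 32) (nat_lit 4) (nat_lit 438) (nat_lit 394) (nat_lit 368)) (XT.lf (nat_lit 0) (nat_lit 4382305096) (nat_lit 76) (nat_lit 1625053214) (nat_lit 152) (nat_lit 16218486810) (nat_lit 29) (nat_lit 5) (nat_lit 30) (nat_lit 5) (nat_lit 31) (nat_lit 4) (nat_lit 439) (nat_lit 394) (nat_lit 367))))) (XT.nd (nat_lit 234) (nat_lit 228) (nat_lit 0) (XT.nd (nat_lit 78) (nat_lit 228) (nat_lit 0) (XT.lf (nat_lit 0) (nat_lit 13640352049) (nat_lit 152) (nat_lit 3687450307) (nat_lit 0) (nat_lit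 6048686572) (nat_lit 29) (nat_lit 5) (nat_lit 31) (nat_lit 4) (nat_lit 29) (nat_lit 4) (nat_lit 440) (nat_lit 394) (nat_lit 366)) (XT.nd (nat_lit 78) (nat_lit 152) (nat_lit 0) (XT.lf (nat_lit 0) (nat_lit 11932174610) (nat_lit 76) (nat_lit 10167573935) (nat_lit 76) (nat_lit 2502178585) (nat_lit 28) (nat_lit 4) (nat_lit 29) (nat_lit 5) (nat_lit 29) (nat_lit 4) (nat_lit 441) (nat_lit 394) (nat_lit 365)) (XT.lf (nat_lit 0) (nat_lit 2883725711) (nat_lit 76) (nat_lit 2220788453) (nat_lit 152) (nat_lit 20805898579) (nat_lit 26) (nat_lit 5) (nat_lit 27) (nat_lit 5) (nat_lit 28) (nat_lit 4) (nat_lit 442) (nat_lit 394) (nat_lit 364)))) (XT.nd (nat_lit 156) (nat_lit 152) (nat_lit 0) (XT.nd (nat_lit 78) (nat_lit 76) (nat_lit 0) (XT.lf (nat_lit 0) (nat_lit 13580373599) (nat_lit 152) (nat_lit 7345297619) (nat_lit 0) (nat_lit 6361044678) (nat_lit 26) (nat_lit 5) (nat_lit 28) (nat_lit 4) (nat_lit 26) (nat_lit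 4) (nat_lit 443) (nat_lit 394) (nat_lit 363)) (XT.lf (nat_lit 0) (nat_lit 9816123157) (nat_lit 76) (nat_lit 13107682653) (nat_lit 76) (nat_lit 5834160073) (nat_lit 25) (nat_lit 4) (nat_lit 26) (nat_lit 5) (nat_lit 26) (nat_lit 4) (nat_lit 444) (nat_lit 394) (nat_lit 362))) (XT.nd (nat_lit 78) (nat_lit 76) (nat_lit 0) (XT.lf (nat_lit 0) (nat_lit 2636350100) (nat_lit 152) (nat_lit 1840093683) (nat_lit 76) (nat_lit 25857181140) (nat_lit 24) (nat_lit 5) (nat_lit 26) (nat_lit 5) (nat_lit 25) (nat_lit 4) (nat_lit 445) (nat_lit 394) (nat_lit 361)) (XT.lf (nat_lit 0) (nat_lit 11914121299) (nat_lit 152) (nat_lit 14983614278) (nat_lit 0) (nat_lit 5089895170) (nat_lit 23) (nat_lit 5) (nat_lit 25) (nat_lit 4) (nat_lit 23) (nat_lit 4) (nat_lit 446) (nat_lit 394) (nat_lit 360))))))) (XT.nd (nat_lit 936) (nat_lit 532) (nat_lit 0) (XT.nd (nat_lit 468) (nat_lit 380) (nat_lit 0) (XT.nd (nat_lit 234) (nat_lit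 76) (nat_lit 0) (XT.nd (nat_lit 78) (nat_lit 152) (nat_lit 0) (XT.lf (nat_lit 0) (nat_lit 3557759417) (nat_lit 76) (nat_lit 18533830877) (nat_lit 76) (nat_lit 11669770792) (nat_lit 22) (nat_lit 4) (nat_lit 23) (nat_lit 5) (nat_lit 23) (nat_lit 4) (nat_lit 447) (nat_lit 394) (nat_lit 359)) (XT.nd (nat_lit 78) (nat_lit 152) (nat_lit 0) (XT.lf (nat_lit 0) (nat_lit 24246453558) (nat_lit 76) (nat_lit 9153089378) (nat_lit 76) (nat_lit 2252145999) (nat_lit 22) (nat_lit 4) (nat_lit 23) (nat_lit 5) (nat_lit 23) (nat_lit 4) (nat_lit 448) (nat_lit 394) (nat_lit 358)) (XT.lf (nat_lit 0) (nat_lit 7681832585) (nat_lit 152) (nat_lit 28723001152) (nat_lit 0) (nat_lit 1260448718) (nat_lit 20) (nat_lit 5) (nat_lit 22) (nat_lit 4) (nat_lit 20) (nat_lit 4) (nat_lit 449) (nat_lit 394) (nat_lit 357)))) (XT.nd (nat_lit 78) (nat_lit 76) (nat_lit 0) (XT.lf (nat_lit 0) (nat_lit 18758077635) (nat_lit 152) (nat_lit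 8732255180) (nat_lit 0) (nat_lit 12307414621) (nat_lit 20) (nat_lit 5) (nat_lit 22) (nat_lit 4) (nat_lit 20) (nat_lit 4) (nat_lit 450) (nat_lit 394) (nat_lit 356)) (XT.nd (nat_lit 78) (nat_lit 0) (nat_lit 0) (XT.lf (nat_lit 0) (nat_lit 13360227187) (nat_lit 76) (nat_lit 17599602319) (nat_lit 76) (nat_lit 11121828983) (nat_lit 19) (nat_lit 4) (nat_lit 20) (nat_lit 5) (nat_lit 20) (nat_lit 4) (nat_lit 451) (nat_lit 394) (nat_lit 355)) (XT.lf (nat_lit 0) (nat_lit 37555062165) (nat_lit 76) (nat_lit 6741687424) (nat_lit 76) (nat_lit 238811939) (nat_lit 19) (nat_lit 4) (nat_lit 20) (nat_lit 5) (nat_lit 20) (nat_lit 4) (nat_lit 452) (nat_lit 394) (nat_lit 354))))) (XT.nd (nat_lit 234) (nat_lit 152) (nat_lit 0) (XT.nd (nat_lit 78) (nat_lit 76) (nat_lit 0) (XT.lf (nat_lit 0) (nat_lit 11405671139) (nat_lit 152) (nat_lit 30357635635) (nat_lit 0) (nat_lit 5362969087) (nat_lit 17) (nat_lit 5) (nat_lit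 19) (nat_lit 4) (nat_lit 17) (nat_lit 4) (nat_lit 453) (nat_lit 394) (nat_lit 353)) (XT.nd (nat_lit 78) (nat_lit 76) (nat_lit 0) (XT.lf (nat_lit 0) (nat_lit 24264175155) (nat_lit 152) (nat_lit 7434401665) (nat_lit 0) (nat_lit 18201546207) (nat_lit 17) (nat_lit 5) (nat_lit 19) (nat_lit 4) (nat_lit 17) (nat_lit 4) (nat_lit 454) (nat_lit 394) (nat_lit 352)) (XT.lf (nat_lit 0) (nat_lit 18084916046) (nat_lit 76) (nat_lit 20431422194) (nat_lit 76) (nat_lit 14350342417) (nat_lit 16) (nat_lit 4) (nat_lit 17) (nat_lit 5) (nat_lit 17) (nat_lit 4) (nat_lit 455) (nat_lit 394) (nat_lit 351)))) (XT.nd (nat_lit 78) (nat_lit 152) (nat_lit 0) (XT.lf (nat_lit 0) (nat_lit 45929730940) (nat_lit 76) (nat_lit 8114092416) (nat_lit 76) (nat_lit 2015928537) (nat_lit 16) (nat_lit 4) (nat_lit 17) (nat_lit 5) (nat_lit 17) (nat_lit 4) (nat_lit 456) (nat_lit 394) (nat_lit 350)) (XT.nd (nat_lit 78) (nat_lit 0) (nat_lit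 0) (XT.lf (nat_lit 0) (nat_lit 11223143871) (nat_lit 152) (nat_lit 42662650332) (nat_lit 0) (nat_lit 5562048972) (nat_lit 14) (nat_lit 5) (nat_lit 16) (nat_lit 4) (nat_lit 14) (nat_lit 4) (nat_lit 457) (nat_lit 394) (nat_lit 349)) (XT.lf (nat_lit 0) (nat_lit 25842760096) (nat_lit 152) (nat_lit 17057503717) (nat_lit 0) (nat_lit 20168103286) (nat_lit 14) (nat_lit 5) (nat_lit 16) (nat_lit 4) (nat_lit 14) (nat_lit 4) (nat_lit 458) (nat_lit 394) (nat_lit 348)))))) (XT.nd (nat_lit 468) (nat_lit 228) (nat_lit 0) (XT.nd (nat_lit 234) (nat_lit 76) (nat_lit 0) (XT.nd (nat_lit 78) (nat_lit 152) (nat_lit 0) (XT.lf (nat_lit 0) (nat_lit 11025273003) (nat_lit 76) (nat_lit 30812023342) (nat_lit 76) (nat_lit 25124809208) (nat_lit 13) (nat_lit 4) (nat_lit 14) (nat_lit 5) (nat_lit 14) (nat_lit 4) (nat_lit 459) (nat_lit 394) (nat_lit 347)) (XT.nd (nat_lit 78) (nat_lit 152) (nat_lit 0) (XT.lf (nat_lit 0) (nat_lit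 42205533249) (nat_lit 76) (nat_lit 17314000347) (nat_lit 76) (nat_lit 11615159061) (nat_lit 13) (nat_lit 4) (nat_lit 14) (nat_lit 5) (nat_lit 14) (nat_lit 4) (nat_lit 460) (nat_lit 394) (nat_lit 346)) (XT.lf (nat_lit 0) (nat_lit 57132979) (nat_lit 76) (nat_lit 2715338245) (nat_lit 152) (nat_lit 72867208202) (nat_lit 11) (nat_lit 5) (nat_lit 12) (nat_lit 5) (nat_lit 13) (nat_lit 4) (nat_lit 461) (nat_lit 394) (nat_lit 345)))) (XT.nd (nat_lit 78) (nat_lit 76) (nat_lit 0) (XT.lf (nat_lit 0) (nat_lit 18753744772) (nat_lit 152) (nat_lit 48183731752) (nat_lit 0) (nat_lit 13457841460) (nat_lit 11) (nat_lit 5) (nat_lit 13) (nat_lit 4) (nat_lit 11) (nat_lit 4) (nat_lit 462) (nat_lit 394) (nat_lit 344)) (XT.nd (nat_lit 78) (nat_lit 76) (nat_lit 0) (XT.lf (nat_lit 0) (nat_lit 36032892697) (nat_lit 152) (nat_lit 18768522507) (nat_lit 0) (nat_lit 30728443081) (nat_lit 11) (nat_lit 5) (nat_lit 13) (nat_lit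 4) (nat_lit 11) (nat_lit 4) (nat_lit 463) (nat_lit 394) (nat_lit 343)) (XT.lf (nat_lit 0) (nat_lit 13582130776) (nat_lit 76) (nat_lit 41391525795) (nat_lit 76) (nat_lit 36079162935) (nat_lit 10) (nat_lit 4) (nat_lit 11) (nat_lit 5) (nat_lit 11) (nat_lit 4) (nat_lit 464) (nat_lit 394) (nat_lit 342))))) (XT.nd (nat_lit 234) (nat_lit 76) (nat_lit 0) (XT.nd (nat_lit 78) (nat_lit 152) (nat_lit 0) (XT.lf (nat_lit 0) (nat_lit 49493473847) (nat_lit 76) (nat_lit 26403235925) (nat_lit 76) (nat_lit 21083545987) (nat_lit 10) (nat_lit 4) (nat_lit 11) (nat_lit 5) (nat_lit 11) (nat_lit 4) (nat_lit 465) (nat_lit 394) (nat_lit 341)) (XT.nd (nat_lit 78) (nat_lit 152) (nat_lit 0) (XT.lf (nat_lit 0) (nat_lit 88189997531) (nat_lit 76) (nat_lit 10260890765) (nat_lit 76) (nat_lit 4934416496) (nat_lit 10) (nat_lit 4) (nat_lit 11) (nat_lit 5) (nat_lit 11) (nat_lit 4) (nat_lit 466) (nat_lit 394) (nat_lit 340)) (XT.lf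 (nat_lit 0) (nat_lit 12520896316) (nat_lit 152) (nat_lit 90123448839) (nat_lit 0) (nat_lit 7583159224) (nat_lit 8) (nat_lit 5) (nat_lit 10) (nat_lit 4) (nat_lit 8) (nat_lit 4) (nat_lit 467) (nat_lit 394) (nat_lit 339)))) (XT.nd (nat_lit 156) (nat_lit 76) (nat_lit 0) (XT.nd (nat_lit 78) (nat_lit 0) (nat_lit 0) (XT.lf (nat_lit 0) (nat_lit 31758288245) (nat_lit 152) (nat_lit 58981193851) (nat_lit 0) (nat_lit 26815165533) (nat_lit 8) (nat_lit 5) (nat_lit 10) (nat_lit 4) (nat_lit 8) (nat_lit 4) (nat_lit 468) (nat_lit 394) (nat_lit 338)) (XT.lf (nat_lit 0) (nat_lit 52497140174) (nat_lit 152) (nat_lit 25424794165) (nat_lit 0) (nat_lit 47549030775) (nat_lit 8) (nat_lit 5) (nat_lit 10) (nat_lit 4) (nat_lit 8) (nat_lit 4) (nat_lit 469) (nat_lit 394) (nat_lit 337))) (XT.nd (nat_lit 78) (nat_lit 0) (nat_lit 0) (XT.lf (nat_lit 0) (nat_lit 11310394707) (nat_lit 76) (nat_lit 63821969559) (nat_lit 76)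 (nat_lit 58869242858) (nat_lit 7) (nat_lit 4) (nat_lit 8) (nat_lit 5) (nat_lit 8) (nat_lit 4) (nat_lit 470) (nat_lit 394) (nat_lit 336)) (XT.lf (nat_lit 0) (nat_lit 52360625220) (nat_lit 76) (nat_lit 47879086524) (nat_lit 76) (nat_lit 42922084544) (nat_lit 7) (nat_lit 4) (nat_lit 8) (nat_lit 5) (nat_lit 8) (nat_lit 4) (nat_lit 471) (nat_lit 394) (nat_lit 335))))))))
noncomputable def xc78 : XT := (XT.nd (nat_lit 1950) (nat_lit 0) (nat_lit 0) (XT.nd (nat_lit 936) (nat_lit 228) (nat_lit 0) (XT.nd (nat_lit 468) (nat_lit 76) (nat_lit 0) (XT.nd (nat_lit 234) (nat_lit 0) (nat_lit 0) (XT.nd (nat_lit 78) (nat_lit 152) (nat_lit 0) (XT.lf (nat_lit 0) (nat_lit 96630333392) (nat_lit 76) (nat_lit 30693967821) (nat_lit 76) (nat_lit 25733007248) (nat_lit 7) (nat_lit 4) (nat_lit 8) (nat_lit 5) (nat_lit 8) (nat_lit 4) (nat_lit 472) (nat_lit 394) (nat_lit 334)) (XT.nd (nat_lit 78) (nat_lit 152) (nat_lit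 0) (XT.lf (nat_lit 0) (nat_lit 144381858235) (nat_lit 76) (nat_lit 12164775709) (nat_lit 76) (nat_lit 7200149772) (nat_lit 7) (nat_lit 4) (nat_lit 8) (nat_lit 5) (nat_lit 8) (nat_lit 4) (nat_lit 473) (nat_lit 394) (nat_lit 333)) (XT.lf (nat_lit 0) (nat_lit 12869903758) (nat_lit 152) (nat_lit 154071319838) (nat_lit 0) (nat_lit 8269885433) (nat_lit 5) (nat_lit 5) (nat_lit 7) (nat_lit 4) (nat_lit 5) (nat_lit 4) (nat_lit 474) (nat_lit 394) (nat_lit 332)))) (XT.nd (nat_lit 78) (nat_lit 0) (nat_lit 0) (XT.lf (nat_lit 0) (nat_lit 34988212535) (nat_lit 152) (nat_lit 122137590429) (nat_lit 0) (nat_lit 30385284526) (nat_lit 5) (nat_lit 5) (nat_lit 7) (nat_lit 4) (nat_lit 5) (nat_lit 4) (nat_lit 475) (nat_lit 394) (nat_lit 331)) (XT.nd (nat_lit 78) (nat_lit 0) (nat_lit 0) (XT.lf (nat_lit 0) (nat_lit 58850480441) (nat_lit 152) (nat_lit 87701766093) (nat_lit 0) (nat_lit 54244858281) (nat_lit 5) (nat_lit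 5) (nat_lit 7) (nat_lit 4) (nat_lit 5) (nat_lit 4) (nat_lit 476) (nat_lit 394) (nat_lit 330)) (XT.lf (nat_lit 0) (nat_lit 84598113510) (nat_lit 152) (nat_lit 50559782688) (nat_lit 0) (nat_lit 79989996765) (nat_lit 5) (nat_lit 5) (nat_lit 7) (nat_lit 4) (nat_lit 5) (nat_lit 4) (nat_lit 477) (nat_lit 394) (nat_lit 329))))) (XT.nd (nat_lit 234) (nat_lit 0) (nat_lit 0) (XT.nd (nat_lit 78) (nat_lit 76) (nat_lit 0) (XT.lf (nat_lit 0) (nat_lit 112383690307) (nat_lit 152) (nat_lit 10491539570) (nat_lit 0) (nat_lit 107773263762) (nat_lit 5) (nat_lit 5) (nat_lit 7) (nat_lit 4) (nat_lit 5) (nat_lit 4) (nat_lit 478) (nat_lit 394) (nat_lit 328)) (XT.nd (nat_lit 78) (nat_lit 0) (nat_lit 0) (XT.lf (nat_lit 0) (nat_lit 34464456391) (nat_lit 76) (nat_lit 108736280717) (nat_lit 76) (nat_lit 104123715467) (nat_lit 4) (nat_lit 4) (nat_lit 5) (nat_lit 5) (nat_lit 5) (nat_lit 4) (nat_lit 479) (nat_lit 394) (nat_lit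 327)) (XT.lf (nat_lit 0) (nat_lit 83572894057) (nat_lit 76) (nat_lit 93177384660) (nat_lit 76) (nat_lit 88562839129) (nat_lit 4) (nat_lit 4) (nat_lit 5) (nat_lit 5) (nat_lit 5) (nat_lit 4) (nat_lit 480) (nat_lit 394) (nat_lit 326)))) (XT.nd (nat_lit 78) (nat_lit 0) (nat_lit 0) (XT.lf (nat_lit 0) (nat_lit 136572320511) (nat_lit 76) (nat_lit 76393198127) (nat_lit 76) (nat_lit 71776819002) (nat_lit 4) (nat_lit 4) (nat_lit 5) (nat_lit 5) (nat_lit 5) (nat_lit 4) (nat_lit 481) (nat_lit 394) (nat_lit 325)) (XT.nd (nat_lit 78) (nat_lit 0) (nat_lit 0) (XT.lf (nat_lit 0) (nat_lit 193776806427) (nat_lit 76) (nat_lit 58284259271) (nat_lit 76) (nat_lit 53666182373) (nat_lit 4) (nat_lit 4) (nat_lit 5) (nat_lit 5) (nat_lit 5) (nat_lit 4) (nat_lit 482) (nat_lit 394) (nat_lit 324)) (XT.lf (nat_lit 0) (nat_lit 255525341352) (nat_lit 76) (nat_lit 38743255863) (nat_lit 76) (nat_lit 34123606953) (nat_lit 4)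 (nat_lit 4) (nat_lit 5) (nat_lit 5) (nat_lit 5) (nat_lit 4) (nat_lit 483) (nat_lit 394) (nat_lit 323)))))) (XT.nd (nat_lit 468) (nat_lit 76) (nat_lit 0) (XT.nd (nat_lit 234) (nat_lit 0) (nat_lit 0) (XT.nd (nat_lit 78) (nat_lit 152) (nat_lit 0) (XT.lf (nat_lit 0) (nat_lit 322183842529) (nat_lit 76) (nat_lit 17654389362) (nat_lit 76) (nat_lit 13033284886) (nat_lit 4) (nat_lit 4) (nat_lit 5) (nat_lit 5) (nat_lit 5) (nat_lit 4) (nat_lit 484) (nat_lit 394) (nat_lit 322)) (XT.nd (nat_lit 78) (nat_lit 0) (nat_lit 0) (XT.lf (nat_lit 0) (nat_lit 9751250861) (nat_lit 152) (nat_lit 364028418281) (nat_lit 0) (nat_lit 5471202507) (nat_lit 2) (nat_lit 5) (nat_lit 4) (nat_lit 4) (nat_lit 2) (nat_lit 4) (nat_lit 485) (nat_lit 394) (nat_lit 321)) (XT.lf (nat_lit 0) (nat_lit 34960054446) (nat_lit 152) (nat_lit 341970136488) (nat_lit 0) (nat_lit 30678850617) (nat_lit 2) (nat_lit 5) (nat_lit 4) (nat_lit 4)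 (nat_lit 2) (nat_lit 4) (nat_lit 486) (nat_lit 394) (nat_lit 320)))) (XT.nd (nat_lit 78) (nat_lit 0) (nat_lit 0) (XT.lf (nat_lit 0) (nat_lit 62172818128) (nat_lit 152) (nat_lit 318173522095) (nat_lit 0) (nat_lit 57890544415) (nat_lit 2) (nat_lit 5) (nat_lit 4) (nat_lit 4) (nat_lit 2) (nat_lit 4) (nat_lit 487) (nat_lit 394) (nat_lit 319)) (XT.nd (nat_lit 78) (nat_lit 0) (nat_lit 0) (XT.lf (nat_lit 0) (nat_lit 91550802730) (nat_lit 152) (nat_lit 292497558127) (nat_lit 0) (nat_lit 87267538382) (nat_lit 2) (nat_lit 5) (nat_lit 4) (nat_lit 4) (nat_lit 2) (nat_lit 4) (nat_lit 488) (nat_lit 394) (nat_lit 318)) (XT.lf (nat_lit 0) (nat_lit 123268100011) (nat_lit 152) (nat_lit 264790090723) (nat_lit 0) (nat_lit 118983918410) (nat_lit 2) (nat_lit 5) (nat_lit 4) (nat_lit 4) (nat_lit 2) (nat_lit 4) (nat_lit 489) (nat_lit 394) (nat_lit 317))))) (XT.nd (nat_lit 234) (nat_lit 76) (nat_lit 0) (XT.nd (nat_lit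 78) (nat_lit 0) (nat_lit 0) (XT.lf (nat_lit 0) (nat_lit 157512664326) (nat_lit 152) (nat_lit 234886927485) (nat_lit 0) (nat_lit 153227633416) (nat_lit 2) (nat_lit 5) (nat_lit 4) (nat_lit 4) (nat_lit 2) (nat_lit 4) (nat_lit 490) (nat_lit 394) (nat_lit 316)) (XT.nd (nat_lit 78) (nat_lit 0) (nat_lit 0) (XT.lf (nat_lit 0) (nat_lit 194487426427) (nat_lit 152) (nat_lit 202610864481) (nat_lit 0) (nat_lit 190201609120) (nat_lit 2) (nat_lit 5) (nat_lit 4) (nat_lit 4) (nat_lit 2) (nat_lit 4) (nat_lit 491) (nat_lit 394) (nat_lit 315)) (XT.lf (nat_lit 0) (nat_lit 234411496015) (nat_lit 152) (nat_lit 167770636153) (nat_lit 0) (nat_lit 230124950562) (nat_lit 2) (nat_lit 5) (nat_lit 4) (nat_lit 4) (nat_lit 2) (nat_lit 4) (nat_lit 492) (nat_lit 394) (nat_lit 314)))) (XT.nd (nat_lit 156) (nat_lit 76) (nat_lit 0) (XT.nd (nat_lit 78) (nat_lit 0) (nat_lit 0) (XT.lf (nat_lit 0) (nat_lit 277521460168) (nat_lit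 152) (nat_lit 130159781889) (nat_lit 0) (nat_lit 273234240507) (nat_lit 2) (nat_lit 5) (nat_lit 4) (nat_lit 4) (nat_lit 2) (nat_lit 4) (nat_lit 493) (nat_lit 394) (nat_lit 313)) (XT.lf (nat_lit 0) (nat_lit 324072785342) (nat_lit 152) (nat_lit 89555422552) (nat_lit 0) (nat_lit 319784941413) (nat_lit 2) (nat_lit 5) (nat_lit 4) (nat_lit 4) (nat_lit 2) (nat_lit 4) (nat_lit 494) (nat_lit 394) (nat_lit 312))) (XT.nd (nat_lit 78) (nat_lit 76) (nat_lit 0) (XT.lf (nat_lit 0) (nat_lit 374341331241) (nat_lit 152) (nat_lit 45716939717) (nat_lit 0) (nat_lit 370052909286) (nat_lit 2) (nat_lit 5) (nat_lit 4) (nat_lit 4) (nat_lit 2) (nat_lit 4) (nat_lit 495) (nat_lit 394) (nat_lit 311)) (XT.lf (nat_lit 0) (nat_lit 1700516963) (nat_lit 76) (nat_lit 426965366055) (nat_lit 76) (nat_lit 422676408892) (nat_lit 1) (nat_lit 4) (nat_lit 2) (nat_lit 5) (nat_lit 2) (nat_lit 4) (nat_lit 496) (nat_lit 394) (nat_lit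 310))))))) (XT.nd (nat_lit 936) (nat_lit 0) (nat_lit 0) (XT.nd (nat_lit 468) (nat_lit 0) (nat_lit 0) (XT.nd (nat_lit 234) (nat_lit 0) (nat_lit 0) (XT.nd (nat_lit 78) (nat_lit 0) (nat_lit 0) (XT.lf (nat_lit 0) (nat_lit 55498494978) (nat_lit 76) (nat_lit 433081674326) (nat_lit 76) (nat_lit 428792221599) (nat_lit 1) (nat_lit 4) (nat_lit 2) (nat_lit 5) (nat_lit 2) (nat_lit 4) (nat_lit 497) (nat_lit 394) (nat_lit 309)) (XT.nd (nat_lit 78) (nat_lit 0) (nat_lit 0) (XT.lf (nat_lit 0) (nat_lit 113588424133) (nat_lit 76) (nat_lit 439693422711) (nat_lit 76) (nat_lit 435403511130) (nat_lit 1) (nat_lit 4) (nat_lit 2) (nat_lit 5) (nat_lit 2) (nat_lit 4) (nat_lit 498) (nat_lit 394) (nat_lit 308)) (XT.lf (nat_lit 0) (nat_lit 176314541044) (nat_lit 76) (nat_lit 446839791942) (nat_lit 76) (nat_lit 442549455495) (nat_lit 1) (nat_lit 4) (nat_lit 2) (nat_lit 5) (nat_lit 2) (nat_lit 4) (nat_lit 499) (nat_lit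 394) (nat_lit 307)))) (XT.nd (nat_lit 78) (nat_lit 0) (nat_lit 0) (XT.lf (nat_lit 0) (nat_lit 244048556034) (nat_lit 76) (nat_lit 454563130873) (nat_lit 76) (nat_lit 450272401031) (nat_lit 1) (nat_lit 4) (nat_lit 2) (nat_lit 5) (nat_lit 2) (nat_lit 4) (nat_lit 500) (nat_lit 394) (nat_lit 306)) (XT.nd (nat_lit 78) (nat_lit 0) (nat_lit 0) (XT.lf (nat_lit 0) (nat_lit 317191855858) (nat_lit 76) (nat_lit 462909207439) (nat_lit 76) (nat_lit 458618113343) (nat_lit 1) (nat_lit 4) (nat_lit 2) (nat_lit 5) (nat_lit 2) (nat_lit 4) (nat_lit 501) (nat_lit 394) (nat_lit 305)) (XT.lf (nat_lit 0) (nat_lit 396177882293) (nat_lit 76) (nat_lit 471927479870) (nat_lit 76) (nat_lit 467636048502) (nat_lit 1) (nat_lit 4) (nat_lit 2) (nat_lit 5) (nat_lit 2) (nat_lit 4) (nat_lit 502) (nat_lit 394) (nat_lit 304))))) (XT.nd (nat_lit 234) (nat_lit 0) (nat_lit 0) (XT.nd (nat_lit 78) (nat_lit 0) (nat_lit 0) (XT.lf (nat_lit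 0) (nat_lit 481474700682) (nat_lit 76) (nat_lit 481671389782) (nat_lit 76) (nat_lit 477379646125) (nat_lit 1) (nat_lit 4) (nat_lit 2) (nat_lit 5) (nat_lit 2) (nat_lit 4) (nat_lit 503) (nat_lit 394) (nat_lit 303)) (XT.nd (nat_lit 78) (nat_lit 0) (nat_lit 0) (XT.lf (nat_lit 0) (nat_lit 573587773651) (nat_lit 76) (nat_lit 492198678863) (nat_lit 76) (nat_lit 487906646049) (nat_lit 1) (nat_lit 4) (nat_lit 2) (nat_lit 5) (nat_lit 2) (nat_lit 4) (nat_lit 504) (nat_lit 394) (nat_lit 302)) (XT.lf (nat_lit 0) (nat_lit 673062956447) (nat_lit 76) (nat_lit 503571731048) (nat_lit 76) (nat_lit 499279430496) (nat_lit 1) (nat_lit 4) (nat_lit 2) (nat_lit 5) (nat_lit 2) (nat_lit 4) (nat_lit 505) (nat_lit 394) (nat_lit 301)))) (XT.nd (nat_lit 78) (nat_lit 0) (nat_lit 0) (XT.lf (nat_lit 0) (nat_lit 780489731636) (nat_lit 76) (nat_lit 515857942202) (nat_lit 76) (nat_lit 511565393745) (nat_lit 1) (nat_lit 4)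 (nat_lit 2) (nat_lit 5) (nat_lit 2) (nat_lit 4) (nat_lit 506) (nat_lit 394) (nat_lit 300)) (XT.nd (nat_lit 78) (nat_lit 0) (nat_lit 0) (XT.lf (nat_lit 0) (nat_lit 896504702329) (nat_lit 76) (nat_lit 529130119502) (nat_lit 76) (nat_lit 524837341503) (nat_lit 1) (nat_lit 4) (nat_lit 2) (nat_lit 5) (nat_lit 2) (nat_lit 4) (nat_lit 507) (nat_lit 394) (nat_lit 299)) (XT.lf (nat_lit 0) (nat_lit 1021795364650) (nat_lit 76) (nat_lit 543466912887) (nat_lit 76) (nat_lit 539173922350) (nat_lit 1) (nat_lit 4) (nat_lit 2) (nat_lit 5) (nat_lit 2) (nat_lit 4) (nat_lit 508) (nat_lit 394) (nat_lit 298)))))) (XT.nd (nat_lit 468) (nat_lit 0) (nat_lit 0) (XT.nd (nat_lit 234) (nat_lit 0) (nat_lit 0) (XT.nd (nat_lit 78) (nat_lit 0) (nat_lit 0) (XT.lf (nat_lit 0) (nat_lit 1157104181782) (nat_lit 76) (nat_lit 558953281134) (nat_lit 76) (nat_lit 554660093801) (nat_lit 1) (nat_lit 4) (nat_lit 2) (nat_lit 5) (nat_lit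 2) (nat_lit 4) (nat_lit 509) (nat_lit 394) (nat_lit 297)) (XT.nd (nat_lit 78) (nat_lit 0) (nat_lit 0) (XT.lf (nat_lit 0) (nat_lit 1303232983753) (nat_lit 76) (nat_lit 575680995313) (nat_lit 76) (nat_lit 571387625763) (nat_lit 1) (nat_lit 4) (nat_lit 2) (nat_lit 5) (nat_lit 2) (nat_lit 4) (nat_lit 510) (nat_lit 394) (nat_lit 296)) (XT.lf (nat_lit 0) (nat_lit 1461047719018) (nat_lit 76) (nat_lit 593749182619) (nat_lit 76) (nat_lit 589455644349) (nat_lit 1) (nat_lit 4) (nat_lit 2) (nat_lit 5) (nat_lit 2) (nat_lit 4) (nat_lit 511) (nat_lit 394) (nat_lit 295)))) (XT.nd (nat_lit 78) (nat_lit 0) (nat_lit 0) (XT.lf (nat_lit 0) (nat_lit 1631483586010) (nat_lit 76) (nat_lit 613264913793) (nat_lit 76) (nat_lit 608971219301) (nat_lit 1) (nat_lit 4) (nat_lit 2) (nat_lit 5) (nat_lit 2) (nat_lit 4) (nat_lit 512) (nat_lit 394) (nat_lit 294)) (XT.nd (nat_lit 78) (nat_lit 0) (nat_lit 0) (XT.lf (nat_lit 0)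 (nat_lit 1815550575051) (nat_lit 76) (nat_lit 634343837611) (nat_lit 76) (nat_lit 630049998468) (nat_lit 1) (nat_lit 4) (nat_lit 2) (nat_lit 5) (nat_lit 2) (nat_lit 4) (nat_lit 513) (nat_lit 394) (nat_lit 293)) (XT.lf (nat_lit 0) (nat_lit 2014339453483) (nat_lit 76) (nat_lit 657110866215) (nat_lit 76) (nat_lit 652816893137) (nat_lit 1) (nat_lit 4) (nat_lit 2) (nat_lit 5) (nat_lit 2) (nat_lit 4) (nat_lit 514) (nat_lit 394) (nat_lit 292))))) (XT.nd (nat_lit 234) (nat_lit 0) (nat_lit 0) (XT.nd (nat_lit 78) (nat_lit 0) (nat_lit 0) (XT.lf (nat_lit 0) (nat_lit 2229028229476) (nat_lit 76) (nat_lit 681700915329) (nat_lit 76) (nat_lit 677406818237) (nat_lit 1) (nat_lit 4) (nat_lit 2) (nat_lit 5) (nat_lit 2) (nat_lit 4) (nat_lit 515) (nat_lit 394) (nat_lit 291)) (XT.nd (nat_lit 78) (nat_lit 0) (nat_lit 0) (XT.lf (nat_lit 0) (nat_lit 2460889132812) (nat_lit 76) (nat_lit 708259703764) (nat_lit 76)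 (nat_lit 703965491843) (nat_lit 1) (nat_lit 4) (nat_lit 2) (nat_lit 5) (nat_lit 2) (nat_lit 4) (nat_lit 516) (nat_lit 394) (nat_lit 290)) (XT.lf (nat_lit 0) (nat_lit 2711296154030) (nat_lit 76) (nat_lit 736944616931) (nat_lit 76) (nat_lit 732650298688) (nat_lit 1) (nat_lit 4) (nat_lit 2) (nat_lit 5) (nat_lit 2) (nat_lit 4) (nat_lit 517) (nat_lit 394) (nat_lit 289)))) (XT.nd (nat_lit 156) (nat_lit 0) (nat_lit 0) (XT.nd (nat_lit 78) (nat_lit 0) (nat_lit 0) (XT.lf (nat_lit 0) (nat_lit 2981733186588) (nat_lit 76) (nat_lit 767925639502) (nat_lit 76) (nat_lit 763631222813) (nat_lit 1) (nat_lit 4) (nat_lit 2) (nat_lit 5) (nat_lit 2) (nat_lit 4) (nat_lit 518) (nat_lit 394) (nat_lit 288)) (XT.lf (nat_lit 0) (nat_lit 3273802820311) (nat_lit 76) (nat_lit 801386362722) (nat_lit 76) (nat_lit 797091854879) (nat_lit 1) (nat_lit 4) (nat_lit 2) (nat_lit 5) (nat_lit 2) (nat_lit 4) (nat_lit 519) (nat_lit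 394) (nat_lit 287))) (XT.nd (nat_lit 78) (nat_lit 0) (nat_lit 0) (XT.lf (nat_lit 0) (nat_lit 3589235838212) (nat_lit 76) (nat_lit 837525072358) (nat_lit 76) (nat_lit 833230480112) (nat_lit 1) (nat_lit 4) (nat_lit 2) (nat_lit 5) (nat_lit 2) (nat_lit 4) (nat_lit 520) (nat_lit 394) (nat_lit 286)) (XT.lf (nat_lit 0) (nat_lit 3929901472989) (nat_lit 76) (nat_lit 876555923726) (nat_lit 76) (nat_lit 872261253330) (nat_lit 1) (nat_lit 4) (nat_lit 2) (nat_lit 5) (nat_lit 2) (nat_lit 4) (nat_lit 521) (nat_lit 394) (nat_lit 285))))))))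
noncomputable def xc79 : XT := (XT.nd (nat_lit 54600) (nat_lit 0) (nat_lit 1672) (XT.nd (nat_lit 936) (nat_lit 0) (nat_lit 0) (XT.nd (nat_lit 468) (nat_lit 0) (nat_lit 0) (XT.nd (nat_lit 234) (nat_lit 0) (nat_lit 0) (XT.nd (nat_lit 78) (nat_lit 0) (nat_lit 0) (XT.lf (nat_lit 0) (nat_lit 4297818483961) (nat_lit 76) (nat_lit 918710210760) (nat_lit 76) (nat_lit 914415468003) (nat_lit 1) (nat_lit 4) (nat_lit 2) (nat_lit 5) (nat_lit 2) (nat_lit 4) (nat_lit 522) (nat_lit 394) (nat_lit 284)) (XT.nd (nat_lit 78) (nat_lit 0) (nat_lit 0) (XT.lf (nat_lit 0) (nat_lit 4695167120081) (nat_lit 76) (nat_lit 964237736643) (nat_lit 76) (nat_lit 959942926885) (nat_lit 1) (nat_lit 4) (nat_lit 2) (nat_lit 5) (nat_lit 2) (nat_lit 4) (nat_lit 523) (nat_lit 394) (nat_lit 283)) (XT.lf (nat_lit 0) (nat_lit 5124302039933) (nat_lit 76) (nat_lit 1013408294120) (nat_lit 76) (nat_lit 1009113422324) (nat_lit 1) (nat_lit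 4) (nat_lit 2) (nat_lit 5) (nat_lit 2) (nat_lit 4) (nat_lit 524) (nat_lit 394) (nat_lit 282)))) (XT.nd (nat_lit 78) (nat_lit 0) (nat_lit 0) (XT.lf (nat_lit 0) (nat_lit 5587766265265) (nat_lit 76) (nat_lit 1066513264274) (nat_lit 76) (nat_lit 1062218335035) (nat_lit 1) (nat_lit 4) (nat_lit 2) (nat_lit 5) (nat_lit 2) (nat_lit 4) (nat_lit 525) (nat_lit 394) (nat_lit 281)) (XT.nd (nat_lit 78) (nat_lit 0) (nat_lit 0) (XT.lf (nat_lit 0) (nat_lit 6088306250745) (nat_lit 76) (nat_lit 1123867343223) (nat_lit 76) (nat_lit 1119572360796) (nat_lit 1) (nat_lit 4) (nat_lit 2) (nat_lit 5) (nat_lit 2) (nat_lit 4) (nat_lit 526) (nat_lit 394) (nat_lit 280)) (XT.lf (nat_lit 0) (nat_lit 6628888159250) (nat_lit 76) (nat_lit 1185810406990) (nat_lit 76) (nat_lit 1181515375316) (nat_lit 1) (nat_lit 4) (nat_lit 2) (nat_lit 5) (nat_lit 2) (nat_lit 4) (nat_lit 527) (nat_lit 394) (nat_lit 279))))) (XT.nd (nat_lit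 234) (nat_lit 0) (nat_lit 0) (XT.nd (nat_lit 78) (nat_lit 0) (nat_lit 0) (XT.lf (nat_lit 0) (nat_lit 7212715439127) (nat_lit 76) (nat_lit 1252709525584) (nat_lit 76) (nat_lit 1248414448311) (nat_lit 1) (nat_lit 4) (nat_lit 2) (nat_lit 5) (nat_lit 2) (nat_lit 4) (nat_lit 528) (nat_lit 394) (nat_lit 278)) (XT.nd (nat_lit 78) (nat_lit 0) (nat_lit 0) (XT.lf (nat_lit 0) (nat_lit 7843247807591) (nat_lit 76) (nat_lit 1324961138226) (nat_lit 76) (nat_lit 1320666018730) (nat_lit 1) (nat_lit 4) (nat_lit 2) (nat_lit 5) (nat_lit 2) (nat_lit 4) (nat_lit 529) (nat_lit 394) (nat_lit 277)) (XT.lf (nat_lit 0) (nat_lit 8524221752750) (nat_lit 76) (nat_lit 1402993402620) (nat_lit 76) (nat_lit 1398698244029) (nat_lit 1) (nat_lit 4) (nat_lit 2) (nat_lit 5) (nat_lit 2) (nat_lit 4) (nat_lit 530) (nat_lit 394) (nat_lit 276)))) (XT.nd (nat_lit 78) (nat_lit 0) (nat_lit 0) (XT.lf (nat_lit 0) (nat_lit 9259672675760)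 (nat_lit 76) (nat_lit 1487268732184) (nat_lit 76) (nat_lit 1482973537395) (nat_lit 1) (nat_lit 4) (nat_lit 2) (nat_lit 5) (nat_lit 2) (nat_lit 4) (nat_lit 531) (nat_lit 394) (nat_lit 275)) (XT.nd (nat_lit 78) (nat_lit 0) (nat_lit 0) (XT.lf (nat_lit 0) (nat_lit 10053958804315) (nat_lit 76) (nat_lit 1578286536280) (nat_lit 76) (nat_lit 1573991307974) (nat_lit 1) (nat_lit 4) (nat_lit 2) (nat_lit 5) (nat_lit 2) (nat_lit 4) (nat_lit 532) (nat_lit 394) (nat_lit 274)) (XT.lf (nat_lit 0) (nat_lit 10911787019175) (nat_lit 76) (nat_lit 1676586179672) (nat_lit 76) (nat_lit 1672290920331) (nat_lit 1) (nat_lit 4) (nat_lit 2) (nat_lit 5) (nat_lit 2) (nat_lit 4) (nat_lit 533) (nat_lit 394) (nat_lit 273)))))) (XT.nd (nat_lit 53118) (nat_lit 0) (nat_lit 3952) (XT.nd (nat_lit 52884) (nat_lit 0) (nat_lit 5244) (XT.nd (nat_lit 78) (nat_lit 0) (nat_lit 0) (XT.lf (nat_lit 0) (nat_lit 11838240746799) (nat_lit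 76) (nat_lit 1782750178765) (nat_lit 76) (nat_lit 1778454890689) (nat_lit 1) (nat_lit 4) (nat_lit 2) (nat_lit 5) (nat_lit 2) (nat_lit 4) (nat_lit 534) (nat_lit 394) (nat_lit 272)) (XT.nd (nat_lit 52728) (nat_lit 0) (nat_lit 6004) (XT.lf (nat_lit 0) (nat_lit 12838810083351) (nat_lit 76) (nat_lit 1897407653555) (nat_lit 76) (nat_lit 1893112338871) (nat_lit 1) (nat_lit 4) (nat_lit 2) (nat_lit 5) (nat_lit 2) (nat_lit 4) (nat_lit 535) (nat_lit 394) (nat_lit 271)) (XT.lf (nat_lit 0) (nat_lit 581436777) (nat_lit 532) (nat_lit 2417302356) (nat_lit 0) (nat_lit 581436777) (nat_lit 80) (nat_lit 5) (nat_lit 87) (nat_lit 4) (nat_lit 80) (nat_lit 4) (nat_lit 410) (nat_lit 395) (nat_lit 395)))) (XT.nd (nat_lit 78) (nat_lit 304) (nat_lit 0) (XT.lf (nat_lit 0) (nat_lit 559293773) (nat_lit 456) (nat_lit 4178529259) (nat_lit 456) (nat_lit 2576783032) (nat_lit 74) (nat_lit 4) (nat_lit 80) (nat_lit 5) (nat_lit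 80) (nat_lit 4) (nat_lit 411) (nat_lit 395) (nat_lit 394)) (XT.nd (nat_lit 78) (nat_lit 228) (nat_lit 0) (XT.lf (nat_lit 0) (nat_lit 929879026) (nat_lit 532) (nat_lit 1150696210) (nat_lit 76) (nat_lit 5409091453) (nat_lit 73) (nat_lit 5) (nat_lit 80) (nat_lit 5) (nat_lit 74) (nat_lit 4) (nat_lit 412) (nat_lit 395) (nat_lit 393)) (XT.lf (nat_lit 0) (nat_lit 4453674690) (nat_lit 304) (nat_lit 2903886811) (nat_lit 0) (nat_lit 325819314) (nat_lit 70) (nat_lit 5) (nat_lit 74) (nat_lit 4) (nat_lit 70) (nat_lit 4) (nat_lit 413) (nat_lit 395) (nat_lit 392))))) (XT.nd (nat_lit 234) (nat_lit 836) (nat_lit 0) (XT.nd (nat_lit 78) (nat_lit 152) (nat_lit 0) (XT.lf (nat_lit 0) (nat_lit 271884447) (nat_lit 304) (nat_lit 4739667019) (nat_lit 76) (nat_lit 2886517280) (nat_lit 66) (nat_lit 5) (nat_lit 70) (nat_lit 5) (nat_lit 67) (nat_lit 4) (nat_lit 414) (nat_lit 395) (nat_lit 391)) (XT.nd (nat_lit 78) (nat_lit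 0) (nat_lit 0) (XT.lf (nat_lit 0) (nat_lit 1430965196) (nat_lit 152) (nat_lit 2331666261) (nat_lit 228) (nat_lit 4369961869) (nat_lit 64) (nat_lit 5) (nat_lit 66) (nat_lit 5) (nat_lit 67) (nat_lit 4) (nat_lit 415) (nat_lit 395) (nat_lit 390)) (XT.lf (nat_lit 0) (nat_lit 7455170697) (nat_lit 228) (nat_lit 337971189) (nat_lit 0) (nat_lit 598985457) (nat_lit 64) (nat_lit 5) (nat_lit 67) (nat_lit 4) (nat_lit 64) (nat_lit 4) (nat_lit 416) (nat_lit 395) (nat_lit 389)))) (XT.nd (nat_lit 156) (nat_lit 380) (nat_lit 0) (XT.nd (nat_lit 78) (nat_lit 152) (nat_lit 0) (XT.lf (nat_lit 0) (nat_lit 2642124935) (nat_lit 304) (nat_lit 2225939022) (nat_lit 76) (nat_lit 3798269275) (nat_lit 60) (nat_lit 5) (nat_lit 64) (nat_lit 5) (nat_lit 61) (nat_lit 4) (nat_lit 417) (nat_lit 395) (nat_lit 388)) (XT.lf (nat_lit 0) (nat_lit 4740186760) (nat_lit 152) (nat_lit 1636263981) (nat_lit 228) (nat_lit 2590554655)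 (nat_lit 58) (nat_lit 5) (nat_lit 60) (nat_lit 5) (nat_lit 61) (nat_lit 4) (nat_lit 418) (nat_lit 395) (nat_lit 387))) (XT.nd (nat_lit 78) (nat_lit 152) (nat_lit 0) (XT.lf (nat_lit 0) (nat_lit 1040436980) (nat_lit 228) (nat_lit 6414362567) (nat_lit 76) (nat_lit 1836530258) (nat_lit 55) (nat_lit 5) (nat_lit 58) (nat_lit 5) (nat_lit 56) (nat_lit 4) (nat_lit 419) (nat_lit 395) (nat_lit 386)) (XT.lf (nat_lit 0) (nat_lit 783627873) (nat_lit 152) (nat_lit 4023186946) (nat_lit 228) (nat_lit 4830644797) (nat_lit 53) (nat_lit 5) (nat_lit 55) (nat_lit 5) (nat_lit 56) (nat_lit 4) (nat_lit 420) (nat_lit 395) (nat_lit 385))))))) (XT.nd (nat_lit 1014) (nat_lit 988) (nat_lit 0) (XT.nd (nat_lit 468) (nat_lit 684) (nat_lit 0) (XT.nd (nat_lit 234) (nat_lit 304) (nat_lit 0) (XT.nd (nat_lit 78) (nat_lit 304) (nat_lit 0) (XT.lf (nat_lit 0) (nat_lit 8629972287) (nat_lit 152) (nat_lit 232276751) (nat_lit 228)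 (nat_lit 1150040294) (nat_lit 53) (nat_lit 5) (nat_lit 55) (nat_lit 5) (nat_lit 56) (nat_lit 4) (nat_lit 421) (nat_lit 395) (nat_lit 384)) (XT.nd (nat_lit 78) (nat_lit 76) (nat_lit 0) (XT.lf (nat_lit 0) (nat_lit 2762264594) (nat_lit 228) (nat_lit 3836746960) (nat_lit 76) (nat_lit 3806397941) (nat_lit 50) (nat_lit 5) (nat_lit 53) (nat_lit 5) (nat_lit 51) (nat_lit 4) (nat_lit 422) (nat_lit 395) (nat_lit 383)) (XT.lf (nat_lit 0) (nat_lit 4301399994) (nat_lit 76) (nat_lit 2598211431) (nat_lit 152) (nat_lit 3930066174) (nat_lit 49) (nat_lit 5) (nat_lit 50) (nat_lit 5) (nat_lit 51) (nat_lit 4) (nat_lit 423) (nat_lit 395) (nat_lit 382)))) (XT.nd (nat_lit 78) (nat_lit 76) (nat_lit 0) (XT.lf (nat_lit 0) (nat_lit 98154682) (nat_lit 228) (nat_lit 9502036451) (nat_lit 76) (nat_lit 1685793812) (nat_lit 46) (nat_lit 5) (nat_lit 49) (nat_lit 5) (nat_lit 47) (nat_lit 4) (nat_lit 424) (nat_lit 395) (nat_lit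 381)) (XT.nd (nat_lit 78) (nat_lit 76) (nat_lit 0) (XT.lf (nat_lit 0) (nat_lit 4318043634) (nat_lit 228) (nat_lit 1095811354) (nat_lit 76) (nat_lit 6350255040) (nat_lit 46) (nat_lit 5) (nat_lit 49) (nat_lit 5) (nat_lit 47) (nat_lit 4) (nat_lit 425) (nat_lit 395) (nat_lit 380)) (XT.lf (nat_lit 0) (nat_lit 8121093409) (nat_lit 76) (nat_lit 793371641) (nat_lit 152) (nat_lit 3362921807) (nat_lit 45) (nat_lit 5) (nat_lit 46) (nat_lit 5) (nat_lit 47) (nat_lit 4) (nat_lit 426) (nat_lit 395) (nat_lit 379))))) (XT.nd (nat_lit 234) (nat_lit 380) (nat_lit 0) (XT.nd (nat_lit 78) (nat_lit 76) (nat_lit 0) (XT.lf (nat_lit 0) (nat_lit 1100071976) (nat_lit 228) (nat_lit 7655544724) (nat_lit 76) (nat_lit 4065664235) (nat_lit 42) (nat_lit 5) (nat_lit 45) (nat_lit 5) (nat_lit 43) (nat_lit 4) (nat_lit 427) (nat_lit 395) (nat_lit 378)) (XT.nd (nat_lit 78) (nat_lit 0) (nat_lit 0) (XT.lf (nat_lit 0) (nat_lit 1776331213)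 (nat_lit 76) (nat_lit 3989451244) (nat_lit 152) (nat_lit 7633740739) (nat_lit 41) (nat_lit 5) (nat_lit 42) (nat_lit 5) (nat_lit 43) (nat_lit 4) (nat_lit 428) (nat_lit 395) (nat_lit 377)) (XT.lf (nat_lit 0) (nat_lit 10896897753) (nat_lit 152) (nat_lit 1916472447) (nat_lit 0) (nat_lit 1203295329) (nat_lit 41) (nat_lit 5) (nat_lit 43) (nat_lit 4) (nat_lit 41) (nat_lit 4) (nat_lit 429) (nat_lit 395) (nat_lit 376)))) (XT.nd (nat_lit 156) (nat_lit 152) (nat_lit 0) (XT.nd (nat_lit 78) (nat_lit 76) (nat_lit 0) (XT.lf (nat_lit 0) (nat_lit 1844120241) (nat_lit 152) (nat_lit 6074391236) (nat_lit 76) (nat_lit 6747172821) (nat_lit 39) (nat_lit 5) (nat_lit 41) (nat_lit 5) (nat_lit 40) (nat_lit 4) (nat_lit 430) (nat_lit 395) (nat_lit 375)) (XT.lf (nat_lit 0) (nat_lit 4578248919) (nat_lit 76) (nat_lit 2483735586) (nat_lit 152) (nat_lit 8296134280) (nat_lit 38) (nat_lit 5) (nat_lit 39) (nat_lit 5) (nat_lit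 40) (nat_lit 4) (nat_lit 431) (nat_lit 395) (nat_lit 374))) (XT.nd (nat_lit 78) (nat_lit 152) (nat_lit 0) (XT.lf (nat_lit 0) (nat_lit 12812196913) (nat_lit 152) (nat_lit 6021021) (nat_lit 0) (nat_lit 3278545785) (nat_lit 38) (nat_lit 5) (nat_lit 40) (nat_lit 4) (nat_lit 38) (nat_lit 4) (nat_lit 432) (nat_lit 395) (nat_lit 373)) (XT.lf (nat_lit 0) (nat_lit 2251833294) (nat_lit 152) (nat_lit 5009015143) (nat_lit 76) (nat_lit 9611137197) (nat_lit 36) (nat_lit 5) (nat_lit 38) (nat_lit 5) (nat_lit 37) (nat_lit 4) (nat_lit 433) (nat_lit 395) (nat_lit 372)))))) (XT.nd (nat_lit 468) (nat_lit 532) (nat_lit 0) (XT.nd (nat_lit 234) (nat_lit 228) (nat_lit 0) (XT.nd (nat_lit 78) (nat_lit 152) (nat_lit 0) (XT.lf (nat_lit 0) (nat_lit 6999600483) (nat_lit 76) (nat_lit 1096464534) (nat_lit 152) (nat_lit 9602952798) (nat_lit 35) (nat_lit 5) (nat_lit 36) (nat_lit 5) (nat_lit 37) (nat_lit 4) (nat_lit 434)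 (nat_lit 395) (nat_lit 371)) (XT.nd (nat_lit 78) (nat_lit 76) (nat_lit 0) (XT.lf (nat_lit 0) (nat_lit 1364487873) (nat_lit 76) (nat_lit 13225417915) (nat_lit 76) (nat_lit 3987747911) (nat_lit 34) (nat_lit 4) (nat_lit 35) (nat_lit 5) (nat_lit 35) (nat_lit 4) (nat_lit 435) (nat_lit 395) (nat_lit 370)) (XT.lf (nat_lit 0) (nat_lit 2176906459) (nat_lit 152) (nat_lit 4826704612) (nat_lit 76) (nat_lit 12502650327) (nat_lit 33) (nat_lit 5) (nat_lit 35) (nat_lit 5) (nat_lit 34) (nat_lit 4) (nat_lit 436) (nat_lit 395) (nat_lit 369)))) (XT.nd (nat_lit 78) (nat_lit 152) (nat_lit 0) (XT.lf (nat_lit 0) (nat_lit 8658471743) (nat_lit 76) (nat_lit 53775932) (nat_lit 152) (nat_lit 11781192664) (nat_lit 32) (nat_lit 5) (nat_lit 33) (nat_lit 5) (nat_lit 34) (nat_lit 4) (nat_lit 437) (nat_lit 395) (nat_lit 368)) (XT.nd (nat_lit 78) (nat_lit 76) (nat_lit 0) (XT.lf (nat_lit 0) (nat_lit 1623914667) (nat_lit 76)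 (nat_lit 14385732037) (nat_lit 76) (nat_lit 5530813425) (nat_lit 31) (nat_lit 4) (nat_lit 32) (nat_lit 5) (nat_lit 32) (nat_lit 4) (nat_lit 438) (nat_lit 395) (nat_lit 367)) (XT.lf (nat_lit 0) (nat_lit 1377899888) (nat_lit 152) (nat_lit 6074885369) (nat_lit 76) (nat_lit 15198568977) (nat_lit 30) (nat_lit 5) (nat_lit 32) (nat_lit 5) (nat_lit 31) (nat_lit 4) (nat_lit 439) (nat_lit 395) (nat_lit 366))))) (XT.nd (nat_lit 234) (nat_lit 380) (nat_lit 0) (XT.nd (nat_lit 78) (nat_lit 76) (nat_lit 0) (XT.lf (nat_lit 0) (nat_lit 8658420857) (nat_lit 152) (nat_lit 14865712900) (nat_lit 0) (nat_lit 306064005) (nat_lit 29) (nat_lit 5) (nat_lit 31) (nat_lit 4) (nat_lit 29) (nat_lit 4) (nat_lit 440) (nat_lit 395) (nat_lit 365)) (XT.nd (nat_lit 78) (nat_lit 0) (nat_lit 0) (XT.lf (nat_lit 0) (nat_lit 60487996) (nat_lit 76) (nat_lit 16721327562) (nat_lit 76) (nat_lit 8300702308) (nat_lit 28) (nat_lit 4)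 (nat_lit 29) (nat_lit 5) (nat_lit 29) (nat_lit 4) (nat_lit 441) (nat_lit 395) (nat_lit 364)) (XT.lf (nat_lit 0) (nat_lit 16824380889) (nat_lit 76) (nat_lit 9035066773) (nat_lit 76) (nat_lit 551230036) (nat_lit 28) (nat_lit 4) (nat_lit 29) (nat_lit 5) (nat_lit 29) (nat_lit 4) (nat_lit 442) (nat_lit 395) (nat_lit 363)))) (XT.nd (nat_lit 156) (nat_lit 228) (nat_lit 0) (XT.nd (nat_lit 78) (nat_lit 0) (nat_lit 0) (XT.lf (nat_lit 0) (nat_lit 7057312431) (nat_lit 76) (nat_lit 442532913) (nat_lit 152) (nat_lit 20324386175) (nat_lit 26) (nat_lit 5) (nat_lit 27) (nat_lit 5) (nat_lit 28) (nat_lit 4) (nat_lit 443) (nat_lit 395) (nat_lit 362)) (XT.lf (nat_lit 0) (nat_lit 16550146022) (nat_lit 152) (nat_lit 4178418636) (nat_lit 0) (nat_lit 8590368665) (nat_lit 26) (nat_lit 5) (nat_lit 28) (nat_lit 4) (nat_lit 26) (nat_lit 4) (nat_lit 444) (nat_lit 395) (nat_lit 361))) (XT.nd (nat_lit 78) (nat_lit 152)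 (nat_lit 0) (XT.lf (nat_lit 0) (nat_lit 14260865099) (nat_lit 76) (nat_lit 12328690767) (nat_lit 76) (nat_lit 4322451083) (nat_lit 25) (nat_lit 4) (nat_lit 26) (nat_lit 5) (nat_lit 26) (nat_lit 4) (nat_lit 445) (nat_lit 395) (nat_lit 360)) (XT.lf (nat_lit 0) (nat_lit 1571366730) (nat_lit 76) (nat_lit 3053934754) (nat_lit 152) (nat_lit 27992728332) (nat_lit 23) (nat_lit 5) (nat_lit 24) (nat_lit 5) (nat_lit 25) (nat_lit 4) (nat_lit 446) (nat_lit 395) (nat_lit 359))))))))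
noncomputable def xc80 : XT := (XT.nd (nat_lit 1950) (nat_lit 380) (nat_lit 0) (XT.nd (nat_lit 936) (nat_lit 532) (nat_lit 0) (XT.nd (nat_lit 468) (nat_lit 380) (nat_lit 0) (XT.nd (nat_lit 234) (nat_lit 228) (nat_lit 0) (XT.nd (nat_lit 78) (nat_lit 76) (nat_lit 0) (XT.lf (nat_lit 0) (nat_lit 14601034013) (nat_lit 152) (nat_lit 12695734135) (nat_lit 0) (nat_lit 7111131871) (nat_lit 23) (nat_lit 5) (nat_lit 25) (nat_lit 4) (nat_lit 23) (nat_lit 4) (nat_lit 447) (nat_lit 395) (nat_lit 358)) (XT.nd (nat_lit 78) (nat_lit 0) (nat_lit 0) (XT.lf (nat_lit 0) (nat_lit 7240681879) (nat_lit 76) (nat_lit 18305319516) (nat_lit 76) (nat_lit 10781266176) (nat_lit 22) (nat_lit 4) (nat_lit 23) (nat_lit 5) (nat_lit 23) (nat_lit 4) (nat_lit 448) (nat_lit 395) (nat_lit 357)) (XT.lf (nat_lit 0) (nat_lit 29332745499) (nat_lit 76) (nat_lit 8300875573) (nat_lit 76) (nat_lit 745200754) (nat_lit 22) (nat_lit 4) (nat_lit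 23) (nat_lit 5) (nat_lit 23) (nat_lit 4) (nat_lit 449) (nat_lit 395) (nat_lit 356)))) (XT.nd (nat_lit 78) (nat_lit 76) (nat_lit 0) (XT.lf (nat_lit 0) (nat_lit 9894344818) (nat_lit 152) (nat_lit 27785055356) (nat_lit 0) (nat_lit 2871239294) (nat_lit 20) (nat_lit 5) (nat_lit 22) (nat_lit 4) (nat_lit 20) (nat_lit 4) (nat_lit 450) (nat_lit 395) (nat_lit 355)) (XT.nd (nat_lit 78) (nat_lit 76) (nat_lit 0) (XT.lf (nat_lit 0) (nat_lit 21738321648) (nat_lit 152) (nat_lit 6434737550) (nat_lit 0) (nat_lit 14690113974) (nat_lit 20) (nat_lit 5) (nat_lit 22) (nat_lit 4) (nat_lit 20) (nat_lit 4) (nat_lit 451) (nat_lit 395) (nat_lit 354)) (XT.lf (nat_lit 0) (nat_lit 17349292824) (nat_lit 76) (nat_lit 17527553030) (nat_lit 76) (nat_lit 10456102625) (nat_lit 19) (nat_lit 4) (nat_lit 20) (nat_lit 5) (nat_lit 20) (nat_lit 4) (nat_lit 452) (nat_lit 395) (nat_lit 353))))) (XT.nd (nat_lit 234) (nat_lit 228) (nat_lit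 0) (XT.nd (nat_lit 78) (nat_lit 76) (nat_lit 0) (XT.lf (nat_lit 0) (nat_lit 1123190369) (nat_lit 152) (nat_lit 4756735482) (nat_lit 76) (nat_lit 42109499587) (nat_lit 18) (nat_lit 5) (nat_lit 20) (nat_lit 5) (nat_lit 19) (nat_lit 4) (nat_lit 453) (nat_lit 395) (nat_lit 352)) (XT.nd (nat_lit 78) (nat_lit 0) (nat_lit 0) (XT.lf (nat_lit 0) (nat_lit 13683093957) (nat_lit 152) (nat_lit 30006990190) (nat_lit 0) (nat_lit 7097076969) (nat_lit 17) (nat_lit 5) (nat_lit 19) (nat_lit 4) (nat_lit 17) (nat_lit 4) (nat_lit 454) (nat_lit 395) (nat_lit 351)) (XT.lf (nat_lit 0) (nat_lit 27469169471) (nat_lit 152) (nat_lit 5455768340) (nat_lit 0) (nat_lit 20866068381) (nat_lit 17) (nat_lit 5) (nat_lit 19) (nat_lit 4) (nat_lit 17) (nat_lit 4) (nat_lit 455) (nat_lit 395) (nat_lit 350)))) (XT.nd (nat_lit 78) (nat_lit 152) (nat_lit 0) (XT.lf (nat_lit 0) (nat_lit 22039945790) (nat_lit 76) (nat_lit 20788263678)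 (nat_lit 76) (nat_lit 14169343976) (nat_lit 16) (nat_lit 4) (nat_lit 17) (nat_lit 5) (nat_lit 17) (nat_lit 4) (nat_lit 456) (nat_lit 395) (nat_lit 349)) (XT.nd (nat_lit 78) (nat_lit 152) (nat_lit 0) (XT.lf (nat_lit 0) (nat_lit 51926550582) (nat_lit 76) (nat_lit 7580189910) (nat_lit 76) (nat_lit 946623344) (nat_lit 16) (nat_lit 4) (nat_lit 17) (nat_lit 5) (nat_lit 17) (nat_lit 4) (nat_lit 457) (nat_lit 395) (nat_lit 348)) (XT.lf (nat_lit 0) (nat_lit 13287813859) (nat_lit 152) (nat_lit 43689432897) (nat_lit 0) (nat_lit 7133065270) (nat_lit 14) (nat_lit 5) (nat_lit 16) (nat_lit 4) (nat_lit 14) (nat_lit 4) (nat_lit 458) (nat_lit 395) (nat_lit 347)))))) (XT.nd (nat_lit 468) (nat_lit 304) (nat_lit 0) (XT.nd (nat_lit 234) (nat_lit 152) (nat_lit 0) (XT.nd (nat_lit 78) (nat_lit 76) (nat_lit 0) (XT.lf (nat_lit 0) (nat_lit 28990568383) (nat_lit 152) (nat_lit 16212632291) (nat_lit 0) (nat_lit 22824192642)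 (nat_lit 14) (nat_lit 5) (nat_lit 16) (nat_lit 4) (nat_lit 14) (nat_lit 4) (nat_lit 459) (nat_lit 395) (nat_lit 346)) (XT.nd (nat_lit 78) (nat_lit 0) (nat_lit 0) (XT.lf (nat_lit 0) (nat_lit 14060830574) (nat_lit 76) (nat_lit 32175600842) (nat_lit 76) (nat_lit 25998459220) (nat_lit 13) (nat_lit 4) (nat_lit 14) (nat_lit 5) (nat_lit 14) (nat_lit 4) (nat_lit 460) (nat_lit 395) (nat_lit 345)) (XT.lf (nat_lit 0) (nat_lit 47575990474) (nat_lit 76) (nat_lit 17679320036) (nat_lit 76) (nat_lit 11492210004) (nat_lit 13) (nat_lit 4) (nat_lit 14) (nat_lit 5) (nat_lit 14) (nat_lit 4) (nat_lit 461) (nat_lit 395) (nat_lit 344)))) (XT.nd (nat_lit 78) (nat_lit 0) (nat_lit 0) (XT.lf (nat_lit 0) (nat_lit 2056547106) (nat_lit 76) (nat_lit 1911187098) (nat_lit 152) (nat_lit 77645233421) (nat_lit 11) (nat_lit 5) (nat_lit 12) (nat_lit 5) (nat_lit 13) (nat_lit 4) (nat_lit 462) (nat_lit 395) (nat_lit 343)) (XT.nd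 (nat_lit 78) (nat_lit 0) (nat_lit 0) (XT.lf (nat_lit 0) (nat_lit 21178145699) (nat_lit 152) (nat_lit 50141980780) (nat_lit 0) (nat_lit 15432880566) (nat_lit 11) (nat_lit 5) (nat_lit 13) (nat_lit 4) (nat_lit 11) (nat_lit 4) (nat_lit 463) (nat_lit 395) (nat_lit 342)) (XT.lf (nat_lit 0) (nat_lit 39771173507) (nat_lit 152) (nat_lit 18514032538) (nat_lit 0) (nat_lit 34018581295) (nat_lit 11) (nat_lit 5) (nat_lit 13) (nat_lit 4) (nat_lit 11) (nat_lit 4) (nat_lit 464) (nat_lit 395) (nat_lit 341))))) (XT.nd (nat_lit 234) (nat_lit 228) (nat_lit 0) (XT.nd (nat_lit 78) (nat_lit 0) (nat_lit 0) (XT.lf (nat_lit 0) (nat_lit 16380218027) (nat_lit 76) (nat_lit 43824761047) (nat_lit 76) (nat_lit 38065384504) (nat_lit 10) (nat_lit 4) (nat_lit 11) (nat_lit 5) (nat_lit 11) (nat_lit 4) (nat_lit 465) (nat_lit 395) (nat_lit 340)) (XT.nd (nat_lit 78) (nat_lit 0) (nat_lit 0) (XT.lf (nat_lit 0) (nat_lit 55037689523)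 (nat_lit 76) (nat_lit 27702451455) (nat_lit 76) (nat_lit 21936793124) (nat_lit 10) (nat_lit 4) (nat_lit 11) (nat_lit 5) (nat_lit 11) (nat_lit 4) (nat_lit 466) (nat_lit 395) (nat_lit 339)) (XT.lf (nat_lit 0) (nat_lit 96712547118) (nat_lit 76) (nat_lit 10328944116) (nat_lit 76) (nat_lit 4557469313) (nat_lit 10) (nat_lit 4) (nat_lit 11) (nat_lit 5) (nat_lit 11) (nat_lit 4) (nat_lit 467) (nat_lit 395) (nat_lit 338)))) (XT.nd (nat_lit 156) (nat_lit 76) (nat_lit 0) (XT.nd (nat_lit 78) (nat_lit 0) (nat_lit 0) (XT.lf (nat_lit 0) (nat_lit 14254790324) (nat_lit 152) (nat_lit 95826485922) (nat_lit 0) (nat_lit 8905845487) (nat_lit 8) (nat_lit 5) (nat_lit 10) (nat_lit 4) (nat_lit 8) (nat_lit 4) (nat_lit 468) (nat_lit 395) (nat_lit 337)) (XT.lf (nat_lit 0) (nat_lit 34976934919) (nat_lit 152) (nat_lit 62304468225) (nat_lit 0) (nat_lit 29623372780) (nat_lit 8) (nat_lit 5) (nat_lit 10) (nat_lit 4) (nat_lit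 8) (nat_lit 4) (nat_lit 469) (nat_lit 395) (nat_lit 336))) (XT.nd (nat_lit 78) (nat_lit 76) (nat_lit 0) (XT.lf (nat_lit 0) (nat_lit 57324673993) (nat_lit 152) (nat_lit 26166906278) (nat_lit 0) (nat_lit 51966836574) (nat_lit 8) (nat_lit 5) (nat_lit 10) (nat_lit 4) (nat_lit 8) (nat_lit 4) (nat_lit 470) (nat_lit 395) (nat_lit 335)) (XT.lf (nat_lit 0) (nat_lit 13474392098) (nat_lit 76) (nat_lit 68280105949) (nat_lit 76) (nat_lit 62918309938) (nat_lit 7) (nat_lit 4) (nat_lit 8) (nat_lit 5) (nat_lit 8) (nat_lit 4) (nat_lit 471) (nat_lit 395) (nat_lit 334))))))) (XT.nd (nat_lit 936) (nat_lit 152) (nat_lit 0) (XT.nd (nat_lit 468) (nat_lit 76) (nat_lit 0) (XT.nd (nat_lit 234) (nat_lit 152) (nat_lit 0) (XT.nd (nat_lit 78) (nat_lit 0) (nat_lit 0) (XT.lf (nat_lit 0) (nat_lit 57715369510) (nat_lit 76) (nat_lit 51109764211) (nat_lit 76) (nat_lit 45744302836) (nat_lit 7) (nat_lit 4) (nat_lit 8) (nat_lit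 5) (nat_lit 8) (nat_lit 4) (nat_lit 472) (nat_lit 395) (nat_lit 333)) (XT.nd (nat_lit 78) (nat_lit 0) (nat_lit 0) (XT.lf (nat_lit 0) (nat_lit 105440291797) (nat_lit 76) (nat_lit 32594254473) (nat_lit 76) (nat_lit 27225399244) (nat_lit 7) (nat_lit 4) (nat_lit 8) (nat_lit 5) (nat_lit 8) (nat_lit 4) (nat_lit 473) (nat_lit 395) (nat_lit 332)) (XT.lf (nat_lit 0) (nat_lit 156931973314) (nat_lit 76) (nat_lit 12623855197) (nat_lit 76) (nat_lit 7251857510) (nat_lit 7) (nat_lit 4) (nat_lit 8) (nat_lit 5) (nat_lit 8) (nat_lit 4) (nat_lit 474) (nat_lit 395) (nat_lit 331)))) (XT.nd (nat_lit 78) (nat_lit 0) (nat_lit 0) (XT.lf (nat_lit 0) (nat_lit 14397099955) (nat_lit 152) (nat_lit 165370752800) (nat_lit 0) (nat_lit 9420333871) (nat_lit 5) (nat_lit 5) (nat_lit 7) (nat_lit 4) (nat_lit 5) (nat_lit 4) (nat_lit 475) (nat_lit 395) (nat_lit 330)) (XT.nd (nat_lit 78) (nat_lit 0) (nat_lit 0) (XT.lf (nat_lit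 0) (nat_lit 38248013885) (nat_lit 152) (nat_lit 130958345232) (nat_lit 0) (nat_lit 33268753216) (nat_lit 5) (nat_lit 5) (nat_lit 7) (nat_lit 4) (nat_lit 5) (nat_lit 4) (nat_lit 476) (nat_lit 395) (nat_lit 329)) (XT.lf (nat_lit 0) (nat_lit 63985134013) (nat_lit 152) (nat_lit 93838044019) (nat_lit 0) (nat_lit 59003563544) (nat_lit 5) (nat_lit 5) (nat_lit 7) (nat_lit 4) (nat_lit 5) (nat_lit 4) (nat_lit 477) (nat_lit 395) (nat_lit 328))))) (XT.nd (nat_lit 234) (nat_lit 0) (nat_lit 0) (XT.nd (nat_lit 78) (nat_lit 76) (nat_lit 0) (XT.lf (nat_lit 0) (nat_lit 91760976606) (nat_lit 152) (nat_lit 53789877005) (nat_lit 0) (nat_lit 86777267432) (nat_lit 5) (nat_lit 5) (nat_lit 7) (nat_lit 4) (nat_lit 5) (nat_lit 4) (nat_lit 478) (nat_lit 395) (nat_lit 327)) (XT.nd (nat_lit 78) (nat_lit 76) (nat_lit 0) (XT.lf (nat_lit 0) (nat_lit 121740139250) (nat_lit 152) (nat_lit 10576521718) (nat_lit 0) (nat_lit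 116754449794) (nat_lit 5) (nat_lit 5) (nat_lit 7) (nat_lit 4) (nat_lit 5) (nat_lit 4) (nat_lit 479) (nat_lit 395) (nat_lit 326)) (XT.lf (nat_lit 0) (nat_lit 37956856678) (nat_lit 76) (nat_lit 117056282879) (nat_lit 76) (nat_lit 112068759829) (nat_lit 4) (nat_lit 4) (nat_lit 5) (nat_lit 5) (nat_lit 5) (nat_lit 4) (nat_lit 480) (nat_lit 395) (nat_lit 325)))) (XT.nd (nat_lit 78) (nat_lit 0) (nat_lit 0) (XT.lf (nat_lit 0) (nat_lit 90939506856) (nat_lit 76) (nat_lit 100280741826) (nat_lit 76) (nat_lit 95291521004) (nat_lit 4) (nat_lit 4) (nat_lit 5) (nat_lit 5) (nat_lit 5) (nat_lit 4) (nat_lit 481) (nat_lit 395) (nat_lit 324)) (XT.nd (nat_lit 78) (nat_lit 0) (nat_lit 0) (XT.lf (nat_lit 0) (nat_lit 148128459183) (nat_lit 76) (nat_lit 82179808045) (nat_lit 76) (nat_lit 77189015212) (nat_lit 4) (nat_lit 4) (nat_lit 5) (nat_lit 5) (nat_lit 5) (nat_lit 4) (nat_lit 482) (nat_lit 395) (nat_lit 323))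 (XT.lf (nat_lit 0) (nat_lit 209862611156) (nat_lit 76) (nat_lit 62646216743) (nat_lit 76) (nat_lit 57653968343) (nat_lit 4) (nat_lit 4) (nat_lit 5) (nat_lit 5) (nat_lit 5) (nat_lit 4) (nat_lit 483) (nat_lit 395) (nat_lit 322)))))) (XT.nd (nat_lit 468) (nat_lit 0) (nat_lit 0) (XT.nd (nat_lit 234) (nat_lit 0) (nat_lit 0) (XT.nd (nat_lit 78) (nat_lit 152) (nat_lit 0) (XT.lf (nat_lit 0) (nat_lit 276507794784) (nat_lit 76) (nat_lit 41564213303) (nat_lit 76) (nat_lit 36570617157) (nat_lit 4) (nat_lit 4) (nat_lit 5) (nat_lit 5) (nat_lit 5) (nat_lit 4) (nat_lit 484) (nat_lit 395) (nat_lit 321)) (XT.nd (nat_lit 78) (nat_lit 152) (nat_lit 0) (XT.lf (nat_lit 0) (nat_lit 348458944491) (nat_lit 76) (nat_lit 18808867337) (nat_lit 76) (nat_lit 13814023277) (nat_lit 4) (nat_lit 4) (nat_lit 5) (nat_lit 5) (nat_lit 5) (nat_lit 4) (nat_lit 485) (nat_lit 395) (nat_lit 320)) (XT.lf (nat_lit 0) (nat_lit 10779985164)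 (nat_lit 152) (nat_lit 392637004691) (nat_lit 0) (nat_lit 6154059669) (nat_lit 2) (nat_lit 5) (nat_lit 4) (nat_lit 4) (nat_lit 2) (nat_lit 4) (nat_lit 486) (nat_lit 395) (nat_lit 319)))) (XT.nd (nat_lit 78) (nat_lit 0) (nat_lit 0) (XT.lf (nat_lit 0) (nat_lit 37987075685) (nat_lit 152) (nat_lit 368852111248) (nat_lit 0) (nat_lit 33360159556) (nat_lit 2) (nat_lit 5) (nat_lit 4) (nat_lit 4) (nat_lit 2) (nat_lit 4) (nat_lit 487) (nat_lit 395) (nat_lit 318)) (XT.nd (nat_lit 78) (nat_lit 0) (nat_lit 0) (XT.lf (nat_lit 0) (nat_lit 67359807360) (nat_lit 152) (nat_lit 343187000012) (nat_lit 0) (nat_lit 62731973977) (nat_lit 2) (nat_lit 5) (nat_lit 4) (nat_lit 4) (nat_lit 2) (nat_lit 4) (nat_lit 488) (nat_lit 395) (nat_lit 317)) (XT.lf (nat_lit 0) (nat_lit 99072240819) (nat_lit 152) (nat_lit 315489581434) (nat_lit 0) (nat_lit 94443558128) (nat_lit 2) (nat_lit 5) (nat_lit 4) (nat_lit 4) (nat_lit 2)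 (nat_lit 4) (nat_lit 489) (nat_lit 395) (nat_lit 316))))) (XT.nd (nat_lit 234) (nat_lit 0) (nat_lit 0) (XT.nd (nat_lit 78) (nat_lit 0) (nat_lit 0) (XT.lf (nat_lit 0) (nat_lit 133312301596) (nat_lit 152) (nat_lit 285595722663) (nat_lit 0) (nat_lit 128682832507) (nat_lit 2) (nat_lit 5) (nat_lit 4) (nat_lit 4) (nat_lit 2) (nat_lit 4) (nat_lit 490) (nat_lit 395) (nat_lit 315)) (XT.nd (nat_lit 78) (nat_lit 0) (nat_lit 0) (XT.lf (nat_lit 0) (nat_lit 170282893754) (nat_lit 152) (nat_lit 253328274908) (nat_lit 0) (nat_lit 165652696520) (nat_lit 2) (nat_lit 5) (nat_lit 4) (nat_lit 4) (nat_lit 2) (nat_lit 4) (nat_lit 491) (nat_lit 395) (nat_lit 314)) (XT.lf (nat_lit 0) (nat_lit 210203102284) (nat_lit 152) (nat_lit 218496023662) (nat_lit 0) (nat_lit 205572230841) (nat_lit 2) (nat_lit 5) (nat_lit 4) (nat_lit 4) (nat_lit 2) (nat_lit 4) (nat_lit 492) (nat_lit 395) (nat_lit 313)))) (XT.nd (nat_lit 156)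 (nat_lit 0) (nat_lit 0) (XT.nd (nat_lit 78) (nat_lit 0) (nat_lit 0) (XT.lf (nat_lit 0) (nat_lit 253309491384) (nat_lit 152) (nat_lit 180892555584) (nat_lit 0) (nat_lit 248677995673) (nat_lit 2) (nat_lit 5) (nat_lit 4) (nat_lit 4) (nat_lit 2) (nat_lit 4) (nat_lit 493) (nat_lit 395) (nat_lit 312)) (XT.lf (nat_lit 0) (nat_lit 299857506322) (nat_lit 152) (nat_lit 140295035309) (nat_lit 0) (nat_lit 295225432586) (nat_lit 2) (nat_lit 5) (nat_lit 4) (nat_lit 4) (nat_lit 2) (nat_lit 4) (nat_lit 494) (nat_lit 395) (nat_lit 311))) (XT.nd (nat_lit 78) (nat_lit 0) (nat_lit 0) (XT.lf (nat_lit 0) (nat_lit 350122987188) (nat_lit 152) (nat_lit 96462884939) (nat_lit 0) (nat_lit 345490378244) (nat_lit 2) (nat_lit 5) (nat_lit 4) (nat_lit 4) (nat_lit 2) (nat_lit 4) (nat_lit 495) (nat_lit 395) (nat_lit 310)) (XT.lf (nat_lit 0) (nat_lit 404403803498) (nat_lit 152) (nat_lit 49136358397) (nat_lit 0) (nat_lit 399770698990)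 (nat_lit 2) (nat_lit 5) (nat_lit 4) (nat_lit 4) (nat_lit 2) (nat_lit 4) (nat_lit 496) (nat_lit 395) (nat_lit 309))))))))
noncomputable def xc81 : XT := (XT.nd (nat_lit 1950) (nat_lit 0) (nat_lit 0) (XT.nd (nat_lit 936) (nat_lit 0) (nat_lit 0) (XT.nd (nat_lit 468) (nat_lit 0) (nat_lit 0) (XT.nd (nat_lit 234) (nat_lit 0) (nat_lit 0) (XT.nd (nat_lit 78) (nat_lit 0) (nat_lit 0) (XT.lf (nat_lit 0) (nat_lit 2068471108) (nat_lit 76) (nat_lit 461002895020) (nat_lit 76) (nat_lit 456369331656) (nat_lit 1) (nat_lit 4) (nat_lit 2) (nat_lit 5) (nat_lit 2) (nat_lit 4) (nat_lit 497) (nat_lit 395) (nat_lit 308)) (XT.nd (nat_lit 78) (nat_lit 0) (nat_lit 0) (XT.lf (nat_lit 0) (nat_lit 60153108640) (nat_lit 76) (nat_lit 467617374643) (nat_lit 76) (nat_lit 462983386414) (nat_lit 1) (nat_lit 4) (nat_lit 2) (nat_lit 5) (nat_lit 2) (nat_lit 4) (nat_lit 498) (nat_lit 395) (nat_lit 307)) (XT.lf (nat_lit 0) (nat_lit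 122874325900) (nat_lit 76) (nat_lit 474766272798) (nat_lit 76) (nat_lit 470131891174) (nat_lit 1) (nat_lit 4) (nat_lit 2) (nat_lit 5) (nat_lit 2) (nat_lit 4) (nat_lit 499) (nat_lit 395) (nat_lit 306)))) (XT.nd (nat_lit 78) (nat_lit 0) (nat_lit 0) (XT.lf (nat_lit 0) (nat_lit 190603804176) (nat_lit 76) (nat_lit 482491953325) (nat_lit 76) (nat_lit 477857207447) (nat_lit 1) (nat_lit 4) (nat_lit 2) (nat_lit 5) (nat_lit 2) (nat_lit 4) (nat_lit 500) (nat_lit 395) (nat_lit 305)) (XT.nd (nat_lit 78) (nat_lit 0) (nat_lit 0) (XT.lf (nat_lit 0) (nat_lit 263742903339) (nat_lit 76) (nat_lit 490840198035) (nat_lit 76) (nat_lit 486205114885) (nat_lit 1) (nat_lit 4) (nat_lit 2) (nat_lit 5) (nat_lit 2) (nat_lit 4) (nat_lit 501) (nat_lit 395) (nat_lit 304)) (XT.lf (nat_lit 0) (nat_lit 342725040274) (nat_lit 76) (nat_lit 499860478008) (nat_lit 76) (nat_lit 495225082569) (nat_lit 1) (nat_lit 4) (nat_lit 2)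 (nat_lit 5) (nat_lit 2) (nat_lit 4) (nat_lit 502) (nat_lit 395) (nat_lit 303))))) (XT.nd (nat_lit 234) (nat_lit 0) (nat_lit 0) (XT.nd (nat_lit 78) (nat_lit 0) (nat_lit 0) (XT.lf (nat_lit 0) (nat_lit 428018257272) (nat_lit 76) (nat_lit 509606246755) (nat_lit 76) (nat_lit 504970562159) (nat_lit 1) (nat_lit 4) (nat_lit 2) (nat_lit 5) (nat_lit 2) (nat_lit 4) (nat_lit 503) (nat_lit 395) (nat_lit 302)) (XT.nd (nat_lit 78) (nat_lit 0) (nat_lit 0) (XT.lf (nat_lit 0) (nat_lit 520127995621) (nat_lit 76) (nat_lit 520135256979) (nat_lit 76) (nat_lit 515499304645) (nat_lit 1) (nat_lit 4) (nat_lit 2) (nat_lit 5) (nat_lit 2) (nat_lit 4) (nat_lit 504) (nat_lit 395) (nat_lit 301)) (XT.lf (nat_lit 0) (nat_lit 619600090806) (nat_lit 76) (nat_lit 531509902814) (nat_lit 76) (nat_lit 526873702576) (nat_lit 1) (nat_lit 4) (nat_lit 2) (nat_lit 5) (nat_lit 2) (nat_lit 4) (nat_lit 505) (nat_lit 395) (nat_lit 300))))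 (XT.nd (nat_lit 78) (nat_lit 0) (nat_lit 0) (XT.lf (nat_lit 0) (nat_lit 727024007096) (nat_lit 76) (nat_lit 543797589571) (nat_lit 76) (nat_lit 539161159791) (nat_lit 1) (nat_lit 4) (nat_lit 2) (nat_lit 5) (nat_lit 2) (nat_lit 4) (nat_lit 506) (nat_lit 395) (nat_lit 299)) (XT.nd (nat_lit 78) (nat_lit 0) (nat_lit 0) (XT.lf (nat_lit 0) (nat_lit 843036330660) (nat_lit 76) (nat_lit 557071133170) (nat_lit 76) (nat_lit 552434490851) (nat_lit 1) (nat_lit 4) (nat_lit 2) (nat_lit 5) (nat_lit 2) (nat_lit 4) (nat_lit 507) (nat_lit 395) (nat_lit 298)) (XT.lf (nat_lit 0) (nat_lit 968324541936) (nat_lit 76) (nat_lit 571409191647) (nat_lit 76) (nat_lit 566772352533) (nat_lit 1) (nat_lit 4) (nat_lit 2) (nat_lit 5) (nat_lit 2) (nat_lit 4) (nat_lit 508) (nat_lit 395) (nat_lit 297)))))) (XT.nd (nat_lit 468) (nat_lit 0) (nat_lit 0) (XT.nd (nat_lit 234) (nat_lit 0) (nat_lit 0) (XT.nd (nat_lit 78) (nat_lit 0)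 (nat_lit 0) (XT.lf (nat_lit 0) (nat_lit 1103631089581) (nat_lit 76) (nat_lit 586896731274) (nat_lit 76) (nat_lit 582259709943) (nat_lit 1) (nat_lit 4) (nat_lit 2) (nat_lit 5) (nat_lit 2) (nat_lit 4) (nat_lit 509) (nat_lit 395) (nat_lit 296)) (XT.nd (nat_lit 78) (nat_lit 0) (nat_lit 0) (XT.lf (nat_lit 0) (nat_lit 1249757790176) (nat_lit 76) (nat_lit 603625530066) (nat_lit 76) (nat_lit 598988340014) (nat_lit 1) (nat_lit 4) (nat_lit 2) (nat_lit 5) (nat_lit 2) (nat_lit 4) (nat_lit 510) (nat_lit 395) (nat_lit 295)) (XT.lf (nat_lit 0) (nat_lit 1407570579722) (nat_lit 76) (nat_lit 621694721643) (nat_lit 76) (nat_lit 617057375368) (nat_lit 1) (nat_lit 4) (nat_lit 2) (nat_lit 5) (nat_lit 2) (nat_lit 4) (nat_lit 511) (nat_lit 395) (nat_lit 294)))) (XT.nd (nat_lit 78) (nat_lit 0) (nat_lit 0) (XT.lf (nat_lit 0) (nat_lit 1578004645123) (nat_lit 76) (nat_lit 641211382696) (nat_lit 76) (nat_lit 636573891772)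 (nat_lit 1) (nat_lit 4) (nat_lit 2) (nat_lit 5) (nat_lit 2) (nat_lit 4) (nat_lit 512) (nat_lit 395) (nat_lit 293)) (XT.nd (nat_lit 78) (nat_lit 0) (nat_lit 0) (XT.lf (nat_lit 0) (nat_lit 1762069966023) (nat_lit 76) (nat_lit 662291167515) (nat_lit 76) (nat_lit 657653542655) (nat_lit 1) (nat_lit 4) (nat_lit 2) (nat_lit 5) (nat_lit 2) (nat_lit 4) (nat_lit 513) (nat_lit 395) (nat_lit 292)) (XT.lf (nat_lit 0) (nat_lit 1960857299881) (nat_lit 76) (nat_lit 685058993340) (nat_lit 76) (nat_lit 680421244466) (nat_lit 1) (nat_lit 4) (nat_lit 2) (nat_lit 5) (nat_lit 2) (nat_lit 4) (nat_lit 514) (nat_lit 395) (nat_lit 291))))) (XT.nd (nat_lit 234) (nat_lit 0) (nat_lit 0) (XT.nd (nat_lit 78) (nat_lit 0) (nat_lit 0) (XT.lf (nat_lit 0) (nat_lit 2175544645712) (nat_lit 76) (nat_lit 709649780623) (nat_lit 76) (nat_lit 705011916921) (nat_lit 1) (nat_lit 4) (nat_lit 2) (nat_lit 5) (nat_lit 2) (nat_lit 4) (nat_lit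 515) (nat_lit 395) (nat_lit 290)) (XT.nd (nat_lit 78) (nat_lit 0) (nat_lit 0) (XT.lf (nat_lit 0) (nat_lit 2407404224825) (nat_lit 76) (nat_lit 736209252547) (nat_lit 76) (nat_lit 731571282523) (nat_lit 1) (nat_lit 4) (nat_lit 2) (nat_lit 5) (nat_lit 2) (nat_lit 4) (nat_lit 516) (nat_lit 395) (nat_lit 289)) (XT.lf (nat_lit 0) (nat_lit 2657810019910) (nat_lit 76) (nat_lit 764894798576) (nat_lit 76) (nat_lit 760256730105) (nat_lit 1) (nat_lit 4) (nat_lit 2) (nat_lit 5) (nat_lit 2) (nat_lit 4) (nat_lit 517) (nat_lit 395) (nat_lit 288)))) (XT.nd (nat_lit 156) (nat_lit 0) (nat_lit 0) (XT.nd (nat_lit 78) (nat_lit 0) (nat_lit 0) (XT.lf (nat_lit 0) (nat_lit 2928245917160) (nat_lit 76) (nat_lit 795876407129) (nat_lit 76) (nat_lit 791238247504) (nat_lit 1) (nat_lit 4) (nat_lit 2) (nat_lit 5) (nat_lit 2) (nat_lit 4) (nat_lit 518) (nat_lit 395) (nat_lit 287)) (XT.lf (nat_lit 0) (nat_lit 3220314499671)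 (nat_lit 76) (nat_lit 829337672925) (nat_lit 76) (nat_lit 824699428898) (nat_lit 1) (nat_lit 4) (nat_lit 2) (nat_lit 5) (nat_lit 2) (nat_lit 4) (nat_lit 519) (nat_lit 395) (nat_lit 286))) (XT.nd (nat_lit 78) (nat_lit 0) (nat_lit 0) (XT.lf (nat_lit 0) (nat_lit 3535746544228) (nat_lit 76) (nat_lit 865476884946) (nat_lit 76) (nat_lit 860838562769) (nat_lit 1) (nat_lit 4) (nat_lit 2) (nat_lit 5) (nat_lit 2) (nat_lit 4) (nat_lit 520) (nat_lit 395) (nat_lit 285)) (XT.lf (nat_lit 0) (nat_lit 3876411277762) (nat_lit 76) (nat_lit 904508201486) (nat_lit 76) (nat_lit 899869806947) (nat_lit 1) (nat_lit 4) (nat_lit 2) (nat_lit 5) (nat_lit 2) (nat_lit 4) (nat_lit 521) (nat_lit 395) (nat_lit 284))))))) (XT.nd (nat_lit 936) (nat_lit 0) (nat_lit 0) (XT.nd (nat_lit 468) (nat_lit 0) (nat_lit 0) (XT.nd (nat_lit 234) (nat_lit 0) (nat_lit 0) (XT.nd (nat_lit 78) (nat_lit 0) (nat_lit 0) (XT.lf (nat_lit 0) (nat_lit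 4244327454248) (nat_lit 76) (nat_lit 946662919234) (nat_lit 76) (nat_lit 942024457695) (nat_lit 1) (nat_lit 4) (nat_lit 2) (nat_lit 5) (nat_lit 2) (nat_lit 4) (nat_lit 522) (nat_lit 395) (nat_lit 283)) (XT.nd (nat_lit 78) (nat_lit 0) (nat_lit 0) (XT.lf (nat_lit 0) (nat_lit 4641675317696) (nat_lit 76) (nat_lit 992190843927) (nat_lit 76) (nat_lit 987552320349) (nat_lit 1) (nat_lit 4) (nat_lit 2) (nat_lit 5) (nat_lit 2) (nat_lit 4) (nat_lit 523) (nat_lit 395) (nat_lit 282)) (XT.lf (nat_lit 0) (nat_lit 5070809522111) (nat_lit 76) (nat_lit 1041361770672) (nat_lit 76) (nat_lit 1036723189652) (nat_lit 1) (nat_lit 4) (nat_lit 2) (nat_lit 5) (nat_lit 2) (nat_lit 4) (nat_lit 524) (nat_lit 395) (nat_lit 281)))) (XT.nd (nat_lit 78) (nat_lit 0) (nat_lit 0) (XT.lf (nat_lit 0) (nat_lit 5534273085002) (nat_lit 76) (nat_lit 1094467082741) (nat_lit 76) (nat_lit 1089828448533) (nat_lit 1) (nat_lit 4) (nat_lit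 2) (nat_lit 5) (nat_lit 2) (nat_lit 4) (nat_lit 525) (nat_lit 395) (nat_lit 280)) (XT.nd (nat_lit 78) (nat_lit 0) (nat_lit 0) (XT.lf (nat_lit 0) (nat_lit 6034812457110) (nat_lit 76) (nat_lit 1151821478278) (nat_lit 76) (nat_lit 1147182794822) (nat_lit 1) (nat_lit 4) (nat_lit 2) (nat_lit 5) (nat_lit 2) (nat_lit 4) (nat_lit 526) (nat_lit 395) (nat_lit 279)) (XT.lf (nat_lit 0) (nat_lit 6575393797679) (nat_lit 76) (nat_lit 1213764835182) (nat_lit 76) (nat_lit 1209126106127) (nat_lit 1) (nat_lit 4) (nat_lit 2) (nat_lit 5) (nat_lit 2) (nat_lit 4) (nat_lit 527) (nat_lit 395) (nat_lit 278))))) (XT.nd (nat_lit 234) (nat_lit 0) (nat_lit 0) (XT.nd (nat_lit 78) (nat_lit 0) (nat_lit 0) (XT.lf (nat_lit 0) (nat_lit 7159220551689) (nat_lit 76) (nat_lit 1280664225199) (nat_lit 76) (nat_lit 1276025453922) (nat_lit 1) (nat_lit 4) (nat_lit 2) (nat_lit 5) (nat_lit 2) (nat_lit 4) (nat_lit 528) (nat_lit 395)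 (nat_lit 277)) (XT.nd (nat_lit 78) (nat_lit 0) (nat_lit 0) (XT.lf (nat_lit 0) (nat_lit 7789752433238) (nat_lit 76) (nat_lit 1352916089159) (nat_lit 76) (nat_lit 1348277278786) (nat_lit 1) (nat_lit 4) (nat_lit 2) (nat_lit 5) (nat_lit 2) (nat_lit 4) (nat_lit 529) (nat_lit 395) (nat_lit 276)) (XT.lf (nat_lit 0) (nat_lit 8470725927550) (nat_lit 76) (nat_lit 1430948586254) (nat_lit 76) (nat_lit 1426309739683) (nat_lit 1) (nat_lit 4) (nat_lit 2) (nat_lit 5) (nat_lit 2) (nat_lit 4) (nat_lit 530) (nat_lit 395) (nat_lit 275)))) (XT.nd (nat_lit 78) (nat_lit 0) (nat_lit 0) (XT.lf (nat_lit 0) (nat_lit 9206176433110) (nat_lit 76) (nat_lit 1515224131283) (nat_lit 76) (nat_lit 1510585251195) (nat_lit 1) (nat_lit 4) (nat_lit 2) (nat_lit 5) (nat_lit 2) (nat_lit 4) (nat_lit 531) (nat_lit 395) (nat_lit 274)) (XT.nd (nat_lit 78) (nat_lit 0) (nat_lit 0) (XT.lf (nat_lit 0) (nat_lit 10000462175137) (nat_lit 76)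 (nat_lit 1606242134883) (nat_lit 76) (nat_lit 1601603223760) (nat_lit 1) (nat_lit 4) (nat_lit 2) (nat_lit 5) (nat_lit 2) (nat_lit 4) (nat_lit 532) (nat_lit 395) (nat_lit 273)) (XT.lf (nat_lit 0) (nat_lit 10858290032100) (nat_lit 76) (nat_lit 1704541963001) (nat_lit 76) (nat_lit 1699903023143) (nat_lit 1) (nat_lit 4) (nat_lit 2) (nat_lit 5) (nat_lit 2) (nat_lit 4) (nat_lit 533) (nat_lit 395) (nat_lit 272)))))) (XT.nd (nat_lit 52962) (nat_lit 0) (nat_lit 4332) (XT.nd (nat_lit 52728) (nat_lit 0) (nat_lit 5548) (XT.nd (nat_lit 78) (nat_lit 0) (nat_lit 0) (XT.lf (nat_lit 0) (nat_lit 11784743428339) (nat_lit 76) (nat_lit 1810706133137) (nat_lit 76) (nat_lit 1806067166672) (nat_lit 1) (nat_lit 4) (nat_lit 2) (nat_lit 5) (nat_lit 2) (nat_lit 4) (nat_lit 534) (nat_lit 395) (nat_lit 271)) (XT.nd (nat_lit 52572) (nat_lit 0) (nat_lit 6916) (XT.lf (nat_lit 0) (nat_lit 12785312458052) (nat_lit 76) (nat_lit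 1925363766299) (nat_lit 76) (nat_lit 1920724775198) (nat_lit 1) (nat_lit 4) (nat_lit 2) (nat_lit 5) (nat_lit 2) (nat_lit 4) (nat_lit 535) (nat_lit 395) (nat_lit 270)) (XT.lf (nat_lit 0) (nat_lit 1475844772) (nat_lit 380) (nat_lit 497960333) (nat_lit 0) (nat_lit 1475844772) (nat_lit 92) (nat_lit 5) (nat_lit 97) (nat_lit 4) (nat_lit 92) (nat_lit 4) (nat_lit 408) (nat_lit 396) (nat_lit 396)))) (XT.nd (nat_lit 78) (nat_lit 988) (nat_lit 0) (XT.lf (nat_lit 0) (nat_lit 4055477077) (nat_lit 380) (nat_lit 2418899783) (nat_lit 380) (nat_lit 550622984) (nat_lit 87) (nat_lit 4) (nat_lit 92) (nat_lit 5) (nat_lit 92) (nat_lit 4) (nat_lit 409) (nat_lit 396) (nat_lit 395)) (XT.nd (nat_lit 78) (nat_lit 456) (nat_lit 0) (XT.lf (nat_lit 0) (nat_lit 2175081146) (nat_lit 456) (nat_lit 600516868) (nat_lit 532) (nat_lit 4394167978) (nat_lit 80) (nat_lit 5) (nat_lit 86) (nat_lit 5) (nat_lit 87) (nat_lit 4) (nat_lit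 410) (nat_lit 396) (nat_lit 394)) (XT.lf (nat_lit 0) (nat_lit 264036402) (nat_lit 456) (nat_lit 5943112224) (nat_lit 456) (nat_lit 1128381714) (nat_lit 74) (nat_lit 4) (nat_lit 80) (nat_lit 5) (nat_lit 80) (nat_lit 4) (nat_lit 411) (nat_lit 396) (nat_lit 393))))) (XT.nd (nat_lit 234) (nat_lit 608) (nat_lit 0) (XT.nd (nat_lit 78) (nat_lit 532) (nat_lit 0) (XT.lf (nat_lit 0) (nat_lit 2186788939) (nat_lit 532) (nat_lit 1639448737) (nat_lit 76) (nat_lit 3691122230) (nat_lit 73) (nat_lit 5) (nat_lit 80) (nat_lit 5) (nat_lit 74) (nat_lit 4) (nat_lit 412) (nat_lit 396) (nat_lit 392)) (XT.nd (nat_lit 78) (nat_lit 304) (nat_lit 0) (XT.lf (nat_lit 0) (nat_lit 4139663327) (nat_lit 228) (nat_lit 1436851506) (nat_lit 304) (nat_lit 2145315101) (nat_lit 70) (nat_lit 5) (nat_lit 73) (nat_lit 5) (nat_lit 74) (nat_lit 4) (nat_lit 413) (nat_lit 396) (nat_lit 391)) (XT.lf (nat_lit 0) (nat_lit 1138145669) (nat_lit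 304) (nat_lit 5629711471) (nat_lit 76) (nat_lit 1179711083) (nat_lit 66) (nat_lit 5) (nat_lit 70) (nat_lit 5) (nat_lit 67) (nat_lit 4) (nat_lit 414) (nat_lit 396) (nat_lit 390)))) (XT.nd (nat_lit 156) (nat_lit 456) (nat_lit 0) (XT.nd (nat_lit 78) (nat_lit 0) (nat_lit 0) (XT.lf (nat_lit 0) (nat_lit 352579708) (nat_lit 152) (nat_lit 4146942404) (nat_lit 228) (nat_lit 3692944408) (nat_lit 64) (nat_lit 5) (nat_lit 66) (nat_lit 5) (nat_lit 67) (nat_lit 4) (nat_lit 415) (nat_lit 396) (nat_lit 389)) (XT.lf (nat_lit 0) (nat_lit 6861154590) (nat_lit 152) (nat_lit 1216818686) (nat_lit 228) (nat_lit 383176594) (nat_lit 64) (nat_lit 5) (nat_lit 66) (nat_lit 5) (nat_lit 67) (nat_lit 4) (nat_lit 416) (nat_lit 396) (nat_lit 388))) (XT.nd (nat_lit 78) (nat_lit 152) (nat_lit 0) (XT.lf (nat_lit 0) (nat_lit 3008107982) (nat_lit 304) (nat_lit 3749064537) (nat_lit 76) (nat_lit 1989944448) (nat_lit 60) (nat_lit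 5) (nat_lit 64) (nat_lit 5) (nat_lit 61) (nat_lit 4) (nat_lit 417) (nat_lit 396) (nat_lit 387)) (XT.lf (nat_lit 0) (nat_lit 3000553571) (nat_lit 152) (nat_lit 3609254666) (nat_lit 228) (nat_lit 2448608632) (nat_lit 58) (nat_lit 5) (nat_lit 60) (nat_lit 5) (nat_lit 61) (nat_lit 4) (nat_lit 418) (nat_lit 396) (nat_lit 386))))))))
noncomputable def xc82 : XT := (XT.nd (nat_lit 1950) (nat_lit 1292) (nat_lit 0) (XT.nd (nat_lit 936) (nat_lit 988) (nat_lit 0) (XT.nd (nat_lit 468) (nat_lit 684) (nat_lit 0) (XT.nd (nat_lit 234) (nat_lit 304) (nat_lit 0) (XT.nd (nat_lit 78) (nat_lit 152) (nat_lit 0) (XT.lf (nat_lit 0) (nat_lit 858301398) (nat_lit 152) (nat_lit 131354401) (nat_lit 228) (nat_lit 8407677660) (nat_lit 55) (nat_lit 5) (nat_lit 57) (nat_lit 5) (nat_lit 58) (nat_lit 5) (nat_lit 419) (nat_lit 396) (nat_lit 385)) (XT.nd (nat_lit 78) (nat_lit 152) (nat_lit 0) (XT.lf (nat_lit 0) (nat_lit 4647199136)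 (nat_lit 228) (nat_lit 1510570731) (nat_lit 76) (nat_lit 3594414209) (nat_lit 55) (nat_lit 5) (nat_lit 58) (nat_lit 5) (nat_lit 56) (nat_lit 4) (nat_lit 420) (nat_lit 396) (nat_lit 384)) (XT.lf (nat_lit 0) (nat_lit 6126121200) (nat_lit 152) (nat_lit 2454743378) (nat_lit 228) (nat_lit 1555903722) (nat_lit 53) (nat_lit 5) (nat_lit 55) (nat_lit 5) (nat_lit 56) (nat_lit 4) (nat_lit 421) (nat_lit 396) (nat_lit 383)))) (XT.nd (nat_lit 78) (nat_lit 76) (nat_lit 0) (XT.lf (nat_lit 0) (nat_lit 2171298380) (nat_lit 228) (nat_lit 6805008938) (nat_lit 76) (nat_lit 1570805633) (nat_lit 50) (nat_lit 5) (nat_lit 53) (nat_lit 5) (nat_lit 51) (nat_lit 4) (nat_lit 422) (nat_lit 396) (nat_lit 382)) (XT.nd (nat_lit 78) (nat_lit 0) (nat_lit 0) (XT.lf (nat_lit 0) (nat_lit 1043628239) (nat_lit 76) (nat_lit 5109179492) (nat_lit 152) (nat_lit 4831050646) (nat_lit 49) (nat_lit 5) (nat_lit 50) (nat_lit 5) (nat_lit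 51) (nat_lit 4) (nat_lit 423) (nat_lit 396) (nat_lit 381)) (XT.lf (nat_lit 0) (nat_lit 9650617694) (nat_lit 76) (nat_lit 832875082) (nat_lit 152) (nat_lit 969618147) (nat_lit 49) (nat_lit 5) (nat_lit 50) (nat_lit 5) (nat_lit 51) (nat_lit 4) (nat_lit 424) (nat_lit 396) (nat_lit 380))))) (XT.nd (nat_lit 234) (nat_lit 228) (nat_lit 0) (XT.nd (nat_lit 78) (nat_lit 228) (nat_lit 0) (XT.lf (nat_lit 0) (nat_lit 3156747924) (nat_lit 228) (nat_lit 5032289505) (nat_lit 76) (nat_lit 3755434488) (nat_lit 46) (nat_lit 5) (nat_lit 49) (nat_lit 5) (nat_lit 47) (nat_lit 4) (nat_lit 425) (nat_lit 396) (nat_lit 379)) (XT.nd (nat_lit 78) (nat_lit 152) (nat_lit 0) (XT.lf (nat_lit 0) (nat_lit 3851711054) (nat_lit 76) (nat_lit 3729169877) (nat_lit 152) (nat_lit 4890658476) (nat_lit 45) (nat_lit 5) (nat_lit 46) (nat_lit 5) (nat_lit 47) (nat_lit 4) (nat_lit 426) (nat_lit 396) (nat_lit 378)) (XT.lf (nat_lit 0)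 (nat_lit 444696595) (nat_lit 152) (nat_lit 11949926933) (nat_lit 152) (nat_lit 643309065) (nat_lit 43) (nat_lit 4) (nat_lit 45) (nat_lit 5) (nat_lit 45) (nat_lit 4) (nat_lit 427) (nat_lit 396) (nat_lit 377)))) (XT.nd (nat_lit 78) (nat_lit 152) (nat_lit 0) (XT.lf (nat_lit 0) (nat_lit 3943949464) (nat_lit 228) (nat_lit 3355797300) (nat_lit 76) (nat_lit 6326522472) (nat_lit 42) (nat_lit 5) (nat_lit 45) (nat_lit 5) (nat_lit 43) (nat_lit 4) (nat_lit 428) (nat_lit 396) (nat_lit 376)) (XT.nd (nat_lit 78) (nat_lit 76) (nat_lit 0) (XT.lf (nat_lit 0) (nat_lit 6706269446) (nat_lit 76) (nat_lit 2187656159) (nat_lit 152) (nat_lit 5363982673) (nat_lit 41) (nat_lit 5) (nat_lit 42) (nat_lit 5) (nat_lit 43) (nat_lit 4) (nat_lit 429) (nat_lit 396) (nat_lit 375)) (XT.lf (nat_lit 0) (nat_lit 2646291282) (nat_lit 76) (nat_lit 11702565992) (nat_lit 76) (nat_lit 582515317) (nat_lit 40) (nat_lit 4) (nat_lit 41)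 (nat_lit 5) (nat_lit 41) (nat_lit 4) (nat_lit 430) (nat_lit 396) (nat_lit 374)))))) (XT.nd (nat_lit 468) (nat_lit 532) (nat_lit 0) (XT.nd (nat_lit 234) (nat_lit 228) (nat_lit 0) (XT.nd (nat_lit 78) (nat_lit 152) (nat_lit 0) (XT.lf (nat_lit 0) (nat_lit 4492747962) (nat_lit 152) (nat_lit 1960799278) (nat_lit 76) (nat_lit 9185124287) (nat_lit 39) (nat_lit 5) (nat_lit 41) (nat_lit 5) (nat_lit 40) (nat_lit 4) (nat_lit 431) (nat_lit 396) (nat_lit 373)) (XT.nd (nat_lit 78) (nat_lit 76) (nat_lit 0) (XT.lf (nat_lit 0) (nat_lit 9427607956) (nat_lit 76) (nat_lit 622985526) (nat_lit 152) (nat_lit 6342116429) (nat_lit 38) (nat_lit 5) (nat_lit 39) (nat_lit 5) (nat_lit 40) (nat_lit 4) (nat_lit 432) (nat_lit 396) (nat_lit 372)) (XT.lf (nat_lit 0) (nat_lit 4503627448) (nat_lit 76) (nat_lit 11731839059) (nat_lit 76) (nat_lit 957020766) (nat_lit 37) (nat_lit 4) (nat_lit 38) (nat_lit 5) (nat_lit 38) (nat_lit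 4) (nat_lit 433) (nat_lit 396) (nat_lit 371)))) (XT.nd (nat_lit 78) (nat_lit 152) (nat_lit 0) (XT.lf (nat_lit 0) (nat_lit 4710593309) (nat_lit 152) (nat_lit 1113253059) (nat_lit 76) (nat_lit 12215476987) (nat_lit 36) (nat_lit 5) (nat_lit 38) (nat_lit 5) (nat_lit 37) (nat_lit 4) (nat_lit 434) (nat_lit 396) (nat_lit 370)) (XT.nd (nat_lit 78) (nat_lit 76) (nat_lit 0) (XT.lf (nat_lit 0) (nat_lit 10973363345) (nat_lit 152) (nat_lit 7209764917) (nat_lit 0) (nat_lit 753319650) (nat_lit 35) (nat_lit 5) (nat_lit 37) (nat_lit 4) (nat_lit 35) (nat_lit 4) (nat_lit 435) (nat_lit 396) (nat_lit 369)) (XT.lf (nat_lit 0) (nat_lit 5681478772) (nat_lit 76) (nat_lit 12267644533) (nat_lit 76) (nat_lit 1939267464) (nat_lit 34) (nat_lit 4) (nat_lit 35) (nat_lit 5) (nat_lit 35) (nat_lit 4) (nat_lit 436) (nat_lit 396) (nat_lit 368))))) (XT.nd (nat_lit 234) (nat_lit 304) (nat_lit 0) (XT.nd (nat_lit 78) (nat_lit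 152) (nat_lit 0) (XT.lf (nat_lit 0) (nat_lit 4433529649) (nat_lit 152) (nat_lit 1206944077) (nat_lit 76) (nat_lit 15259593860) (nat_lit 33) (nat_lit 5) (nat_lit 35) (nat_lit 5) (nat_lit 34) (nat_lit 4) (nat_lit 437) (nat_lit 396) (nat_lit 367)) (XT.nd (nat_lit 78) (nat_lit 76) (nat_lit 0) (XT.lf (nat_lit 0) (nat_lit 11475218110) (nat_lit 152) (nat_lit 8759299250) (nat_lit 0) (nat_lit 1733029078) (nat_lit 32) (nat_lit 5) (nat_lit 34) (nat_lit 4) (nat_lit 32) (nat_lit 4) (nat_lit 438) (nat_lit 396) (nat_lit 366)) (XT.lf (nat_lit 0) (nat_lit 5673098655) (nat_lit 76) (nat_lit 13625825933) (nat_lit 76) (nat_lit 3804008638) (nat_lit 31) (nat_lit 4) (nat_lit 32) (nat_lit 5) (nat_lit 32) (nat_lit 4) (nat_lit 439) (nat_lit 396) (nat_lit 365)))) (XT.nd (nat_lit 156) (nat_lit 152) (nat_lit 0) (XT.nd (nat_lit 78) (nat_lit 76) (nat_lit 0) (XT.lf (nat_lit 0) (nat_lit 3396237617) (nat_lit 152) (nat_lit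 2831372925) (nat_lit 76) (nat_lit 18083132222) (nat_lit 30) (nat_lit 5) (nat_lit 32) (nat_lit 5) (nat_lit 31) (nat_lit 4) (nat_lit 440) (nat_lit 396) (nat_lit 364)) (XT.lf (nat_lit 0) (nat_lit 11248113607) (nat_lit 152) (nat_lit 12314313938) (nat_lit 0) (nat_lit 2022358448) (nat_lit 29) (nat_lit 5) (nat_lit 31) (nat_lit 4) (nat_lit 29) (nat_lit 4) (nat_lit 441) (nat_lit 396) (nat_lit 363))) (XT.nd (nat_lit 78) (nat_lit 76) (nat_lit 0) (XT.lf (nat_lit 0) (nat_lit 3711282878) (nat_lit 76) (nat_lit 16257262399) (nat_lit 76) (nat_lit 6972978090) (nat_lit 28) (nat_lit 4) (nat_lit 29) (nat_lit 5) (nat_lit 29) (nat_lit 4) (nat_lit 442) (nat_lit 396) (nat_lit 362)) (XT.lf (nat_lit 0) (nat_lit 1186437003) (nat_lit 152) (nat_lit 6870688999) (nat_lit 76) (nat_lit 20327340105) (nat_lit 27) (nat_lit 5) (nat_lit 29) (nat_lit 5) (nat_lit 28) (nat_lit 4) (nat_lit 443) (nat_lit 396) (nat_lit 361)))))))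 (XT.nd (nat_lit 936) (nat_lit 532) (nat_lit 0) (XT.nd (nat_lit 468) (nat_lit 380) (nat_lit 0) (XT.nd (nat_lit 234) (nat_lit 228) (nat_lit 0) (XT.nd (nat_lit 78) (nat_lit 76) (nat_lit 0) (XT.lf (nat_lit 0) (nat_lit 9832174292) (nat_lit 152) (nat_lit 18940386780) (nat_lit 0) (nat_lit 1138973106) (nat_lit 26) (nat_lit 5) (nat_lit 28) (nat_lit 4) (nat_lit 26) (nat_lit 4) (nat_lit 444) (nat_lit 396) (nat_lit 360)) (XT.nd (nat_lit 78) (nat_lit 76) (nat_lit 0) (XT.lf (nat_lit 0) (nat_lit 19488820370) (nat_lit 152) (nat_lit 1293811131) (nat_lit 0) (nat_lit 10752598511) (nat_lit 26) (nat_lit 5) (nat_lit 28) (nat_lit 4) (nat_lit 26) (nat_lit 4) (nat_lit 445) (nat_lit 396) (nat_lit 359)) (XT.lf (nat_lit 0) (nat_lit 18539124644) (nat_lit 76) (nat_lit 11748108029) (nat_lit 76) (nat_lit 2972052213) (nat_lit 25) (nat_lit 4) (nat_lit 26) (nat_lit 5) (nat_lit 26) (nat_lit 4) (nat_lit 446) (nat_lit 396)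 (nat_lit 358)))) (XT.nd (nat_lit 78) (nat_lit 76) (nat_lit 0) (XT.lf (nat_lit 0) (nat_lit 4837778800) (nat_lit 76) (nat_lit 1725066348) (nat_lit 152) (nat_lit 28539189797) (nat_lit 23) (nat_lit 5) (nat_lit 24) (nat_lit 5) (nat_lit 25) (nat_lit 4) (nat_lit 447) (nat_lit 396) (nat_lit 357)) (XT.nd (nat_lit 78) (nat_lit 76) (nat_lit 0) (XT.lf (nat_lit 0) (nat_lit 17255556215) (nat_lit 152) (nat_lit 10722221668) (nat_lit 0) (nat_lit 9063805932) (nat_lit 23) (nat_lit 5) (nat_lit 25) (nat_lit 4) (nat_lit 23) (nat_lit 4) (nat_lit 448) (nat_lit 396) (nat_lit 356)) (XT.lf (nat_lit 0) (nat_lit 10733432407) (nat_lit 76) (nat_lit 18302651600) (nat_lit 76) (nat_lit 10081622169) (nat_lit 22) (nat_lit 4) (nat_lit 23) (nat_lit 5) (nat_lit 23) (nat_lit 4) (nat_lit 449) (nat_lit 396) (nat_lit 355))))) (XT.nd (nat_lit 234) (nat_lit 228) (nat_lit 0) (XT.nd (nat_lit 78) (nat_lit 76) (nat_lit 0) (XT.lf (nat_lit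 0) (nat_lit 609517887) (nat_lit 152) (nat_lit 6980342547) (nat_lit 76) (nat_lit 33750863414) (nat_lit 21) (nat_lit 5) (nat_lit 23) (nat_lit 5) (nat_lit 22) (nat_lit 4) (nat_lit 450) (nat_lit 396) (nat_lit 354)) (XT.nd (nat_lit 78) (nat_lit 0) (nat_lit 0) (XT.lf (nat_lit 0) (nat_lit 12055890369) (nat_lit 152) (nat_lit 27233694928) (nat_lit 0) (nat_lit 4395481200) (nat_lit 20) (nat_lit 5) (nat_lit 22) (nat_lit 4) (nat_lit 20) (nat_lit 4) (nat_lit 451) (nat_lit 396) (nat_lit 353)) (XT.lf (nat_lit 0) (nat_lit 24745904014) (nat_lit 152) (nat_lit 4380845390) (nat_lit 0) (nat_lit 17063973798) (nat_lit 20) (nat_lit 5) (nat_lit 22) (nat_lit 4) (nat_lit 20) (nat_lit 4) (nat_lit 452) (nat_lit 396) (nat_lit 352)))) (XT.nd (nat_lit 78) (nat_lit 152) (nat_lit 0) (XT.lf (nat_lit 0) (nat_lit 21240877763) (nat_lit 76) (nat_lit 17660880837) (nat_lit 76) (nat_lit 9959023725) (nat_lit 19) (nat_lit 4) (nat_lit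 20) (nat_lit 5) (nat_lit 20) (nat_lit 4) (nat_lit 453) (nat_lit 396) (nat_lit 351)) (XT.nd (nat_lit 78) (nat_lit 76) (nat_lit 0) (XT.lf (nat_lit 0) (nat_lit 2386061045) (nat_lit 152) (nat_lit 2757300965) (nat_lit 76) (nat_lit 46591358373) (nat_lit 18) (nat_lit 5) (nat_lit 20) (nat_lit 5) (nat_lit 19) (nat_lit 4) (nat_lit 454) (nat_lit 396) (nat_lit 350)) (XT.lf (nat_lit 0) (nat_lit 15947982495) (nat_lit 152) (nat_lit 30024785092) (nat_lit 0) (nat_lit 8783730604) (nat_lit 17) (nat_lit 5) (nat_lit 19) (nat_lit 4) (nat_lit 17) (nat_lit 4) (nat_lit 455) (nat_lit 396) (nat_lit 349)))))) (XT.nd (nat_lit 468) (nat_lit 228) (nat_lit 0) (XT.nd (nat_lit 234) (nat_lit 152) (nat_lit 0) (XT.nd (nat_lit 78) (nat_lit 152) (nat_lit 0) (XT.lf (nat_lit 0) (nat_lit 30750259529) (nat_lit 152) (nat_lit 3685966554) (nat_lit 0) (nat_lit 23571360776) (nat_lit 17) (nat_lit 5) (nat_lit 19) (nat_lit 4) (nat_lit 17)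 (nat_lit 4) (nat_lit 456) (nat_lit 396) (nat_lit 348)) (XT.nd (nat_lit 78) (nat_lit 76) (nat_lit 0) (XT.lf (nat_lit 0) (nat_lit 25953549940) (nat_lit 76) (nat_lit 21355926718) (nat_lit 76) (nat_lit 14163466053) (nat_lit 16) (nat_lit 4) (nat_lit 17) (nat_lit 5) (nat_lit 17) (nat_lit 4) (nat_lit 457) (nat_lit 396) (nat_lit 347)) (XT.lf (nat_lit 0) (nat_lit 31036040) (nat_lit 152) (nat_lit 7140463023) (nat_lit 76) (nat_lit 58039908977) (nat_lit 15) (nat_lit 5) (nat_lit 17) (nat_lit 5) (nat_lit 16) (nat_lit 4) (nat_lit 458) (nat_lit 396) (nat_lit 346)))) (XT.nd (nat_lit 78) (nat_lit 76) (nat_lit 0) (XT.lf (nat_lit 0) (nat_lit 15351197746) (nat_lit 152) (nat_lit 45138780377) (nat_lit 0) (nat_lit 8669118911) (nat_lit 14) (nat_lit 5) (nat_lit 16) (nat_lit 4) (nat_lit 14) (nat_lit 4) (nat_lit 459) (nat_lit 396) (nat_lit 345)) (XT.nd (nat_lit 78) (nat_lit 76) (nat_lit 0) (XT.lf (nat_lit 0) (nat_lit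 32236071982) (nat_lit 152) (nat_lit 15615376993) (nat_lit 0) (nat_lit 25544024739) (nat_lit 14) (nat_lit 5) (nat_lit 16) (nat_lit 4) (nat_lit 14) (nat_lit 4) (nat_lit 460) (nat_lit 396) (nat_lit 344)) (XT.lf (nat_lit 0) (nat_lit 17032006803) (nat_lit 76) (nat_lit 33805389336) (nat_lit 76) (nat_lit 27104112085) (nat_lit 13) (nat_lit 4) (nat_lit 14) (nat_lit 5) (nat_lit 14) (nat_lit 4) (nat_lit 461) (nat_lit 396) (nat_lit 343))))) (XT.nd (nat_lit 234) (nat_lit 76) (nat_lit 0) (XT.nd (nat_lit 78) (nat_lit 152) (nat_lit 0) (XT.lf (nat_lit 0) (nat_lit 53091615807) (nat_lit 76) (nat_lit 18219351219) (nat_lit 76) (nat_lit 11509527663) (nat_lit 13) (nat_lit 4) (nat_lit 14) (nat_lit 5) (nat_lit 14) (nat_lit 4) (nat_lit 462) (nat_lit 396) (nat_lit 342)) (XT.nd (nat_lit 78) (nat_lit 0) (nat_lit 0) (XT.lf (nat_lit 0) (nat_lit 3931327638) (nat_lit 76) (nat_lit 1188414880) (nat_lit 152) (nat_lit 82955487694)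 (nat_lit 11) (nat_lit 5) (nat_lit 12) (nat_lit 5) (nat_lit 13) (nat_lit 4) (nat_lit 463) (nat_lit 396) (nat_lit 341)) (XT.lf (nat_lit 0) (nat_lit 23664665312) (nat_lit 152) (nat_lit 52527439455) (nat_lit 0) (nat_lit 17437754314) (nat_lit 11) (nat_lit 5) (nat_lit 13) (nat_lit 4) (nat_lit 11) (nat_lit 4) (nat_lit 464) (nat_lit 396) (nat_lit 340)))) (XT.nd (nat_lit 156) (nat_lit 0) (nat_lit 0) (XT.nd (nat_lit 78) (nat_lit 76) (nat_lit 0) (XT.lf (nat_lit 0) (nat_lit 43686448829) (nat_lit 152) (nat_lit 18489692375) (nat_lit 0) (nat_lit 37453256042) (nat_lit 11) (nat_lit 5) (nat_lit 13) (nat_lit 4) (nat_lit 11) (nat_lit 4) (nat_lit 465) (nat_lit 396) (nat_lit 339)) (XT.lf (nat_lit 0) (nat_lit 19157985254) (nat_lit 76) (nat_lit 46577924020) (nat_lit 76) (nat_lit 40338914762) (nat_lit 10) (nat_lit 4) (nat_lit 11) (nat_lit 5) (nat_lit 11) (nat_lit 4) (nat_lit 466) (nat_lit 396) (nat_lit 338))) (XT.nd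 (nat_lit 78) (nat_lit 0) (nat_lit 0) (XT.lf (nat_lit 0) (nat_lit 60799361893) (nat_lit 76) (nat_lit 29221593950) (nat_lit 76) (nat_lit 22977199071) (nat_lit 10) (nat_lit 4) (nat_lit 11) (nat_lit 5) (nat_lit 11) (nat_lit 4) (nat_lit 467) (nat_lit 396) (nat_lit 337)) (XT.lf (nat_lit 0) (nat_lit 105707566821) (nat_lit 76) (nat_lit 10509839625) (nat_lit 76) (nat_lit 4260458060) (nat_lit 10) (nat_lit 4) (nat_lit 11) (nat_lit 5) (nat_lit 11) (nat_lit 4) (nat_lit 468) (nat_lit 396) (nat_lit 336))))))))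
noncomputable def xc83 : XT := (XT.nd (nat_lit 1950) (nat_lit 76) (nat_lit 0) (XT.nd (nat_lit 936) (nat_lit 228) (nat_lit 0) (XT.nd (nat_lit 468) (nat_lit 152) (nat_lit 0) (XT.nd (nat_lit 234) (nat_lit 76) (nat_lit 0) (XT.nd (nat_lit 78) (nat_lit 0) (nat_lit 0) (XT.lf (nat_lit 0) (nat_lit 16022936156) (nat_lit 152) (nat_lit 102200733376) (nat_lit 0) (nat_lit 10232196464) (nat_lit 8) (nat_lit 5) (nat_lit 10) (nat_lit 4) (nat_lit 8) (nat_lit 4) (nat_lit 469) (nat_lit 396) (nat_lit 335)) (XT.nd (nat_lit 78) (nat_lit 0) (nat_lit 0) (XT.lf (nat_lit 0) (nat_lit 38356351384) (nat_lit 152) (nat_lit 66092648443) (nat_lit 0) (nat_lit 32561653100) (nat_lit 8) (nat_lit 5) (nat_lit 10) (nat_lit 4) (nat_lit 8) (nat_lit 4) (nat_lit 470) (nat_lit 396) (nat_lit 334)) (XT.lf (nat_lit 0) (nat_lit 62448853164) (nat_lit 152) (nat_lit 27152687262) (nat_lit 0) (nat_lit 56650489517) (nat_lit 8) (nat_lit 5) (nat_lit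 10) (nat_lit 4) (nat_lit 8) (nat_lit 4) (nat_lit 471) (nat_lit 396) (nat_lit 333)))) (XT.nd (nat_lit 78) (nat_lit 0) (nat_lit 0) (XT.lf (nat_lit 0) (nat_lit 15631875200) (nat_lit 76) (nat_lit 73187283652) (nat_lit 76) (nat_lit 67385526149) (nat_lit 7) (nat_lit 4) (nat_lit 8) (nat_lit 5) (nat_lit 8) (nat_lit 4) (nat_lit 472) (nat_lit 396) (nat_lit 332)) (XT.nd (nat_lit 78) (nat_lit 0) (nat_lit 0) (XT.lf (nat_lit 0) (nat_lit 63332165491) (nat_lit 76) (nat_lit 54684442780) (nat_lit 76) (nat_lit 48879542819) (nat_lit 7) (nat_lit 4) (nat_lit 8) (nat_lit 5) (nat_lit 8) (nat_lit 4) (nat_lit 473) (nat_lit 396) (nat_lit 331)) (XT.lf (nat_lit 0) (nat_lit 114801039604) (nat_lit 76) (nat_lit 34725773935) (nat_lit 76) (nat_lit 28917964291) (nat_lit 7) (nat_lit 4) (nat_lit 8) (nat_lit 5) (nat_lit 8) (nat_lit 4) (nat_lit 474) (nat_lit 396) (nat_lit 330))))) (XT.nd (nat_lit 234) (nat_lit 0) (nat_lit 0)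 (XT.nd (nat_lit 78) (nat_lit 152) (nat_lit 0) (XT.lf (nat_lit 0) (nat_lit 170343498275) (nat_lit 76) (nat_lit 13193003524) (nat_lit 76) (nat_lit 7382499728) (nat_lit 7) (nat_lit 4) (nat_lit 8) (nat_lit 5) (nat_lit 8) (nat_lit 4) (nat_lit 475) (nat_lit 396) (nat_lit 329)) (XT.nd (nat_lit 78) (nat_lit 0) (nat_lit 0) (XT.lf (nat_lit 0) (nat_lit 15975483088) (nat_lit 152) (nat_lit 177720549661) (nat_lit 0) (nat_lit 10593077180) (nat_lit 5) (nat_lit 5) (nat_lit 7) (nat_lit 4) (nat_lit 5) (nat_lit 4) (nat_lit 476) (nat_lit 396) (nat_lit 328)) (XT.lf (nat_lit 0) (nat_lit 41702869012) (nat_lit 152) (nat_lit 140620324552) (nat_lit 0) (nat_lit 36318324400) (nat_lit 5) (nat_lit 5) (nat_lit 7) (nat_lit 4) (nat_lit 5) (nat_lit 4) (nat_lit 477) (nat_lit 396) (nat_lit 327)))) (XT.nd (nat_lit 78) (nat_lit 0) (nat_lit 0) (XT.lf (nat_lit 0) (nat_lit 69469698453) (nat_lit 152) (nat_lit 100590746523) (nat_lit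 0) (nat_lit 64083173559) (nat_lit 5) (nat_lit 5) (nat_lit 7) (nat_lit 4) (nat_lit 5) (nat_lit 4) (nat_lit 478) (nat_lit 396) (nat_lit 326)) (XT.nd (nat_lit 78) (nat_lit 0) (nat_lit 0) (XT.lf (nat_lit 0) (nat_lit 99440515585) (nat_lit 152) (nat_lit 57394603260) (nat_lit 0) (nat_lit 94052157097) (nat_lit 5) (nat_lit 5) (nat_lit 7) (nat_lit 4) (nat_lit 5) (nat_lit 4) (nat_lit 479) (nat_lit 396) (nat_lit 325)) (XT.lf (nat_lit 0) (nat_lit 131792925251) (nat_lit 152) (nat_lit 10775917618) (nat_lit 0) (nat_lit 126402868991) (nat_lit 5) (nat_lit 5) (nat_lit 7) (nat_lit 4) (nat_lit 5) (nat_lit 4) (nat_lit 480) (nat_lit 396) (nat_lit 324)))))) (XT.nd (nat_lit 468) (nat_lit 152) (nat_lit 0) (XT.nd (nat_lit 234) (nat_lit 0) (nat_lit 0) (XT.nd (nat_lit 78) (nat_lit 0) (nat_lit 0) (XT.lf (nat_lit 0) (nat_lit 41623758244) (nat_lit 76) (nat_lit 126095939577) (nat_lit 76) (nat_lit 120704311305) (nat_lit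 4) (nat_lit 4) (nat_lit 5) (nat_lit 5) (nat_lit 5) (nat_lit 4) (nat_lit 481) (nat_lit 396) (nat_lit 323)) (XT.nd (nat_lit 78) (nat_lit 0) (nat_lit 0) (XT.lf (nat_lit 0) (nat_lit 98798327619) (nat_lit 76) (nat_lit 108002417902) (nat_lit 76) (nat_lit 102609334064) (nat_lit 4) (nat_lit 4) (nat_lit 5) (nat_lit 5) (nat_lit 5) (nat_lit 4) (nat_lit 482) (nat_lit 396) (nat_lit 322)) (XT.lf (nat_lit 0) (nat_lit 160519162043) (nat_lit 76) (nat_lit 88475689661) (nat_lit 76) (nat_lit 83081258076) (nat_lit 4) (nat_lit 4) (nat_lit 5) (nat_lit 5) (nat_lit 5) (nat_lit 4) (nat_lit 483) (nat_lit 396) (nat_lit 321)))) (XT.nd (nat_lit 78) (nat_lit 0) (nat_lit 0) (XT.lf (nat_lit 0) (nat_lit 227152014608) (nat_lit 76) (nat_lit 67400040908) (nat_lit 76) (nat_lit 62004361410) (nat_lit 4) (nat_lit 4) (nat_lit 5) (nat_lit 5) (nat_lit 5) (nat_lit 4) (nat_lit 484) (nat_lit 396) (nat_lit 320)) (XT.nd (nat_lit 78) (nat_lit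 0) (nat_lit 0) (XT.lf (nat_lit 0) (nat_lit 299091746663) (nat_lit 76) (nat_lit 44650578910) (nat_lit 76) (nat_lit 39253743937) (nat_lit 4) (nat_lit 4) (nat_lit 5) (nat_lit 5) (nat_lit 5) (nat_lit 4) (nat_lit 485) (nat_lit 396) (nat_lit 319)) (XT.lf (nat_lit 0) (nat_lit 376764667732) (nat_lit 76) (nat_lit 20092492041) (nat_lit 76) (nat_lit 14694587183) (nat_lit 4) (nat_lit 4) (nat_lit 5) (nat_lit 5) (nat_lit 5) (nat_lit 4) (nat_lit 486) (nat_lit 396) (nat_lit 318))))) (XT.nd (nat_lit 234) (nat_lit 0) (nat_lit 0) (XT.nd (nat_lit 78) (nat_lit 0) (nat_lit 0) (XT.lf (nat_lit 0) (nat_lit 11855547758) (nat_lit 152) (nat_lit 423607561216) (nat_lit 0) (nat_lit 6856570451) (nat_lit 2) (nat_lit 5) (nat_lit 4) (nat_lit 4) (nat_lit 2) (nat_lit 4) (nat_lit 487) (nat_lit 396) (nat_lit 317)) (XT.nd (nat_lit 78) (nat_lit 0) (nat_lit 0) (XT.lf (nat_lit 0) (nat_lit 41223415611) (nat_lit 152) (nat_lit 397952498805)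 (nat_lit 0) (nat_lit 36223588995) (nat_lit 2) (nat_lit 5) (nat_lit 4) (nat_lit 4) (nat_lit 2) (nat_lit 4) (nat_lit 488) (nat_lit 396) (nat_lit 316)) (XT.lf (nat_lit 0) (nat_lit 72931345533) (nat_lit 152) (nat_lit 370264384695) (nat_lit 0) (nat_lit 67930732520) (nat_lit 2) (nat_lit 5) (nat_lit 4) (nat_lit 4) (nat_lit 2) (nat_lit 4) (nat_lit 489) (nat_lit 396) (nat_lit 315)))) (XT.nd (nat_lit 156) (nat_lit 0) (nat_lit 0) (XT.nd (nat_lit 78) (nat_lit 0) (nat_lit 0) (XT.lf (nat_lit 0) (nat_lit 107167236367) (nat_lit 152) (nat_lit 340379141173) (nat_lit 0) (nat_lit 102165895208) (nat_lit 2) (nat_lit 5) (nat_lit 4) (nat_lit 4) (nat_lit 2) (nat_lit 4) (nat_lit 490) (nat_lit 396) (nat_lit 314)) (XT.lf (nat_lit 0) (nat_lit 144133967467) (nat_lit 152) (nat_lit 308119670499) (nat_lit 0) (nat_lit 139131952099) (nat_lit 2) (nat_lit 5) (nat_lit 4) (nat_lit 4) (nat_lit 2) (nat_lit 4) (nat_lit 491) (nat_lit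 396) (nat_lit 313))) (XT.nd (nat_lit 78) (nat_lit 0) (nat_lit 0) (XT.lf (nat_lit 0) (nat_lit 184050600942) (nat_lit 152) (nat_lit 273294805439) (nat_lit 0) (nat_lit 179047961307) (nat_lit 2) (nat_lit 5) (nat_lit 4) (nat_lit 4) (nat_lit 2) (nat_lit 4) (nat_lit 492) (nat_lit 396) (nat_lit 312)) (XT.lf (nat_lit 0) (nat_lit 227153679807) (nat_lit 152) (nat_lit 235698176424) (nat_lit 0) (nat_lit 222150462147) (nat_lit 2) (nat_lit 5) (nat_lit 4) (nat_lit 4) (nat_lit 2) (nat_lit 4) (nat_lit 493) (nat_lit 396) (nat_lit 311))))))) (XT.nd (nat_lit 936) (nat_lit 0) (nat_lit 0) (XT.nd (nat_lit 468) (nat_lit 0) (nat_lit 0) (XT.nd (nat_lit 234) (nat_lit 76) (nat_lit 0) (XT.nd (nat_lit 78) (nat_lit 0) (nat_lit 0) (XT.lf (nat_lit 0) (nat_lit 273698629713) (nat_lit 152) (nat_lit 195106988614) (nat_lit 0) (nat_lit 268694876844) (nat_lit 2) (nat_lit 5) (nat_lit 4) (nat_lit 4) (nat_lit 2) (nat_lit 4) (nat_lit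 494) (nat_lit 396) (nat_lit 310)) (XT.nd (nat_lit 78) (nat_lit 0) (nat_lit 0) (XT.lf (nat_lit 0) (nat_lit 323961272586) (nat_lit 152) (nat_lit 151280701637) (nat_lit 0) (nat_lit 318957024154) (nat_lit 2) (nat_lit 5) (nat_lit 4) (nat_lit 4) (nat_lit 2) (nat_lit 4) (nat_lit 495) (nat_lit 396) (nat_lit 309)) (XT.lf (nat_lit 0) (nat_lit 378239461125) (nat_lit 152) (nat_lit 103959604163) (nat_lit 0) (nat_lit 373234753837) (nat_lit 2) (nat_lit 5) (nat_lit 4) (nat_lit 4) (nat_lit 2) (nat_lit 4) (nat_lit 496) (nat_lit 396) (nat_lit 308)))) (XT.nd (nat_lit 78) (nat_lit 76) (nat_lit 0) (XT.lf (nat_lit 0) (nat_lit 436854843853) (nat_lit 152) (nat_lit 52863274873) (nat_lit 0) (nat_lit 431849711700) (nat_lit 2) (nat_lit 5) (nat_lit 4) (nat_lit 4) (nat_lit 2) (nat_lit 4) (nat_lit 497) (nat_lit 396) (nat_lit 307)) (XT.nd (nat_lit 78) (nat_lit 0) (nat_lit 0) (XT.lf (nat_lit 0) (nat_lit 2432776633) (nat_lit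 76) (nat_lit 497780502891) (nat_lit 76) (nat_lit 492774977343) (nat_lit 1) (nat_lit 4) (nat_lit 2) (nat_lit 5) (nat_lit 2) (nat_lit 4) (nat_lit 498) (nat_lit 396) (nat_lit 306)) (XT.lf (nat_lit 0) (nat_lit 65149457179) (nat_lit 76) (nat_lit 504931742642) (nat_lit 76) (nat_lit 499925852840) (nat_lit 1) (nat_lit 4) (nat_lit 2) (nat_lit 5) (nat_lit 2) (nat_lit 4) (nat_lit 499) (nat_lit 396) (nat_lit 305))))) (XT.nd (nat_lit 234) (nat_lit 0) (nat_lit 0) (XT.nd (nat_lit 78) (nat_lit 0) (nat_lit 0) (XT.lf (nat_lit 0) (nat_lit 132874734795) (nat_lit 76) (nat_lit 512659591314) (nat_lit 76) (nat_lit 507653364240) (nat_lit 1) (nat_lit 4) (nat_lit 2) (nat_lit 5) (nat_lit 2) (nat_lit 4) (nat_lit 500) (nat_lit 396) (nat_lit 304)) (XT.nd (nat_lit 78) (nat_lit 0) (nat_lit 0) (XT.lf (nat_lit 0) (nat_lit 206009944457) (nat_lit 76) (nat_lit 521009843565) (nat_lit 76) (nat_lit 516003304202) (nat_lit 1) (nat_lit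 4) (nat_lit 2) (nat_lit 5) (nat_lit 2) (nat_lit 4) (nat_lit 501) (nat_lit 396) (nat_lit 303)) (XT.lf (nat_lit 0) (nat_lit 284988480002) (nat_lit 76) (nat_lit 530031982373) (nat_lit 76) (nat_lit 525025153853) (nat_lit 1) (nat_lit 4) (nat_lit 2) (nat_lit 5) (nat_lit 2) (nat_lit 4) (nat_lit 502) (nat_lit 396) (nat_lit 302)))) (XT.nd (nat_lit 78) (nat_lit 0) (nat_lit 0) (XT.lf (nat_lit 0) (nat_lit 370278362380) (nat_lit 76) (nat_lit 539779472262) (nat_lit 76) (nat_lit 534772376005) (nat_lit 1) (nat_lit 4) (nat_lit 2) (nat_lit 5) (nat_lit 2) (nat_lit 4) (nat_lit 503) (nat_lit 396) (nat_lit 301)) (XT.nd (nat_lit 78) (nat_lit 0) (nat_lit 0) (XT.lf (nat_lit 0) (nat_lit 462385013118) (nat_lit 76) (nat_lit 550310076137) (nat_lit 76) (nat_lit 545302731975) (nat_lit 1) (nat_lit 4) (nat_lit 2) (nat_lit 5) (nat_lit 2) (nat_lit 4) (nat_lit 504) (nat_lit 396) (nat_lit 300)) (XT.lf (nat_lit 0) (nat_lit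 561854249404) (nat_lit 76) (nat_lit 561686197576) (nat_lit 76) (nat_lit 556678623871) (nat_lit 1) (nat_lit 4) (nat_lit 2) (nat_lit 5) (nat_lit 2) (nat_lit 4) (nat_lit 505) (nat_lit 396) (nat_lit 299)))))) (XT.nd (nat_lit 468) (nat_lit 0) (nat_lit 0) (XT.nd (nat_lit 234) (nat_lit 0) (nat_lit 0) (XT.nd (nat_lit 78) (nat_lit 0) (nat_lit 0) (XT.lf (nat_lit 0) (nat_lit 669275518564) (nat_lit 76) (nat_lit 573975250631) (nat_lit 76) (nat_lit 568967464388) (nat_lit 1) (nat_lit 4) (nat_lit 2) (nat_lit 5) (nat_lit 2) (nat_lit 4) (nat_lit 506) (nat_lit 396) (nat_lit 298)) (XT.nd (nat_lit 78) (nat_lit 0) (nat_lit 0) (XT.lf (nat_lit 0) (nat_lit 785285391083) (nat_lit 76) (nat_lit 587250059322) (nat_lit 76) (nat_lit 582242076283) (nat_lit 1) (nat_lit 4) (nat_lit 2) (nat_lit 5) (nat_lit 2) (nat_lit 4) (nat_lit 507) (nat_lit 396) (nat_lit 297)) (XT.lf (nat_lit 0) (nat_lit 910571332872) (nat_lit 76) (nat_lit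 601589289180) (nat_lit 76) (nat_lit 596581123924) (nat_lit 1) (nat_lit 4) (nat_lit 2) (nat_lit 5) (nat_lit 2) (nat_lit 4) (nat_lit 508) (nat_lit 396) (nat_lit 296)))) (XT.nd (nat_lit 78) (nat_lit 0) (nat_lit 0) (XT.lf (nat_lit 0) (nat_lit 1045875779141) (nat_lit 76) (nat_lit 617077913420) (nat_lit 76) (nat_lit 612069579443) (nat_lit 1) (nat_lit 4) (nat_lit 2) (nat_lit 5) (nat_lit 2) (nat_lit 4) (nat_lit 509) (nat_lit 396) (nat_lit 295)) (XT.nd (nat_lit 78) (nat_lit 0) (nat_lit 0) (XT.lf (nat_lit 0) (nat_lit 1192000534017) (nat_lit 76) (nat_lit 633807716481) (nat_lit 76) (nat_lit 628799226283) (nat_lit 1) (nat_lit 4) (nat_lit 2) (nat_lit 5) (nat_lit 2) (nat_lit 4) (nat_lit 510) (nat_lit 396) (nat_lit 294)) (XT.lf (nat_lit 0) (nat_lit 1349811521972) (nat_lit 76) (nat_lit 651877837938) (nat_lit 76) (nat_lit 646869203090) (nat_lit 1) (nat_lit 4) (nat_lit 2) (nat_lit 5) (nat_lit 2) (nat_lit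 4) (nat_lit 511) (nat_lit 396) (nat_lit 293))))) (XT.nd (nat_lit 234) (nat_lit 0) (nat_lit 0) (XT.nd (nat_lit 78) (nat_lit 0) (nat_lit 0) (XT.lf (nat_lit 0) (nat_lit 1520243919232) (nat_lit 76) (nat_lit 671395359992) (nat_lit 76) (nat_lit 666386591208) (nat_lit 1) (nat_lit 4) (nat_lit 2) (nat_lit 5) (nat_lit 2) (nat_lit 4) (nat_lit 512) (nat_lit 396) (nat_lit 292)) (XT.nd (nat_lit 78) (nat_lit 0) (nat_lit 0) (XT.lf (nat_lit 0) (nat_lit 1704307695559) (nat_lit 76) (nat_lit 692475942032) (nat_lit 76) (nat_lit 687467049234) (nat_lit 1) (nat_lit 4) (nat_lit 2) (nat_lit 5) (nat_lit 2) (nat_lit 4) (nat_lit 513) (nat_lit 396) (nat_lit 291)) (XT.lf (nat_lit 0) (nat_lit 1903093599255) (nat_lit 76) (nat_lit 715244506027) (nat_lit 76) (nat_lit 710235498401) (nat_lit 1) (nat_lit 4) (nat_lit 2) (nat_lit 5) (nat_lit 2) (nat_lit 4) (nat_lit 514) (nat_lit 396) (nat_lit 290)))) (XT.nd (nat_lit 156) (nat_lit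 0) (nat_lit 0) (XT.nd (nat_lit 78) (nat_lit 0) (nat_lit 0) (XT.lf (nat_lit 0) (nat_lit 2117779620863) (nat_lit 76) (nat_lit 739835976800) (nat_lit 76) (nat_lit 734826862851) (nat_lit 1) (nat_lit 4) (nat_lit 2) (nat_lit 5) (nat_lit 2) (nat_lit 4) (nat_lit 515) (nat_lit 396) (nat_lit 289)) (XT.lf (nat_lit 0) (nat_lit 2349637973842) (nat_lit 76) (nat_lit 766396081584) (nat_lit 76) (nat_lit 761386869189) (nat_lit 1) (nat_lit 4) (nat_lit 2) (nat_lit 5) (nat_lit 2) (nat_lit 4) (nat_lit 516) (nat_lit 396) (nat_lit 288))) (XT.nd (nat_lit 78) (nat_lit 0) (nat_lit 0) (XT.lf (nat_lit 0) (nat_lit 2600042633619) (nat_lit 76) (nat_lit 795082213595) (nat_lit 76) (nat_lit 790072910045) (nat_lit 1) (nat_lit 4) (nat_lit 2) (nat_lit 5) (nat_lit 2) (nat_lit 4) (nat_lit 517) (nat_lit 396) (nat_lit 287)) (XT.lf (nat_lit 0) (nat_lit 2870477479658) (nat_lit 76) (nat_lit 826064364724) (nat_lit 76) (nat_lit 821054976773)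 (nat_lit 1) (nat_lit 4) (nat_lit 2) (nat_lit 5) (nat_lit 2) (nat_lit 4) (nat_lit 518) (nat_lit 396) (nat_lit 286))))))))
noncomputable def xc84 : XT := (XT.nd (nat_lit 54288) (nat_lit 0) (nat_lit 2356) (XT.nd (nat_lit 936) (nat_lit 0) (nat_lit 0) (XT.nd (nat_lit 468) (nat_lit 0) (nat_lit 0) (XT.nd (nat_lit 234) (nat_lit 0) (nat_lit 0) (XT.nd (nat_lit 78) (nat_lit 0) (nat_lit 0) (XT.lf (nat_lit 0) (nat_lit 3162545088826) (nat_lit 76) (nat_lit 859526132906) (nat_lit 76) (nat_lit 854516666804) (nat_lit 1) (nat_lit 4) (nat_lit 2) (nat_lit 5) (nat_lit 2) (nat_lit 4) (nat_lit 519) (nat_lit 396) (nat_lit 285)) (XT.nd (nat_lit 78) (nat_lit 0) (nat_lit 0) (XT.lf (nat_lit 0) (nat_lit 3477976232138) (nat_lit 76) (nat_lit 895665810098) (nat_lit 76) (nat_lit 890656271635) (nat_lit 1) (nat_lit 4) (nat_lit 2) (nat_lit 5) (nat_lit 2) (nat_lit 4) (nat_lit 520) (nat_lit 396) (nat_lit 284)) (XT.lf (nat_lit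 0) (nat_lit 3818640131186) (nat_lit 76) (nat_lit 934697557352) (nat_lit 76) (nat_lit 929687951888) (nat_lit 1) (nat_lit 4) (nat_lit 2) (nat_lit 5) (nat_lit 2) (nat_lit 4) (nat_lit 521) (nat_lit 396) (nat_lit 283)))) (XT.nd (nat_lit 78) (nat_lit 0) (nat_lit 0) (XT.lf (nat_lit 0) (nat_lit 4186555535001) (nat_lit 76) (nat_lit 976852673910) (nat_lit 76) (nat_lit 971843006408) (nat_lit 1) (nat_lit 4) (nat_lit 2) (nat_lit 5) (nat_lit 2) (nat_lit 4) (nat_lit 522) (nat_lit 396) (nat_lit 282)) (XT.nd (nat_lit 78) (nat_lit 0) (nat_lit 0) (XT.lf (nat_lit 0) (nat_lit 4583902683012) (nat_lit 76) (nat_lit 1022380967871) (nat_lit 76) (nat_lit 1017371242926) (nat_lit 1) (nat_lit 4) (nat_lit 2) (nat_lit 5) (nat_lit 2) (nat_lit 4) (nat_lit 523) (nat_lit 396) (nat_lit 281)) (XT.lf (nat_lit 0) (nat_lit 5013036224986) (nat_lit 76) (nat_lit 1071552236532) (nat_lit 76) (nat_lit 1066542458399) (nat_lit 1) (nat_lit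 4) (nat_lit 2) (nat_lit 5) (nat_lit 2) (nat_lit 4) (nat_lit 524) (nat_lit 396) (nat_lit 280))))) (XT.nd (nat_lit 234) (nat_lit 0) (nat_lit 0) (XT.nd (nat_lit 78) (nat_lit 0) (nat_lit 0) (XT.lf (nat_lit 0) (nat_lit 5476499174504) (nat_lit 76) (nat_lit 1124657865188) (nat_lit 76) (nat_lit 1119648037808) (nat_lit 1) (nat_lit 4) (nat_lit 2) (nat_lit 5) (nat_lit 2) (nat_lit 4) (nat_lit 525) (nat_lit 396) (nat_lit 279)) (XT.nd (nat_lit 78) (nat_lit 0) (nat_lit 0) (XT.lf (nat_lit 0) (nat_lit 5977037978676) (nat_lit 76) (nat_lit 1182012553862) (nat_lit 76) (nat_lit 1177002680882) (nat_lit 1) (nat_lit 4) (nat_lit 2) (nat_lit 5) (nat_lit 2) (nat_lit 4) (nat_lit 526) (nat_lit 396) (nat_lit 278)) (XT.lf (nat_lit 0) (nat_lit 6517618793377) (nat_lit 76) (nat_lit 1243956182189) (nat_lit 76) (nat_lit 1238946266988) (nat_lit 1) (nat_lit 4) (nat_lit 2) (nat_lit 5) (nat_lit 2) (nat_lit 4) (nat_lit 527) (nat_lit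 396) (nat_lit 277)))) (XT.nd (nat_lit 78) (nat_lit 0) (nat_lit 0) (XT.lf (nat_lit 0) (nat_lit 7101445060473) (nat_lit 76) (nat_lit 1310855823524) (nat_lit 76) (nat_lit 1305845869228) (nat_lit 1) (nat_lit 4) (nat_lit 2) (nat_lit 5) (nat_lit 2) (nat_lit 4) (nat_lit 528) (nat_lit 396) (nat_lit 276)) (XT.nd (nat_lit 78) (nat_lit 0) (nat_lit 0) (XT.lf (nat_lit 0) (nat_lit 7731976491176) (nat_lit 76) (nat_lit 1383107920185) (nat_lit 76) (nat_lit 1378097929690) (nat_lit 1) (nat_lit 4) (nat_lit 2) (nat_lit 5) (nat_lit 2) (nat_lit 4) (nat_lit 529) (nat_lit 396) (nat_lit 275)) (XT.lf (nat_lit 0) (nat_lit 8412949568037) (nat_lit 76) (nat_lit 1461140632745) (nat_lit 76) (nat_lit 1456130608733) (nat_lit 1) (nat_lit 4) (nat_lit 2) (nat_lit 5) (nat_lit 2) (nat_lit 4) (nat_lit 530) (nat_lit 396) (nat_lit 274)))))) (XT.nd (nat_lit 52806) (nat_lit 0) (nat_lit 5244) (XT.nd (nat_lit 234) (nat_lit 0) (nat_lit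 0) (XT.nd (nat_lit 78) (nat_lit 0) (nat_lit 0) (XT.lf (nat_lit 0) (nat_lit 9148399687069) (nat_lit 76) (nat_lit 1545416377278) (nat_lit 76) (nat_lit 1540406322231) (nat_lit 1) (nat_lit 4) (nat_lit 2) (nat_lit 5) (nat_lit 2) (nat_lit 4) (nat_lit 531) (nat_lit 396) (nat_lit 273)) (XT.nd (nat_lit 78) (nat_lit 0) (nat_lit 0) (XT.lf (nat_lit 0) (nat_lit 9942685071199) (nat_lit 76) (nat_lit 1636434565604) (nat_lit 76) (nat_lit 1631424481822) (nat_lit 1) (nat_lit 4) (nat_lit 2) (nat_lit 5) (nat_lit 2) (nat_lit 4) (nat_lit 532) (nat_lit 396) (nat_lit 272)) (XT.lf (nat_lit 0) (nat_lit 10800512596777) (nat_lit 76) (nat_lit 1734734564764) (nat_lit 76) (nat_lit 1729724454375) (nat_lit 1) (nat_lit 4) (nat_lit 2) (nat_lit 5) (nat_lit 2) (nat_lit 4) (nat_lit 533) (nat_lit 396) (nat_lit 271)))) (XT.nd (nat_lit 78) (nat_lit 0) (nat_lit 0) (XT.lf (nat_lit 0) (nat_lit 11726965686177) (nat_lit 76) (nat_lit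 1840898893273) (nat_lit 76) (nat_lit 1835888758248) (nat_lit 1) (nat_lit 4) (nat_lit 2) (nat_lit 5) (nat_lit 2) (nat_lit 4) (nat_lit 534) (nat_lit 396) (nat_lit 270)) (XT.nd (nat_lit 52416) (nat_lit 0) (nat_lit 7296) (XT.lf (nat_lit 0) (nat_lit 12727534431781) (nat_lit 76) (nat_lit 1955556673077) (nat_lit 76) (nat_lit 1950546515240) (nat_lit 1) (nat_lit 4) (nat_lit 2) (nat_lit 5) (nat_lit 2) (nat_lit 4) (nat_lit 535) (nat_lit 396) (nat_lit 269)) (XT.lf (nat_lit 0) (nat_lit 1633958361) (nat_lit 228) (nat_lit 857368550) (nat_lit 228) (nat_lit 857368550) (nat_lit 97) (nat_lit 4) (nat_lit 100) (nat_lit 5) (nat_lit 100) (nat_lit 4) (nat_lit 406) (nat_lit 397) (nat_lit 397))))) (XT.nd (nat_lit 234) (nat_lit 1216) (nat_lit 0) (XT.nd (nat_lit 78) (nat_lit 456) (nat_lit 0) (XT.lf (nat_lit 0) (nat_lit 1057554457) (nat_lit 304) (nat_lit 498557328) (nat_lit 380) (nat_lit 5239017203) (nat_lit 92) (nat_lit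 5) (nat_lit 96) (nat_lit 5) (nat_lit 97) (nat_lit 4) (nat_lit 407) (nat_lit 397) (nat_lit 396)) (XT.nd (nat_lit 78) (nat_lit 456) (nat_lit 0) (XT.lf (nat_lit 0) (nat_lit 4837611861) (nat_lit 380) (nat_lit 1120685223) (nat_lit 0) (nat_lit 951596118) (nat_lit 92) (nat_lit 5) (nat_lit 97) (nat_lit 4) (nat_lit 92) (nat_lit 4) (nat_lit 408) (nat_lit 397) (nat_lit 395)) (XT.lf (nat_lit 0) (nat_lit 1126932553) (nat_lit 456) (nat_lit 3271881955) (nat_lit 76) (nat_lit 2644791791) (nat_lit 86) (nat_lit 5) (nat_lit 92) (nat_lit 5) (nat_lit 87) (nat_lit 4) (nat_lit 409) (nat_lit 397) (nat_lit 394)))) (XT.nd (nat_lit 156) (nat_lit 684) (nat_lit 0) (XT.nd (nat_lit 78) (nat_lit 76) (nat_lit 0) (XT.lf (nat_lit 0) (nat_lit 1717709657) (nat_lit 456) (nat_lit 2578135319) (nat_lit 532) (nat_lit 2901887404) (nat_lit 80) (nat_lit 5) (nat_lit 86) (nat_lit 5) (nat_lit 87) (nat_lit 4) (nat_lit 410) (nat_lit 397)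 (nat_lit 393)) (XT.lf (nat_lit 0) (nat_lit 187462154) (nat_lit 532) (nat_lit 329101226) (nat_lit 76) (nat_lit 6858924593) (nat_lit 79) (nat_lit 5) (nat_lit 86) (nat_lit 5) (nat_lit 80) (nat_lit 5) (nat_lit 411) (nat_lit 397) (nat_lit 392))) (XT.nd (nat_lit 78) (nat_lit 228) (nat_lit 0) (XT.lf (nat_lit 0) (nat_lit 3314996152) (nat_lit 532) (nat_lit 2432572328) (nat_lit 76) (nat_lit 1818103606) (nat_lit 73) (nat_lit 5) (nat_lit 80) (nat_lit 5) (nat_lit 74) (nat_lit 4) (nat_lit 412) (nat_lit 397) (nat_lit 391)) (XT.lf (nat_lit 0) (nat_lit 3180469894) (nat_lit 228) (nat_lit 3399128910) (nat_lit 304) (nat_lit 1200581247) (nat_lit 70) (nat_lit 5) (nat_lit 73) (nat_lit 5) (nat_lit 74) (nat_lit 4) (nat_lit 413) (nat_lit 397) (nat_lit 390))))))) (XT.nd (nat_lit 936) (nat_lit 1064) (nat_lit 0) (XT.nd (nat_lit 468) (nat_lit 836) (nat_lit 0) (XT.nd (nat_lit 234) (nat_lit 456) (nat_lit 0) (XT.nd (nat_lit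 78) (nat_lit 228) (nat_lit 0) (XT.lf (nat_lit 0) (nat_lit 1128352709) (nat_lit 228) (nat_lit 748203828) (nat_lit 304) (nat_lit 6140293289) (nat_lit 66) (nat_lit 5) (nat_lit 69) (nat_lit 5) (nat_lit 70) (nat_lit 5) (nat_lit 414) (nat_lit 397) (nat_lit 389)) (XT.nd (nat_lit 78) (nat_lit 228) (nat_lit 0) (XT.lf (nat_lit 0) (nat_lit 5115685618) (nat_lit 304) (nat_lit 1030289663) (nat_lit 76) (nat_lit 2125574918) (nat_lit 66) (nat_lit 5) (nat_lit 70) (nat_lit 5) (nat_lit 67) (nat_lit 4) (nat_lit 415) (nat_lit 397) (nat_lit 388)) (XT.lf (nat_lit 0) (nat_lit 25448681) (nat_lit 228) (nat_lit 3247571010) (nat_lit 76) (nat_lit 5276597311) (nat_lit 63) (nat_lit 5) (nat_lit 66) (nat_lit 5) (nat_lit 64) (nat_lit 5) (nat_lit 416) (nat_lit 397) (nat_lit 387)))) (XT.nd (nat_lit 78) (nat_lit 228) (nat_lit 0) (XT.lf (nat_lit 0) (nat_lit 3185363747) (nat_lit 228) (nat_lit 29887060) (nat_lit 304) (nat_lit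 5634198904) (nat_lit 60) (nat_lit 5) (nat_lit 63) (nat_lit 5) (nat_lit 64) (nat_lit 5) (nat_lit 417) (nat_lit 397) (nat_lit 386)) (XT.nd (nat_lit 78) (nat_lit 76) (nat_lit 0) (XT.lf (nat_lit 0) (nat_lit 859241047) (nat_lit 152) (nat_lit 5821430269) (nat_lit 228) (nat_lit 2490997058) (nat_lit 58) (nat_lit 5) (nat_lit 60) (nat_lit 5) (nat_lit 61) (nat_lit 4) (nat_lit 418) (nat_lit 397) (nat_lit 385)) (XT.lf (nat_lit 0) (nat_lit 845990606) (nat_lit 228) (nat_lit 1559408174) (nat_lit 76) (nat_lit 7113553562) (nat_lit 57) (nat_lit 5) (nat_lit 60) (nat_lit 5) (nat_lit 58) (nat_lit 5) (nat_lit 419) (nat_lit 397) (nat_lit 384))))) (XT.nd (nat_lit 234) (nat_lit 304) (nat_lit 0) (XT.nd (nat_lit 78) (nat_lit 380) (nat_lit 0) (XT.lf (nat_lit 0) (nat_lit 4327941644) (nat_lit 228) (nat_lit 4203056861) (nat_lit 76) (nat_lit 1356864842) (nat_lit 55) (nat_lit 5) (nat_lit 58) (nat_lit 5) (nat_lit 56) (nat_lit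 4) (nat_lit 420) (nat_lit 397) (nat_lit 383)) (XT.nd (nat_lit 78) (nat_lit 228) (nat_lit 0) (XT.lf (nat_lit 0) (nat_lit 3171382686) (nat_lit 152) (nat_lit 4944720861) (nat_lit 228) (nat_lit 2167996348) (nat_lit 53) (nat_lit 5) (nat_lit 55) (nat_lit 5) (nat_lit 56) (nat_lit 4) (nat_lit 421) (nat_lit 397) (nat_lit 382)) (XT.lf (nat_lit 0) (nat_lit 413624066) (nat_lit 152) (nat_lit 981869772) (nat_lit 228) (nat_lit 9315685201) (nat_lit 50) (nat_lit 5) (nat_lit 52) (nat_lit 5) (nat_lit 53) (nat_lit 5) (nat_lit 422) (nat_lit 397) (nat_lit 381)))) (XT.nd (nat_lit 78) (nat_lit 304) (nat_lit 0) (XT.lf (nat_lit 0) (nat_lit 5256541774) (nat_lit 228) (nat_lit 2594679611) (nat_lit 76) (nat_lit 3306349551) (nat_lit 50) (nat_lit 5) (nat_lit 53) (nat_lit 5) (nat_lit 51) (nat_lit 4) (nat_lit 423) (nat_lit 397) (nat_lit 380)) (XT.nd (nat_lit 78) (nat_lit 228) (nat_lit 0) (XT.lf (nat_lit 0) (nat_lit 5761475628)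 (nat_lit 76) (nat_lit 3690883051) (nat_lit 152) (nat_lit 2185263105) (nat_lit 49) (nat_lit 5) (nat_lit 50) (nat_lit 5) (nat_lit 51) (nat_lit 4) (nat_lit 424) (nat_lit 397) (nat_lit 379)) (XT.lf (nat_lit 0) (nat_lit 1757760462) (nat_lit 228) (nat_lit 9531897318) (nat_lit 76) (nat_lit 861203809) (nat_lit 46) (nat_lit 5) (nat_lit 49) (nat_lit 5) (nat_lit 47) (nat_lit 4) (nat_lit 425) (nat_lit 397) (nat_lit 378)))))) (XT.nd (nat_lit 468) (nat_lit 532) (nat_lit 0) (XT.nd (nat_lit 234) (nat_lit 228) (nat_lit 0) (XT.nd (nat_lit 78) (nat_lit 304) (nat_lit 0) (XT.lf (nat_lit 0) (nat_lit 6024806335) (nat_lit 228) (nat_lit 951067915) (nat_lit 76) (nat_lit 5714628824) (nat_lit 46) (nat_lit 5) (nat_lit 49) (nat_lit 5) (nat_lit 47) (nat_lit 4) (nat_lit 426) (nat_lit 397) (nat_lit 377)) (XT.nd (nat_lit 78) (nat_lit 228) (nat_lit 0) (XT.lf (nat_lit 0) (nat_lit 8530138644) (nat_lit 76) (nat_lit 2184094818)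 (nat_lit 152) (nat_lit 2552614542) (nat_lit 45) (nat_lit 5) (nat_lit 46) (nat_lit 5) (nat_lit 47) (nat_lit 4) (nat_lit 427) (nat_lit 397) (nat_lit 376)) (XT.lf (nat_lit 0) (nat_lit 1891714690) (nat_lit 228) (nat_lit 9035660551) (nat_lit 76) (nat_lit 2950563729) (nat_lit 42) (nat_lit 5) (nat_lit 45) (nat_lit 5) (nat_lit 43) (nat_lit 4) (nat_lit 428) (nat_lit 397) (nat_lit 375)))) (XT.nd (nat_lit 78) (nat_lit 152) (nat_lit 0) (XT.lf (nat_lit 0) (nat_lit 618069282) (nat_lit 76) (nat_lit 6018976537) (nat_lit 152) (nat_lit 7888908959) (nat_lit 41) (nat_lit 5) (nat_lit 42) (nat_lit 5) (nat_lit 43) (nat_lit 4) (nat_lit 429) (nat_lit 397) (nat_lit 374)) (XT.nd (nat_lit 78) (nat_lit 152) (nat_lit 0) (XT.lf (nat_lit 0) (nat_lit 11347565014) (nat_lit 76) (nat_lit 544294865) (nat_lit 152) (nat_lit 3323573402) (nat_lit 41) (nat_lit 5) (nat_lit 42) (nat_lit 5) (nat_lit 43) (nat_lit 4) (nat_lit 430) (nat_lit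 397) (nat_lit 373)) (XT.lf (nat_lit 0) (nat_lit 1718185989) (nat_lit 152) (nat_lit 8993921197) (nat_lit 76) (nat_lit 5229552748) (nat_lit 39) (nat_lit 5) (nat_lit 41) (nat_lit 5) (nat_lit 40) (nat_lit 4) (nat_lit 431) (nat_lit 397) (nat_lit 372))))) (XT.nd (nat_lit 234) (nat_lit 304) (nat_lit 0) (XT.nd (nat_lit 78) (nat_lit 152) (nat_lit 0) (XT.lf (nat_lit 0) (nat_lit 1921842094) (nat_lit 76) (nat_lit 5120834549) (nat_lit 152) (nat_lit 9671693862) (nat_lit 38) (nat_lit 5) (nat_lit 39) (nat_lit 5) (nat_lit 40) (nat_lit 4) (nat_lit 432) (nat_lit 397) (nat_lit 371)) (XT.nd (nat_lit 78) (nat_lit 152) (nat_lit 0) (XT.lf (nat_lit 0) (nat_lit 12958812754) (nat_lit 152) (nat_lit 3538683793) (nat_lit 0) (nat_lit 1038153788) (nat_lit 38) (nat_lit 5) (nat_lit 40) (nat_lit 4) (nat_lit 38) (nat_lit 4) (nat_lit 433) (nat_lit 397) (nat_lit 370)) (XT.lf (nat_lit 0) (nat_lit 1127948729) (nat_lit 152) (nat_lit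 9700885656) (nat_lit 76) (nat_lit 7572132033) (nat_lit 36) (nat_lit 5) (nat_lit 38) (nat_lit 5) (nat_lit 37) (nat_lit 4) (nat_lit 434) (nat_lit 397) (nat_lit 369)))) (XT.nd (nat_lit 156) (nat_lit 228) (nat_lit 0) (XT.nd (nat_lit 78) (nat_lit 0) (nat_lit 0) (XT.lf (nat_lit 0) (nat_lit 2611885718) (nat_lit 76) (nat_lit 4491914654) (nat_lit 152) (nat_lit 12217246864) (nat_lit 35) (nat_lit 5) (nat_lit 36) (nat_lit 5) (nat_lit 37) (nat_lit 4) (nat_lit 435) (nat_lit 397) (nat_lit 368)) (XT.lf (nat_lit 0) (nat_lit 13787182964) (nat_lit 152) (nat_lit 4085306225) (nat_lit 0) (nat_lit 2423893677) (nat_lit 35) (nat_lit 5) (nat_lit 37) (nat_lit 4) (nat_lit 35) (nat_lit 4) (nat_lit 436) (nat_lit 397) (nat_lit 367))) (XT.nd (nat_lit 78) (nat_lit 152) (nat_lit 0) (XT.lf (nat_lit 0) (nat_lit 9743534685) (nat_lit 76) (nat_lit 11520826659) (nat_lit 76) (nat_lit 64658965) (nat_lit 34) (nat_lit 4) (nat_lit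 35) (nat_lit 5) (nat_lit 35) (nat_lit 4) (nat_lit 437) (nat_lit 397) (nat_lit 366)) (XT.lf (nat_lit 0) (nat_lit 2243121335) (nat_lit 76) (nat_lit 4384420757) (nat_lit 152) (nat_lit 15797301274) (nat_lit 32) (nat_lit 5) (nat_lit 33) (nat_lit 5) (nat_lit 34) (nat_lit 4) (nat_lit 438) (nat_lit 397) (nat_lit 365))))))))
noncomputable def xc85 : XT := (XT.nd (nat_lit 1950) (nat_lit 836) (nat_lit 0) (XT.nd (nat_lit 936) (nat_lit 684) (nat_lit 0) (XT.nd (nat_lit 468) (nat_lit 380) (nat_lit 0) (XT.nd (nat_lit 234) (nat_lit 152) (nat_lit 0) (XT.nd (nat_lit 78) (nat_lit 228) (nat_lit 0) (XT.lf (nat_lit 0) (nat_lit 14165687032) (nat_lit 152) (nat_lit 6012623731) (nat_lit 0) (nat_lit 3404766215) (nat_lit 32) (nat_lit 5) (nat_lit 34) (nat_lit 4) (nat_lit 32) (nat_lit 4) (nat_lit 439) (nat_lit 397) (nat_lit 364)) (XT.nd (nat_lit 78) (nat_lit 152) (nat_lit 0) (XT.lf (nat_lit 0) (nat_lit 9487089565) (nat_lit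 76) (nat_lit 13077719283) (nat_lit 76) (nat_lit 2248530065) (nat_lit 31) (nat_lit 4) (nat_lit 32) (nat_lit 5) (nat_lit 32) (nat_lit 4) (nat_lit 440) (nat_lit 397) (nat_lit 363)) (XT.lf (nat_lit 0) (nat_lit 146914432) (nat_lit 76) (nat_lit 5160448612) (nat_lit 152) (nat_lit 20817023858) (nat_lit 29) (nat_lit 5) (nat_lit 30) (nat_lit 5) (nat_lit 31) (nat_lit 4) (nat_lit 441) (nat_lit 397) (nat_lit 362)))) (XT.nd (nat_lit 78) (nat_lit 152) (nat_lit 0) (XT.lf (nat_lit 0) (nat_lit 13774350797) (nat_lit 152) (nat_lit 10092449456) (nat_lit 0) (nat_lit 3634600933) (nat_lit 29) (nat_lit 5) (nat_lit 31) (nat_lit 4) (nat_lit 29) (nat_lit 4) (nat_lit 442) (nat_lit 397) (nat_lit 361)) (XT.nd (nat_lit 78) (nat_lit 76) (nat_lit 0) (XT.lf (nat_lit 0) (nat_lit 7134004989) (nat_lit 76) (nat_lit 16013114853) (nat_lit 76) (nat_lit 5823185676) (nat_lit 28) (nat_lit 4) (nat_lit 29) (nat_lit 5) (nat_lit 29) (nat_lit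 4) (nat_lit 443) (nat_lit 397) (nat_lit 360)) (XT.lf (nat_lit 0) (nat_lit 2783396463) (nat_lit 152) (nat_lit 4446926859) (nat_lit 76) (nat_lit 23304691553) (nat_lit 27) (nat_lit 5) (nat_lit 29) (nat_lit 5) (nat_lit 28) (nat_lit 4) (nat_lit 444) (nat_lit 397) (nat_lit 359))))) (XT.nd (nat_lit 234) (nat_lit 228) (nat_lit 0) (XT.nd (nat_lit 78) (nat_lit 76) (nat_lit 0) (XT.lf (nat_lit 0) (nat_lit 12113806260) (nat_lit 152) (nat_lit 17475172356) (nat_lit 0) (nat_lit 2595832022) (nat_lit 26) (nat_lit 5) (nat_lit 28) (nat_lit 4) (nat_lit 26) (nat_lit 4) (nat_lit 445) (nat_lit 397) (nat_lit 358)) (XT.nd (nat_lit 78) (nat_lit 0) (nat_lit 0) (XT.lf (nat_lit 0) (nat_lit 1434094845) (nat_lit 76) (nat_lit 21032634156) (nat_lit 76) (nat_lit 11477776625) (nat_lit 25) (nat_lit 4) (nat_lit 26) (nat_lit 5) (nat_lit 26) (nat_lit 4) (nat_lit 446) (nat_lit 397) (nat_lit 357)) (XT.lf (nat_lit 0) (nat_lit 22712061146)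 (nat_lit 76) (nat_lit 11344611336) (nat_lit 76) (nat_lit 1755602607) (nat_lit 25) (nat_lit 4) (nat_lit 26) (nat_lit 5) (nat_lit 26) (nat_lit 4) (nat_lit 447) (nat_lit 397) (nat_lit 356)))) (XT.nd (nat_lit 78) (nat_lit 76) (nat_lit 0) (XT.lf (nat_lit 0) (nat_lit 7917447479) (nat_lit 76) (nat_lit 514320639) (nat_lit 152) (nat_lit 29370887394) (nat_lit 23) (nat_lit 5) (nat_lit 24) (nat_lit 5) (nat_lit 25) (nat_lit 4) (nat_lit 448) (nat_lit 397) (nat_lit 355)) (XT.nd (nat_lit 78) (nat_lit 76) (nat_lit 0) (XT.lf (nat_lit 0) (nat_lit 19910382983) (nat_lit 152) (nat_lit 9017266893) (nat_lit 0) (nat_lit 10975281729) (nat_lit 23) (nat_lit 5) (nat_lit 25) (nat_lit 4) (nat_lit 23) (nat_lit 4) (nat_lit 449) (nat_lit 397) (nat_lit 354)) (XT.lf (nat_lit 0) (nat_lit 14089960204) (nat_lit 76) (nat_lit 18509067537) (nat_lit 76) (nat_lit 9548864133) (nat_lit 22) (nat_lit 4) (nat_lit 23) (nat_lit 5) (nat_lit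 23) (nat_lit 4) (nat_lit 450) (nat_lit 397) (nat_lit 353)))))) (XT.nd (nat_lit 468) (nat_lit 304) (nat_lit 0) (XT.nd (nat_lit 234) (nat_lit 228) (nat_lit 0) (XT.nd (nat_lit 78) (nat_lit 76) (nat_lit 0) (XT.lf (nat_lit 0) (nat_lit 1836326733) (nat_lit 152) (nat_lit 5163886528) (nat_lit 76) (nat_lit 37553502208) (nat_lit 21) (nat_lit 5) (nat_lit 23) (nat_lit 5) (nat_lit 22) (nat_lit 4) (nat_lit 451) (nat_lit 397) (nat_lit 352)) (XT.nd (nat_lit 78) (nat_lit 0) (nat_lit 0) (XT.lf (nat_lit 0) (nat_lit 14194914037) (nat_lit 152) (nat_lit 27033991297) (nat_lit 0) (nat_lit 5856981461) (nat_lit 20) (nat_lit 5) (nat_lit 22) (nat_lit 4) (nat_lit 20) (nat_lit 4) (nat_lit 452) (nat_lit 397) (nat_lit 351)) (XT.lf (nat_lit 0) (nat_lit 27813124890) (nat_lit 152) (nat_lit 2529091517) (nat_lit 0) (nat_lit 19456741485) (nat_lit 20) (nat_lit 5) (nat_lit 22) (nat_lit 4) (nat_lit 20) (nat_lit 4) (nat_lit 453)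 (nat_lit 397) (nat_lit 350)))) (XT.nd (nat_lit 78) (nat_lit 152) (nat_lit 0) (XT.lf (nat_lit 0) (nat_lit 25086617046) (nat_lit 76) (nat_lit 17985894277) (nat_lit 76) (nat_lit 9612426770) (nat_lit 19) (nat_lit 4) (nat_lit 20) (nat_lit 5) (nat_lit 20) (nat_lit 4) (nat_lit 454) (nat_lit 397) (nat_lit 349)) (XT.nd (nat_lit 78) (nat_lit 76) (nat_lit 0) (XT.lf (nat_lit 0) (nat_lit 3582617608) (nat_lit 152) (nat_lit 937441493) (nat_lit 76) (nat_lit 51272969872) (nat_lit 18) (nat_lit 5) (nat_lit 20) (nat_lit 5) (nat_lit 19) (nat_lit 4) (nat_lit 455) (nat_lit 397) (nat_lit 348)) (XT.lf (nat_lit 0) (nat_lit 18227114152) (nat_lit 152) (nat_lit 30383931553) (nat_lit 0) (nat_lit 10445694724) (nat_lit 17) (nat_lit 5) (nat_lit 19) (nat_lit 4) (nat_lit 17) (nat_lit 4) (nat_lit 456) (nat_lit 397) (nat_lit 347))))) (XT.nd (nat_lit 234) (nat_lit 152) (nat_lit 0) (XT.nd (nat_lit 78) (nat_lit 152) (nat_lit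 0) (XT.lf (nat_lit 0) (nat_lit 34139255344) (nat_lit 152) (nat_lit 2089328743) (nat_lit 0) (nat_lit 26345278592) (nat_lit 17) (nat_lit 5) (nat_lit 19) (nat_lit 4) (nat_lit 17) (nat_lit 4) (nat_lit 457) (nat_lit 397) (nat_lit 346)) (XT.nd (nat_lit 78) (nat_lit 76) (nat_lit 0) (XT.lf (nat_lit 0) (nat_lit 29873462611) (nat_lit 76) (nat_lit 22125273579) (nat_lit 76) (nat_lit 14319669675) (nat_lit 16) (nat_lit 4) (nat_lit 17) (nat_lit 5) (nat_lit 17) (nat_lit 4) (nat_lit 458) (nat_lit 397) (nat_lit 345)) (XT.lf (nat_lit 0) (nat_lit 892784189) (nat_lit 152) (nat_lit 5959378672) (nat_lit 76) (nat_lit 63507406184) (nat_lit 15) (nat_lit 5) (nat_lit 17) (nat_lit 5) (nat_lit 16) (nat_lit 4) (nat_lit 459) (nat_lit 397) (nat_lit 344)))) (XT.nd (nat_lit 156) (nat_lit 76) (nat_lit 0) (XT.nd (nat_lit 78) (nat_lit 0) (nat_lit 0) (XT.lf (nat_lit 0) (nat_lit 17436939980) (nat_lit 152) (nat_lit 46995932917)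 (nat_lit 0) (nat_lit 10190330540) (nat_lit 14) (nat_lit 5) (nat_lit 16) (nat_lit 4) (nat_lit 14) (nat_lit 4) (nat_lit 460) (nat_lit 397) (nat_lit 343)) (XT.lf (nat_lit 0) (nat_lit 35609074791) (nat_lit 152) (nat_lit 15240579477) (nat_lit 0) (nat_lit 28353919047) (nat_lit 14) (nat_lit 5) (nat_lit 16) (nat_lit 4) (nat_lit 14) (nat_lit 4) (nat_lit 461) (nat_lit 397) (nat_lit 342))) (XT.nd (nat_lit 78) (nat_lit 0) (nat_lit 0) (XT.lf (nat_lit 0) (nat_lit 19977480398) (nat_lit 76) (nat_lit 35700270094) (nat_lit 76) (nat_lit 28437201106) (nat_lit 13) (nat_lit 4) (nat_lit 14) (nat_lit 5) (nat_lit 14) (nat_lit 4) (nat_lit 462) (nat_lit 397) (nat_lit 341)) (XT.lf (nat_lit 0) (nat_lit 58804605304) (nat_lit 76) (nat_lit 18927315623) (nat_lit 76) (nat_lit 11656919556) (nat_lit 13) (nat_lit 4) (nat_lit 14) (nat_lit 5) (nat_lit 14) (nat_lit 4) (nat_lit 463) (nat_lit 397) (nat_lit 340))))))) (XT.nd (nat_lit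 936) (nat_lit 380) (nat_lit 0) (XT.nd (nat_lit 468) (nat_lit 228) (nat_lit 0) (XT.nd (nat_lit 234) (nat_lit 76) (nat_lit 0) (XT.nd (nat_lit 78) (nat_lit 0) (nat_lit 0) (XT.lf (nat_lit 0) (nat_lit 5712103365) (nat_lit 76) (nat_lit 532744597) (nat_lit 152) (nat_lit 88819152017) (nat_lit 11) (nat_lit 5) (nat_lit 12) (nat_lit 5) (nat_lit 13) (nat_lit 4) (nat_lit 464) (nat_lit 397) (nat_lit 339)) (XT.nd (nat_lit 78) (nat_lit 0) (nat_lit 0) (XT.lf (nat_lit 0) (nat_lit 26237080613) (nat_lit 152) (nat_lit 55335687606) (nat_lit 0) (nat_lit 19493134144) (nat_lit 11) (nat_lit 5) (nat_lit 13) (nat_lit 4) (nat_lit 11) (nat_lit 4) (nat_lit 465) (nat_lit 397) (nat_lit 338)) (XT.lf (nat_lit 0) (nat_lit 47810292584) (nat_lit 152) (nat_lit 18678176093) (nat_lit 0) (nat_lit 41060960493) (nat_lit 11) (nat_lit 5) (nat_lit 13) (nat_lit 4) (nat_lit 11) (nat_lit 4) (nat_lit 466) (nat_lit 397) (nat_lit 337))))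 (XT.nd (nat_lit 78) (nat_lit 0) (nat_lit 0) (XT.lf (nat_lit 0) (nat_lit 21948640007) (nat_lit 76) (nat_lit 49658737922) (nat_lit 76) (nat_lit 42904419145) (nat_lit 10) (nat_lit 4) (nat_lit 11) (nat_lit 5) (nat_lit 11) (nat_lit 4) (nat_lit 467) (nat_lit 397) (nat_lit 336)) (XT.nd (nat_lit 78) (nat_lit 0) (nat_lit 0) (XT.lf (nat_lit 0) (nat_lit 66828140412) (nat_lit 76) (nat_lit 30961710337) (nat_lit 76) (nat_lit 24202774258) (nat_lit 10) (nat_lit 4) (nat_lit 11) (nat_lit 5) (nat_lit 11) (nat_lit 4) (nat_lit 468) (nat_lit 397) (nat_lit 335)) (XT.lf (nat_lit 0) (nat_lit 115242718063) (nat_lit 76) (nat_lit 10797283157) (nat_lit 76) (nat_lit 4034071798) (nat_lit 10) (nat_lit 4) (nat_lit 11) (nat_lit 5) (nat_lit 11) (nat_lit 4) (nat_lit 469) (nat_lit 397) (nat_lit 334))))) (XT.nd (nat_lit 234) (nat_lit 76) (nat_lit 0) (XT.nd (nat_lit 78) (nat_lit 0) (nat_lit 0) (XT.lf (nat_lit 0) (nat_lit 17842976300)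 (nat_lit 152) (nat_lit 109269220527) (nat_lit 0) (nat_lit 11577078197) (nat_lit 8) (nat_lit 5) (nat_lit 10) (nat_lit 4) (nat_lit 8) (nat_lit 4) (nat_lit 470) (nat_lit 397) (nat_lit 333)) (XT.nd (nat_lit 78) (nat_lit 0) (nat_lit 0) (XT.lf (nat_lit 0) (nat_lit 41923197691) (nat_lit 152) (nat_lit 70354531134) (nat_lit 0) (nat_lit 35653905733) (nat_lit 8) (nat_lit 5) (nat_lit 10) (nat_lit 4) (nat_lit 8) (nat_lit 4) (nat_lit 471) (nat_lit 397) (nat_lit 332)) (XT.lf (nat_lit 0) (nat_lit 67906185673) (nat_lit 152) (nat_lit 28375338183) (nat_lit 0) (nat_lit 61633751257) (nat_lit 8) (nat_lit 5) (nat_lit 10) (nat_lit 4) (nat_lit 8) (nat_lit 4) (nat_lit 472) (nat_lit 397) (nat_lit 331)))) (XT.nd (nat_lit 78) (nat_lit 0) (nat_lit 0) (XT.lf (nat_lit 0) (nat_lit 17807949679) (nat_lit 76) (nat_lit 78566245447) (nat_lit 76) (nat_lit 72290901348) (nat_lit 7) (nat_lit 4) (nat_lit 8) (nat_lit 5) (nat_lit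 8) (nat_lit 4) (nat_lit 473) (nat_lit 397) (nat_lit 330)) (XT.nd (nat_lit 78) (nat_lit 0) (nat_lit 0) (XT.lf (nat_lit 0) (nat_lit 69255705825) (nat_lit 76) (nat_lit 58618438113) (nat_lit 76) (nat_lit 52340399862) (nat_lit 7) (nat_lit 4) (nat_lit 8) (nat_lit 5) (nat_lit 8) (nat_lit 4) (nat_lit 474) (nat_lit 397) (nat_lit 329)) (XT.lf (nat_lit 0) (nat_lit 124778610823) (nat_lit 76) (nat_lit 37095724656) (nat_lit 76) (nat_lit 30815191820) (nat_lit 7) (nat_lit 4) (nat_lit 8) (nat_lit 5) (nat_lit 8) (nat_lit 4) (nat_lit 475) (nat_lit 397) (nat_lit 328)))))) (XT.nd (nat_lit 468) (nat_lit 228) (nat_lit 0) (XT.nd (nat_lit 234) (nat_lit 0) (nat_lit 0) (XT.nd (nat_lit 78) (nat_lit 152) (nat_lit 0) (XT.lf (nat_lit 0) (nat_lit 184705689295) (nat_lit 76) (nat_lit 13870563071) (nat_lit 76) (nat_lit 7587720435) (nat_lit 7) (nat_lit 4) (nat_lit 8) (nat_lit 5) (nat_lit 8) (nat_lit 4) (nat_lit 476) (nat_lit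 397) (nat_lit 327)) (XT.nd (nat_lit 78) (nat_lit 0) (nat_lit 0) (XT.lf (nat_lit 0) (nat_lit 17619275454) (nat_lit 152) (nat_lit 191183852618) (nat_lit 0) (nat_lit 11799848286) (nat_lit 5) (nat_lit 5) (nat_lit 7) (nat_lit 4) (nat_lit 5) (nat_lit 4) (nat_lit 477) (nat_lit 397) (nat_lit 326)) (XT.lf (nat_lit 0) (nat_lit 45377759383) (nat_lit 152) (nat_lit 151171486612) (nat_lit 0) (nat_lit 39556498622) (nat_lit 5) (nat_lit 5) (nat_lit 7) (nat_lit 4) (nat_lit 5) (nat_lit 4) (nat_lit 478) (nat_lit 397) (nat_lit 325)))) (XT.nd (nat_lit 78) (nat_lit 0) (nat_lit 0) (XT.lf (nat_lit 0) (nat_lit 75340849190) (nat_lit 152) (nat_lit 107991280408) (nat_lit 0) (nat_lit 69517890656) (nat_lit 5) (nat_lit 5) (nat_lit 7) (nat_lit 4) (nat_lit 5) (nat_lit 4) (nat_lit 479) (nat_lit 397) (nat_lit 324)) (XT.nd (nat_lit 78) (nat_lit 0) (nat_lit 0) (XT.lf (nat_lit 0) (nat_lit 107686103926) (nat_lit 152) (nat_lit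 61387351301) (nat_lit 0) (nat_lit 101861573380) (nat_lit 5) (nat_lit 5) (nat_lit 7) (nat_lit 4) (nat_lit 5) (nat_lit 4) (nat_lit 480) (nat_lit 397) (nat_lit 323)) (XT.lf (nat_lit 0) (nat_lit 142605199173) (nat_lit 152) (nat_lit 11083527861) (nat_lit 0) (nat_lit 136779213062) (nat_lit 5) (nat_lit 5) (nat_lit 7) (nat_lit 4) (nat_lit 5) (nat_lit 4) (nat_lit 481) (nat_lit 397) (nat_lit 322))))) (XT.nd (nat_lit 234) (nat_lit 152) (nat_lit 0) (XT.nd (nat_lit 78) (nat_lit 0) (nat_lit 0) (XT.lf (nat_lit 0) (nat_lit 45494085028) (nat_lit 76) (nat_lit 135905111715) (nat_lit 76) (nat_lit 130077777857) (nat_lit 4) (nat_lit 4) (nat_lit 5) (nat_lit 5) (nat_lit 5) (nat_lit 4) (nat_lit 482) (nat_lit 397) (nat_lit 321)) (XT.nd (nat_lit 78) (nat_lit 0) (nat_lit 0) (XT.lf (nat_lit 0) (nat_lit 107202588388) (nat_lit 76) (nat_lit 116384738160) (nat_lit 76) (nat_lit 110556156389) (nat_lit 4) (nat_lit 4) (nat_lit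 5) (nat_lit 5) (nat_lit 5) (nat_lit 4) (nat_lit 483) (nat_lit 397) (nat_lit 320)) (XT.lf (nat_lit 0) (nat_lit 173824023302) (nat_lit 76) (nat_lit 95314973376) (nat_lit 76) (nat_lit 89485236129) (nat_lit 4) (nat_lit 4) (nat_lit 5) (nat_lit 5) (nat_lit 5) (nat_lit 4) (nat_lit 484) (nat_lit 397) (nat_lit 319)))) (XT.nd (nat_lit 156) (nat_lit 152) (nat_lit 0) (XT.nd (nat_lit 78) (nat_lit 0) (nat_lit 0) (XT.lf (nat_lit 0) (nat_lit 245753183458) (nat_lit 76) (nat_lit 72570959497) (nat_lit 76) (nat_lit 66740152366) (nat_lit 4) (nat_lit 4) (nat_lit 5) (nat_lit 5) (nat_lit 5) (nat_lit 4) (nat_lit 485) (nat_lit 397) (nat_lit 318)) (XT.lf (nat_lit 0) (nat_lit 323416315731) (nat_lit 76) (nat_lit 48017917183) (nat_lit 76) (nat_lit 42186119418) (nat_lit 4) (nat_lit 4) (nat_lit 5) (nat_lit 5) (nat_lit 5) (nat_lit 4) (nat_lit 486) (nat_lit 397) (nat_lit 317))) (XT.nd (nat_lit 78) (nat_lit 152) (nat_lit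 0) (XT.lf (nat_lit 0) (nat_lit 407273646090) (nat_lit 76) (nat_lit 21510346923) (nat_lit 76) (nat_lit 15677631904) (nat_lit 4) (nat_lit 4) (nat_lit 5) (nat_lit 5) (nat_lit 5) (nat_lit 4) (nat_lit 487) (nat_lit 397) (nat_lit 316)) (XT.lf (nat_lit 0) (nat_lit 12986745164) (nat_lit 152) (nat_lit 457118590795) (nat_lit 0) (nat_lit 7585296712) (nat_lit 2) (nat_lit 5) (nat_lit 4) (nat_lit 4) (nat_lit 2) (nat_lit 4) (nat_lit 488) (nat_lit 397) (nat_lit 315))))))))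
noncomputable def xc86 : XT := (XT.nd (nat_lit 1950) (nat_lit 0) (nat_lit 0) (XT.nd (nat_lit 936) (nat_lit 0) (nat_lit 0) (XT.nd (nat_lit 468) (nat_lit 76) (nat_lit 0) (XT.nd (nat_lit 234) (nat_lit 0) (nat_lit 0) (XT.nd (nat_lit 78) (nat_lit 0) (nat_lit 0) (XT.lf (nat_lit 0) (nat_lit 44690505142) (nat_lit 152) (nat_lit 429439091934) (nat_lit 0) (nat_lit 39288328545) (nat_lit 2) (nat_lit 5) (nat_lit 4) (nat_lit 4) (nat_lit 2) (nat_lit 4) (nat_lit 489) (nat_lit 397) (nat_lit 314)) (XT.nd (nat_lit 78) (nat_lit 0) (nat_lit 0) (XT.lf (nat_lit 0) (nat_lit 78922534918) (nat_lit 152) (nat_lit 399561825493) (nat_lit 0) (nat_lit 73519684112) (nat_lit 2) (nat_lit 5) (nat_lit 4) (nat_lit 4) (nat_lit 2) (nat_lit 4) (nat_lit 490) (nat_lit 397) (nat_lit 313)) (XT.lf (nat_lit 0) (nat_lit 115885690964) (nat_lit 152) (nat_lit 367309741006) (nat_lit 0) (nat_lit 110482215891) (nat_lit 2) (nat_lit 5) (nat_lit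 4) (nat_lit 4) (nat_lit 2) (nat_lit 4) (nat_lit 491) (nat_lit 397) (nat_lit 312)))) (XT.nd (nat_lit 78) (nat_lit 0) (nat_lit 0) (XT.lf (nat_lit 0) (nat_lit 155799014204) (nat_lit 152) (nat_lit 332491715008) (nat_lit 0) (nat_lit 150394961106) (nat_lit 2) (nat_lit 5) (nat_lit 4) (nat_lit 4) (nat_lit 2) (nat_lit 4) (nat_lit 492) (nat_lit 397) (nat_lit 311)) (XT.nd (nat_lit 78) (nat_lit 0) (nat_lit 0) (XT.lf (nat_lit 0) (nat_lit 198899028037) (nat_lit 152) (nat_lit 294901418458) (nat_lit 0) (nat_lit 193494439729) (nat_lit 2) (nat_lit 5) (nat_lit 4) (nat_lit 4) (nat_lit 2) (nat_lit 4) (nat_lit 493) (nat_lit 397) (nat_lit 310)) (XT.lf (nat_lit 0) (nat_lit 245441139950) (nat_lit 152) (nat_lit 254316094041) (nat_lit 0) (nat_lit 240036056079) (nat_lit 2) (nat_lit 5) (nat_lit 4) (nat_lit 4) (nat_lit 2) (nat_lit 4) (nat_lit 494) (nat_lit 397) (nat_lit 309))))) (XT.nd (nat_lit 234) (nat_lit 76) (nat_lit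 0) (XT.nd (nat_lit 78) (nat_lit 0) (nat_lit 0) (XT.lf (nat_lit 0) (nat_lit 295701155051) (nat_lit 152) (nat_lit 210495236132) (nat_lit 0) (nat_lit 290295612325) (nat_lit 2) (nat_lit 5) (nat_lit 4) (nat_lit 4) (nat_lit 2) (nat_lit 4) (nat_lit 495) (nat_lit 397) (nat_lit 308)) (XT.nd (nat_lit 78) (nat_lit 0) (nat_lit 0) (XT.lf (nat_lit 0) (nat_lit 349976910468) (nat_lit 152) (nat_lit 163179165572) (nat_lit 0) (nat_lit 344570942876) (nat_lit 2) (nat_lit 5) (nat_lit 4) (nat_lit 4) (nat_lit 2) (nat_lit 4) (nat_lit 496) (nat_lit 397) (nat_lit 307)) (XT.lf (nat_lit 0) (nat_lit 408590040307) (nat_lit 152) (nat_lit 112087490833) (nat_lit 0) (nat_lit 403183679320) (nat_lit 2) (nat_lit 5) (nat_lit 4) (nat_lit 4) (nat_lit 2) (nat_lit 4) (nat_lit 497) (nat_lit 397) (nat_lit 306)))) (XT.nd (nat_lit 78) (nat_lit 76) (nat_lit 0) (XT.lf (nat_lit 0) (nat_lit 471887881632) (nat_lit 152) (nat_lit 56917446435)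 (nat_lit 0) (nat_lit 466481156392) (nat_lit 2) (nat_lit 5) (nat_lit 4) (nat_lit 4) (nat_lit 2) (nat_lit 4) (nat_lit 498) (nat_lit 397) (nat_lit 305)) (XT.nd (nat_lit 78) (nat_lit 0) (nat_lit 0) (XT.lf (nat_lit 0) (nat_lit 2797861587) (nat_lit 76) (nat_lit 537514959815) (nat_lit 76) (nat_lit 532107897302) (nat_lit 1) (nat_lit 4) (nat_lit 2) (nat_lit 5) (nat_lit 2) (nat_lit 4) (nat_lit 499) (nat_lit 397) (nat_lit 304)) (XT.lf (nat_lit 0) (nat_lit 70519249701) (nat_lit 76) (nat_lit 545244816028) (nat_lit 76) (nat_lit 539837441226) (nat_lit 1) (nat_lit 4) (nat_lit 2) (nat_lit 5) (nat_lit 2) (nat_lit 4) (nat_lit 500) (nat_lit 397) (nat_lit 303)))))) (XT.nd (nat_lit 468) (nat_lit 0) (nat_lit 0) (XT.nd (nat_lit 234) (nat_lit 0) (nat_lit 0) (XT.nd (nat_lit 78) (nat_lit 0) (nat_lit 0) (XT.lf (nat_lit 0) (nat_lit 143650857974) (nat_lit 76) (nat_lit 553596927114) (nat_lit 76) (nat_lit 548189263156)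 (nat_lit 1) (nat_lit 4) (nat_lit 2) (nat_lit 5) (nat_lit 2) (nat_lit 4) (nat_lit 501) (nat_lit 397) (nat_lit 302)) (XT.nd (nat_lit 78) (nat_lit 0) (nat_lit 0) (XT.lf (nat_lit 0) (nat_lit 222626058898) (nat_lit 76) (nat_lit 562620787064) (nat_lit 76) (nat_lit 557212855368) (nat_lit 1) (nat_lit 4) (nat_lit 2) (nat_lit 5) (nat_lit 2) (nat_lit 4) (nat_lit 502) (nat_lit 397) (nat_lit 301)) (XT.lf (nat_lit 0) (nat_lit 307912853666) (nat_lit 76) (nat_lit 572369870605) (nat_lit 76) (nat_lit 566961691004) (nat_lit 1) (nat_lit 4) (nat_lit 2) (nat_lit 5) (nat_lit 2) (nat_lit 4) (nat_lit 503) (nat_lit 397) (nat_lit 300)))) (XT.nd (nat_lit 78) (nat_lit 0) (nat_lit 0) (XT.lf (nat_lit 0) (nat_lit 400016645504) (nat_lit 76) (nat_lit 582901950082) (nat_lit 76) (nat_lit 577493540940) (nat_lit 1) (nat_lit 4) (nat_lit 2) (nat_lit 5) (nat_lit 2) (nat_lit 4) (nat_lit 504) (nat_lit 397) (nat_lit 299)) (XT.nd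 (nat_lit 78) (nat_lit 0) (nat_lit 0) (XT.lf (nat_lit 0) (nat_lit 499483234661) (nat_lit 76) (nat_lit 594279437820) (nat_lit 76) (nat_lit 588870816138) (nat_lit 1) (nat_lit 4) (nat_lit 2) (nat_lit 5) (nat_lit 2) (nat_lit 4) (nat_lit 505) (nat_lit 397) (nat_lit 298)) (XT.lf (nat_lit 0) (nat_lit 606902052776) (nat_lit 76) (nat_lit 606569755967) (nat_lit 76) (nat_lit 601160937490) (nat_lit 1) (nat_lit 4) (nat_lit 2) (nat_lit 5) (nat_lit 2) (nat_lit 4) (nat_lit 506) (nat_lit 397) (nat_lit 297))))) (XT.nd (nat_lit 234) (nat_lit 0) (nat_lit 0) (XT.nd (nat_lit 78) (nat_lit 0) (nat_lit 0) (XT.lf (nat_lit 0) (nat_lit 722909655809) (nat_lit 76) (nat_lit 619845736038) (nat_lit 76) (nat_lit 614436735344) (nat_lit 1) (nat_lit 4) (nat_lit 2) (nat_lit 5) (nat_lit 2) (nat_lit 4) (nat_lit 507) (nat_lit 397) (nat_lit 296)) (XT.nd (nat_lit 78) (nat_lit 0) (nat_lit 0) (XT.lf (nat_lit 0) (nat_lit 848193496221)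 (nat_lit 76) (nat_lit 634186050508) (nat_lit 76) (nat_lit 628776881094) (nat_lit 1) (nat_lit 4) (nat_lit 2) (nat_lit 5) (nat_lit 2) (nat_lit 4) (nat_lit 508) (nat_lit 397) (nat_lit 295)) (XT.lf (nat_lit 0) (nat_lit 983495996771) (nat_lit 76) (nat_lit 649675679019) (nat_lit 76) (nat_lit 644266353382) (nat_lit 1) (nat_lit 4) (nat_lit 2) (nat_lit 5) (nat_lit 2) (nat_lit 4) (nat_lit 509) (nat_lit 397) (nat_lit 294)))) (XT.nd (nat_lit 156) (nat_lit 0) (nat_lit 0) (XT.nd (nat_lit 78) (nat_lit 0) (nat_lit 0) (XT.lf (nat_lit 0) (nat_lit 1129618950056) (nat_lit 76) (nat_lit 666406411960) (nat_lit 76) (nat_lit 660996941673) (nat_lit 1) (nat_lit 4) (nat_lit 2) (nat_lit 5) (nat_lit 2) (nat_lit 4) (nat_lit 510) (nat_lit 397) (nat_lit 293)) (XT.lf (nat_lit 0) (nat_lit 1287428269871) (nat_lit 76) (nat_lit 684477394418) (nat_lit 76) (nat_lit 679067790195) (nat_lit 1) (nat_lit 4) (nat_lit 2) (nat_lit 5)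 (nat_lit 2) (nat_lit 4) (nat_lit 511) (nat_lit 397) (nat_lit 292))) (XT.nd (nat_lit 78) (nat_lit 0) (nat_lit 0) (XT.lf (nat_lit 0) (nat_lit 1457859122556) (nat_lit 76) (nat_lit 703995713694) (nat_lit 76) (nat_lit 698585985457) (nat_lit 1) (nat_lit 4) (nat_lit 2) (nat_lit 5) (nat_lit 2) (nat_lit 4) (nat_lit 512) (nat_lit 397) (nat_lit 291)) (XT.lf (nat_lit 0) (nat_lit 1641921468721) (nat_lit 76) (nat_lit 725077033903) (nat_lit 76) (nat_lit 719667190838) (nat_lit 1) (nat_lit 4) (nat_lit 2) (nat_lit 5) (nat_lit 2) (nat_lit 4) (nat_lit 513) (nat_lit 397) (nat_lit 290))))))) (XT.nd (nat_lit 936) (nat_lit 0) (nat_lit 0) (XT.nd (nat_lit 468) (nat_lit 0) (nat_lit 0) (XT.nd (nat_lit 234) (nat_lit 0) (nat_lit 0) (XT.nd (nat_lit 78) (nat_lit 0) (nat_lit 0) (XT.lf (nat_lit 0) (nat_lit 1840706048194) (nat_lit 76) (nat_lit 747846281387) (nat_lit 76) (nat_lit 742436332000) (nat_lit 1) (nat_lit 4) (nat_lit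 2) (nat_lit 5) (nat_lit 2) (nat_lit 4) (nat_lit 514) (nat_lit 397) (nat_lit 289)) (XT.nd (nat_lit 78) (nat_lit 0) (nat_lit 0) (XT.lf (nat_lit 0) (nat_lit 2055390843669) (nat_lit 76) (nat_lit 772438385020) (nat_lit 76) (nat_lit 767028337187) (nat_lit 1) (nat_lit 4) (nat_lit 2) (nat_lit 5) (nat_lit 2) (nat_lit 4) (nat_lit 515) (nat_lit 397) (nat_lit 288)) (XT.lf (nat_lit 0) (nat_lit 2287248061340) (nat_lit 76) (nat_lit 798999075787) (nat_lit 76) (nat_lit 793588936800) (nat_lit 1) (nat_lit 4) (nat_lit 2) (nat_lit 5) (nat_lit 2) (nat_lit 4) (nat_lit 516) (nat_lit 397) (nat_lit 287)))) (XT.nd (nat_lit 78) (nat_lit 0) (nat_lit 0) (XT.lf (nat_lit 0) (nat_lit 2537651669906) (nat_lit 76) (nat_lit 827685750374) (nat_lit 76) (nat_lit 822275526984) (nat_lit 1) (nat_lit 4) (nat_lit 2) (nat_lit 5) (nat_lit 2) (nat_lit 4) (nat_lit 517) (nat_lit 397) (nat_lit 286)) (XT.nd (nat_lit 78) (nat_lit 0) (nat_lit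 0) (XT.lf (nat_lit 0) (nat_lit 2808085542601) (nat_lit 76) (nat_lit 858668403889) (nat_lit 76) (nat_lit 853258102349) (nat_lit 1) (nat_lit 4) (nat_lit 2) (nat_lit 5) (nat_lit 2) (nat_lit 4) (nat_lit 518) (nat_lit 397) (nat_lit 285)) (XT.lf (nat_lit 0) (nat_lit 3100152250524) (nat_lit 76) (nat_lit 892130637241) (nat_lit 76) (nat_lit 886720263340) (nat_lit 1) (nat_lit 4) (nat_lit 2) (nat_lit 5) (nat_lit 2) (nat_lit 4) (nat_lit 519) (nat_lit 397) (nat_lit 284))))) (XT.nd (nat_lit 234) (nat_lit 0) (nat_lit 0) (XT.nd (nat_lit 78) (nat_lit 0) (nat_lit 0) (XT.lf (nat_lit 0) (nat_lit 3415582559351) (nat_lit 76) (nat_lit 928270745148) (nat_lit 76) (nat_lit 922860304246) (nat_lit 1) (nat_lit 4) (nat_lit 2) (nat_lit 5) (nat_lit 2) (nat_lit 4) (nat_lit 520) (nat_lit 397) (nat_lit 283)) (XT.nd (nat_lit 78) (nat_lit 0) (nat_lit 0) (XT.lf (nat_lit 0) (nat_lit 3756245685727) (nat_lit 76) (nat_lit 967302891212)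 (nat_lit 76) (nat_lit 961892388272) (nat_lit 1) (nat_lit 4) (nat_lit 2) (nat_lit 5) (nat_lit 2) (nat_lit 4) (nat_lit 521) (nat_lit 397) (nat_lit 282)) (XT.lf (nat_lit 0) (nat_lit 4124160374105) (nat_lit 76) (nat_lit 1009458377038) (nat_lit 76) (nat_lit 1004047816655) (nat_lit 1) (nat_lit 4) (nat_lit 2) (nat_lit 5) (nat_lit 2) (nat_lit 4) (nat_lit 522) (nat_lit 397) (nat_lit 281)))) (XT.nd (nat_lit 78) (nat_lit 0) (nat_lit 0) (XT.lf (nat_lit 0) (nat_lit 4521506859675) (nat_lit 76) (nat_lit 1054987012914) (nat_lit 76) (nat_lit 1049576399343) (nat_lit 1) (nat_lit 4) (nat_lit 2) (nat_lit 5) (nat_lit 2) (nat_lit 4) (nat_lit 523) (nat_lit 397) (nat_lit 280)) (XT.nd (nat_lit 78) (nat_lit 0) (nat_lit 0) (XT.lf (nat_lit 0) (nat_lit 4950639788277) (nat_lit 76) (nat_lit 1104158598162) (nat_lit 76) (nat_lit 1098747935344) (nat_lit 1) (nat_lit 4) (nat_lit 2) (nat_lit 5) (nat_lit 2) (nat_lit 4) (nat_lit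 524) (nat_lit 397) (nat_lit 279)) (XT.lf (nat_lit 0) (nat_lit 5414102169859) (nat_lit 76) (nat_lit 1157264519956) (nat_lit 76) (nat_lit 1151853811538) (nat_lit 1) (nat_lit 4) (nat_lit 2) (nat_lit 5) (nat_lit 2) (nat_lit 4) (nat_lit 525) (nat_lit 397) (nat_lit 278)))))) (XT.nd (nat_lit 468) (nat_lit 0) (nat_lit 0) (XT.nd (nat_lit 234) (nat_lit 0) (nat_lit 0) (XT.nd (nat_lit 78) (nat_lit 0) (nat_lit 0) (XT.lf (nat_lit 0) (nat_lit 5914640448163) (nat_lit 76) (nat_lit 1214619480053) (nat_lit 76) (nat_lit 1209208729413) (nat_lit 1) (nat_lit 4) (nat_lit 2) (nat_lit 5) (nat_lit 2) (nat_lit 4) (nat_lit 526) (nat_lit 397) (nat_lit 277)) (XT.nd (nat_lit 78) (nat_lit 0) (nat_lit 0) (XT.lf (nat_lit 0) (nat_lit 6455220775950) (nat_lit 76) (nat_lit 1276563359698) (nat_lit 76) (nat_lit 1271152569964) (nat_lit 1) (nat_lit 4) (nat_lit 2) (nat_lit 5) (nat_lit 2) (nat_lit 4) (nat_lit 527) (nat_lit 397) (nat_lit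 276)) (XT.lf (nat_lit 0) (nat_lit 7039046592199) (nat_lit 76) (nat_lit 1343463233734) (nat_lit 76) (nat_lit 1338052407801) (nat_lit 1) (nat_lit 4) (nat_lit 2) (nat_lit 5) (nat_lit 2) (nat_lit 4) (nat_lit 528) (nat_lit 397) (nat_lit 275)))) (XT.nd (nat_lit 78) (nat_lit 0) (nat_lit 0) (XT.lf (nat_lit 0) (nat_lit 7669577605451) (nat_lit 76) (nat_lit 1415715545860) (nat_lit 76) (nat_lit 1410304686409) (nat_lit 1) (nat_lit 4) (nat_lit 2) (nat_lit 5) (nat_lit 2) (nat_lit 4) (nat_lit 529) (nat_lit 397) (nat_lit 274)) (XT.nd (nat_lit 78) (nat_lit 0) (nat_lit 0) (XT.lf (nat_lit 0) (nat_lit 8350550295785) (nat_lit 76) (nat_lit 1493748457924) (nat_lit 76) (nat_lit 1488337567439) (nat_lit 1) (nat_lit 4) (nat_lit 2) (nat_lit 5) (nat_lit 2) (nat_lit 4) (nat_lit 530) (nat_lit 397) (nat_lit 273)) (XT.lf (nat_lit 0) (nat_lit 9086000056921) (nat_lit 76) (nat_lit 1578024387183) (nat_lit 76) (nat_lit 1572613467962)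 (nat_lit 1) (nat_lit 4) (nat_lit 2) (nat_lit 5) (nat_lit 2) (nat_lit 4) (nat_lit 531) (nat_lit 397) (nat_lit 272))))) (XT.nd (nat_lit 234) (nat_lit 0) (nat_lit 0) (XT.nd (nat_lit 78) (nat_lit 0) (nat_lit 0) (XT.lf (nat_lit 0) (nat_lit 9880285109665) (nat_lit 76) (nat_lit 1669042746551) (nat_lit 76) (nat_lit 1663631800724) (nat_lit 1) (nat_lit 4) (nat_lit 2) (nat_lit 5) (nat_lit 2) (nat_lit 4) (nat_lit 532) (nat_lit 397) (nat_lit 271)) (XT.nd (nat_lit 78) (nat_lit 0) (nat_lit 0) (XT.lf (nat_lit 0) (nat_lit 10738112328404) (nat_lit 76) (nat_lit 1767342904084) (nat_lit 76) (nat_lit 1761931933621) (nat_lit 1) (nat_lit 4) (nat_lit 2) (nat_lit 5) (nat_lit 2) (nat_lit 4) (nat_lit 533) (nat_lit 397) (nat_lit 270)) (XT.lf (nat_lit 0) (nat_lit 11664565133695) (nat_lit 76) (nat_lit 1873507379235) (nat_lit 76) (nat_lit 1868096385960) (nat_lit 1) (nat_lit 4) (nat_lit 2) (nat_lit 5) (nat_lit 2) (nat_lit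 4) (nat_lit 534) (nat_lit 397) (nat_lit 269)))) (XT.nd (nat_lit 52338) (nat_lit 0) (nat_lit 7220) (XT.nd (nat_lit 52260) (nat_lit 0) (nat_lit 7524) (XT.lf (nat_lit 0) (nat_lit 12665133616234) (nat_lit 76) (nat_lit 1988165294817) (nat_lit 76) (nat_lit 1982754280421) (nat_lit 1) (nat_lit 4) (nat_lit 2) (nat_lit 5) (nat_lit 2) (nat_lit 4) (nat_lit 535) (nat_lit 397) (nat_lit 268)) (XT.lf (nat_lit 0) (nat_lit 354845850) (nat_lit 228) (nat_lit 2567884435) (nat_lit 0) (nat_lit 354845850) (nat_lit 100) (nat_lit 5) (nat_lit 103) (nat_lit 4) (nat_lit 100) (nat_lit 4) (nat_lit 404) (nat_lit 398) (nat_lit 398))) (XT.nd (nat_lit 78) (nat_lit 304) (nat_lit 0) (XT.lf (nat_lit 0) (nat_lit 3927107164) (nat_lit 228) (nat_lit 1120253807) (nat_lit 0) (nat_lit 1573616461) (nat_lit 100) (nat_lit 5) (nat_lit 103) (nat_lit 4) (nat_lit 100) (nat_lit 4) (nat_lit 405) (nat_lit 398) (nat_lit 397)) (XT.lf (nat_lit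 0) (nat_lit 466909094) (nat_lit 304) (nat_lit 3561477845) (nat_lit 76) (nat_lit 2679018306) (nat_lit 96) (nat_lit 5) (nat_lit 100) (nat_lit 5) (nat_lit 97) (nat_lit 4) (nat_lit 406) (nat_lit 398) (nat_lit 396))))))))
noncomputable def xc87 : XT := (XT.nd (nat_lit 1950) (nat_lit 1824) (nat_lit 0) (XT.nd (nat_lit 936) (nat_lit 1444) (nat_lit 0) (XT.nd (nat_lit 468) (nat_lit 988) (nat_lit 0) (XT.nd (nat_lit 234) (nat_lit 988) (nat_lit 0) (XT.nd (nat_lit 78) (nat_lit 456) (nat_lit 0) (XT.lf (nat_lit 0) (nat_lit 761500021) (nat_lit 304) (nat_lit 2753830616) (nat_lit 380) (nat_lit 3297493572) (nat_lit 92) (nat_lit 5) (nat_lit 96) (nat_lit 5) (nat_lit 97) (nat_lit 4) (nat_lit 407) (nat_lit 398) (nat_lit 395)) (XT.nd (nat_lit 78) (nat_lit 456) (nat_lit 0) (XT.lf (nat_lit 0) (nat_lit 5413904598) (nat_lit 304) (nat_lit 1236369008) (nat_lit 380) (nat_lit 289083936) (nat_lit 92) (nat_lit 5) (nat_lit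 96) (nat_lit 5) (nat_lit 97) (nat_lit 4) (nat_lit 408) (nat_lit 398) (nat_lit 394)) (XT.lf (nat_lit 0) (nat_lit 2661914662) (nat_lit 456) (nat_lit 3860023454) (nat_lit 76) (nat_lit 560460848) (nat_lit 86) (nat_lit 5) (nat_lit 92) (nat_lit 5) (nat_lit 87) (nat_lit 4) (nat_lit 409) (nat_lit 398) (nat_lit 393)))) (XT.nd (nat_lit 78) (nat_lit 532) (nat_lit 0) (XT.lf (nat_lit 0) (nat_lit 982717319) (nat_lit 456) (nat_lit 4720466156) (nat_lit 532) (nat_lit 1543588425) (nat_lit 80) (nat_lit 5) (nat_lit 86) (nat_lit 5) (nat_lit 87) (nat_lit 4) (nat_lit 410) (nat_lit 398) (nat_lit 392)) (XT.nd (nat_lit 78) (nat_lit 456) (nat_lit 0) (XT.lf (nat_lit 0) (nat_lit 1370668865) (nat_lit 532) (nat_lit 1258769199) (nat_lit 76) (nat_lit 4801077954) (nat_lit 79) (nat_lit 5) (nat_lit 86) (nat_lit 5) (nat_lit 80) (nat_lit 5) (nat_lit 411) (nat_lit 398) (nat_lit 391)) (XT.lf (nat_lit 0) (nat_lit 4094078276) (nat_lit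 456) (nat_lit 232704614) (nat_lit 532) (nat_lit 3307658914) (nat_lit 73) (nat_lit 5) (nat_lit 79) (nat_lit 5) (nat_lit 80) (nat_lit 5) (nat_lit 412) (nat_lit 398) (nat_lit 390))))) (XT.nd (nat_lit 234) (nat_lit 456) (nat_lit 0) (XT.nd (nat_lit 78) (nat_lit 304) (nat_lit 0) (XT.lf (nat_lit 0) (nat_lit 1905138074) (nat_lit 228) (nat_lit 5555484139) (nat_lit 304) (nat_lit 398814617) (nat_lit 70) (nat_lit 5) (nat_lit 73) (nat_lit 5) (nat_lit 74) (nat_lit 4) (nat_lit 413) (nat_lit 398) (nat_lit 389)) (XT.nd (nat_lit 78) (nat_lit 228) (nat_lit 0) (XT.lf (nat_lit 0) (nat_lit 2518658157) (nat_lit 304) (nat_lit 413423964) (nat_lit 76) (nat_lit 5172068764) (nat_lit 69) (nat_lit 5) (nat_lit 73) (nat_lit 5) (nat_lit 70) (nat_lit 5) (nat_lit 414) (nat_lit 398) (nat_lit 388)) (XT.lf (nat_lit 0) (nat_lit 5605847469) (nat_lit 304) (nat_lit 2744403461) (nat_lit 76) (nat_lit 20776146) (nat_lit 66) (nat_lit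 5) (nat_lit 70) (nat_lit 5) (nat_lit 67) (nat_lit 4) (nat_lit 415) (nat_lit 398) (nat_lit 387)))) (XT.nd (nat_lit 78) (nat_lit 228) (nat_lit 0) (XT.lf (nat_lit 0) (nat_lit 265035244) (nat_lit 228) (nat_lit 5280070722) (nat_lit 76) (nat_lit 3113778307) (nat_lit 63) (nat_lit 5) (nat_lit 66) (nat_lit 5) (nat_lit 64) (nat_lit 5) (nat_lit 416) (nat_lit 398) (nat_lit 386)) (XT.nd (nat_lit 78) (nat_lit 0) (nat_lit 0) (XT.lf (nat_lit 0) (nat_lit 931889469) (nat_lit 228) (nat_lit 2388166299) (nat_lit 304) (nat_lit 5649460124) (nat_lit 60) (nat_lit 5) (nat_lit 63) (nat_lit 5) (nat_lit 64) (nat_lit 5) (nat_lit 417) (nat_lit 398) (nat_lit 385)) (XT.lf (nat_lit 0) (nat_lit 6630259333) (nat_lit 304) (nat_lit 1611577267) (nat_lit 76) (nat_lit 1062330479) (nat_lit 60) (nat_lit 5) (nat_lit 64) (nat_lit 5) (nat_lit 61) (nat_lit 4) (nat_lit 418) (nat_lit 398) (nat_lit 384)))))) (XT.nd (nat_lit 468) (nat_lit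 608) (nat_lit 0) (XT.nd (nat_lit 234) (nat_lit 456) (nat_lit 0) (XT.nd (nat_lit 78) (nat_lit 152) (nat_lit 0) (XT.lf (nat_lit 0) (nat_lit 553745666) (nat_lit 228) (nat_lit 4357642548) (nat_lit 76) (nat_lit 4749906493) (nat_lit 57) (nat_lit 5) (nat_lit 60) (nat_lit 5) (nat_lit 58) (nat_lit 5) (nat_lit 419) (nat_lit 398) (nat_lit 383)) (XT.nd (nat_lit 78) (nat_lit 0) (nat_lit 0) (XT.lf (nat_lit 0) (nat_lit 2666913566) (nat_lit 152) (nat_lit 1190010390) (nat_lit 228) (nat_lit 6187595617) (nat_lit 55) (nat_lit 5) (nat_lit 57) (nat_lit 5) (nat_lit 58) (nat_lit 5) (nat_lit 420) (nat_lit 398) (nat_lit 382)) (XT.lf (nat_lit 0) (nat_lit 7471266467) (nat_lit 228) (nat_lit 239159122) (nat_lit 76) (nat_lit 2744247232) (nat_lit 55) (nat_lit 5) (nat_lit 58) (nat_lit 5) (nat_lit 56) (nat_lit 4) (nat_lit 421) (nat_lit 398) (nat_lit 381)))) (XT.nd (nat_lit 78) (nat_lit 228) (nat_lit 0) (XT.lf (nat_lit 0)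 (nat_lit 536676294) (nat_lit 228) (nat_lit 3288368641) (nat_lit 76) (nat_lit 7065021250) (nat_lit 52) (nat_lit 5) (nat_lit 55) (nat_lit 5) (nat_lit 53) (nat_lit 5) (nat_lit 422) (nat_lit 398) (nat_lit 380)) (XT.nd (nat_lit 78) (nat_lit 76) (nat_lit 0) (XT.lf (nat_lit 0) (nat_lit 4177500163) (nat_lit 228) (nat_lit 6693328443) (nat_lit 76) (nat_lit 483256253) (nat_lit 50) (nat_lit 5) (nat_lit 53) (nat_lit 5) (nat_lit 51) (nat_lit 4) (nat_lit 423) (nat_lit 398) (nat_lit 379)) (XT.lf (nat_lit 0) (nat_lit 1341255707) (nat_lit 76) (nat_lit 6864242500) (nat_lit 152) (nat_lit 3642071204) (nat_lit 49) (nat_lit 5) (nat_lit 50) (nat_lit 5) (nat_lit 51) (nat_lit 4) (nat_lit 424) (nat_lit 398) (nat_lit 378))))) (XT.nd (nat_lit 234) (nat_lit 304) (nat_lit 0) (XT.nd (nat_lit 78) (nat_lit 228) (nat_lit 0) (XT.lf (nat_lit 0) (nat_lit 227614234) (nat_lit 152) (nat_lit 2185931654) (nat_lit 76) (nat_lit 9961770342)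 (nat_lit 48) (nat_lit 5) (nat_lit 50) (nat_lit 5) (nat_lit 49) (nat_lit 5) (nat_lit 425) (nat_lit 398) (nat_lit 377)) (XT.nd (nat_lit 78) (nat_lit 76) (nat_lit 0) (XT.lf (nat_lit 0) (nat_lit 4320157759) (nat_lit 228) (nat_lit 6142778038) (nat_lit 76) (nat_lit 2465988611) (nat_lit 46) (nat_lit 5) (nat_lit 49) (nat_lit 5) (nat_lit 47) (nat_lit 4) (nat_lit 426) (nat_lit 398) (nat_lit 376)) (XT.lf (nat_lit 0) (nat_lit 2965324045) (nat_lit 76) (nat_lit 5855168523) (nat_lit 152) (nat_lit 4699910179) (nat_lit 45) (nat_lit 5) (nat_lit 46) (nat_lit 5) (nat_lit 47) (nat_lit 4) (nat_lit 427) (nat_lit 398) (nat_lit 375)))) (XT.nd (nat_lit 156) (nat_lit 76) (nat_lit 0) (XT.nd (nat_lit 78) (nat_lit 228) (nat_lit 0) (XT.lf (nat_lit 0) (nat_lit 12959369615) (nat_lit 76) (nat_lit 778396606) (nat_lit 152) (nat_lit 416891768) (nat_lit 45) (nat_lit 5) (nat_lit 46) (nat_lit 5) (nat_lit 47) (nat_lit 4) (nat_lit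 428) (nat_lit 398) (nat_lit 374)) (XT.lf (nat_lit 0) (nat_lit 4230751696) (nat_lit 228) (nat_lit 5859057804) (nat_lit 76) (nat_lit 4723154560) (nat_lit 42) (nat_lit 5) (nat_lit 45) (nat_lit 5) (nat_lit 43) (nat_lit 4) (nat_lit 429) (nat_lit 398) (nat_lit 373))) (XT.nd (nat_lit 78) (nat_lit 0) (nat_lit 0) (XT.lf (nat_lit 0) (nat_lit 4468250021) (nat_lit 76) (nat_lit 4816815228) (nat_lit 152) (nat_lit 6233421782) (nat_lit 41) (nat_lit 5) (nat_lit 42) (nat_lit 5) (nat_lit 43) (nat_lit 4) (nat_lit 430) (nat_lit 398) (nat_lit 372)) (XT.lf (nat_lit 0) (nat_lit 14826801045) (nat_lit 152) (nat_lit 524468724) (nat_lit 0) (nat_lit 922544427) (nat_lit 41) (nat_lit 5) (nat_lit 43) (nat_lit 4) (nat_lit 41) (nat_lit 4) (nat_lit 431) (nat_lit 398) (nat_lit 371))))))) (XT.nd (nat_lit 1014) (nat_lit 836) (nat_lit 0) (XT.nd (nat_lit 468) (nat_lit 532) (nat_lit 0) (XT.nd (nat_lit 234) (nat_lit 228) (nat_lit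 0) (XT.nd (nat_lit 78) (nat_lit 76) (nat_lit 0) (XT.lf (nat_lit 0) (nat_lit 3841093179) (nat_lit 152) (nat_lit 6062169162) (nat_lit 76) (nat_lit 7154751577) (nat_lit 39) (nat_lit 5) (nat_lit 41) (nat_lit 5) (nat_lit 40) (nat_lit 4) (nat_lit 432) (nat_lit 398) (nat_lit 370)) (XT.nd (nat_lit 78) (nat_lit 0) (nat_lit 0) (XT.lf (nat_lit 0) (nat_lit 5634418086) (nat_lit 76) (nat_lit 3895644372) (nat_lit 152) (nat_lit 8367407892) (nat_lit 38) (nat_lit 5) (nat_lit 39) (nat_lit 5) (nat_lit 40) (nat_lit 4) (nat_lit 433) (nat_lit 398) (nat_lit 369)) (XT.lf (nat_lit 0) (nat_lit 15813378915) (nat_lit 152) (nat_lit 420333986) (nat_lit 0) (nat_lit 2559238291) (nat_lit 38) (nat_lit 5) (nat_lit 40) (nat_lit 4) (nat_lit 38) (nat_lit 4) (nat_lit 434) (nat_lit 398) (nat_lit 368)))) (XT.nd (nat_lit 78) (nat_lit 76) (nat_lit 0) (XT.lf (nat_lit 0) (nat_lit 3027021371) (nat_lit 152) (nat_lit 7066269545) (nat_lit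 76) (nat_lit 9634941041) (nat_lit 36) (nat_lit 5) (nat_lit 38) (nat_lit 5) (nat_lit 37) (nat_lit 4) (nat_lit 435) (nat_lit 398) (nat_lit 367)) (XT.nd (nat_lit 78) (nat_lit 0) (nat_lit 0) (XT.lf (nat_lit 0) (nat_lit 6145177033) (nat_lit 76) (nat_lit 3281726673) (nat_lit 152) (nat_lit 11299346294) (nat_lit 35) (nat_lit 5) (nat_lit 36) (nat_lit 5) (nat_lit 37) (nat_lit 4) (nat_lit 436) (nat_lit 398) (nat_lit 366)) (XT.lf (nat_lit 0) (nat_lit 16549923164) (nat_lit 152) (nat_lit 1238914085) (nat_lit 0) (nat_lit 3998385123) (nat_lit 35) (nat_lit 5) (nat_lit 37) (nat_lit 4) (nat_lit 35) (nat_lit 4) (nat_lit 437) (nat_lit 398) (nat_lit 365))))) (XT.nd (nat_lit 234) (nat_lit 304) (nat_lit 0) (XT.nd (nat_lit 78) (nat_lit 76) (nat_lit 0) (XT.lf (nat_lit 0) (nat_lit 1586793941) (nat_lit 152) (nat_lit 9330634904) (nat_lit 76) (nat_lit 11985719798) (nat_lit 33) (nat_lit 5) (nat_lit 35) (nat_lit 5) (nat_lit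 34) (nat_lit 4) (nat_lit 438) (nat_lit 398) (nat_lit 364)) (XT.nd (nat_lit 78) (nat_lit 0) (nat_lit 0) (XT.lf (nat_lit 0) (nat_lit 5522074573) (nat_lit 76) (nat_lit 3240892133) (nat_lit 152) (nat_lit 15327375081) (nat_lit 32) (nat_lit 5) (nat_lit 33) (nat_lit 5) (nat_lit 34) (nat_lit 4) (nat_lit 439) (nat_lit 398) (nat_lit 363)) (XT.lf (nat_lit 0) (nat_lit 16818533450) (nat_lit 152) (nat_lit 3538027097) (nat_lit 0) (nat_lit 4991529209) (nat_lit 32) (nat_lit 5) (nat_lit 34) (nat_lit 4) (nat_lit 32) (nat_lit 4) (nat_lit 440) (nat_lit 398) (nat_lit 362)))) (XT.nd (nat_lit 156) (nat_lit 76) (nat_lit 0) (XT.nd (nat_lit 78) (nat_lit 152) (nat_lit 0) (XT.lf (nat_lit 0) (nat_lit 13126837780) (nat_lit 76) (nat_lit 12719467754) (nat_lit 76) (nat_lit 833934363) (nat_lit 31) (nat_lit 4) (nat_lit 32) (nat_lit 5) (nat_lit 32) (nat_lit 4) (nat_lit 441) (nat_lit 398) (nat_lit 361)) (XT.lf (nat_lit 0) (nat_lit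 3044315631) (nat_lit 76) (nat_lit 4159551042) (nat_lit 152) (nat_lit 20892665572) (nat_lit 29) (nat_lit 5) (nat_lit 30) (nat_lit 5) (nat_lit 31) (nat_lit 4) (nat_lit 442) (nat_lit 398) (nat_lit 360))) (XT.nd (nat_lit 78) (nat_lit 76) (nat_lit 0) (XT.lf (nat_lit 0) (nat_lit 16270664516) (nat_lit 152) (nat_lit 8150351587) (nat_lit 0) (nat_lit 5168899366) (nat_lit 29) (nat_lit 5) (nat_lit 31) (nat_lit 4) (nat_lit 29) (nat_lit 4) (nat_lit 443) (nat_lit 398) (nat_lit 359)) (XT.lf (nat_lit 0) (nat_lit 10384611774) (nat_lit 76) (nat_lit 15969808298) (nat_lit 76) (nat_lit 4825022474) (nat_lit 28) (nat_lit 4) (nat_lit 29) (nat_lit 5) (nat_lit 29) (nat_lit 4) (nat_lit 444) (nat_lit 398) (nat_lit 358)))))) (XT.nd (nat_lit 468) (nat_lit 456) (nat_lit 0) (XT.nd (nat_lit 234) (nat_lit 152) (nat_lit 0) (XT.nd (nat_lit 78) (nat_lit 152) (nat_lit 0) (XT.lf (nat_lit 0) (nat_lit 4293829239) (nat_lit 152)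 (nat_lit 2253454961) (nat_lit 76) (nat_lit 26327472432) (nat_lit 27) (nat_lit 5) (nat_lit 29) (nat_lit 5) (nat_lit 28) (nat_lit 4) (nat_lit 445) (nat_lit 398) (nat_lit 357)) (XT.nd (nat_lit 78) (nat_lit 76) (nat_lit 0) (XT.lf (nat_lit 0) (nat_lit 14364682044) (nat_lit 152) (nat_lit 16317934631) (nat_lit 0) (nat_lit 3974401420) (nat_lit 26) (nat_lit 5) (nat_lit 28) (nat_lit 4) (nat_lit 26) (nat_lit 4) (nat_lit 446) (nat_lit 398) (nat_lit 356)) (XT.lf (nat_lit 0) (nat_lit 4039384035) (nat_lit 76) (nat_lit 21471406615) (nat_lit 76) (nat_lit 11049504512) (nat_lit 25) (nat_lit 4) (nat_lit 26) (nat_lit 5) (nat_lit 26) (nat_lit 4) (nat_lit 447) (nat_lit 398) (nat_lit 355)))) (XT.nd (nat_lit 78) (nat_lit 152) (nat_lit 0) (XT.lf (nat_lit 0) (nat_lit 26835101596) (nat_lit 76) (nat_lit 11100478137) (nat_lit 76) (nat_lit 649296887) (nat_lit 25) (nat_lit 4) (nat_lit 26) (nat_lit 5) (nat_lit 26) (nat_lit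 4) (nat_lit 448) (nat_lit 398) (nat_lit 354)) (XT.nd (nat_lit 78) (nat_lit 0) (nat_lit 0) (XT.lf (nat_lit 0) (nat_lit 10272934174) (nat_lit 152) (nat_lit 29889765228) (nat_lit 0) (nat_lit 570812348) (nat_lit 23) (nat_lit 5) (nat_lit 25) (nat_lit 4) (nat_lit 23) (nat_lit 4) (nat_lit 449) (nat_lit 398) (nat_lit 353)) (XT.lf (nat_lit 0) (nat_lit 22595791014) (nat_lit 152) (nat_lit 7541518179) (nat_lit 0) (nat_lit 12870426457) (nat_lit 23) (nat_lit 5) (nat_lit 25) (nat_lit 4) (nat_lit 23) (nat_lit 4) (nat_lit 450) (nat_lit 398) (nat_lit 352))))) (XT.nd (nat_lit 234) (nat_lit 228) (nat_lit 0) (XT.nd (nat_lit 78) (nat_lit 152) (nat_lit 0) (XT.lf (nat_lit 0) (nat_lit 17358663540) (nat_lit 76) (nat_lit 18911435438) (nat_lit 76) (nat_lit 9164549834) (nat_lit 22) (nat_lit 4) (nat_lit 23) (nat_lit 5) (nat_lit 23) (nat_lit 4) (nat_lit 451) (nat_lit 398) (nat_lit 351)) (XT.nd (nat_lit 78) (nat_lit 76)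 (nat_lit 0) (XT.lf (nat_lit 0) (nat_lit 2993218654) (nat_lit 152) (nat_lit 3540917699) (nat_lit 76) (nat_lit 41503058209) (nat_lit 21) (nat_lit 5) (nat_lit 23) (nat_lit 5) (nat_lit 22) (nat_lit 4) (nat_lit 452) (nat_lit 398) (nat_lit 350)) (XT.lf (nat_lit 0) (nat_lit 16337496563) (nat_lit 152) (nat_lit 27157616615) (nat_lit 0) (nat_lit 7277067555) (nat_lit 20) (nat_lit 5) (nat_lit 22) (nat_lit 4) (nat_lit 20) (nat_lit 4) (nat_lit 453) (nat_lit 398) (nat_lit 349)))) (XT.nd (nat_lit 156) (nat_lit 152) (nat_lit 0) (XT.nd (nat_lit 78) (nat_lit 76) (nat_lit 0) (XT.lf (nat_lit 0) (nat_lit 30970572476) (nat_lit 152) (nat_lit 843368851) (nat_lit 0) (nat_lit 21894324856) (nat_lit 20) (nat_lit 5) (nat_lit 22) (nat_lit 4) (nat_lit 20) (nat_lit 4) (nat_lit 454) (nat_lit 398) (nat_lit 348)) (XT.lf (nat_lit 0) (nat_lit 28933797663) (nat_lit 76) (nat_lit 18492103759) (nat_lit 76) (nat_lit 9401209276)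 (nat_lit 19) (nat_lit 4) (nat_lit 20) (nat_lit 5) (nat_lit 20) (nat_lit 4) (nat_lit 455) (nat_lit 398) (nat_lit 347))) (XT.nd (nat_lit 78) (nat_lit 0) (nat_lit 0) (XT.lf (nat_lit 0) (nat_lit 775719272) (nat_lit 76) (nat_lit 3974365182) (nat_lit 152) (nat_lit 55435905117) (nat_lit 17) (nat_lit 5) (nat_lit 18) (nat_lit 5) (nat_lit 19) (nat_lit 4) (nat_lit 456) (nat_lit 398) (nat_lit 346)) (XT.lf (nat_lit 0) (nat_lit 20545445369) (nat_lit 152) (nat_lit 31063243175) (nat_lit 0) (nat_lit 12103766000) (nat_lit 17) (nat_lit 5) (nat_lit 19) (nat_lit 4) (nat_lit 17) (nat_lit 4) (nat_lit 457) (nat_lit 398) (nat_lit 345))))))))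
noncomputable def xc88 : XT := (XT.nd (nat_lit 1950) (nat_lit 304) (nat_lit 0) (XT.nd (nat_lit 936) (nat_lit 380) (nat_lit 0) (XT.nd (nat_lit 468) (nat_lit 228) (nat_lit 0) (XT.nd (nat_lit 234) (nat_lit 152) (nat_lit 0) (XT.nd (nat_lit 78) (nat_lit 152) (nat_lit 0) (XT.lf (nat_lit 0) (nat_lit 37666842147) (nat_lit 152) (nat_lit 634805688) (nat_lit 0) (nat_lit 29214396897) (nat_lit 17) (nat_lit 5) (nat_lit 19) (nat_lit 4) (nat_lit 17) (nat_lit 4) (nat_lit 458) (nat_lit 398) (nat_lit 344)) (XT.nd (nat_lit 78) (nat_lit 76) (nat_lit 0) (XT.lf (nat_lit 0) (nat_lit 33843954054) (nat_lit 76) (nat_lit 23090145194) (nat_lit 76) (nat_lit 14627731534) (nat_lit 16) (nat_lit 4) (nat_lit 17) (nat_lit 5) (nat_lit 17) (nat_lit 4) (nat_lit 459) (nat_lit 398) (nat_lit 343)) (XT.lf (nat_lit 0) (nat_lit 1700888393) (nat_lit 152) (nat_lit 4933795810) (nat_lit 76) (nat_lit 69294706916) (nat_lit 15) (nat_lit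 5) (nat_lit 17) (nat_lit 5) (nat_lit 16) (nat_lit 4) (nat_lit 460) (nat_lit 398) (nat_lit 342)))) (XT.nd (nat_lit 78) (nat_lit 76) (nat_lit 0) (XT.lf (nat_lit 0) (nat_lit 19567188744) (nat_lit 152) (nat_lit 49251878221) (nat_lit 0) (nat_lit 11715160992) (nat_lit 14) (nat_lit 5) (nat_lit 16) (nat_lit 4) (nat_lit 14) (nat_lit 4) (nat_lit 461) (nat_lit 398) (nat_lit 341)) (XT.nd (nat_lit 78) (nat_lit 76) (nat_lit 0) (XT.lf (nat_lit 0) (nat_lit 39138628150) (nat_lit 152) (nat_lit 15067483863) (nat_lit 0) (nat_lit 31279273320) (nat_lit 14) (nat_lit 5) (nat_lit 16) (nat_lit 4) (nat_lit 14) (nat_lit 4) (nat_lit 462) (nat_lit 398) (nat_lit 340)) (XT.lf (nat_lit 0) (nat_lit 22932771638) (nat_lit 76) (nat_lit 37862232727) (nat_lit 76) (nat_lit 29996093565) (nat_lit 13) (nat_lit 4) (nat_lit 14) (nat_lit 5) (nat_lit 14) (nat_lit 4) (nat_lit 463) (nat_lit 398) (nat_lit 339))))) (XT.nd (nat_lit 234)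 (nat_lit 76) (nat_lit 0) (XT.nd (nat_lit 78) (nat_lit 152) (nat_lit 0) (XT.lf (nat_lit 0) (nat_lit 64765541143) (nat_lit 76) (nat_lit 19798853673) (nat_lit 76) (nat_lit 11926432723) (nat_lit 13) (nat_lit 4) (nat_lit 14) (nat_lit 5) (nat_lit 14) (nat_lit 4) (nat_lit 464) (nat_lit 398) (nat_lit 338)) (XT.nd (nat_lit 78) (nat_lit 0) (nat_lit 0) (XT.lf (nat_lit 0) (nat_lit 7359526126) (nat_lit 152) (nat_lit 95195519150) (nat_lit 0) (nat_lit 64861847) (nat_lit 11) (nat_lit 5) (nat_lit 13) (nat_lit 4) (nat_lit 11) (nat_lit 4) (nat_lit 465) (nat_lit 398) (nat_lit 337)) (XT.lf (nat_lit 0) (nat_lit 28918387662) (nat_lit 152) (nat_lit 58567457733) (nat_lit 0) (nat_lit 21618736697) (nat_lit 11) (nat_lit 5) (nat_lit 13) (nat_lit 4) (nat_lit 11) (nat_lit 4) (nat_lit 466) (nat_lit 398) (nat_lit 336)))) (XT.nd (nat_lit 78) (nat_lit 76) (nat_lit 0) (XT.lf (nat_lit 0) (nat_lit 52174320250) (nat_lit 152)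 (nat_lit 19065870105) (nat_lit 0) (nat_lit 44870051983) (nat_lit 11) (nat_lit 5) (nat_lit 13) (nat_lit 4) (nat_lit 11) (nat_lit 4) (nat_lit 467) (nat_lit 398) (nat_lit 335)) (XT.nd (nat_lit 78) (nat_lit 0) (nat_lit 0) (XT.lf (nat_lit 0) (nat_lit 24783077104) (nat_lit 76) (nat_lit 53078093317) (nat_lit 76) (nat_lit 45769549770) (nat_lit 10) (nat_lit 4) (nat_lit 11) (nat_lit 5) (nat_lit 11) (nat_lit 4) (nat_lit 468) (nat_lit 398) (nat_lit 334)) (XT.lf (nat_lit 0) (nat_lit 73173045253) (nat_lit 76) (nat_lit 32926291943) (nat_lit 76) (nat_lit 25613789804) (nat_lit 10) (nat_lit 4) (nat_lit 11) (nat_lit 5) (nat_lit 11) (nat_lit 4) (nat_lit 469) (nat_lit 398) (nat_lit 333)))))) (XT.nd (nat_lit 468) (nat_lit 152) (nat_lit 0) (XT.nd (nat_lit 234) (nat_lit 76) (nat_lit 0) (XT.nd (nat_lit 78) (nat_lit 152) (nat_lit 0) (XT.lf (nat_lit 0) (nat_lit 125386814774) (nat_lit 76) (nat_lit 11186662827) (nat_lit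 76) (nat_lit 3870495324) (nat_lit 10) (nat_lit 4) (nat_lit 11) (nat_lit 5) (nat_lit 11) (nat_lit 4) (nat_lit 470) (nat_lit 398) (nat_lit 332)) (XT.nd (nat_lit 78) (nat_lit 0) (nat_lit 0) (XT.lf (nat_lit 0) (nat_lit 19731838660) (nat_lit 152) (nat_lit 117061194110) (nat_lit 0) (nat_lit 12954467032) (nat_lit 8) (nat_lit 5) (nat_lit 10) (nat_lit 4) (nat_lit 8) (nat_lit 4) (nat_lit 471) (nat_lit 398) (nat_lit 331)) (XT.lf (nat_lit 0) (nat_lit 45704298188) (nat_lit 152) (nat_lit 75103667644) (nat_lit 0) (nat_lit 38924016877) (nat_lit 8) (nat_lit 5) (nat_lit 10) (nat_lit 4) (nat_lit 8) (nat_lit 4) (nat_lit 472) (nat_lit 398) (nat_lit 330)))) (XT.nd (nat_lit 78) (nat_lit 76) (nat_lit 0) (XT.lf (nat_lit 0) (nat_lit 73734277454) (nat_lit 152) (nat_lit 29831267107) (nat_lit 0) (nat_lit 66951301992) (nat_lit 8) (nat_lit 5) (nat_lit 10) (nat_lit 4) (nat_lit 8) (nat_lit 4) (nat_lit 473) (nat_lit 398)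 (nat_lit 329)) (XT.nd (nat_lit 78) (nat_lit 0) (nat_lit 0) (XT.lf (nat_lit 0) (nat_lit 20026073705) (nat_lit 76) (nat_lit 84443433890) (nat_lit 76) (nat_lit 77657963843) (nat_lit 7) (nat_lit 4) (nat_lit 8) (nat_lit 5) (nat_lit 8) (nat_lit 4) (nat_lit 474) (nat_lit 398) (nat_lit 328)) (XT.lf (nat_lit 0) (nat_lit 75530873450) (nat_lit 76) (nat_lit 62930032427) (nat_lit 76) (nat_lit 56142252579) (nat_lit 7) (nat_lit 4) (nat_lit 8) (nat_lit 5) (nat_lit 8) (nat_lit 4) (nat_lit 475) (nat_lit 398) (nat_lit 327))))) (XT.nd (nat_lit 234) (nat_lit 0) (nat_lit 0) (XT.nd (nat_lit 78) (nat_lit 152) (nat_lit 0) (XT.lf (nat_lit 0) (nat_lit 135441187799) (nat_lit 76) (nat_lit 39713493059) (nat_lit 76) (nat_lit 32923574507) (nat_lit 7) (nat_lit 4) (nat_lit 8) (nat_lit 5) (nat_lit 8) (nat_lit 4) (nat_lit 476) (nat_lit 398) (nat_lit 326)) (XT.nd (nat_lit 78) (nat_lit 152) (nat_lit 0) (XT.lf (nat_lit 0) (nat_lit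 200112040837) (nat_lit 76) (nat_lit 14656236293) (nat_lit 76) (nat_lit 7864337459) (nat_lit 7) (nat_lit 4) (nat_lit 8) (nat_lit 5) (nat_lit 8) (nat_lit 4) (nat_lit 477) (nat_lit 398) (nat_lit 325)) (XT.lf (nat_lit 0) (nat_lit 19342392351) (nat_lit 152) (nat_lit 205831834989) (nat_lit 0) (nat_lit 13051899362) (nat_lit 5) (nat_lit 5) (nat_lit 7) (nat_lit 4) (nat_lit 5) (nat_lit 4) (nat_lit 478) (nat_lit 398) (nat_lit 324)))) (XT.nd (nat_lit 156) (nat_lit 0) (nat_lit 0) (XT.nd (nat_lit 78) (nat_lit 0) (nat_lit 0) (XT.lf (nat_lit 0) (nat_lit 49298327227) (nat_lit 152) (nat_lit 162666385321) (nat_lit 0) (nat_lit 43006262227) (nat_lit 5) (nat_lit 5) (nat_lit 7) (nat_lit 4) (nat_lit 5) (nat_lit 4) (nat_lit 479) (nat_lit 398) (nat_lit 323)) (XT.lf (nat_lit 0) (nat_lit 81636957027) (nat_lit 152) (nat_lit 116076119674) (nat_lit 0) (nat_lit 75343436461) (nat_lit 5) (nat_lit 5) (nat_lit 7) (nat_lit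 4) (nat_lit 5) (nat_lit 4) (nat_lit 480) (nat_lit 398) (nat_lit 322))) (XT.nd (nat_lit 78) (nat_lit 0) (nat_lit 0) (XT.lf (nat_lit 0) (nat_lit 116549918075) (nat_lit 152) (nat_lit 65784947585) (nat_lit 0) (nat_lit 110255049762) (nat_lit 5) (nat_lit 5) (nat_lit 7) (nat_lit 4) (nat_lit 5) (nat_lit 4) (nat_lit 481) (nat_lit 398) (nat_lit 321)) (XT.lf (nat_lit 0) (nat_lit 154244101991) (nat_lit 152) (nat_lit 11494847293) (nat_lit 0) (nat_lit 147947985765) (nat_lit 5) (nat_lit 5) (nat_lit 7) (nat_lit 4) (nat_lit 5) (nat_lit 4) (nat_lit 482) (nat_lit 398) (nat_lit 320))))))) (XT.nd (nat_lit 936) (nat_lit 76) (nat_lit 0) (XT.nd (nat_lit 468) (nat_lit 152) (nat_lit 0) (XT.nd (nat_lit 234) (nat_lit 0) (nat_lit 0) (XT.nd (nat_lit 78) (nat_lit 0) (nat_lit 0) (XT.lf (nat_lit 0) (nat_lit 49596940127) (nat_lit 76) (nat_lit 146538749194) (nat_lit 76) (nat_lit 140241477493) (nat_lit 4) (nat_lit 4) (nat_lit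 5) (nat_lit 5) (nat_lit 5) (nat_lit 4) (nat_lit 483) (nat_lit 398) (nat_lit 319)) (XT.nd (nat_lit 78) (nat_lit 0) (nat_lit 0) (XT.lf (nat_lit 0) (nat_lit 116207803141) (nat_lit 76) (nat_lit 125474432530) (nat_lit 76) (nat_lit 119176090943) (nat_lit 4) (nat_lit 4) (nat_lit 5) (nat_lit 5) (nat_lit 5) (nat_lit 4) (nat_lit 484) (nat_lit 398) (nat_lit 318)) (XT.lf (nat_lit 0) (nat_lit 188127174501) (nat_lit 76) (nat_lit 102735463206) (nat_lit 76) (nat_lit 96436130986) (nat_lit 4) (nat_lit 4) (nat_lit 5) (nat_lit 5) (nat_lit 5) (nat_lit 4) (nat_lit 485) (nat_lit 398) (nat_lit 317)))) (XT.nd (nat_lit 78) (nat_lit 0) (nat_lit 0) (XT.lf (nat_lit 0) (nat_lit 265781243074) (nat_lit 76) (nat_lit 78187091776) (nat_lit 76) (nat_lit 71886842302) (nat_lit 4) (nat_lit 4) (nat_lit 5) (nat_lit 5) (nat_lit 5) (nat_lit 4) (nat_lit 486) (nat_lit 398) (nat_lit 316)) (XT.nd (nat_lit 78) (nat_lit 0) (nat_lit 0)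 (XT.lf (nat_lit 0) (nat_lit 349630181119) (nat_lit 76) (nat_lit 51683846408) (nat_lit 76) (nat_lit 45382747626) (nat_lit 4) (nat_lit 4) (nat_lit 5) (nat_lit 5) (nat_lit 5) (nat_lit 4) (nat_lit 487) (nat_lit 398) (nat_lit 315)) (XT.lf (nat_lit 0) (nat_lit 440170871230) (nat_lit 76) (nat_lit 23068670834) (nat_lit 76) (nat_lit 16766785655) (nat_lit 4) (nat_lit 4) (nat_lit 5) (nat_lit 5) (nat_lit 5) (nat_lit 4) (nat_lit 488) (nat_lit 398) (nat_lit 314))))) (XT.nd (nat_lit 234) (nat_lit 0) (nat_lit 0) (XT.nd (nat_lit 78) (nat_lit 0) (nat_lit 0) (XT.lf (nat_lit 0) (nat_lit 14182366519) (nat_lit 152) (nat_lit 493364368081) (nat_lit 0) (nat_lit 8346613440) (nat_lit 2) (nat_lit 5) (nat_lit 4) (nat_lit 4) (nat_lit 2) (nat_lit 4) (nat_lit 489) (nat_lit 398) (nat_lit 313)) (XT.nd (nat_lit 78) (nat_lit 0) (nat_lit 0) (XT.lf (nat_lit 0) (nat_lit 48410821241) (nat_lit 152) (nat_lit 463494487827) (nat_lit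 0) (nat_lit 42574443895) (nat_lit 2) (nat_lit 5) (nat_lit 4) (nat_lit 4) (nat_lit 2) (nat_lit 4) (nat_lit 490) (nat_lit 398) (nat_lit 312)) (XT.lf (nat_lit 0) (nat_lit 85370667052) (nat_lit 152) (nat_lit 431249242402) (nat_lit 0) (nat_lit 79533711680) (nat_lit 2) (nat_lit 5) (nat_lit 4) (nat_lit 4) (nat_lit 2) (nat_lit 4) (nat_lit 491) (nat_lit 398) (nat_lit 311)))) (XT.nd (nat_lit 78) (nat_lit 0) (nat_lit 0) (XT.lf (nat_lit 0) (nat_lit 125280925260) (nat_lit 152) (nat_lit 396437548869) (nat_lit 0) (nat_lit 119443434680) (nat_lit 2) (nat_lit 5) (nat_lit 4) (nat_lit 4) (nat_lit 2) (nat_lit 4) (nat_lit 492) (nat_lit 398) (nat_lit 310)) (XT.nd (nat_lit 78) (nat_lit 0) (nat_lit 0) (XT.lf (nat_lit 0) (nat_lit 168378101099) (nat_lit 152) (nat_lit 358853115712) (nat_lit 0) (nat_lit 162540114955) (nat_lit 2) (nat_lit 5) (nat_lit 4) (nat_lit 4) (nat_lit 2) (nat_lit 4) (nat_lit 493) (nat_lit 398)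 (nat_lit 309)) (XT.lf (nat_lit 0) (nat_lit 214917585241) (nat_lit 152) (nat_lit 318273220363) (nat_lit 0) (nat_lit 209079140242) (nat_lit 2) (nat_lit 5) (nat_lit 4) (nat_lit 4) (nat_lit 2) (nat_lit 4) (nat_lit 494) (nat_lit 398) (nat_lit 308)))))) (XT.nd (nat_lit 468) (nat_lit 0) (nat_lit 0) (XT.nd (nat_lit 234) (nat_lit 76) (nat_lit 0) (XT.nd (nat_lit 78) (nat_lit 0) (nat_lit 0) (XT.lf (nat_lit 0) (nat_lit 265175167221) (nat_lit 152) (nat_lit 274457389368) (nat_lit 0) (nat_lit 259336297356) (nat_lit 2) (nat_lit 5) (nat_lit 4) (nat_lit 4) (nat_lit 2) (nat_lit 4) (nat_lit 495) (nat_lit 398) (nat_lit 307)) (XT.nd (nat_lit 78) (nat_lit 0) (nat_lit 0) (XT.lf (nat_lit 0) (nat_lit 319448669747) (nat_lit 152) (nat_lit 227145973359) (nat_lit 0) (nat_lit 313609406488) (nat_lit 2) (nat_lit 5) (nat_lit 4) (nat_lit 4) (nat_lit 2) (nat_lit 4) (nat_lit 496) (nat_lit 398) (nat_lit 306)) (XT.lf (nat_lit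 0) (nat_lit 378059713576) (nat_lit 152) (nat_lit 176058608389) (nat_lit 0) (nat_lit 372220086063) (nat_lit 2) (nat_lit 5) (nat_lit 4) (nat_lit 4) (nat_lit 2) (nat_lit 4) (nat_lit 497) (nat_lit 398) (nat_lit 305)))) (XT.nd (nat_lit 78) (nat_lit 76) (nat_lit 0) (XT.lf (nat_lit 0) (nat_lit 441355623411) (nat_lit 152) (nat_lit 120892554518) (nat_lit 0) (nat_lit 435515658625) (nat_lit 2) (nat_lit 5) (nat_lit 4) (nat_lit 4) (nat_lit 2) (nat_lit 4) (nat_lit 498) (nat_lit 398) (nat_lit 304)) (XT.nd (nat_lit 78) (nat_lit 76) (nat_lit 0) (XT.lf (nat_lit 0) (nat_lit 509711486125) (nat_lit 152) (nat_lit 61320901796) (nat_lit 0) (nat_lit 503871209051) (nat_lit 2) (nat_lit 5) (nat_lit 4) (nat_lit 4) (nat_lit 2) (nat_lit 4) (nat_lit 499) (nat_lit 398) (nat_lit 303)) (XT.lf (nat_lit 0) (nat_lit 3167834909) (nat_lit 76) (nat_lit 580440725094) (nat_lit 76) (nat_lit 574600158863) (nat_lit 1) (nat_lit 4) (nat_lit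 2) (nat_lit 5) (nat_lit 2) (nat_lit 4) (nat_lit 500) (nat_lit 398) (nat_lit 302))))) (XT.nd (nat_lit 234) (nat_lit 0) (nat_lit 0) (XT.nd (nat_lit 78) (nat_lit 0) (nat_lit 0) (XT.lf (nat_lit 0) (nat_lit 76296108562) (nat_lit 76) (nat_lit 588794557323) (nat_lit 76) (nat_lit 582953723354) (nat_lit 1) (nat_lit 4) (nat_lit 2) (nat_lit 5) (nat_lit 2) (nat_lit 4) (nat_lit 501) (nat_lit 398) (nat_lit 301)) (XT.nd (nat_lit 78) (nat_lit 0) (nat_lit 0) (XT.lf (nat_lit 0) (nat_lit 155268221875) (nat_lit 76) (nat_lit 597820010925) (nat_lit 76) (nat_lit 591978929051) (nat_lit 1) (nat_lit 4) (nat_lit 2) (nat_lit 5) (nat_lit 2) (nat_lit 4) (nat_lit 502) (nat_lit 398) (nat_lit 300)) (XT.lf (nat_lit 0) (nat_lit 240552157743) (nat_lit 76) (nat_lit 607570570068) (nat_lit 76) (nat_lit 601729258652) (nat_lit 1) (nat_lit 4) (nat_lit 2) (nat_lit 5) (nat_lit 2) (nat_lit 4) (nat_lit 503) (nat_lit 398) (nat_lit 299))))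 (XT.nd (nat_lit 156) (nat_lit 0) (nat_lit 0) (XT.nd (nat_lit 78) (nat_lit 0) (nat_lit 0) (XT.lf (nat_lit 0) (nat_lit 332653302452) (nat_lit 76) (nat_lit 618104015845) (nat_lit 76) (nat_lit 612262491890) (nat_lit 1) (nat_lit 4) (nat_lit 2) (nat_lit 5) (nat_lit 2) (nat_lit 4) (nat_lit 504) (nat_lit 398) (nat_lit 298)) (XT.lf (nat_lit 0) (nat_lit 432117440564) (nat_lit 76) (nat_lit 629482768674) (nat_lit 76) (nat_lit 623641047924) (nat_lit 1) (nat_lit 4) (nat_lit 2) (nat_lit 5) (nat_lit 2) (nat_lit 4) (nat_lit 505) (nat_lit 398) (nat_lit 297))) (XT.nd (nat_lit 78) (nat_lit 0) (nat_lit 0) (XT.lf (nat_lit 0) (nat_lit 539533989193) (nat_lit 76) (nat_lit 641774258202) (nat_lit 76) (nat_lit 635932355234) (nat_lit 1) (nat_lit 4) (nat_lit 2) (nat_lit 5) (nat_lit 2) (nat_lit 4) (nat_lit 506) (nat_lit 398) (nat_lit 296)) (XT.lf (nat_lit 0) (nat_lit 655539490849) (nat_lit 76) (nat_lit 655051322885)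 (nat_lit 76) (nat_lit 649209251198) (nat_lit 1) (nat_lit 4) (nat_lit 2) (nat_lit 5) (nat_lit 2) (nat_lit 4) (nat_lit 507) (nat_lit 398) (nat_lit 295))))))))
noncomputable def xc89 : XT := (XT.nd (nat_lit 1950) (nat_lit 0) (nat_lit 0) (XT.nd (nat_lit 936) (nat_lit 0) (nat_lit 0) (XT.nd (nat_lit 468) (nat_lit 0) (nat_lit 0) (XT.nd (nat_lit 234) (nat_lit 0) (nat_lit 0) (XT.nd (nat_lit 78) (nat_lit 0) (nat_lit 0) (XT.lf (nat_lit 0) (nat_lit 780821385543) (nat_lit 76) (nat_lit 669392641626) (nat_lit 76) (nat_lit 663550413716) (nat_lit 1) (nat_lit 4) (nat_lit 2) (nat_lit 5) (nat_lit 2) (nat_lit 4) (nat_lit 508) (nat_lit 398) (nat_lit 294)) (XT.nd (nat_lit 78) (nat_lit 0) (nat_lit 0) (XT.lf (nat_lit 0) (nat_lit 916122084502) (nat_lit 76) (nat_lit 684883200016) (nat_lit 76) (nat_lit 679040827456) (nat_lit 1) (nat_lit 4) (nat_lit 2) (nat_lit 5) (nat_lit 2) (nat_lit 4) (nat_lit 509) (nat_lit 398)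 (nat_lit 293)) (XT.lf (nat_lit 0) (nat_lit 1062243369645) (nat_lit 76) (nat_lit 701614793958) (nat_lit 76) (nat_lit 695772287463) (nat_lit 1) (nat_lit 4) (nat_lit 2) (nat_lit 5) (nat_lit 2) (nat_lit 4) (nat_lit 510) (nat_lit 398) (nat_lit 292)))) (XT.nd (nat_lit 78) (nat_lit 0) (nat_lit 0) (XT.lf (nat_lit 0) (nat_lit 1220051144886) (nat_lit 76) (nat_lit 719686573638) (nat_lit 76) (nat_lit 713843943128) (nat_lit 1) (nat_lit 4) (nat_lit 2) (nat_lit 5) (nat_lit 2) (nat_lit 4) (nat_lit 511) (nat_lit 398) (nat_lit 291)) (XT.nd (nat_lit 78) (nat_lit 0) (nat_lit 0) (XT.lf (nat_lit 0) (nat_lit 1390480567411) (nat_lit 76) (nat_lit 739205631082) (nat_lit 76) (nat_lit 733362885744) (nat_lit 1) (nat_lit 4) (nat_lit 2) (nat_lit 5) (nat_lit 2) (nat_lit 4) (nat_lit 512) (nat_lit 398) (nat_lit 290)) (XT.lf (nat_lit 0) (nat_lit 1574541589352) (nat_lit 76) (nat_lit 760287634781) (nat_lit 76) (nat_lit 754444783121)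 (nat_lit 1) (nat_lit 4) (nat_lit 2) (nat_lit 5) (nat_lit 2) (nat_lit 4) (nat_lit 513) (nat_lit 398) (nat_lit 289))))) (XT.nd (nat_lit 234) (nat_lit 0) (nat_lit 0) (XT.nd (nat_lit 78) (nat_lit 0) (nat_lit 0) (XT.lf (nat_lit 0) (nat_lit 1773324942692) (nat_lit 76) (nat_lit 783057515126) (nat_lit 76) (nat_lit 777214565019) (nat_lit 1) (nat_lit 4) (nat_lit 2) (nat_lit 5) (nat_lit 2) (nat_lit 4) (nat_lit 514) (nat_lit 398) (nat_lit 288)) (XT.nd (nat_lit 78) (nat_lit 0) (nat_lit 0) (XT.lf (nat_lit 0) (nat_lit 1988008602858) (nat_lit 76) (nat_lit 807650204742) (nat_lit 76) (nat_lit 801807163481) (nat_lit 1) (nat_lit 4) (nat_lit 2) (nat_lit 5) (nat_lit 2) (nat_lit 4) (nat_lit 515) (nat_lit 398) (nat_lit 287)) (XT.lf (nat_lit 0) (nat_lit 2219864769318) (nat_lit 76) (nat_lit 834211438085) (nat_lit 76) (nat_lit 828368312422) (nat_lit 1) (nat_lit 4) (nat_lit 2) (nat_lit 5) (nat_lit 2) (nat_lit 4) (nat_lit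 516) (nat_lit 398) (nat_lit 286)))) (XT.nd (nat_lit 78) (nat_lit 0) (nat_lit 0) (XT.lf (nat_lit 0) (nat_lit 2470267404540) (nat_lit 76) (nat_lit 862898615057) (nat_lit 76) (nat_lit 857055411243) (nat_lit 1) (nat_lit 4) (nat_lit 2) (nat_lit 5) (nat_lit 2) (nat_lit 4) (nat_lit 517) (nat_lit 398) (nat_lit 285)) (XT.nd (nat_lit 78) (nat_lit 0) (nat_lit 0) (XT.lf (nat_lit 0) (nat_lit 2740700375991) (nat_lit 76) (nat_lit 893881733743) (nat_lit 76) (nat_lit 888038457569) (nat_lit 1) (nat_lit 4) (nat_lit 2) (nat_lit 5) (nat_lit 2) (nat_lit 4) (nat_lit 518) (nat_lit 398) (nat_lit 284)) (XT.lf (nat_lit 0) (nat_lit 3032766249429) (nat_lit 76) (nat_lit 927344397810) (nat_lit 76) (nat_lit 921501054635) (nat_lit 1) (nat_lit 4) (nat_lit 2) (nat_lit 5) (nat_lit 2) (nat_lit 4) (nat_lit 519) (nat_lit 398) (nat_lit 283)))))) (XT.nd (nat_lit 468) (nat_lit 0) (nat_lit 0) (XT.nd (nat_lit 234) (nat_lit 0) (nat_lit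 0) (XT.nd (nat_lit 78) (nat_lit 0) (nat_lit 0) (XT.lf (nat_lit 0) (nat_lit 3348195785584) (nat_lit 76) (nat_lit 963484904527) (nat_lit 76) (nat_lit 957641499313) (nat_lit 1) (nat_lit 4) (nat_lit 2) (nat_lit 5) (nat_lit 2) (nat_lit 4) (nat_lit 520) (nat_lit 398) (nat_lit 282)) (XT.nd (nat_lit 78) (nat_lit 0) (nat_lit 0) (XT.lf (nat_lit 0) (nat_lit 3688858196523) (nat_lit 76) (nat_lit 1002517419858) (nat_lit 76) (nat_lit 996673957202) (nat_lit 1) (nat_lit 4) (nat_lit 2) (nat_lit 5) (nat_lit 2) (nat_lit 4) (nat_lit 521) (nat_lit 398) (nat_lit 281)) (XT.lf (nat_lit 0) (nat_lit 4056772222460) (nat_lit 76) (nat_lit 1044673247600) (nat_lit 76) (nat_lit 1038829731756) (nat_lit 1) (nat_lit 4) (nat_lit 2) (nat_lit 5) (nat_lit 2) (nat_lit 4) (nat_lit 522) (nat_lit 398) (nat_lit 280)))) (XT.nd (nat_lit 78) (nat_lit 0) (nat_lit 0) (XT.lf (nat_lit 0) (nat_lit 4454118094658) (nat_lit 76) (nat_lit 1090202200063)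 (nat_lit 76) (nat_lit 1084358634972) (nat_lit 1) (nat_lit 4) (nat_lit 2) (nat_lit 5) (nat_lit 2) (nat_lit 4) (nat_lit 523) (nat_lit 398) (nat_lit 279)) (XT.nd (nat_lit 78) (nat_lit 0) (nat_lit 0) (XT.lf (nat_lit 0) (nat_lit 4883250455323) (nat_lit 76) (nat_lit 1139374078449) (nat_lit 76) (nat_lit 1133530467757) (nat_lit 1) (nat_lit 4) (nat_lit 2) (nat_lit 5) (nat_lit 2) (nat_lit 4) (nat_lit 524) (nat_lit 398) (nat_lit 278)) (XT.lf (nat_lit 0) (nat_lit 5346712311038) (nat_lit 76) (nat_lit 1192480271665) (nat_lit 76) (nat_lit 1186636618752) (nat_lit 1) (nat_lit 4) (nat_lit 2) (nat_lit 5) (nat_lit 2) (nat_lit 4) (nat_lit 525) (nat_lit 398) (nat_lit 277))))) (XT.nd (nat_lit 234) (nat_lit 0) (nat_lit 0) (XT.nd (nat_lit 78) (nat_lit 0) (nat_lit 0) (XT.lf (nat_lit 0) (nat_lit 5847250102428) (nat_lit 76) (nat_lit 1249835483080) (nat_lit 76) (nat_lit 1243991791072) (nat_lit 1) (nat_lit 4) (nat_lit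 2) (nat_lit 5) (nat_lit 2) (nat_lit 4) (nat_lit 526) (nat_lit 398) (nat_lit 276)) (XT.nd (nat_lit 78) (nat_lit 0) (nat_lit 0) (XT.lf (nat_lit 0) (nat_lit 6387829979368) (nat_lit 76) (nat_lit 1311779595427) (nat_lit 76) (nat_lit 1305935867220) (nat_lit 1) (nat_lit 4) (nat_lit 2) (nat_lit 5) (nat_lit 2) (nat_lit 4) (nat_lit 527) (nat_lit 398) (nat_lit 275)) (XT.lf (nat_lit 0) (nat_lit 6971655378167) (nat_lit 76) (nat_lit 1378679684927) (nat_lit 76) (nat_lit 1372835923204) (nat_lit 1) (nat_lit 4) (nat_lit 2) (nat_lit 5) (nat_lit 2) (nat_lit 4) (nat_lit 528) (nat_lit 398) (nat_lit 274)))) (XT.nd (nat_lit 156) (nat_lit 0) (nat_lit 0) (XT.nd (nat_lit 78) (nat_lit 0) (nat_lit 0) (XT.lf (nat_lit 0) (nat_lit 7602186004891) (nat_lit 76) (nat_lit 1450932196557) (nat_lit 76) (nat_lit 1445088403799) (nat_lit 1) (nat_lit 4) (nat_lit 2) (nat_lit 5) (nat_lit 2) (nat_lit 4) (nat_lit 529) (nat_lit 398) (nat_lit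 273)) (XT.lf (nat_lit 0) (nat_lit 8283158337328) (nat_lit 76) (nat_lit 1528965293347) (nat_lit 76) (nat_lit 1523121471853) (nat_lit 1) (nat_lit 4) (nat_lit 2) (nat_lit 5) (nat_lit 2) (nat_lit 4) (nat_lit 530) (nat_lit 398) (nat_lit 272))) (XT.nd (nat_lit 78) (nat_lit 0) (nat_lit 0) (XT.lf (nat_lit 0) (nat_lit 9018607767078) (nat_lit 76) (nat_lit 1613241393648) (nat_lit 76) (nat_lit 1607397545548) (nat_lit 1) (nat_lit 4) (nat_lit 2) (nat_lit 5) (nat_lit 2) (nat_lit 4) (nat_lit 531) (nat_lit 398) (nat_lit 271)) (XT.lf (nat_lit 0) (nat_lit 9812892512983) (nat_lit 76) (nat_lit 1704259911390) (nat_lit 76) (nat_lit 1698416038653) (nat_lit 1) (nat_lit 4) (nat_lit 2) (nat_lit 5) (nat_lit 2) (nat_lit 4) (nat_lit 532) (nat_lit 398) (nat_lit 270))))))) (XT.nd (nat_lit 52962) (nat_lit 0) (nat_lit 3724) (XT.nd (nat_lit 52494) (nat_lit 0) (nat_lit 6460) (XT.nd (nat_lit 52260) (nat_lit 0) (nat_lit 7524)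 (XT.nd (nat_lit 78) (nat_lit 0) (nat_lit 0) (XT.lf (nat_lit 0) (nat_lit 10670719447613) (nat_lit 76) (nat_lit 1802560215564) (nat_lit 76) (nat_lit 1796716320016) (nat_lit 1) (nat_lit 4) (nat_lit 2) (nat_lit 5) (nat_lit 2) (nat_lit 4) (nat_lit 533) (nat_lit 398) (nat_lit 269)) (XT.nd (nat_lit 78) (nat_lit 0) (nat_lit 0) (XT.lf (nat_lit 0) (nat_lit 11597171989839) (nat_lit 76) (nat_lit 1908724826494) (nat_lit 76) (nat_lit 1902880909824) (nat_lit 1) (nat_lit 4) (nat_lit 2) (nat_lit 5) (nat_lit 2) (nat_lit 4) (nat_lit 534) (nat_lit 398) (nat_lit 268)) (XT.lf (nat_lit 0) (nat_lit 12597740228800) (nat_lit 76) (nat_lit 2023382867798) (nat_lit 76) (nat_lit 2017538931571) (nat_lit 1) (nat_lit 4) (nat_lit 2) (nat_lit 5) (nat_lit 2) (nat_lit 4) (nat_lit 535) (nat_lit 398) (nat_lit 267)))) (XT.nd (nat_lit 78) (nat_lit 228) (nat_lit 0) (XT.lf (nat_lit 0) (nat_lit 148137405) (nat_lit 76) (nat_lit 1542867194)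 (nat_lit 76) (nat_lit 1542867194) (nat_lit 103) (nat_lit 4) (nat_lit 104) (nat_lit 5) (nat_lit 104) (nat_lit 4) (nat_lit 402) (nat_lit 399) (nat_lit 399)) (XT.nd (nat_lit 78) (nat_lit 152) (nat_lit 0) (XT.lf (nat_lit 0) (nat_lit 121906419) (nat_lit 152) (nat_lit 2491546204) (nat_lit 76) (nat_lit 3892904512) (nat_lit 102) (nat_lit 5) (nat_lit 104) (nat_lit 5) (nat_lit 103) (nat_lit 4) (nat_lit 403) (nat_lit 399) (nat_lit 398)) (XT.lf (nat_lit 0) (nat_lit 1270041467) (nat_lit 152) (nat_lit 1882325351) (nat_lit 228) (nat_lit 3410773655) (nat_lit 100) (nat_lit 5) (nat_lit 102) (nat_lit 5) (nat_lit 103) (nat_lit 4) (nat_lit 404) (nat_lit 399) (nat_lit 397))))) (XT.nd (nat_lit 234) (nat_lit 456) (nat_lit 0) (XT.nd (nat_lit 78) (nat_lit 608) (nat_lit 0) (XT.lf (nat_lit 0) (nat_lit 5283105081) (nat_lit 152) (nat_lit 930105159) (nat_lit 228) (nat_lit 428337279) (nat_lit 100) (nat_lit 5) (nat_lit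 102) (nat_lit 5) (nat_lit 103) (nat_lit 4) (nat_lit 405) (nat_lit 399) (nat_lit 396)) (XT.nd (nat_lit 78) (nat_lit 304) (nat_lit 0) (XT.lf (nat_lit 0) (nat_lit 2461026044) (nat_lit 304) (nat_lit 3973223491) (nat_lit 76) (nat_lit 302061815) (nat_lit 96) (nat_lit 5) (nat_lit 100) (nat_lit 5) (nat_lit 97) (nat_lit 4) (nat_lit 406) (nat_lit 399) (nat_lit 395)) (XT.lf (nat_lit 0) (nat_lit 222805309) (nat_lit 304) (nat_lit 5153752273) (nat_lit 380) (nat_lit 1475848485) (nat_lit 92) (nat_lit 5) (nat_lit 96) (nat_lit 5) (nat_lit 97) (nat_lit 4) (nat_lit 407) (nat_lit 399) (nat_lit 394)))) (XT.nd (nat_lit 78) (nat_lit 380) (nat_lit 0) (XT.lf (nat_lit 0) (nat_lit 1339517230) (nat_lit 380) (nat_lit 2244223850) (nat_lit 76) (nat_lit 3401598187) (nat_lit 91) (nat_lit 5) (nat_lit 96) (nat_lit 5) (nat_lit 92) (nat_lit 5) (nat_lit 408) (nat_lit 399) (nat_lit 393)) (XT.nd (nat_lit 78) (nat_lit 0) (nat_lit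 0) (XT.lf (nat_lit 0) (nat_lit 2372748315) (nat_lit 380) (nat_lit 1760557048) (nat_lit 456) (nat_lit 3005974440) (nat_lit 86) (nat_lit 5) (nat_lit 91) (nat_lit 5) (nat_lit 92) (nat_lit 5) (nat_lit 409) (nat_lit 399) (nat_lit 392)) (XT.lf (nat_lit 0) (nat_lit 7006777042) (nat_lit 456) (nat_lit 32537987) (nat_lit 76) (nat_lit 277794230) (nat_lit 86) (nat_lit 5) (nat_lit 92) (nat_lit 5) (nat_lit 87) (nat_lit 4) (nat_lit 410) (nat_lit 399) (nat_lit 391)))))) (XT.nd (nat_lit 468) (nat_lit 988) (nat_lit 0) (XT.nd (nat_lit 234) (nat_lit 456) (nat_lit 0) (XT.nd (nat_lit 78) (nat_lit 760) (nat_lit 0) (XT.lf (nat_lit 0) (nat_lit 2442179450) (nat_lit 532) (nat_lit 2480380518) (nat_lit 76) (nat_lit 2583952948) (nat_lit 79) (nat_lit 5) (nat_lit 86) (nat_lit 5) (nat_lit 80) (nat_lit 5) (nat_lit 411) (nat_lit 399) (nat_lit 390)) (XT.nd (nat_lit 78) (nat_lit 304) (nat_lit 0) (XT.lf (nat_lit 0) (nat_lit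 2706186277) (nat_lit 456) (nat_lit 2566869092) (nat_lit 532) (nat_lit 2447428377) (nat_lit 73) (nat_lit 5) (nat_lit 79) (nat_lit 5) (nat_lit 80) (nat_lit 5) (nat_lit 412) (nat_lit 399) (nat_lit 389)) (XT.lf (nat_lit 0) (nat_lit 251492830) (nat_lit 304) (nat_lit 7660326505) (nat_lit 76) (nat_lit 47741257) (nat_lit 69) (nat_lit 5) (nat_lit 73) (nat_lit 5) (nat_lit 70) (nat_lit 5) (nat_lit 413) (nat_lit 399) (nat_lit 388)))) (XT.nd (nat_lit 78) (nat_lit 456) (nat_lit 0) (XT.lf (nat_lit 0) (nat_lit 3063440758) (nat_lit 304) (nat_lit 2232247653) (nat_lit 76) (nat_lit 2914685512) (nat_lit 69) (nat_lit 5) (nat_lit 73) (nat_lit 5) (nat_lit 70) (nat_lit 5) (nat_lit 414) (nat_lit 399) (nat_lit 387)) (XT.nd (nat_lit 78) (nat_lit 228) (nat_lit 0) (XT.lf (nat_lit 0) (nat_lit 3612000281) (nat_lit 228) (nat_lit 2410402738) (nat_lit 304) (nat_lit 2465124367) (nat_lit 66) (nat_lit 5) (nat_lit 69) (nat_lit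 5) (nat_lit 70) (nat_lit 5) (nat_lit 415) (nat_lit 399) (nat_lit 386)) (XT.lf (nat_lit 0) (nat_lit 356170910) (nat_lit 228) (nat_lit 7700323455) (nat_lit 76) (nat_lit 733842061) (nat_lit 63) (nat_lit 5) (nat_lit 66) (nat_lit 5) (nat_lit 64) (nat_lit 5) (nat_lit 416) (nat_lit 399) (nat_lit 385))))) (XT.nd (nat_lit 234) (nat_lit 532) (nat_lit 0) (XT.nd (nat_lit 78) (nat_lit 456) (nat_lit 0) (XT.lf (nat_lit 0) (nat_lit 3314163275) (nat_lit 228) (nat_lit 1635208533) (nat_lit 76) (nat_lit 4159373658) (nat_lit 63) (nat_lit 5) (nat_lit 66) (nat_lit 5) (nat_lit 64) (nat_lit 5) (nat_lit 417) (nat_lit 399) (nat_lit 384)) (XT.nd (nat_lit 78) (nat_lit 228) (nat_lit 0) (XT.lf (nat_lit 0) (nat_lit 4970739668) (nat_lit 228) (nat_lit 1513896505) (nat_lit 304) (nat_lit 2969952979) (nat_lit 60) (nat_lit 5) (nat_lit 63) (nat_lit 5) (nat_lit 64) (nat_lit 5) (nat_lit 418) (nat_lit 399) (nat_lit 383)) (XT.lf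 (nat_lit 0) (nat_lit 90546988) (nat_lit 228) (nat_lit 7595919563) (nat_lit 76) (nat_lit 2140388888) (nat_lit 57) (nat_lit 5) (nat_lit 60) (nat_lit 5) (nat_lit 58) (nat_lit 5) (nat_lit 419) (nat_lit 399) (nat_lit 382)))) (XT.nd (nat_lit 156) (nat_lit 380) (nat_lit 0) (XT.nd (nat_lit 78) (nat_lit 152) (nat_lit 0) (XT.lf (nat_lit 0) (nat_lit 3263892325) (nat_lit 228) (nat_lit 801008972) (nat_lit 76) (nat_lit 6155576792) (nat_lit 57) (nat_lit 5) (nat_lit 60) (nat_lit 5) (nat_lit 58) (nat_lit 5) (nat_lit 420) (nat_lit 399) (nat_lit 381)) (XT.lf (nat_lit 0) (nat_lit 6686644670) (nat_lit 152) (nat_lit 38753543) (nat_lit 228) (nat_lit 3917470378) (nat_lit 55) (nat_lit 5) (nat_lit 57) (nat_lit 5) (nat_lit 58) (nat_lit 5) (nat_lit 421) (nat_lit 399) (nat_lit 380))) (XT.nd (nat_lit 78) (nat_lit 228) (nat_lit 0) (XT.lf (nat_lit 0) (nat_lit 3608919850) (nat_lit 152) (nat_lit 6944895948) (nat_lit 228)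 (nat_lit 538055118) (nat_lit 53) (nat_lit 5) (nat_lit 55) (nat_lit 5) (nat_lit 56) (nat_lit 4) (nat_lit 422) (nat_lit 399) (nat_lit 379)) (XT.lf (nat_lit 0) (nat_lit 175674898) (nat_lit 152) (nat_lit 2775259453) (nat_lit 228) (nat_lit 8620298660) (nat_lit 50) (nat_lit 5) (nat_lit 52) (nat_lit 5) (nat_lit 53) (nat_lit 5) (nat_lit 423) (nat_lit 399) (nat_lit 378))))))))
noncomputable def xc90 : XT := (XT.nd (nat_lit 1950) (nat_lit 1292) (nat_lit 0) (XT.nd (nat_lit 936) (nat_lit 912) (nat_lit 0) (XT.nd (nat_lit 468) (nat_lit 380) (nat_lit 0) (XT.nd (nat_lit 234) (nat_lit 304) (nat_lit 0) (XT.nd (nat_lit 78) (nat_lit 304) (nat_lit 0) (XT.lf (nat_lit 0) (nat_lit 6822974121) (nat_lit 228) (nat_lit 3454336714) (nat_lit 76) (nat_lit 1799890978) (nat_lit 50) (nat_lit 5) (nat_lit 53) (nat_lit 5) (nat_lit 51) (nat_lit 4) (nat_lit 424) (nat_lit 399) (nat_lit 377)) (XT.nd (nat_lit 78) (nat_lit 228)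 (nat_lit 0) (XT.lf (nat_lit 0) (nat_lit 5127458269) (nat_lit 76) (nat_lit 5963025946) (nat_lit 152) (nat_lit 1526321946) (nat_lit 49) (nat_lit 5) (nat_lit 50) (nat_lit 5) (nat_lit 51) (nat_lit 4) (nat_lit 425) (nat_lit 399) (nat_lit 376)) (XT.lf (nat_lit 0) (nat_lit 1218265786) (nat_lit 152) (nat_lit 1174172939) (nat_lit 228) (nat_lit 10800929137) (nat_lit 46) (nat_lit 5) (nat_lit 48) (nat_lit 5) (nat_lit 49) (nat_lit 5) (nat_lit 426) (nat_lit 399) (nat_lit 375)))) (XT.nd (nat_lit 78) (nat_lit 304) (nat_lit 0) (XT.lf (nat_lit 0) (nat_lit 6742053353) (nat_lit 228) (nat_lit 3074811507) (nat_lit 76) (nat_lit 3980044533) (nat_lit 46) (nat_lit 5) (nat_lit 49) (nat_lit 5) (nat_lit 47) (nat_lit 4) (nat_lit 427) (nat_lit 399) (nat_lit 374)) (XT.nd (nat_lit 78) (nat_lit 228) (nat_lit 0) (XT.lf (nat_lit 0) (nat_lit 6671827634) (nat_lit 76) (nat_lit 4860224785) (nat_lit 152) (nat_lit 2909299347) (nat_lit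 45) (nat_lit 5) (nat_lit 46) (nat_lit 5) (nat_lit 47) (nat_lit 4) (nat_lit 428) (nat_lit 399) (nat_lit 373)) (XT.lf (nat_lit 0) (nat_lit 1544179604) (nat_lit 228) (nat_lit 13006031340) (nat_lit 76) (nat_lit 579754305) (nat_lit 42) (nat_lit 5) (nat_lit 45) (nat_lit 5) (nat_lit 43) (nat_lit 4) (nat_lit 429) (nat_lit 399) (nat_lit 372))))) (XT.nd (nat_lit 234) (nat_lit 152) (nat_lit 0) (XT.nd (nat_lit 78) (nat_lit 228) (nat_lit 0) (XT.lf (nat_lit 0) (nat_lit 6444811825) (nat_lit 228) (nat_lit 2984627771) (nat_lit 76) (nat_lit 6418347231) (nat_lit 42) (nat_lit 5) (nat_lit 45) (nat_lit 5) (nat_lit 43) (nat_lit 4) (nat_lit 430) (nat_lit 399) (nat_lit 371)) (XT.nd (nat_lit 78) (nat_lit 152) (nat_lit 0) (XT.lf (nat_lit 0) (nat_lit 8084227853) (nat_lit 76) (nat_lit 3758676708) (nat_lit 152) (nat_lit 4771704670) (nat_lit 41) (nat_lit 5) (nat_lit 42) (nat_lit 5) (nat_lit 43) (nat_lit 4) (nat_lit 431)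 (nat_lit 399) (nat_lit 370)) (XT.lf (nat_lit 0) (nat_lit 339071491) (nat_lit 152) (nat_lit 14754360921) (nat_lit 76) (nat_lit 2339268085) (nat_lit 39) (nat_lit 5) (nat_lit 41) (nat_lit 5) (nat_lit 40) (nat_lit 4) (nat_lit 432) (nat_lit 399) (nat_lit 369)))) (XT.nd (nat_lit 78) (nat_lit 152) (nat_lit 0) (XT.lf (nat_lit 0) (nat_lit 5850585976) (nat_lit 152) (nat_lit 3416770840) (nat_lit 76) (nat_lit 9018999510) (nat_lit 39) (nat_lit 5) (nat_lit 41) (nat_lit 5) (nat_lit 40) (nat_lit 4) (nat_lit 433) (nat_lit 399) (nat_lit 368)) (XT.nd (nat_lit 78) (nat_lit 76) (nat_lit 0) (XT.lf (nat_lit 0) (nat_lit 9136293468) (nat_lit 76) (nat_lit 2805669600) (nat_lit 152) (nat_lit 7255232040) (nat_lit 38) (nat_lit 5) (nat_lit 39) (nat_lit 5) (nat_lit 40) (nat_lit 4) (nat_lit 434) (nat_lit 399) (nat_lit 367)) (XT.lf (nat_lit 0) (nat_lit 2591886372) (nat_lit 76) (nat_lit 16107420711) (nat_lit 76) (nat_lit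 1467306741) (nat_lit 37) (nat_lit 4) (nat_lit 38) (nat_lit 5) (nat_lit 38) (nat_lit 4) (nat_lit 435) (nat_lit 399) (nat_lit 366)))))) (XT.nd (nat_lit 468) (nat_lit 532) (nat_lit 0) (XT.nd (nat_lit 234) (nat_lit 152) (nat_lit 0) (XT.nd (nat_lit 78) (nat_lit 152) (nat_lit 0) (XT.lf (nat_lit 0) (nat_lit 4819969041) (nat_lit 152) (nat_lit 4707456771) (nat_lit 76) (nat_lit 11654911946) (nat_lit 36) (nat_lit 5) (nat_lit 38) (nat_lit 5) (nat_lit 37) (nat_lit 4) (nat_lit 436) (nat_lit 399) (nat_lit 365)) (XT.nd (nat_lit 78) (nat_lit 76) (nat_lit 0) (XT.lf (nat_lit 0) (nat_lit 9486877322) (nat_lit 76) (nat_lit 2198636246) (nat_lit 152) (nat_lit 10578396606) (nat_lit 35) (nat_lit 5) (nat_lit 36) (nat_lit 5) (nat_lit 37) (nat_lit 4) (nat_lit 437) (nat_lit 399) (nat_lit 364)) (XT.lf (nat_lit 0) (nat_lit 1455294312) (nat_lit 76) (nat_lit 17876604017) (nat_lit 76) (nat_lit 4081586271) (nat_lit 34) (nat_lit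 4) (nat_lit 35) (nat_lit 5) (nat_lit 35) (nat_lit 4) (nat_lit 438) (nat_lit 399) (nat_lit 363)))) (XT.nd (nat_lit 78) (nat_lit 76) (nat_lit 0) (XT.lf (nat_lit 0) (nat_lit 3131032005) (nat_lit 152) (nat_lit 7350739575) (nat_lit 76) (nat_lit 14140179328) (nat_lit 33) (nat_lit 5) (nat_lit 35) (nat_lit 5) (nat_lit 34) (nat_lit 4) (nat_lit 439) (nat_lit 399) (nat_lit 362)) (XT.nd (nat_lit 78) (nat_lit 0) (nat_lit 0) (XT.lf (nat_lit 0) (nat_lit 8621165240) (nat_lit 76) (nat_lit 2219057293) (nat_lit 152) (nat_lit 15067187949) (nat_lit 32) (nat_lit 5) (nat_lit 33) (nat_lit 5) (nat_lit 34) (nat_lit 4) (nat_lit 440) (nat_lit 399) (nat_lit 361)) (XT.lf (nat_lit 0) (nat_lit 19466820871) (nat_lit 152) (nat_lit 1287113048) (nat_lit 0) (nat_lit 6517722000) (nat_lit 32) (nat_lit 5) (nat_lit 34) (nat_lit 4) (nat_lit 32) (nat_lit 4) (nat_lit 441) (nat_lit 399) (nat_lit 360))))) (XT.nd (nat_lit 234) (nat_lit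 304) (nat_lit 0) (XT.nd (nat_lit 78) (nat_lit 76) (nat_lit 0) (XT.lf (nat_lit 0) (nat_lit 443029707) (nat_lit 152) (nat_lit 12077776393) (nat_lit 76) (nat_lit 16191647305) (nat_lit 30) (nat_lit 5) (nat_lit 32) (nat_lit 5) (nat_lit 31) (nat_lit 4) (nat_lit 442) (nat_lit 399) (nat_lit 359)) (XT.nd (nat_lit 78) (nat_lit 0) (nat_lit 0) (XT.lf (nat_lit 0) (nat_lit 5761838971) (nat_lit 76) (nat_lit 3280266549) (nat_lit 152) (nat_lit 21201149981) (nat_lit 29) (nat_lit 5) (nat_lit 30) (nat_lit 5) (nat_lit 31) (nat_lit 4) (nat_lit 443) (nat_lit 399) (nat_lit 358)) (XT.lf (nat_lit 0) (nat_lit 18767761484) (nat_lit 152) (nat_lit 6445131922) (nat_lit 0) (nat_lit 6648538165) (nat_lit 29) (nat_lit 5) (nat_lit 31) (nat_lit 4) (nat_lit 29) (nat_lit 4) (nat_lit 444) (nat_lit 399) (nat_lit 357)))) (XT.nd (nat_lit 156) (nat_lit 152) (nat_lit 0) (XT.nd (nat_lit 78) (nat_lit 76) (nat_lit 0) (XT.lf (nat_lit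 0) (nat_lit 13512951349) (nat_lit 76) (nat_lit 16111971372) (nat_lit 76) (nat_lit 3955864759) (nat_lit 28) (nat_lit 4) (nat_lit 29) (nat_lit 5) (nat_lit 29) (nat_lit 4) (nat_lit 445) (nat_lit 399) (nat_lit 356)) (XT.lf (nat_lit 0) (nat_lit 5741383126) (nat_lit 152) (nat_lit 248180907) (nat_lit 76) (nat_lit 29426816279) (nat_lit 27) (nat_lit 5) (nat_lit 29) (nat_lit 5) (nat_lit 28) (nat_lit 4) (nat_lit 446) (nat_lit 399) (nat_lit 355))) (XT.nd (nat_lit 78) (nat_lit 76) (nat_lit 0) (XT.lf (nat_lit 0) (nat_lit 16612768887) (nat_lit 152) (nat_lit 15432653083) (nat_lit 0) (nat_lit 5296213990) (nat_lit 26) (nat_lit 5) (nat_lit 28) (nat_lit 4) (nat_lit 26) (nat_lit 4) (nat_lit 447) (nat_lit 399) (nat_lit 354)) (XT.lf (nat_lit 0) (nat_lit 6497789903) (nat_lit 76) (nat_lit 22122728306) (nat_lit 76) (nat_lit 10779063087) (nat_lit 25) (nat_lit 4) (nat_lit 26) (nat_lit 5) (nat_lit 26) (nat_lit 4) (nat_lit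 448) (nat_lit 399) (nat_lit 353))))))) (XT.nd (nat_lit 936) (nat_lit 608) (nat_lit 0) (XT.nd (nat_lit 468) (nat_lit 304) (nat_lit 0) (XT.nd (nat_lit 234) (nat_lit 228) (nat_lit 0) (XT.nd (nat_lit 78) (nat_lit 76) (nat_lit 0) (XT.lf (nat_lit 0) (nat_lit 349258566) (nat_lit 152) (nat_lit 10642309549) (nat_lit 76) (nat_lit 30600189906) (nat_lit 24) (nat_lit 5) (nat_lit 26) (nat_lit 5) (nat_lit 25) (nat_lit 4) (nat_lit 449) (nat_lit 399) (nat_lit 352)) (XT.nd (nat_lit 78) (nat_lit 0) (nat_lit 0) (XT.lf (nat_lit 0) (nat_lit 12106414641) (nat_lit 152) (nat_lit 30246566756) (nat_lit 0) (nat_lit 1558257142) (nat_lit 23) (nat_lit 5) (nat_lit 25) (nat_lit 4) (nat_lit 23) (nat_lit 4) (nat_lit 450) (nat_lit 399) (nat_lit 351)) (XT.lf (nat_lit 0) (nat_lit 25340163308) (nat_lit 152) (nat_lit 6261154735) (nat_lit 0) (nat_lit 14772078913) (nat_lit 23) (nat_lit 5) (nat_lit 25) (nat_lit 4) (nat_lit 23) (nat_lit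 4) (nat_lit 451) (nat_lit 399) (nat_lit 350)))) (XT.nd (nat_lit 78) (nat_lit 152) (nat_lit 0) (XT.lf (nat_lit 0) (nat_lit 20583353297) (nat_lit 76) (nat_lit 19499832524) (nat_lit 76) (nat_lit 8913297299) (nat_lit 22) (nat_lit 4) (nat_lit 23) (nat_lit 5) (nat_lit 23) (nat_lit 4) (nat_lit 452) (nat_lit 399) (nat_lit 349)) (XT.nd (nat_lit 78) (nat_lit 76) (nat_lit 0) (XT.lf (nat_lit 0) (nat_lit 4098576165) (nat_lit 152) (nat_lit 2078580902) (nat_lit 76) (nat_lit 45633724526) (nat_lit 21) (nat_lit 5) (nat_lit 23) (nat_lit 5) (nat_lit 22) (nat_lit 4) (nat_lit 453) (nat_lit 399) (nat_lit 348)) (XT.lf (nat_lit 0) (nat_lit 18507827394) (nat_lit 152) (nat_lit 27582031512) (nat_lit 0) (nat_lit 8675014489) (nat_lit 20) (nat_lit 5) (nat_lit 22) (nat_lit 4) (nat_lit 20) (nat_lit 4) (nat_lit 454) (nat_lit 399) (nat_lit 347))))) (XT.nd (nat_lit 234) (nat_lit 76) (nat_lit 0) (XT.nd (nat_lit 78) (nat_lit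 152) (nat_lit 0) (XT.lf (nat_lit 0) (nat_lit 745134851) (nat_lit 76) (nat_lit 33520384588) (nat_lit 76) (nat_lit 23674009772) (nat_lit 19) (nat_lit 4) (nat_lit 20) (nat_lit 5) (nat_lit 20) (nat_lit 4) (nat_lit 455) (nat_lit 399) (nat_lit 346)) (XT.nd (nat_lit 78) (nat_lit 152) (nat_lit 0) (XT.lf (nat_lit 0) (nat_lit 32826220314) (nat_lit 76) (nat_lit 19171864670) (nat_lit 76) (nat_lit 9312932530) (nat_lit 19) (nat_lit 4) (nat_lit 20) (nat_lit 5) (nat_lit 20) (nat_lit 4) (nat_lit 456) (nat_lit 399) (nat_lit 345)) (XT.lf (nat_lit 0) (nat_lit 2416539857) (nat_lit 76) (nat_lit 3490719349) (nat_lit 152) (nat_lit 59031424840) (nat_lit 17) (nat_lit 5) (nat_lit 18) (nat_lit 5) (nat_lit 19) (nat_lit 4) (nat_lit 457) (nat_lit 399) (nat_lit 344)))) (XT.nd (nat_lit 78) (nat_lit 76) (nat_lit 0) (XT.lf (nat_lit 0) (nat_lit 22926531346) (nat_lit 152) (nat_lit 32046756930) (nat_lit 0) (nat_lit 13777156185)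 (nat_lit 17) (nat_lit 5) (nat_lit 19) (nat_lit 4) (nat_lit 17) (nat_lit 4) (nat_lit 458) (nat_lit 399) (nat_lit 343)) (XT.nd (nat_lit 78) (nat_lit 0) (nat_lit 0) (XT.lf (nat_lit 0) (nat_lit 741839777) (nat_lit 76) (nat_lit 40639015402) (nat_lit 76) (nat_lit 31480410233) (nat_lit 16) (nat_lit 4) (nat_lit 17) (nat_lit 5) (nat_lit 17) (nat_lit 4) (nat_lit 459) (nat_lit 399) (nat_lit 342)) (XT.lf (nat_lit 0) (nat_lit 37906592493) (nat_lit 76) (nat_lit 24247070226) (nat_lit 76) (nat_lit 15079918752) (nat_lit 16) (nat_lit 4) (nat_lit 17) (nat_lit 5) (nat_lit 17) (nat_lit 4) (nat_lit 460) (nat_lit 399) (nat_lit 341)))))) (XT.nd (nat_lit 468) (nat_lit 228) (nat_lit 0) (XT.nd (nat_lit 234) (nat_lit 228) (nat_lit 0) (XT.nd (nat_lit 78) (nat_lit 76) (nat_lit 0) (XT.lf (nat_lit 0) (nat_lit 2468545085) (nat_lit 152) (nat_lit 4040490939) (nat_lit 76) (nat_lit 75444171876) (nat_lit 15) (nat_lit 5) (nat_lit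 17) (nat_lit 5) (nat_lit 16) (nat_lit 4) (nat_lit 461) (nat_lit 399) (nat_lit 340)) (XT.nd (nat_lit 78) (nat_lit 0) (nat_lit 0) (XT.lf (nat_lit 0) (nat_lit 21762959561) (nat_lit 152) (nat_lit 51902822950) (nat_lit 0) (nat_lit 13260744935) (nat_lit 14) (nat_lit 5) (nat_lit 16) (nat_lit 4) (nat_lit 14) (nat_lit 4) (nat_lit 462) (nat_lit 399) (nat_lit 339)) (XT.lf (nat_lit 0) (nat_lit 42853418141) (nat_lit 152) (nat_lit 15079173749) (nat_lit 0) (nat_lit 34344921726) (nat_lit 14) (nat_lit 5) (nat_lit 16) (nat_lit 4) (nat_lit 14) (nat_lit 4) (nat_lit 463) (nat_lit 399) (nat_lit 338)))) (XT.nd (nat_lit 78) (nat_lit 152) (nat_lit 0) (XT.lf (nat_lit 0) (nat_lit 25930881716) (nat_lit 76) (nat_lit 40296167642) (nat_lit 76) (nat_lit 31781854756) (nat_lit 13) (nat_lit 4) (nat_lit 14) (nat_lit 5) (nat_lit 14) (nat_lit 4) (nat_lit 464) (nat_lit 399) (nat_lit 337)) (XT.nd (nat_lit 78) (nat_lit 152) (nat_lit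 0) (XT.lf (nat_lit 0) (nat_lit 71024088460) (nat_lit 76) (nat_lit 20831795575) (nat_lit 76) (nat_lit 12312097068) (nat_lit 13) (nat_lit 4) (nat_lit 14) (nat_lit 5) (nat_lit 14) (nat_lit 4) (nat_lit 465) (nat_lit 399) (nat_lit 336)) (XT.lf (nat_lit 0) (nat_lit 8487492475) (nat_lit 152) (nat_lit 101704600607) (nat_lit 0) (nat_lit 594265444) (nat_lit 11) (nat_lit 5) (nat_lit 13) (nat_lit 4) (nat_lit 11) (nat_lit 4) (nat_lit 466) (nat_lit 399) (nat_lit 335))))) (XT.nd (nat_lit 234) (nat_lit 152) (nat_lit 0) (XT.nd (nat_lit 78) (nat_lit 76) (nat_lit 0) (XT.lf (nat_lit 0) (nat_lit 31731121879) (nat_lit 152) (nat_lit 62228261689) (nat_lit 0) (nat_lit 23833619568) (nat_lit 11) (nat_lit 5) (nat_lit 13) (nat_lit 4) (nat_lit 11) (nat_lit 4) (nat_lit 467) (nat_lit 399) (nat_lit 334)) (XT.nd (nat_lit 78) (nat_lit 76) (nat_lit 0) (XT.lf (nat_lit 0) (nat_lit 56810546613) (nat_lit 152) (nat_lit 19642442804)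 (nat_lit 0) (nat_lit 48909085711) (nat_lit 11) (nat_lit 5) (nat_lit 13) (nat_lit 4) (nat_lit 11) (nat_lit 4) (nat_lit 468) (nat_lit 399) (nat_lit 333)) (XT.lf (nat_lit 0) (nat_lit 27690402539) (nat_lit 76) (nat_lit 56849937800) (nat_lit 76) (nat_lit 48944811534) (nat_lit 10) (nat_lit 4) (nat_lit 11) (nat_lit 5) (nat_lit 11) (nat_lit 4) (nat_lit 469) (nat_lit 399) (nat_lit 332)))) (XT.nd (nat_lit 156) (nat_lit 152) (nat_lit 0) (XT.nd (nat_lit 78) (nat_lit 0) (nat_lit 0) (XT.lf (nat_lit 0) (nat_lit 79883073379) (nat_lit 76) (nat_lit 35121133278) (nat_lit 76) (nat_lit 27212613157) (nat_lit 10) (nat_lit 4) (nat_lit 11) (nat_lit 5) (nat_lit 11) (nat_lit 4) (nat_lit 470) (nat_lit 399) (nat_lit 331)) (XT.lf (nat_lit 0) (nat_lit 136210523387) (nat_lit 76) (nat_lit 11674871760) (nat_lit 76) (nat_lit 3763209181) (nat_lit 10) (nat_lit 4) (nat_lit 11) (nat_lit 5) (nat_lit 11) (nat_lit 4) (nat_lit 471)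 (nat_lit 399) (nat_lit 330))) (XT.nd (nat_lit 78) (nat_lit 0) (nat_lit 0) (XT.lf (nat_lit 0) (nat_lit 21705982680) (nat_lit 152) (nat_lit 125611991508) (nat_lit 0) (nat_lit 14377675029) (nat_lit 8) (nat_lit 5) (nat_lit 10) (nat_lit 4) (nat_lit 8) (nat_lit 4) (nat_lit 472) (nat_lit 399) (nat_lit 329)) (XT.lf (nat_lit 0) (nat_lit 49726935493) (nat_lit 152) (nat_lit 80358166490) (nat_lit 0) (nat_lit 42396133258) (nat_lit 8) (nat_lit 5) (nat_lit 10) (nat_lit 4) (nat_lit 8) (nat_lit 4) (nat_lit 473) (nat_lit 399) (nat_lit 328))))))))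
noncomputable def xc91 : XT := (XT.nd (nat_lit 1950) (nat_lit 76) (nat_lit 0) (XT.nd (nat_lit 936) (nat_lit 152) (nat_lit 0) (XT.nd (nat_lit 468) (nat_lit 76) (nat_lit 0) (XT.nd (nat_lit 234) (nat_lit 152) (nat_lit 0) (XT.nd (nat_lit 78) (nat_lit 76) (nat_lit 0) (XT.lf (nat_lit 0) (nat_lit 79972180253) (nat_lit 152) (nat_lit 31519810545) (nat_lit 0) (nat_lit 72639068217) (nat_lit 8) (nat_lit 5) (nat_lit 10) (nat_lit 4) (nat_lit 8) (nat_lit 4) (nat_lit 474) (nat_lit 399) (nat_lit 327)) (XT.nd (nat_lit 78) (nat_lit 0) (nat_lit 0) (XT.lf (nat_lit 0) (nat_lit 22308447711) (nat_lit 76) (nat_lit 90849019031) (nat_lit 76) (nat_lit 83513768291) (nat_lit 7) (nat_lit 4) (nat_lit 8) (nat_lit 5) (nat_lit 8) (nat_lit 4) (nat_lit 475) (nat_lit 399) (nat_lit 326)) (XT.lf (nat_lit 0) (nat_lit 82203239724) (nat_lit 76) (nat_lit 67640463198) (nat_lit 76) (nat_lit 60303232176) (nat_lit 7) (nat_lit 4) (nat_lit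 8) (nat_lit 5) (nat_lit 8) (nat_lit 4) (nat_lit 476) (nat_lit 399) (nat_lit 325)))) (XT.nd (nat_lit 78) (nat_lit 152) (nat_lit 0) (XT.lf (nat_lit 0) (nat_lit 146859720229) (nat_lit 76) (nat_lit 42590598593) (nat_lit 76) (nat_lit 35251533977) (nat_lit 7) (nat_lit 4) (nat_lit 8) (nat_lit 5) (nat_lit 8) (nat_lit 4) (nat_lit 477) (nat_lit 399) (nat_lit 324)) (XT.nd (nat_lit 78) (nat_lit 152) (nat_lit 0) (XT.lf (nat_lit 0) (nat_lit 216661038739) (nat_lit 76) (nat_lit 15550981576) (nat_lit 76) (nat_lit 8210219187) (nat_lit 7) (nat_lit 4) (nat_lit 8) (nat_lit 5) (nat_lit 8) (nat_lit 4) (nat_lit 478) (nat_lit 399) (nat_lit 323)) (XT.lf (nat_lit 0) (nat_lit 21158623641) (nat_lit 152) (nat_lit 221743918622) (nat_lit 0) (nat_lit 14360165863) (nat_lit 5) (nat_lit 5) (nat_lit 7) (nat_lit 4) (nat_lit 5) (nat_lit 4) (nat_lit 479) (nat_lit 399) (nat_lit 322))))) (XT.nd (nat_lit 234) (nat_lit 76) (nat_lit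 0) (XT.nd (nat_lit 78) (nat_lit 0) (nat_lit 0) (XT.lf (nat_lit 0) (nat_lit 53491119241) (nat_lit 152) (nat_lit 175166304326) (nat_lit 0) (nat_lit 46691313716) (nat_lit 5) (nat_lit 5) (nat_lit 7) (nat_lit 4) (nat_lit 5) (nat_lit 4) (nat_lit 480) (nat_lit 399) (nat_lit 321)) (XT.nd (nat_lit 78) (nat_lit 0) (nat_lit 0) (XT.lf (nat_lit 0) (nat_lit 88398400473) (nat_lit 152) (nat_lit 124886846450) (nat_lit 0) (nat_lit 81597347035) (nat_lit 5) (nat_lit 5) (nat_lit 7) (nat_lit 4) (nat_lit 5) (nat_lit 4) (nat_lit 481) (nat_lit 399) (nat_lit 320)) (XT.lf (nat_lit 0) (nat_lit 126087325302) (nat_lit 152) (nat_lit 70607592653) (nat_lit 0) (nat_lit 119285116389) (nat_lit 5) (nat_lit 5) (nat_lit 7) (nat_lit 4) (nat_lit 5) (nat_lit 4) (nat_lit 482) (nat_lit 399) (nat_lit 319)))) (XT.nd (nat_lit 78) (nat_lit 76) (nat_lit 0) (XT.lf (nat_lit 0) (nat_lit 166781235504) (nat_lit 152) (nat_lit 12006888097) (nat_lit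 0) (nat_lit 159977956706) (nat_lit 5) (nat_lit 5) (nat_lit 7) (nat_lit 4) (nat_lit 5) (nat_lit 4) (nat_lit 483) (nat_lit 399) (nat_lit 318)) (XT.nd (nat_lit 78) (nat_lit 0) (nat_lit 0) (XT.lf (nat_lit 0) (nat_lit 53961924671) (nat_lit 76) (nat_lit 158057141090) (nat_lit 76) (nat_lit 151252871658) (nat_lit 4) (nat_lit 4) (nat_lit 5) (nat_lit 5) (nat_lit 5) (nat_lit 4) (nat_lit 484) (nat_lit 399) (nat_lit 317)) (XT.lf (nat_lit 0) (nat_lit 125872232332) (nat_lit 76) (nat_lit 135322842651) (nat_lit 76) (nat_lit 128517655965) (nat_lit 4) (nat_lit 4) (nat_lit 5) (nat_lit 5) (nat_lit 5) (nat_lit 4) (nat_lit 485) (nat_lit 399) (nat_lit 316)))))) (XT.nd (nat_lit 468) (nat_lit 0) (nat_lit 0) (XT.nd (nat_lit 234) (nat_lit 152) (nat_lit 0) (XT.nd (nat_lit 78) (nat_lit 0) (nat_lit 0) (XT.lf (nat_lit 0) (nat_lit 203517908590) (nat_lit 76) (nat_lit 110778796113) (nat_lit 76) (nat_lit 103972760119) (nat_lit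 4) (nat_lit 4) (nat_lit 5) (nat_lit 5) (nat_lit 5) (nat_lit 4) (nat_lit 486) (nat_lit 399) (nat_lit 315)) (XT.nd (nat_lit 78) (nat_lit 0) (nat_lit 0) (XT.lf (nat_lit 0) (nat_lit 287359075973) (nat_lit 76) (nat_lit 84279555276) (nat_lit 76) (nat_lit 77472732885) (nat_lit 4) (nat_lit 4) (nat_lit 5) (nat_lit 5) (nat_lit 5) (nat_lit 4) (nat_lit 487) (nat_lit 399) (nat_lit 314)) (XT.lf (nat_lit 0) (nat_lit 377892571027) (nat_lit 76) (nat_lit 55668087601) (nat_lit 76) (nat_lit 48860537064) (nat_lit 4) (nat_lit 4) (nat_lit 5) (nat_lit 5) (nat_lit 5) (nat_lit 4) (nat_lit 488) (nat_lit 399) (nat_lit 313)))) (XT.nd (nat_lit 78) (nat_lit 152) (nat_lit 0) (XT.lf (nat_lit 0) (nat_lit 475654888539) (nat_lit 76) (nat_lit 24774843649) (nat_lit 76) (nat_lit 17966618903) (nat_lit 4) (nat_lit 4) (nat_lit 5) (nat_lit 5) (nat_lit 5) (nat_lit 4) (nat_lit 489) (nat_lit 399) (nat_lit 312)) (XT.nd (nat_lit 78)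 (nat_lit 0) (nat_lit 0) (XT.lf (nat_lit 0) (nat_lit 15451285181) (nat_lit 152) (nat_lit 532555988397) (nat_lit 0) (nat_lit 9146795354) (nat_lit 2) (nat_lit 5) (nat_lit 4) (nat_lit 4) (nat_lit 2) (nat_lit 4) (nat_lit 490) (nat_lit 399) (nat_lit 311)) (XT.lf (nat_lit 0) (nat_lit 52408065959) (nat_lit 152) (nat_lit 500317075437) (nat_lit 0) (nat_lit 46103040924) (nat_lit 2) (nat_lit 5) (nat_lit 4) (nat_lit 4) (nat_lit 2) (nat_lit 4) (nat_lit 491) (nat_lit 399) (nat_lit 310))))) (XT.nd (nat_lit 234) (nat_lit 0) (nat_lit 0) (XT.nd (nat_lit 78) (nat_lit 0) (nat_lit 0) (XT.lf (nat_lit 0) (nat_lit 92315486174) (nat_lit 152) (nat_lit 465511245297) (nat_lit 0) (nat_lit 86009965575) (nat_lit 2) (nat_lit 5) (nat_lit 4) (nat_lit 4) (nat_lit 2) (nat_lit 4) (nat_lit 492) (nat_lit 399) (nat_lit 309)) (XT.nd (nat_lit 78) (nat_lit 0) (nat_lit 0) (XT.lf (nat_lit 0) (nat_lit 135410034242) (nat_lit 152) (nat_lit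 427932241207) (nat_lit 0) (nat_lit 129104054788) (nat_lit 2) (nat_lit 5) (nat_lit 4) (nat_lit 4) (nat_lit 2) (nat_lit 4) (nat_lit 493) (nat_lit 399) (nat_lit 308)) (XT.lf (nat_lit 0) (nat_lit 181947085262) (nat_lit 152) (nat_lit 387357372773) (nat_lit 0) (nat_lit 175640680942) (nat_lit 2) (nat_lit 5) (nat_lit 4) (nat_lit 4) (nat_lit 2) (nat_lit 4) (nat_lit 494) (nat_lit 399) (nat_lit 307)))) (XT.nd (nat_lit 156) (nat_lit 0) (nat_lit 0) (XT.nd (nat_lit 78) (nat_lit 0) (nat_lit 0) (XT.lf (nat_lit 0) (nat_lit 232202414352) (nat_lit 152) (nat_lit 343546196329) (nat_lit 0) (nat_lit 225895616637) (nat_lit 2) (nat_lit 5) (nat_lit 4) (nat_lit 4) (nat_lit 2) (nat_lit 4) (nat_lit 495) (nat_lit 399) (nat_lit 306)) (XT.lf (nat_lit 0) (nat_lit 286473830869) (nat_lit 152) (nat_lit 296239090089) (nat_lit 0) (nat_lit 280166668900) (nat_lit 2) (nat_lit 5) (nat_lit 4) (nat_lit 4) (nat_lit 2) (nat_lit 4)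 (nat_lit 496) (nat_lit 399) (nat_lit 305))) (XT.nd (nat_lit 78) (nat_lit 0) (nat_lit 0) (XT.lf (nat_lit 0) (nat_lit 345082943207) (nat_lit 152) (nat_lit 245155715646) (nat_lit 0) (nat_lit 338775443966) (nat_lit 2) (nat_lit 5) (nat_lit 4) (nat_lit 4) (nat_lit 2) (nat_lit 4) (nat_lit 497) (nat_lit 399) (nat_lit 304)) (XT.lf (nat_lit 0) (nat_lit 408377064625) (nat_lit 152) (nat_lit 189993356707) (nat_lit 0) (nat_lit 402069253095) (nat_lit 2) (nat_lit 5) (nat_lit 4) (nat_lit 4) (nat_lit 2) (nat_lit 4) (nat_lit 498) (nat_lit 399) (nat_lit 303))))))) (XT.nd (nat_lit 936) (nat_lit 0) (nat_lit 0) (XT.nd (nat_lit 468) (nat_lit 0) (nat_lit 0) (XT.nd (nat_lit 234) (nat_lit 0) (nat_lit 0) (XT.nd (nat_lit 78) (nat_lit 76) (nat_lit 0) (XT.lf (nat_lit 0) (nat_lit 476731271398) (nat_lit 152) (nat_lit 130425125219) (nat_lit 0) (nat_lit 470423170711) (nat_lit 2) (nat_lit 5) (nat_lit 4) (nat_lit 4) (nat_lit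 2) (nat_lit 4) (nat_lit 499) (nat_lit 399) (nat_lit 302)) (XT.nd (nat_lit 78) (nat_lit 76) (nat_lit 0) (XT.lf (nat_lit 0) (nat_lit 550550625491) (nat_lit 152) (nat_lit 66098024254) (nat_lit 0) (nat_lit 544242257067) (nat_lit 2) (nat_lit 5) (nat_lit 4) (nat_lit 4) (nat_lit 2) (nat_lit 4) (nat_lit 500) (nat_lit 399) (nat_lit 301)) (XT.lf (nat_lit 0) (nat_lit 3546556965) (nat_lit 76) (nat_lit 626811312744) (nat_lit 76) (nat_lit 620502696415) (nat_lit 1) (nat_lit 4) (nat_lit 2) (nat_lit 5) (nat_lit 2) (nat_lit 4) (nat_lit 501) (nat_lit 399) (nat_lit 300)))) (XT.nd (nat_lit 78) (nat_lit 0) (nat_lit 0) (XT.lf (nat_lit 0) (nat_lit 82515811379) (nat_lit 76) (nat_lit 635838241948) (nat_lit 76) (nat_lit 629529396077) (nat_lit 1) (nat_lit 4) (nat_lit 2) (nat_lit 5) (nat_lit 2) (nat_lit 4) (nat_lit 502) (nat_lit 399) (nat_lit 299)) (XT.nd (nat_lit 78) (nat_lit 0) (nat_lit 0) (XT.lf (nat_lit 0) (nat_lit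 167797100118) (nat_lit 76) (nat_lit 645590167391) (nat_lit 76) (nat_lit 639281108981) (nat_lit 1) (nat_lit 4) (nat_lit 2) (nat_lit 5) (nat_lit 2) (nat_lit 4) (nat_lit 503) (nat_lit 399) (nat_lit 298)) (XT.lf (nat_lit 0) (nat_lit 259895793782) (nat_lit 76) (nat_lit 656124878259) (nat_lit 76) (nat_lit 649815623054) (nat_lit 1) (nat_lit 4) (nat_lit 2) (nat_lit 5) (nat_lit 2) (nat_lit 4) (nat_lit 504) (nat_lit 399) (nat_lit 297))))) (XT.nd (nat_lit 234) (nat_lit 0) (nat_lit 0) (XT.nd (nat_lit 78) (nat_lit 0) (nat_lit 0) (XT.lf (nat_lit 0) (nat_lit 359357662408) (nat_lit 76) (nat_lit 667504802469) (nat_lit 76) (nat_lit 661195365046) (nat_lit 1) (nat_lit 4) (nat_lit 2) (nat_lit 5) (nat_lit 2) (nat_lit 4) (nat_lit 505) (nat_lit 399) (nat_lit 296)) (XT.nd (nat_lit 78) (nat_lit 0) (nat_lit 0) (XT.lf (nat_lit 0) (nat_lit 466772109660) (nat_lit 76) (nat_lit 679797376609) (nat_lit 76) (nat_lit 673487770466)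 (nat_lit 1) (nat_lit 4) (nat_lit 2) (nat_lit 5) (nat_lit 2) (nat_lit 4) (nat_lit 506) (nat_lit 399) (nat_lit 295)) (XT.lf (nat_lit 0) (nat_lit 582775665598) (nat_lit 76) (nat_lit 693075445563) (nat_lit 76) (nat_lit 686765683198) (nat_lit 1) (nat_lit 4) (nat_lit 2) (nat_lit 5) (nat_lit 2) (nat_lit 4) (nat_lit 507) (nat_lit 399) (nat_lit 294)))) (XT.nd (nat_lit 78) (nat_lit 0) (nat_lit 0) (XT.lf (nat_lit 0) (nat_lit 708055758700) (nat_lit 76) (nat_lit 707417694184) (nat_lit 76) (nat_lit 701107787168) (nat_lit 1) (nat_lit 4) (nat_lit 2) (nat_lit 5) (nat_lit 2) (nat_lit 4) (nat_lit 508) (nat_lit 399) (nat_lit 293)) (XT.nd (nat_lit 78) (nat_lit 0) (nat_lit 0) (XT.lf (nat_lit 0) (nat_lit 843354789518) (nat_lit 76) (nat_lit 722909113574) (nat_lit 76) (nat_lit 716599072623) (nat_lit 1) (nat_lit 4) (nat_lit 2) (nat_lit 5) (nat_lit 2) (nat_lit 4) (nat_lit 509) (nat_lit 399) (nat_lit 292)) (XT.lf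 (nat_lit 0) (nat_lit 989474530088) (nat_lit 76) (nat_lit 739641504738) (nat_lit 76) (nat_lit 733331339773) (nat_lit 1) (nat_lit 4) (nat_lit 2) (nat_lit 5) (nat_lit 2) (nat_lit 4) (nat_lit 510) (nat_lit 399) (nat_lit 291)))))) (XT.nd (nat_lit 468) (nat_lit 0) (nat_lit 0) (XT.nd (nat_lit 234) (nat_lit 0) (nat_lit 0) (XT.nd (nat_lit 78) (nat_lit 0) (nat_lit 0) (XT.lf (nat_lit 0) (nat_lit 1147280875167) (nat_lit 76) (nat_lit 757714022586) (nat_lit 76) (nat_lit 751403742793) (nat_lit 1) (nat_lit 4) (nat_lit 2) (nat_lit 5) (nat_lit 2) (nat_lit 4) (nat_lit 511) (nat_lit 399) (nat_lit 290)) (XT.nd (nat_lit 78) (nat_lit 0) (nat_lit 0) (XT.lf (nat_lit 0) (nat_lit 1317708973468) (nat_lit 76) (nat_lit 777233763521) (nat_lit 76) (nat_lit 770923377405) (nat_lit 1) (nat_lit 4) (nat_lit 2) (nat_lit 5) (nat_lit 2) (nat_lit 4) (nat_lit 512) (nat_lit 399) (nat_lit 289)) (XT.lf (nat_lit 0) (nat_lit 1501768769276)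 (nat_lit 76) (nat_lit 798316400080) (nat_lit 76) (nat_lit 792005915518) (nat_lit 1) (nat_lit 4) (nat_lit 2) (nat_lit 5) (nat_lit 2) (nat_lit 4) (nat_lit 513) (nat_lit 399) (nat_lit 288)))) (XT.nd (nat_lit 78) (nat_lit 0) (nat_lit 0) (XT.lf (nat_lit 0) (nat_lit 1700550987308) (nat_lit 76) (nat_lit 821086866407) (nat_lit 76) (nat_lit 814776290691) (nat_lit 1) (nat_lit 4) (nat_lit 2) (nat_lit 5) (nat_lit 2) (nat_lit 4) (nat_lit 514) (nat_lit 399) (nat_lit 287)) (XT.nd (nat_lit 78) (nat_lit 0) (nat_lit 0) (XT.lf (nat_lit 0) (nat_lit 1915233596263) (nat_lit 76) (nat_lit 845680098599) (nat_lit 76) (nat_lit 839369438481) (nat_lit 1) (nat_lit 4) (nat_lit 2) (nat_lit 5) (nat_lit 2) (nat_lit 4) (nat_lit 515) (nat_lit 399) (nat_lit 286)) (XT.lf (nat_lit 0) (nat_lit 2147088789379) (nat_lit 76) (nat_lit 872241834327) (nat_lit 76) (nat_lit 865931096059) (nat_lit 1) (nat_lit 4) (nat_lit 2) (nat_lit 5)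 (nat_lit 2) (nat_lit 4) (nat_lit 516) (nat_lit 399) (nat_lit 285))))) (XT.nd (nat_lit 234) (nat_lit 0) (nat_lit 0) (XT.nd (nat_lit 78) (nat_lit 0) (nat_lit 0) (XT.lf (nat_lit 0) (nat_lit 2397490523357) (nat_lit 76) (nat_lit 900929476471) (nat_lit 76) (nat_lit 894618665841) (nat_lit 1) (nat_lit 4) (nat_lit 2) (nat_lit 5) (nat_lit 2) (nat_lit 4) (nat_lit 517) (nat_lit 399) (nat_lit 284)) (XT.nd (nat_lit 78) (nat_lit 0) (nat_lit 0) (XT.lf (nat_lit 0) (nat_lit 2667922660323) (nat_lit 76) (nat_lit 931913025871) (nat_lit 76) (nat_lit 925602148241) (nat_lit 1) (nat_lit 4) (nat_lit 2) (nat_lit 5) (nat_lit 2) (nat_lit 4) (nat_lit 518) (nat_lit 399) (nat_lit 283)) (XT.lf (nat_lit 0) (nat_lit 2959987761088) (nat_lit 76) (nat_lit 965376088748) (nat_lit 76) (nat_lit 959065149080) (nat_lit 1) (nat_lit 4) (nat_lit 2) (nat_lit 5) (nat_lit 2) (nat_lit 4) (nat_lit 519) (nat_lit 399) (nat_lit 282)))) (XT.nd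 (nat_lit 156) (nat_lit 0) (nat_lit 0) (XT.nd (nat_lit 78) (nat_lit 0) (nat_lit 0) (XT.lf (nat_lit 0) (nat_lit 3275416581807) (nat_lit 76) (nat_lit 1001516964733) (nat_lit 76) (nat_lit 995205967622) (nat_lit 1) (nat_lit 4) (nat_lit 2) (nat_lit 5) (nat_lit 2) (nat_lit 4) (nat_lit 520) (nat_lit 399) (nat_lit 281)) (XT.lf (nat_lit 0) (nat_lit 3616078330305) (nat_lit 76) (nat_lit 1040549821979) (nat_lit 76) (nat_lit 1034238771681) (nat_lit 1) (nat_lit 4) (nat_lit 2) (nat_lit 5) (nat_lit 2) (nat_lit 4) (nat_lit 521) (nat_lit 399) (nat_lit 280))) (XT.nd (nat_lit 78) (nat_lit 0) (nat_lit 0) (XT.lf (nat_lit 0) (nat_lit 3983991742870) (nat_lit 76) (nat_lit 1082705966309) (nat_lit 76) (nat_lit 1076394866762) (nat_lit 1) (nat_lit 4) (nat_lit 2) (nat_lit 5) (nat_lit 2) (nat_lit 4) (nat_lit 522) (nat_lit 399) (nat_lit 279)) (XT.lf (nat_lit 0) (nat_lit 4381337047131) (nat_lit 76) (nat_lit 1128235211909)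 (nat_lit 76) (nat_lit 1121924066763) (nat_lit 1) (nat_lit 4) (nat_lit 2) (nat_lit 5) (nat_lit 2) (nat_lit 4) (nat_lit 523) (nat_lit 399) (nat_lit 278))))))))
noncomputable def xc92 : XT := (XT.nd (nat_lit 53820) (nat_lit 0) (nat_lit 2660) (XT.nd (nat_lit 52806) (nat_lit 0) (nat_lit 5472) (XT.nd (nat_lit 468) (nat_lit 0) (nat_lit 0) (XT.nd (nat_lit 234) (nat_lit 0) (nat_lit 0) (XT.nd (nat_lit 78) (nat_lit 0) (nat_lit 0) (XT.lf (nat_lit 0) (nat_lit 4810468881929) (nat_lit 76) (nat_lit 1177407361718) (nat_lit 76) (nat_lit 1171096174349) (nat_lit 1) (nat_lit 4) (nat_lit 2) (nat_lit 5) (nat_lit 2) (nat_lit 4) (nat_lit 524) (nat_lit 399) (nat_lit 277)) (XT.nd (nat_lit 78) (nat_lit 0) (nat_lit 0) (XT.lf (nat_lit 0) (nat_lit 5273930250729) (nat_lit 76) (nat_lit 1230513806252) (nat_lit 76) (nat_lit 1224202579789) (nat_lit 1) (nat_lit 4) (nat_lit 2) (nat_lit 5) (nat_lit 2) (nat_lit 4) (nat_lit 525)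 (nat_lit 399) (nat_lit 276)) (XT.lf (nat_lit 0) (nat_lit 5774467591273) (nat_lit 76) (nat_lit 1287869250368) (nat_lit 76) (nat_lit 1281557987707) (nat_lit 1) (nat_lit 4) (nat_lit 2) (nat_lit 5) (nat_lit 2) (nat_lit 4) (nat_lit 526) (nat_lit 399) (nat_lit 275)))) (XT.nd (nat_lit 78) (nat_lit 0) (nat_lit 0) (XT.lf (nat_lit 0) (nat_lit 6315047050763) (nat_lit 76) (nat_lit 1349813578180) (nat_lit 76) (nat_lit 1343502282001) (nat_lit 1) (nat_lit 4) (nat_lit 2) (nat_lit 5) (nat_lit 2) (nat_lit 4) (nat_lit 527) (nat_lit 399) (nat_lit 274)) (XT.nd (nat_lit 78) (nat_lit 0) (nat_lit 0) (XT.lf (nat_lit 0) (nat_lit 6898872063033) (nat_lit 76) (nat_lit 1416713867184) (nat_lit 76) (nat_lit 1410402539971) (nat_lit 1) (nat_lit 4) (nat_lit 2) (nat_lit 5) (nat_lit 2) (nat_lit 4) (nat_lit 528) (nat_lit 399) (nat_lit 273)) (XT.lf (nat_lit 0) (nat_lit 7529402331861) (nat_lit 76) (nat_lit 1488966563540) (nat_lit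 76) (nat_lit 1482655207591) (nat_lit 1) (nat_lit 4) (nat_lit 2) (nat_lit 5) (nat_lit 2) (nat_lit 4) (nat_lit 529) (nat_lit 399) (nat_lit 272))))) (XT.nd (nat_lit 234) (nat_lit 0) (nat_lit 0) (XT.nd (nat_lit 78) (nat_lit 0) (nat_lit 0) (XT.lf (nat_lit 0) (nat_lit 8210374332912) (nat_lit 76) (nat_lit 1566999831372) (nat_lit 76) (nat_lit 1560688448817) (nat_lit 1) (nat_lit 4) (nat_lit 2) (nat_lit 5) (nat_lit 2) (nat_lit 4) (nat_lit 530) (nat_lit 399) (nat_lit 271)) (XT.nd (nat_lit 78) (nat_lit 0) (nat_lit 0) (XT.lf (nat_lit 0) (nat_lit 8945823455823) (nat_lit 76) (nat_lit 1651276090047) (nat_lit 76) (nat_lit 1644964682855) (nat_lit 1) (nat_lit 4) (nat_lit 2) (nat_lit 5) (nat_lit 2) (nat_lit 4) (nat_lit 531) (nat_lit 399) (nat_lit 270)) (XT.lf (nat_lit 0) (nat_lit 9740107917619) (nat_lit 76) (nat_lit 1742294754430) (nat_lit 76) (nat_lit 1735983324426) (nat_lit 1) (nat_lit 4) (nat_lit 2) (nat_lit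 5) (nat_lit 2) (nat_lit 4) (nat_lit 532) (nat_lit 399) (nat_lit 269)))) (XT.nd (nat_lit 78) (nat_lit 0) (nat_lit 0) (XT.lf (nat_lit 0) (nat_lit 10597934589184) (nat_lit 76) (nat_lit 1840595194383) (nat_lit 76) (nat_lit 1834283743259) (nat_lit 1) (nat_lit 4) (nat_lit 2) (nat_lit 5) (nat_lit 2) (nat_lit 4) (nat_lit 533) (nat_lit 399) (nat_lit 268)) (XT.nd (nat_lit 78) (nat_lit 0) (nat_lit 0) (XT.lf (nat_lit 0) (nat_lit 11524386887831) (nat_lit 76) (nat_lit 1946759931034) (nat_lit 76) (nat_lit 1940448460353) (nat_lit 1) (nat_lit 4) (nat_lit 2) (nat_lit 5) (nat_lit 2) (nat_lit 4) (nat_lit 534) (nat_lit 399) (nat_lit 267)) (XT.lf (nat_lit 0) (nat_lit 12524954901257) (nat_lit 76) (nat_lit 2061418088747) (nat_lit 76) (nat_lit 2055106599957) (nat_lit 1) (nat_lit 4) (nat_lit 2) (nat_lit 5) (nat_lit 2) (nat_lit 4) (nat_lit 535) (nat_lit 399) (nat_lit 266)))))) (XT.nd (nat_lit 468) (nat_lit 1976)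 (nat_lit 0) (XT.nd (nat_lit 234) (nat_lit 304) (nat_lit 0) (XT.nd (nat_lit 78) (nat_lit 152) (nat_lit 0) (XT.lf (nat_lit 0) (nat_lit 0) (nat_lit 0) (nat_lit 0) (nat_lit 0) (nat_lit 1073741823) (nat_lit 1) (nat_lit 0) (nat_lit 1) (nat_lit 0) (nat_lit 105) (nat_lit 0) (nat_lit 400) (nat_lit 400) (nat_lit 400)) (XT.nd (nat_lit 78) (nat_lit 76) (nat_lit 0) (XT.lf (nat_lit 0) (nat_lit 3124892392) (nat_lit 76) (nat_lit 3163623453) (nat_lit 0) (nat_lit 160171911) (nat_lit 104) (nat_lit 5) (nat_lit 105) (nat_lit 0) (nat_lit 104) (nat_lit 4) (nat_lit 401) (nat_lit 400) (nat_lit 399)) (XT.lf (nat_lit 0) (nat_lit 202650322) (nat_lit 76) (nat_lit 5993520361) (nat_lit 76) (nat_lit 283688324) (nat_lit 103) (nat_lit 4) (nat_lit 104) (nat_lit 5) (nat_lit 104) (nat_lit 4) (nat_lit 402) (nat_lit 400) (nat_lit 398)))) (XT.nd (nat_lit 78) (nat_lit 228) (nat_lit 0) (XT.lf (nat_lit 0) (nat_lit 2640693178) (nat_lit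 152) (nat_lit 2758960185) (nat_lit 76) (nat_lit 1124935830) (nat_lit 102) (nat_lit 5) (nat_lit 104) (nat_lit 5) (nat_lit 103) (nat_lit 4) (nat_lit 403) (nat_lit 400) (nat_lit 397)) (XT.nd (nat_lit 78) (nat_lit 76) (nat_lit 0) (XT.lf (nat_lit 0) (nat_lit 896648097) (nat_lit 152) (nat_lit 4633034977) (nat_lit 228) (nat_lit 1063063220) (nat_lit 100) (nat_lit 5) (nat_lit 102) (nat_lit 5) (nat_lit 103) (nat_lit 4) (nat_lit 404) (nat_lit 400) (nat_lit 396)) (XT.lf (nat_lit 0) (nat_lit 1695346707) (nat_lit 228) (nat_lit 1899482178) (nat_lit 76) (nat_lit 3082920625) (nat_lit 99) (nat_lit 5) (nat_lit 102) (nat_lit 5) (nat_lit 100) (nat_lit 5) (nat_lit 405) (nat_lit 400) (nat_lit 395))))) (XT.nd (nat_lit 234) (nat_lit 1368) (nat_lit 0) (XT.nd (nat_lit 78) (nat_lit 380) (nat_lit 0) (XT.lf (nat_lit 0) (nat_lit 2101419338) (nat_lit 228) (nat_lit 2319575336) (nat_lit 304) (nat_lit 2362122153) (nat_lit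 96) (nat_lit 5) (nat_lit 99) (nat_lit 5) (nat_lit 100) (nat_lit 5) (nat_lit 406) (nat_lit 400) (nat_lit 394)) (XT.nd (nat_lit 78) (nat_lit 304) (nat_lit 0) (XT.lf (nat_lit 0) (nat_lit 259119644) (nat_lit 304) (nat_lit 560053857) (nat_lit 76) (nat_lit 6091740347) (nat_lit 95) (nat_lit 5) (nat_lit 99) (nat_lit 5) (nat_lit 96) (nat_lit 5) (nat_lit 407) (nat_lit 400) (nat_lit 393)) (XT.lf (nat_lit 0) (nat_lit 2858651108) (nat_lit 380) (nat_lit 3227600750) (nat_lit 76) (nat_lit 966151529) (nat_lit 91) (nat_lit 5) (nat_lit 96) (nat_lit 5) (nat_lit 92) (nat_lit 5) (nat_lit 408) (nat_lit 400) (nat_lit 392)))) (XT.nd (nat_lit 156) (nat_lit 912) (nat_lit 0) (XT.nd (nat_lit 78) (nat_lit 76) (nat_lit 0) (XT.lf (nat_lit 0) (nat_lit 1244058437) (nat_lit 380) (nat_lit 4281459548) (nat_lit 456) (nat_lit 1691012387) (nat_lit 86) (nat_lit 5) (nat_lit 91) (nat_lit 5) (nat_lit 92) (nat_lit 5) (nat_lit 409)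 (nat_lit 400) (nat_lit 391)) (XT.lf (nat_lit 0) (nat_lit 850208040) (nat_lit 456) (nat_lit 1347159636) (nat_lit 76) (nat_lit 5203420607) (nat_lit 85) (nat_lit 5) (nat_lit 91) (nat_lit 5) (nat_lit 86) (nat_lit 5) (nat_lit 410) (nat_lit 400) (nat_lit 390))) (XT.nd (nat_lit 78) (nat_lit 456) (nat_lit 0) (XT.lf (nat_lit 0) (nat_lit 3408343602) (nat_lit 532) (nat_lit 4001174361) (nat_lit 76) (nat_lit 194411057) (nat_lit 79) (nat_lit 5) (nat_lit 86) (nat_lit 5) (nat_lit 80) (nat_lit 5) (nat_lit 411) (nat_lit 400) (nat_lit 389)) (XT.lf (nat_lit 0) (nat_lit 1010909391) (nat_lit 456) (nat_lit 5102483801) (nat_lit 532) (nat_lit 1714596835) (nat_lit 73) (nat_lit 5) (nat_lit 79) (nat_lit 5) (nat_lit 80) (nat_lit 5) (nat_lit 412) (nat_lit 400) (nat_lit 388))))))) (XT.nd (nat_lit 936) (nat_lit 1064) (nat_lit 0) (XT.nd (nat_lit 468) (nat_lit 760) (nat_lit 0) (XT.nd (nat_lit 234) (nat_lit 456) (nat_lit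 0) (XT.nd (nat_lit 78) (nat_lit 456) (nat_lit 0) (XT.lf (nat_lit 0) (nat_lit 856250520) (nat_lit 532) (nat_lit 1626700762) (nat_lit 76) (nat_lit 5590039428) (nat_lit 72) (nat_lit 5) (nat_lit 79) (nat_lit 5) (nat_lit 73) (nat_lit 5) (nat_lit 413) (nat_lit 400) (nat_lit 387)) (XT.nd (nat_lit 78) (nat_lit 228) (nat_lit 0) (XT.lf (nat_lit 0) (nat_lit 3486995772) (nat_lit 304) (nat_lit 4395341345) (nat_lit 76) (nat_lit 455982248) (nat_lit 69) (nat_lit 5) (nat_lit 73) (nat_lit 5) (nat_lit 70) (nat_lit 5) (nat_lit 414) (nat_lit 400) (nat_lit 386)) (XT.lf (nat_lit 0) (nat_lit 1241861475) (nat_lit 228) (nat_lit 5073728301) (nat_lit 304) (nat_lit 2310330204) (nat_lit 66) (nat_lit 5) (nat_lit 69) (nat_lit 5) (nat_lit 70) (nat_lit 5) (nat_lit 415) (nat_lit 400) (nat_lit 385)))) (XT.nd (nat_lit 78) (nat_lit 380) (nat_lit 0) (XT.lf (nat_lit 0) (nat_lit 386106155) (nat_lit 304) (nat_lit 1547746531) (nat_lit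 76) (nat_lit 7003962917) (nat_lit 65) (nat_lit 5) (nat_lit 69) (nat_lit 5) (nat_lit 66) (nat_lit 5) (nat_lit 416) (nat_lit 400) (nat_lit 384)) (XT.nd (nat_lit 78) (nat_lit 228) (nat_lit 0) (XT.lf (nat_lit 0) (nat_lit 3188299038) (nat_lit 228) (nat_lit 4550360584) (nat_lit 76) (nat_lit 1530043025) (nat_lit 63) (nat_lit 5) (nat_lit 66) (nat_lit 5) (nat_lit 64) (nat_lit 5) (nat_lit 417) (nat_lit 400) (nat_lit 383)) (XT.lf (nat_lit 0) (nat_lit 1811626286) (nat_lit 228) (nat_lit 4407197536) (nat_lit 304) (nat_lit 3406931364) (nat_lit 60) (nat_lit 5) (nat_lit 63) (nat_lit 5) (nat_lit 64) (nat_lit 5) (nat_lit 418) (nat_lit 400) (nat_lit 382))))) (XT.nd (nat_lit 234) (nat_lit 380) (nat_lit 0) (XT.nd (nat_lit 78) (nat_lit 380) (nat_lit 0) (XT.lf (nat_lit 0) (nat_lit 8767146304) (nat_lit 228) (nat_lit 721665377) (nat_lit 304) (nat_lit 522823604) (nat_lit 60) (nat_lit 5) (nat_lit 63) (nat_lit 5) (nat_lit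 64) (nat_lit 5) (nat_lit 419) (nat_lit 400) (nat_lit 381)) (XT.nd (nat_lit 78) (nat_lit 152) (nat_lit 0) (XT.lf (nat_lit 0) (nat_lit 2566167604) (nat_lit 228) (nat_lit 4587625554) (nat_lit 76) (nat_lit 3261321646) (nat_lit 57) (nat_lit 5) (nat_lit 60) (nat_lit 5) (nat_lit 58) (nat_lit 5) (nat_lit 420) (nat_lit 400) (nat_lit 380)) (XT.lf (nat_lit 0) (nat_lit 2613780310) (nat_lit 152) (nat_lit 3259619007) (nat_lit 228) (nat_lit 4976457481) (nat_lit 55) (nat_lit 5) (nat_lit 57) (nat_lit 5) (nat_lit 58) (nat_lit 5) (nat_lit 421) (nat_lit 400) (nat_lit 379)))) (XT.nd (nat_lit 78) (nat_lit 380) (nat_lit 0) (XT.lf (nat_lit 0) (nat_lit 9482843304) (nat_lit 228) (nat_lit 858123661) (nat_lit 76) (nat_lit 975418897) (nat_lit 55) (nat_lit 5) (nat_lit 58) (nat_lit 5) (nat_lit 56) (nat_lit 4) (nat_lit 422) (nat_lit 400) (nat_lit 378)) (XT.nd (nat_lit 78) (nat_lit 152) (nat_lit 0) (XT.lf (nat_lit 0) (nat_lit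 1639727727) (nat_lit 228) (nat_lit 4624718119) (nat_lit 76) (nat_lit 5540244196) (nat_lit 52) (nat_lit 5) (nat_lit 55) (nat_lit 5) (nat_lit 53) (nat_lit 5) (nat_lit 423) (nat_lit 400) (nat_lit 377)) (XT.lf (nat_lit 0) (nat_lit 3545460603) (nat_lit 152) (nat_lit 1751659762) (nat_lit 228) (nat_lit 7030717276) (nat_lit 50) (nat_lit 5) (nat_lit 52) (nat_lit 5) (nat_lit 53) (nat_lit 5) (nat_lit 424) (nat_lit 400) (nat_lit 376)))))) (XT.nd (nat_lit 468) (nat_lit 456) (nat_lit 0) (XT.nd (nat_lit 234) (nat_lit 304) (nat_lit 0) (XT.nd (nat_lit 78) (nat_lit 304) (nat_lit 0) (XT.lf (nat_lit 0) (nat_lit 9350356928) (nat_lit 228) (nat_lit 494694278) (nat_lit 76) (nat_lit 3039539172) (nat_lit 50) (nat_lit 5) (nat_lit 53) (nat_lit 5) (nat_lit 51) (nat_lit 4) (nat_lit 425) (nat_lit 400) (nat_lit 375)) (XT.nd (nat_lit 78) (nat_lit 152) (nat_lit 0) (XT.lf (nat_lit 0) (nat_lit 394511135) (nat_lit 152) (nat_lit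 4791323790) (nat_lit 76) (nat_lit 8286422753) (nat_lit 48) (nat_lit 5) (nat_lit 50) (nat_lit 5) (nat_lit 49) (nat_lit 5) (nat_lit 426) (nat_lit 400) (nat_lit 374)) (XT.lf (nat_lit 0) (nat_lit 4475820060) (nat_lit 228) (nat_lit 9606881899) (nat_lit 76) (nat_lit 14566870) (nat_lit 46) (nat_lit 5) (nat_lit 49) (nat_lit 5) (nat_lit 47) (nat_lit 4) (nat_lit 427) (nat_lit 400) (nat_lit 373)))) (XT.nd (nat_lit 78) (nat_lit 304) (nat_lit 0) (XT.lf (nat_lit 0) (nat_lit 9061495617) (nat_lit 228) (nat_lit 269194256) (nat_lit 76) (nat_lit 5427371992) (nat_lit 46) (nat_lit 5) (nat_lit 49) (nat_lit 5) (nat_lit 47) (nat_lit 4) (nat_lit 428) (nat_lit 400) (nat_lit 372)) (XT.nd (nat_lit 78) (nat_lit 228) (nat_lit 0) (XT.lf (nat_lit 0) (nat_lit 10179920266) (nat_lit 76) (nat_lit 3994449815) (nat_lit 152) (nat_lit 1284529881) (nat_lit 45) (nat_lit 5) (nat_lit 46) (nat_lit 5) (nat_lit 47) (nat_lit 4) (nat_lit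 429) (nat_lit 400) (nat_lit 371)) (XT.lf (nat_lit 0) (nat_lit 3404380632) (nat_lit 228) (nat_lit 10951000277) (nat_lit 76) (nat_lit 1845894191) (nat_lit 42) (nat_lit 5) (nat_lit 45) (nat_lit 5) (nat_lit 43) (nat_lit 4) (nat_lit 430) (nat_lit 400) (nat_lit 370))))) (XT.nd (nat_lit 234) (nat_lit 228) (nat_lit 0) (XT.nd (nat_lit 78) (nat_lit 228) (nat_lit 0) (XT.lf (nat_lit 0) (nat_lit 8568421455) (nat_lit 228) (nat_lit 357181724) (nat_lit 76) (nat_lit 8061221993) (nat_lit 42) (nat_lit 5) (nat_lit 45) (nat_lit 5) (nat_lit 43) (nat_lit 4) (nat_lit 431) (nat_lit 400) (nat_lit 369)) (XT.nd (nat_lit 78) (nat_lit 152) (nat_lit 0) (XT.lf (nat_lit 0) (nat_lit 11524619913) (nat_lit 76) (nat_lit 2821816200) (nat_lit 152) (nat_lit 3472721860) (nat_lit 41) (nat_lit 5) (nat_lit 42) (nat_lit 5) (nat_lit 43) (nat_lit 4) (nat_lit 432) (nat_lit 400) (nat_lit 368)) (XT.lf (nat_lit 0) (nat_lit 1942313268) (nat_lit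 152) (nat_lit 13036217337) (nat_lit 76) (nat_lit 3722583427) (nat_lit 39) (nat_lit 5) (nat_lit 41) (nat_lit 5) (nat_lit 40) (nat_lit 4) (nat_lit 433) (nat_lit 400) (nat_lit 367)))) (XT.nd (nat_lit 156) (nat_lit 152) (nat_lit 0) (XT.nd (nat_lit 78) (nat_lit 76) (nat_lit 0) (XT.lf (nat_lit 0) (nat_lit 7777999574) (nat_lit 152) (nat_lit 1006323194) (nat_lit 76) (nat_lit 10848087892) (nat_lit 39) (nat_lit 5) (nat_lit 41) (nat_lit 5) (nat_lit 40) (nat_lit 4) (nat_lit 434) (nat_lit 400) (nat_lit 366)) (XT.lf (nat_lit 0) (nat_lit 12483042225) (nat_lit 76) (nat_lit 1828454511) (nat_lit 152) (nat_lit 6308242781) (nat_lit 38) (nat_lit 5) (nat_lit 39) (nat_lit 5) (nat_lit 40) (nat_lit 4) (nat_lit 435) (nat_lit 400) (nat_lit 365))) (XT.nd (nat_lit 78) (nat_lit 76) (nat_lit 0) (XT.lf (nat_lit 0) (nat_lit 5431054707) (nat_lit 76) (nat_lit 16163674423) (nat_lit 76) (nat_lit 73165724) (nat_lit 37) (nat_lit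 4) (nat_lit 38) (nat_lit 5) (nat_lit 38) (nat_lit 4) (nat_lit 436) (nat_lit 400) (nat_lit 364)) (XT.lf (nat_lit 0) (nat_lit 6535115569) (nat_lit 152) (nat_lit 2577096577) (nat_lit 76) (nat_lit 13658271656) (nat_lit 36) (nat_lit 5) (nat_lit 38) (nat_lit 5) (nat_lit 37) (nat_lit 4) (nat_lit 437) (nat_lit 400) (nat_lit 363))))))))
noncomputable def xc93 : XT := (XT.nd (nat_lit 1950) (nat_lit 836) (nat_lit 0) (XT.nd (nat_lit 936) (nat_lit 760) (nat_lit 0) (XT.nd (nat_lit 468) (nat_lit 380) (nat_lit 0) (XT.nd (nat_lit 234) (nat_lit 228) (nat_lit 0) (XT.nd (nat_lit 78) (nat_lit 152) (nat_lit 0) (XT.lf (nat_lit 0) (nat_lit 12689316985) (nat_lit 76) (nat_lit 1220867544) (nat_lit 152) (nat_lit 10031580721) (nat_lit 35) (nat_lit 5) (nat_lit 36) (nat_lit 5) (nat_lit 37) (nat_lit 4) (nat_lit 438) (nat_lit 400) (nat_lit 362)) (XT.nd (nat_lit 78) (nat_lit 76) (nat_lit 0) (XT.lf (nat_lit 0) (nat_lit 4026947337)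 (nat_lit 76) (nat_lit 18130528423) (nat_lit 76) (nat_lit 3026699499) (nat_lit 34) (nat_lit 4) (nat_lit 35) (nat_lit 5) (nat_lit 35) (nat_lit 4) (nat_lit 439) (nat_lit 400) (nat_lit 361)) (XT.lf (nat_lit 0) (nat_lit 4596616202) (nat_lit 152) (nat_lit 5601396374) (nat_lit 76) (nat_lit 16296429636) (nat_lit 33) (nat_lit 5) (nat_lit 35) (nat_lit 5) (nat_lit 34) (nat_lit 4) (nat_lit 440) (nat_lit 400) (nat_lit 360)))) (XT.nd (nat_lit 78) (nat_lit 152) (nat_lit 0) (XT.lf (nat_lit 0) (nat_lit 11589086083) (nat_lit 76) (nat_lit 1298239789) (nat_lit 152) (nat_lit 14998234161) (nat_lit 32) (nat_lit 5) (nat_lit 33) (nat_lit 5) (nat_lit 34) (nat_lit 4) (nat_lit 441) (nat_lit 400) (nat_lit 359)) (XT.nd (nat_lit 78) (nat_lit 76) (nat_lit 0) (XT.lf (nat_lit 0) (nat_lit 823575525) (nat_lit 76) (nat_lit 21337343110) (nat_lit 76) (nat_lit 7201481030) (nat_lit 31) (nat_lit 4) (nat_lit 32) (nat_lit 5) (nat_lit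 32) (nat_lit 4) (nat_lit 442) (nat_lit 400) (nat_lit 358)) (XT.lf (nat_lit 0) (nat_lit 1591833455) (nat_lit 152) (nat_lit 10867869166) (nat_lit 76) (nat_lit 18460636516) (nat_lit 30) (nat_lit 5) (nat_lit 32) (nat_lit 5) (nat_lit 31) (nat_lit 4) (nat_lit 443) (nat_lit 400) (nat_lit 357))))) (XT.nd (nat_lit 234) (nat_lit 228) (nat_lit 0) (XT.nd (nat_lit 78) (nat_lit 76) (nat_lit 0) (XT.lf (nat_lit 0) (nat_lit 8343823546) (nat_lit 76) (nat_lit 2503551576) (nat_lit 152) (nat_lit 21728750178) (nat_lit 29) (nat_lit 5) (nat_lit 30) (nat_lit 5) (nat_lit 31) (nat_lit 4) (nat_lit 444) (nat_lit 400) (nat_lit 356)) (XT.nd (nat_lit 78) (nat_lit 76) (nat_lit 0) (XT.lf (nat_lit 0) (nat_lit 21294082786) (nat_lit 152) (nat_lit 4939782435) (nat_lit 0) (nat_lit 8094453154) (nat_lit 29) (nat_lit 5) (nat_lit 31) (nat_lit 4) (nat_lit 29) (nat_lit 4) (nat_lit 445) (nat_lit 400) (nat_lit 355)) (XT.lf (nat_lit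 0) (nat_lit 16563783953) (nat_lit 76) (nat_lit 16427488075) (nat_lit 76) (nat_lit 3196236963) (nat_lit 28) (nat_lit 4) (nat_lit 29) (nat_lit 5) (nat_lit 29) (nat_lit 4) (nat_lit 446) (nat_lit 400) (nat_lit 354)))) (XT.nd (nat_lit 78) (nat_lit 76) (nat_lit 0) (XT.lf (nat_lit 0) (nat_lit 1690276333) (nat_lit 76) (nat_lit 5497611451) (nat_lit 152) (nat_lit 30982799099) (nat_lit 26) (nat_lit 5) (nat_lit 27) (nat_lit 5) (nat_lit 28) (nat_lit 4) (nat_lit 447) (nat_lit 400) (nat_lit 353)) (XT.nd (nat_lit 78) (nat_lit 76) (nat_lit 0) (XT.lf (nat_lit 0) (nat_lit 18883930556) (nat_lit 152) (nat_lit 14789079185) (nat_lit 0) (nat_lit 6580559649) (nat_lit 26) (nat_lit 5) (nat_lit 28) (nat_lit 4) (nat_lit 26) (nat_lit 4) (nat_lit 448) (nat_lit 400) (nat_lit 352)) (XT.lf (nat_lit 0) (nat_lit 8848250224) (nat_lit 76) (nat_lit 22978288308) (nat_lit 76) (nat_lit 10651674669) (nat_lit 25) (nat_lit 4) (nat_lit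 26) (nat_lit 5) (nat_lit 26) (nat_lit 4) (nat_lit 449) (nat_lit 400) (nat_lit 351)))))) (XT.nd (nat_lit 468) (nat_lit 380) (nat_lit 0) (XT.nd (nat_lit 234) (nat_lit 228) (nat_lit 0) (XT.nd (nat_lit 78) (nat_lit 76) (nat_lit 0) (XT.lf (nat_lit 0) (nat_lit 1247758501) (nat_lit 152) (nat_lit 9752797002) (nat_lit 76) (nat_lit 33848877595) (nat_lit 24) (nat_lit 5) (nat_lit 26) (nat_lit 5) (nat_lit 25) (nat_lit 4) (nat_lit 450) (nat_lit 400) (nat_lit 350)) (XT.nd (nat_lit 78) (nat_lit 0) (nat_lit 0) (XT.lf (nat_lit 0) (nat_lit 13942250973) (nat_lit 152) (nat_lit 30922139412) (nat_lit 0) (nat_lit 2490342101) (nat_lit 23) (nat_lit 5) (nat_lit 25) (nat_lit 4) (nat_lit 23) (nat_lit 4) (nat_lit 451) (nat_lit 400) (nat_lit 349)) (XT.lf (nat_lit 0) (nat_lit 28170453373) (nat_lit 152) (nat_lit 5147090925) (nat_lit 0) (nat_lit 16701460400) (nat_lit 23) (nat_lit 5) (nat_lit 25) (nat_lit 4) (nat_lit 23)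 (nat_lit 4) (nat_lit 452) (nat_lit 400) (nat_lit 348)))) (XT.nd (nat_lit 78) (nat_lit 152) (nat_lit 0) (XT.lf (nat_lit 0) (nat_lit 23804092782) (nat_lit 76) (nat_lit 20267194169) (nat_lit 76) (nat_lit 8782382584) (nat_lit 22) (nat_lit 4) (nat_lit 23) (nat_lit 5) (nat_lit 23) (nat_lit 4) (nat_lit 453) (nat_lit 400) (nat_lit 347)) (XT.nd (nat_lit 78) (nat_lit 76) (nat_lit 0) (XT.lf (nat_lit 0) (nat_lit 5168831958) (nat_lit 152) (nat_lit 748287974) (nat_lit 76) (nat_lit 49979228438) (nat_lit 21) (nat_lit 5) (nat_lit 23) (nat_lit 5) (nat_lit 22) (nat_lit 4) (nat_lit 454) (nat_lit 400) (nat_lit 346)) (XT.lf (nat_lit 0) (nat_lit 20728620858) (nat_lit 152) (nat_lit 28289799081) (nat_lit 0) (nat_lit 10068416822) (nat_lit 20) (nat_lit 5) (nat_lit 22) (nat_lit 4) (nat_lit 20) (nat_lit 4) (nat_lit 455) (nat_lit 400) (nat_lit 345))))) (XT.nd (nat_lit 234) (nat_lit 152) (nat_lit 0) (XT.nd (nat_lit 78)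 (nat_lit 152) (nat_lit 0) (XT.lf (nat_lit 0) (nat_lit 2265596416) (nat_lit 76) (nat_lit 35461638142) (nat_lit 76) (nat_lit 24789806954) (nat_lit 19) (nat_lit 4) (nat_lit 20) (nat_lit 5) (nat_lit 20) (nat_lit 4) (nat_lit 456) (nat_lit 400) (nat_lit 344)) (XT.nd (nat_lit 78) (nat_lit 152) (nat_lit 0) (XT.lf (nat_lit 0) (nat_lit 36804957547) (nat_lit 76) (nat_lit 20020079387) (nat_lit 76) (nat_lit 9337482317) (nat_lit 19) (nat_lit 4) (nat_lit 20) (nat_lit 5) (nat_lit 20) (nat_lit 4) (nat_lit 457) (nat_lit 400) (nat_lit 343)) (XT.lf (nat_lit 0) (nat_lit 3963397891) (nat_lit 76) (nat_lit 3082738344) (nat_lit 152) (nat_lit 63034329185) (nat_lit 17) (nat_lit 5) (nat_lit 18) (nat_lit 5) (nat_lit 19) (nat_lit 4) (nat_lit 458) (nat_lit 400) (nat_lit 342)))) (XT.nd (nat_lit 156) (nat_lit 76) (nat_lit 0) (XT.nd (nat_lit 78) (nat_lit 76) (nat_lit 0) (XT.lf (nat_lit 0) (nat_lit 25392898665) (nat_lit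 152) (nat_lit 33323164067) (nat_lit 0) (nat_lit 15483828770) (nat_lit 17) (nat_lit 5) (nat_lit 19) (nat_lit 4) (nat_lit 17) (nat_lit 4) (nat_lit 459) (nat_lit 400) (nat_lit 341)) (XT.lf (nat_lit 0) (nat_lit 2055929657) (nat_lit 76) (nat_lit 43250982390) (nat_lit 76) (nat_lit 33333999250) (nat_lit 16) (nat_lit 4) (nat_lit 17) (nat_lit 5) (nat_lit 17) (nat_lit 4) (nat_lit 460) (nat_lit 400) (nat_lit 340))) (XT.nd (nat_lit 78) (nat_lit 76) (nat_lit 0) (XT.lf (nat_lit 0) (nat_lit 42100918687) (nat_lit 76) (nat_lit 25595026359) (nat_lit 76) (nat_lit 15670716141) (nat_lit 16) (nat_lit 4) (nat_lit 17) (nat_lit 5) (nat_lit 17) (nat_lit 4) (nat_lit 461) (nat_lit 400) (nat_lit 339)) (XT.lf (nat_lit 0) (nat_lit 3207511564) (nat_lit 152) (nat_lit 3259470496) (nat_lit 76) (nat_lit 81999157279) (nat_lit 15) (nat_lit 5) (nat_lit 17) (nat_lit 5) (nat_lit 16) (nat_lit 4) (nat_lit 462) (nat_lit 400) (nat_lit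 338))))))) (XT.nd (nat_lit 936) (nat_lit 304) (nat_lit 0) (XT.nd (nat_lit 468) (nat_lit 228) (nat_lit 0) (XT.nd (nat_lit 234) (nat_lit 152) (nat_lit 0) (XT.nd (nat_lit 78) (nat_lit 76) (nat_lit 0) (XT.lf (nat_lit 0) (nat_lit 24044459047) (nat_lit 152) (nat_lit 54949762838) (nat_lit 0) (nat_lit 14843184660) (nat_lit 14) (nat_lit 5) (nat_lit 16) (nat_lit 4) (nat_lit 14) (nat_lit 4) (nat_lit 463) (nat_lit 400) (nat_lit 337)) (XT.nd (nat_lit 78) (nat_lit 76) (nat_lit 0) (XT.lf (nat_lit 0) (nat_lit 46782120037) (nat_lit 152) (nat_lit 15262094734) (nat_lit 0) (nat_lit 37575460029) (nat_lit 14) (nat_lit 5) (nat_lit 16) (nat_lit 4) (nat_lit 14) (nat_lit 4) (nat_lit 464) (nat_lit 400) (nat_lit 336)) (XT.lf (nat_lit 0) (nat_lit 29002855980) (nat_lit 76) (nat_lit 43009706987) (nat_lit 76) (nat_lit 33798060292) (nat_lit 13) (nat_lit 4) (nat_lit 14) (nat_lit 5) (nat_lit 14) (nat_lit 4) (nat_lit 465)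 (nat_lit 400) (nat_lit 335)))) (XT.nd (nat_lit 78) (nat_lit 152) (nat_lit 0) (XT.lf (nat_lit 0) (nat_lit 77629630099) (nat_lit 76) (nat_lit 22025974345) (nat_lit 76) (nat_lit 12809710348) (nat_lit 13) (nat_lit 4) (nat_lit 14) (nat_lit 5) (nat_lit 14) (nat_lit 4) (nat_lit 466) (nat_lit 400) (nat_lit 334)) (XT.nd (nat_lit 78) (nat_lit 0) (nat_lit 0) (XT.lf (nat_lit 0) (nat_lit 9628772617) (nat_lit 152) (nat_lit 108892271746) (nat_lit 0) (nat_lit 1091236249) (nat_lit 11) (nat_lit 5) (nat_lit 13) (nat_lit 4) (nat_lit 11) (nat_lit 4) (nat_lit 467) (nat_lit 400) (nat_lit 333)) (XT.lf (nat_lit 0) (nat_lit 34697649354) (nat_lit 152) (nat_lit 66328099560) (nat_lit 0) (nat_lit 26156447624) (nat_lit 11) (nat_lit 5) (nat_lit 13) (nat_lit 4) (nat_lit 11) (nat_lit 4) (nat_lit 468) (nat_lit 400) (nat_lit 332))))) (XT.nd (nat_lit 234) (nat_lit 152) (nat_lit 0) (XT.nd (nat_lit 78) (nat_lit 76) (nat_lit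 0) (XT.lf (nat_lit 0) (nat_lit 61751721570) (nat_lit 152) (nat_lit 20400483539) (nat_lit 0) (nat_lit 53207125984) (nat_lit 11) (nat_lit 5) (nat_lit 13) (nat_lit 4) (nat_lit 11) (nat_lit 4) (nat_lit 469) (nat_lit 400) (nat_lit 331)) (XT.nd (nat_lit 78) (nat_lit 0) (nat_lit 0) (XT.lf (nat_lit 0) (nat_lit 30698398173) (nat_lit 76) (nat_lit 60991208731) (nat_lit 76) (nat_lit 52443470687) (nat_lit 10) (nat_lit 4) (nat_lit 11) (nat_lit 5) (nat_lit 11) (nat_lit 4) (nat_lit 470) (nat_lit 400) (nat_lit 330)) (XT.lf (nat_lit 0) (nat_lit 87007759463) (nat_lit 76) (nat_lit 37554227558) (nat_lit 76) (nat_lit 29003579830) (nat_lit 10) (nat_lit 4) (nat_lit 11) (nat_lit 5) (nat_lit 11) (nat_lit 4) (nat_lit 471) (nat_lit 400) (nat_lit 329)))) (XT.nd (nat_lit 78) (nat_lit 152) (nat_lit 0) (XT.lf (nat_lit 0) (nat_lit 147787032124) (nat_lit 76) (nat_lit 12260161147) (nat_lit 76) (nat_lit 3706819268) (nat_lit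 10) (nat_lit 4) (nat_lit 11) (nat_lit 5) (nat_lit 11) (nat_lit 4) (nat_lit 472) (nat_lit 400) (nat_lit 328)) (XT.nd (nat_lit 78) (nat_lit 0) (nat_lit 0) (XT.lf (nat_lit 0) (nat_lit 23781621897) (nat_lit 152) (nat_lit 134962992898) (nat_lit 0) (nat_lit 15859551097) (nat_lit 8) (nat_lit 5) (nat_lit 10) (nat_lit 4) (nat_lit 8) (nat_lit 4) (nat_lit 473) (nat_lit 400) (nat_lit 327)) (XT.lf (nat_lit 0) (nat_lit 54019127928) (nat_lit 152) (nat_lit 86140562466) (nat_lit 0) (nat_lit 46094918424) (nat_lit 8) (nat_lit 5) (nat_lit 10) (nat_lit 4) (nat_lit 8) (nat_lit 4) (nat_lit 474) (nat_lit 400) (nat_lit 326)))))) (XT.nd (nat_lit 468) (nat_lit 76) (nat_lit 0) (XT.nd (nat_lit 234) (nat_lit 152) (nat_lit 0) (XT.nd (nat_lit 78) (nat_lit 76) (nat_lit 0) (XT.lf (nat_lit 0) (nat_lit 86660730225) (nat_lit 152) (nat_lit 33443008959) (nat_lit 0) (nat_lit 78734540439) (nat_lit 8) (nat_lit 5) (nat_lit 10) (nat_lit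 4) (nat_lit 8) (nat_lit 4) (nat_lit 475) (nat_lit 400) (nat_lit 325)) (XT.nd (nat_lit 78) (nat_lit 0) (nat_lit 0) (XT.lf (nat_lit 0) (nat_lit 24676360934) (nat_lit 76) (nat_lit 97816966643) (nat_lit 76) (nat_lit 89888943263) (nat_lit 7) (nat_lit 4) (nat_lit 8) (nat_lit 5) (nat_lit 8) (nat_lit 4) (nat_lit 476) (nat_lit 400) (nat_lit 324)) (XT.lf (nat_lit 0) (nat_lit 89319533537) (nat_lit 76) (nat_lit 72773946633) (nat_lit 76) (nat_lit 64844225480) (nat_lit 7) (nat_lit 4) (nat_lit 8) (nat_lit 5) (nat_lit 8) (nat_lit 4) (nat_lit 477) (nat_lit 400) (nat_lit 323)))) (XT.nd (nat_lit 78) (nat_lit 152) (nat_lit 0) (XT.lf (nat_lit 0) (nat_lit 159108529916) (nat_lit 76) (nat_lit 45740667202) (nat_lit 76) (nat_lit 37809374038) (nat_lit 7) (nat_lit 4) (nat_lit 8) (nat_lit 5) (nat_lit 8) (nat_lit 4) (nat_lit 478) (nat_lit 400) (nat_lit 322)) (XT.nd (nat_lit 78) (nat_lit 152) (nat_lit 0) (XT.lf (nat_lit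 0) (nat_lit 234456914495) (nat_lit 76) (nat_lit 16556931140) (nat_lit 76) (nat_lit 8624182410) (nat_lit 7) (nat_lit 4) (nat_lit 8) (nat_lit 5) (nat_lit 8) (nat_lit 4) (nat_lit 479) (nat_lit 400) (nat_lit 321)) (XT.lf (nat_lit 0) (nat_lit 23081800416) (nat_lit 152) (nat_lit 239008069315) (nat_lit 0) (nat_lit 15735414790) (nat_lit 5) (nat_lit 5) (nat_lit 7) (nat_lit 4) (nat_lit 5) (nat_lit 4) (nat_lit 480) (nat_lit 400) (nat_lit 320))))) (XT.nd (nat_lit 234) (nat_lit 76) (nat_lit 0) (XT.nd (nat_lit 78) (nat_lit 0) (nat_lit 0) (XT.lf (nat_lit 0) (nat_lit 57983822561) (nat_lit 152) (nat_lit 188739457934) (nat_lit 0) (nat_lit 50636281460) (nat_lit 5) (nat_lit 5) (nat_lit 7) (nat_lit 4) (nat_lit 5) (nat_lit 4) (nat_lit 481) (nat_lit 400) (nat_lit 319)) (XT.nd (nat_lit 78) (nat_lit 0) (nat_lit 0) (XT.lf (nat_lit 0) (nat_lit 95667877865) (nat_lit 152) (nat_lit 134470247187) (nat_lit 0) (nat_lit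 88319266878) (nat_lit 5) (nat_lit 5) (nat_lit 7) (nat_lit 4) (nat_lit 5) (nat_lit 4) (nat_lit 482) (nat_lit 400) (nat_lit 318)) (XT.lf (nat_lit 0) (nat_lit 136357279246) (nat_lit 152) (nat_lit 75878841751) (nat_lit 0) (nat_lit 129007677626) (nat_lit 5) (nat_lit 5) (nat_lit 7) (nat_lit 4) (nat_lit 5) (nat_lit 4) (nat_lit 483) (nat_lit 400) (nat_lit 317)))) (XT.nd (nat_lit 156) (nat_lit 0) (nat_lit 0) (XT.nd (nat_lit 78) (nat_lit 76) (nat_lit 0) (XT.lf (nat_lit 0) (nat_lit 180293149085) (nat_lit 152) (nat_lit 12618033298) (nat_lit 0) (nat_lit 172942630211) (nat_lit 5) (nat_lit 5) (nat_lit 7) (nat_lit 4) (nat_lit 5) (nat_lit 4) (nat_lit 484) (nat_lit 400) (nat_lit 316)) (XT.lf (nat_lit 0) (nat_lit 58619438774) (nat_lit 76) (nat_lit 170526208228) (nat_lit 76) (nat_lit 163174840045) (nat_lit 4) (nat_lit 4) (nat_lit 5) (nat_lit 5) (nat_lit 5) (nat_lit 4) (nat_lit 485) (nat_lit 400) (nat_lit 315)))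 (XT.nd (nat_lit 78) (nat_lit 0) (nat_lit 0) (XT.lf (nat_lit 0) (nat_lit 136257344371) (nat_lit 76) (nat_lit 145986166221) (nat_lit 76) (nat_lit 138634011641) (nat_lit 4) (nat_lit 4) (nat_lit 5) (nat_lit 5) (nat_lit 5) (nat_lit 4) (nat_lit 486) (nat_lit 400) (nat_lit 314)) (XT.lf (nat_lit 0) (nat_lit 220091316697) (nat_lit 76) (nat_lit 119490633282) (nat_lit 76) (nat_lit 112137750557) (nat_lit 4) (nat_lit 4) (nat_lit 5) (nat_lit 5) (nat_lit 5) (nat_lit 4) (nat_lit 487) (nat_lit 400) (nat_lit 313))))))))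
noncomputable def xc94 : XT := (XT.nd (nat_lit 1950) (nat_lit 0) (nat_lit 0) (XT.nd (nat_lit 936) (nat_lit 76) (nat_lit 0) (XT.nd (nat_lit 468) (nat_lit 0) (nat_lit 0) (XT.nd (nat_lit 234) (nat_lit 152) (nat_lit 0) (XT.nd (nat_lit 78) (nat_lit 0) (nat_lit 0) (XT.lf (nat_lit 0) (nat_lit 310618149661) (nat_lit 76) (nat_lit 90882598846) (nat_lit 76) (nat_lit 83529041912) (nat_lit 4) (nat_lit 4) (nat_lit 5) (nat_lit 5) (nat_lit 5) (nat_lit 4) (nat_lit 488) (nat_lit 400) (nat_lit 312)) (XT.nd (nat_lit 78) (nat_lit 0) (nat_lit 0) (XT.lf (nat_lit 0) (nat_lit 408374298571) (nat_lit 76) (nat_lit 59992533820) (nat_lit 76) (nat_lit 52638352618) (nat_lit 4) (nat_lit 4) (nat_lit 5) (nat_lit 5) (nat_lit 5) (nat_lit 4) (nat_lit 489) (nat_lit 400) (nat_lit 311)) (XT.lf (nat_lit 0) (nat_lit 513939059124) (nat_lit 76) (nat_lit 26637385966) (nat_lit 76) (nat_lit 19282626739) (nat_lit 4) (nat_lit 4) (nat_lit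 5) (nat_lit 5) (nat_lit 5) (nat_lit 4) (nat_lit 490) (nat_lit 400) (nat_lit 310)))) (XT.nd (nat_lit 78) (nat_lit 0) (nat_lit 0) (XT.lf (nat_lit 0) (nat_lit 16802553754) (nat_lit 152) (nat_lit 574922530972) (nat_lit 0) (nat_lit 9992095943) (nat_lit 2) (nat_lit 5) (nat_lit 4) (nat_lit 4) (nat_lit 2) (nat_lit 4) (nat_lit 491) (nat_lit 400) (nat_lit 309)) (XT.nd (nat_lit 78) (nat_lit 0) (nat_lit 0) (XT.lf (nat_lit 0) (nat_lit 56707346197) (nat_lit 152) (nat_lit 540122129900) (nat_lit 0) (nat_lit 49896429532) (nat_lit 2) (nat_lit 5) (nat_lit 4) (nat_lit 4) (nat_lit 2) (nat_lit 4) (nat_lit 492) (nat_lit 400) (nat_lit 308)) (XT.lf (nat_lit 0) (nat_lit 99799461144) (nat_lit 152) (nat_lit 502548152725) (nat_lit 0) (nat_lit 92988119612) (nat_lit 2) (nat_lit 5) (nat_lit 4) (nat_lit 4) (nat_lit 2) (nat_lit 4) (nat_lit 493) (nat_lit 400) (nat_lit 307))))) (XT.nd (nat_lit 234) (nat_lit 0) (nat_lit 0)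 (XT.nd (nat_lit 78) (nat_lit 0) (nat_lit 0) (XT.lf (nat_lit 0) (nat_lit 146334259273) (nat_lit 152) (nat_lit 461977938841) (nat_lit 0) (nat_lit 139522524347) (nat_lit 2) (nat_lit 5) (nat_lit 4) (nat_lit 4) (nat_lit 2) (nat_lit 4) (nat_lit 494) (nat_lit 400) (nat_lit 306)) (XT.nd (nat_lit 78) (nat_lit 0) (nat_lit 0) (XT.lf (nat_lit 0) (nat_lit 196587502353) (nat_lit 152) (nat_lit 418171072166) (nat_lit 0) (nat_lit 189775403173) (nat_lit 2) (nat_lit 5) (nat_lit 4) (nat_lit 4) (nat_lit 2) (nat_lit 4) (nat_lit 495) (nat_lit 400) (nat_lit 305)) (XT.lf (nat_lit 0) (nat_lit 250856987380) (nat_lit 152) (nat_lit 370867956453) (nat_lit 0) (nat_lit 244044550928) (nat_lit 2) (nat_lit 5) (nat_lit 4) (nat_lit 4) (nat_lit 2) (nat_lit 4) (nat_lit 496) (nat_lit 400) (nat_lit 304)))) (XT.nd (nat_lit 78) (nat_lit 0) (nat_lit 0) (XT.lf (nat_lit 0) (nat_lit 309464311301) (nat_lit 152) (nat_lit 319788276943)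 (nat_lit 0) (nat_lit 302651562560) (nat_lit 2) (nat_lit 5) (nat_lit 4) (nat_lit 4) (nat_lit 2) (nat_lit 4) (nat_lit 497) (nat_lit 400) (nat_lit 303)) (XT.nd (nat_lit 78) (nat_lit 0) (nat_lit 0) (XT.lf (nat_lit 0) (nat_lit 372756776777) (nat_lit 152) (nat_lit 264629339237) (nat_lit 0) (nat_lit 365943738879) (nat_lit 2) (nat_lit 5) (nat_lit 4) (nat_lit 4) (nat_lit 2) (nat_lit 4) (nat_lit 498) (nat_lit 400) (nat_lit 302)) (XT.lf (nat_lit 0) (nat_lit 441109450271) (nat_lit 152) (nat_lit 205064275558) (nat_lit 0) (nat_lit 434296144635) (nat_lit 2) (nat_lit 5) (nat_lit 4) (nat_lit 4) (nat_lit 2) (nat_lit 4) (nat_lit 499) (nat_lit 400) (nat_lit 301)))))) (XT.nd (nat_lit 468) (nat_lit 0) (nat_lit 0) (XT.nd (nat_lit 234) (nat_lit 0) (nat_lit 0) (XT.nd (nat_lit 78) (nat_lit 76) (nat_lit 0) (XT.lf (nat_lit 0) (nat_lit 514927384661) (nat_lit 152) (nat_lit 140740107749) (nat_lit 0) (nat_lit 508113831120)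 (nat_lit 2) (nat_lit 5) (nat_lit 4) (nat_lit 4) (nat_lit 2) (nat_lit 4) (nat_lit 500) (nat_lit 400) (nat_lit 300)) (XT.nd (nat_lit 78) (nat_lit 76) (nat_lit 0) (XT.lf (nat_lit 0) (nat_lit 594648019560) (nat_lit 152) (nat_lit 71275655558) (nat_lit 0) (nat_lit 587834236477) (nat_lit 2) (nat_lit 5) (nat_lit 4) (nat_lit 4) (nat_lit 2) (nat_lit 4) (nat_lit 501) (nat_lit 400) (nat_lit 299)) (XT.lf (nat_lit 0) (nat_lit 3937702016) (nat_lit 76) (nat_lit 676900773355) (nat_lit 76) (nat_lit 670086777734) (nat_lit 1) (nat_lit 4) (nat_lit 2) (nat_lit 5) (nat_lit 2) (nat_lit 4) (nat_lit 502) (nat_lit 400) (nat_lit 298)))) (XT.nd (nat_lit 78) (nat_lit 0) (nat_lit 0) (XT.lf (nat_lit 0) (nat_lit 89216539710) (nat_lit 76) (nat_lit 686653963889) (nat_lit 76) (nat_lit 679839771473) (nat_lit 1) (nat_lit 4) (nat_lit 2) (nat_lit 5) (nat_lit 2) (nat_lit 4) (nat_lit 503) (nat_lit 400) (nat_lit 297)) (XT.nd (nat_lit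 78) (nat_lit 0) (nat_lit 0) (XT.lf (nat_lit 0) (nat_lit 181312963887) (nat_lit 76) (nat_lit 697189846138) (nat_lit 76) (nat_lit 690375471504) (nat_lit 1) (nat_lit 4) (nat_lit 2) (nat_lit 5) (nat_lit 2) (nat_lit 4) (nat_lit 504) (nat_lit 400) (nat_lit 296)) (XT.lf (nat_lit 0) (nat_lit 280772731136) (nat_lit 76) (nat_lit 708570854961) (nat_lit 76) (nat_lit 701756311606) (nat_lit 1) (nat_lit 4) (nat_lit 2) (nat_lit 5) (nat_lit 2) (nat_lit 4) (nat_lit 505) (nat_lit 400) (nat_lit 295))))) (XT.nd (nat_lit 234) (nat_lit 0) (nat_lit 0) (XT.nd (nat_lit 78) (nat_lit 0) (nat_lit 0) (XT.lf (nat_lit 0) (nat_lit 388185232670) (nat_lit 76) (nat_lit 720864433371) (nat_lit 76) (nat_lit 714049733795) (nat_lit 1) (nat_lit 4) (nat_lit 2) (nat_lit 5) (nat_lit 2) (nat_lit 4) (nat_lit 506) (nat_lit 400) (nat_lit 294)) (XT.nd (nat_lit 78) (nat_lit 0) (nat_lit 0) (XT.lf (nat_lit 0) (nat_lit 504186987016) (nat_lit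 76) (nat_lit 734143432205) (nat_lit 76) (nat_lit 727328587978) (nat_lit 1) (nat_lit 4) (nat_lit 2) (nat_lit 5) (nat_lit 2) (nat_lit 4) (nat_lit 507) (nat_lit 400) (nat_lit 293)) (XT.lf (nat_lit 0) (nat_lit 629465411978) (nat_lit 76) (nat_lit 748486541826) (nat_lit 76) (nat_lit 741671563664) (nat_lit 1) (nat_lit 4) (nat_lit 2) (nat_lit 5) (nat_lit 2) (nat_lit 4) (nat_lit 508) (nat_lit 400) (nat_lit 292)))) (XT.nd (nat_lit 156) (nat_lit 0) (nat_lit 0) (XT.nd (nat_lit 78) (nat_lit 0) (nat_lit 0) (XT.lf (nat_lit 0) (nat_lit 764762898222) (nat_lit 76) (nat_lit 763978758439) (nat_lit 76) (nat_lit 757163656262) (nat_lit 1) (nat_lit 4) (nat_lit 2) (nat_lit 5) (nat_lit 2) (nat_lit 4) (nat_lit 509) (nat_lit 400) (nat_lit 291)) (XT.lf (nat_lit 0) (nat_lit 910881208630) (nat_lit 76) (nat_lit 780711887771) (nat_lit 76) (nat_lit 773896670767) (nat_lit 1) (nat_lit 4) (nat_lit 2) (nat_lit 5) (nat_lit 2)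 (nat_lit 4) (nat_lit 510) (nat_lit 400) (nat_lit 290))) (XT.nd (nat_lit 78) (nat_lit 0) (nat_lit 0) (XT.lf (nat_lit 0) (nat_lit 1068686229486) (nat_lit 76) (nat_lit 798785089109) (nat_lit 76) (nat_lit 791969765782) (nat_lit 1) (nat_lit 4) (nat_lit 2) (nat_lit 5) (nat_lit 2) (nat_lit 4) (nat_lit 511) (nat_lit 400) (nat_lit 289)) (XT.lf (nat_lit 0) (nat_lit 1239113101654) (nat_lit 76) (nat_lit 818305462904) (nat_lit 76) (nat_lit 811490041131) (nat_lit 1) (nat_lit 4) (nat_lit 2) (nat_lit 5) (nat_lit 2) (nat_lit 4) (nat_lit 512) (nat_lit 400) (nat_lit 288))))))) (XT.nd (nat_lit 936) (nat_lit 0) (nat_lit 0) (XT.nd (nat_lit 468) (nat_lit 0) (nat_lit 0) (XT.nd (nat_lit 234) (nat_lit 0) (nat_lit 0) (XT.nd (nat_lit 78) (nat_lit 0) (nat_lit 0) (XT.lf (nat_lit 0) (nat_lit 1423171762154) (nat_lit 76) (nat_lit 839388685446) (nat_lit 76) (nat_lit 832573172518) (nat_lit 1) (nat_lit 4) (nat_lit 2) (nat_lit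 5) (nat_lit 2) (nat_lit 4) (nat_lit 513) (nat_lit 400) (nat_lit 287)) (XT.nd (nat_lit 78) (nat_lit 0) (nat_lit 0) (XT.lf (nat_lit 0) (nat_lit 1621952928975) (nat_lit 76) (nat_lit 862159694349) (nat_lit 76) (nat_lit 855344097020) (nat_lit 1) (nat_lit 4) (nat_lit 2) (nat_lit 5) (nat_lit 2) (nat_lit 4) (nat_lit 514) (nat_lit 400) (nat_lit 286)) (XT.lf (nat_lit 0) (nat_lit 1836634564586) (nat_lit 76) (nat_lit 886753428926) (nat_lit 76) (nat_lit 879937753446) (nat_lit 1) (nat_lit 4) (nat_lit 2) (nat_lit 5) (nat_lit 2) (nat_lit 4) (nat_lit 515) (nat_lit 400) (nat_lit 285)))) (XT.nd (nat_lit 78) (nat_lit 0) (nat_lit 0) (XT.lf (nat_lit 0) (nat_lit 2068488856457) (nat_lit 76) (nat_lit 913315629826) (nat_lit 76) (nat_lit 906499881985) (nat_lit 1) (nat_lit 4) (nat_lit 2) (nat_lit 5) (nat_lit 2) (nat_lit 4) (nat_lit 516) (nat_lit 400) (nat_lit 284)) (XT.nd (nat_lit 78) (nat_lit 0) (nat_lit 0) (XT.lf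 (nat_lit 0) (nat_lit 2318889755949) (nat_lit 76) (nat_lit 942003702684) (nat_lit 76) (nat_lit 935187887842) (nat_lit 1) (nat_lit 4) (nat_lit 2) (nat_lit 5) (nat_lit 2) (nat_lit 4) (nat_lit 517) (nat_lit 400) (nat_lit 283)) (XT.lf (nat_lit 0) (nat_lit 2589321120243) (nat_lit 76) (nat_lit 972987650894) (nat_lit 76) (nat_lit 966171774014) (nat_lit 1) (nat_lit 4) (nat_lit 2) (nat_lit 5) (nat_lit 2) (nat_lit 4) (nat_lit 518) (nat_lit 400) (nat_lit 282))))) (XT.nd (nat_lit 234) (nat_lit 0) (nat_lit 0) (XT.nd (nat_lit 78) (nat_lit 0) (nat_lit 0) (XT.lf (nat_lit 0) (nat_lit 2881385505573) (nat_lit 76) (nat_lit 1006451083039) (nat_lit 76) (nat_lit 999635148716) (nat_lit 1) (nat_lit 4) (nat_lit 2) (nat_lit 5) (nat_lit 2) (nat_lit 4) (nat_lit 519) (nat_lit 400) (nat_lit 281)) (XT.nd (nat_lit 78) (nat_lit 0) (nat_lit 0) (XT.lf (nat_lit 0) (nat_lit 3196813663850) (nat_lit 76) (nat_lit 1042592300939)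 (nat_lit 76) (nat_lit 1035776313428) (nat_lit 1) (nat_lit 4) (nat_lit 2) (nat_lit 5) (nat_lit 2) (nat_lit 4) (nat_lit 520) (nat_lit 400) (nat_lit 280)) (XT.lf (nat_lit 0) (nat_lit 3537474798976) (nat_lit 76) (nat_lit 1081625474773) (nat_lit 76) (nat_lit 1074809438015) (nat_lit 1) (nat_lit 4) (nat_lit 2) (nat_lit 5) (nat_lit 2) (nat_lit 4) (nat_lit 521) (nat_lit 400) (nat_lit 279)))) (XT.nd (nat_lit 78) (nat_lit 0) (nat_lit 0) (XT.lf (nat_lit 0) (nat_lit 3905387643604) (nat_lit 76) (nat_lit 1123781912239) (nat_lit 76) (nat_lit 1116965829882) (nat_lit 1) (nat_lit 4) (nat_lit 2) (nat_lit 5) (nat_lit 2) (nat_lit 4) (nat_lit 522) (nat_lit 400) (nat_lit 278)) (XT.nd (nat_lit 78) (nat_lit 0) (nat_lit 0) (XT.lf (nat_lit 0) (nat_lit 4302732421998) (nat_lit 76) (nat_lit 1169311429263) (nat_lit 76) (nat_lit 1162495304683) (nat_lit 1) (nat_lit 4) (nat_lit 2) (nat_lit 5) (nat_lit 2) (nat_lit 4) (nat_lit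 523) (nat_lit 400) (nat_lit 277)) (XT.lf (nat_lit 0) (nat_lit 4731863769881) (nat_lit 76) (nat_lit 1218483830389) (nat_lit 76) (nat_lit 1211667666715) (nat_lit 1) (nat_lit 4) (nat_lit 2) (nat_lit 5) (nat_lit 2) (nat_lit 4) (nat_lit 524) (nat_lit 400) (nat_lit 276)))))) (XT.nd (nat_lit 468) (nat_lit 0) (nat_lit 0) (XT.nd (nat_lit 234) (nat_lit 0) (nat_lit 0) (XT.nd (nat_lit 78) (nat_lit 0) (nat_lit 0) (XT.lf (nat_lit 0) (nat_lit 5195324687835) (nat_lit 76) (nat_lit 1271590507625) (nat_lit 76) (nat_lit 1264774307752) (nat_lit 1) (nat_lit 4) (nat_lit 2) (nat_lit 5) (nat_lit 2) (nat_lit 4) (nat_lit 525) (nat_lit 400) (nat_lit 275)) (XT.nd (nat_lit 78) (nat_lit 0) (nat_lit 0) (XT.lf (nat_lit 0) (nat_lit 5695861610928) (nat_lit 76) (nat_lit 1328946167206) (nat_lit 76) (nat_lit 1322129933815) (nat_lit 1) (nat_lit 4) (nat_lit 2) (nat_lit 5) (nat_lit 2) (nat_lit 4) (nat_lit 526) (nat_lit 400) (nat_lit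 274)) (XT.lf (nat_lit 0) (nat_lit 6236440683890) (nat_lit 76) (nat_lit 1390890694521) (nat_lit 76) (nat_lit 1384074430097) (nat_lit 1) (nat_lit 4) (nat_lit 2) (nat_lit 5) (nat_lit 2) (nat_lit 4) (nat_lit 527) (nat_lit 400) (nat_lit 273)))) (XT.nd (nat_lit 78) (nat_lit 0) (nat_lit 0) (XT.lf (nat_lit 0) (nat_lit 6820265338264) (nat_lit 76) (nat_lit 1457791168252) (nat_lit 76) (nat_lit 1450974875092) (nat_lit 1) (nat_lit 4) (nat_lit 2) (nat_lit 5) (nat_lit 2) (nat_lit 4) (nat_lit 528) (nat_lit 400) (nat_lit 272)) (XT.nd (nat_lit 78) (nat_lit 0) (nat_lit 0) (XT.lf (nat_lit 0) (nat_lit 7450795275706) (nat_lit 76) (nat_lit 1530044035650) (nat_lit 76) (nat_lit 1523227715883) (nat_lit 1) (nat_lit 4) (nat_lit 2) (nat_lit 5) (nat_lit 2) (nat_lit 4) (nat_lit 529) (nat_lit 400) (nat_lit 271)) (XT.lf (nat_lit 0) (nat_lit 8131766969918) (nat_lit 76) (nat_lit 1608077461855) (nat_lit 76) (nat_lit 1601261117452)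 (nat_lit 1) (nat_lit 4) (nat_lit 2) (nat_lit 5) (nat_lit 2) (nat_lit 4) (nat_lit 530) (nat_lit 400) (nat_lit 270))))) (XT.nd (nat_lit 234) (nat_lit 0) (nat_lit 0) (XT.nd (nat_lit 78) (nat_lit 0) (nat_lit 0) (XT.lf (nat_lit 0) (nat_lit 8867215808720) (nat_lit 76) (nat_lit 1692353867171) (nat_lit 76) (nat_lit 1685537499957) (nat_lit 1) (nat_lit 4) (nat_lit 2) (nat_lit 5) (nat_lit 2) (nat_lit 4) (nat_lit 531) (nat_lit 400) (nat_lit 269)) (XT.nd (nat_lit 78) (nat_lit 0) (nat_lit 0) (XT.lf (nat_lit 0) (nat_lit 9661500007451) (nat_lit 76) (nat_lit 1783372667333) (nat_lit 76) (nat_lit 1776556278997) (nat_lit 1) (nat_lit 4) (nat_lit 2) (nat_lit 5) (nat_lit 2) (nat_lit 4) (nat_lit 532) (nat_lit 400) (nat_lit 268)) (XT.lf (nat_lit 0) (nat_lit 10519326435438) (nat_lit 76) (nat_lit 1881673233009) (nat_lit 76) (nat_lit 1874856825115) (nat_lit 1) (nat_lit 4) (nat_lit 2) (nat_lit 5) (nat_lit 2) (nat_lit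 4) (nat_lit 533) (nat_lit 400) (nat_lit 267)))) (XT.nd (nat_lit 52104) (nat_lit 0) (nat_lit 7600) (XT.nd (nat_lit 78) (nat_lit 0) (nat_lit 0) (XT.lf (nat_lit 0) (nat_lit 11445778508550) (nat_lit 76) (nat_lit 1987838086068) (nat_lit 76) (nat_lit 1981021660067) (nat_lit 1) (nat_lit 4) (nat_lit 2) (nat_lit 5) (nat_lit 2) (nat_lit 4) (nat_lit 534) (nat_lit 400) (nat_lit 266)) (XT.lf (nat_lit 0) (nat_lit 12446346313146) (nat_lit 76) (nat_lit 2102496351567) (nat_lit 76) (nat_lit 2095679908798) (nat_lit 1) (nat_lit 4) (nat_lit 2) (nat_lit 5) (nat_lit 2) (nat_lit 4) (nat_lit 535) (nat_lit 400) (nat_lit 265))) (XT.nd (nat_lit 78) (nat_lit 228) (nat_lit 0) (XT.lf (nat_lit 0) (nat_lit 1522890596) (nat_lit 0) (nat_lit 1522890596) (nat_lit 76) (nat_lit 188045338) (nat_lit 104) (nat_lit 5) (nat_lit 104) (nat_lit 3) (nat_lit 105) (nat_lit 0) (nat_lit 401) (nat_lit 401) (nat_lit 398)) (XT.lf (nat_lit 0)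 (nat_lit 2374740482) (nat_lit 228) (nat_lit 198402891) (nat_lit 228) (nat_lit 3933096858) (nat_lit 101) (nat_lit 3) (nat_lit 104) (nat_lit 3) (nat_lit 104) (nat_lit 5) (nat_lit 402) (nat_lit 401) (nat_lit 397))))))))
noncomputable def xc95 : XT := (XT.nd (nat_lit 1950) (nat_lit 1900) (nat_lit 0) (XT.nd (nat_lit 936) (nat_lit 1596) (nat_lit 0) (XT.nd (nat_lit 468) (nat_lit 1672) (nat_lit 0) (XT.nd (nat_lit 234) (nat_lit 532) (nat_lit 0) (XT.nd (nat_lit 78) (nat_lit 228) (nat_lit 0) (XT.lf (nat_lit 76) (nat_lit 3289288160) (nat_lit 0) (nat_lit 1840375803) (nat_lit 228) (nat_lit 1433238103) (nat_lit 102) (nat_lit 5) (nat_lit 101) (nat_lit 3) (nat_lit 104) (nat_lit 5) (nat_lit 403) (nat_lit 401) (nat_lit 396)) (XT.nd (nat_lit 78) (nat_lit 0) (nat_lit 76) (XT.lf (nat_lit 76) (nat_lit 262267590) (nat_lit 0) (nat_lit 891719532) (nat_lit 304) (nat_lit 5487585985) (nat_lit 99) (nat_lit 5) (nat_lit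 98) (nat_lit 5) (nat_lit 102) (nat_lit 5) (nat_lit 404) (nat_lit 401) (nat_lit 395)) (XT.lf (nat_lit 0) (nat_lit 3719243160) (nat_lit 228) (nat_lit 2671883999) (nat_lit 76) (nat_lit 344646392) (nat_lit 99) (nat_lit 5) (nat_lit 102) (nat_lit 5) (nat_lit 100) (nat_lit 5) (nat_lit 405) (nat_lit 401) (nat_lit 394)))) (XT.nd (nat_lit 78) (nat_lit 380) (nat_lit 0) (XT.lf (nat_lit 0) (nat_lit 1205424288) (nat_lit 228) (nat_lit 5108168798) (nat_lit 304) (nat_lit 538092878) (nat_lit 96) (nat_lit 5) (nat_lit 99) (nat_lit 5) (nat_lit 100) (nat_lit 5) (nat_lit 406) (nat_lit 401) (nat_lit 393)) (XT.nd (nat_lit 78) (nat_lit 304) (nat_lit 0) (XT.lf (nat_lit 0) (nat_lit 1885713603) (nat_lit 304) (nat_lit 1650890838) (nat_lit 76) (nat_lit 3447899675) (nat_lit 95) (nat_lit 5) (nat_lit 99) (nat_lit 5) (nat_lit 96) (nat_lit 5) (nat_lit 407) (nat_lit 401) (nat_lit 392)) (XT.lf (nat_lit 0) (nat_lit 2622621763)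 (nat_lit 304) (nat_lit 1710291920) (nat_lit 380) (nat_lit 2805299229) (nat_lit 91) (nat_lit 5) (nat_lit 95) (nat_lit 5) (nat_lit 96) (nat_lit 5) (nat_lit 408) (nat_lit 401) (nat_lit 391))))) (XT.nd (nat_lit 234) (nat_lit 760) (nat_lit 0) (XT.nd (nat_lit 78) (nat_lit 912) (nat_lit 0) (XT.lf (nat_lit 0) (nat_lit 6836342958) (nat_lit 380) (nat_lit 147302000) (nat_lit 76) (nat_lit 331800268) (nat_lit 91) (nat_lit 5) (nat_lit 96) (nat_lit 5) (nat_lit 92) (nat_lit 5) (nat_lit 409) (nat_lit 401) (nat_lit 390)) (XT.nd (nat_lit 78) (nat_lit 456) (nat_lit 0) (XT.lf (nat_lit 0) (nat_lit 1907898305) (nat_lit 456) (nat_lit 2959479593) (nat_lit 76) (nat_lit 2637507135) (nat_lit 85) (nat_lit 5) (nat_lit 91) (nat_lit 5) (nat_lit 86) (nat_lit 5) (nat_lit 410) (nat_lit 401) (nat_lit 389)) (XT.lf (nat_lit 0) (nat_lit 1828058654) (nat_lit 456) (nat_lit 2507124487) (nat_lit 532) (nat_lit 3383334757) (nat_lit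 79) (nat_lit 5) (nat_lit 85) (nat_lit 5) (nat_lit 86) (nat_lit 5) (nat_lit 411) (nat_lit 401) (nat_lit 388)))) (XT.nd (nat_lit 78) (nat_lit 760) (nat_lit 0) (XT.lf (nat_lit 0) (nat_lit 6876869415) (nat_lit 532) (nat_lit 951684449) (nat_lit 76) (nat_lit 127116393) (nat_lit 79) (nat_lit 5) (nat_lit 86) (nat_lit 5) (nat_lit 80) (nat_lit 5) (nat_lit 412) (nat_lit 401) (nat_lit 387)) (XT.nd (nat_lit 78) (nat_lit 228) (nat_lit 0) (XT.lf (nat_lit 0) (nat_lit 1358690836) (nat_lit 532) (nat_lit 3868679755) (nat_lit 76) (nat_lit 2980220232) (nat_lit 72) (nat_lit 5) (nat_lit 79) (nat_lit 5) (nat_lit 73) (nat_lit 5) (nat_lit 413) (nat_lit 401) (nat_lit 386)) (XT.lf (nat_lit 0) (nat_lit 1512561273) (nat_lit 228) (nat_lit 2335439251) (nat_lit 304) (nat_lit 4636251489) (nat_lit 69) (nat_lit 5) (nat_lit 72) (nat_lit 5) (nat_lit 73) (nat_lit 5) (nat_lit 414) (nat_lit 401) (nat_lit 385)))))) (XT.nd (nat_lit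 468) (nat_lit 684) (nat_lit 0) (XT.nd (nat_lit 234) (nat_lit 456) (nat_lit 0) (XT.nd (nat_lit 78) (nat_lit 456) (nat_lit 0) (XT.lf (nat_lit 0) (nat_lit 6522628544) (nat_lit 304) (nat_lit 1422370504) (nat_lit 76) (nat_lit 839187243) (nat_lit 69) (nat_lit 5) (nat_lit 73) (nat_lit 5) (nat_lit 70) (nat_lit 5) (nat_lit 415) (nat_lit 401) (nat_lit 384)) (XT.nd (nat_lit 78) (nat_lit 152) (nat_lit 0) (XT.lf (nat_lit 0) (nat_lit 328975781) (nat_lit 304) (nat_lit 4531632445) (nat_lit 76) (nat_lit 4243670937) (nat_lit 65) (nat_lit 5) (nat_lit 69) (nat_lit 5) (nat_lit 66) (nat_lit 5) (nat_lit 416) (nat_lit 401) (nat_lit 383)) (XT.lf (nat_lit 0) (nat_lit 1537905025) (nat_lit 152) (nat_lit 1415441611) (nat_lit 228) (nat_lit 6496058337) (nat_lit 63) (nat_lit 5) (nat_lit 65) (nat_lit 5) (nat_lit 66) (nat_lit 5) (nat_lit 417) (nat_lit 401) (nat_lit 382)))) (XT.nd (nat_lit 78) (nat_lit 456) (nat_lit 0) (XT.lf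 (nat_lit 0) (nat_lit 5847027618) (nat_lit 228) (nat_lit 1685661081) (nat_lit 76) (nat_lit 2284728358) (nat_lit 63) (nat_lit 5) (nat_lit 66) (nat_lit 5) (nat_lit 64) (nat_lit 5) (nat_lit 418) (nat_lit 401) (nat_lit 381)) (XT.nd (nat_lit 78) (nat_lit 228) (nat_lit 0) (XT.lf (nat_lit 0) (nat_lit 5103544780) (nat_lit 228) (nat_lit 3914085517) (nat_lit 304) (nat_lit 1193628824) (nat_lit 60) (nat_lit 5) (nat_lit 63) (nat_lit 5) (nat_lit 64) (nat_lit 5) (nat_lit 419) (nat_lit 401) (nat_lit 380)) (XT.lf (nat_lit 0) (nat_lit 1695475792) (nat_lit 228) (nat_lit 8848785206) (nat_lit 76) (nat_lit 90453269) (nat_lit 57) (nat_lit 5) (nat_lit 60) (nat_lit 5) (nat_lit 58) (nat_lit 5) (nat_lit 420) (nat_lit 401) (nat_lit 379))))) (XT.nd (nat_lit 234) (nat_lit 304) (nat_lit 0) (XT.nd (nat_lit 78) (nat_lit 380) (nat_lit 0) (XT.lf (nat_lit 0) (nat_lit 4887696315) (nat_lit 228) (nat_lit 1854526224) (nat_lit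 76) (nat_lit 4336443468) (nat_lit 57) (nat_lit 5) (nat_lit 60) (nat_lit 5) (nat_lit 58) (nat_lit 5) (nat_lit 421) (nat_lit 401) (nat_lit 378)) (XT.nd (nat_lit 78) (nat_lit 228) (nat_lit 0) (XT.lf (nat_lit 0) (nat_lit 5844508327) (nat_lit 152) (nat_lit 2530910236) (nat_lit 228) (nat_lit 3179522443) (nat_lit 55) (nat_lit 5) (nat_lit 57) (nat_lit 5) (nat_lit 58) (nat_lit 5) (nat_lit 422) (nat_lit 401) (nat_lit 377)) (XT.lf (nat_lit 0) (nat_lit 124166755) (nat_lit 228) (nat_lit 9963051227) (nat_lit 76) (nat_lit 1977576894) (nat_lit 52) (nat_lit 5) (nat_lit 55) (nat_lit 5) (nat_lit 53) (nat_lit 5) (nat_lit 423) (nat_lit 401) (nat_lit 376)))) (XT.nd (nat_lit 156) (nat_lit 152) (nat_lit 0) (XT.nd (nat_lit 78) (nat_lit 152) (nat_lit 0) (XT.lf (nat_lit 0) (nat_lit 3649985424) (nat_lit 228) (nat_lit 2042969252) (nat_lit 76) (nat_lit 6905520221) (nat_lit 52) (nat_lit 5) (nat_lit 55) (nat_lit 5) (nat_lit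 53) (nat_lit 5) (nat_lit 424) (nat_lit 401) (nat_lit 375)) (XT.lf (nat_lit 0) (nat_lit 6706096519) (nat_lit 152) (nat_lit 823873778) (nat_lit 228) (nat_lit 5639123495) (nat_lit 50) (nat_lit 5) (nat_lit 52) (nat_lit 5) (nat_lit 53) (nat_lit 5) (nat_lit 425) (nat_lit 401) (nat_lit 374))) (XT.nd (nat_lit 78) (nat_lit 76) (nat_lit 0) (XT.lf (nat_lit 0) (nat_lit 2358027580) (nat_lit 76) (nat_lit 9495923869) (nat_lit 152) (nat_lit 1920734552) (nat_lit 49) (nat_lit 5) (nat_lit 50) (nat_lit 5) (nat_lit 51) (nat_lit 4) (nat_lit 426) (nat_lit 401) (nat_lit 373)) (XT.lf (nat_lit 0) (nat_lit 2106865756) (nat_lit 152) (nat_lit 2381825159) (nat_lit 76) (nat_lit 9926689837) (nat_lit 48) (nat_lit 5) (nat_lit 50) (nat_lit 5) (nat_lit 49) (nat_lit 5) (nat_lit 427) (nat_lit 401) (nat_lit 372))))))) (XT.nd (nat_lit 1014) (nat_lit 836) (nat_lit 0) (XT.nd (nat_lit 468) (nat_lit 532) (nat_lit 0) (XT.nd (nat_lit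 234) (nat_lit 228) (nat_lit 0) (XT.nd (nat_lit 78) (nat_lit 152) (nat_lit 0) (XT.lf (nat_lit 0) (nat_lit 6482106031) (nat_lit 228) (nat_lit 7549874884) (nat_lit 76) (nat_lit 1061032123) (nat_lit 46) (nat_lit 5) (nat_lit 49) (nat_lit 5) (nat_lit 47) (nat_lit 4) (nat_lit 428) (nat_lit 401) (nat_lit 371)) (XT.nd (nat_lit 78) (nat_lit 76) (nat_lit 0) (XT.lf (nat_lit 0) (nat_lit 2447985351) (nat_lit 76) (nat_lit 8923433989) (nat_lit 152) (nat_lit 4440320788) (nat_lit 45) (nat_lit 5) (nat_lit 46) (nat_lit 5) (nat_lit 47) (nat_lit 4) (nat_lit 429) (nat_lit 401) (nat_lit 370)) (XT.lf (nat_lit 0) (nat_lit 194959846) (nat_lit 152) (nat_lit 3038104164) (nat_lit 76) (nat_lit 13344046144) (nat_lit 44) (nat_lit 5) (nat_lit 46) (nat_lit 5) (nat_lit 45) (nat_lit 5) (nat_lit 430) (nat_lit 401) (nat_lit 369)))) (XT.nd (nat_lit 78) (nat_lit 76) (nat_lit 0) (XT.lf (nat_lit 0) (nat_lit 5165642828) (nat_lit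 228) (nat_lit 9173176346) (nat_lit 76) (nat_lit 3039312934) (nat_lit 42) (nat_lit 5) (nat_lit 45) (nat_lit 5) (nat_lit 43) (nat_lit 4) (nat_lit 431) (nat_lit 401) (nat_lit 368)) (XT.nd (nat_lit 78) (nat_lit 0) (nat_lit 0) (XT.lf (nat_lit 0) (nat_lit 2180647007) (nat_lit 76) (nat_lit 8504314763) (nat_lit 152) (nat_lit 7546201809) (nat_lit 41) (nat_lit 5) (nat_lit 42) (nat_lit 5) (nat_lit 43) (nat_lit 4) (nat_lit 432) (nat_lit 401) (nat_lit 367)) (XT.lf (nat_lit 0) (nat_lit 14841697387) (nat_lit 76) (nat_lit 1986557856) (nat_lit 152) (nat_lit 2309593807) (nat_lit 41) (nat_lit 5) (nat_lit 42) (nat_lit 5) (nat_lit 43) (nat_lit 4) (nat_lit 433) (nat_lit 401) (nat_lit 366))))) (XT.nd (nat_lit 234) (nat_lit 304) (nat_lit 0) (XT.nd (nat_lit 78) (nat_lit 76) (nat_lit 0) (XT.lf (nat_lit 0) (nat_lit 3448963810) (nat_lit 152) (nat_lit 11594124619) (nat_lit 76) (nat_lit 5045916417) (nat_lit 39) (nat_lit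 5) (nat_lit 41) (nat_lit 5) (nat_lit 40) (nat_lit 4) (nat_lit 434) (nat_lit 401) (nat_lit 365)) (XT.nd (nat_lit 78) (nat_lit 0) (nat_lit 0) (XT.lf (nat_lit 0) (nat_lit 1278019420) (nat_lit 76) (nat_lit 8404128258) (nat_lit 152) (nat_lit 11418213304) (nat_lit 38) (nat_lit 5) (nat_lit 39) (nat_lit 5) (nat_lit 40) (nat_lit 4) (nat_lit 435) (nat_lit 401) (nat_lit 364)) (XT.lf (nat_lit 0) (nat_lit 15724351309) (nat_lit 76) (nat_lit 944493684) (nat_lit 152) (nat_lit 5503396183) (nat_lit 38) (nat_lit 5) (nat_lit 39) (nat_lit 5) (nat_lit 40) (nat_lit 4) (nat_lit 436) (nat_lit 401) (nat_lit 363)))) (XT.nd (nat_lit 156) (nat_lit 152) (nat_lit 0) (XT.nd (nat_lit 78) (nat_lit 0) (nat_lit 0) (XT.lf (nat_lit 0) (nat_lit 1155997761) (nat_lit 152) (nat_lit 15212630713) (nat_lit 76) (nat_lit 6934293540) (nat_lit 36) (nat_lit 5) (nat_lit 38) (nat_lit 5) (nat_lit 37) (nat_lit 4) (nat_lit 437) (nat_lit 401)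 (nat_lit 362)) (XT.lf (nat_lit 0) (nat_lit 8197798791) (nat_lit 152) (nat_lit 633952972) (nat_lit 76) (nat_lit 15669114762) (nat_lit 36) (nat_lit 5) (nat_lit 38) (nat_lit 5) (nat_lit 37) (nat_lit 4) (nat_lit 438) (nat_lit 401) (nat_lit 361))) (XT.nd (nat_lit 78) (nat_lit 76) (nat_lit 0) (XT.lf (nat_lit 0) (nat_lit 15799360730) (nat_lit 76) (nat_lit 329459784) (nat_lit 152) (nat_lit 9639759088) (nat_lit 35) (nat_lit 5) (nat_lit 36) (nat_lit 5) (nat_lit 37) (nat_lit 4) (nat_lit 439) (nat_lit 401) (nat_lit 360)) (XT.lf (nat_lit 0) (nat_lit 6454066670) (nat_lit 76) (nat_lit 18572565420) (nat_lit 76) (nat_lit 2084495890) (nat_lit 34) (nat_lit 4) (nat_lit 35) (nat_lit 5) (nat_lit 35) (nat_lit 4) (nat_lit 440) (nat_lit 401) (nat_lit 359)))))) (XT.nd (nat_lit 468) (nat_lit 456) (nat_lit 0) (XT.nd (nat_lit 234) (nat_lit 152) (nat_lit 0) (XT.nd (nat_lit 78) (nat_lit 152) (nat_lit 0) (XT.lf (nat_lit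 0) (nat_lit 6006099301) (nat_lit 152) (nat_lit 4045562295) (nat_lit 76) (nat_lit 18478947129) (nat_lit 33) (nat_lit 5) (nat_lit 35) (nat_lit 5) (nat_lit 34) (nat_lit 4) (nat_lit 441) (nat_lit 401) (nat_lit 358)) (XT.nd (nat_lit 78) (nat_lit 76) (nat_lit 0) (XT.lf (nat_lit 0) (nat_lit 14469425954) (nat_lit 76) (nat_lit 460447663) (nat_lit 152) (nat_lit 15105561325) (nat_lit 32) (nat_lit 5) (nat_lit 33) (nat_lit 5) (nat_lit 34) (nat_lit 4) (nat_lit 442) (nat_lit 401) (nat_lit 357)) (XT.lf (nat_lit 0) (nat_lit 2850072744) (nat_lit 76) (nat_lit 22088472509) (nat_lit 76) (nat_lit 6692424505) (nat_lit 31) (nat_lit 4) (nat_lit 32) (nat_lit 5) (nat_lit 32) (nat_lit 4) (nat_lit 443) (nat_lit 401) (nat_lit 356)))) (XT.nd (nat_lit 78) (nat_lit 76) (nat_lit 0) (XT.lf (nat_lit 0) (nat_lit 2673708056) (nat_lit 152) (nat_lit 9871618539) (nat_lit 76) (nat_lit 20772241747) (nat_lit 30) (nat_lit 5) (nat_lit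 32) (nat_lit 5) (nat_lit 31) (nat_lit 4) (nat_lit 444) (nat_lit 401) (nat_lit 355)) (XT.nd (nat_lit 78) (nat_lit 0) (nat_lit 0) (XT.lf (nat_lit 0) (nat_lit 10829777182) (nat_lit 76) (nat_lit 1812943815) (nat_lit 152) (nat_lit 22465256811) (nat_lit 29) (nat_lit 5) (nat_lit 30) (nat_lit 5) (nat_lit 31) (nat_lit 4) (nat_lit 445) (nat_lit 401) (nat_lit 354)) (XT.lf (nat_lit 0) (nat_lit 23876296294) (nat_lit 152) (nat_lit 3602317532) (nat_lit 0) (nat_lit 9525644467) (nat_lit 29) (nat_lit 5) (nat_lit 31) (nat_lit 4) (nat_lit 29) (nat_lit 4) (nat_lit 446) (nat_lit 401) (nat_lit 353))))) (XT.nd (nat_lit 234) (nat_lit 228) (nat_lit 0) (XT.nd (nat_lit 78) (nat_lit 152) (nat_lit 0) (XT.lf (nat_lit 0) (nat_lit 19577669673) (nat_lit 76) (nat_lit 16907118356) (nat_lit 76) (nat_lit 2529356208) (nat_lit 28) (nat_lit 4) (nat_lit 29) (nat_lit 5) (nat_lit 29) (nat_lit 4) (nat_lit 447) (nat_lit 401) (nat_lit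 352)) (XT.nd (nat_lit 78) (nat_lit 0) (nat_lit 0) (XT.lf (nat_lit 0) (nat_lit 3516535803) (nat_lit 76) (nat_lit 5098560398) (nat_lit 152) (nat_lit 32541047148) (nat_lit 26) (nat_lit 5) (nat_lit 27) (nat_lit 5) (nat_lit 28) (nat_lit 4) (nat_lit 448) (nat_lit 401) (nat_lit 351)) (XT.lf (nat_lit 0) (nat_lit 21202378332) (nat_lit 152) (nat_lit 14361963627) (nat_lit 0) (nat_lit 7844871824) (nat_lit 26) (nat_lit 5) (nat_lit 28) (nat_lit 4) (nat_lit 26) (nat_lit 4) (nat_lit 449) (nat_lit 401) (nat_lit 350)))) (XT.nd (nat_lit 156) (nat_lit 76) (nat_lit 0) (XT.nd (nat_lit 78) (nat_lit 76) (nat_lit 0) (XT.lf (nat_lit 0) (nat_lit 11125586517) (nat_lit 76) (nat_lit 24032722272) (nat_lit 76) (nat_lit 10655288868) (nat_lit 25) (nat_lit 4) (nat_lit 26) (nat_lit 5) (nat_lit 26) (nat_lit 4) (nat_lit 450) (nat_lit 401) (nat_lit 349)) (XT.lf (nat_lit 0) (nat_lit 2093943421) (nat_lit 152) (nat_lit 9040481916)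 (nat_lit 76) (nat_lit 37243235415) (nat_lit 24) (nat_lit 5) (nat_lit 26) (nat_lit 5) (nat_lit 25) (nat_lit 4) (nat_lit 451) (nat_lit 401) (nat_lit 348))) (XT.nd (nat_lit 78) (nat_lit 0) (nat_lit 0) (XT.lf (nat_lit 0) (nat_lit 15801220865) (nat_lit 152) (nat_lit 31900580761) (nat_lit 0) (nat_lit 3381805741) (nat_lit 23) (nat_lit 5) (nat_lit 25) (nat_lit 4) (nat_lit 23) (nat_lit 4) (nat_lit 452) (nat_lit 401) (nat_lit 347)) (XT.lf (nat_lit 0) (nat_lit 31112598731) (nat_lit 152) (nat_lit 4174293566) (nat_lit 0) (nat_lit 18678536743) (nat_lit 23) (nat_lit 5) (nat_lit 25) (nat_lit 4) (nat_lit 23) (nat_lit 4) (nat_lit 453) (nat_lit 401) (nat_lit 346))))))))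
noncomputable def xc96 : XT := (XT.nd (nat_lit 1950) (nat_lit 456) (nat_lit 0) (XT.nd (nat_lit 936) (nat_lit 532) (nat_lit 0) (XT.nd (nat_lit 468) (nat_lit 228) (nat_lit 0) (XT.nd (nat_lit 234) (nat_lit 228) (nat_lit 0) (XT.nd (nat_lit 78) (nat_lit 152) (nat_lit 0) (XT.lf (nat_lit 0) (nat_lit 27057932569) (nat_lit 76) (nat_lit 21209021558) (nat_lit 76) (nat_lit 8761397660) (nat_lit 22) (nat_lit 4) (nat_lit 23) (nat_lit 5) (nat_lit 23) (nat_lit 4) (nat_lit 454) (nat_lit 401) (nat_lit 345)) (XT.nd (nat_lit 78) (nat_lit 0) (nat_lit 0) (XT.lf (nat_lit 0) (nat_lit 499933293) (nat_lit 76) (nat_lit 5730890993) (nat_lit 152) (nat_lit 54085340941) (nat_lit 20) (nat_lit 5) (nat_lit 21) (nat_lit 5) (nat_lit 22) (nat_lit 4) (nat_lit 455) (nat_lit 401) (nat_lit 344)) (XT.lf (nat_lit 0) (nat_lit 23021484663) (nat_lit 152) (nat_lit 29268007911) (nat_lit 0) (nat_lit 11473513946) (nat_lit 20) (nat_lit 5)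 (nat_lit 22) (nat_lit 4) (nat_lit 20) (nat_lit 4) (nat_lit 456) (nat_lit 401) (nat_lit 343)))) (XT.nd (nat_lit 78) (nat_lit 152) (nat_lit 0) (XT.lf (nat_lit 0) (nat_lit 3699288210) (nat_lit 76) (nat_lit 37663815067) (nat_lit 76) (nat_lit 26105875941) (nat_lit 19) (nat_lit 4) (nat_lit 20) (nat_lit 5) (nat_lit 20) (nat_lit 4) (nat_lit 457) (nat_lit 401) (nat_lit 342)) (XT.nd (nat_lit 78) (nat_lit 152) (nat_lit 0) (XT.lf (nat_lit 0) (nat_lit 40909024596) (nat_lit 76) (nat_lit 21033950436) (nat_lit 76) (nat_lit 9466781301) (nat_lit 19) (nat_lit 4) (nat_lit 20) (nat_lit 5) (nat_lit 20) (nat_lit 4) (nat_lit 458) (nat_lit 401) (nat_lit 341)) (XT.lf (nat_lit 0) (nat_lit 5440907689) (nat_lit 76) (nat_lit 2740161121) (nat_lit 152) (nat_lit 67460126239) (nat_lit 17) (nat_lit 5) (nat_lit 18) (nat_lit 5) (nat_lit 19) (nat_lit 4) (nat_lit 459) (nat_lit 401) (nat_lit 340))))) (XT.nd (nat_lit 234) (nat_lit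 152) (nat_lit 0) (XT.nd (nat_lit 78) (nat_lit 76) (nat_lit 0) (XT.lf (nat_lit 0) (nat_lit 27966378579) (nat_lit 152) (nat_lit 34885336279) (nat_lit 0) (nat_lit 17240796465) (nat_lit 17) (nat_lit 5) (nat_lit 19) (nat_lit 4) (nat_lit 17) (nat_lit 4) (nat_lit 460) (nat_lit 401) (nat_lit 339)) (XT.nd (nat_lit 78) (nat_lit 0) (nat_lit 0) (XT.lf (nat_lit 0) (nat_lit 3296143655) (nat_lit 76) (nat_lit 46163089236) (nat_lit 76) (nat_lit 35430722791) (nat_lit 16) (nat_lit 4) (nat_lit 17) (nat_lit 5) (nat_lit 17) (nat_lit 4) (nat_lit 461) (nat_lit 401) (nat_lit 338)) (XT.lf (nat_lit 0) (nat_lit 46465047390) (nat_lit 76) (nat_lit 27135247222) (nat_lit 76) (nat_lit 16396598988) (nat_lit 16) (nat_lit 4) (nat_lit 17) (nat_lit 5) (nat_lit 17) (nat_lit 4) (nat_lit 462) (nat_lit 401) (nat_lit 337)))) (XT.nd (nat_lit 78) (nat_lit 76) (nat_lit 0) (XT.lf (nat_lit 0) (nat_lit 3928346775) (nat_lit 152) (nat_lit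 2573503411) (nat_lit 76) (nat_lit 89004435927) (nat_lit 15) (nat_lit 5) (nat_lit 17) (nat_lit 5) (nat_lit 16) (nat_lit 4) (nat_lit 463) (nat_lit 401) (nat_lit 336)) (XT.nd (nat_lit 78) (nat_lit 0) (nat_lit 0) (XT.lf (nat_lit 0) (nat_lit 26431375443) (nat_lit 152) (nat_lit 58398139315) (nat_lit 0) (nat_lit 16477810326) (nat_lit 14) (nat_lit 5) (nat_lit 16) (nat_lit 4) (nat_lit 14) (nat_lit 4) (nat_lit 464) (nat_lit 401) (nat_lit 335)) (XT.lf (nat_lit 0) (nat_lit 50953726373) (nat_lit 152) (nat_lit 15605650692) (nat_lit 0) (nat_lit 40995543954) (nat_lit 14) (nat_lit 5) (nat_lit 16) (nat_lit 4) (nat_lit 14) (nat_lit 4) (nat_lit 465) (nat_lit 401) (nat_lit 334)))))) (XT.nd (nat_lit 468) (nat_lit 228) (nat_lit 0) (XT.nd (nat_lit 234) (nat_lit 76) (nat_lit 0) (XT.nd (nat_lit 78) (nat_lit 152) (nat_lit 0) (XT.lf (nat_lit 0) (nat_lit 32178283127) (nat_lit 76) (nat_lit 46013108660) (nat_lit 76)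 (nat_lit 36050650961) (nat_lit 13) (nat_lit 4) (nat_lit 14) (nat_lit 5) (nat_lit 14) (nat_lit 4) (nat_lit 466) (nat_lit 401) (nat_lit 333)) (XT.nd (nat_lit 78) (nat_lit 152) (nat_lit 0) (XT.lf (nat_lit 0) (nat_lit 84631851125) (nat_lit 76) (nat_lit 23383075547) (nat_lit 76) (nat_lit 13416659256) (nat_lit 13) (nat_lit 4) (nat_lit 14) (nat_lit 5) (nat_lit 14) (nat_lit 4) (nat_lit 467) (nat_lit 401) (nat_lit 332)) (XT.lf (nat_lit 0) (nat_lit 10795405654) (nat_lit 152) (nat_lit 116790298796) (nat_lit 0) (nat_lit 1563848566) (nat_lit 11) (nat_lit 5) (nat_lit 13) (nat_lit 4) (nat_lit 11) (nat_lit 4) (nat_lit 468) (nat_lit 401) (nat_lit 331)))) (XT.nd (nat_lit 78) (nat_lit 76) (nat_lit 0) (XT.lf (nat_lit 0) (nat_lit 37840434662) (nat_lit 152) (nat_lit 70881241331) (nat_lit 0) (nat_lit 28605735116) (nat_lit 11) (nat_lit 5) (nat_lit 13) (nat_lit 4) (nat_lit 11) (nat_lit 4) (nat_lit 469) (nat_lit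 401) (nat_lit 330)) (XT.nd (nat_lit 78) (nat_lit 76) (nat_lit 0) (XT.lf (nat_lit 0) (nat_lit 67031649442) (nat_lit 152) (nat_lit 21335201672) (nat_lit 0) (nat_lit 57794040213) (nat_lit 11) (nat_lit 5) (nat_lit 13) (nat_lit 4) (nat_lit 11) (nat_lit 4) (nat_lit 470) (nat_lit 401) (nat_lit 329)) (XT.lf (nat_lit 0) (nat_lit 33833936892) (nat_lit 76) (nat_lit 65521805076) (nat_lit 76) (nat_lit 56281501695) (nat_lit 10) (nat_lit 4) (nat_lit 11) (nat_lit 5) (nat_lit 11) (nat_lit 4) (nat_lit 471) (nat_lit 401) (nat_lit 328))))) (XT.nd (nat_lit 234) (nat_lit 76) (nat_lit 0) (XT.nd (nat_lit 78) (nat_lit 152) (nat_lit 0) (XT.lf (nat_lit 0) (nat_lit 94597701392) (nat_lit 76) (nat_lit 40235695064) (nat_lit 76) (nat_lit 30992897099) (nat_lit 10) (nat_lit 4) (nat_lit 11) (nat_lit 5) (nat_lit 11) (nat_lit 4) (nat_lit 472) (nat_lit 401) (nat_lit 327)) (XT.nd (nat_lit 78) (nat_lit 152) (nat_lit 0) (XT.lf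 (nat_lit 0) (nat_lit 160192699482) (nat_lit 76) (nat_lit 12942019688) (nat_lit 76) (nat_lit 3696911922) (nat_lit 10) (nat_lit 4) (nat_lit 11) (nat_lit 5) (nat_lit 11) (nat_lit 4) (nat_lit 473) (nat_lit 401) (nat_lit 326)) (XT.lf (nat_lit 0) (nat_lit 25974927199) (nat_lit 152) (nat_lit 145161645900) (nat_lit 0) (nat_lit 17412661949) (nat_lit 8) (nat_lit 5) (nat_lit 10) (nat_lit 4) (nat_lit 8) (nat_lit 4) (nat_lit 474) (nat_lit 401) (nat_lit 325)))) (XT.nd (nat_lit 156) (nat_lit 76) (nat_lit 0) (XT.nd (nat_lit 78) (nat_lit 0) (nat_lit 0) (XT.lf (nat_lit 0) (nat_lit 58609894784) (nat_lit 152) (nat_lit 92477745955) (nat_lit 0) (nat_lit 50045795939) (nat_lit 8) (nat_lit 5) (nat_lit 10) (nat_lit 4) (nat_lit 8) (nat_lit 4) (nat_lit 475) (nat_lit 401) (nat_lit 324)) (XT.lf (nat_lit 0) (nat_lit 93842881810) (nat_lit 152) (nat_lit 35605429761) (nat_lit 0) (nat_lit 85277085194) (nat_lit 8) (nat_lit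 5) (nat_lit 10) (nat_lit 4) (nat_lit 8) (nat_lit 4) (nat_lit 476) (nat_lit 401) (nat_lit 323))) (XT.nd (nat_lit 78) (nat_lit 0) (nat_lit 0) (XT.lf (nat_lit 0) (nat_lit 27150501877) (nat_lit 76) (nat_lit 105385144696) (nat_lit 76) (nat_lit 96817776068) (nat_lit 7) (nat_lit 4) (nat_lit 8) (nat_lit 5) (nat_lit 8) (nat_lit 4) (nat_lit 477) (nat_lit 401) (nat_lit 322)) (XT.lf (nat_lit 0) (nat_lit 96928088876) (nat_lit 76) (nat_lit 78357733402) (nat_lit 76) (nat_lit 69788909207) (nat_lit 7) (nat_lit 4) (nat_lit 8) (nat_lit 5) (nat_lit 8) (nat_lit 4) (nat_lit 478) (nat_lit 401) (nat_lit 321))))))) (XT.nd (nat_lit 936) (nat_lit 228) (nat_lit 0) (XT.nd (nat_lit 468) (nat_lit 76) (nat_lit 0) (XT.nd (nat_lit 234) (nat_lit 0) (nat_lit 0) (XT.nd (nat_lit 78) (nat_lit 152) (nat_lit 0) (XT.lf (nat_lit 0) (nat_lit 172265909214) (nat_lit 76) (nat_lit 49179430799) (nat_lit 76) (nat_lit 40609258858) (nat_lit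 7) (nat_lit 4) (nat_lit 8) (nat_lit 5) (nat_lit 8) (nat_lit 4) (nat_lit 479) (nat_lit 401) (nat_lit 320)) (XT.nd (nat_lit 78) (nat_lit 152) (nat_lit 0) (XT.lf (nat_lit 0) (nat_lit 253610409232) (nat_lit 76) (nat_lit 17677328428) (nat_lit 76) (nat_lit 9105908574) (nat_lit 7) (nat_lit 4) (nat_lit 8) (nat_lit 5) (nat_lit 8) (nat_lit 4) (nat_lit 480) (nat_lit 401) (nat_lit 319)) (XT.lf (nat_lit 0) (nat_lit 25125949803) (nat_lit 152) (nat_lit 257721167880) (nat_lit 0) (nat_lit 17188380053) (nat_lit 5) (nat_lit 5) (nat_lit 7) (nat_lit 4) (nat_lit 5) (nat_lit 4) (nat_lit 481) (nat_lit 401) (nat_lit 318)))) (XT.nd (nat_lit 78) (nat_lit 0) (nat_lit 0) (XT.lf (nat_lit 0) (nat_lit 62805496286) (nat_lit 152) (nat_lit 203461256254) (nat_lit 0) (nat_lit 54866935903) (nat_lit 5) (nat_lit 5) (nat_lit 7) (nat_lit 4) (nat_lit 5) (nat_lit 4) (nat_lit 482) (nat_lit 401) (nat_lit 317)) (XT.nd (nat_lit 78) (nat_lit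 0) (nat_lit 0) (XT.lf (nat_lit 0) (nat_lit 103490722834) (nat_lit 152) (nat_lit 144878461115) (nat_lit 0) (nat_lit 95551245197) (nat_lit 5) (nat_lit 5) (nat_lit 7) (nat_lit 4) (nat_lit 5) (nat_lit 4) (nat_lit 483) (nat_lit 401) (nat_lit 316)) (XT.lf (nat_lit 0) (nat_lit 147422727086) (nat_lit 152) (nat_lit 81625625159) (nat_lit 0) (nat_lit 139482400140) (nat_lit 5) (nat_lit 5) (nat_lit 7) (nat_lit 4) (nat_lit 5) (nat_lit 4) (nat_lit 484) (nat_lit 401) (nat_lit 315))))) (XT.nd (nat_lit 234) (nat_lit 0) (nat_lit 0) (XT.nd (nat_lit 78) (nat_lit 76) (nat_lit 0) (XT.lf (nat_lit 0) (nat_lit 194861846845) (nat_lit 152) (nat_lit 13327916765) (nat_lit 0) (nat_lit 186920733502) (nat_lit 5) (nat_lit 5) (nat_lit 7) (nat_lit 4) (nat_lit 5) (nat_lit 4) (nat_lit 485) (nat_lit 401) (nat_lit 314)) (XT.nd (nat_lit 78) (nat_lit 0) (nat_lit 0) (XT.lf (nat_lit 0) (nat_lit 63600969296) (nat_lit 76) (nat_lit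 184017838366) (nat_lit 76) (nat_lit 176075996877) (nat_lit 4) (nat_lit 4) (nat_lit 5) (nat_lit 5) (nat_lit 5) (nat_lit 4) (nat_lit 486) (nat_lit 401) (nat_lit 313)) (XT.lf (nat_lit 0) (nat_lit 147428279531) (nat_lit 76) (nat_lit 157525738666) (nat_lit 76) (nat_lit 149583222969) (nat_lit 4) (nat_lit 4) (nat_lit 5) (nat_lit 5) (nat_lit 5) (nat_lit 4) (nat_lit 487) (nat_lit 401) (nat_lit 312)))) (XT.nd (nat_lit 78) (nat_lit 0) (nat_lit 0) (XT.lf (nat_lit 0) (nat_lit 237948943894) (nat_lit 76) (nat_lit 128920883156) (nat_lit 76) (nat_lit 120977743191) (nat_lit 4) (nat_lit 4) (nat_lit 5) (nat_lit 5) (nat_lit 5) (nat_lit 4) (nat_lit 488) (nat_lit 401) (nat_lit 311)) (XT.nd (nat_lit 78) (nat_lit 0) (nat_lit 0) (XT.lf (nat_lit 0) (nat_lit 335699381136) (nat_lit 76) (nat_lit 98033761579) (nat_lit 76) (nat_lit 90090043588) (nat_lit 4) (nat_lit 4) (nat_lit 5) (nat_lit 5) (nat_lit 5) (nat_lit 4) (nat_lit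 489) (nat_lit 401) (nat_lit 310)) (XT.lf (nat_lit 0) (nat_lit 441258853107) (nat_lit 76) (nat_lit 64681339141) (nat_lit 76) (nat_lit 56737085942) (nat_lit 4) (nat_lit 4) (nat_lit 5) (nat_lit 5) (nat_lit 5) (nat_lit 4) (nat_lit 490) (nat_lit 401) (nat_lit 309)))))) (XT.nd (nat_lit 468) (nat_lit 76) (nat_lit 0) (XT.nd (nat_lit 234) (nat_lit 0) (nat_lit 0) (XT.nd (nat_lit 78) (nat_lit 152) (nat_lit 0) (XT.lf (nat_lit 0) (nat_lit 555252897418) (nat_lit 76) (nat_lit 28665971858) (nat_lit 76) (nat_lit 20721223095) (nat_lit 4) (nat_lit 4) (nat_lit 5) (nat_lit 5) (nat_lit 5) (nat_lit 4) (nat_lit 491) (nat_lit 401) (nat_lit 308)) (XT.nd (nat_lit 78) (nat_lit 0) (nat_lit 0) (XT.lf (nat_lit 0) (nat_lit 18245494129) (nat_lit 152) (nat_lit 620712341254) (nat_lit 0) (nat_lit 10888820409) (nat_lit 2) (nat_lit 5) (nat_lit 4) (nat_lit 4) (nat_lit 2) (nat_lit 4) (nat_lit 492) (nat_lit 401) (nat_lit 307))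 (XT.lf (nat_lit 0) (nat_lit 61335356185) (nat_lit 152) (nat_lit 583143018629) (nat_lit 0) (nat_lit 53978289071) (nat_lit 2) (nat_lit 5) (nat_lit 4) (nat_lit 4) (nat_lit 2) (nat_lit 4) (nat_lit 493) (nat_lit 401) (nat_lit 306)))) (XT.nd (nat_lit 78) (nat_lit 0) (nat_lit 0) (XT.lf (nat_lit 0) (nat_lit 107868068305) (nat_lit 152) (nat_lit 542577114514) (nat_lit 0) (nat_lit 100510636937) (nat_lit 2) (nat_lit 5) (nat_lit 4) (nat_lit 4) (nat_lit 2) (nat_lit 4) (nat_lit 494) (nat_lit 401) (nat_lit 305)) (XT.nd (nat_lit 78) (nat_lit 0) (nat_lit 0) (XT.lf (nat_lit 0) (nat_lit 158119379895) (nat_lit 152) (nat_lit 498774238366) (nat_lit 0) (nat_lit 150761611254) (nat_lit 2) (nat_lit 5) (nat_lit 4) (nat_lit 4) (nat_lit 2) (nat_lit 4) (nat_lit 495) (nat_lit 401) (nat_lit 304)) (XT.lf (nat_lit 0) (nat_lit 212387076505) (nat_lit 152) (nat_lit 451474817586) (nat_lit 0) (nat_lit 205028995575) (nat_lit 2)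 (nat_lit 5) (nat_lit 4) (nat_lit 4) (nat_lit 2) (nat_lit 4) (nat_lit 496) (nat_lit 401) (nat_lit 303))))) (XT.nd (nat_lit 234) (nat_lit 76) (nat_lit 0) (XT.nd (nat_lit 78) (nat_lit 0) (nat_lit 0) (XT.lf (nat_lit 0) (nat_lit 270992744484) (nat_lit 152) (nat_lit 400398559309) (nat_lit 0) (nat_lit 263634374398) (nat_lit 2) (nat_lit 5) (nat_lit 4) (nat_lit 4) (nat_lit 2) (nat_lit 4) (nat_lit 497) (nat_lit 401) (nat_lit 302)) (XT.nd (nat_lit 78) (nat_lit 0) (nat_lit 0) (XT.lf (nat_lit 0) (nat_lit 334283676681) (nat_lit 152) (nat_lit 345242789412) (nat_lit 0) (nat_lit 326925038857) (nat_lit 2) (nat_lit 5) (nat_lit 4) (nat_lit 4) (nat_lit 2) (nat_lit 4) (nat_lit 498) (nat_lit 401) (nat_lit 301)) (XT.lf (nat_lit 0) (nat_lit 402634930471) (nat_lit 152) (nat_lit 285680658889) (nat_lit 0) (nat_lit 395276044742) (nat_lit 2) (nat_lit 5) (nat_lit 4) (nat_lit 4) (nat_lit 2) (nat_lit 4) (nat_lit 499) (nat_lit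 401) (nat_lit 300)))) (XT.nd (nat_lit 156) (nat_lit 76) (nat_lit 0) (XT.nd (nat_lit 78) (nat_lit 0) (nat_lit 0) (XT.lf (nat_lit 0) (nat_lit 476451550322) (nat_lit 152) (nat_lit 221359206966) (nat_lit 0) (nat_lit 469092435051) (nat_lit 2) (nat_lit 5) (nat_lit 4) (nat_lit 4) (nat_lit 2) (nat_lit 4) (nat_lit 500) (nat_lit 401) (nat_lit 299)) (XT.lf (nat_lit 0) (nat_lit 556170968054) (nat_lit 152) (nat_lit 151897269484) (nat_lit 0) (nat_lit 548811640244) (nat_lit 2) (nat_lit 5) (nat_lit 4) (nat_lit 4) (nat_lit 2) (nat_lit 4) (nat_lit 501) (nat_lit 401) (nat_lit 298))) (XT.nd (nat_lit 78) (nat_lit 76) (nat_lit 0) (XT.lf (nat_lit 0) (nat_lit 642265595032) (nat_lit 152) (nat_lit 76883220146) (nat_lit 0) (nat_lit 634906070427) (nat_lit 2) (nat_lit 5) (nat_lit 4) (nat_lit 4) (nat_lit 2) (nat_lit 4) (nat_lit 502) (nat_lit 401) (nat_lit 297)) (XT.lf (nat_lit 0) (nat_lit 4344813936) (nat_lit 76) (nat_lit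 731005300580) (nat_lit 76) (nat_lit 723645593758) (nat_lit 1) (nat_lit 4) (nat_lit 2) (nat_lit 5) (nat_lit 2) (nat_lit 4) (nat_lit 503) (nat_lit 401) (nat_lit 296))))))))
noncomputable def xc97 : XT := (XT.nd (nat_lit 1950) (nat_lit 0) (nat_lit 0) (XT.nd (nat_lit 936) (nat_lit 0) (nat_lit 0) (XT.nd (nat_lit 468) (nat_lit 0) (nat_lit 0) (XT.nd (nat_lit 234) (nat_lit 0) (nat_lit 0) (XT.nd (nat_lit 78) (nat_lit 0) (nat_lit 0) (XT.lf (nat_lit 0) (nat_lit 96439136738) (nat_lit 76) (nat_lit 741542267441) (nat_lit 76) (nat_lit 734182391899) (nat_lit 1) (nat_lit 4) (nat_lit 2) (nat_lit 5) (nat_lit 2) (nat_lit 4) (nat_lit 504) (nat_lit 401) (nat_lit 295)) (XT.nd (nat_lit 78) (nat_lit 0) (nat_lit 0) (XT.lf (nat_lit 0) (nat_lit 195896958268) (nat_lit 76) (nat_lit 752924280534) (nat_lit 76) (nat_lit 745564248769) (nat_lit 1) (nat_lit 4) (nat_lit 2) (nat_lit 5) (nat_lit 2) (nat_lit 4) (nat_lit 505)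 (nat_lit 401) (nat_lit 294)) (XT.lf (nat_lit 0) (nat_lit 303307658210) (nat_lit 76) (nat_lit 765218788825) (nat_lit 76) (nat_lit 757858612410) (nat_lit 1) (nat_lit 4) (nat_lit 2) (nat_lit 5) (nat_lit 2) (nat_lit 4) (nat_lit 506) (nat_lit 401) (nat_lit 293)))) (XT.nd (nat_lit 78) (nat_lit 0) (nat_lit 0) (XT.lf (nat_lit 0) (nat_lit 419307744416) (nat_lit 76) (nat_lit 778498648659) (nat_lit 76) (nat_lit 771138338308) (nat_lit 1) (nat_lit 4) (nat_lit 2) (nat_lit 5) (nat_lit 2) (nat_lit 4) (nat_lit 507) (nat_lit 401) (nat_lit 292)) (XT.nd (nat_lit 78) (nat_lit 0) (nat_lit 0) (XT.lf (nat_lit 0) (nat_lit 544584624803) (nat_lit 76) (nat_lit 792842555502) (nat_lit 76) (nat_lit 785482121137) (nat_lit 1) (nat_lit 4) (nat_lit 2) (nat_lit 5) (nat_lit 2) (nat_lit 4) (nat_lit 508) (nat_lit 401) (nat_lit 291)) (XT.lf (nat_lit 0) (nat_lit 679880680886) (nat_lit 76) (nat_lit 808335510283) (nat_lit 76) (nat_lit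 800974961090) (nat_lit 1) (nat_lit 4) (nat_lit 2) (nat_lit 5) (nat_lit 2) (nat_lit 4) (nat_lit 509) (nat_lit 401) (nat_lit 290))))) (XT.nd (nat_lit 234) (nat_lit 0) (nat_lit 0) (XT.nd (nat_lit 78) (nat_lit 0) (nat_lit 0) (XT.lf (nat_lit 0) (nat_lit 825997667071) (nat_lit 76) (nat_lit 825069323106) (nat_lit 76) (nat_lit 817708667590) (nat_lit 1) (nat_lit 4) (nat_lit 2) (nat_lit 5) (nat_lit 2) (nat_lit 4) (nat_lit 510) (nat_lit 401) (nat_lit 289)) (XT.nd (nat_lit 78) (nat_lit 0) (nat_lit 0) (XT.lf (nat_lit 0) (nat_lit 983801461794) (nat_lit 76) (nat_lit 843143157304) (nat_lit 76) (nat_lit 835782403342) (nat_lit 1) (nat_lit 4) (nat_lit 2) (nat_lit 5) (nat_lit 2) (nat_lit 4) (nat_lit 511) (nat_lit 401) (nat_lit 288)) (XT.lf (nat_lit 0) (nat_lit 1154227198653) (nat_lit 76) (nat_lit 862664117082) (nat_lit 76) (nat_lit 855303271965) (nat_lit 1) (nat_lit 4) (nat_lit 2) (nat_lit 5) (nat_lit 2) (nat_lit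 4) (nat_lit 512) (nat_lit 401) (nat_lit 287)))) (XT.nd (nat_lit 78) (nat_lit 0) (nat_lit 0) (XT.lf (nat_lit 0) (nat_lit 1338284807942) (nat_lit 76) (nat_lit 883747882199) (nat_lit 76) (nat_lit 876386952681) (nat_lit 1) (nat_lit 4) (nat_lit 2) (nat_lit 5) (nat_lit 2) (nat_lit 4) (nat_lit 513) (nat_lit 401) (nat_lit 286)) (XT.nd (nat_lit 78) (nat_lit 0) (nat_lit 0) (XT.lf (nat_lit 0) (nat_lit 1537065001419) (nat_lit 76) (nat_lit 906519393488) (nat_lit 76) (nat_lit 899158385820) (nat_lit 1) (nat_lit 4) (nat_lit 2) (nat_lit 5) (nat_lit 2) (nat_lit 4) (nat_lit 514) (nat_lit 401) (nat_lit 285)) (XT.lf (nat_lit 0) (nat_lit 1751745735786) (nat_lit 76) (nat_lit 931113593236) (nat_lit 76) (nat_lit 923752513207) (nat_lit 1) (nat_lit 4) (nat_lit 2) (nat_lit 5) (nat_lit 2) (nat_lit 4) (nat_lit 515) (nat_lit 401) (nat_lit 284)))))) (XT.nd (nat_lit 468) (nat_lit 0) (nat_lit 0) (XT.nd (nat_lit 234) (nat_lit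 0) (nat_lit 0) (XT.nd (nat_lit 78) (nat_lit 0) (nat_lit 0) (XT.lf (nat_lit 0) (nat_lit 1983599193172) (nat_lit 76) (nat_lit 957676224850) (nat_lit 76) (nat_lit 950315077820) (nat_lit 1) (nat_lit 4) (nat_lit 2) (nat_lit 5) (nat_lit 2) (nat_lit 4) (nat_lit 516) (nat_lit 401) (nat_lit 283)) (XT.nd (nat_lit 78) (nat_lit 0) (nat_lit 0) (XT.lf (nat_lit 0) (nat_lit 2233999319992) (nat_lit 76) (nat_lit 986364696518) (nat_lit 76) (nat_lit 979003487449) (nat_lit 1) (nat_lit 4) (nat_lit 2) (nat_lit 5) (nat_lit 2) (nat_lit 4) (nat_lit 517) (nat_lit 401) (nat_lit 282)) (XT.lf (nat_lit 0) (nat_lit 2504429968849) (nat_lit 76) (nat_lit 1017349013996) (nat_lit 76) (nat_lit 1009987747485) (nat_lit 1) (nat_lit 4) (nat_lit 2) (nat_lit 5) (nat_lit 2) (nat_lit 4) (nat_lit 518) (nat_lit 401) (nat_lit 281)))) (XT.nd (nat_lit 78) (nat_lit 0) (nat_lit 0) (XT.lf (nat_lit 0) (nat_lit 2796493691737) (nat_lit 76) (nat_lit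 1050812788056) (nat_lit 76) (nat_lit 1043451468357) (nat_lit 1) (nat_lit 4) (nat_lit 2) (nat_lit 5) (nat_lit 2) (nat_lit 4) (nat_lit 519) (nat_lit 401) (nat_lit 280)) (XT.nd (nat_lit 78) (nat_lit 0) (nat_lit 0) (XT.lf (nat_lit 0) (nat_lit 3111921236643) (nat_lit 76) (nat_lit 1086954322544) (nat_lit 76) (nat_lit 1079592953597) (nat_lit 1) (nat_lit 4) (nat_lit 2) (nat_lit 5) (nat_lit 2) (nat_lit 4) (nat_lit 520) (nat_lit 401) (nat_lit 279)) (XT.lf (nat_lit 0) (nat_lit 3452581803832) (nat_lit 76) (nat_lit 1125987789515) (nat_lit 76) (nat_lit 1118626374969) (nat_lit 1) (nat_lit 4) (nat_lit 2) (nat_lit 5) (nat_lit 2) (nat_lit 4) (nat_lit 521) (nat_lit 401) (nat_lit 278))))) (XT.nd (nat_lit 234) (nat_lit 0) (nat_lit 0) (XT.nd (nat_lit 78) (nat_lit 0) (nat_lit 0) (XT.lf (nat_lit 0) (nat_lit 3820494122593) (nat_lit 76) (nat_lit 1168144498405) (nat_lit 76) (nat_lit 1160783041636) (nat_lit 1) (nat_lit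 4) (nat_lit 2) (nat_lit 5) (nat_lit 2) (nat_lit 4) (nat_lit 522) (nat_lit 401) (nat_lit 277)) (XT.nd (nat_lit 78) (nat_lit 0) (nat_lit 0) (XT.lf (nat_lit 0) (nat_lit 4217838414072) (nat_lit 76) (nat_lit 1213674266746) (nat_lit 76) (nat_lit 1206312770883) (nat_lit 1) (nat_lit 4) (nat_lit 2) (nat_lit 5) (nat_lit 2) (nat_lit 4) (nat_lit 523) (nat_lit 401) (nat_lit 276)) (XT.lf (nat_lit 0) (nat_lit 4646969311109) (nat_lit 76) (nat_lit 1262846900574) (nat_lit 76) (nat_lit 1255485368512) (nat_lit 1) (nat_lit 4) (nat_lit 2) (nat_lit 5) (nat_lit 2) (nat_lit 4) (nat_lit 524) (nat_lit 401) (nat_lit 275)))) (XT.nd (nat_lit 156) (nat_lit 0) (nat_lit 0) (XT.nd (nat_lit 78) (nat_lit 0) (nat_lit 0) (XT.lf (nat_lit 0) (nat_lit 5110429811613) (nat_lit 76) (nat_lit 1315953793274) (nat_lit 76) (nat_lit 1308592227695) (nat_lit 1) (nat_lit 4) (nat_lit 2) (nat_lit 5) (nat_lit 2) (nat_lit 4) (nat_lit 525) (nat_lit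 401) (nat_lit 274)) (XT.lf (nat_lit 0) (nat_lit 5610966348177) (nat_lit 76) (nat_lit 1373309652359) (nat_lit 76) (nat_lit 1365948055746) (nat_lit 1) (nat_lit 4) (nat_lit 2) (nat_lit 5) (nat_lit 2) (nat_lit 4) (nat_lit 526) (nat_lit 401) (nat_lit 273))) (XT.nd (nat_lit 78) (nat_lit 0) (nat_lit 0) (XT.lf (nat_lit 0) (nat_lit 6151545063243) (nat_lit 76) (nat_lit 1435254364400) (nat_lit 76) (nat_lit 1427892739052) (nat_lit 1) (nat_lit 4) (nat_lit 2) (nat_lit 5) (nat_lit 2) (nat_lit 4) (nat_lit 527) (nat_lit 401) (nat_lit 272)) (XT.lf (nat_lit 0) (nat_lit 6735369386231) (nat_lit 76) (nat_lit 1502155009174) (nat_lit 76) (nat_lit 1494793357218) (nat_lit 1) (nat_lit 4) (nat_lit 2) (nat_lit 5) (nat_lit 2) (nat_lit 4) (nat_lit 528) (nat_lit 401) (nat_lit 271))))))) (XT.nd (nat_lit 52962) (nat_lit 0) (nat_lit 4484) (XT.nd (nat_lit 468) (nat_lit 0) (nat_lit 0) (XT.nd (nat_lit 234) (nat_lit 0) (nat_lit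 0) (XT.nd (nat_lit 78) (nat_lit 0) (nat_lit 0) (XT.lf (nat_lit 0) (nat_lit 7365899016834) (nat_lit 76) (nat_lit 1574408034945) (nat_lit 76) (nat_lit 1567046358353) (nat_lit 1) (nat_lit 4) (nat_lit 2) (nat_lit 5) (nat_lit 2) (nat_lit 4) (nat_lit 529) (nat_lit 401) (nat_lit 270)) (XT.nd (nat_lit 78) (nat_lit 0) (nat_lit 0) (XT.lf (nat_lit 0) (nat_lit 8046870426937) (nat_lit 76) (nat_lit 1652441607791) (nat_lit 76) (nat_lit 1645079908388) (nat_lit 1) (nat_lit 4) (nat_lit 2) (nat_lit 5) (nat_lit 2) (nat_lit 4) (nat_lit 530) (nat_lit 401) (nat_lit 269)) (XT.lf (nat_lit 0) (nat_lit 8782319002674) (nat_lit 76) (nat_lit 1736718148887) (nat_lit 76) (nat_lit 1729356428362) (nat_lit 1) (nat_lit 4) (nat_lit 2) (nat_lit 5) (nat_lit 2) (nat_lit 4) (nat_lit 531) (nat_lit 401) (nat_lit 268)))) (XT.nd (nat_lit 78) (nat_lit 0) (nat_lit 0) (XT.lf (nat_lit 0) (nat_lit 9576602957827) (nat_lit 76) (nat_lit 1827737074770)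 (nat_lit 76) (nat_lit 1820375334688) (nat_lit 1) (nat_lit 4) (nat_lit 2) (nat_lit 5) (nat_lit 2) (nat_lit 4) (nat_lit 532) (nat_lit 401) (nat_lit 267)) (XT.nd (nat_lit 78) (nat_lit 0) (nat_lit 0) (XT.lf (nat_lit 0) (nat_lit 10434429160278) (nat_lit 76) (nat_lit 1926037756854) (nat_lit 76) (nat_lit 1918675998664) (nat_lit 1) (nat_lit 4) (nat_lit 2) (nat_lit 5) (nat_lit 2) (nat_lit 4) (nat_lit 533) (nat_lit 401) (nat_lit 266)) (XT.lf (nat_lit 0) (nat_lit 11360881024561) (nat_lit 76) (nat_lit 2032202717699) (nat_lit 76) (nat_lit 2024840942742) (nat_lit 1) (nat_lit 4) (nat_lit 2) (nat_lit 5) (nat_lit 2) (nat_lit 4) (nat_lit 534) (nat_lit 401) (nat_lit 265))))) (XT.nd (nat_lit 52260) (nat_lit 0) (nat_lit 7068) (XT.nd (nat_lit 52104) (nat_lit 0) (nat_lit 7372) (XT.lf (nat_lit 0) (nat_lit 12361448635797) (nat_lit 76) (nat_lit 2146861083000) (nat_lit 76) (nat_lit 2139499292518) (nat_lit 1) (nat_lit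 4) (nat_lit 2) (nat_lit 5) (nat_lit 2) (nat_lit 4) (nat_lit 535) (nat_lit 401) (nat_lit 264)) (XT.nd (nat_lit 78) (nat_lit 228) (nat_lit 0) (XT.lf (nat_lit 0) (nat_lit 2487330241) (nat_lit 228) (nat_lit 395016812) (nat_lit 228) (nat_lit 395016812) (nat_lit 101) (nat_lit 3) (nat_lit 104) (nat_lit 3) (nat_lit 104) (nat_lit 5) (nat_lit 402) (nat_lit 402) (nat_lit 396)) (XT.lf (nat_lit 0) (nat_lit 919635634) (nat_lit 228) (nat_lit 4048891468) (nat_lit 304) (nat_lit 1652168945) (nat_lit 98) (nat_lit 5) (nat_lit 101) (nat_lit 3) (nat_lit 102) (nat_lit 5) (nat_lit 403) (nat_lit 402) (nat_lit 395)))) (XT.nd (nat_lit 78) (nat_lit 304) (nat_lit 0) (XT.lf (nat_lit 0) (nat_lit 3311028131) (nat_lit 228) (nat_lit 631250272) (nat_lit 304) (nat_lit 2764306594) (nat_lit 98) (nat_lit 5) (nat_lit 101) (nat_lit 3) (nat_lit 102) (nat_lit 5) (nat_lit 404) (nat_lit 402) (nat_lit 394)) (XT.nd (nat_lit 78) (nat_lit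 304) (nat_lit 0) (XT.lf (nat_lit 76) (nat_lit 3077691849) (nat_lit 0) (nat_lit 2663129177) (nat_lit 304) (nat_lit 1070842719) (nat_lit 99) (nat_lit 5) (nat_lit 98) (nat_lit 5) (nat_lit 102) (nat_lit 5) (nat_lit 405) (nat_lit 402) (nat_lit 393)) (XT.lf (nat_lit 76) (nat_lit 17030308) (nat_lit 0) (nat_lit 1149983007) (nat_lit 380) (nat_lit 5771503426) (nat_lit 95) (nat_lit 5) (nat_lit 94) (nat_lit 5) (nat_lit 99) (nat_lit 5) (nat_lit 406) (nat_lit 402) (nat_lit 392)))))) (XT.nd (nat_lit 468) (nat_lit 1444) (nat_lit 0) (XT.nd (nat_lit 234) (nat_lit 836) (nat_lit 0) (XT.nd (nat_lit 78) (nat_lit 380) (nat_lit 0) (XT.lf (nat_lit 0) (nat_lit 3437921034) (nat_lit 304) (nat_lit 2987700405) (nat_lit 76) (nat_lit 654789403) (nat_lit 95) (nat_lit 5) (nat_lit 99) (nat_lit 5) (nat_lit 96) (nat_lit 5) (nat_lit 407) (nat_lit 402) (nat_lit 391)) (XT.nd (nat_lit 78) (nat_lit 76) (nat_lit 0) (XT.lf (nat_lit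 0) (nat_lit 1141049055) (nat_lit 304) (nat_lit 4617399403) (nat_lit 380) (nat_lit 1485835314) (nat_lit 91) (nat_lit 5) (nat_lit 95) (nat_lit 5) (nat_lit 96) (nat_lit 5) (nat_lit 408) (nat_lit 402) (nat_lit 390)) (XT.lf (nat_lit 0) (nat_lit 701492818) (nat_lit 380) (nat_lit 1820069493) (nat_lit 76) (nat_lit 4906109357) (nat_lit 90) (nat_lit 5) (nat_lit 95) (nat_lit 5) (nat_lit 91) (nat_lit 5) (nat_lit 409) (nat_lit 402) (nat_lit 389)))) (XT.nd (nat_lit 78) (nat_lit 456) (nat_lit 0) (XT.lf (nat_lit 0) (nat_lit 2763796075) (nat_lit 380) (nat_lit 116316346) (nat_lit 456) (nat_lit 4750854477) (nat_lit 85) (nat_lit 5) (nat_lit 90) (nat_lit 5) (nat_lit 91) (nat_lit 5) (nat_lit 410) (nat_lit 402) (nat_lit 388)) (XT.nd (nat_lit 78) (nat_lit 456) (nat_lit 0) (XT.lf (nat_lit 0) (nat_lit 5183672395) (nat_lit 456) (nat_lit 241104474) (nat_lit 76) (nat_lit 2429743170) (nat_lit 85) (nat_lit 5) (nat_lit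 91) (nat_lit 5) (nat_lit 86) (nat_lit 5) (nat_lit 411) (nat_lit 402) (nat_lit 387)) (XT.lf (nat_lit 0) (nat_lit 4854623326) (nat_lit 456) (nat_lit 2788444588) (nat_lit 532) (nat_lit 455208382) (nat_lit 79) (nat_lit 5) (nat_lit 85) (nat_lit 5) (nat_lit 86) (nat_lit 5) (nat_lit 412) (nat_lit 402) (nat_lit 386))))) (XT.nd (nat_lit 234) (nat_lit 684) (nat_lit 0) (XT.nd (nat_lit 78) (nat_lit 228) (nat_lit 0) (XT.lf (nat_lit 0) (nat_lit 1753354581) (nat_lit 532) (nat_lit 6453717560) (nat_lit 76) (nat_lit 157761347) (nat_lit 72) (nat_lit 5) (nat_lit 79) (nat_lit 5) (nat_lit 73) (nat_lit 5) (nat_lit 413) (nat_lit 402) (nat_lit 385)) (XT.nd (nat_lit 78) (nat_lit 228) (nat_lit 0) (XT.lf (nat_lit 0) (nat_lit 4140416499) (nat_lit 532) (nat_lit 1221013342) (nat_lit 76) (nat_lit 3288261041) (nat_lit 72) (nat_lit 5) (nat_lit 79) (nat_lit 5) (nat_lit 73) (nat_lit 5) (nat_lit 414) (nat_lit 402) (nat_lit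 384)) (XT.lf (nat_lit 0) (nat_lit 4515862138) (nat_lit 228) (nat_lit 2184325860) (nat_lit 304) (nat_lit 2258640850) (nat_lit 69) (nat_lit 5) (nat_lit 72) (nat_lit 5) (nat_lit 73) (nat_lit 5) (nat_lit 415) (nat_lit 402) (nat_lit 383)))) (XT.nd (nat_lit 156) (nat_lit 380) (nat_lit 0) (XT.nd (nat_lit 78) (nat_lit 0) (nat_lit 0) (XT.lf (nat_lit 0) (nat_lit 139165565) (nat_lit 304) (nat_lit 7914793086) (nat_lit 76) (nat_lit 1240376958) (nat_lit 65) (nat_lit 5) (nat_lit 69) (nat_lit 5) (nat_lit 66) (nat_lit 5) (nat_lit 416) (nat_lit 402) (nat_lit 382)) (XT.lf (nat_lit 0) (nat_lit 2669521006) (nat_lit 304) (nat_lit 1993663928) (nat_lit 76) (nat_lit 4983809760) (nat_lit 65) (nat_lit 5) (nat_lit 69) (nat_lit 5) (nat_lit 66) (nat_lit 5) (nat_lit 417) (nat_lit 402) (nat_lit 381))) (XT.nd (nat_lit 78) (nat_lit 228) (nat_lit 0) (XT.lf (nat_lit 0) (nat_lit 4488006182) (nat_lit 152) (nat_lit 912402185)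 (nat_lit 228) (nat_lit 4627633050) (nat_lit 63) (nat_lit 5) (nat_lit 65) (nat_lit 5) (nat_lit 66) (nat_lit 5) (nat_lit 418) (nat_lit 402) (nat_lit 380)) (XT.lf (nat_lit 0) (nat_lit 997499133) (nat_lit 228) (nat_lit 7402035593) (nat_lit 304) (nat_lit 2036077183) (nat_lit 60) (nat_lit 5) (nat_lit 63) (nat_lit 5) (nat_lit 64) (nat_lit 5) (nat_lit 419) (nat_lit 402) (nat_lit 379))))))))
noncomputable def xc98 : XT := (XT.nd (nat_lit 1950) (nat_lit 1520) (nat_lit 0) (XT.nd (nat_lit 936) (nat_lit 988) (nat_lit 0) (XT.nd (nat_lit 468) (nat_lit 456) (nat_lit 0) (XT.nd (nat_lit 234) (nat_lit 380) (nat_lit 0) (XT.nd (nat_lit 78) (nat_lit 304) (nat_lit 0) (XT.lf (nat_lit 0) (nat_lit 799977236) (nat_lit 304) (nat_lit 2680321327) (nat_lit 76) (nat_lit 7388013646) (nat_lit 59) (nat_lit 5) (nat_lit 63) (nat_lit 5) (nat_lit 60) (nat_lit 5) (nat_lit 420) (nat_lit 402) (nat_lit 378)) (XT.nd (nat_lit 78)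 (nat_lit 152) (nat_lit 0) (XT.lf (nat_lit 0) (nat_lit 3790590988) (nat_lit 228) (nat_lit 6686216379) (nat_lit 76) (nat_lit 851593318) (nat_lit 57) (nat_lit 5) (nat_lit 60) (nat_lit 5) (nat_lit 58) (nat_lit 5) (nat_lit 421) (nat_lit 402) (nat_lit 377)) (XT.lf (nat_lit 0) (nat_lit 689444601) (nat_lit 152) (nat_lit 6420179256) (nat_lit 228) (nat_lit 4708554565) (nat_lit 55) (nat_lit 5) (nat_lit 57) (nat_lit 5) (nat_lit 58) (nat_lit 5) (nat_lit 422) (nat_lit 402) (nat_lit 376)))) (XT.nd (nat_lit 78) (nat_lit 380) (nat_lit 0) (XT.lf (nat_lit 0) (nat_lit 8902625914) (nat_lit 152) (nat_lit 1885064903) (nat_lit 228) (nat_lit 1551981257) (nat_lit 55) (nat_lit 5) (nat_lit 57) (nat_lit 5) (nat_lit 58) (nat_lit 5) (nat_lit 423) (nat_lit 402) (nat_lit 375)) (XT.nd (nat_lit 78) (nat_lit 152) (nat_lit 0) (XT.lf (nat_lit 0) (nat_lit 1873988502) (nat_lit 228) (nat_lit 8027015403) (nat_lit 76) (nat_lit 2989539054)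 (nat_lit 52) (nat_lit 5) (nat_lit 55) (nat_lit 5) (nat_lit 53) (nat_lit 5) (nat_lit 424) (nat_lit 402) (nat_lit 374)) (XT.lf (nat_lit 0) (nat_lit 341295761) (nat_lit 152) (nat_lit 5219904452) (nat_lit 228) (nat_lit 7915389070) (nat_lit 50) (nat_lit 5) (nat_lit 52) (nat_lit 5) (nat_lit 53) (nat_lit 5) (nat_lit 425) (nat_lit 402) (nat_lit 373))))) (XT.nd (nat_lit 234) (nat_lit 304) (nat_lit 0) (XT.nd (nat_lit 78) (nat_lit 152) (nat_lit 0) (XT.lf (nat_lit 0) (nat_lit 9683982813) (nat_lit 228) (nat_lit 4389805040) (nat_lit 76) (nat_lit 24494686) (nat_lit 50) (nat_lit 5) (nat_lit 53) (nat_lit 5) (nat_lit 51) (nat_lit 4) (nat_lit 426) (nat_lit 402) (nat_lit 372)) (XT.nd (nat_lit 78) (nat_lit 76) (nat_lit 0) (XT.lf (nat_lit 0) (nat_lit 5050468743) (nat_lit 76) (nat_lit 9268509886) (nat_lit 152) (nat_lit 436151325) (nat_lit 49) (nat_lit 5) (nat_lit 50) (nat_lit 5) (nat_lit 51) (nat_lit 4) (nat_lit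 427) (nat_lit 402) (nat_lit 371)) (XT.lf (nat_lit 0) (nat_lit 3716424731) (nat_lit 152) (nat_lit 177991428) (nat_lit 76) (nat_lit 11558747918) (nat_lit 48) (nat_lit 5) (nat_lit 50) (nat_lit 5) (nat_lit 49) (nat_lit 5) (nat_lit 428) (nat_lit 402) (nat_lit 370)))) (XT.nd (nat_lit 78) (nat_lit 152) (nat_lit 0) (XT.lf (nat_lit 0) (nat_lit 8413757817) (nat_lit 228) (nat_lit 5731404684) (nat_lit 76) (nat_lit 2042090880) (nat_lit 46) (nat_lit 5) (nat_lit 49) (nat_lit 5) (nat_lit 47) (nat_lit 4) (nat_lit 429) (nat_lit 402) (nat_lit 369)) (XT.nd (nat_lit 78) (nat_lit 76) (nat_lit 0) (XT.lf (nat_lit 0) (nat_lit 5004956264) (nat_lit 76) (nat_lit 8641372373) (nat_lit 152) (nat_lit 3320992415) (nat_lit 45) (nat_lit 5) (nat_lit 46) (nat_lit 5) (nat_lit 47) (nat_lit 4) (nat_lit 430) (nat_lit 402) (nat_lit 368)) (XT.lf (nat_lit 0) (nat_lit 1507585219) (nat_lit 152) (nat_lit 1026497580) (nat_lit 76) (nat_lit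 15265311603) (nat_lit 44) (nat_lit 5) (nat_lit 46) (nat_lit 5) (nat_lit 45) (nat_lit 5) (nat_lit 431) (nat_lit 402) (nat_lit 367)))))) (XT.nd (nat_lit 468) (nat_lit 532) (nat_lit 0) (XT.nd (nat_lit 234) (nat_lit 228) (nat_lit 0) (XT.nd (nat_lit 78) (nat_lit 76) (nat_lit 0) (XT.lf (nat_lit 0) (nat_lit 6855396094) (nat_lit 228) (nat_lit 7631735569) (nat_lit 76) (nat_lit 4179017645) (nat_lit 42) (nat_lit 5) (nat_lit 45) (nat_lit 5) (nat_lit 43) (nat_lit 4) (nat_lit 432) (nat_lit 402) (nat_lit 366)) (XT.nd (nat_lit 78) (nat_lit 0) (nat_lit 0) (XT.lf (nat_lit 0) (nat_lit 4572791250) (nat_lit 76) (nat_lit 8202249167) (nat_lit 152) (nat_lit 6815688878) (nat_lit 41) (nat_lit 5) (nat_lit 42) (nat_lit 5) (nat_lit 43) (nat_lit 4) (nat_lit 433) (nat_lit 402) (nat_lit 365)) (XT.lf (nat_lit 0) (nat_lit 18082452143) (nat_lit 76) (nat_lit 1235842876) (nat_lit 152) (nat_lit 1258982538) (nat_lit 41) (nat_lit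 5) (nat_lit 42) (nat_lit 5) (nat_lit 43) (nat_lit 4) (nat_lit 434) (nat_lit 402) (nat_lit 364)))) (XT.nd (nat_lit 78) (nat_lit 76) (nat_lit 0) (XT.lf (nat_lit 0) (nat_lit 4883373269) (nat_lit 152) (nat_lit 10391176104) (nat_lit 76) (nat_lit 6328813253) (nat_lit 39) (nat_lit 5) (nat_lit 41) (nat_lit 5) (nat_lit 40) (nat_lit 4) (nat_lit 435) (nat_lit 402) (nat_lit 363)) (XT.nd (nat_lit 78) (nat_lit 0) (nat_lit 0) (XT.lf (nat_lit 0) (nat_lit 3456803295) (nat_lit 76) (nat_lit 8122535196) (nat_lit 152) (nat_lit 11119164794) (nat_lit 38) (nat_lit 5) (nat_lit 39) (nat_lit 5) (nat_lit 40) (nat_lit 4) (nat_lit 436) (nat_lit 402) (nat_lit 362)) (XT.lf (nat_lit 0) (nat_lit 18905023785) (nat_lit 76) (nat_lit 136790843) (nat_lit 152) (nat_lit 4820977531) (nat_lit 38) (nat_lit 5) (nat_lit 39) (nat_lit 5) (nat_lit 40) (nat_lit 4) (nat_lit 437) (nat_lit 402) (nat_lit 361))))) (XT.nd (nat_lit 234) (nat_lit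 304) (nat_lit 0) (XT.nd (nat_lit 78) (nat_lit 76) (nat_lit 0) (XT.lf (nat_lit 0) (nat_lit 2303916448) (nat_lit 152) (nat_lit 14439538086) (nat_lit 76) (nat_lit 8339204962) (nat_lit 36) (nat_lit 5) (nat_lit 38) (nat_lit 5) (nat_lit 37) (nat_lit 4) (nat_lit 438) (nat_lit 402) (nat_lit 360)) (XT.nd (nat_lit 78) (nat_lit 0) (nat_lit 0) (XT.lf (nat_lit 0) (nat_lit 1218998050) (nat_lit 76) (nat_lit 8641199786) (nat_lit 152) (nat_lit 16520155361) (nat_lit 35) (nat_lit 5) (nat_lit 36) (nat_lit 5) (nat_lit 37) (nat_lit 4) (nat_lit 439) (nat_lit 402) (nat_lit 359)) (XT.lf (nat_lit 0) (nat_lit 18379026023) (nat_lit 152) (nat_lit 8906657555) (nat_lit 0) (nat_lit 467537959) (nat_lit 35) (nat_lit 5) (nat_lit 37) (nat_lit 4) (nat_lit 35) (nat_lit 4) (nat_lit 440) (nat_lit 402) (nat_lit 358)))) (XT.nd (nat_lit 156) (nat_lit 152) (nat_lit 0) (XT.nd (nat_lit 78) (nat_lit 76) (nat_lit 0) (XT.lf (nat_lit 0)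 (nat_lit 8775058968) (nat_lit 76) (nat_lit 19193825663) (nat_lit 76) (nat_lit 1235875272) (nat_lit 34) (nat_lit 4) (nat_lit 35) (nat_lit 5) (nat_lit 35) (nat_lit 4) (nat_lit 441) (nat_lit 402) (nat_lit 357)) (XT.lf (nat_lit 0) (nat_lit 7379723222) (nat_lit 152) (nat_lit 2651146760) (nat_lit 76) (nat_lit 20710694932) (nat_lit 33) (nat_lit 5) (nat_lit 35) (nat_lit 5) (nat_lit 34) (nat_lit 4) (nat_lit 442) (nat_lit 402) (nat_lit 356))) (XT.nd (nat_lit 78) (nat_lit 76) (nat_lit 0) (XT.lf (nat_lit 0) (nat_lit 16998970846) (nat_lit 152) (nat_lit 15074762004) (nat_lit 0) (nat_lit 294521753) (nat_lit 32) (nat_lit 5) (nat_lit 34) (nat_lit 4) (nat_lit 32) (nat_lit 4) (nat_lit 443) (nat_lit 402) (nat_lit 355)) (XT.lf (nat_lit 0) (nat_lit 4758986637) (nat_lit 76) (nat_lit 23036056096) (nat_lit 76) (nat_lit 6297455805) (nat_lit 31) (nat_lit 4) (nat_lit 32) (nat_lit 5) (nat_lit 32) (nat_lit 4) (nat_lit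 444) (nat_lit 402) (nat_lit 354))))))) (XT.nd (nat_lit 936) (nat_lit 684) (nat_lit 0) (XT.nd (nat_lit 468) (nat_lit 456) (nat_lit 0) (XT.nd (nat_lit 234) (nat_lit 228) (nat_lit 0) (XT.nd (nat_lit 78) (nat_lit 76) (nat_lit 0) (XT.lf (nat_lit 0) (nat_lit 3705958545) (nat_lit 152) (nat_lit 9061827994) (nat_lit 76) (nat_lit 23149688362) (nat_lit 30) (nat_lit 5) (nat_lit 32) (nat_lit 5) (nat_lit 31) (nat_lit 4) (nat_lit 445) (nat_lit 402) (nat_lit 353)) (XT.nd (nat_lit 78) (nat_lit 0) (nat_lit 0) (XT.lf (nat_lit 0) (nat_lit 13255185206) (nat_lit 76) (nat_lit 1194183122) (nat_lit 152) (nat_lit 23403600999) (nat_lit 29) (nat_lit 5) (nat_lit 30) (nat_lit 5) (nat_lit 31) (nat_lit 4) (nat_lit 446) (nat_lit 402) (nat_lit 352)) (XT.lf (nat_lit 0) (nat_lit 26539732375) (nat_lit 152) (nat_lit 2405036973) (nat_lit 0) (nat_lit 10959536784) (nat_lit 29) (nat_lit 5) (nat_lit 31) (nat_lit 4) (nat_lit 29)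 (nat_lit 4) (nat_lit 447) (nat_lit 402) (nat_lit 351)))) (XT.nd (nat_lit 78) (nat_lit 152) (nat_lit 0) (XT.lf (nat_lit 0) (nat_lit 22591742476) (nat_lit 76) (nat_lit 17544179625) (nat_lit 76) (nat_lit 1940741302) (nat_lit 28) (nat_lit 4) (nat_lit 29) (nat_lit 5) (nat_lit 29) (nat_lit 4) (nat_lit 448) (nat_lit 402) (nat_lit 350)) (XT.nd (nat_lit 78) (nat_lit 0) (nat_lit 0) (XT.lf (nat_lit 0) (nat_lit 5247650646) (nat_lit 76) (nat_lit 4787258014) (nat_lit 152) (nat_lit 34355256950) (nat_lit 26) (nat_lit 5) (nat_lit 27) (nat_lit 5) (nat_lit 28) (nat_lit 4) (nat_lit 449) (nat_lit 402) (nat_lit 349)) (XT.lf (nat_lit 0) (nat_lit 23591069740) (nat_lit 152) (nat_lit 14130397832) (nat_lit 0) (nat_lit 9105063939) (nat_lit 26) (nat_lit 5) (nat_lit 28) (nat_lit 4) (nat_lit 26) (nat_lit 4) (nat_lit 450) (nat_lit 402) (nat_lit 348))))) (XT.nd (nat_lit 234) (nat_lit 228) (nat_lit 0) (XT.nd (nat_lit 78)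 (nat_lit 152) (nat_lit 0) (XT.lf (nat_lit 0) (nat_lit 13361206377) (nat_lit 76) (nat_lit 25283332937) (nat_lit 76) (nat_lit 10780243034) (nat_lit 25) (nat_lit 4) (nat_lit 26) (nat_lit 5) (nat_lit 26) (nat_lit 4) (nat_lit 451) (nat_lit 402) (nat_lit 347)) (XT.nd (nat_lit 78) (nat_lit 76) (nat_lit 0) (XT.lf (nat_lit 0) (nat_lit 2901345932) (nat_lit 152) (nat_lit 8484108975) (nat_lit 76) (nat_lit 40811212435) (nat_lit 24) (nat_lit 5) (nat_lit 26) (nat_lit 5) (nat_lit 25) (nat_lit 4) (nat_lit 452) (nat_lit 402) (nat_lit 346)) (XT.lf (nat_lit 0) (nat_lit 17702826949) (nat_lit 152) (nat_lit 33170622932) (nat_lit 0) (nat_lit 4245831229) (nat_lit 23) (nat_lit 5) (nat_lit 25) (nat_lit 4) (nat_lit 23) (nat_lit 4) (nat_lit 453) (nat_lit 402) (nat_lit 345)))) (XT.nd (nat_lit 78) (nat_lit 228) (nat_lit 0) (XT.lf (nat_lit 0) (nat_lit 34191892198) (nat_lit 152) (nat_lit 3321196041) (nat_lit 0) (nat_lit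 20722339153) (nat_lit 23) (nat_lit 5) (nat_lit 25) (nat_lit 4) (nat_lit 23) (nat_lit 4) (nat_lit 454) (nat_lit 402) (nat_lit 344)) (XT.nd (nat_lit 78) (nat_lit 152) (nat_lit 0) (XT.lf (nat_lit 0) (nat_lit 30379556513) (nat_lit 76) (nat_lit 22323140277) (nat_lit 76) (nat_lit 8841960080) (nat_lit 22) (nat_lit 4) (nat_lit 23) (nat_lit 5) (nat_lit 23) (nat_lit 4) (nat_lit 455) (nat_lit 402) (nat_lit 343)) (XT.lf (nat_lit 0) (nat_lit 1697884151) (nat_lit 76) (nat_lit 5604918843) (nat_lit 152) (nat_lit 57792764011) (nat_lit 20) (nat_lit 5) (nat_lit 21) (nat_lit 5) (nat_lit 22) (nat_lit 4) (nat_lit 456) (nat_lit 402) (nat_lit 342)))))) (XT.nd (nat_lit 468) (nat_lit 380) (nat_lit 0) (XT.nd (nat_lit 234) (nat_lit 228) (nat_lit 0) (XT.nd (nat_lit 78) (nat_lit 76) (nat_lit 0) (XT.lf (nat_lit 0) (nat_lit 25407248477) (nat_lit 152) (nat_lit 30507789511) (nat_lit 0) (nat_lit 12905475804) (nat_lit 20)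 (nat_lit 5) (nat_lit 22) (nat_lit 4) (nat_lit 20) (nat_lit 4) (nat_lit 457) (nat_lit 402) (nat_lit 341)) (XT.nd (nat_lit 78) (nat_lit 0) (nat_lit 0) (XT.lf (nat_lit 0) (nat_lit 5069000198) (nat_lit 76) (nat_lit 40132720918) (nat_lit 76) (nat_lit 27622401941) (nat_lit 19) (nat_lit 4) (nat_lit 20) (nat_lit 5) (nat_lit 20) (nat_lit 4) (nat_lit 458) (nat_lit 402) (nat_lit 340)) (XT.lf (nat_lit 0) (nat_lit 45175977056) (nat_lit 76) (nat_lit 22212778180) (nat_lit 76) (nat_lit 9694545958) (nat_lit 19) (nat_lit 4) (nat_lit 20) (nat_lit 5) (nat_lit 20) (nat_lit 4) (nat_lit 459) (nat_lit 402) (nat_lit 339)))) (XT.nd (nat_lit 78) (nat_lit 76) (nat_lit 0) (XT.lf (nat_lit 0) (nat_lit 6871068823) (nat_lit 76) (nat_lit 2454233159) (nat_lit 152) (nat_lit 72328001768) (nat_lit 17) (nat_lit 5) (nat_lit 18) (nat_lit 5) (nat_lit 19) (nat_lit 4) (nat_lit 460) (nat_lit 402) (nat_lit 338)) (XT.nd (nat_lit 78)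 (nat_lit 76) (nat_lit 0) (XT.lf (nat_lit 0) (nat_lit 30668407676) (nat_lit 152) (nat_lit 36729934689) (nat_lit 0) (nat_lit 19064385795) (nat_lit 17) (nat_lit 5) (nat_lit 19) (nat_lit 4) (nat_lit 17) (nat_lit 4) (nat_lit 461) (nat_lit 402) (nat_lit 337)) (XT.lf (nat_lit 0) (nat_lit 4482108488) (nat_lit 76) (nat_lit 49386338925) (nat_lit 76) (nat_lit 37776500573) (nat_lit 16) (nat_lit 4) (nat_lit 17) (nat_lit 5) (nat_lit 17) (nat_lit 4) (nat_lit 462) (nat_lit 402) (nat_lit 336))))) (XT.nd (nat_lit 234) (nat_lit 228) (nat_lit 0) (XT.nd (nat_lit 78) (nat_lit 152) (nat_lit 0) (XT.lf (nat_lit 0) (nat_lit 51036207978) (nat_lit 76) (nat_lit 28871069361) (nat_lit 76) (nat_lit 17255845387) (nat_lit 16) (nat_lit 4) (nat_lit 17) (nat_lit 5) (nat_lit 17) (nat_lit 4) (nat_lit 463) (nat_lit 402) (nat_lit 335)) (XT.nd (nat_lit 78) (nat_lit 76) (nat_lit 0) (XT.lf (nat_lit 0) (nat_lit 4640620592) (nat_lit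 152) (nat_lit 1967719826) (nat_lit 76) (nat_lit 96506603273) (nat_lit 15) (nat_lit 5) (nat_lit 17) (nat_lit 5) (nat_lit 16) (nat_lit 4) (nat_lit 464) (nat_lit 402) (nat_lit 334)) (XT.lf (nat_lit 0) (nat_lit 28943141713) (nat_lit 152) (nat_lit 62257572293) (nat_lit 0) (nat_lit 18179412118) (nat_lit 14) (nat_lit 5) (nat_lit 16) (nat_lit 4) (nat_lit 14) (nat_lit 4) (nat_lit 465) (nat_lit 402) (nat_lit 333)))) (XT.nd (nat_lit 156) (nat_lit 152) (nat_lit 0) (XT.nd (nat_lit 78) (nat_lit 76) (nat_lit 0) (XT.lf (nat_lit 0) (nat_lit 55397854330) (nat_lit 152) (nat_lit 16101863704) (nat_lit 0) (nat_lit 44630166143) (nat_lit 14) (nat_lit 5) (nat_lit 16) (nat_lit 4) (nat_lit 14) (nat_lit 4) (nat_lit 466) (nat_lit 402) (nat_lit 332)) (XT.lf (nat_lit 0) (nat_lit 35485740795) (nat_lit 76) (nat_lit 49319178885) (nat_lit 76) (nat_lit 38547825335) (nat_lit 13) (nat_lit 4) (nat_lit 14) (nat_lit 5) (nat_lit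 14) (nat_lit 4) (nat_lit 467) (nat_lit 402) (nat_lit 331))) (XT.nd (nat_lit 78) (nat_lit 152) (nat_lit 0) (XT.lf (nat_lit 0) (nat_lit 92081283491) (nat_lit 76) (nat_lit 24906519305) (nat_lit 76) (nat_lit 14131771900) (nat_lit 13) (nat_lit 4) (nat_lit 14) (nat_lit 5) (nat_lit 14) (nat_lit 4) (nat_lit 468) (nat_lit 402) (nat_lit 330)) (XT.lf (nat_lit 0) (nat_lit 11998828253) (nat_lit 152) (nat_lit 125436202150) (nat_lit 0) (nat_lit 2019300602) (nat_lit 11) (nat_lit 5) (nat_lit 13) (nat_lit 4) (nat_lit 11) (nat_lit 4) (nat_lit 469) (nat_lit 402) (nat_lit 329))))))))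
noncomputable def xc99 : XT := (XT.nd (nat_lit 1950) (nat_lit 76) (nat_lit 0) (XT.nd (nat_lit 936) (nat_lit 380) (nat_lit 0) (XT.nd (nat_lit 468) (nat_lit 76) (nat_lit 0) (XT.nd (nat_lit 234) (nat_lit 152) (nat_lit 0) (XT.nd (nat_lit 78) (nat_lit 76) (nat_lit 0) (XT.lf (nat_lit 0) (nat_lit 41182289941) (nat_lit 152) (nat_lit 75906073462) (nat_lit 0) (nat_lit 31200068138) (nat_lit 11) (nat_lit 5) (nat_lit 13) (nat_lit 4) (nat_lit 11) (nat_lit 4) (nat_lit 470) (nat_lit 402) (nat_lit 328)) (XT.nd (nat_lit 78) (nat_lit 76) (nat_lit 0) (XT.lf (nat_lit 0) (nat_lit 72685496681) (nat_lit 152) (nat_lit 22444177828) (nat_lit 0) (nat_lit 62700780294) (nat_lit 11) (nat_lit 5) (nat_lit 13) (nat_lit 4) (nat_lit 11) (nat_lit 4) (nat_lit 471) (nat_lit 402) (nat_lit 327)) (XT.lf (nat_lit 0) (nat_lit 37123356632) (nat_lit 76) (nat_lit 70464595132) (nat_lit 76) (nat_lit 60477568944) (nat_lit 10) (nat_lit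 4) (nat_lit 11) (nat_lit 5) (nat_lit 11) (nat_lit 4) (nat_lit 472) (nat_lit 402) (nat_lit 326)))) (XT.nd (nat_lit 78) (nat_lit 152) (nat_lit 0) (XT.lf (nat_lit 0) (nat_lit 102705058974) (nat_lit 76) (nat_lit 43177741086) (nat_lit 76) (nat_lit 33188576194) (nat_lit 10) (nat_lit 4) (nat_lit 11) (nat_lit 5) (nat_lit 11) (nat_lit 4) (nat_lit 473) (nat_lit 402) (nat_lit 325)) (XT.nd (nat_lit 78) (nat_lit 152) (nat_lit 0) (XT.lf (nat_lit 0) (nat_lit 173507690876) (nat_lit 76) (nat_lit 13721076093) (nat_lit 76) (nat_lit 3729930919) (nat_lit 10) (nat_lit 4) (nat_lit 11) (nat_lit 5) (nat_lit 11) (nat_lit 4) (nat_lit 474) (nat_lit 402) (nat_lit 324)) (XT.lf (nat_lit 0) (nat_lit 28302214543) (nat_lit 152) (nat_lit 156261557657) (nat_lit 0) (nat_lit 19049456425) (nat_lit 8) (nat_lit 5) (nat_lit 10) (nat_lit 4) (nat_lit 8) (nat_lit 4) (nat_lit 475) (nat_lit 402) (nat_lit 323))))) (XT.nd (nat_lit 234)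 (nat_lit 0) (nat_lit 0) (XT.nd (nat_lit 78) (nat_lit 76) (nat_lit 0) (XT.lf (nat_lit 0) (nat_lit 63529513374) (nat_lit 152) (nat_lit 99400947191) (nat_lit 0) (nat_lit 54275183244) (nat_lit 8) (nat_lit 5) (nat_lit 10) (nat_lit 4) (nat_lit 8) (nat_lit 4) (nat_lit 476) (nat_lit 402) (nat_lit 322)) (XT.nd (nat_lit 78) (nat_lit 76) (nat_lit 0) (XT.lf (nat_lit 0) (nat_lit 101564041066) (nat_lit 152) (nat_lit 38014032253) (nat_lit 0) (nat_lit 92308255370) (nat_lit 8) (nat_lit 5) (nat_lit 10) (nat_lit 4) (nat_lit 8) (nat_lit 4) (nat_lit 477) (nat_lit 402) (nat_lit 321)) (XT.lf (nat_lit 0) (nat_lit 29751238932) (nat_lit 76) (nat_lit 113595466492) (nat_lit 76) (nat_lit 104338333050) (nat_lit 7) (nat_lit 4) (nat_lit 8) (nat_lit 5) (nat_lit 8) (nat_lit 4) (nat_lit 478) (nat_lit 402) (nat_lit 320)))) (XT.nd (nat_lit 78) (nat_lit 0) (nat_lit 0) (XT.lf (nat_lit 0) (nat_lit 105079277565) (nat_lit 76) (nat_lit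 84422194871) (nat_lit 76) (nat_lit 75163813515) (nat_lit 7) (nat_lit 4) (nat_lit 8) (nat_lit 5) (nat_lit 8) (nat_lit 4) (nat_lit 479) (nat_lit 402) (nat_lit 319)) (XT.nd (nat_lit 78) (nat_lit 0) (nat_lit 0) (XT.lf (nat_lit 0) (nat_lit 186414720449) (nat_lit 76) (nat_lit 52924750815) (nat_lit 76) (nat_lit 43665213984) (nat_lit 7) (nat_lit 4) (nat_lit 8) (nat_lit 5) (nat_lit 8) (nat_lit 4) (nat_lit 480) (nat_lit 402) (nat_lit 318)) (XT.lf (nat_lit 0) (nat_lit 274239555395) (nat_lit 76) (nat_lit 18916482807) (nat_lit 76) (nat_lit 9655876091) (nat_lit 7) (nat_lit 4) (nat_lit 8) (nat_lit 5) (nat_lit 8) (nat_lit 4) (nat_lit 481) (nat_lit 402) (nat_lit 317)))))) (XT.nd (nat_lit 468) (nat_lit 152) (nat_lit 0) (XT.nd (nat_lit 234) (nat_lit 76) (nat_lit 0) (XT.nd (nat_lit 78) (nat_lit 0) (nat_lit 0) (XT.lf (nat_lit 0) (nat_lit 27305440528) (nat_lit 152) (nat_lit 277989455464) (nat_lit 0) (nat_lit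 18729887426) (nat_lit 5) (nat_lit 5) (nat_lit 7) (nat_lit 4) (nat_lit 5) (nat_lit 4) (nat_lit 482) (nat_lit 402) (nat_lit 316)) (XT.nd (nat_lit 78) (nat_lit 0) (nat_lit 0) (XT.lf (nat_lit 0) (nat_lit 67986801490) (nat_lit 152) (nat_lit 219414632822) (nat_lit 0) (nat_lit 59410399079) (nat_lit 5) (nat_lit 5) (nat_lit 7) (nat_lit 4) (nat_lit 5) (nat_lit 4) (nat_lit 483) (nat_lit 402) (nat_lit 315)) (XT.lf (nat_lit 0) (nat_lit 111915226495) (nat_lit 152) (nat_lit 156169178808) (nat_lit 0) (nat_lit 103338037687) (nat_lit 5) (nat_lit 5) (nat_lit 7) (nat_lit 4) (nat_lit 5) (nat_lit 4) (nat_lit 484) (nat_lit 402) (nat_lit 314)))) (XT.nd (nat_lit 78) (nat_lit 76) (nat_lit 0) (XT.lf (nat_lit 0) (nat_lit 159351032136) (nat_lit 152) (nat_lit 87878305545) (nat_lit 0) (nat_lit 150773115183) (nat_lit 5) (nat_lit 5) (nat_lit 7) (nat_lit 4) (nat_lit 5) (nat_lit 4) (nat_lit 485) (nat_lit 402) (nat_lit 313))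 (XT.nd (nat_lit 78) (nat_lit 76) (nat_lit 0) (XT.lf (nat_lit 0) (nat_lit 210575319485) (nat_lit 152) (nat_lit 14137326378) (nat_lit 0) (nat_lit 201996728323) (nat_lit 5) (nat_lit 5) (nat_lit 7) (nat_lit 4) (nat_lit 5) (nat_lit 4) (nat_lit 486) (nat_lit 402) (nat_lit 312)) (XT.lf (nat_lit 0) (nat_lit 68939368701) (nat_lit 76) (nat_lit 198610264646) (nat_lit 76) (nat_lit 190031049216) (nat_lit 4) (nat_lit 4) (nat_lit 5) (nat_lit 5) (nat_lit 5) (nat_lit 4) (nat_lit 487) (nat_lit 402) (nat_lit 311))))) (XT.nd (nat_lit 234) (nat_lit 152) (nat_lit 0) (XT.nd (nat_lit 78) (nat_lit 0) (nat_lit 0) (XT.lf (nat_lit 0) (nat_lit 159454321395) (nat_lit 76) (nat_lit 170008352585) (nat_lit 76) (nat_lit 161428559130) (nat_lit 4) (nat_lit 4) (nat_lit 5) (nat_lit 5) (nat_lit 5) (nat_lit 4) (nat_lit 488) (nat_lit 402) (nat_lit 310)) (XT.nd (nat_lit 78) (nat_lit 0) (nat_lit 0) (XT.lf (nat_lit 0) (nat_lit 257199470055)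 (nat_lit 76) (nat_lit 139123956424) (nat_lit 76) (nat_lit 130543627760) (nat_lit 4) (nat_lit 4) (nat_lit 5) (nat_lit 5) (nat_lit 5) (nat_lit 4) (nat_lit 489) (nat_lit 402) (nat_lit 309)) (XT.lf (nat_lit 0) (nat_lit 362754045191) (nat_lit 76) (nat_lit 105774057519) (nat_lit 76) (nat_lit 97193233292) (nat_lit 4) (nat_lit 4) (nat_lit 5) (nat_lit 5) (nat_lit 5) (nat_lit 4) (nat_lit 490) (nat_lit 402) (nat_lit 308)))) (XT.nd (nat_lit 156) (nat_lit 152) (nat_lit 0) (XT.nd (nat_lit 78) (nat_lit 0) (nat_lit 0) (XT.lf (nat_lit 0) (nat_lit 476743555396) (nat_lit 76) (nat_lit 69761026841) (nat_lit 76) (nat_lit 61179743759) (nat_lit 4) (nat_lit 4) (nat_lit 5) (nat_lit 5) (nat_lit 5) (nat_lit 4) (nat_lit 491) (nat_lit 402) (nat_lit 307)) (XT.lf (nat_lit 0) (nat_lit 599843494065) (nat_lit 76) (nat_lit 30871453837) (nat_lit 76) (nat_lit 22289745889) (nat_lit 4) (nat_lit 4) (nat_lit 5) (nat_lit 5) (nat_lit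 5) (nat_lit 4) (nat_lit 492) (nat_lit 402) (nat_lit 306))) (XT.nd (nat_lit 78) (nat_lit 0) (nat_lit 0) (XT.lf (nat_lit 0) (nat_lit 19789783930) (nat_lit 152) (nat_lit 670194438125) (nat_lit 0) (nat_lit 11843393798) (nat_lit 2) (nat_lit 5) (nat_lit 4) (nat_lit 4) (nat_lit 2) (nat_lit 4) (nat_lit 493) (nat_lit 402) (nat_lit 305)) (XT.lf (nat_lit 0) (nat_lit 66320564560) (nat_lit 152) (nat_lit 629632524538) (nat_lit 0) (nat_lit 58373837156) (nat_lit 2) (nat_lit 5) (nat_lit 4) (nat_lit 4) (nat_lit 2) (nat_lit 4) (nat_lit 494) (nat_lit 402) (nat_lit 304))))))) (XT.nd (nat_lit 936) (nat_lit 0) (nat_lit 0) (XT.nd (nat_lit 468) (nat_lit 76) (nat_lit 0) (XT.nd (nat_lit 234) (nat_lit 0) (nat_lit 0) (XT.nd (nat_lit 78) (nat_lit 0) (nat_lit 0) (XT.lf (nat_lit 0) (nat_lit 116570087733) (nat_lit 152) (nat_lit 585833343322) (nat_lit 0) (nat_lit 108623048039) (nat_lit 2) (nat_lit 5) (nat_lit 4) (nat_lit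 4) (nat_lit 2) (nat_lit 4) (nat_lit 495) (nat_lit 402) (nat_lit 303)) (XT.nd (nat_lit 78) (nat_lit 0) (nat_lit 0) (XT.lf (nat_lit 0) (nat_lit 170836128400) (nat_lit 152) (nat_lit 538537343775) (nat_lit 0) (nat_lit 162888799551) (nat_lit 2) (nat_lit 5) (nat_lit 4) (nat_lit 4) (nat_lit 2) (nat_lit 4) (nat_lit 496) (nat_lit 402) (nat_lit 302)) (XT.lf (nat_lit 0) (nat_lit 229440263101) (nat_lit 152) (nat_lit 487464253307) (nat_lit 0) (nat_lit 221492666513) (nat_lit 2) (nat_lit 5) (nat_lit 4) (nat_lit 4) (nat_lit 2) (nat_lit 4) (nat_lit 497) (nat_lit 402) (nat_lit 301)))) (XT.nd (nat_lit 78) (nat_lit 0) (nat_lit 0) (XT.lf (nat_lit 0) (nat_lit 292729775594) (nat_lit 152) (nat_lit 432311416567) (nat_lit 0) (nat_lit 284781931102) (nat_lit 2) (nat_lit 5) (nat_lit 4) (nat_lit 4) (nat_lit 2) (nat_lit 4) (nat_lit 498) (nat_lit 402) (nat_lit 300)) (XT.nd (nat_lit 78) (nat_lit 0) (nat_lit 0) (XT.lf (nat_lit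 0) (nat_lit 361079714845) (nat_lit 152) (nat_lit 372752001929) (nat_lit 0) (nat_lit 353131640810) (nat_lit 2) (nat_lit 5) (nat_lit 4) (nat_lit 4) (nat_lit 2) (nat_lit 4) (nat_lit 499) (nat_lit 402) (nat_lit 299)) (XT.lf (nat_lit 0) (nat_lit 434895117529) (nat_lit 152) (nat_lit 308433064715) (nat_lit 0) (nat_lit 426946830955) (nat_lit 2) (nat_lit 5) (nat_lit 4) (nat_lit 4) (nat_lit 2) (nat_lit 4) (nat_lit 500) (nat_lit 402) (nat_lit 298))))) (XT.nd (nat_lit 234) (nat_lit 76) (nat_lit 0) (XT.nd (nat_lit 78) (nat_lit 0) (nat_lit 0) (XT.lf (nat_lit 0) (nat_lit 514613408255) (nat_lit 152) (nat_lit 238973455667) (nat_lit 0) (nat_lit 506664924886) (nat_lit 2) (nat_lit 5) (nat_lit 4) (nat_lit 4) (nat_lit 2) (nat_lit 4) (nat_lit 501) (nat_lit 402) (nat_lit 297)) (XT.nd (nat_lit 78) (nat_lit 0) (nat_lit 0) (XT.lf (nat_lit 0) (nat_lit 600706991708) (nat_lit 152) (nat_lit 163961562286) (nat_lit 0)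 (nat_lit 592758326122) (nat_lit 2) (nat_lit 5) (nat_lit 4) (nat_lit 4) (nat_lit 2) (nat_lit 4) (nat_lit 502) (nat_lit 402) (nat_lit 296)) (XT.lf (nat_lit 0) (nat_lit 693686052088) (nat_lit 152) (nat_lit 82952869650) (nat_lit 0) (nat_lit 685737217782) (nat_lit 2) (nat_lit 5) (nat_lit 4) (nat_lit 4) (nat_lit 2) (nat_lit 4) (nat_lit 503) (nat_lit 402) (nat_lit 295)))) (XT.nd (nat_lit 78) (nat_lit 0) (nat_lit 0) (XT.lf (nat_lit 0) (nat_lit 4771356321) (nat_lit 76) (nat_lit 789444971331) (nat_lit 76) (nat_lit 781495980803) (nat_lit 1) (nat_lit 4) (nat_lit 2) (nat_lit 5) (nat_lit 2) (nat_lit 4) (nat_lit 504) (nat_lit 402) (nat_lit 294)) (XT.nd (nat_lit 78) (nat_lit 0) (nat_lit 0) (XT.lf (nat_lit 0) (nat_lit 104227376259) (nat_lit 76) (nat_lit 800827914304) (nat_lit 76) (nat_lit 792878779125) (nat_lit 1) (nat_lit 4) (nat_lit 2) (nat_lit 5) (nat_lit 2) (nat_lit 4) (nat_lit 505) (nat_lit 402) (nat_lit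 293)) (XT.lf (nat_lit 0) (nat_lit 211636408061) (nat_lit 76) (nat_lit 813123283595) (nat_lit 76) (nat_lit 805174014481) (nat_lit 1) (nat_lit 4) (nat_lit 2) (nat_lit 5) (nat_lit 2) (nat_lit 4) (nat_lit 506) (nat_lit 402) (nat_lit 292)))))) (XT.nd (nat_lit 468) (nat_lit 0) (nat_lit 0) (XT.nd (nat_lit 234) (nat_lit 0) (nat_lit 0) (XT.nd (nat_lit 78) (nat_lit 0) (nat_lit 0) (XT.lf (nat_lit 0) (nat_lit 327634949693) (nat_lit 76) (nat_lit 826403940651) (nat_lit 76) (nat_lit 818454547523) (nat_lit 1) (nat_lit 4) (nat_lit 2) (nat_lit 5) (nat_lit 2) (nat_lit 4) (nat_lit 507) (nat_lit 402) (nat_lit 291)) (XT.nd (nat_lit 78) (nat_lit 0) (nat_lit 0) (XT.lf (nat_lit 0) (nat_lit 452910399919) (nat_lit 76) (nat_lit 840748585663) (nat_lit 76) (nat_lit 832799077706) (nat_lit 1) (nat_lit 4) (nat_lit 2) (nat_lit 5) (nat_lit 2) (nat_lit 4) (nat_lit 508) (nat_lit 402) (nat_lit 290)) (XT.lf (nat_lit 0) (nat_lit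 588205131778) (nat_lit 76) (nat_lit 856242223934) (nat_lit 76) (nat_lit 848292609655) (nat_lit 1) (nat_lit 4) (nat_lit 2) (nat_lit 5) (nat_lit 2) (nat_lit 4) (nat_lit 509) (nat_lit 402) (nat_lit 289)))) (XT.nd (nat_lit 78) (nat_lit 0) (nat_lit 0) (XT.lf (nat_lit 0) (nat_lit 734320891830) (nat_lit 76) (nat_lit 872976669617) (nat_lit 76) (nat_lit 865026956892) (nat_lit 1) (nat_lit 4) (nat_lit 2) (nat_lit 5) (nat_lit 2) (nat_lit 4) (nat_lit 510) (nat_lit 402) (nat_lit 288)) (XT.nd (nat_lit 78) (nat_lit 0) (nat_lit 0) (XT.lf (nat_lit 0) (nat_lit 892123551245) (nat_lit 76) (nat_lit 891051089798) (nat_lit 76) (nat_lit 883101285918) (nat_lit 1) (nat_lit 4) (nat_lit 2) (nat_lit 5) (nat_lit 2) (nat_lit 4) (nat_lit 511) (nat_lit 402) (nat_lit 287)) (XT.lf (nat_lit 0) (nat_lit 1062548236893) (nat_lit 76) (nat_lit 910572592151) (nat_lit 76) (nat_lit 902622703870) (nat_lit 1) (nat_lit 4) (nat_lit 2)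 (nat_lit 5) (nat_lit 2) (nat_lit 4) (nat_lit 512) (nat_lit 402) (nat_lit 286))))) (XT.nd (nat_lit 234) (nat_lit 0) (nat_lit 0) (XT.nd (nat_lit 78) (nat_lit 0) (nat_lit 0) (XT.lf (nat_lit 0) (nat_lit 1246604872838) (nat_lit 76) (nat_lit 931656859654) (nat_lit 76) (nat_lit 923706893223) (nat_lit 1) (nat_lit 4) (nat_lit 2) (nat_lit 5) (nat_lit 2) (nat_lit 4) (nat_lit 513) (nat_lit 402) (nat_lit 285)) (XT.nd (nat_lit 78) (nat_lit 0) (nat_lit 0) (XT.lf (nat_lit 0) (nat_lit 1445384165070) (nat_lit 76) (nat_lit 954428836114) (nat_lit 76) (nat_lit 946478797321) (nat_lit 1) (nat_lit 4) (nat_lit 2) (nat_lit 5) (nat_lit 2) (nat_lit 4) (nat_lit 514) (nat_lit 402) (nat_lit 284)) (XT.lf (nat_lit 0) (nat_lit 1660064064952) (nat_lit 76) (nat_lit 979023466577) (nat_lit 76) (nat_lit 971073360783) (nat_lit 1) (nat_lit 4) (nat_lit 2) (nat_lit 5) (nat_lit 2) (nat_lit 4) (nat_lit 515) (nat_lit 402) (nat_lit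 283)))) (XT.nd (nat_lit 156) (nat_lit 0) (nat_lit 0) (XT.nd (nat_lit 78) (nat_lit 0) (nat_lit 0) (XT.lf (nat_lit 0) (nat_lit 1891916749667) (nat_lit 76) (nat_lit 1005586497001) (nat_lit 76) (nat_lit 997636329169) (nat_lit 1) (nat_lit 4) (nat_lit 2) (nat_lit 5) (nat_lit 2) (nat_lit 4) (nat_lit 516) (nat_lit 402) (nat_lit 282)) (XT.lf (nat_lit 0) (nat_lit 2142316161050) (nat_lit 76) (nat_lit 1034275337936) (nat_lit 76) (nat_lit 1026325112662) (nat_lit 1) (nat_lit 4) (nat_lit 2) (nat_lit 5) (nat_lit 2) (nat_lit 4) (nat_lit 517) (nat_lit 402) (nat_lit 281))) (XT.nd (nat_lit 78) (nat_lit 0) (nat_lit 0) (XT.lf (nat_lit 0) (nat_lit 2412746147466) (nat_lit 76) (nat_lit 1065259997330) (nat_lit 76) (nat_lit 1057309718868) (nat_lit 1) (nat_lit 4) (nat_lit 2) (nat_lit 5) (nat_lit 2) (nat_lit 4) (nat_lit 518) (nat_lit 402) (nat_lit 280)) (XT.lf (nat_lit 0) (nat_lit 2704809256982) (nat_lit 76) (nat_lit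 1098724087978) (nat_lit 76) (nat_lit 1090773760268) (nat_lit 1) (nat_lit 4) (nat_lit 2) (nat_lit 5) (nat_lit 2) (nat_lit 4) (nat_lit 519) (nat_lit 402) (nat_lit 279))))))))
noncomputable def xc100 : XT := (XT.nd (nat_lit 54054) (nat_lit 0) (nat_lit 2888) (XT.nd (nat_lit 936) (nat_lit 0) (nat_lit 0) (XT.nd (nat_lit 468) (nat_lit 0) (nat_lit 0) (XT.nd (nat_lit 234) (nat_lit 0) (nat_lit 0) (XT.nd (nat_lit 78) (nat_lit 0) (nat_lit 0) (XT.lf (nat_lit 0) (nat_lit 3020236233950) (nat_lit 76) (nat_lit 1134865915602) (nat_lit 76) (nat_lit 1126915542292) (nat_lit 1) (nat_lit 4) (nat_lit 2) (nat_lit 5) (nat_lit 2) (nat_lit 4) (nat_lit 520) (nat_lit 402) (nat_lit 278)) (XT.nd (nat_lit 78) (nat_lit 0) (nat_lit 0) (XT.lf (nat_lit 0) (nat_lit 3360896275273) (nat_lit 76) (nat_lit 1173899653997) (nat_lit 76) (nat_lit 1165949238465) (nat_lit 1) (nat_lit 4) (nat_lit 2) (nat_lit 5) (nat_lit 2) (nat_lit 4)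 (nat_lit 521) (nat_lit 402) (nat_lit 277)) (XT.lf (nat_lit 0) (nat_lit 3728808107119) (nat_lit 76) (nat_lit 1216056614204) (nat_lit 76) (nat_lit 1208106159578) (nat_lit 1) (nat_lit 4) (nat_lit 2) (nat_lit 5) (nat_lit 2) (nat_lit 4) (nat_lit 522) (nat_lit 402) (nat_lit 276)))) (XT.nd (nat_lit 78) (nat_lit 0) (nat_lit 0) (XT.lf (nat_lit 0) (nat_lit 4126151947752) (nat_lit 76) (nat_lit 1261586615247) (nat_lit 76) (nat_lit 1253636124422) (nat_lit 1) (nat_lit 4) (nat_lit 2) (nat_lit 5) (nat_lit 2) (nat_lit 4) (nat_lit 523) (nat_lit 402) (nat_lit 275)) (XT.nd (nat_lit 78) (nat_lit 0) (nat_lit 0) (XT.lf (nat_lit 0) (nat_lit 4555282427339) (nat_lit 76) (nat_lit 1310759464539) (nat_lit 76) (nat_lit 1302808940197) (nat_lit 1) (nat_lit 4) (nat_lit 2) (nat_lit 5) (nat_lit 2) (nat_lit 4) (nat_lit 524) (nat_lit 402) (nat_lit 274)) (XT.lf (nat_lit 0) (nat_lit 5018742541314) (nat_lit 76) (nat_lit 1363866556743)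 (nat_lit 76) (nat_lit 1355916001367) (nat_lit 1) (nat_lit 4) (nat_lit 2) (nat_lit 5) (nat_lit 2) (nat_lit 4) (nat_lit 525) (nat_lit 402) (nat_lit 273))))) (XT.nd (nat_lit 234) (nat_lit 0) (nat_lit 0) (XT.nd (nat_lit 78) (nat_lit 0) (nat_lit 0) (XT.lf (nat_lit 0) (nat_lit 5519278719982) (nat_lit 76) (nat_lit 1421222600554) (nat_lit 76) (nat_lit 1413272016442) (nat_lit 1) (nat_lit 4) (nat_lit 2) (nat_lit 5) (nat_lit 2) (nat_lit 4) (nat_lit 526) (nat_lit 402) (nat_lit 272)) (XT.nd (nat_lit 78) (nat_lit 0) (nat_lit 0) (XT.lf (nat_lit 0) (nat_lit 6059857103661) (nat_lit 76) (nat_lit 1483167483638) (nat_lit 76) (nat_lit 1475216872919) (nat_lit 1) (nat_lit 4) (nat_lit 2) (nat_lit 5) (nat_lit 2) (nat_lit 4) (nat_lit 527) (nat_lit 402) (nat_lit 271)) (XT.lf (nat_lit 0) (nat_lit 6643681119811) (nat_lit 76) (nat_lit 1550068286785) (nat_lit 76) (nat_lit 1542117651429) (nat_lit 1) (nat_lit 4) (nat_lit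 2) (nat_lit 5) (nat_lit 2) (nat_lit 4) (nat_lit 528) (nat_lit 402) (nat_lit 270)))) (XT.nd (nat_lit 78) (nat_lit 0) (nat_lit 0) (XT.lf (nat_lit 0) (nat_lit 7274210466305) (nat_lit 76) (nat_lit 1622321459197) (nat_lit 76) (nat_lit 1614370801030) (nat_lit 1) (nat_lit 4) (nat_lit 2) (nat_lit 5) (nat_lit 2) (nat_lit 4) (nat_lit 529) (nat_lit 402) (nat_lit 269)) (XT.nd (nat_lit 78) (nat_lit 0) (nat_lit 0) (XT.lf (nat_lit 0) (nat_lit 7955181613343) (nat_lit 76) (nat_lit 1700355167823) (nat_lit 76) (nat_lit 1692404488535) (nat_lit 1) (nat_lit 4) (nat_lit 2) (nat_lit 5) (nat_lit 2) (nat_lit 4) (nat_lit 530) (nat_lit 402) (nat_lit 268)) (XT.lf (nat_lit 0) (nat_lit 8690629945502) (nat_lit 76) (nat_lit 1784631834639) (nat_lit 76) (nat_lit 1776681135794) (nat_lit 1) (nat_lit 4) (nat_lit 2) (nat_lit 5) (nat_lit 2) (nat_lit 4) (nat_lit 531) (nat_lit 402) (nat_lit 267)))))) (XT.nd (nat_lit 52572) (nat_lit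 0) (nat_lit 6384) (XT.nd (nat_lit 234) (nat_lit 0) (nat_lit 0) (XT.nd (nat_lit 78) (nat_lit 0) (nat_lit 0) (XT.lf (nat_lit 0) (nat_lit 9484913675119) (nat_lit 76) (nat_lit 1875650876931) (nat_lit 76) (nat_lit 1867700159978) (nat_lit 1) (nat_lit 4) (nat_lit 2) (nat_lit 5) (nat_lit 2) (nat_lit 4) (nat_lit 532) (nat_lit 402) (nat_lit 266)) (XT.nd (nat_lit 78) (nat_lit 0) (nat_lit 0) (XT.lf (nat_lit 0) (nat_lit 10342739668741) (nat_lit 76) (nat_lit 1973951666801) (nat_lit 76) (nat_lit 1966000933081) (nat_lit 1) (nat_lit 4) (nat_lit 2) (nat_lit 5) (nat_lit 2) (nat_lit 4) (nat_lit 533) (nat_lit 402) (nat_lit 265)) (XT.lf (nat_lit 0) (nat_lit 11269191339663) (nat_lit 76) (nat_lit 2080116727448) (nat_lit 76) (nat_lit 2072165978203) (nat_lit 1) (nat_lit 4) (nat_lit 2) (nat_lit 5) (nat_lit 2) (nat_lit 4) (nat_lit 534) (nat_lit 402) (nat_lit 264)))) (XT.nd (nat_lit 52182) (nat_lit 0) (nat_lit 7372)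 (XT.lf (nat_lit 0) (nat_lit 12269758771862) (nat_lit 76) (nat_lit 2194775185158) (nat_lit 76) (nat_lit 2186824421538) (nat_lit 1) (nat_lit 4) (nat_lit 2) (nat_lit 5) (nat_lit 2) (nat_lit 4) (nat_lit 535) (nat_lit 402) (nat_lit 263)) (XT.nd (nat_lit 78) (nat_lit 0) (nat_lit 0) (XT.lf (nat_lit 0) (nat_lit 794104935) (nat_lit 0) (nat_lit 794104935) (nat_lit 228) (nat_lit 1760179657) (nat_lit 98) (nat_lit 5) (nat_lit 98) (nat_lit 3) (nat_lit 101) (nat_lit 3) (nat_lit 403) (nat_lit 403) (nat_lit 394)) (XT.lf (nat_lit 0) (nat_lit 5066933501) (nat_lit 0) (nat_lit 362294696) (nat_lit 228) (nat_lit 1364567783) (nat_lit 98) (nat_lit 5) (nat_lit 98) (nat_lit 3) (nat_lit 101) (nat_lit 3) (nat_lit 404) (nat_lit 403) (nat_lit 393))))) (XT.nd (nat_lit 234) (nat_lit 684) (nat_lit 0) (XT.nd (nat_lit 78) (nat_lit 0) (nat_lit 0) (XT.lf (nat_lit 0) (nat_lit 769692622) (nat_lit 304) (nat_lit 5059704371) (nat_lit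 380) (nat_lit 1079059646) (nat_lit 94) (nat_lit 5) (nat_lit 98) (nat_lit 5) (nat_lit 99) (nat_lit 5) (nat_lit 405) (nat_lit 403) (nat_lit 392)) (XT.nd (nat_lit 78) (nat_lit 0) (nat_lit 0) (XT.lf (nat_lit 0) (nat_lit 2856115008) (nat_lit 304) (nat_lit 1399511051) (nat_lit 380) (nat_lit 2785485282) (nat_lit 94) (nat_lit 5) (nat_lit 98) (nat_lit 5) (nat_lit 99) (nat_lit 5) (nat_lit 406) (nat_lit 403) (nat_lit 391)) (XT.lf (nat_lit 76) (nat_lit 2557798639) (nat_lit 0) (nat_lit 2425474278) (nat_lit 380) (nat_lit 2211262830) (nat_lit 95) (nat_lit 5) (nat_lit 94) (nat_lit 5) (nat_lit 99) (nat_lit 5) (nat_lit 407) (nat_lit 403) (nat_lit 390)))) (XT.nd (nat_lit 156) (nat_lit 380) (nat_lit 0) (XT.nd (nat_lit 78) (nat_lit 304) (nat_lit 0) (XT.lf (nat_lit 76) (nat_lit 6790764388) (nat_lit 0) (nat_lit 351415500) (nat_lit 380) (nat_lit 229186501) (nat_lit 95) (nat_lit 5) (nat_lit 94) (nat_lit 5) (nat_lit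 99) (nat_lit 5) (nat_lit 408) (nat_lit 403) (nat_lit 389)) (XT.lf (nat_lit 0) (nat_lit 1790068748) (nat_lit 380) (nat_lit 3790026265) (nat_lit 76) (nat_lit 1980682365) (nat_lit 90) (nat_lit 5) (nat_lit 95) (nat_lit 5) (nat_lit 91) (nat_lit 5) (nat_lit 409) (nat_lit 403) (nat_lit 388))) (XT.nd (nat_lit 78) (nat_lit 0) (nat_lit 0) (XT.lf (nat_lit 0) (nat_lit 623743907) (nat_lit 380) (nat_lit 3217848270) (nat_lit 456) (nat_lit 3932670412) (nat_lit 85) (nat_lit 5) (nat_lit 90) (nat_lit 5) (nat_lit 91) (nat_lit 5) (nat_lit 410) (nat_lit 403) (nat_lit 387)) (XT.lf (nat_lit 0) (nat_lit 5478351544) (nat_lit 380) (nat_lit 533784556) (nat_lit 456) (nat_lit 1996341551) (nat_lit 85) (nat_lit 5) (nat_lit 90) (nat_lit 5) (nat_lit 91) (nat_lit 5) (nat_lit 411) (nat_lit 403) (nat_lit 386))))))) (XT.nd (nat_lit 936) (nat_lit 1216) (nat_lit 0) (XT.nd (nat_lit 468) (nat_lit 760) (nat_lit 0) (XT.nd (nat_lit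 234) (nat_lit 532) (nat_lit 0) (XT.nd (nat_lit 78) (nat_lit 456) (nat_lit 0) (XT.lf (nat_lit 0) (nat_lit 66698244) (nat_lit 532) (nat_lit 5872125377) (nat_lit 76) (nat_lit 2324336393) (nat_lit 78) (nat_lit 5) (nat_lit 85) (nat_lit 5) (nat_lit 79) (nat_lit 5) (nat_lit 412) (nat_lit 403) (nat_lit 385)) (XT.nd (nat_lit 78) (nat_lit 456) (nat_lit 0) (XT.lf (nat_lit 0) (nat_lit 2138229140) (nat_lit 532) (nat_lit 884058272) (nat_lit 76) (nat_lit 5515711211) (nat_lit 78) (nat_lit 5) (nat_lit 85) (nat_lit 5) (nat_lit 79) (nat_lit 5) (nat_lit 413) (nat_lit 403) (nat_lit 384)) (XT.lf (nat_lit 0) (nat_lit 4368651092) (nat_lit 532) (nat_lit 4231903119) (nat_lit 76) (nat_lit 234848172) (nat_lit 72) (nat_lit 5) (nat_lit 79) (nat_lit 5) (nat_lit 73) (nat_lit 5) (nat_lit 414) (nat_lit 403) (nat_lit 383)))) (XT.nd (nat_lit 78) (nat_lit 304) (nat_lit 0) (XT.lf (nat_lit 0) (nat_lit 1280658037) (nat_lit 228)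 (nat_lit 5513484365) (nat_lit 304) (nat_lit 2361154408) (nat_lit 69) (nat_lit 5) (nat_lit 72) (nat_lit 5) (nat_lit 73) (nat_lit 5) (nat_lit 415) (nat_lit 403) (nat_lit 382)) (XT.nd (nat_lit 78) (nat_lit 304) (nat_lit 0) (XT.lf (nat_lit 0) (nat_lit 7348235330) (nat_lit 228) (nat_lit 2069335534) (nat_lit 304) (nat_lit 82927147) (nat_lit 69) (nat_lit 5) (nat_lit 72) (nat_lit 5) (nat_lit 73) (nat_lit 5) (nat_lit 416) (nat_lit 403) (nat_lit 381)) (XT.lf (nat_lit 0) (nat_lit 2293101739) (nat_lit 304) (nat_lit 5862329206) (nat_lit 76) (nat_lit 1710574845) (nat_lit 65) (nat_lit 5) (nat_lit 69) (nat_lit 5) (nat_lit 66) (nat_lit 5) (nat_lit 417) (nat_lit 403) (nat_lit 380))))) (XT.nd (nat_lit 234) (nat_lit 380) (nat_lit 0) (XT.nd (nat_lit 78) (nat_lit 228) (nat_lit 0) (XT.lf (nat_lit 0) (nat_lit 351117778) (nat_lit 152) (nat_lit 4524486085) (nat_lit 228) (nat_lit 5383329792) (nat_lit 63) (nat_lit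 5) (nat_lit 65) (nat_lit 5) (nat_lit 66) (nat_lit 5) (nat_lit 418) (nat_lit 403) (nat_lit 379)) (XT.nd (nat_lit 78) (nat_lit 228) (nat_lit 0) (XT.lf (nat_lit 0) (nat_lit 7270802469) (nat_lit 152) (nat_lit 457038088) (nat_lit 228) (nat_lit 2950424323) (nat_lit 63) (nat_lit 5) (nat_lit 65) (nat_lit 5) (nat_lit 66) (nat_lit 5) (nat_lit 419) (nat_lit 403) (nat_lit 378)) (XT.lf (nat_lit 0) (nat_lit 3575479911) (nat_lit 228) (nat_lit 7322864182) (nat_lit 304) (nat_lit 225609885) (nat_lit 60) (nat_lit 5) (nat_lit 63) (nat_lit 5) (nat_lit 64) (nat_lit 5) (nat_lit 420) (nat_lit 403) (nat_lit 377)))) (XT.nd (nat_lit 78) (nat_lit 304) (nat_lit 0) (XT.lf (nat_lit 0) (nat_lit 2599751655) (nat_lit 304) (nat_lit 489905799) (nat_lit 76) (nat_lit 8508949714) (nat_lit 59) (nat_lit 5) (nat_lit 63) (nat_lit 5) (nat_lit 60) (nat_lit 5) (nat_lit 421) (nat_lit 403) (nat_lit 376)) (XT.nd (nat_lit 78) (nat_lit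 152) (nat_lit 0) (XT.lf (nat_lit 0) (nat_lit 5773774080) (nat_lit 228) (nat_lit 4760146918) (nat_lit 76) (nat_lit 1566071767) (nat_lit 57) (nat_lit 5) (nat_lit 60) (nat_lit 5) (nat_lit 58) (nat_lit 5) (nat_lit 422) (nat_lit 403) (nat_lit 375)) (XT.lf (nat_lit 0) (nat_lit 3143263985) (nat_lit 152) (nat_lit 6148313826) (nat_lit 228) (nat_lit 3342736170) (nat_lit 55) (nat_lit 5) (nat_lit 57) (nat_lit 5) (nat_lit 58) (nat_lit 5) (nat_lit 423) (nat_lit 403) (nat_lit 374)))))) (XT.nd (nat_lit 468) (nat_lit 532) (nat_lit 0) (XT.nd (nat_lit 234) (nat_lit 304) (nat_lit 0) (XT.nd (nat_lit 78) (nat_lit 380) (nat_lit 0) (XT.lf (nat_lit 0) (nat_lit 11835821002) (nat_lit 152) (nat_lit 1308574012) (nat_lit 228) (nat_lit 62711276) (nat_lit 55) (nat_lit 5) (nat_lit 57) (nat_lit 5) (nat_lit 58) (nat_lit 5) (nat_lit 424) (nat_lit 403) (nat_lit 373)) (XT.nd (nat_lit 78) (nat_lit 152) (nat_lit 0) (XT.lf (nat_lit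 0) (nat_lit 3515581455) (nat_lit 228) (nat_lit 6326001118) (nat_lit 76) (nat_lit 3960660346) (nat_lit 52) (nat_lit 5) (nat_lit 55) (nat_lit 5) (nat_lit 53) (nat_lit 5) (nat_lit 425) (nat_lit 403) (nat_lit 372)) (XT.lf (nat_lit 0) (nat_lit 2652454039) (nat_lit 152) (nat_lit 4789748462) (nat_lit 228) (nat_lit 6997431382) (nat_lit 50) (nat_lit 5) (nat_lit 52) (nat_lit 5) (nat_lit 53) (nat_lit 5) (nat_lit 426) (nat_lit 403) (nat_lit 371)))) (XT.nd (nat_lit 78) (nat_lit 304) (nat_lit 0) (XT.lf (nat_lit 0) (nat_lit 11807307586) (nat_lit 228) (nat_lit 2538629450) (nat_lit 76) (nat_lit 772139947) (nat_lit 50) (nat_lit 5) (nat_lit 53) (nat_lit 5) (nat_lit 51) (nat_lit 4) (nat_lit 427) (nat_lit 403) (nat_lit 370)) (XT.nd (nat_lit 78) (nat_lit 152) (nat_lit 0) (XT.lf (nat_lit 0) (nat_lit 886788322) (nat_lit 152) (nat_lit 8252687221) (nat_lit 76) (nat_lit 6690075599) (nat_lit 48) (nat_lit 5) (nat_lit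 50) (nat_lit 5) (nat_lit 49) (nat_lit 5) (nat_lit 428) (nat_lit 403) (nat_lit 369)) (XT.lf (nat_lit 0) (nat_lit 1958537963) (nat_lit 152) (nat_lit 3337737200) (nat_lit 228) (nat_lit 11290396497) (nat_lit 46) (nat_lit 5) (nat_lit 48) (nat_lit 5) (nat_lit 49) (nat_lit 5) (nat_lit 429) (nat_lit 403) (nat_lit 368))))) (XT.nd (nat_lit 234) (nat_lit 228) (nat_lit 0) (XT.nd (nat_lit 78) (nat_lit 304) (nat_lit 0) (XT.lf (nat_lit 0) (nat_lit 10298349615) (nat_lit 228) (nat_lit 4113047896) (nat_lit 76) (nat_lit 2973784785) (nat_lit 46) (nat_lit 5) (nat_lit 49) (nat_lit 5) (nat_lit 47) (nat_lit 4) (nat_lit 430) (nat_lit 403) (nat_lit 367)) (XT.nd (nat_lit 78) (nat_lit 228) (nat_lit 0) (XT.lf (nat_lit 0) (nat_lit 7429642962) (nat_lit 76) (nat_lit 8478827281) (nat_lit 152) (nat_lit 2322479390) (nat_lit 45) (nat_lit 5) (nat_lit 46) (nat_lit 5) (nat_lit 47) (nat_lit 4) (nat_lit 431) (nat_lit 403) (nat_lit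 366)) (XT.lf (nat_lit 0) (nat_lit 867796495) (nat_lit 152) (nat_lit 1893259024) (nat_lit 228) (nat_lit 16371556522) (nat_lit 42) (nat_lit 5) (nat_lit 44) (nat_lit 5) (nat_lit 45) (nat_lit 5) (nat_lit 432) (nat_lit 403) (nat_lit 365)))) (XT.nd (nat_lit 156) (nat_lit 152) (nat_lit 0) (XT.nd (nat_lit 78) (nat_lit 76) (nat_lit 0) (XT.lf (nat_lit 0) (nat_lit 8498222362) (nat_lit 228) (nat_lit 6291575783) (nat_lit 76) (nat_lit 5281994473) (nat_lit 42) (nat_lit 5) (nat_lit 45) (nat_lit 5) (nat_lit 43) (nat_lit 4) (nat_lit 433) (nat_lit 403) (nat_lit 364)) (XT.lf (nat_lit 0) (nat_lit 6839928407) (nat_lit 76) (nat_lit 8016170204) (nat_lit 152) (nat_lit 6217074753) (nat_lit 41) (nat_lit 5) (nat_lit 42) (nat_lit 5) (nat_lit 43) (nat_lit 4) (nat_lit 434) (nat_lit 403) (nat_lit 363))) (XT.nd (nat_lit 78) (nat_lit 152) (nat_lit 0) (XT.lf (nat_lit 0) (nat_lit 21289524107) (nat_lit 76) (nat_lit 554840958)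 (nat_lit 152) (nat_lit 300562960) (nat_lit 41) (nat_lit 5) (nat_lit 42) (nat_lit 5) (nat_lit 43) (nat_lit 4) (nat_lit 435) (nat_lit 403) (nat_lit 362)) (XT.lf (nat_lit 0) (nat_lit 6267263598) (nat_lit 152) (nat_lit 9395928281) (nat_lit 76) (nat_lit 7588910770) (nat_lit 39) (nat_lit 5) (nat_lit 41) (nat_lit 5) (nat_lit 40) (nat_lit 4) (nat_lit 436) (nat_lit 403) (nat_lit 361))))))))
noncomputable def xc101 : XT := (XT.nd (nat_lit 1950) (nat_lit 912) (nat_lit 0) (XT.nd (nat_lit 936) (nat_lit 912) (nat_lit 0) (XT.nd (nat_lit 468) (nat_lit 380) (nat_lit 0) (XT.nd (nat_lit 234) (nat_lit 152) (nat_lit 0) (XT.nd (nat_lit 78) (nat_lit 152) (nat_lit 0) (XT.lf (nat_lit 0) (nat_lit 5513647902) (nat_lit 76) (nat_lit 7954502516) (nat_lit 152) (nat_lit 10969169879) (nat_lit 38) (nat_lit 5) (nat_lit 39) (nat_lit 5) (nat_lit 40) (nat_lit 4) (nat_lit 437) (nat_lit 403) (nat_lit 360)) (XT.nd (nat_lit 78)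 (nat_lit 152) (nat_lit 0) (XT.lf (nat_lit 0) (nat_lit 21470989948) (nat_lit 152) (nat_lit 3649267732) (nat_lit 0) (nat_lit 579030270) (nat_lit 38) (nat_lit 5) (nat_lit 40) (nat_lit 4) (nat_lit 38) (nat_lit 4) (nat_lit 438) (nat_lit 403) (nat_lit 359)) (XT.lf (nat_lit 0) (nat_lit 3393098477) (nat_lit 152) (nat_lit 13888508502) (nat_lit 76) (nat_lit 9735223337) (nat_lit 36) (nat_lit 5) (nat_lit 38) (nat_lit 5) (nat_lit 37) (nat_lit 4) (nat_lit 439) (nat_lit 403) (nat_lit 358)))) (XT.nd (nat_lit 78) (nat_lit 76) (nat_lit 0) (XT.lf (nat_lit 0) (nat_lit 2979515774) (nat_lit 76) (nat_lit 8547334428) (nat_lit 152) (nat_lit 16893655768) (nat_lit 35) (nat_lit 5) (nat_lit 36) (nat_lit 5) (nat_lit 37) (nat_lit 4) (nat_lit 440) (nat_lit 403) (nat_lit 357)) (XT.nd (nat_lit 78) (nat_lit 76) (nat_lit 0) (XT.lf (nat_lit 0) (nat_lit 20679644113) (nat_lit 152) (nat_lit 8031791814) (nat_lit 0) (nat_lit 1195574691)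 (nat_lit 35) (nat_lit 5) (nat_lit 37) (nat_lit 4) (nat_lit 35) (nat_lit 4) (nat_lit 441) (nat_lit 403) (nat_lit 356)) (XT.lf (nat_lit 0) (nat_lit 11024274731) (nat_lit 76) (nat_lit 19988123733) (nat_lit 76) (nat_lit 464220354) (nat_lit 34) (nat_lit 4) (nat_lit 35) (nat_lit 5) (nat_lit 35) (nat_lit 4) (nat_lit 442) (nat_lit 403) (nat_lit 355))))) (XT.nd (nat_lit 234) (nat_lit 152) (nat_lit 0) (XT.nd (nat_lit 78) (nat_lit 152) (nat_lit 0) (XT.lf (nat_lit 0) (nat_lit 8735821225) (nat_lit 152) (nat_lit 1390278523) (nat_lit 76) (nat_lit 23013497056) (nat_lit 33) (nat_lit 5) (nat_lit 35) (nat_lit 5) (nat_lit 34) (nat_lit 4) (nat_lit 443) (nat_lit 403) (nat_lit 354)) (XT.nd (nat_lit 78) (nat_lit 76) (nat_lit 0) (XT.lf (nat_lit 0) (nat_lit 19119062569) (nat_lit 152) (nat_lit 14802203849) (nat_lit 0) (nat_lit 975601579) (nat_lit 32) (nat_lit 5) (nat_lit 34) (nat_lit 4) (nat_lit 32) (nat_lit 4) (nat_lit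 444) (nat_lit 403) (nat_lit 353)) (XT.lf (nat_lit 0) (nat_lit 6580813313) (nat_lit 76) (nat_lit 24176356381) (nat_lit 76) (nat_lit 6003616243) (nat_lit 31) (nat_lit 4) (nat_lit 32) (nat_lit 5) (nat_lit 32) (nat_lit 4) (nat_lit 445) (nat_lit 403) (nat_lit 352)))) (XT.nd (nat_lit 78) (nat_lit 76) (nat_lit 0) (XT.lf (nat_lit 0) (nat_lit 4704041749) (nat_lit 152) (nat_lit 8415443620) (nat_lit 76) (nat_lit 25615232769) (nat_lit 30) (nat_lit 5) (nat_lit 32) (nat_lit 5) (nat_lit 31) (nat_lit 4) (nat_lit 446) (nat_lit 403) (nat_lit 351)) (XT.nd (nat_lit 78) (nat_lit 0) (nat_lit 0) (XT.lf (nat_lit 0) (nat_lit 15652213406) (nat_lit 76) (nat_lit 634885639) (nat_lit 152) (nat_lit 24539541037) (nat_lit 29) (nat_lit 5) (nat_lit 30) (nat_lit 5) (nat_lit 31) (nat_lit 4) (nat_lit 447) (nat_lit 403) (nat_lit 350)) (XT.lf (nat_lit 0) (nat_lit 29308772057) (nat_lit 152) (nat_lit 1323892296) (nat_lit 0) (nat_lit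 12412294891) (nat_lit 29) (nat_lit 5) (nat_lit 31) (nat_lit 4) (nat_lit 29) (nat_lit 4) (nat_lit 448) (nat_lit 403) (nat_lit 349)))))) (XT.nd (nat_lit 468) (nat_lit 456) (nat_lit 0) (XT.nd (nat_lit 234) (nat_lit 228) (nat_lit 0) (XT.nd (nat_lit 78) (nat_lit 152) (nat_lit 0) (XT.lf (nat_lit 0) (nat_lit 25640387797) (nat_lit 76) (nat_lit 18334281039) (nat_lit 76) (nat_lit 1417876976) (nat_lit 28) (nat_lit 4) (nat_lit 29) (nat_lit 5) (nat_lit 29) (nat_lit 4) (nat_lit 449) (nat_lit 403) (nat_lit 348)) (XT.nd (nat_lit 78) (nat_lit 0) (nat_lit 0) (XT.lf (nat_lit 0) (nat_lit 6910425643) (nat_lit 76) (nat_lit 4553651536) (nat_lit 152) (nat_lit 36427173760) (nat_lit 26) (nat_lit 5) (nat_lit 27) (nat_lit 5) (nat_lit 28) (nat_lit 4) (nat_lit 450) (nat_lit 403) (nat_lit 347)) (XT.lf (nat_lit 0) (nat_lit 26072063431) (nat_lit 152) (nat_lit 14077253797) (nat_lit 0) (nat_lit 10375823623) (nat_lit 26)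 (nat_lit 5) (nat_lit 28) (nat_lit 4) (nat_lit 26) (nat_lit 4) (nat_lit 451) (nat_lit 403) (nat_lit 346)))) (XT.nd (nat_lit 78) (nat_lit 152) (nat_lit 0) (XT.lf (nat_lit 0) (nat_lit 15583714803) (nat_lit 76) (nat_lit 26729861783) (nat_lit 76) (nat_lit 11018975112) (nat_lit 25) (nat_lit 4) (nat_lit 26) (nat_lit 5) (nat_lit 26) (nat_lit 4) (nat_lit 452) (nat_lit 403) (nat_lit 345)) (XT.nd (nat_lit 78) (nat_lit 76) (nat_lit 0) (XT.lf (nat_lit 0) (nat_lit 3682053604) (nat_lit 152) (nat_lit 8065777084) (nat_lit 76) (nat_lit 44580668917) (nat_lit 24) (nat_lit 5) (nat_lit 26) (nat_lit 5) (nat_lit 25) (nat_lit 4) (nat_lit 453) (nat_lit 403) (nat_lit 344)) (XT.lf (nat_lit 0) (nat_lit 19665613817) (nat_lit 152) (nat_lit 34725160720) (nat_lit 0) (nat_lit 5094312053) (nat_lit 23) (nat_lit 5) (nat_lit 25) (nat_lit 4) (nat_lit 23) (nat_lit 4) (nat_lit 454) (nat_lit 403) (nat_lit 343))))) (XT.nd (nat_lit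 234) (nat_lit 228) (nat_lit 0) (XT.nd (nat_lit 78) (nat_lit 228) (nat_lit 0) (XT.lf (nat_lit 0) (nat_lit 37433318308) (nat_lit 152) (nat_lit 2569195386) (nat_lit 0) (nat_lit 22851250661) (nat_lit 23) (nat_lit 5) (nat_lit 25) (nat_lit 4) (nat_lit 23) (nat_lit 4) (nat_lit 455) (nat_lit 403) (nat_lit 342)) (XT.nd (nat_lit 78) (nat_lit 152) (nat_lit 0) (XT.lf (nat_lit 0) (nat_lit 33801852909) (nat_lit 76) (nat_lit 23609503327) (nat_lit 76) (nat_lit 9017467271) (nat_lit 22) (nat_lit 4) (nat_lit 23) (nat_lit 5) (nat_lit 23) (nat_lit 4) (nat_lit 456) (nat_lit 403) (nat_lit 341)) (XT.lf (nat_lit 0) (nat_lit 2826475681) (nat_lit 76) (nat_lit 5552246311) (nat_lit 152) (nat_lit 61885145861) (nat_lit 20) (nat_lit 5) (nat_lit 21) (nat_lit 5) (nat_lit 22) (nat_lit 4) (nat_lit 457) (nat_lit 403) (nat_lit 340)))) (XT.nd (nat_lit 156) (nat_lit 152) (nat_lit 0) (XT.nd (nat_lit 78) (nat_lit 76) (nat_lit 0)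 (XT.lf (nat_lit 0) (nat_lit 27906259289) (nat_lit 152) (nat_lit 32003917616) (nat_lit 0) (nat_lit 14378655245) (nat_lit 20) (nat_lit 5) (nat_lit 22) (nat_lit 4) (nat_lit 20) (nat_lit 4) (nat_lit 458) (nat_lit 403) (nat_lit 339)) (XT.lf (nat_lit 0) (nat_lit 6395104002) (nat_lit 76) (nat_lit 42876775360) (nat_lit 76) (nat_lit 29341844237) (nat_lit 19) (nat_lit 4) (nat_lit 20) (nat_lit 5) (nat_lit 20) (nat_lit 4) (nat_lit 459) (nat_lit 403) (nat_lit 338))) (XT.nd (nat_lit 78) (nat_lit 152) (nat_lit 0) (XT.lf (nat_lit 0) (nat_lit 49642447617) (nat_lit 76) (nat_lit 23557797442) (nat_lit 76) (nat_lit 10016081988) (nat_lit 19) (nat_lit 4) (nat_lit 20) (nat_lit 5) (nat_lit 20) (nat_lit 4) (nat_lit 460) (nat_lit 403) (nat_lit 337)) (XT.lf (nat_lit 0) (nat_lit 8273710877) (nat_lit 76) (nat_lit 2217494949) (nat_lit 152) (nat_lit 77660765770) (nat_lit 17) (nat_lit 5) (nat_lit 18) (nat_lit 5) (nat_lit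 19) (nat_lit 4) (nat_lit 461) (nat_lit 403) (nat_lit 336))))))) (XT.nd (nat_lit 936) (nat_lit 380) (nat_lit 0) (XT.nd (nat_lit 468) (nat_lit 304) (nat_lit 0) (XT.nd (nat_lit 234) (nat_lit 152) (nat_lit 0) (XT.nd (nat_lit 78) (nat_lit 76) (nat_lit 0) (XT.lf (nat_lit 0) (nat_lit 33520301767) (nat_lit 152) (nat_lit 38857091044) (nat_lit 0) (nat_lit 20970474254) (nat_lit 17) (nat_lit 5) (nat_lit 19) (nat_lit 4) (nat_lit 17) (nat_lit 4) (nat_lit 462) (nat_lit 403) (nat_lit 335)) (XT.nd (nat_lit 78) (nat_lit 0) (nat_lit 0) (XT.lf (nat_lit 0) (nat_lit 5631377905) (nat_lit 76) (nat_lit 52934470448) (nat_lit 76) (nat_lit 40379656249) (nat_lit 16) (nat_lit 4) (nat_lit 17) (nat_lit 5) (nat_lit 17) (nat_lit 4) (nat_lit 463) (nat_lit 403) (nat_lit 334)) (XT.lf (nat_lit 0) (nat_lit 55851234930) (nat_lit 76) (nat_lit 30807814547) (nat_lit 76) (nat_lit 18248383046) (nat_lit 16) (nat_lit 4) (nat_lit 17)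 (nat_lit 5) (nat_lit 17) (nat_lit 4) (nat_lit 464) (nat_lit 403) (nat_lit 333)))) (XT.nd (nat_lit 78) (nat_lit 76) (nat_lit 0) (XT.lf (nat_lit 0) (nat_lit 5353096299) (nat_lit 152) (nat_lit 1429266477) (nat_lit 76) (nat_lit 104554474188) (nat_lit 15) (nat_lit 5) (nat_lit 17) (nat_lit 5) (nat_lit 16) (nat_lit 4) (nat_lit 465) (nat_lit 403) (nat_lit 332)) (XT.nd (nat_lit 78) (nat_lit 0) (nat_lit 0) (XT.lf (nat_lit 0) (nat_lit 31599176241) (nat_lit 152) (nat_lit 66541660443) (nat_lit 0) (nat_lit 19962449044) (nat_lit 14) (nat_lit 5) (nat_lit 16) (nat_lit 4) (nat_lit 14) (nat_lit 4) (nat_lit 466) (nat_lit 403) (nat_lit 331)) (XT.lf (nat_lit 0) (nat_lit 60145037483) (nat_lit 152) (nat_lit 16745089066) (nat_lit 0) (nat_lit 48504916431) (nat_lit 14) (nat_lit 5) (nat_lit 16) (nat_lit 4) (nat_lit 14) (nat_lit 4) (nat_lit 467) (nat_lit 403) (nat_lit 330))))) (XT.nd (nat_lit 234) (nat_lit 76) (nat_lit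 0) (XT.nd (nat_lit 78) (nat_lit 152) (nat_lit 0) (XT.lf (nat_lit 0) (nat_lit 38953196610) (nat_lit 76) (nat_lit 52943229598) (nat_lit 76) (nat_lit 41299966087) (nat_lit 13) (nat_lit 4) (nat_lit 14) (nat_lit 5) (nat_lit 14) (nat_lit 4) (nat_lit 468) (nat_lit 403) (nat_lit 329)) (XT.nd (nat_lit 78) (nat_lit 152) (nat_lit 0) (XT.lf (nat_lit 0) (nat_lit 100029820014) (nat_lit 76) (nat_lit 26601370852) (nat_lit 76) (nat_lit 14955197658) (nat_lit 13) (nat_lit 4) (nat_lit 14) (nat_lit 5) (nat_lit 14) (nat_lit 4) (nat_lit 469) (nat_lit 403) (nat_lit 328)) (XT.lf (nat_lit 0) (nat_lit 13250049797) (nat_lit 152) (nat_lit 134873258345) (nat_lit 0) (nat_lit 2464061514) (nat_lit 11) (nat_lit 5) (nat_lit 13) (nat_lit 4) (nat_lit 11) (nat_lit 4) (nat_lit 470) (nat_lit 403) (nat_lit 327)))) (XT.nd (nat_lit 78) (nat_lit 76) (nat_lit 0) (XT.lf (nat_lit 0) (nat_lit 44746609510) (nat_lit 152) (nat_lit 81425003804)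 (nat_lit 0) (nat_lit 33958311427) (nat_lit 11) (nat_lit 5) (nat_lit 13) (nat_lit 4) (nat_lit 11) (nat_lit 4) (nat_lit 471) (nat_lit 403) (nat_lit 326)) (XT.nd (nat_lit 78) (nat_lit 76) (nat_lit 0) (XT.lf (nat_lit 0) (nat_lit 78750092318) (nat_lit 152) (nat_lit 23727160633) (nat_lit 0) (nat_lit 67959655530) (nat_lit 11) (nat_lit 5) (nat_lit 13) (nat_lit 4) (nat_lit 11) (nat_lit 4) (nat_lit 472) (nat_lit 403) (nat_lit 325)) (XT.lf (nat_lit 0) (nat_lit 40592800598) (nat_lit 76) (nat_lit 75845457572) (nat_lit 76) (nat_lit 65053040503) (nat_lit 10) (nat_lit 4) (nat_lit 11) (nat_lit 5) (nat_lit 11) (nat_lit 4) (nat_lit 473) (nat_lit 403) (nat_lit 324)))))) (XT.nd (nat_lit 468) (nat_lit 152) (nat_lit 0) (XT.nd (nat_lit 234) (nat_lit 76) (nat_lit 0) (XT.nd (nat_lit 78) (nat_lit 152) (nat_lit 0) (XT.lf (nat_lit 0) (nat_lit 111384033539) (nat_lit 76) (nat_lit 46394640771) (nat_lit 76) (nat_lit 35600390107)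 (nat_lit 10) (nat_lit 4) (nat_lit 11) (nat_lit 5) (nat_lit 11) (nat_lit 4) (nat_lit 474) (nat_lit 403) (nat_lit 323)) (XT.nd (nat_lit 78) (nat_lit 152) (nat_lit 0) (XT.lf (nat_lit 0) (nat_lit 187816611561) (nat_lit 76) (nat_lit 14599021809) (nat_lit 76) (nat_lit 3803073373) (nat_lit 10) (nat_lit 4) (nat_lit 11) (nat_lit 5) (nat_lit 11) (nat_lit 4) (nat_lit 475) (nat_lit 403) (nat_lit 322)) (XT.lf (nat_lit 0) (nat_lit 30780120417) (nat_lit 152) (nat_lit 168322650381) (nat_lit 0) (nat_lit 20782416299) (nat_lit 8) (nat_lit 5) (nat_lit 10) (nat_lit 4) (nat_lit 8) (nat_lit 4) (nat_lit 476) (nat_lit 403) (nat_lit 321)))) (XT.nd (nat_lit 78) (nat_lit 76) (nat_lit 0) (XT.lf (nat_lit 0) (nat_lit 68809771398) (nat_lit 152) (nat_lit 106945771218) (nat_lit 0) (nat_lit 58810719533) (nat_lit 8) (nat_lit 5) (nat_lit 10) (nat_lit 4) (nat_lit 8) (nat_lit 4) (nat_lit 477) (nat_lit 403) (nat_lit 320)) (XT.nd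 (nat_lit 78) (nat_lit 76) (nat_lit 0) (XT.lf (nat_lit 0) (nat_lit 109872402272) (nat_lit 152) (nat_lit 40678069881) (nat_lit 0) (nat_lit 99872102494) (nat_lit 8) (nat_lit 5) (nat_lit 10) (nat_lit 4) (nat_lit 8) (nat_lit 4) (nat_lit 478) (nat_lit 403) (nat_lit 319)) (XT.lf (nat_lit 0) (nat_lit 32498876545) (nat_lit 76) (nat_lit 122494069365) (nat_lit 76) (nat_lit 112492614111) (nat_lit 7) (nat_lit 4) (nat_lit 8) (nat_lit 5) (nat_lit 8) (nat_lit 4) (nat_lit 479) (nat_lit 403) (nat_lit 318))))) (XT.nd (nat_lit 234) (nat_lit 152) (nat_lit 0) (XT.nd (nat_lit 78) (nat_lit 0) (nat_lit 0) (XT.lf (nat_lit 0) (nat_lit 113825933194) (nat_lit 76) (nat_lit 91000938565) (nat_lit 76) (nat_lit 80998413427) (nat_lit 7) (nat_lit 4) (nat_lit 8) (nat_lit 5) (nat_lit 8) (nat_lit 4) (nat_lit 480) (nat_lit 403) (nat_lit 317)) (XT.nd (nat_lit 78) (nat_lit 0) (nat_lit 0) (XT.lf (nat_lit 0) (nat_lit 201643003108)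 (nat_lit 76) (nat_lit 56996664311) (nat_lit 76) (nat_lit 46993148539) (nat_lit 7) (nat_lit 4) (nat_lit 8) (nat_lit 5) (nat_lit 8) (nat_lit 4) (nat_lit 481) (nat_lit 403) (nat_lit 316)) (XT.lf (nat_lit 0) (nat_lit 296470483737) (nat_lit 76) (nat_lit 20279739792) (nat_lit 76) (nat_lit 10275306767) (nat_lit 7) (nat_lit 4) (nat_lit 8) (nat_lit 5) (nat_lit 8) (nat_lit 4) (nat_lit 482) (nat_lit 403) (nat_lit 315)))) (XT.nd (nat_lit 156) (nat_lit 0) (nat_lit 0) (XT.nd (nat_lit 78) (nat_lit 0) (nat_lit 0) (XT.lf (nat_lit 0) (nat_lit 29635121604) (nat_lit 152) (nat_lit 299929052704) (nat_lit 0) (nat_lit 20370971294) (nat_lit 5) (nat_lit 5) (nat_lit 7) (nat_lit 4) (nat_lit 5) (nat_lit 4) (nat_lit 483) (nat_lit 403) (nat_lit 314)) (XT.lf (nat_lit 0) (nat_lit 73560232492) (nat_lit 152) (nat_lit 236690433821) (nat_lit 0) (nat_lit 64295354037) (nat_lit 5) (nat_lit 5) (nat_lit 7) (nat_lit 4) (nat_lit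 5) (nat_lit 4) (nat_lit 484) (nat_lit 403) (nat_lit 313))) (XT.nd (nat_lit 78) (nat_lit 0) (nat_lit 0) (XT.lf (nat_lit 0) (nat_lit 120992969506) (nat_lit 152) (nat_lit 168405889384) (nat_lit 0) (nat_lit 111727416842) (nat_lit 5) (nat_lit 5) (nat_lit 7) (nat_lit 4) (nat_lit 5) (nat_lit 4) (nat_lit 485) (nat_lit 403) (nat_lit 312)) (XT.lf (nat_lit 0) (nat_lit 172214415533) (nat_lit 152) (nat_lit 94670770241) (nat_lit 0) (nat_lit 162948238602) (nat_lit 5) (nat_lit 5) (nat_lit 7) (nat_lit 4) (nat_lit 5) (nat_lit 4) (nat_lit 486) (nat_lit 403) (nat_lit 311))))))))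
noncomputable def xc102 : XT := (XT.nd (nat_lit 1950) (nat_lit 0) (nat_lit 0) (XT.nd (nat_lit 936) (nat_lit 76) (nat_lit 0) (XT.nd (nat_lit 468) (nat_lit 152) (nat_lit 0) (XT.nd (nat_lit 234) (nat_lit 0) (nat_lit 0) (XT.nd (nat_lit 78) (nat_lit 76) (nat_lit 0) (XT.lf (nat_lit 0) (nat_lit 227528105067) (nat_lit 152) (nat_lit 15048127536) (nat_lit 0) (nat_lit 218261350111) (nat_lit 5) (nat_lit 5) (nat_lit 7) (nat_lit 4) (nat_lit 5) (nat_lit 4) (nat_lit 487) (nat_lit 403) (nat_lit 310)) (XT.nd (nat_lit 78) (nat_lit 0) (nat_lit 0) (XT.lf (nat_lit 0) (nat_lit 74669128847) (nat_lit 76) (nat_lit 214388488433) (nat_lit 76) (nat_lit 205121198268) (nat_lit 4) (nat_lit 4) (nat_lit 5) (nat_lit 5) (nat_lit 5) (nat_lit 4) (nat_lit 488) (nat_lit 403) (nat_lit 309)) (XT.lf (nat_lit 0) (nat_lit 172409380671) (nat_lit 76) (nat_lit 183506615806) (nat_lit 76) (nat_lit 174238830077) (nat_lit 4) (nat_lit 4)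 (nat_lit 5) (nat_lit 5) (nat_lit 5) (nat_lit 4) (nat_lit 489) (nat_lit 403) (nat_lit 308)))) (XT.nd (nat_lit 78) (nat_lit 0) (nat_lit 0) (XT.lf (nat_lit 0) (nat_lit 277959421701) (nat_lit 76) (nat_lit 150159053507) (nat_lit 76) (nat_lit 140890808923) (nat_lit 4) (nat_lit 4) (nat_lit 5) (nat_lit 5) (nat_lit 5) (nat_lit 4) (nat_lit 490) (nat_lit 403) (nat_lit 307)) (XT.nd (nat_lit 78) (nat_lit 0) (nat_lit 0) (XT.lf (nat_lit 0) (nat_lit 391944733659) (nat_lit 76) (nat_lit 114148186351) (nat_lit 76) (nat_lit 104879516902) (nat_lit 4) (nat_lit 4) (nat_lit 5) (nat_lit 5) (nat_lit 5) (nat_lit 4) (nat_lit 491) (nat_lit 403) (nat_lit 306)) (XT.lf (nat_lit 0) (nat_lit 515040785062) (nat_lit 76) (nat_lit 75260616609) (nat_lit 76) (nat_lit 65991553765) (nat_lit 4) (nat_lit 4) (nat_lit 5) (nat_lit 5) (nat_lit 5) (nat_lit 4) (nat_lit 492) (nat_lit 403) (nat_lit 305))))) (XT.nd (nat_lit 234) (nat_lit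 0) (nat_lit 0) (XT.nd (nat_lit 78) (nat_lit 152) (nat_lit 0) (XT.lf (nat_lit 0) (nat_lit 647977033992) (nat_lit 76) (nat_lit 33265899422) (nat_lit 76) (nat_lit 23996472324) (nat_lit 4) (nat_lit 4) (nat_lit 5) (nat_lit 5) (nat_lit 5) (nat_lit 4) (nat_lit 493) (nat_lit 403) (nat_lit 304)) (XT.nd (nat_lit 78) (nat_lit 0) (nat_lit 0) (XT.lf (nat_lit 0) (nat_lit 21445540607) (nat_lit 152) (nat_lit 723660052822) (nat_lit 0) (nat_lit 12862425450) (nat_lit 2) (nat_lit 5) (nat_lit 4) (nat_lit 4) (nat_lit 2) (nat_lit 4) (nat_lit 494) (nat_lit 403) (nat_lit 303)) (XT.lf (nat_lit 0) (nat_lit 71693407838) (nat_lit 152) (nat_lit 679864292840) (nat_lit 0) (nat_lit 63110003524) (nat_lit 2) (nat_lit 5) (nat_lit 4) (nat_lit 4) (nat_lit 2) (nat_lit 4) (nat_lit 495) (nat_lit 403) (nat_lit 302)))) (XT.nd (nat_lit 78) (nat_lit 0) (nat_lit 0) (XT.lf (nat_lit 0) (nat_lit 125957915227) (nat_lit 152) (nat_lit 632571461102)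 (nat_lit 0) (nat_lit 117374243175) (nat_lit 2) (nat_lit 5) (nat_lit 4) (nat_lit 4) (nat_lit 2) (nat_lit 4) (nat_lit 496) (nat_lit 403) (nat_lit 301)) (XT.nd (nat_lit 78) (nat_lit 0) (nat_lit 0) (XT.lf (nat_lit 0) (nat_lit 184560630224) (nat_lit 152) (nat_lit 581501303790) (nat_lit 0) (nat_lit 175976710267) (nat_lit 2) (nat_lit 5) (nat_lit 4) (nat_lit 4) (nat_lit 2) (nat_lit 4) (nat_lit 497) (nat_lit 403) (nat_lit 300)) (XT.lf (nat_lit 0) (nat_lit 247848828178) (nat_lit 152) (nat_lit 526351182935) (nat_lit 0) (nat_lit 239264678679) (nat_lit 2) (nat_lit 5) (nat_lit 4) (nat_lit 4) (nat_lit 2) (nat_lit 4) (nat_lit 498) (nat_lit 403) (nat_lit 299)))))) (XT.nd (nat_lit 468) (nat_lit 76) (nat_lit 0) (XT.nd (nat_lit 234) (nat_lit 0) (nat_lit 0) (XT.nd (nat_lit 78) (nat_lit 0) (nat_lit 0) (XT.lf (nat_lit 0) (nat_lit 316197550262) (nat_lit 152) (nat_lit 466794283007) (nat_lit 0) (nat_lit 307613188224)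 (nat_lit 2) (nat_lit 5) (nat_lit 4) (nat_lit 4) (nat_lit 2) (nat_lit 4) (nat_lit 499) (nat_lit 403) (nat_lit 298)) (XT.nd (nat_lit 78) (nat_lit 0) (nat_lit 0) (XT.lf (nat_lit 0) (nat_lit 390011825939) (nat_lit 152) (nat_lit 402477674227) (nat_lit 0) (nat_lit 381427267107) (nat_lit 2) (nat_lit 5) (nat_lit 4) (nat_lit 4) (nat_lit 2) (nat_lit 4) (nat_lit 500) (nat_lit 403) (nat_lit 297)) (XT.lf (nat_lit 0) (nat_lit 469729073141) (nat_lit 152) (nat_lit 333020221136) (nat_lit 0) (nat_lit 461144332091) (nat_lit 2) (nat_lit 5) (nat_lit 4) (nat_lit 4) (nat_lit 2) (nat_lit 4) (nat_lit 501) (nat_lit 403) (nat_lit 296)))) (XT.nd (nat_lit 78) (nat_lit 0) (nat_lit 0) (XT.lf (nat_lit 0) (nat_lit 555821690369) (nat_lit 152) (nat_lit 258010324012) (nat_lit 0) (nat_lit 547236780598) (nat_lit 2) (nat_lit 5) (nat_lit 4) (nat_lit 4) (nat_lit 2) (nat_lit 4) (nat_lit 502) (nat_lit 403) (nat_lit 295)) (XT.nd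 (nat_lit 78) (nat_lit 0) (nat_lit 0) (XT.lf (nat_lit 0) (nat_lit 648799856095) (nat_lit 152) (nat_lit 177003479762) (nat_lit 0) (nat_lit 640214790102) (nat_lit 2) (nat_lit 5) (nat_lit 4) (nat_lit 4) (nat_lit 2) (nat_lit 4) (nat_lit 503) (nat_lit 403) (nat_lit 294)) (XT.lf (nat_lit 0) (nat_lit 749214552042) (nat_lit 152) (nat_lit 89519647826) (nat_lit 0) (nat_lit 740629341399) (nat_lit 2) (nat_lit 5) (nat_lit 4) (nat_lit 4) (nat_lit 2) (nat_lit 4) (nat_lit 504) (nat_lit 403) (nat_lit 293))))) (XT.nd (nat_lit 234) (nat_lit 0) (nat_lit 0) (XT.nd (nat_lit 78) (nat_lit 0) (nat_lit 0) (XT.lf (nat_lit 0) (nat_lit 5220757959) (nat_lit 76) (nat_lit 852565629656) (nat_lit 76) (nat_lit 843980285077) (nat_lit 1) (nat_lit 4) (nat_lit 2) (nat_lit 5) (nat_lit 2) (nat_lit 4) (nat_lit 505) (nat_lit 403) (nat_lit 292)) (XT.nd (nat_lit 78) (nat_lit 0) (nat_lit 0) (XT.lf (nat_lit 0) (nat_lit 112628245186)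 (nat_lit 76) (nat_lit 864861796169) (nat_lit 76) (nat_lit 856276327576) (nat_lit 1) (nat_lit 4) (nat_lit 2) (nat_lit 5) (nat_lit 2) (nat_lit 4) (nat_lit 506) (nat_lit 403) (nat_lit 291)) (XT.lf (nat_lit 0) (nat_lit 228625356656) (nat_lit 76) (nat_lit 878143191394) (nat_lit 76) (nat_lit 869557607973) (nat_lit 1) (nat_lit 4) (nat_lit 2) (nat_lit 5) (nat_lit 2) (nat_lit 4) (nat_lit 507) (nat_lit 403) (nat_lit 290)))) (XT.nd (nat_lit 156) (nat_lit 0) (nat_lit 0) (XT.nd (nat_lit 78) (nat_lit 0) (nat_lit 0) (XT.lf (nat_lit 0) (nat_lit 353899482659) (nat_lit 76) (nat_lit 892488519895) (nat_lit 76) (nat_lit 883902830152) (nat_lit 1) (nat_lit 4) (nat_lit 2) (nat_lit 5) (nat_lit 2) (nat_lit 4) (nat_lit 508) (nat_lit 403) (nat_lit 289)) (XT.lf (nat_lit 0) (nat_lit 489192988386) (nat_lit 76) (nat_lit 907982791027) (nat_lit 76) (nat_lit 899397002837) (nat_lit 1) (nat_lit 4) (nat_lit 2) (nat_lit 5) (nat_lit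 2) (nat_lit 4) (nat_lit 509) (nat_lit 403) (nat_lit 288))) (XT.nd (nat_lit 78) (nat_lit 0) (nat_lit 0) (XT.lf (nat_lit 0) (nat_lit 635307613129) (nat_lit 76) (nat_lit 924717822692) (nat_lit 76) (nat_lit 916131943348) (nat_lit 1) (nat_lit 4) (nat_lit 2) (nat_lit 5) (nat_lit 2) (nat_lit 4) (nat_lit 510) (nat_lit 403) (nat_lit 287)) (XT.lf (nat_lit 0) (nat_lit 793109221332) (nat_lit 76) (nat_lit 942792785449) (nat_lit 76) (nat_lit 934206821703) (nat_lit 1) (nat_lit 4) (nat_lit 2) (nat_lit 5) (nat_lit 2) (nat_lit 4) (nat_lit 511) (nat_lit 403) (nat_lit 286))))))) (XT.nd (nat_lit 936) (nat_lit 0) (nat_lit 0) (XT.nd (nat_lit 468) (nat_lit 0) (nat_lit 0) (XT.nd (nat_lit 234) (nat_lit 0) (nat_lit 0) (XT.nd (nat_lit 78) (nat_lit 0) (nat_lit 0) (XT.lf (nat_lit 0) (nat_lit 963532933637) (nat_lit 76) (nat_lit 962314790188) (nat_lit 76) (nat_lit 953728748292) (nat_lit 1) (nat_lit 4) (nat_lit 2) (nat_lit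 5) (nat_lit 2) (nat_lit 4) (nat_lit 512) (nat_lit 403) (nat_lit 285)) (XT.nd (nat_lit 78) (nat_lit 0) (nat_lit 0) (XT.lf (nat_lit 0) (nat_lit 1147588668338) (nat_lit 76) (nat_lit 983399522862) (nat_lit 76) (nat_lit 974813408605) (nat_lit 1) (nat_lit 4) (nat_lit 2) (nat_lit 5) (nat_lit 2) (nat_lit 4) (nat_lit 513) (nat_lit 403) (nat_lit 284)) (XT.lf (nat_lit 0) (nat_lit 1346367126085) (nat_lit 76) (nat_lit 1006171930037) (nat_lit 76) (nat_lit 997585748778) (nat_lit 1) (nat_lit 4) (nat_lit 2) (nat_lit 5) (nat_lit 2) (nat_lit 4) (nat_lit 514) (nat_lit 403) (nat_lit 283)))) (XT.nd (nat_lit 78) (nat_lit 0) (nat_lit 0) (XT.lf (nat_lit 0) (nat_lit 1561046253294) (nat_lit 76) (nat_lit 1030766959309) (nat_lit 76) (nat_lit 1022180716013) (nat_lit 1) (nat_lit 4) (nat_lit 2) (nat_lit 5) (nat_lit 2) (nat_lit 4) (nat_lit 515) (nat_lit 403) (nat_lit 282)) (XT.nd (nat_lit 78) (nat_lit 0) (nat_lit 0) (XT.lf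 (nat_lit 0) (nat_lit 1792898222572) (nat_lit 76) (nat_lit 1057330359001) (nat_lit 76) (nat_lit 1048744058262) (nat_lit 1) (nat_lit 4) (nat_lit 2) (nat_lit 5) (nat_lit 2) (nat_lit 4) (nat_lit 516) (nat_lit 403) (nat_lit 281)) (XT.lf (nat_lit 0) (nat_lit 2043296971514) (nat_lit 76) (nat_lit 1086019541852) (nat_lit 76) (nat_lit 1077433187925) (nat_lit 1) (nat_lit 4) (nat_lit 2) (nat_lit 5) (nat_lit 2) (nat_lit 4) (nat_lit 517) (nat_lit 403) (nat_lit 280))))) (XT.nd (nat_lit 234) (nat_lit 0) (nat_lit 0) (XT.nd (nat_lit 78) (nat_lit 0) (nat_lit 0) (XT.lf (nat_lit 0) (nat_lit 2313726344558) (nat_lit 76) (nat_lit 1117004517833) (nat_lit 76) (nat_lit 1108418114658) (nat_lit 1) (nat_lit 4) (nat_lit 2) (nat_lit 5) (nat_lit 2) (nat_lit 4) (nat_lit 518) (nat_lit 403) (nat_lit 279)) (XT.nd (nat_lit 78) (nat_lit 0) (nat_lit 0) (XT.lf (nat_lit 0) (nat_lit 2605788886137) (nat_lit 76) (nat_lit 1150468901618)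 (nat_lit 76) (nat_lit 1141882452843) (nat_lit 1) (nat_lit 4) (nat_lit 2) (nat_lit 5) (nat_lit 2) (nat_lit 4) (nat_lit 519) (nat_lit 403) (nat_lit 278)) (XT.lf (nat_lit 0) (nat_lit 2921215337239) (nat_lit 76) (nat_lit 1186611000666) (nat_lit 76) (nat_lit 1178024509669) (nat_lit 1) (nat_lit 4) (nat_lit 2) (nat_lit 5) (nat_lit 2) (nat_lit 4) (nat_lit 520) (nat_lit 403) (nat_lit 277)))) (XT.nd (nat_lit 78) (nat_lit 0) (nat_lit 0) (XT.lf (nat_lit 0) (nat_lit 3261874891647) (nat_lit 76) (nat_lit 1225644990378) (nat_lit 76) (nat_lit 1217058460287) (nat_lit 1) (nat_lit 4) (nat_lit 2) (nat_lit 5) (nat_lit 2) (nat_lit 4) (nat_lit 521) (nat_lit 403) (nat_lit 276)) (XT.nd (nat_lit 78) (nat_lit 0) (nat_lit 0) (XT.lf (nat_lit 0) (nat_lit 3629786272646) (nat_lit 76) (nat_lit 1267802183287) (nat_lit 76) (nat_lit 1259215616997) (nat_lit 1) (nat_lit 4) (nat_lit 2) (nat_lit 5) (nat_lit 2) (nat_lit 4) (nat_lit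 522) (nat_lit 403) (nat_lit 275)) (XT.lf (nat_lit 0) (nat_lit 4027129695829) (nat_lit 76) (nat_lit 1313332399794) (nat_lit 76) (nat_lit 1304745799987) (nat_lit 1) (nat_lit 4) (nat_lit 2) (nat_lit 5) (nat_lit 2) (nat_lit 4) (nat_lit 523) (nat_lit 403) (nat_lit 274)))))) (XT.nd (nat_lit 468) (nat_lit 0) (nat_lit 0) (XT.nd (nat_lit 234) (nat_lit 0) (nat_lit 0) (XT.nd (nat_lit 78) (nat_lit 0) (nat_lit 0) (XT.lf (nat_lit 0) (nat_lit 4456259788887) (nat_lit 76) (nat_lit 1362505448590) (nat_lit 76) (nat_lit 1353918817749) (nat_lit 1) (nat_lit 4) (nat_lit 2) (nat_lit 5) (nat_lit 2) (nat_lit 4) (nat_lit 524) (nat_lit 403) (nat_lit 273)) (XT.nd (nat_lit 78) (nat_lit 0) (nat_lit 0) (XT.lf (nat_lit 0) (nat_lit 4919719544966) (nat_lit 76) (nat_lit 1415612725521) (nat_lit 76) (nat_lit 1407026065944) (nat_lit 1) (nat_lit 4) (nat_lit 2) (nat_lit 5) (nat_lit 2) (nat_lit 4) (nat_lit 525) (nat_lit 403) (nat_lit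 272)) (XT.lf (nat_lit 0) (nat_lit 5420255392249) (nat_lit 76) (nat_lit 1472968940374) (nat_lit 76) (nat_lit 1464382254190) (nat_lit 1) (nat_lit 4) (nat_lit 2) (nat_lit 5) (nat_lit 2) (nat_lit 4) (nat_lit 526) (nat_lit 403) (nat_lit 271)))) (XT.nd (nat_lit 78) (nat_lit 0) (nat_lit 0) (XT.lf (nat_lit 0) (nat_lit 5960833469090) (nat_lit 76) (nat_lit 1534913981831) (nat_lit 76) (nat_lit 1526327271011) (nat_lit 1) (nat_lit 4) (nat_lit 2) (nat_lit 5) (nat_lit 2) (nat_lit 4) (nat_lit 527) (nat_lit 403) (nat_lit 270)) (XT.nd (nat_lit 78) (nat_lit 0) (nat_lit 0) (XT.lf (nat_lit 0) (nat_lit 6544657201130) (nat_lit 76) (nat_lit 1601814931619) (nat_lit 76) (nat_lit 1593228197987) (nat_lit 1) (nat_lit 4) (nat_lit 2) (nat_lit 5) (nat_lit 2) (nat_lit 4) (nat_lit 528) (nat_lit 403) (nat_lit 269)) (XT.lf (nat_lit 0) (nat_lit 7175186284558) (nat_lit 76) (nat_lit 1674068239810) (nat_lit 76) (nat_lit 1665481485057)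 (nat_lit 1) (nat_lit 4) (nat_lit 2) (nat_lit 5) (nat_lit 2) (nat_lit 4) (nat_lit 529) (nat_lit 403) (nat_lit 268))))) (XT.nd (nat_lit 234) (nat_lit 0) (nat_lit 0) (XT.nd (nat_lit 78) (nat_lit 0) (nat_lit 0) (XT.lf (nat_lit 0) (nat_lit 7856157188018) (nat_lit 76) (nat_lit 1752102074157) (nat_lit 76) (nat_lit 1743515299848) (nat_lit 1) (nat_lit 4) (nat_lit 2) (nat_lit 5) (nat_lit 2) (nat_lit 4) (nat_lit 530) (nat_lit 403) (nat_lit 267)) (XT.nd (nat_lit 78) (nat_lit 0) (nat_lit 0) (XT.lf (nat_lit 0) (nat_lit 8591605294641) (nat_lit 76) (nat_lit 1836378857383) (nat_lit 76) (nat_lit 1827792064965) (nat_lit 1) (nat_lit 4) (nat_lit 2) (nat_lit 5) (nat_lit 2) (nat_lit 4) (nat_lit 531) (nat_lit 403) (nat_lit 266)) (XT.lf (nat_lit 0) (nat_lit 9385888815430) (nat_lit 76) (nat_lit 1927398007461) (nat_lit 76) (nat_lit 1918811198276) (nat_lit 1) (nat_lit 4) (nat_lit 2) (nat_lit 5) (nat_lit 2) (nat_lit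 4) (nat_lit 532) (nat_lit 403) (nat_lit 265)))) (XT.nd (nat_lit 156) (nat_lit 0) (nat_lit 0) (XT.nd (nat_lit 78) (nat_lit 0) (nat_lit 0) (XT.lf (nat_lit 0) (nat_lit 10243714615691) (nat_lit 76) (nat_lit 2025698897132) (nat_lit 76) (nat_lit 2017112072422) (nat_lit 1) (nat_lit 4) (nat_lit 2) (nat_lit 5) (nat_lit 2) (nat_lit 4) (nat_lit 533) (nat_lit 403) (nat_lit 264)) (XT.lf (nat_lit 0) (nat_lit 11170166107576) (nat_lit 76) (nat_lit 2131864050188) (nat_lit 76) (nat_lit 2123277211103) (nat_lit 1) (nat_lit 4) (nat_lit 2) (nat_lit 5) (nat_lit 2) (nat_lit 4) (nat_lit 534) (nat_lit 403) (nat_lit 263))) (XT.nd (nat_lit 52260) (nat_lit 0) (nat_lit 6992) (XT.lf (nat_lit 0) (nat_lit 12170733373999) (nat_lit 76) (nat_lit 2246522593462) (nat_lit 76) (nat_lit 2237935741067) (nat_lit 1) (nat_lit 4) (nat_lit 2) (nat_lit 5) (nat_lit 2) (nat_lit 4) (nat_lit 535) (nat_lit 403) (nat_lit 262)) (XT.lf (nat_lit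 0) (nat_lit 323351338) (nat_lit 380) (nat_lit 1562754636) (nat_lit 380) (nat_lit 1562754636) (nat_lit 93) (nat_lit 3) (nat_lit 98) (nat_lit 3) (nat_lit 98) (nat_lit 5) (nat_lit 404) (nat_lit 404) (nat_lit 392))))))))
noncomputable def xc103 : XT := (XT.nd (nat_lit 1950) (nat_lit 1900) (nat_lit 0) (XT.nd (nat_lit 936) (nat_lit 1596) (nat_lit 0) (XT.nd (nat_lit 468) (nat_lit 1520) (nat_lit 0) (XT.nd (nat_lit 234) (nat_lit 304) (nat_lit 0) (XT.nd (nat_lit 78) (nat_lit 0) (nat_lit 0) (XT.lf (nat_lit 76) (nat_lit 316161932) (nat_lit 0) (nat_lit 2234486126) (nat_lit 380) (nat_lit 4472105446) (nat_lit 94) (nat_lit 5) (nat_lit 93) (nat_lit 3) (nat_lit 98) (nat_lit 5) (nat_lit 405) (nat_lit 404) (nat_lit 391)) (XT.nd (nat_lit 78) (nat_lit 0) (nat_lit 76) (XT.lf (nat_lit 76) (nat_lit 4104508633) (nat_lit 0) (nat_lit 398160941) (nat_lit 380) (nat_lit 2663521021) (nat_lit 94) (nat_lit 5) (nat_lit 93)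 (nat_lit 3) (nat_lit 98) (nat_lit 5) (nat_lit 406) (nat_lit 404) (nat_lit 390)) (XT.lf (nat_lit 76) (nat_lit 760238396) (nat_lit 0) (nat_lit 5733228974) (nat_lit 380) (nat_lit 837084517) (nat_lit 95) (nat_lit 5) (nat_lit 94) (nat_lit 5) (nat_lit 99) (nat_lit 5) (nat_lit 407) (nat_lit 404) (nat_lit 389)))) (XT.nd (nat_lit 78) (nat_lit 0) (nat_lit 0) (XT.lf (nat_lit 0) (nat_lit 1006992871) (nat_lit 380) (nat_lit 2599640555) (nat_lit 456) (nat_lit 3905027953) (nat_lit 89) (nat_lit 5) (nat_lit 94) (nat_lit 5) (nat_lit 95) (nat_lit 5) (nat_lit 408) (nat_lit 404) (nat_lit 388)) (XT.nd (nat_lit 78) (nat_lit 0) (nat_lit 76) (XT.lf (nat_lit 76) (nat_lit 1637288112) (nat_lit 0) (nat_lit 1199996622) (nat_lit 456) (nat_lit 4877568849) (nat_lit 90) (nat_lit 5) (nat_lit 89) (nat_lit 5) (nat_lit 95) (nat_lit 5) (nat_lit 409) (nat_lit 404) (nat_lit 387)) (XT.lf (nat_lit 0) (nat_lit 4774921357) (nat_lit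 380) (nat_lit 1724509140) (nat_lit 76) (nat_lit 1438039878) (nat_lit 90) (nat_lit 5) (nat_lit 95) (nat_lit 5) (nat_lit 91) (nat_lit 5) (nat_lit 410) (nat_lit 404) (nat_lit 386))))) (XT.nd (nat_lit 234) (nat_lit 684) (nat_lit 0) (XT.nd (nat_lit 78) (nat_lit 532) (nat_lit 0) (XT.lf (nat_lit 0) (nat_lit 2982395070) (nat_lit 380) (nat_lit 3853204745) (nat_lit 456) (nat_lit 1344893967) (nat_lit 85) (nat_lit 5) (nat_lit 90) (nat_lit 5) (nat_lit 91) (nat_lit 5) (nat_lit 411) (nat_lit 404) (nat_lit 385)) (XT.nd (nat_lit 78) (nat_lit 456) (nat_lit 0) (XT.lf (nat_lit 0) (nat_lit 504769097) (nat_lit 456) (nat_lit 407850842) (nat_lit 76) (nat_lit 7535782297) (nat_lit 84) (nat_lit 5) (nat_lit 90) (nat_lit 5) (nat_lit 85) (nat_lit 5) (nat_lit 412) (nat_lit 404) (nat_lit 384)) (XT.lf (nat_lit 0) (nat_lit 2484312916) (nat_lit 532) (nat_lit 3927762684) (nat_lit 76) (nat_lit 2318539379) (nat_lit 78) (nat_lit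 5) (nat_lit 85) (nat_lit 5) (nat_lit 79) (nat_lit 5) (nat_lit 413) (nat_lit 404) (nat_lit 383)))) (XT.nd (nat_lit 78) (nat_lit 228) (nat_lit 0) (XT.lf (nat_lit 0) (nat_lit 1347955328) (nat_lit 456) (nat_lit 3227341994) (nat_lit 532) (nat_lit 4463890466) (nat_lit 72) (nat_lit 5) (nat_lit 78) (nat_lit 5) (nat_lit 79) (nat_lit 5) (nat_lit 414) (nat_lit 404) (nat_lit 382)) (XT.nd (nat_lit 78) (nat_lit 228) (nat_lit 0) (XT.lf (nat_lit 0) (nat_lit 6840080889) (nat_lit 532) (nat_lit 2222965790) (nat_lit 76) (nat_lit 308905159) (nat_lit 72) (nat_lit 5) (nat_lit 79) (nat_lit 5) (nat_lit 73) (nat_lit 5) (nat_lit 415) (nat_lit 404) (nat_lit 381)) (XT.lf (nat_lit 0) (nat_lit 3671170144) (nat_lit 228) (nat_lit 5686288674) (nat_lit 304) (nat_lit 368190306) (nat_lit 69) (nat_lit 5) (nat_lit 72) (nat_lit 5) (nat_lit 73) (nat_lit 5) (nat_lit 416) (nat_lit 404) (nat_lit 380)))))) (XT.nd (nat_lit 468) (nat_lit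 684) (nat_lit 0) (XT.nd (nat_lit 234) (nat_lit 456) (nat_lit 0) (XT.nd (nat_lit 78) (nat_lit 380) (nat_lit 0) (XT.lf (nat_lit 0) (nat_lit 1834095898) (nat_lit 304) (nat_lit 102236787) (nat_lit 76) (nat_lit 8170424403) (nat_lit 68) (nat_lit 5) (nat_lit 72) (nat_lit 5) (nat_lit 69) (nat_lit 5) (nat_lit 417) (nat_lit 404) (nat_lit 379)) (XT.nd (nat_lit 78) (nat_lit 152) (nat_lit 0) (XT.lf (nat_lit 0) (nat_lit 4313658013) (nat_lit 304) (nat_lit 4028805832) (nat_lit 76) (nat_lit 2165465868) (nat_lit 65) (nat_lit 5) (nat_lit 69) (nat_lit 5) (nat_lit 66) (nat_lit 5) (nat_lit 418) (nat_lit 404) (nat_lit 378)) (XT.lf (nat_lit 0) (nat_lit 2623425526) (nat_lit 152) (nat_lit 4397226202) (nat_lit 228) (nat_lit 3918237499) (nat_lit 63) (nat_lit 5) (nat_lit 65) (nat_lit 5) (nat_lit 66) (nat_lit 5) (nat_lit 419) (nat_lit 404) (nat_lit 377)))) (XT.nd (nat_lit 78) (nat_lit 456) (nat_lit 0) (XT.lf (nat_lit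 0) (nat_lit 9930446597) (nat_lit 152) (nat_lit 40620792) (nat_lit 228) (nat_lit 1431126161) (nat_lit 63) (nat_lit 5) (nat_lit 65) (nat_lit 5) (nat_lit 66) (nat_lit 5) (nat_lit 420) (nat_lit 404) (nat_lit 376)) (XT.nd (nat_lit 78) (nat_lit 152) (nat_lit 0) (XT.lf (nat_lit 0) (nat_lit 1375730339) (nat_lit 304) (nat_lit 5919787149) (nat_lit 76) (nat_lit 4589960480) (nat_lit 59) (nat_lit 5) (nat_lit 63) (nat_lit 5) (nat_lit 60) (nat_lit 5) (nat_lit 421) (nat_lit 404) (nat_lit 375)) (XT.lf (nat_lit 0) (nat_lit 1613372931) (nat_lit 152) (nat_lit 2721308867) (nat_lit 228) (nat_lit 8069393950) (nat_lit 57) (nat_lit 5) (nat_lit 59) (nat_lit 5) (nat_lit 60) (nat_lit 5) (nat_lit 422) (nat_lit 404) (nat_lit 374))))) (XT.nd (nat_lit 234) (nat_lit 304) (nat_lit 0) (XT.nd (nat_lit 78) (nat_lit 380) (nat_lit 0) (XT.lf (nat_lit 0) (nat_lit 7675950195) (nat_lit 228) (nat_lit 3031076323) (nat_lit 76) (nat_lit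 2245499298) (nat_lit 57) (nat_lit 5) (nat_lit 60) (nat_lit 5) (nat_lit 58) (nat_lit 5) (nat_lit 423) (nat_lit 404) (nat_lit 373)) (XT.nd (nat_lit 78) (nat_lit 228) (nat_lit 0) (XT.lf (nat_lit 0) (nat_lit 5451192710) (nat_lit 152) (nat_lit 5966756633) (nat_lit 228) (nat_lit 2116239803) (nat_lit 55) (nat_lit 5) (nat_lit 57) (nat_lit 5) (nat_lit 58) (nat_lit 5) (nat_lit 424) (nat_lit 404) (nat_lit 372)) (XT.lf (nat_lit 0) (nat_lit 520189460) (nat_lit 152) (nat_lit 742039828) (nat_lit 228) (nat_lit 12895256219) (nat_lit 52) (nat_lit 5) (nat_lit 54) (nat_lit 5) (nat_lit 55) (nat_lit 5) (nat_lit 425) (nat_lit 404) (nat_lit 371)))) (XT.nd (nat_lit 156) (nat_lit 152) (nat_lit 0) (XT.nd (nat_lit 78) (nat_lit 152) (nat_lit 0) (XT.lf (nat_lit 0) (nat_lit 5075697891) (nat_lit 228) (nat_lit 4823185874) (nat_lit 76) (nat_lit 4905049327) (nat_lit 52) (nat_lit 5) (nat_lit 55) (nat_lit 5) (nat_lit 53) (nat_lit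 5) (nat_lit 426) (nat_lit 404) (nat_lit 370)) (XT.lf (nat_lit 0) (nat_lit 4822687586) (nat_lit 152) (nat_lit 4446120771) (nat_lit 228) (nat_lit 6227331505) (nat_lit 50) (nat_lit 5) (nat_lit 52) (nat_lit 5) (nat_lit 53) (nat_lit 5) (nat_lit 427) (nat_lit 404) (nat_lit 369))) (XT.nd (nat_lit 78) (nat_lit 152) (nat_lit 0) (XT.lf (nat_lit 0) (nat_lit 13908104596) (nat_lit 228) (nat_lit 853551088) (nat_lit 76) (nat_lit 1473216429) (nat_lit 50) (nat_lit 5) (nat_lit 53) (nat_lit 5) (nat_lit 51) (nat_lit 4) (nat_lit 428) (nat_lit 404) (nat_lit 368)) (XT.lf (nat_lit 0) (nat_lit 2101651359) (nat_lit 152) (nat_lit 7012166360) (nat_lit 76) (nat_lit 7890451856) (nat_lit 48) (nat_lit 5) (nat_lit 50) (nat_lit 5) (nat_lit 49) (nat_lit 5) (nat_lit 429) (nat_lit 404) (nat_lit 367))))))) (XT.nd (nat_lit 1014) (nat_lit 912) (nat_lit 0) (XT.nd (nat_lit 468) (nat_lit 456) (nat_lit 0) (XT.nd (nat_lit 234) (nat_lit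 304) (nat_lit 0) (XT.nd (nat_lit 78) (nat_lit 76) (nat_lit 0) (XT.lf (nat_lit 0) (nat_lit 3967836944) (nat_lit 152) (nat_lit 2855880848) (nat_lit 228) (nat_lit 11001466073) (nat_lit 46) (nat_lit 5) (nat_lit 48) (nat_lit 5) (nat_lit 49) (nat_lit 5) (nat_lit 430) (nat_lit 404) (nat_lit 366)) (XT.nd (nat_lit 78) (nat_lit 76) (nat_lit 0) (XT.lf (nat_lit 0) (nat_lit 12160875998) (nat_lit 228) (nat_lit 2661511170) (nat_lit 76) (nat_lit 3870403818) (nat_lit 46) (nat_lit 5) (nat_lit 49) (nat_lit 5) (nat_lit 47) (nat_lit 4) (nat_lit 431) (nat_lit 404) (nat_lit 365)) (XT.lf (nat_lit 0) (nat_lit 9759516967) (nat_lit 76) (nat_lit 8425090526) (nat_lit 152) (nat_lit 1424436505) (nat_lit 45) (nat_lit 5) (nat_lit 46) (nat_lit 5) (nat_lit 47) (nat_lit 4) (nat_lit 432) (nat_lit 404) (nat_lit 364)))) (XT.nd (nat_lit 78) (nat_lit 76) (nat_lit 0) (XT.lf (nat_lit 0) (nat_lit 2681726139) (nat_lit 152) (nat_lit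 1295523961) (nat_lit 228) (nat_lit 16606256215) (nat_lit 42) (nat_lit 5) (nat_lit 44) (nat_lit 5) (nat_lit 45) (nat_lit 5) (nat_lit 433) (nat_lit 404) (nat_lit 363)) (XT.nd (nat_lit 78) (nat_lit 76) (nat_lit 0) (XT.lf (nat_lit 0) (nat_lit 10116347110) (nat_lit 228) (nat_lit 5122492182) (nat_lit 76) (nat_lit 6363552158) (nat_lit 42) (nat_lit 5) (nat_lit 45) (nat_lit 5) (nat_lit 43) (nat_lit 4) (nat_lit 434) (nat_lit 404) (nat_lit 362)) (XT.lf (nat_lit 0) (nat_lit 9017192858) (nat_lit 76) (nat_lit 7935362571) (nat_lit 152) (nat_lit 5733757233) (nat_lit 41) (nat_lit 5) (nat_lit 42) (nat_lit 5) (nat_lit 43) (nat_lit 4) (nat_lit 435) (nat_lit 404) (nat_lit 361))))) (XT.nd (nat_lit 234) (nat_lit 228) (nat_lit 0) (XT.nd (nat_lit 78) (nat_lit 76) (nat_lit 0) (XT.lf (nat_lit 0) (nat_lit 572871590) (nat_lit 152) (nat_lit 23176808859) (nat_lit 76) (nat_lit 96900990) (nat_lit 39) (nat_lit 5) (nat_lit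 41) (nat_lit 5) (nat_lit 40) (nat_lit 4) (nat_lit 436) (nat_lit 404) (nat_lit 360)) (XT.nd (nat_lit 78) (nat_lit 76) (nat_lit 0) (XT.lf (nat_lit 0) (nat_lit 7620171150) (nat_lit 152) (nat_lit 8581637257) (nat_lit 76) (nat_lit 8842279168) (nat_lit 39) (nat_lit 5) (nat_lit 41) (nat_lit 5) (nat_lit 40) (nat_lit 4) (nat_lit 437) (nat_lit 404) (nat_lit 359)) (XT.lf (nat_lit 0) (nat_lit 7481060330) (nat_lit 76) (nat_lit 7889700598) (nat_lit 152) (nat_lit 10955475676) (nat_lit 38) (nat_lit 5) (nat_lit 39) (nat_lit 5) (nat_lit 40) (nat_lit 4) (nat_lit 438) (nat_lit 404) (nat_lit 358)))) (XT.nd (nat_lit 156) (nat_lit 76) (nat_lit 0) (XT.nd (nat_lit 78) (nat_lit 152) (nat_lit 0) (XT.lf (nat_lit 0) (nat_lit 23968318627) (nat_lit 152) (nat_lit 2482387903) (nat_lit 0) (nat_lit 1242100053) (nat_lit 38) (nat_lit 5) (nat_lit 40) (nat_lit 4) (nat_lit 38) (nat_lit 4) (nat_lit 439) (nat_lit 404) (nat_lit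 357)) (XT.lf (nat_lit 0) (nat_lit 4440325430) (nat_lit 152) (nat_lit 13536804006) (nat_lit 76) (nat_lit 11138940018) (nat_lit 36) (nat_lit 5) (nat_lit 38) (nat_lit 5) (nat_lit 37) (nat_lit 4) (nat_lit 440) (nat_lit 404) (nat_lit 356))) (XT.nd (nat_lit 78) (nat_lit 0) (nat_lit 0) (XT.lf (nat_lit 0) (nat_lit 4643629677) (nat_lit 76) (nat_lit 8557971885) (nat_lit 152) (nat_lit 17432294987) (nat_lit 35) (nat_lit 5) (nat_lit 36) (nat_lit 5) (nat_lit 37) (nat_lit 4) (nat_lit 441) (nat_lit 404) (nat_lit 355)) (XT.lf (nat_lit 0) (nat_lit 23045860643) (nat_lit 152) (nat_lit 7313396935) (nat_lit 0) (nat_lit 1883327744) (nat_lit 35) (nat_lit 5) (nat_lit 37) (nat_lit 4) (nat_lit 35) (nat_lit 4) (nat_lit 442) (nat_lit 404) (nat_lit 354)))))) (XT.nd (nat_lit 468) (nat_lit 456) (nat_lit 0) (XT.nd (nat_lit 234) (nat_lit 228) (nat_lit 0) (XT.nd (nat_lit 78) (nat_lit 76) (nat_lit 0) (XT.lf (nat_lit 0) (nat_lit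 232722107) (nat_lit 152) (nat_lit 20712622112) (nat_lit 76) (nat_lit 12993615659) (nat_lit 33) (nat_lit 5) (nat_lit 35) (nat_lit 5) (nat_lit 34) (nat_lit 4) (nat_lit 443) (nat_lit 404) (nat_lit 353)) (XT.nd (nat_lit 78) (nat_lit 76) (nat_lit 0) (XT.lf (nat_lit 0) (nat_lit 10091168528) (nat_lit 152) (nat_lit 238675035) (nat_lit 76) (nat_lit 25408371856) (nat_lit 33) (nat_lit 5) (nat_lit 35) (nat_lit 5) (nat_lit 34) (nat_lit 4) (nat_lit 444) (nat_lit 404) (nat_lit 352)) (XT.lf (nat_lit 0) (nat_lit 21300314303) (nat_lit 152) (nat_lit 14718771177) (nat_lit 0) (nat_lit 1617365486) (nat_lit 32) (nat_lit 5) (nat_lit 34) (nat_lit 4) (nat_lit 32) (nat_lit 4) (nat_lit 445) (nat_lit 404) (nat_lit 351)))) (XT.nd (nat_lit 78) (nat_lit 152) (nat_lit 0) (XT.lf (nat_lit 0) (nat_lit 8342795992) (nat_lit 76) (nat_lit 25508112180) (nat_lit 76) (nat_lit 5800061213) (nat_lit 31) (nat_lit 4) (nat_lit 32) (nat_lit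 5) (nat_lit 32) (nat_lit 4) (nat_lit 446) (nat_lit 404) (nat_lit 350)) (XT.nd (nat_lit 78) (nat_lit 76) (nat_lit 0) (XT.lf (nat_lit 0) (nat_lit 5681879595) (nat_lit 152) (nat_lit 7912984139) (nat_lit 76) (nat_lit 28190488202) (nat_lit 30) (nat_lit 5) (nat_lit 32) (nat_lit 5) (nat_lit 31) (nat_lit 4) (nat_lit 447) (nat_lit 404) (nat_lit 349)) (XT.lf (nat_lit 0) (nat_lit 18050321019) (nat_lit 76) (nat_lit 124263482) (nat_lit 152) (nat_lit 25871404558) (nat_lit 29) (nat_lit 5) (nat_lit 30) (nat_lit 5) (nat_lit 31) (nat_lit 4) (nat_lit 448) (nat_lit 404) (nat_lit 348))))) (XT.nd (nat_lit 234) (nat_lit 228) (nat_lit 0) (XT.nd (nat_lit 78) (nat_lit 228) (nat_lit 0) (XT.lf (nat_lit 0) (nat_lit 32207195608) (nat_lit 152) (nat_lit 337941852) (nat_lit 0) (nat_lit 13899101496) (nat_lit 29) (nat_lit 5) (nat_lit 31) (nat_lit 4) (nat_lit 29) (nat_lit 4) (nat_lit 449) (nat_lit 404) (nat_lit 347)) (XT.nd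 (nat_lit 78) (nat_lit 152) (nat_lit 0) (XT.lf (nat_lit 0) (nat_lit 28755838576) (nat_lit 76) (nat_lit 19275103635) (nat_lit 76) (nat_lit 949925422) (nat_lit 28) (nat_lit 4) (nat_lit 29) (nat_lit 5) (nat_lit 29) (nat_lit 4) (nat_lit 450) (nat_lit 404) (nat_lit 346)) (XT.lf (nat_lit 0) (nat_lit 8528900079) (nat_lit 76) (nat_lit 4389319586) (nat_lit 152) (nat_lit 38761354737) (nat_lit 26) (nat_lit 5) (nat_lit 27) (nat_lit 5) (nat_lit 28) (nat_lit 4) (nat_lit 451) (nat_lit 404) (nat_lit 345)))) (XT.nd (nat_lit 156) (nat_lit 152) (nat_lit 0) (XT.nd (nat_lit 78) (nat_lit 76) (nat_lit 0) (XT.lf (nat_lit 0) (nat_lit 28666837517) (nat_lit 152) (nat_lit 14188708567) (nat_lit 0) (nat_lit 11670871139) (nat_lit 26) (nat_lit 5) (nat_lit 28) (nat_lit 4) (nat_lit 26) (nat_lit 4) (nat_lit 452) (nat_lit 404) (nat_lit 344)) (XT.lf (nat_lit 0) (nat_lit 17819448267) (nat_lit 76) (nat_lit 28374305434) (nat_lit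 76) (nat_lit 11365781731) (nat_lit 25) (nat_lit 4) (nat_lit 26) (nat_lit 5) (nat_lit 26) (nat_lit 4) (nat_lit 453) (nat_lit 404) (nat_lit 343))) (XT.nd (nat_lit 78) (nat_lit 76) (nat_lit 0) (XT.lf (nat_lit 0) (nat_lit 4446953967) (nat_lit 152) (nat_lit 7770486602) (nat_lit 76) (nat_lit 48579700867) (nat_lit 24) (nat_lit 5) (nat_lit 26) (nat_lit 5) (nat_lit 25) (nat_lit 4) (nat_lit 454) (nat_lit 404) (nat_lit 342)) (XT.lf (nat_lit 0) (nat_lit 21707450639) (nat_lit 152) (nat_lit 36560862153) (nat_lit 0) (nat_lit 5938083290) (nat_lit 23) (nat_lit 5) (nat_lit 25) (nat_lit 4) (nat_lit 23) (nat_lit 4) (nat_lit 455) (nat_lit 404) (nat_lit 341))))))))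
noncomputable def xc104 : XT := (XT.nd (nat_lit 1950) (nat_lit 380) (nat_lit 0) (XT.nd (nat_lit 936) (nat_lit 532) (nat_lit 0) (XT.nd (nat_lit 468) (nat_lit 380) (nat_lit 0) (XT.nd (nat_lit 234) (nat_lit 76) (nat_lit 0) (XT.nd (nat_lit 78) (nat_lit 228) (nat_lit 0) (XT.lf (nat_lit 0) (nat_lit 40861861287) (nat_lit 152) (nat_lit 1902220438) (nat_lit 0) (nat_lit 25083263930) (nat_lit 23) (nat_lit 5) (nat_lit 25) (nat_lit 4) (nat_lit 23) (nat_lit 4) (nat_lit 456) (nat_lit 404) (nat_lit 340)) (XT.nd (nat_lit 78) (nat_lit 152) (nat_lit 0) (XT.lf (nat_lit 0) (nat_lit 37356422845) (nat_lit 76) (nat_lit 25070032992) (nat_lit 76) (nat_lit 9282889331) (nat_lit 22) (nat_lit 4) (nat_lit 23) (nat_lit 5) (nat_lit 23) (nat_lit 4) (nat_lit 457) (nat_lit 404) (nat_lit 339)) (XT.lf (nat_lit 0) (nat_lit 3903726107) (nat_lit 76) (nat_lit 5566842648) (nat_lit 152) (nat_lit 66380676948) (nat_lit 20) (nat_lit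 5) (nat_lit 21) (nat_lit 5) (nat_lit 22) (nat_lit 4) (nat_lit 458) (nat_lit 404) (nat_lit 338)))) (XT.nd (nat_lit 78) (nat_lit 76) (nat_lit 0) (XT.lf (nat_lit 0) (nat_lit 30538649379) (nat_lit 152) (nat_lit 33754478748) (nat_lit 0) (nat_lit 15906812357) (nat_lit 20) (nat_lit 5) (nat_lit 22) (nat_lit 4) (nat_lit 20) (nat_lit 4) (nat_lit 459) (nat_lit 404) (nat_lit 337)) (XT.nd (nat_lit 78) (nat_lit 0) (nat_lit 0) (XT.lf (nat_lit 0) (nat_lit 7695964542) (nat_lit 76) (nat_lit 45906914618) (nat_lit 76) (nat_lit 31268795807) (nat_lit 19) (nat_lit 4) (nat_lit 20) (nat_lit 5) (nat_lit 20) (nat_lit 4) (nat_lit 460) (nat_lit 404) (nat_lit 336)) (XT.lf (nat_lit 0) (nat_lit 54344632518) (nat_lit 76) (nat_lit 25072048301) (nat_lit 76) (nat_lit 10428113020) (nat_lit 19) (nat_lit 4) (nat_lit 20) (nat_lit 5) (nat_lit 20) (nat_lit 4) (nat_lit 461) (nat_lit 404) (nat_lit 335))))) (XT.nd (nat_lit 234) (nat_lit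 152) (nat_lit 0) (XT.nd (nat_lit 78) (nat_lit 76) (nat_lit 0) (XT.lf (nat_lit 0) (nat_lit 9666880508) (nat_lit 76) (nat_lit 2023600939) (nat_lit 152) (nat_lit 83484844333) (nat_lit 17) (nat_lit 5) (nat_lit 18) (nat_lit 5) (nat_lit 19) (nat_lit 4) (nat_lit 462) (nat_lit 404) (nat_lit 334)) (XT.nd (nat_lit 78) (nat_lit 76) (nat_lit 0) (XT.lf (nat_lit 0) (nat_lit 36543508107) (nat_lit 152) (nat_lit 41270152138) (nat_lit 0) (nat_lit 22974704784) (nat_lit 17) (nat_lit 5) (nat_lit 19) (nat_lit 4) (nat_lit 17) (nat_lit 4) (nat_lit 463) (nat_lit 404) (nat_lit 333)) (XT.lf (nat_lit 0) (nat_lit 6759786576) (nat_lit 76) (nat_lit 56823912933) (nat_lit 76) (nat_lit 43250834330) (nat_lit 16) (nat_lit 4) (nat_lit 17) (nat_lit 5) (nat_lit 17) (nat_lit 4) (nat_lit 464) (nat_lit 404) (nat_lit 332)))) (XT.nd (nat_lit 78) (nat_lit 152) (nat_lit 0) (XT.lf (nat_lit 0) (nat_lit 60947017463) (nat_lit 76) (nat_lit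 32952703460) (nat_lit 76) (nat_lit 19375666265) (nat_lit 16) (nat_lit 4) (nat_lit 17) (nat_lit 5) (nat_lit 17) (nat_lit 4) (nat_lit 465) (nat_lit 404) (nat_lit 331)) (XT.nd (nat_lit 78) (nat_lit 76) (nat_lit 0) (XT.lf (nat_lit 0) (nat_lit 6073890350) (nat_lit 152) (nat_lit 947010629) (nat_lit 76) (nat_lit 113199475688) (nat_lit 15) (nat_lit 5) (nat_lit 17) (nat_lit 5) (nat_lit 16) (nat_lit 4) (nat_lit 466) (nat_lit 404) (nat_lit 330)) (XT.lf (nat_lit 0) (nat_lit 34419105532) (nat_lit 152) (nat_lit 71267841672) (nat_lit 0) (nat_lit 21841238482) (nat_lit 14) (nat_lit 5) (nat_lit 16) (nat_lit 4) (nat_lit 14) (nat_lit 4) (nat_lit 467) (nat_lit 404) (nat_lit 329)))))) (XT.nd (nat_lit 468) (nat_lit 304) (nat_lit 0) (XT.nd (nat_lit 234) (nat_lit 152) (nat_lit 0) (XT.nd (nat_lit 78) (nat_lit 76) (nat_lit 0) (XT.lf (nat_lit 0) (nat_lit 65227006400) (nat_lit 152) (nat_lit 17531778037) (nat_lit 0)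 (nat_lit 52646229667) (nat_lit 14) (nat_lit 5) (nat_lit 16) (nat_lit 4) (nat_lit 14) (nat_lit 4) (nat_lit 468) (nat_lit 404) (nat_lit 328)) (XT.nd (nat_lit 78) (nat_lit 0) (nat_lit 0) (XT.lf (nat_lit 0) (nat_lit 42608372564) (nat_lit 76) (nat_lit 56903067597) (nat_lit 76) (nat_lit 44319596713) (nat_lit 13) (nat_lit 4) (nat_lit 14) (nat_lit 5) (nat_lit 14) (nat_lit 4) (nat_lit 469) (nat_lit 404) (nat_lit 327)) (XT.lf (nat_lit 0) (nat_lit 108531205824) (nat_lit 76) (nat_lit 28474276475) (nat_lit 76) (nat_lit 15888311006) (nat_lit 13) (nat_lit 4) (nat_lit 14) (nat_lit 5) (nat_lit 14) (nat_lit 4) (nat_lit 470) (nat_lit 404) (nat_lit 326)))) (XT.nd (nat_lit 78) (nat_lit 0) (nat_lit 0) (XT.lf (nat_lit 0) (nat_lit 14559809682) (nat_lit 152) (nat_lit 145150567591) (nat_lit 0) (nat_lit 2903999247) (nat_lit 11) (nat_lit 5) (nat_lit 13) (nat_lit 4) (nat_lit 11) (nat_lit 4) (nat_lit 471) (nat_lit 404)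 (nat_lit 325)) (XT.nd (nat_lit 78) (nat_lit 0) (nat_lit 0) (XT.lf (nat_lit 0) (nat_lit 48557593735) (nat_lit 152) (nat_lit 87464419459) (nat_lit 0) (nat_lit 36899803019) (nat_lit 11) (nat_lit 5) (nat_lit 13) (nat_lit 4) (nat_lit 11) (nat_lit 4) (nat_lit 472) (nat_lit 404) (nat_lit 324)) (XT.lf (nat_lit 0) (nat_lit 85264225133) (nat_lit 152) (nat_lit 25185903253) (nat_lit 0) (nat_lit 73604600822) (nat_lit 11) (nat_lit 5) (nat_lit 13) (nat_lit 4) (nat_lit 11) (nat_lit 4) (nat_lit 473) (nat_lit 404) (nat_lit 323))))) (XT.nd (nat_lit 234) (nat_lit 228) (nat_lit 0) (XT.nd (nat_lit 78) (nat_lit 0) (nat_lit 0) (XT.lf (nat_lit 0) (nat_lit 44268530061) (nat_lit 76) (nat_lit 81693353806) (nat_lit 76) (nat_lit 70032031722) (nat_lit 10) (nat_lit 4) (nat_lit 11) (nat_lit 5) (nat_lit 11) (nat_lit 4) (nat_lit 474) (nat_lit 404) (nat_lit 322)) (XT.nd (nat_lit 78) (nat_lit 0) (nat_lit 0) (XT.lf (nat_lit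 0) (nat_lit 120691335310) (nat_lit 76) (nat_lit 49902748725) (nat_lit 76) (nat_lit 38239854630) (nat_lit 10) (nat_lit 4) (nat_lit 11) (nat_lit 5) (nat_lit 11) (nat_lit 4) (nat_lit 475) (nat_lit 404) (nat_lit 321)) (XT.lf (nat_lit 0) (nat_lit 203209143345) (nat_lit 76) (nat_lit 15578551602) (nat_lit 76) (nat_lit 3914201941) (nat_lit 10) (nat_lit 4) (nat_lit 11) (nat_lit 5) (nat_lit 11) (nat_lit 4) (nat_lit 476) (nat_lit 404) (nat_lit 320)))) (XT.nd (nat_lit 156) (nat_lit 76) (nat_lit 0) (XT.nd (nat_lit 78) (nat_lit 0) (nat_lit 0) (XT.lf (nat_lit 0) (nat_lit 33425767971) (nat_lit 152) (nat_lit 181411377459) (nat_lit 0) (nat_lit 22624196297) (nat_lit 8) (nat_lit 5) (nat_lit 10) (nat_lit 4) (nat_lit 8) (nat_lit 4) (nat_lit 477) (nat_lit 404) (nat_lit 319)) (XT.lf (nat_lit 0) (nat_lit 74484217851) (nat_lit 152) (nat_lit 115152280181) (nat_lit 0) (nat_lit 63681490702) (nat_lit 8) (nat_lit 5)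 (nat_lit 10) (nat_lit 4) (nat_lit 8) (nat_lit 4) (nat_lit 478) (nat_lit 404) (nat_lit 318))) (XT.nd (nat_lit 78) (nat_lit 76) (nat_lit 0) (XT.lf (nat_lit 0) (nat_lit 118819291436) (nat_lit 152) (nat_lit 43609025902) (nat_lit 0) (nat_lit 108015494402) (nat_lit 8) (nat_lit 5) (nat_lit 10) (nat_lit 4) (nat_lit 8) (nat_lit 4) (nat_lit 479) (nat_lit 404) (nat_lit 317)) (XT.lf (nat_lit 0) (nat_lit 35413891691) (nat_lit 76) (nat_lit 132131528344) (nat_lit 76) (nat_lit 121326740676) (nat_lit 7) (nat_lit 4) (nat_lit 8) (nat_lit 5) (nat_lit 8) (nat_lit 4) (nat_lit 480) (nat_lit 404) (nat_lit 316))))))) (XT.nd (nat_lit 936) (nat_lit 152) (nat_lit 0) (XT.nd (nat_lit 468) (nat_lit 76) (nat_lit 0) (XT.nd (nat_lit 234) (nat_lit 152) (nat_lit 0) (XT.nd (nat_lit 78) (nat_lit 0) (nat_lit 0) (XT.lf (nat_lit 0) (nat_lit 123223771760) (nat_lit 76) (nat_lit 98130952011) (nat_lit 76) (nat_lit 87325247090) (nat_lit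 7) (nat_lit 4) (nat_lit 8) (nat_lit 5) (nat_lit 8) (nat_lit 4) (nat_lit 481) (nat_lit 404) (nat_lit 315)) (XT.nd (nat_lit 78) (nat_lit 0) (nat_lit 0) (XT.lf (nat_lit 0) (nat_lit 218044595125) (nat_lit 76) (nat_lit 61417451494) (nat_lit 76) (nat_lit 50610897264) (nat_lit 7) (nat_lit 4) (nat_lit 8) (nat_lit 5) (nat_lit 8) (nat_lit 4) (nat_lit 482) (nat_lit 404) (nat_lit 314)) (XT.lf (nat_lit 0) (nat_lit 320438262962) (nat_lit 76) (nat_lit 21773465307) (nat_lit 76) (nat_lit 10966124680) (nat_lit 7) (nat_lit 4) (nat_lit 8) (nat_lit 5) (nat_lit 8) (nat_lit 4) (nat_lit 483) (nat_lit 404) (nat_lit 313)))) (XT.nd (nat_lit 78) (nat_lit 0) (nat_lit 0) (XT.lf (nat_lit 0) (nat_lit 32130456224) (nat_lit 152) (nat_lit 323666553193) (nat_lit 0) (nat_lit 22122985138) (nat_lit 5) (nat_lit 5) (nat_lit 7) (nat_lit 4) (nat_lit 5) (nat_lit 4) (nat_lit 484) (nat_lit 404) (nat_lit 312)) (XT.nd (nat_lit 78) (nat_lit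 0) (nat_lit 0) (XT.lf (nat_lit 0) (nat_lit 79560351917) (nat_lit 152) (nat_lit 255387868779) (nat_lit 0) (nat_lit 69552256564) (nat_lit 5) (nat_lit 5) (nat_lit 7) (nat_lit 4) (nat_lit 5) (nat_lit 4) (nat_lit 485) (nat_lit 404) (nat_lit 311)) (XT.lf (nat_lit 0) (nat_lit 130779167091) (nat_lit 152) (nat_lit 181658175583) (nat_lit 0) (nat_lit 120770493712) (nat_lit 5) (nat_lit 5) (nat_lit 7) (nat_lit 4) (nat_lit 5) (nat_lit 4) (nat_lit 486) (nat_lit 404) (nat_lit 310))))) (XT.nd (nat_lit 234) (nat_lit 0) (nat_lit 0) (XT.nd (nat_lit 78) (nat_lit 76) (nat_lit 0) (XT.lf (nat_lit 0) (nat_lit 186090420650) (nat_lit 152) (nat_lit 102040556904) (nat_lit 0) (nat_lit 176081212063) (nat_lit 5) (nat_lit 5) (nat_lit 7) (nat_lit 4) (nat_lit 5) (nat_lit 4) (nat_lit 487) (nat_lit 404) (nat_lit 309)) (XT.nd (nat_lit 78) (nat_lit 76) (nat_lit 0) (XT.lf (nat_lit 0) (nat_lit 245821882986) (nat_lit 152) (nat_lit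 16063204632) (nat_lit 0) (nat_lit 235812178835) (nat_lit 5) (nat_lit 5) (nat_lit 7) (nat_lit 4) (nat_lit 5) (nat_lit 4) (nat_lit 488) (nat_lit 404) (nat_lit 308)) (XT.lf (nat_lit 0) (nat_lit 80826653196) (nat_lit 76) (nat_lit 231444748077) (nat_lit 76) (nat_lit 221434585071) (nat_lit 4) (nat_lit 4) (nat_lit 5) (nat_lit 5) (nat_lit 5) (nat_lit 4) (nat_lit 489) (nat_lit 404) (nat_lit 307)))) (XT.nd (nat_lit 78) (nat_lit 0) (nat_lit 0) (XT.lf (nat_lit 0) (nat_lit 186372495978) (nat_lit 76) (nat_lit 198099349301) (nat_lit 76) (nat_lit 188088761429) (nat_lit 4) (nat_lit 4) (nat_lit 5) (nat_lit 5) (nat_lit 5) (nat_lit 4) (nat_lit 490) (nat_lit 404) (nat_lit 306)) (XT.nd (nat_lit 78) (nat_lit 0) (nat_lit 0) (XT.lf (nat_lit 0) (nat_lit 300353920671) (nat_lit 76) (nat_lit 162090485408) (nat_lit 76) (nat_lit 152079504142) (nat_lit 4) (nat_lit 4) (nat_lit 5) (nat_lit 5) (nat_lit 5) (nat_lit 4) (nat_lit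 491) (nat_lit 404) (nat_lit 305)) (XT.lf (nat_lit 0) (nat_lit 423446372754) (nat_lit 76) (nat_lit 123204770538) (nat_lit 76) (nat_lit 113193425018) (nat_lit 4) (nat_lit 4) (nat_lit 5) (nat_lit 5) (nat_lit 5) (nat_lit 4) (nat_lit 492) (nat_lit 404) (nat_lit 304)))))) (XT.nd (nat_lit 468) (nat_lit 0) (nat_lit 0) (XT.nd (nat_lit 234) (nat_lit 0) (nat_lit 0) (XT.nd (nat_lit 78) (nat_lit 152) (nat_lit 0) (XT.lf (nat_lit 0) (nat_lit 556379288980) (nat_lit 76) (nat_lit 81211770826) (nat_lit 76) (nat_lit 71200088033) (nat_lit 4) (nat_lit 4) (nat_lit 5) (nat_lit 5) (nat_lit 5) (nat_lit 4) (nat_lit 493) (nat_lit 404) (nat_lit 303)) (XT.nd (nat_lit 78) (nat_lit 152) (nat_lit 0) (XT.lf (nat_lit 0) (nat_lit 699940419964) (nat_lit 76) (nat_lit 35862638865) (nat_lit 76) (nat_lit 25850643783) (nat_lit 4) (nat_lit 4) (nat_lit 5) (nat_lit 5) (nat_lit 5) (nat_lit 4) (nat_lit 494) (nat_lit 404) (nat_lit 302))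 (XT.lf (nat_lit 0) (nat_lit 23223404332) (nat_lit 152) (nat_lit 781424307362) (nat_lit 0) (nat_lit 13952770778) (nat_lit 2) (nat_lit 5) (nat_lit 4) (nat_lit 4) (nat_lit 2) (nat_lit 4) (nat_lit 495) (nat_lit 404) (nat_lit 301)))) (XT.nd (nat_lit 78) (nat_lit 0) (nat_lit 0) (XT.lf (nat_lit 0) (nat_lit 77486492017) (nat_lit 152) (nat_lit 734134408780) (nat_lit 0) (nat_lit 68215610558) (nat_lit 2) (nat_lit 5) (nat_lit 4) (nat_lit 4) (nat_lit 2) (nat_lit 4) (nat_lit 496) (nat_lit 404) (nat_lit 300)) (XT.nd (nat_lit 78) (nat_lit 0) (nat_lit 0) (XT.lf (nat_lit 0) (nat_lit 136087892474) (nat_lit 152) (nat_lit 683066967354) (nat_lit 0) (nat_lit 126816781474) (nat_lit 2) (nat_lit 5) (nat_lit 4) (nat_lit 4) (nat_lit 2) (nat_lit 4) (nat_lit 497) (nat_lit 404) (nat_lit 299)) (XT.lf (nat_lit 0) (nat_lit 199374873262) (nat_lit 152) (nat_lit 627919361208) (nat_lit 0) (nat_lit 190103549722) (nat_lit 2)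 (nat_lit 5) (nat_lit 4) (nat_lit 4) (nat_lit 2) (nat_lit 4) (nat_lit 498) (nat_lit 404) (nat_lit 298))))) (XT.nd (nat_lit 234) (nat_lit 0) (nat_lit 0) (XT.nd (nat_lit 78) (nat_lit 0) (nat_lit 0) (XT.lf (nat_lit 0) (nat_lit 267722468339) (nat_lit 152) (nat_lit 568364789713) (nat_lit 0) (nat_lit 258450948005) (nat_lit 2) (nat_lit 5) (nat_lit 4) (nat_lit 4) (nat_lit 2) (nat_lit 4) (nat_lit 499) (nat_lit 404) (nat_lit 297)) (XT.nd (nat_lit 78) (nat_lit 0) (nat_lit 0) (XT.lf (nat_lit 0) (nat_lit 341535700493) (nat_lit 152) (nat_lit 504050336891) (nat_lit 0) (nat_lit 332263997941) (nat_lit 2) (nat_lit 5) (nat_lit 4) (nat_lit 4) (nat_lit 2) (nat_lit 4) (nat_lit 500) (nat_lit 404) (nat_lit 296)) (XT.lf (nat_lit 0) (nat_lit 421251981469) (nat_lit 152) (nat_lit 434594880057) (nat_lit 0) (nat_lit 411980110196) (nat_lit 2) (nat_lit 5) (nat_lit 4) (nat_lit 4) (nat_lit 2) (nat_lit 4) (nat_lit 501) (nat_lit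 404) (nat_lit 295)))) (XT.nd (nat_lit 156) (nat_lit 0) (nat_lit 0) (XT.nd (nat_lit 78) (nat_lit 0) (nat_lit 0) (XT.lf (nat_lit 0) (nat_lit 507343704043) (nat_lit 152) (nat_lit 359586831320) (nat_lit 0) (nat_lit 498071676548) (nat_lit 2) (nat_lit 5) (nat_lit 4) (nat_lit 4) (nat_lit 2) (nat_lit 4) (nat_lit 502) (nat_lit 404) (nat_lit 294)) (XT.lf (nat_lit 0) (nat_lit 600321041385) (nat_lit 152) (nat_lit 278581698538) (nat_lit 0) (nat_lit 591048869240) (nat_lit 2) (nat_lit 5) (nat_lit 4) (nat_lit 4) (nat_lit 2) (nat_lit 4) (nat_lit 503) (nat_lit 404) (nat_lit 293))) (XT.nd (nat_lit 78) (nat_lit 0) (nat_lit 0) (XT.lf (nat_lit 0) (nat_lit 700734970311) (nat_lit 152) (nat_lit 191099451295) (nat_lit 0) (nat_lit 691462664231) (nat_lit 2) (nat_lit 5) (nat_lit 4) (nat_lit 4) (nat_lit 2) (nat_lit 4) (nat_lit 504) (nat_lit 404) (nat_lit 292)) (XT.lf (nat_lit 0) (nat_lit 809180536325) (nat_lit 152)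 (nat_lit 96621676275) (nat_lit 0) (nat_lit 799908106230) (nat_lit 2) (nat_lit 5) (nat_lit 4) (nat_lit 4) (nat_lit 2) (nat_lit 4) (nat_lit 505) (nat_lit 404) (nat_lit 291))))))))
noncomputable def xc105 : XT := (XT.nd (nat_lit 1950) (nat_lit 0) (nat_lit 0) (XT.nd (nat_lit 936) (nat_lit 0) (nat_lit 0) (XT.nd (nat_lit 468) (nat_lit 0) (nat_lit 0) (XT.nd (nat_lit 234) (nat_lit 0) (nat_lit 0) (XT.nd (nat_lit 78) (nat_lit 0) (nat_lit 0) (XT.lf (nat_lit 0) (nat_lit 5696454546) (nat_lit 76) (nat_lit 920740925140) (nat_lit 76) (nat_lit 911468380217) (nat_lit 1) (nat_lit 4) (nat_lit 2) (nat_lit 5) (nat_lit 2) (nat_lit 4) (nat_lit 506) (nat_lit 404) (nat_lit 290)) (XT.nd (nat_lit 78) (nat_lit 0) (nat_lit 0) (XT.lf (nat_lit 0) (nat_lit 121692241792) (nat_lit 76) (nat_lit 934023003854) (nat_lit 76) (nat_lit 924750352609) (nat_lit 1) (nat_lit 4) (nat_lit 2) (nat_lit 5) (nat_lit 2) (nat_lit 4) (nat_lit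 507) (nat_lit 404) (nat_lit 289)) (XT.lf (nat_lit 0) (nat_lit 246965141662) (nat_lit 76) (nat_lit 948368965216) (nat_lit 76) (nat_lit 939096215525) (nat_lit 1) (nat_lit 4) (nat_lit 2) (nat_lit 5) (nat_lit 2) (nat_lit 4) (nat_lit 508) (nat_lit 404) (nat_lit 288)))) (XT.nd (nat_lit 78) (nat_lit 0) (nat_lit 0) (XT.lf (nat_lit 0) (nat_lit 382257512080) (nat_lit 76) (nat_lit 963863822330) (nat_lit 76) (nat_lit 954590981485) (nat_lit 1) (nat_lit 4) (nat_lit 2) (nat_lit 5) (nat_lit 2) (nat_lit 4) (nat_lit 509) (nat_lit 404) (nat_lit 287)) (XT.nd (nat_lit 78) (nat_lit 0) (nat_lit 0) (XT.lf (nat_lit 0) (nat_lit 528371085612) (nat_lit 76) (nat_lit 980599396572) (nat_lit 76) (nat_lit 971326471324) (nat_lit 1) (nat_lit 4) (nat_lit 2) (nat_lit 5) (nat_lit 2) (nat_lit 4) (nat_lit 510) (nat_lit 404) (nat_lit 286)) (XT.lf (nat_lit 0) (nat_lit 686171720472) (nat_lit 76) (nat_lit 998674861714) (nat_lit 76)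 (nat_lit 989401858316) (nat_lit 1) (nat_lit 4) (nat_lit 2) (nat_lit 5) (nat_lit 2) (nat_lit 4) (nat_lit 511) (nat_lit 404) (nat_lit 285))))) (XT.nd (nat_lit 234) (nat_lit 0) (nat_lit 0) (XT.nd (nat_lit 78) (nat_lit 0) (nat_lit 0) (XT.lf (nat_lit 0) (nat_lit 856594531532) (nat_lit 76) (nat_lit 1018197331624) (nat_lit 76) (nat_lit 1008924255865) (nat_lit 1) (nat_lit 4) (nat_lit 2) (nat_lit 5) (nat_lit 2) (nat_lit 4) (nat_lit 512) (nat_lit 404) (nat_lit 284)) (XT.nd (nat_lit 78) (nat_lit 0) (nat_lit 0) (XT.lf (nat_lit 0) (nat_lit 1040649431747) (nat_lit 76) (nat_lit 1039282495013) (nat_lit 76) (nat_lit 1030009352253) (nat_lit 1) (nat_lit 4) (nat_lit 2) (nat_lit 5) (nat_lit 2) (nat_lit 4) (nat_lit 513) (nat_lit 404) (nat_lit 283)) (XT.lf (nat_lit 0) (nat_lit 1239427116823) (nat_lit 76) (nat_lit 1062055300997) (nat_lit 76) (nat_lit 1052782096199) (nat_lit 1) (nat_lit 4) (nat_lit 2) (nat_lit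 5) (nat_lit 2) (nat_lit 4) (nat_lit 514) (nat_lit 404) (nat_lit 282)))) (XT.nd (nat_lit 78) (nat_lit 0) (nat_lit 0) (XT.lf (nat_lit 0) (nat_lit 1454105528595) (nat_lit 76) (nat_lit 1086650699538) (nat_lit 76) (nat_lit 1077377437297) (nat_lit 1) (nat_lit 4) (nat_lit 2) (nat_lit 5) (nat_lit 2) (nat_lit 4) (nat_lit 515) (nat_lit 404) (nat_lit 281)) (XT.nd (nat_lit 78) (nat_lit 0) (nat_lit 0) (XT.lf (nat_lit 0) (nat_lit 1685956835432) (nat_lit 76) (nat_lit 1113214441145) (nat_lit 76) (nat_lit 1103941125716) (nat_lit 1) (nat_lit 4) (nat_lit 2) (nat_lit 5) (nat_lit 2) (nat_lit 4) (nat_lit 516) (nat_lit 404) (nat_lit 280)) (XT.lf (nat_lit 0) (nat_lit 1936354971002) (nat_lit 76) (nat_lit 1141903940583) (nat_lit 76) (nat_lit 1132630575907) (nat_lit 1) (nat_lit 4) (nat_lit 2) (nat_lit 5) (nat_lit 2) (nat_lit 4) (nat_lit 517) (nat_lit 404) (nat_lit 279)))))) (XT.nd (nat_lit 468) (nat_lit 0) (nat_lit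 0) (XT.nd (nat_lit 234) (nat_lit 0) (nat_lit 0) (XT.nd (nat_lit 78) (nat_lit 0) (nat_lit 0) (XT.lf (nat_lit 0) (nat_lit 2206783776110) (nat_lit 76) (nat_lit 1172889209701) (nat_lit 76) (nat_lit 1163615799425) (nat_lit 1) (nat_lit 4) (nat_lit 2) (nat_lit 5) (nat_lit 2) (nat_lit 4) (nat_lit 518) (nat_lit 404) (nat_lit 278)) (XT.nd (nat_lit 78) (nat_lit 0) (nat_lit 0) (XT.lf (nat_lit 0) (nat_lit 2498845791821) (nat_lit 76) (nat_lit 1206353864909) (nat_lit 76) (nat_lit 1197080412411) (nat_lit 1) (nat_lit 4) (nat_lit 2) (nat_lit 5) (nat_lit 2) (nat_lit 4) (nat_lit 519) (nat_lit 404) (nat_lit 277)) (XT.lf (nat_lit 0) (nat_lit 2814271756008) (nat_lit 76) (nat_lit 1242496215275) (nat_lit 76) (nat_lit 1233222723682) (nat_lit 1) (nat_lit 4) (nat_lit 2) (nat_lit 5) (nat_lit 2) (nat_lit 4) (nat_lit 520) (nat_lit 404) (nat_lit 276)))) (XT.nd (nat_lit 78) (nat_lit 0) (nat_lit 0) (XT.lf (nat_lit 0) (nat_lit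 3154930859570) (nat_lit 76) (nat_lit 1281530437689) (nat_lit 76) (nat_lit 1272256909897) (nat_lit 1) (nat_lit 4) (nat_lit 2) (nat_lit 5) (nat_lit 2) (nat_lit 4) (nat_lit 521) (nat_lit 404) (nat_lit 275)) (XT.nd (nat_lit 78) (nat_lit 0) (nat_lit 0) (XT.lf (nat_lit 0) (nat_lit 3522841823119) (nat_lit 76) (nat_lit 1323687846062) (nat_lit 76) (nat_lit 1314414284753) (nat_lit 1) (nat_lit 4) (nat_lit 2) (nat_lit 5) (nat_lit 2) (nat_lit 4) (nat_lit 522) (nat_lit 404) (nat_lit 274)) (XT.lf (nat_lit 0) (nat_lit 3920184859773) (nat_lit 76) (nat_lit 1369218262073) (nat_lit 76) (nat_lit 1359944669730) (nat_lit 1) (nat_lit 4) (nat_lit 2) (nat_lit 5) (nat_lit 2) (nat_lit 4) (nat_lit 523) (nat_lit 404) (nat_lit 273))))) (XT.nd (nat_lit 234) (nat_lit 0) (nat_lit 0) (XT.nd (nat_lit 78) (nat_lit 0) (nat_lit 0) (XT.lf (nat_lit 0) (nat_lit 4349314594935) (nat_lit 76) (nat_lit 1418391495596) (nat_lit 76) (nat_lit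 1409117874517) (nat_lit 1) (nat_lit 4) (nat_lit 2) (nat_lit 5) (nat_lit 2) (nat_lit 4) (nat_lit 524) (nat_lit 404) (nat_lit 272)) (XT.nd (nat_lit 78) (nat_lit 0) (nat_lit 0) (XT.lf (nat_lit 0) (nat_lit 4812774019628) (nat_lit 76) (nat_lit 1471498943569) (nat_lit 76) (nat_lit 1462225295883) (nat_lit 1) (nat_lit 4) (nat_lit 2) (nat_lit 5) (nat_lit 2) (nat_lit 4) (nat_lit 525) (nat_lit 404) (nat_lit 271)) (XT.lf (nat_lit 0) (nat_lit 5313309560072) (nat_lit 76) (nat_lit 1528855316795) (nat_lit 76) (nat_lit 1519581644473) (nat_lit 1) (nat_lit 4) (nat_lit 2) (nat_lit 5) (nat_lit 2) (nat_lit 4) (nat_lit 526) (nat_lit 404) (nat_lit 270)))) (XT.nd (nat_lit 156) (nat_lit 0) (nat_lit 0) (XT.nd (nat_lit 78) (nat_lit 0) (nat_lit 0) (XT.lf (nat_lit 0) (nat_lit 5853887352804) (nat_lit 76) (nat_lit 1590800504893) (nat_lit 76) (nat_lit 1581526809760) (nat_lit 1) (nat_lit 4) (nat_lit 2) (nat_lit 5) (nat_lit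 2) (nat_lit 4) (nat_lit 527) (nat_lit 404) (nat_lit 269)) (XT.lf (nat_lit 0) (nat_lit 6437710821779) (nat_lit 76) (nat_lit 1657701590460) (nat_lit 76) (nat_lit 1648427874206) (nat_lit 1) (nat_lit 4) (nat_lit 2) (nat_lit 5) (nat_lit 2) (nat_lit 4) (nat_lit 528) (nat_lit 404) (nat_lit 268))) (XT.nd (nat_lit 78) (nat_lit 0) (nat_lit 0) (XT.lf (nat_lit 0) (nat_lit 7068239661629) (nat_lit 76) (nat_lit 1729955024373) (nat_lit 76) (nat_lit 1720681288561) (nat_lit 1) (nat_lit 4) (nat_lit 2) (nat_lit 5) (nat_lit 2) (nat_lit 4) (nat_lit 529) (nat_lit 404) (nat_lit 267)) (XT.lf (nat_lit 0) (nat_lit 7749210339554) (nat_lit 76) (nat_lit 1807988975129) (nat_lit 76) (nat_lit 1798715221209) (nat_lit 1) (nat_lit 4) (nat_lit 2) (nat_lit 5) (nat_lit 2) (nat_lit 4) (nat_lit 530) (nat_lit 404) (nat_lit 266))))))) (XT.nd (nat_lit 53274) (nat_lit 0) (nat_lit 4104) (XT.nd (nat_lit 52806) (nat_lit 0) (nat_lit 6308)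 (XT.nd (nat_lit 234) (nat_lit 0) (nat_lit 0) (XT.nd (nat_lit 78) (nat_lit 0) (nat_lit 0) (XT.lf (nat_lit 0) (nat_lit 8484658237348) (nat_lit 76) (nat_lit 1892265866140) (nat_lit 76) (nat_lit 1882992095453) (nat_lit 1) (nat_lit 4) (nat_lit 2) (nat_lit 5) (nat_lit 2) (nat_lit 4) (nat_lit 531) (nat_lit 404) (nat_lit 265)) (XT.nd (nat_lit 78) (nat_lit 0) (nat_lit 0) (XT.lf (nat_lit 0) (nat_lit 9278941564776) (nat_lit 76) (nat_lit 1983285116020) (nat_lit 76) (nat_lit 1974011329808) (nat_lit 1) (nat_lit 4) (nat_lit 2) (nat_lit 5) (nat_lit 2) (nat_lit 4) (nat_lit 532) (nat_lit 404) (nat_lit 264)) (XT.lf (nat_lit 0) (nat_lit 10136767186000) (nat_lit 76) (nat_lit 2081586098100) (nat_lit 76) (nat_lit 2072312297514) (nat_lit 1) (nat_lit 4) (nat_lit 2) (nat_lit 5) (nat_lit 2) (nat_lit 4) (nat_lit 533) (nat_lit 404) (nat_lit 263)))) (XT.nd (nat_lit 52416) (nat_lit 0) (nat_lit 6992) (XT.lf (nat_lit 0)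 (nat_lit 11063218512110) (nat_lit 76) (nat_lit 2187751336720) (nat_lit 76) (nat_lit 2178477522823) (nat_lit 1) (nat_lit 4) (nat_lit 2) (nat_lit 5) (nat_lit 2) (nat_lit 4) (nat_lit 534) (nat_lit 404) (nat_lit 262)) (XT.nd (nat_lit 78) (nat_lit 0) (nat_lit 0) (XT.lf (nat_lit 0) (nat_lit 2174708084) (nat_lit 380) (nat_lit 701703530) (nat_lit 380) (nat_lit 701703530) (nat_lit 93) (nat_lit 3) (nat_lit 98) (nat_lit 3) (nat_lit 98) (nat_lit 5) (nat_lit 405) (nat_lit 405) (nat_lit 390)) (XT.lf (nat_lit 76) (nat_lit 2263670172) (nat_lit 0) (nat_lit 3917793570) (nat_lit 380) (nat_lit 1127829628) (nat_lit 94) (nat_lit 5) (nat_lit 93) (nat_lit 3) (nat_lit 98) (nat_lit 5) (nat_lit 406) (nat_lit 405) (nat_lit 389))))) (XT.nd (nat_lit 234) (nat_lit 304) (nat_lit 0) (XT.nd (nat_lit 78) (nat_lit 0) (nat_lit 76) (XT.lf (nat_lit 0) (nat_lit 523641990) (nat_lit 380) (nat_lit 1285155040) (nat_lit 456) (nat_lit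 5674739002) (nat_lit 88) (nat_lit 5) (nat_lit 93) (nat_lit 3) (nat_lit 94) (nat_lit 5) (nat_lit 407) (nat_lit 405) (nat_lit 388)) (XT.nd (nat_lit 78) (nat_lit 0) (nat_lit 0) (XT.lf (nat_lit 0) (nat_lit 2174220341) (nat_lit 380) (nat_lit 4897714521) (nat_lit 456) (nat_lit 603252370) (nat_lit 89) (nat_lit 5) (nat_lit 94) (nat_lit 5) (nat_lit 95) (nat_lit 5) (nat_lit 408) (nat_lit 405) (nat_lit 387)) (XT.lf (nat_lit 0) (nat_lit 3895929444) (nat_lit 380) (nat_lit 792351062) (nat_lit 456) (nat_lit 3198806187) (nat_lit 89) (nat_lit 5) (nat_lit 94) (nat_lit 5) (nat_lit 95) (nat_lit 5) (nat_lit 409) (nat_lit 405) (nat_lit 386)))) (XT.nd (nat_lit 78) (nat_lit 380) (nat_lit 0) (XT.lf (nat_lit 76) (nat_lit 3732512639) (nat_lit 0) (nat_lit 1979344135) (nat_lit 456) (nat_lit 2407602562) (nat_lit 90) (nat_lit 5) (nat_lit 89) (nat_lit 5) (nat_lit 95) (nat_lit 5) (nat_lit 410) (nat_lit 405) (nat_lit 385))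 (XT.nd (nat_lit 78) (nat_lit 76) (nat_lit 0) (XT.lf (nat_lit 0) (nat_lit 177188774) (nat_lit 380) (nat_lit 7420242066) (nat_lit 456) (nat_lit 779077947) (nat_lit 85) (nat_lit 5) (nat_lit 90) (nat_lit 5) (nat_lit 91) (nat_lit 5) (nat_lit 411) (nat_lit 405) (nat_lit 384)) (XT.lf (nat_lit 0) (nat_lit 984028977) (nat_lit 456) (nat_lit 3474539922) (nat_lit 76) (nat_lit 4189435018) (nat_lit 84) (nat_lit 5) (nat_lit 90) (nat_lit 5) (nat_lit 85) (nat_lit 5) (nat_lit 412) (nat_lit 405) (nat_lit 383)))))) (XT.nd (nat_lit 468) (nat_lit 760) (nat_lit 0) (XT.nd (nat_lit 234) (nat_lit 532) (nat_lit 0) (XT.nd (nat_lit 78) (nat_lit 456) (nat_lit 0) (XT.lf (nat_lit 0) (nat_lit 1587522796) (nat_lit 456) (nat_lit 1184562657) (nat_lit 532) (nat_lit 6173464239) (nat_lit 78) (nat_lit 5) (nat_lit 84) (nat_lit 5) (nat_lit 85) (nat_lit 5) (nat_lit 413) (nat_lit 405) (nat_lit 382)) (XT.nd (nat_lit 78) (nat_lit 456)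 (nat_lit 0) (XT.lf (nat_lit 0) (nat_lit 4751198220) (nat_lit 532) (nat_lit 2172253997) (nat_lit 76) (nat_lit 2339633019) (nat_lit 78) (nat_lit 5) (nat_lit 85) (nat_lit 5) (nat_lit 79) (nat_lit 5) (nat_lit 414) (nat_lit 405) (nat_lit 381)) (XT.lf (nat_lit 0) (nat_lit 3473123235) (nat_lit 456) (nat_lit 3431659438) (nat_lit 532) (nat_lit 2699974583) (nat_lit 72) (nat_lit 5) (nat_lit 78) (nat_lit 5) (nat_lit 79) (nat_lit 5) (nat_lit 415) (nat_lit 405) (nat_lit 380)))) (XT.nd (nat_lit 78) (nat_lit 532) (nat_lit 0) (XT.lf (nat_lit 0) (nat_lit 9206506933) (nat_lit 532) (nat_lit 388209106) (nat_lit 76) (nat_lit 381001946) (nat_lit 72) (nat_lit 5) (nat_lit 79) (nat_lit 5) (nat_lit 73) (nat_lit 5) (nat_lit 416) (nat_lit 405) (nat_lit 379)) (XT.nd (nat_lit 78) (nat_lit 228) (nat_lit 0) (XT.lf (nat_lit 0) (nat_lit 1399262048) (nat_lit 304) (nat_lit 4473669324) (nat_lit 76) (nat_lit 4488985604) (nat_lit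 68) (nat_lit 5) (nat_lit 72) (nat_lit 5) (nat_lit 69) (nat_lit 5) (nat_lit 417) (nat_lit 405) (nat_lit 378)) (XT.lf (nat_lit 0) (nat_lit 1887333940) (nat_lit 228) (nat_lit 1784265000) (nat_lit 304) (nat_lit 7108077528) (nat_lit 65) (nat_lit 5) (nat_lit 68) (nat_lit 5) (nat_lit 69) (nat_lit 5) (nat_lit 418) (nat_lit 405) (nat_lit 377))))) (XT.nd (nat_lit 234) (nat_lit 380) (nat_lit 0) (XT.nd (nat_lit 78) (nat_lit 380) (nat_lit 0) (XT.lf (nat_lit 0) (nat_lit 6233774775) (nat_lit 304) (nat_lit 2377079339) (nat_lit 76) (nat_lit 2611375493) (nat_lit 65) (nat_lit 5) (nat_lit 69) (nat_lit 5) (nat_lit 66) (nat_lit 5) (nat_lit 419) (nat_lit 405) (nat_lit 376)) (XT.nd (nat_lit 78) (nat_lit 228) (nat_lit 0) (XT.lf (nat_lit 0) (nat_lit 4757355060) (nat_lit 152) (nat_lit 4329578055) (nat_lit 228) (nat_lit 2606388991) (nat_lit 63) (nat_lit 5) (nat_lit 65) (nat_lit 5) (nat_lit 66) (nat_lit 5) (nat_lit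 420) (nat_lit 405) (nat_lit 375)) (XT.lf (nat_lit 0) (nat_lit 311060881) (nat_lit 228) (nat_lit 11866633076) (nat_lit 304) (nat_lit 23674672) (nat_lit 60) (nat_lit 5) (nat_lit 63) (nat_lit 5) (nat_lit 64) (nat_lit 5) (nat_lit 421) (nat_lit 405) (nat_lit 374)))) (XT.nd (nat_lit 156) (nat_lit 152) (nat_lit 0) (XT.nd (nat_lit 78) (nat_lit 152) (nat_lit 0) (XT.lf (nat_lit 0) (nat_lit 2863703909) (nat_lit 304) (nat_lit 4484329615) (nat_lit 76) (nat_lit 5377805034) (nat_lit 59) (nat_lit 5) (nat_lit 63) (nat_lit 5) (nat_lit 60) (nat_lit 5) (nat_lit 422) (nat_lit 405) (nat_lit 373)) (XT.lf (nat_lit 0) (nat_lit 3603153133) (nat_lit 152) (nat_lit 2398900693) (nat_lit 228) (nat_lit 7288473855) (nat_lit 57) (nat_lit 5) (nat_lit 59) (nat_lit 5) (nat_lit 60) (nat_lit 5) (nat_lit 423) (nat_lit 405) (nat_lit 372))) (XT.nd (nat_lit 78) (nat_lit 152) (nat_lit 0) (XT.lf (nat_lit 0) (nat_lit 9524829184) (nat_lit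 228) (nat_lit 1464678385) (nat_lit 76) (nat_lit 2900226510) (nat_lit 57) (nat_lit 5) (nat_lit 60) (nat_lit 5) (nat_lit 58) (nat_lit 5) (nat_lit 424) (nat_lit 405) (nat_lit 371)) (XT.lf (nat_lit 0) (nat_lit 7650377638) (nat_lit 152) (nat_lit 5866746084) (nat_lit 228) (nat_lit 1004747439) (nat_lit 55) (nat_lit 5) (nat_lit 57) (nat_lit 5) (nat_lit 58) (nat_lit 5) (nat_lit 425) (nat_lit 405) (nat_lit 370))))))))
noncomputable def xc106 : XT := (XT.nd (nat_lit 1950) (nat_lit 1368) (nat_lit 0) (XT.nd (nat_lit 936) (nat_lit 836) (nat_lit 0) (XT.nd (nat_lit 468) (nat_lit 532) (nat_lit 0) (XT.nd (nat_lit 234) (nat_lit 304) (nat_lit 0) (XT.nd (nat_lit 78) (nat_lit 152) (nat_lit 0) (XT.lf (nat_lit 0) (nat_lit 2342882415) (nat_lit 152) (nat_lit 189753853) (nat_lit 228) (nat_lit 12663727429) (nat_lit 52) (nat_lit 5) (nat_lit 54) (nat_lit 5) (nat_lit 55) (nat_lit 5) (nat_lit 426) (nat_lit 405) (nat_lit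 369)) (XT.nd (nat_lit 78) (nat_lit 152) (nat_lit 0) (XT.lf (nat_lit 0) (nat_lit 6578178550) (nat_lit 228) (nat_lit 3486736789) (nat_lit 76) (nat_lit 5835464378) (nat_lit 52) (nat_lit 5) (nat_lit 55) (nat_lit 5) (nat_lit 53) (nat_lit 5) (nat_lit 427) (nat_lit 405) (nat_lit 368)) (XT.lf (nat_lit 0) (nat_lit 6887203916) (nat_lit 152) (nat_lit 4178690091) (nat_lit 228) (nat_lit 5585347939) (nat_lit 50) (nat_lit 5) (nat_lit 52) (nat_lit 5) (nat_lit 53) (nat_lit 5) (nat_lit 428) (nat_lit 405) (nat_lit 367)))) (XT.nd (nat_lit 78) (nat_lit 228) (nat_lit 0) (XT.lf (nat_lit 0) (nat_lit 733666116) (nat_lit 76) (nat_lit 15295997313) (nat_lit 152) (nat_lit 1423153555) (nat_lit 49) (nat_lit 5) (nat_lit 50) (nat_lit 5) (nat_lit 51) (nat_lit 4) (nat_lit 429) (nat_lit 405) (nat_lit 366)) (XT.nd (nat_lit 78) (nat_lit 152) (nat_lit 0) (XT.lf (nat_lit 0) (nat_lit 3250510466) (nat_lit 152) (nat_lit 5943565048)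 (nat_lit 76) (nat_lit 9091964246) (nat_lit 48) (nat_lit 5) (nat_lit 50) (nat_lit 5) (nat_lit 49) (nat_lit 5) (nat_lit 430) (nat_lit 405) (nat_lit 365)) (XT.lf (nat_lit 0) (nat_lit 5873583467) (nat_lit 152) (nat_lit 2442311426) (nat_lit 228) (nat_lit 10859496472) (nat_lit 46) (nat_lit 5) (nat_lit 48) (nat_lit 5) (nat_lit 49) (nat_lit 5) (nat_lit 431) (nat_lit 405) (nat_lit 364))))) (XT.nd (nat_lit 234) (nat_lit 228) (nat_lit 0) (XT.nd (nat_lit 78) (nat_lit 304) (nat_lit 0) (XT.lf (nat_lit 0) (nat_lit 14024228256) (nat_lit 228) (nat_lit 1347871229) (nat_lit 76) (nat_lit 4744779137) (nat_lit 46) (nat_lit 5) (nat_lit 49) (nat_lit 5) (nat_lit 47) (nat_lit 4) (nat_lit 432) (nat_lit 405) (nat_lit 363)) (XT.nd (nat_lit 78) (nat_lit 228) (nat_lit 0) (XT.lf (nat_lit 0) (nat_lit 12028192050) (nat_lit 76) (nat_lit 8471488939) (nat_lit 152) (nat_lit 609172259) (nat_lit 45) (nat_lit 5) (nat_lit 46) (nat_lit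 5) (nat_lit 47) (nat_lit 4) (nat_lit 433) (nat_lit 405) (nat_lit 362)) (XT.lf (nat_lit 0) (nat_lit 4391896881) (nat_lit 152) (nat_lit 756851247) (nat_lit 228) (nat_lit 17013096194) (nat_lit 42) (nat_lit 5) (nat_lit 44) (nat_lit 5) (nat_lit 45) (nat_lit 5) (nat_lit 434) (nat_lit 405) (nat_lit 361)))) (XT.nd (nat_lit 78) (nat_lit 228) (nat_lit 0) (XT.lf (nat_lit 0) (nat_lit 11730067567) (nat_lit 228) (nat_lit 4098469828) (nat_lit 76) (nat_lit 7437621007) (nat_lit 42) (nat_lit 5) (nat_lit 45) (nat_lit 5) (nat_lit 43) (nat_lit 4) (nat_lit 435) (nat_lit 405) (nat_lit 360)) (XT.nd (nat_lit 78) (nat_lit 152) (nat_lit 0) (XT.lf (nat_lit 0) (nat_lit 11136090731) (nat_lit 76) (nat_lit 7951106144) (nat_lit 152) (nat_lit 5351679776) (nat_lit 41) (nat_lit 5) (nat_lit 42) (nat_lit 5) (nat_lit 43) (nat_lit 4) (nat_lit 436) (nat_lit 405) (nat_lit 359)) (XT.lf (nat_lit 0) (nat_lit 1407151747) (nat_lit 152)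 (nat_lit 23580985710) (nat_lit 76) (nat_lit 703037825) (nat_lit 39) (nat_lit 5) (nat_lit 41) (nat_lit 5) (nat_lit 40) (nat_lit 4) (nat_lit 437) (nat_lit 405) (nat_lit 358)))))) (XT.nd (nat_lit 468) (nat_lit 532) (nat_lit 0) (XT.nd (nat_lit 234) (nat_lit 228) (nat_lit 0) (XT.nd (nat_lit 78) (nat_lit 76) (nat_lit 0) (XT.lf (nat_lit 0) (nat_lit 8959831537) (nat_lit 152) (nat_lit 7925605406) (nat_lit 76) (nat_lit 10103721460) (nat_lit 39) (nat_lit 5) (nat_lit 41) (nat_lit 5) (nat_lit 40) (nat_lit 4) (nat_lit 438) (nat_lit 405) (nat_lit 357)) (XT.nd (nat_lit 78) (nat_lit 0) (nat_lit 0) (XT.lf (nat_lit 0) (nat_lit 9388119056) (nat_lit 76) (nat_lit 7919743141) (nat_lit 152) (nat_lit 11067829544) (nat_lit 38) (nat_lit 5) (nat_lit 39) (nat_lit 5) (nat_lit 40) (nat_lit 4) (nat_lit 439) (nat_lit 405) (nat_lit 356)) (XT.lf (nat_lit 0) (nat_lit 26554207887) (nat_lit 152) (nat_lit 1430274848) (nat_lit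 0) (nat_lit 1870229513) (nat_lit 38) (nat_lit 5) (nat_lit 40) (nat_lit 4) (nat_lit 38) (nat_lit 4) (nat_lit 440) (nat_lit 405) (nat_lit 355)))) (XT.nd (nat_lit 78) (nat_lit 76) (nat_lit 0) (XT.lf (nat_lit 0) (nat_lit 5460656981) (nat_lit 152) (nat_lit 13365645808) (nat_lit 76) (nat_lit 12565805232) (nat_lit 36) (nat_lit 5) (nat_lit 38) (nat_lit 5) (nat_lit 37) (nat_lit 4) (nat_lit 441) (nat_lit 405) (nat_lit 354)) (XT.nd (nat_lit 78) (nat_lit 0) (nat_lit 0) (XT.lf (nat_lit 0) (nat_lit 6237473139) (nat_lit 76) (nat_lit 8665492611) (nat_lit 152) (nat_lit 18129987946) (nat_lit 35) (nat_lit 5) (nat_lit 36) (nat_lit 5) (nat_lit 37) (nat_lit 4) (nat_lit 442) (nat_lit 405) (nat_lit 353)) (XT.lf (nat_lit 0) (nat_lit 25499821847) (nat_lit 152) (nat_lit 6731683517) (nat_lit 0) (nat_lit 2541630346) (nat_lit 35) (nat_lit 5) (nat_lit 37) (nat_lit 4) (nat_lit 35) (nat_lit 4) (nat_lit 443) (nat_lit 405)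 (nat_lit 352))))) (XT.nd (nat_lit 234) (nat_lit 304) (nat_lit 0) (XT.nd (nat_lit 78) (nat_lit 76) (nat_lit 0) (XT.lf (nat_lit 0) (nat_lit 859193214) (nat_lit 152) (nat_lit 21200348761) (nat_lit 76) (nat_lit 14545878093) (nat_lit 33) (nat_lit 5) (nat_lit 35) (nat_lit 5) (nat_lit 34) (nat_lit 4) (nat_lit 444) (nat_lit 405) (nat_lit 351)) (XT.nd (nat_lit 78) (nat_lit 0) (nat_lit 0) (XT.lf (nat_lit 0) (nat_lit 868338316) (nat_lit 76) (nat_lit 10613834417) (nat_lit 152) (nat_lit 27068376829) (nat_lit 32) (nat_lit 5) (nat_lit 33) (nat_lit 5) (nat_lit 34) (nat_lit 4) (nat_lit 445) (nat_lit 405) (nat_lit 350)) (XT.lf (nat_lit 0) (nat_lit 23563090072) (nat_lit 152) (nat_lit 14809502483) (nat_lit 0) (nat_lit 2230050147) (nat_lit 32) (nat_lit 5) (nat_lit 34) (nat_lit 4) (nat_lit 32) (nat_lit 4) (nat_lit 446) (nat_lit 405) (nat_lit 349)))) (XT.nd (nat_lit 156) (nat_lit 152) (nat_lit 0) (XT.nd (nat_lit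 78) (nat_lit 76) (nat_lit 0) (XT.lf (nat_lit 0) (nat_lit 10069476885) (nat_lit 76) (nat_lit 27032340792) (nat_lit 76) (nat_lit 5677779819) (nat_lit 31) (nat_lit 4) (nat_lit 32) (nat_lit 5) (nat_lit 32) (nat_lit 4) (nat_lit 447) (nat_lit 405) (nat_lit 348)) (XT.lf (nat_lit 0) (nat_lit 6652131700) (nat_lit 152) (nat_lit 7538053931) (nat_lit 76) (nat_lit 30896719038) (nat_lit 30) (nat_lit 5) (nat_lit 32) (nat_lit 5) (nat_lit 31) (nat_lit 4) (nat_lit 448) (nat_lit 405) (nat_lit 347))) (XT.nd (nat_lit 78) (nat_lit 76) (nat_lit 0) (XT.lf (nat_lit 0) (nat_lit 20138028997) (nat_lit 152) (nat_lit 27061110688) (nat_lit 0) (nat_lit 329752425) (nat_lit 29) (nat_lit 5) (nat_lit 31) (nat_lit 4) (nat_lit 29) (nat_lit 4) (nat_lit 449) (nat_lit 405) (nat_lit 346)) (XT.lf (nat_lit 0) (nat_lit 601192408) (nat_lit 76) (nat_lit 34671764723) (nat_lit 76) (nat_lit 14847669539) (nat_lit 28) (nat_lit 4) (nat_lit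 29) (nat_lit 5) (nat_lit 29) (nat_lit 4) (nat_lit 450) (nat_lit 405) (nat_lit 345))))))) (XT.nd (nat_lit 936) (nat_lit 684) (nat_lit 0) (XT.nd (nat_lit 468) (nat_lit 304) (nat_lit 0) (XT.nd (nat_lit 234) (nat_lit 228) (nat_lit 0) (XT.nd (nat_lit 78) (nat_lit 152) (nat_lit 0) (XT.lf (nat_lit 0) (nat_lit 31968702572) (nat_lit 76) (nat_lit 20366220390) (nat_lit 76) (nat_lit 527478343) (nat_lit 28) (nat_lit 4) (nat_lit 29) (nat_lit 5) (nat_lit 29) (nat_lit 4) (nat_lit 451) (nat_lit 405) (nat_lit 344)) (XT.nd (nat_lit 78) (nat_lit 0) (nat_lit 0) (XT.lf (nat_lit 0) (nat_lit 10124826956) (nat_lit 76) (nat_lit 4287255213) (nat_lit 152) (nat_lit 41365012667) (nat_lit 26) (nat_lit 5) (nat_lit 27) (nat_lit 5) (nat_lit 28) (nat_lit 4) (nat_lit 452) (nat_lit 405) (nat_lit 343)) (XT.lf (nat_lit 0) (nat_lit 31396577705) (nat_lit 152) (nat_lit 14453841661) (nat_lit 0) (nat_lit 13003187629) (nat_lit 26)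 (nat_lit 5) (nat_lit 28) (nat_lit 4) (nat_lit 26) (nat_lit 4) (nat_lit 453) (nat_lit 405) (nat_lit 342)))) (XT.nd (nat_lit 78) (nat_lit 152) (nat_lit 0) (XT.lf (nat_lit 0) (nat_lit 20092943325) (nat_lit 76) (nat_lit 30220771395) (nat_lit 76) (nat_lit 11816615437) (nat_lit 25) (nat_lit 4) (nat_lit 26) (nat_lit 5) (nat_lit 26) (nat_lit 4) (nat_lit 454) (nat_lit 405) (nat_lit 341)) (XT.nd (nat_lit 78) (nat_lit 76) (nat_lit 0) (XT.lf (nat_lit 0) (nat_lit 5205947660) (nat_lit 152) (nat_lit 7585753232) (nat_lit 76) (nat_lit 52836943222) (nat_lit 24) (nat_lit 5) (nat_lit 26) (nat_lit 5) (nat_lit 25) (nat_lit 4) (nat_lit 455) (nat_lit 405) (nat_lit 340)) (XT.lf (nat_lit 0) (nat_lit 23845785130) (nat_lit 152) (nat_lit 38677850960) (nat_lit 0) (nat_lit 6787123672) (nat_lit 23) (nat_lit 5) (nat_lit 25) (nat_lit 4) (nat_lit 23) (nat_lit 4) (nat_lit 456) (nat_lit 405) (nat_lit 339))))) (XT.nd (nat_lit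 234) (nat_lit 76) (nat_lit 0) (XT.nd (nat_lit 78) (nat_lit 228) (nat_lit 0) (XT.lf (nat_lit 0) (nat_lit 44502790227) (nat_lit 152) (nat_lit 1306360883) (nat_lit 0) (nat_lit 27436215524) (nat_lit 23) (nat_lit 5) (nat_lit 25) (nat_lit 4) (nat_lit 23) (nat_lit 4) (nat_lit 457) (nat_lit 405) (nat_lit 338)) (XT.nd (nat_lit 78) (nat_lit 152) (nat_lit 0) (XT.lf (nat_lit 0) (nat_lit 41074036213) (nat_lit 76) (nat_lit 26708496913) (nat_lit 76) (nat_lit 9634595132) (nat_lit 22) (nat_lit 4) (nat_lit 23) (nat_lit 5) (nat_lit 23) (nat_lit 4) (nat_lit 458) (nat_lit 405) (nat_lit 337)) (XT.lf (nat_lit 0) (nat_lit 4945733019) (nat_lit 76) (nat_lit 5643891563) (nat_lit 152) (nat_lit 71300801387) (nat_lit 20) (nat_lit 5) (nat_lit 21) (nat_lit 5) (nat_lit 22) (nat_lit 4) (nat_lit 459) (nat_lit 405) (nat_lit 336)))) (XT.nd (nat_lit 78) (nat_lit 76) (nat_lit 0) (XT.lf (nat_lit 0) (nat_lit 33324581990) (nat_lit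 152) (nat_lit 35760604986) (nat_lit 0) (nat_lit 17503315415) (nat_lit 20) (nat_lit 5) (nat_lit 22) (nat_lit 4) (nat_lit 20) (nat_lit 4) (nat_lit 460) (nat_lit 405) (nat_lit 335)) (XT.nd (nat_lit 78) (nat_lit 0) (nat_lit 0) (XT.lf (nat_lit 0) (nat_lit 8988298272) (nat_lit 76) (nat_lit 49236529883) (nat_lit 76) (nat_lit 33409877687) (nat_lit 19) (nat_lit 4) (nat_lit 20) (nat_lit 5) (nat_lit 20) (nat_lit 4) (nat_lit 461) (nat_lit 405) (nat_lit 334)) (XT.lf (nat_lit 0) (nat_lit 59318736978) (nat_lit 76) (nat_lit 26760277069) (nat_lit 76) (nat_lit 10928638187) (nat_lit 19) (nat_lit 4) (nat_lit 20) (nat_lit 5) (nat_lit 20) (nat_lit 4) (nat_lit 462) (nat_lit 405) (nat_lit 333)))))) (XT.nd (nat_lit 468) (nat_lit 304) (nat_lit 0) (XT.nd (nat_lit 234) (nat_lit 152) (nat_lit 0) (XT.nd (nat_lit 78) (nat_lit 76) (nat_lit 0) (XT.lf (nat_lit 0) (nat_lit 11067179475) (nat_lit 76) (nat_lit 1867164592) (nat_lit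 152) (nat_lit 89830313380) (nat_lit 17) (nat_lit 5) (nat_lit 18) (nat_lit 5) (nat_lit 19) (nat_lit 4) (nat_lit 463) (nat_lit 405) (nat_lit 332)) (XT.nd (nat_lit 78) (nat_lit 76) (nat_lit 0) (XT.lf (nat_lit 0) (nat_lit 39759840435) (nat_lit 152) (nat_lit 43975479853) (nat_lit 0) (nat_lit 25092681672) (nat_lit 17) (nat_lit 5) (nat_lit 19) (nat_lit 4) (nat_lit 17) (nat_lit 4) (nat_lit 464) (nat_lit 405) (nat_lit 331)) (XT.lf (nat_lit 0) (nat_lit 7881758149) (nat_lit 76) (nat_lit 61073773884) (nat_lit 76) (nat_lit 46402949757) (nat_lit 16) (nat_lit 4) (nat_lit 17) (nat_lit 5) (nat_lit 17) (nat_lit 4) (nat_lit 465) (nat_lit 405) (nat_lit 330)))) (XT.nd (nat_lit 78) (nat_lit 152) (nat_lit 0) (XT.lf (nat_lit 0) (nat_lit 66360916496) (nat_lit 76) (nat_lit 35314797438) (nat_lit 76) (nat_lit 20640579456) (nat_lit 16) (nat_lit 4) (nat_lit 17) (nat_lit 5) (nat_lit 17) (nat_lit 4) (nat_lit 466) (nat_lit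 405) (nat_lit 329)) (XT.nd (nat_lit 78) (nat_lit 76) (nat_lit 0) (XT.lf (nat_lit 0) (nat_lit 6810612918) (nat_lit 152) (nat_lit 511285569) (nat_lit 76) (nat_lit 122496040366) (nat_lit 15) (nat_lit 5) (nat_lit 17) (nat_lit 5) (nat_lit 16) (nat_lit 4) (nat_lit 467) (nat_lit 405) (nat_lit 328)) (XT.lf (nat_lit 0) (nat_lit 37422972787) (nat_lit 152) (nat_lit 76457307753) (nat_lit 0) (nat_lit 23830130080) (nat_lit 14) (nat_lit 5) (nat_lit 16) (nat_lit 4) (nat_lit 14) (nat_lit 4) (nat_lit 468) (nat_lit 405) (nat_lit 327))))) (XT.nd (nat_lit 234) (nat_lit 228) (nat_lit 0) (XT.nd (nat_lit 78) (nat_lit 76) (nat_lit 0) (XT.lf (nat_lit 0) (nat_lit 70676962109) (nat_lit 152) (nat_lit 18460282083) (nat_lit 0) (nat_lit 57081624818) (nat_lit 14) (nat_lit 5) (nat_lit 16) (nat_lit 4) (nat_lit 14) (nat_lit 4) (nat_lit 469) (nat_lit 405) (nat_lit 326)) (XT.nd (nat_lit 78) (nat_lit 0) (nat_lit 0) (XT.lf (nat_lit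 0) (nat_lit 46479079600) (nat_lit 76) (nat_lit 61219012963) (nat_lit 76) (nat_lit 47621365871) (nat_lit 13) (nat_lit 4) (nat_lit 14) (nat_lit 5) (nat_lit 14) (nat_lit 4) (nat_lit 470) (nat_lit 405) (nat_lit 325)) (XT.lf (nat_lit 0) (nat_lit 117641514541) (nat_lit 76) (nat_lit 30533422258) (nat_lit 76) (nat_lit 16933636462) (nat_lit 13) (nat_lit 4) (nat_lit 14) (nat_lit 5) (nat_lit 14) (nat_lit 4) (nat_lit 471) (nat_lit 405) (nat_lit 324)))) (XT.nd (nat_lit 156) (nat_lit 76) (nat_lit 0) (XT.nd (nat_lit 78) (nat_lit 0) (nat_lit 0) (XT.lf (nat_lit 0) (nat_lit 15938719887) (nat_lit 152) (nat_lit 156323182768) (nat_lit 0) (nat_lit 3344492037) (nat_lit 11) (nat_lit 5) (nat_lit 13) (nat_lit 4) (nat_lit 11) (nat_lit 4) (nat_lit 472) (nat_lit 405) (nat_lit 323)) (XT.lf (nat_lit 0) (nat_lit 52640465521) (nat_lit 152) (nat_lit 94054693173) (nat_lit 0) (nat_lit 40044539899) (nat_lit 11) (nat_lit 5)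 (nat_lit 13) (nat_lit 4) (nat_lit 11) (nat_lit 4) (nat_lit 473) (nat_lit 405) (nat_lit 322))) (XT.nd (nat_lit 78) (nat_lit 76) (nat_lit 0) (XT.lf (nat_lit 0) (nat_lit 92268941188) (nat_lit 152) (nat_lit 26824034918) (nat_lit 0) (nat_lit 79671443554) (nat_lit 11) (nat_lit 5) (nat_lit 13) (nat_lit 4) (nat_lit 11) (nat_lit 4) (nat_lit 474) (nat_lit 405) (nat_lit 321)) (XT.lf (nat_lit 0) (nat_lit 48177215325) (nat_lit 76) (nat_lit 88040430159) (nat_lit 76) (nat_lit 75441476959) (nat_lit 10) (nat_lit 4) (nat_lit 11) (nat_lit 5) (nat_lit 11) (nat_lit 4) (nat_lit 475) (nat_lit 405) (nat_lit 320))))))))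
noncomputable def xc107 : XT := (XT.nd (nat_lit 1950) (nat_lit 76) (nat_lit 0) (XT.nd (nat_lit 936) (nat_lit 228) (nat_lit 0) (XT.nd (nat_lit 468) (nat_lit 152) (nat_lit 0) (XT.nd (nat_lit 234) (nat_lit 76) (nat_lit 0) (XT.nd (nat_lit 78) (nat_lit 152) (nat_lit 0) (XT.lf (nat_lit 0) (nat_lit 130686644783) (nat_lit 76) (nat_lit 53720531631) (nat_lit 76) (nat_lit 41120230684) (nat_lit 10) (nat_lit 4) (nat_lit 11) (nat_lit 5) (nat_lit 11) (nat_lit 4) (nat_lit 476) (nat_lit 405) (nat_lit 319)) (XT.nd (nat_lit 78) (nat_lit 152) (nat_lit 0) (XT.lf (nat_lit 0) (nat_lit 219780692078) (nat_lit 76) (nat_lit 16663319997) (nat_lit 76) (nat_lit 4061771137) (nat_lit 10) (nat_lit 4) (nat_lit 11) (nat_lit 5) (nat_lit 11) (nat_lit 4) (nat_lit 477) (nat_lit 405) (nat_lit 318)) (XT.lf (nat_lit 0) (nat_lit 36256926391) (nat_lit 152) (nat_lit 195600998087) (nat_lit 0) (nat_lit 24587755711) (nat_lit 8) (nat_lit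 5) (nat_lit 10) (nat_lit 4) (nat_lit 8) (nat_lit 4) (nat_lit 478) (nat_lit 405) (nat_lit 317)))) (XT.nd (nat_lit 78) (nat_lit 76) (nat_lit 0) (XT.lf (nat_lit 0) (nat_lit 80588415448) (nat_lit 152) (nat_lit 124065120403) (nat_lit 0) (nat_lit 68918254133) (nat_lit 8) (nat_lit 5) (nat_lit 10) (nat_lit 4) (nat_lit 8) (nat_lit 4) (nat_lit 479) (nat_lit 405) (nat_lit 316)) (XT.nd (nat_lit 78) (nat_lit 76) (nat_lit 0) (XT.lf (nat_lit 0) (nat_lit 128459520093) (nat_lit 152) (nat_lit 46820579277) (nat_lit 0) (nat_lit 116788441524) (nat_lit 8) (nat_lit 5) (nat_lit 10) (nat_lit 4) (nat_lit 8) (nat_lit 4) (nat_lit 480) (nat_lit 405) (nat_lit 315)) (XT.lf (nat_lit 0) (nat_lit 38517154795) (nat_lit 76) (nat_lit 142563104649) (nat_lit 76) (nat_lit 130891176772) (nat_lit 7) (nat_lit 4) (nat_lit 8) (nat_lit 5) (nat_lit 8) (nat_lit 4) (nat_lit 481) (nat_lit 405) (nat_lit 314))))) (XT.nd (nat_lit 234) (nat_lit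 152) (nat_lit 0) (XT.nd (nat_lit 78) (nat_lit 0) (nat_lit 0) (XT.lf (nat_lit 0) (nat_lit 133331814027) (nat_lit 76) (nat_lit 105852774503) (nat_lit 76) (nat_lit 94180060229) (nat_lit 7) (nat_lit 4) (nat_lit 8) (nat_lit 5) (nat_lit 8) (nat_lit 4) (nat_lit 482) (nat_lit 405) (nat_lit 313)) (XT.nd (nat_lit 78) (nat_lit 0) (nat_lit 0) (XT.lf (nat_lit 0) (nat_lit 235719774333) (nat_lit 76) (nat_lit 66211723846) (nat_lit 76) (nat_lit 54538281426) (nat_lit 7) (nat_lit 4) (nat_lit 8) (nat_lit 5) (nat_lit 8) (nat_lit 4) (nat_lit 483) (nat_lit 405) (nat_lit 312)) (XT.lf (nat_lit 0) (nat_lit 346287779183) (nat_lit 76) (nat_lit 23405042747) (nat_lit 76) (nat_lit 11730926119) (nat_lit 7) (nat_lit 4) (nat_lit 8) (nat_lit 5) (nat_lit 8) (nat_lit 4) (nat_lit 484) (nat_lit 405) (nat_lit 311)))) (XT.nd (nat_lit 78) (nat_lit 0) (nat_lit 0) (XT.lf (nat_lit 0) (nat_lit 34807652746) (nat_lit 152) (nat_lit 349339692496)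 (nat_lit 0) (nat_lit 23997707472) (nat_lit 5) (nat_lit 5) (nat_lit 7) (nat_lit 4) (nat_lit 5) (nat_lit 4) (nat_lit 485) (nat_lit 405) (nat_lit 310)) (XT.nd (nat_lit 78) (nat_lit 0) (nat_lit 0) (XT.lf (nat_lit 0) (nat_lit 86024031944) (nat_lit 152) (nat_lit 275615023326) (nat_lit 0) (nat_lit 75213551462) (nat_lit 5) (nat_lit 5) (nat_lit 7) (nat_lit 4) (nat_lit 5) (nat_lit 4) (nat_lit 486) (nat_lit 405) (nat_lit 309)) (XT.lf (nat_lit 0) (nat_lit 141333029971) (nat_lit 152) (nat_lit 196002056522) (nat_lit 0) (nat_lit 130522053924) (nat_lit 5) (nat_lit 5) (nat_lit 7) (nat_lit 4) (nat_lit 5) (nat_lit 4) (nat_lit 487) (nat_lit 405) (nat_lit 308)))))) (XT.nd (nat_lit 468) (nat_lit 152) (nat_lit 0) (XT.nd (nat_lit 234) (nat_lit 0) (nat_lit 0) (XT.nd (nat_lit 78) (nat_lit 76) (nat_lit 0) (XT.lf (nat_lit 0) (nat_lit 201062403851) (nat_lit 152) (nat_lit 110029011543) (nat_lit 0) (nat_lit 190250968949)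 (nat_lit 5) (nat_lit 5) (nat_lit 7) (nat_lit 4) (nat_lit 5) (nat_lit 4) (nat_lit 488) (nat_lit 405) (nat_lit 307)) (XT.nd (nat_lit 78) (nat_lit 76) (nat_lit 0) (XT.lf (nat_lit 0) (nat_lit 265566105429) (nat_lit 152) (nat_lit 17186418490) (nat_lit 0) (nat_lit 254754245662) (nat_lit 5) (nat_lit 5) (nat_lit 7) (nat_lit 4) (nat_lit 5) (nat_lit 4) (nat_lit 489) (nat_lit 405) (nat_lit 306)) (XT.lf (nat_lit 0) (nat_lit 87450530685) (nat_lit 76) (nat_lit 249879035544) (nat_lit 76) (nat_lit 239066782382) (nat_lit 4) (nat_lit 4) (nat_lit 5) (nat_lit 5) (nat_lit 5) (nat_lit 4) (nat_lit 490) (nat_lit 405) (nat_lit 305)))) (XT.nd (nat_lit 78) (nat_lit 0) (nat_lit 0) (XT.lf (nat_lit 0) (nat_lit 201428356058) (nat_lit 76) (nat_lit 213872026524) (nat_lit 76) (nat_lit 203059409108) (nat_lit 4) (nat_lit 4) (nat_lit 5) (nat_lit 5) (nat_lit 5) (nat_lit 4) (nat_lit 491) (nat_lit 405) (nat_lit 304)) (XT.nd (nat_lit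 78) (nat_lit 0) (nat_lit 0) (XT.lf (nat_lit 0) (nat_lit 324517475438) (nat_lit 76) (nat_lit 174988029128) (nat_lit 76) (nat_lit 164175074440) (nat_lit 4) (nat_lit 4) (nat_lit 5) (nat_lit 5) (nat_lit 5) (nat_lit 4) (nat_lit 492) (nat_lit 405) (nat_lit 303)) (XT.lf (nat_lit 0) (nat_lit 457447305827) (nat_lit 76) (nat_lit 132996619670) (nat_lit 76) (nat_lit 122183352693) (nat_lit 4) (nat_lit 4) (nat_lit 5) (nat_lit 5) (nat_lit 5) (nat_lit 4) (nat_lit 493) (nat_lit 405) (nat_lit 302))))) (XT.nd (nat_lit 234) (nat_lit 0) (nat_lit 0) (XT.nd (nat_lit 78) (nat_lit 152) (nat_lit 0) (XT.lf (nat_lit 0) (nat_lit 601005579555) (nat_lit 76) (nat_lit 87648960166) (nat_lit 76) (nat_lit 76835404032) (nat_lit 4) (nat_lit 4) (nat_lit 5) (nat_lit 5) (nat_lit 5) (nat_lit 4) (nat_lit 494) (nat_lit 405) (nat_lit 301)) (XT.nd (nat_lit 78) (nat_lit 152) (nat_lit 0) (XT.lf (nat_lit 0) (nat_lit 756043012317) (nat_lit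 76) (nat_lit 38676323747) (nat_lit 76) (nat_lit 27862499875) (nat_lit 4) (nat_lit 4) (nat_lit 5) (nat_lit 5) (nat_lit 5) (nat_lit 4) (nat_lit 495) (nat_lit 405) (nat_lit 300)) (XT.lf (nat_lit 0) (nat_lit 25134620708) (nat_lit 152) (nat_lit 843828041315) (nat_lit 0) (nat_lit 15121591285) (nat_lit 2) (nat_lit 5) (nat_lit 4) (nat_lit 4) (nat_lit 2) (nat_lit 4) (nat_lit 496) (nat_lit 405) (nat_lit 299)))) (XT.nd (nat_lit 156) (nat_lit 0) (nat_lit 0) (XT.nd (nat_lit 78) (nat_lit 0) (nat_lit 0) (XT.lf (nat_lit 0) (nat_lit 83734803998) (nat_lit 152) (nat_lit 792763114597) (nat_lit 0) (nat_lit 73721562037) (nat_lit 2) (nat_lit 5) (nat_lit 4) (nat_lit 4) (nat_lit 2) (nat_lit 4) (nat_lit 497) (nat_lit 405) (nat_lit 298)) (XT.lf (nat_lit 0) (nat_lit 147020657779) (nat_lit 152) (nat_lit 737617836885) (nat_lit 0) (nat_lit 137007219023) (nat_lit 2) (nat_lit 5) (nat_lit 4) (nat_lit 4) (nat_lit 2) (nat_lit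 4) (nat_lit 498) (nat_lit 405) (nat_lit 297))) (XT.nd (nat_lit 78) (nat_lit 0) (nat_lit 0) (XT.lf (nat_lit 0) (nat_lit 215367209333) (nat_lit 152) (nat_lit 678065421348) (nat_lit 0) (nat_lit 205353588359) (nat_lit 2) (nat_lit 5) (nat_lit 4) (nat_lit 4) (nat_lit 2) (nat_lit 4) (nat_lit 499) (nat_lit 405) (nat_lit 296)) (XT.lf (nat_lit 0) (nat_lit 289179475260) (nat_lit 152) (nat_lit 613752964783) (nat_lit 0) (nat_lit 279165685566) (nat_lit 2) (nat_lit 5) (nat_lit 4) (nat_lit 4) (nat_lit 2) (nat_lit 4) (nat_lit 500) (nat_lit 405) (nat_lit 295))))))) (XT.nd (nat_lit 936) (nat_lit 0) (nat_lit 0) (XT.nd (nat_lit 468) (nat_lit 76) (nat_lit 0) (XT.nd (nat_lit 234) (nat_lit 0) (nat_lit 0) (XT.nd (nat_lit 78) (nat_lit 0) (nat_lit 0) (XT.lf (nat_lit 0) (nat_lit 368894861582) (nat_lit 152) (nat_lit 544299356335) (nat_lit 0) (nat_lit 358880915666) (nat_lit 2) (nat_lit 5) (nat_lit 4) (nat_lit 4) (nat_lit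 2) (nat_lit 4) (nat_lit 501) (nat_lit 405) (nat_lit 294)) (XT.nd (nat_lit 78) (nat_lit 0) (nat_lit 0) (XT.lf (nat_lit 0) (nat_lit 454985755773) (nat_lit 152) (nat_lit 469293019066) (nat_lit 0) (nat_lit 444971665206) (nat_lit 2) (nat_lit 5) (nat_lit 4) (nat_lit 4) (nat_lit 2) (nat_lit 4) (nat_lit 502) (nat_lit 405) (nat_lit 293)) (XT.lf (nat_lit 0) (nat_lit 547962326095) (nat_lit 152) (nat_lit 388289470978) (nat_lit 0) (nat_lit 537948101592) (nat_lit 2) (nat_lit 5) (nat_lit 4) (nat_lit 4) (nat_lit 2) (nat_lit 4) (nat_lit 503) (nat_lit 405) (nat_lit 292)))) (XT.nd (nat_lit 78) (nat_lit 0) (nat_lit 0) (XT.lf (nat_lit 0) (nat_lit 648375544815) (nat_lit 152) (nat_lit 300808691044) (nat_lit 0) (nat_lit 638361196299) (nat_lit 2) (nat_lit 5) (nat_lit 4) (nat_lit 4) (nat_lit 2) (nat_lit 4) (nat_lit 504) (nat_lit 405) (nat_lit 291)) (XT.nd (nat_lit 78) (nat_lit 0) (nat_lit 0) (XT.lf (nat_lit 0) (nat_lit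 756820453232) (nat_lit 152) (nat_lit 206332274642) (nat_lit 0) (nat_lit 746805989887) (nat_lit 2) (nat_lit 5) (nat_lit 4) (nat_lit 4) (nat_lit 2) (nat_lit 4) (nat_lit 505) (nat_lit 405) (nat_lit 290)) (XT.lf (nat_lit 0) (nat_lit 873939687838) (nat_lit 152) (nat_lit 104300361528) (nat_lit 0) (nat_lit 863925118171) (nat_lit 2) (nat_lit 5) (nat_lit 4) (nat_lit 4) (nat_lit 2) (nat_lit 4) (nat_lit 506) (nat_lit 405) (nat_lit 289))))) (XT.nd (nat_lit 234) (nat_lit 0) (nat_lit 0) (XT.nd (nat_lit 78) (nat_lit 0) (nat_lit 0) (XT.lf (nat_lit 0) (nat_lit 6201927382) (nat_lit 76) (nat_lit 994374517662) (nat_lit 76) (nat_lit 984359849548) (nat_lit 1) (nat_lit 4) (nat_lit 2) (nat_lit 5) (nat_lit 2) (nat_lit 4) (nat_lit 507) (nat_lit 405) (nat_lit 288)) (XT.nd (nat_lit 78) (nat_lit 0) (nat_lit 0) (XT.lf (nat_lit 0) (nat_lit 131473691944) (nat_lit 76) (nat_lit 1008721065006) (nat_lit 76) (nat_lit 998706305738)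 (nat_lit 1) (nat_lit 4) (nat_lit 2) (nat_lit 5) (nat_lit 2) (nat_lit 4) (nat_lit 508) (nat_lit 405) (nat_lit 287)) (XT.lf (nat_lit 0) (nat_lit 266765011151) (nat_lit 76) (nat_lit 1024216464696) (nat_lit 76) (nat_lit 1014201621027) (nat_lit 1) (nat_lit 4) (nat_lit 2) (nat_lit 5) (nat_lit 2) (nat_lit 4) (nat_lit 509) (nat_lit 405) (nat_lit 286)))) (XT.nd (nat_lit 78) (nat_lit 0) (nat_lit 0) (XT.lf (nat_lit 0) (nat_lit 412877611339) (nat_lit 76) (nat_lit 1040952541323) (nat_lit 76) (nat_lit 1030937619503) (nat_lit 1) (nat_lit 4) (nat_lit 2) (nat_lit 5) (nat_lit 2) (nat_lit 4) (nat_lit 510) (nat_lit 405) (nat_lit 285)) (XT.nd (nat_lit 78) (nat_lit 0) (nat_lit 0) (XT.lf (nat_lit 0) (nat_lit 570677344954) (nat_lit 76) (nat_lit 1059028471637) (nat_lit 76) (nat_lit 1049013477456) (nat_lit 1) (nat_lit 4) (nat_lit 2) (nat_lit 5) (nat_lit 2) (nat_lit 4) (nat_lit 511) (nat_lit 405) (nat_lit 284)) (XT.lf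 (nat_lit 0) (nat_lit 741099321529) (nat_lit 76) (nat_lit 1078551372261) (nat_lit 76) (nat_lit 1068536311079) (nat_lit 1) (nat_lit 4) (nat_lit 2) (nat_lit 5) (nat_lit 2) (nat_lit 4) (nat_lit 512) (nat_lit 405) (nat_lit 283)))))) (XT.nd (nat_lit 468) (nat_lit 0) (nat_lit 0) (XT.nd (nat_lit 234) (nat_lit 0) (nat_lit 0) (XT.nd (nat_lit 78) (nat_lit 0) (nat_lit 0) (XT.lf (nat_lit 0) (nat_lit 925153449073) (nat_lit 76) (nat_lit 1099636934460) (nat_lit 76) (nat_lit 1089621811240) (nat_lit 1) (nat_lit 4) (nat_lit 2) (nat_lit 5) (nat_lit 2) (nat_lit 4) (nat_lit 513) (nat_lit 405) (nat_lit 282)) (XT.nd (nat_lit 78) (nat_lit 0) (nat_lit 0) (XT.lf (nat_lit 0) (nat_lit 1123930418711) (nat_lit 76) (nat_lit 1122410109712) (nat_lit 76) (nat_lit 1112394929049) (nat_lit 1) (nat_lit 4) (nat_lit 2) (nat_lit 5) (nat_lit 2) (nat_lit 4) (nat_lit 514) (nat_lit 405) (nat_lit 281)) (XT.lf (nat_lit 0) (nat_lit 1338608168043)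 (nat_lit 76) (nat_lit 1147005850168) (nat_lit 76) (nat_lit 1136990616317) (nat_lit 1) (nat_lit 4) (nat_lit 2) (nat_lit 5) (nat_lit 2) (nat_lit 4) (nat_lit 515) (nat_lit 405) (nat_lit 280)))) (XT.nd (nat_lit 78) (nat_lit 0) (nat_lit 0) (XT.lf (nat_lit 0) (nat_lit 1570458861507) (nat_lit 76) (nat_lit 1173569908362) (nat_lit 76) (nat_lit 1163554625264) (nat_lit 1) (nat_lit 4) (nat_lit 2) (nat_lit 5) (nat_lit 2) (nat_lit 4) (nat_lit 516) (nat_lit 405) (nat_lit 279)) (XT.nd (nat_lit 78) (nat_lit 0) (nat_lit 0) (XT.lf (nat_lit 0) (nat_lit 1820856429141) (nat_lit 76) (nat_lit 1202259700938) (nat_lit 76) (nat_lit 1192244372240) (nat_lit 1) (nat_lit 4) (nat_lit 2) (nat_lit 5) (nat_lit 2) (nat_lit 4) (nat_lit 517) (nat_lit 405) (nat_lit 278)) (XT.lf (nat_lit 0) (nat_lit 2091284708381) (nat_lit 76) (nat_lit 1233245241479) (nat_lit 76) (nat_lit 1223229870559) (nat_lit 1) (nat_lit 4) (nat_lit 2) (nat_lit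 5) (nat_lit 2) (nat_lit 4) (nat_lit 518) (nat_lit 405) (nat_lit 277))))) (XT.nd (nat_lit 234) (nat_lit 0) (nat_lit 0) (XT.nd (nat_lit 78) (nat_lit 0) (nat_lit 0) (XT.lf (nat_lit 0) (nat_lit 2383346237178) (nat_lit 76) (nat_lit 1266710148005) (nat_lit 76) (nat_lit 1256694737990) (nat_lit 1) (nat_lit 4) (nat_lit 2) (nat_lit 5) (nat_lit 2) (nat_lit 4) (nat_lit 519) (nat_lit 405) (nat_lit 276)) (XT.nd (nat_lit 78) (nat_lit 0) (nat_lit 0) (XT.lf (nat_lit 0) (nat_lit 2698771750519) (nat_lit 76) (nat_lit 1302852731072) (nat_lit 76) (nat_lit 1292837284859) (nat_lit 1) (nat_lit 4) (nat_lit 2) (nat_lit 5) (nat_lit 2) (nat_lit 4) (nat_lit 520) (nat_lit 405) (nat_lit 275)) (XT.lf (nat_lit 0) (nat_lit 3039430436630) (nat_lit 76) (nat_lit 1341887168950) (nat_lit 76) (nat_lit 1331871689220) (nat_lit 1) (nat_lit 4) (nat_lit 2) (nat_lit 5) (nat_lit 2) (nat_lit 4) (nat_lit 521) (nat_lit 405) (nat_lit 274))))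 (XT.nd (nat_lit 156) (nat_lit 0) (nat_lit 0) (XT.nd (nat_lit 78) (nat_lit 0) (nat_lit 0) (XT.lf (nat_lit 0) (nat_lit 3407341013651) (nat_lit 76) (nat_lit 1384044776827) (nat_lit 76) (nat_lit 1374029266063) (nat_lit 1) (nat_lit 4) (nat_lit 2) (nat_lit 5) (nat_lit 2) (nat_lit 4) (nat_lit 522) (nat_lit 405) (nat_lit 273)) (XT.lf (nat_lit 0) (nat_lit 3804683692409) (nat_lit 76) (nat_lit 1429575377565) (nat_lit 76) (nat_lit 1419559838065) (nat_lit 1) (nat_lit 4) (nat_lit 2) (nat_lit 5) (nat_lit 2) (nat_lit 4) (nat_lit 523) (nat_lit 405) (nat_lit 272))) (XT.nd (nat_lit 78) (nat_lit 0) (nat_lit 0) (XT.lf (nat_lit 0) (nat_lit 4233813096185) (nat_lit 76) (nat_lit 1478748782130) (nat_lit 76) (nat_lit 1468733216023) (nat_lit 1) (nat_lit 4) (nat_lit 2) (nat_lit 5) (nat_lit 2) (nat_lit 4) (nat_lit 524) (nat_lit 405) (nat_lit 271)) (XT.lf (nat_lit 0) (nat_lit 4697272214039) (nat_lit 76) (nat_lit 1531856388476)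 (nat_lit 76) (nat_lit 1521840797732) (nat_lit 1) (nat_lit 4) (nat_lit 2) (nat_lit 5) (nat_lit 2) (nat_lit 4) (nat_lit 525) (nat_lit 405) (nat_lit 270))))))))
noncomputable def xc108 : XT := (XT.nd (nat_lit 54366) (nat_lit 0) (nat_lit 2356) (XT.nd (nat_lit 53352) (nat_lit 0) (nat_lit 4712) (XT.nd (nat_lit 468) (nat_lit 0) (nat_lit 0) (XT.nd (nat_lit 234) (nat_lit 0) (nat_lit 0) (XT.nd (nat_lit 78) (nat_lit 0) (nat_lit 0) (XT.lf (nat_lit 0) (nat_lit 5197807470374) (nat_lit 76) (nat_lit 1589212908343) (nat_lit 76) (nat_lit 1579197294788) (nat_lit 1) (nat_lit 4) (nat_lit 2) (nat_lit 5) (nat_lit 2) (nat_lit 4) (nat_lit 526) (nat_lit 405) (nat_lit 269)) (XT.nd (nat_lit 78) (nat_lit 0) (nat_lit 0) (XT.lf (nat_lit 0) (nat_lit 5738385000040) (nat_lit 76) (nat_lit 1651158232221) (nat_lit 76) (nat_lit 1641142597544) (nat_lit 1) (nat_lit 4) (nat_lit 2) (nat_lit 5) (nat_lit 2) (nat_lit 4) (nat_lit 527)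 (nat_lit 405) (nat_lit 268)) (XT.lf (nat_lit 0) (nat_lit 6322208225437) (nat_lit 76) (nat_lit 1718059443509) (nat_lit 76) (nat_lit 1708043789276) (nat_lit 1) (nat_lit 4) (nat_lit 2) (nat_lit 5) (nat_lit 2) (nat_lit 4) (nat_lit 528) (nat_lit 405) (nat_lit 267)))) (XT.nd (nat_lit 78) (nat_lit 0) (nat_lit 0) (XT.lf (nat_lit 0) (nat_lit 6952736839752) (nat_lit 76) (nat_lit 1790312993831) (nat_lit 76) (nat_lit 1780297321489) (nat_lit 1) (nat_lit 4) (nat_lit 2) (nat_lit 5) (nat_lit 2) (nat_lit 4) (nat_lit 529) (nat_lit 405) (nat_lit 266)) (XT.nd (nat_lit 78) (nat_lit 0) (nat_lit 0) (XT.lf (nat_lit 0) (nat_lit 7633707308847) (nat_lit 76) (nat_lit 1868347052373) (nat_lit 76) (nat_lit 1858331363264) (nat_lit 1) (nat_lit 4) (nat_lit 2) (nat_lit 5) (nat_lit 2) (nat_lit 4) (nat_lit 530) (nat_lit 405) (nat_lit 265)) (XT.lf (nat_lit 0) (nat_lit 8369155013281) (nat_lit 76) (nat_lit 1952624043185) (nat_lit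 76) (nat_lit 1942608338552) (nat_lit 1) (nat_lit 4) (nat_lit 2) (nat_lit 5) (nat_lit 2) (nat_lit 4) (nat_lit 531) (nat_lit 405) (nat_lit 264))))) (XT.nd (nat_lit 52650) (nat_lit 0) (nat_lit 6612) (XT.nd (nat_lit 78) (nat_lit 0) (nat_lit 0) (XT.lf (nat_lit 0) (nat_lit 9163438161672) (nat_lit 76) (nat_lit 2043643385474) (nat_lit 76) (nat_lit 2033627666466) (nat_lit 1) (nat_lit 4) (nat_lit 2) (nat_lit 5) (nat_lit 2) (nat_lit 4) (nat_lit 532) (nat_lit 405) (nat_lit 263)) (XT.nd (nat_lit 78) (nat_lit 0) (nat_lit 0) (XT.lf (nat_lit 0) (nat_lit 10021263617121) (nat_lit 76) (nat_lit 2141944453119) (nat_lit 76) (nat_lit 2131928720800) (nat_lit 1) (nat_lit 4) (nat_lit 2) (nat_lit 5) (nat_lit 2) (nat_lit 4) (nat_lit 533) (nat_lit 405) (nat_lit 262)) (XT.lf (nat_lit 0) (nat_lit 10947714789734) (nat_lit 76) (nat_lit 2248109770964) (nat_lit 76) (nat_lit 2238094026321) (nat_lit 1) (nat_lit 4) (nat_lit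 2) (nat_lit 5) (nat_lit 2) (nat_lit 4) (nat_lit 534) (nat_lit 405) (nat_lit 261)))) (XT.nd (nat_lit 78) (nat_lit 0) (nat_lit 0) (XT.lf (nat_lit 0) (nat_lit 85340897) (nat_lit 0) (nat_lit 85340897) (nat_lit 380) (nat_lit 3567267066) (nat_lit 88) (nat_lit 5) (nat_lit 88) (nat_lit 3) (nat_lit 93) (nat_lit 3) (nat_lit 406) (nat_lit 406) (nat_lit 388)) (XT.nd (nat_lit 78) (nat_lit 0) (nat_lit 0) (XT.lf (nat_lit 0) (nat_lit 1858010702) (nat_lit 380) (nat_lit 3612312930) (nat_lit 456) (nat_lit 2183941563) (nat_lit 88) (nat_lit 5) (nat_lit 93) (nat_lit 3) (nat_lit 94) (nat_lit 5) (nat_lit 407) (nat_lit 406) (nat_lit 387)) (XT.lf (nat_lit 76) (nat_lit 300846806) (nat_lit 0) (nat_lit 3063713218) (nat_lit 456) (nat_lit 4492899330) (nat_lit 89) (nat_lit 5) (nat_lit 88) (nat_lit 5) (nat_lit 94) (nat_lit 5) (nat_lit 408) (nat_lit 406) (nat_lit 386)))))) (XT.nd (nat_lit 468) (nat_lit 1140) (nat_lit 0)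 (XT.nd (nat_lit 234) (nat_lit 760) (nat_lit 0) (XT.nd (nat_lit 78) (nat_lit 0) (nat_lit 76) (XT.lf (nat_lit 76) (nat_lit 4648874922) (nat_lit 0) (nat_lit 307015995) (nat_lit 456) (nat_lit 3123917265) (nat_lit 89) (nat_lit 5) (nat_lit 88) (nat_lit 5) (nat_lit 94) (nat_lit 5) (nat_lit 409) (nat_lit 406) (nat_lit 385)) (XT.nd (nat_lit 78) (nat_lit 0) (nat_lit 0) (XT.lf (nat_lit 76) (nat_lit 917941254) (nat_lit 0) (nat_lit 5719469801) (nat_lit 456) (nat_lit 1685540037) (nat_lit 90) (nat_lit 5) (nat_lit 89) (nat_lit 5) (nat_lit 95) (nat_lit 5) (nat_lit 410) (nat_lit 406) (nat_lit 384)) (XT.lf (nat_lit 76) (nat_lit 5715134122) (nat_lit 0) (nat_lit 2723552249) (nat_lit 456) (nat_lit 148074454) (nat_lit 90) (nat_lit 5) (nat_lit 89) (nat_lit 5) (nat_lit 95) (nat_lit 5) (nat_lit 411) (nat_lit 406) (nat_lit 383)))) (XT.nd (nat_lit 78) (nat_lit 456) (nat_lit 0) (XT.lf (nat_lit 0) (nat_lit 1389441128)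 (nat_lit 456) (nat_lit 6886442438) (nat_lit 76) (nat_lit 596694461) (nat_lit 84) (nat_lit 5) (nat_lit 90) (nat_lit 5) (nat_lit 85) (nat_lit 5) (nat_lit 412) (nat_lit 406) (nat_lit 382)) (XT.nd (nat_lit 78) (nat_lit 456) (nat_lit 0) (XT.lf (nat_lit 0) (nat_lit 3089376172) (nat_lit 456) (nat_lit 1948255536) (nat_lit 76) (nat_lit 4139554812) (nat_lit 84) (nat_lit 5) (nat_lit 90) (nat_lit 5) (nat_lit 85) (nat_lit 5) (nat_lit 413) (nat_lit 406) (nat_lit 381)) (XT.lf (nat_lit 0) (nat_lit 3473095045) (nat_lit 456) (nat_lit 1439555421) (nat_lit 532) (nat_lit 4594550718) (nat_lit 78) (nat_lit 5) (nat_lit 84) (nat_lit 5) (nat_lit 85) (nat_lit 5) (nat_lit 414) (nat_lit 406) (nat_lit 380))))) (XT.nd (nat_lit 234) (nat_lit 380) (nat_lit 0) (XT.nd (nat_lit 78) (nat_lit 760) (nat_lit 0) (XT.lf (nat_lit 0) (nat_lit 6904391018) (nat_lit 532) (nat_lit 571574697) (nat_lit 76) (nat_lit 2385866151) (nat_lit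 78) (nat_lit 5) (nat_lit 85) (nat_lit 5) (nat_lit 79) (nat_lit 5) (nat_lit 415) (nat_lit 406) (nat_lit 379)) (XT.nd (nat_lit 78) (nat_lit 304) (nat_lit 0) (XT.lf (nat_lit 0) (nat_lit 5480509686) (nat_lit 456) (nat_lit 3660007424) (nat_lit 532) (nat_lit 1097533661) (nat_lit 72) (nat_lit 5) (nat_lit 78) (nat_lit 5) (nat_lit 79) (nat_lit 5) (nat_lit 416) (nat_lit 406) (nat_lit 378)) (XT.lf (nat_lit 0) (nat_lit 845304361) (nat_lit 304) (nat_lit 9292375414) (nat_lit 76) (nat_lit 506575260) (nat_lit 68) (nat_lit 5) (nat_lit 72) (nat_lit 5) (nat_lit 69) (nat_lit 5) (nat_lit 417) (nat_lit 406) (nat_lit 377)))) (XT.nd (nat_lit 156) (nat_lit 152) (nat_lit 0) (XT.nd (nat_lit 78) (nat_lit 228) (nat_lit 0) (XT.lf (nat_lit 0) (nat_lit 3034707589) (nat_lit 304) (nat_lit 3069213255) (nat_lit 76) (nat_lit 4964736570) (nat_lit 68) (nat_lit 5) (nat_lit 72) (nat_lit 5) (nat_lit 69) (nat_lit 5) (nat_lit 418)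 (nat_lit 406) (nat_lit 376)) (XT.lf (nat_lit 0) (nat_lit 3756053824) (nat_lit 228) (nat_lit 1661236942) (nat_lit 304) (nat_lit 6108294788) (nat_lit 65) (nat_lit 5) (nat_lit 68) (nat_lit 5) (nat_lit 69) (nat_lit 5) (nat_lit 419) (nat_lit 406) (nat_lit 375))) (XT.nd (nat_lit 78) (nat_lit 152) (nat_lit 0) (XT.lf (nat_lit 0) (nat_lit 8082806079) (nat_lit 304) (nat_lit 874832313) (nat_lit 76) (nat_lit 3054058128) (nat_lit 65) (nat_lit 5) (nat_lit 69) (nat_lit 5) (nat_lit 66) (nat_lit 5) (nat_lit 420) (nat_lit 406) (nat_lit 374)) (XT.lf (nat_lit 0) (nat_lit 6787510930) (nat_lit 152) (nat_lit 4316353898) (nat_lit 228) (nat_lit 1421460889) (nat_lit 63) (nat_lit 5) (nat_lit 65) (nat_lit 5) (nat_lit 66) (nat_lit 5) (nat_lit 421) (nat_lit 406) (nat_lit 373))))))) (XT.nd (nat_lit 936) (nat_lit 1064) (nat_lit 0) (XT.nd (nat_lit 468) (nat_lit 456) (nat_lit 0) (XT.nd (nat_lit 234) (nat_lit 380) (nat_lit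 0) (XT.nd (nat_lit 78) (nat_lit 152) (nat_lit 0) (XT.lf (nat_lit 0) (nat_lit 1251557755) (nat_lit 304) (nat_lit 11073287344) (nat_lit 76) (nat_lit 750388098) (nat_lit 59) (nat_lit 5) (nat_lit 63) (nat_lit 5) (nat_lit 60) (nat_lit 5) (nat_lit 422) (nat_lit 406) (nat_lit 372)) (XT.nd (nat_lit 78) (nat_lit 152) (nat_lit 0) (XT.lf (nat_lit 0) (nat_lit 4274140364) (nat_lit 304) (nat_lit 3206381449) (nat_lit 76) (nat_lit 6168667054) (nat_lit 59) (nat_lit 5) (nat_lit 63) (nat_lit 5) (nat_lit 60) (nat_lit 5) (nat_lit 423) (nat_lit 406) (nat_lit 371)) (XT.lf (nat_lit 0) (nat_lit 5486664614) (nat_lit 152) (nat_lit 2127753006) (nat_lit 228) (nat_lit 6648582274) (nat_lit 57) (nat_lit 5) (nat_lit 59) (nat_lit 5) (nat_lit 60) (nat_lit 5) (nat_lit 424) (nat_lit 406) (nat_lit 370)))) (XT.nd (nat_lit 78) (nat_lit 380) (nat_lit 0) (XT.lf (nat_lit 0) (nat_lit 11345460043) (nat_lit 228) (nat_lit 31026143)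 (nat_lit 76) (nat_lit 3539555388) (nat_lit 57) (nat_lit 5) (nat_lit 60) (nat_lit 5) (nat_lit 58) (nat_lit 5) (nat_lit 425) (nat_lit 406) (nat_lit 369)) (XT.nd (nat_lit 78) (nat_lit 152) (nat_lit 0) (XT.lf (nat_lit 0) (nat_lit 12297513) (nat_lit 228) (nat_lit 5828466528) (nat_lit 76) (nat_lit 9761339181) (nat_lit 54) (nat_lit 5) (nat_lit 57) (nat_lit 5) (nat_lit 55) (nat_lit 5) (nat_lit 426) (nat_lit 406) (nat_lit 368)) (XT.lf (nat_lit 0) (nat_lit 3745526672) (nat_lit 228) (nat_lit 12282105229) (nat_lit 76) (nat_lit 303475905) (nat_lit 52) (nat_lit 5) (nat_lit 55) (nat_lit 5) (nat_lit 53) (nat_lit 5) (nat_lit 427) (nat_lit 406) (nat_lit 367))))) (XT.nd (nat_lit 234) (nat_lit 228) (nat_lit 0) (XT.nd (nat_lit 78) (nat_lit 228) (nat_lit 0) (XT.lf (nat_lit 0) (nat_lit 8044440403) (nat_lit 228) (nat_lit 2289077691) (nat_lit 76) (nat_lit 6763559334) (nat_lit 52) (nat_lit 5) (nat_lit 55) (nat_lit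 5) (nat_lit 53) (nat_lit 5) (nat_lit 428) (nat_lit 406) (nat_lit 366)) (XT.nd (nat_lit 78) (nat_lit 76) (nat_lit 0) (XT.lf (nat_lit 0) (nat_lit 8877396042) (nat_lit 152) (nat_lit 3978760039) (nat_lit 228) (nat_lit 5054663698) (nat_lit 50) (nat_lit 5) (nat_lit 52) (nat_lit 5) (nat_lit 53) (nat_lit 5) (nat_lit 429) (nat_lit 406) (nat_lit 365)) (XT.lf (nat_lit 0) (nat_lit 2253302048) (nat_lit 76) (nat_lit 15943720794) (nat_lit 152) (nat_lit 581107372) (nat_lit 49) (nat_lit 5) (nat_lit 50) (nat_lit 5) (nat_lit 51) (nat_lit 4) (nat_lit 430) (nat_lit 406) (nat_lit 364)))) (XT.nd (nat_lit 78) (nat_lit 152) (nat_lit 0) (XT.lf (nat_lit 0) (nat_lit 4351366631) (nat_lit 152) (nat_lit 5021952668) (nat_lit 76) (nat_lit 10308241346) (nat_lit 48) (nat_lit 5) (nat_lit 50) (nat_lit 5) (nat_lit 49) (nat_lit 5) (nat_lit 431) (nat_lit 406) (nat_lit 363)) (XT.nd (nat_lit 78) (nat_lit 0) (nat_lit 0) (XT.lf (nat_lit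 0) (nat_lit 7705198169) (nat_lit 152) (nat_lit 2087250619) (nat_lit 228) (nat_lit 10851981424) (nat_lit 46) (nat_lit 5) (nat_lit 48) (nat_lit 5) (nat_lit 49) (nat_lit 5) (nat_lit 432) (nat_lit 406) (nat_lit 362)) (XT.lf (nat_lit 0) (nat_lit 15909611457) (nat_lit 228) (nat_lit 146921062) (nat_lit 76) (nat_lit 5608537576) (nat_lit 46) (nat_lit 5) (nat_lit 49) (nat_lit 5) (nat_lit 47) (nat_lit 4) (nat_lit 433) (nat_lit 406) (nat_lit 361)))))) (XT.nd (nat_lit 468) (nat_lit 532) (nat_lit 0) (XT.nd (nat_lit 234) (nat_lit 228) (nat_lit 0) (XT.nd (nat_lit 78) (nat_lit 152) (nat_lit 0) (XT.lf (nat_lit 0) (nat_lit 131808806) (nat_lit 152) (nat_lit 8475721949) (nat_lit 76) (nat_lit 14130680919) (nat_lit 44) (nat_lit 5) (nat_lit 46) (nat_lit 5) (nat_lit 45) (nat_lit 5) (nat_lit 434) (nat_lit 406) (nat_lit 360)) (XT.nd (nat_lit 78) (nat_lit 0) (nat_lit 0) (XT.lf (nat_lit 0) (nat_lit 6025512564) (nat_lit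 152) (nat_lit 266718079) (nat_lit 228) (nat_lit 17583968547) (nat_lit 42) (nat_lit 5) (nat_lit 44) (nat_lit 5) (nat_lit 45) (nat_lit 5) (nat_lit 435) (nat_lit 406) (nat_lit 359)) (XT.lf (nat_lit 0) (nat_lit 13358127197) (nat_lit 228) (nat_lit 3197076385) (nat_lit 76) (nat_lit 8517013984) (nat_lit 42) (nat_lit 5) (nat_lit 45) (nat_lit 5) (nat_lit 43) (nat_lit 4) (nat_lit 436) (nat_lit 406) (nat_lit 358)))) (XT.nd (nat_lit 78) (nat_lit 152) (nat_lit 0) (XT.lf (nat_lit 0) (nat_lit 13225128233) (nat_lit 76) (nat_lit 8056428661) (nat_lit 152) (nat_lit 5058982509) (nat_lit 41) (nat_lit 5) (nat_lit 42) (nat_lit 5) (nat_lit 43) (nat_lit 4) (nat_lit 437) (nat_lit 406) (nat_lit 357)) (XT.nd (nat_lit 78) (nat_lit 0) (nat_lit 0) (XT.lf (nat_lit 0) (nat_lit 2195693048) (nat_lit 152) (nat_lit 24224350833) (nat_lit 76) (nat_lit 1272299332) (nat_lit 39) (nat_lit 5) (nat_lit 41) (nat_lit 5) (nat_lit 40)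 (nat_lit 4) (nat_lit 438) (nat_lit 406) (nat_lit 356)) (XT.lf (nat_lit 0) (nat_lit 10302515431) (nat_lit 152) (nat_lit 7408622604) (nat_lit 76) (nat_lit 11387036288) (nat_lit 39) (nat_lit 5) (nat_lit 41) (nat_lit 5) (nat_lit 40) (nat_lit 4) (nat_lit 439) (nat_lit 406) (nat_lit 355))))) (XT.nd (nat_lit 234) (nat_lit 304) (nat_lit 0) (XT.nd (nat_lit 78) (nat_lit 152) (nat_lit 0) (XT.lf (nat_lit 0) (nat_lit 11261059784) (nat_lit 76) (nat_lit 8037947503) (nat_lit 152) (nat_lit 11298176874) (nat_lit 38) (nat_lit 5) (nat_lit 39) (nat_lit 5) (nat_lit 40) (nat_lit 4) (nat_lit 440) (nat_lit 406) (nat_lit 354)) (XT.nd (nat_lit 78) (nat_lit 152) (nat_lit 0) (XT.lf (nat_lit 0) (nat_lit 29251610163) (nat_lit 152) (nat_lit 472419669) (nat_lit 0) (nat_lit 2473175596) (nat_lit 38) (nat_lit 5) (nat_lit 40) (nat_lit 4) (nat_lit 38) (nat_lit 4) (nat_lit 441) (nat_lit 406) (nat_lit 353)) (XT.lf (nat_lit 0)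 (nat_lit 6467730319) (nat_lit 152) (nat_lit 13359706699) (nat_lit 76) (nat_lit 14030388935) (nat_lit 36) (nat_lit 5) (nat_lit 38) (nat_lit 5) (nat_lit 37) (nat_lit 4) (nat_lit 442) (nat_lit 406) (nat_lit 352)))) (XT.nd (nat_lit 156) (nat_lit 228) (nat_lit 0) (XT.nd (nat_lit 78) (nat_lit 0) (nat_lit 0) (XT.lf (nat_lit 0) (nat_lit 7784441744) (nat_lit 76) (nat_lit 8863947191) (nat_lit 152) (nat_lit 18982915583) (nat_lit 35) (nat_lit 5) (nat_lit 36) (nat_lit 5) (nat_lit 37) (nat_lit 4) (nat_lit 443) (nat_lit 406) (nat_lit 351)) (XT.lf (nat_lit 0) (nat_lit 28063034920) (nat_lit 152) (nat_lit 6269887975) (nat_lit 0) (nat_lit 3180177152) (nat_lit 35) (nat_lit 5) (nat_lit 37) (nat_lit 4) (nat_lit 35) (nat_lit 4) (nat_lit 444) (nat_lit 406) (nat_lit 350))) (XT.nd (nat_lit 78) (nat_lit 76) (nat_lit 0) (XT.lf (nat_lit 0) (nat_lit 1449064936) (nat_lit 152) (nat_lit 21893904851) (nat_lit 76) (nat_lit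 16149168695) (nat_lit 33) (nat_lit 5) (nat_lit 35) (nat_lit 5) (nat_lit 34) (nat_lit 4) (nat_lit 445) (nat_lit 406) (nat_lit 349)) (XT.lf (nat_lit 0) (nat_lit 1914898159) (nat_lit 76) (nat_lit 10991881075) (nat_lit 152) (nat_lit 28687309186) (nat_lit 32) (nat_lit 5) (nat_lit 33) (nat_lit 5) (nat_lit 34) (nat_lit 4) (nat_lit 446) (nat_lit 406) (nat_lit 348))))))))
noncomputable def xc109 : XT := (XT.nd (nat_lit 1950) (nat_lit 684) (nat_lit 0) (XT.nd (nat_lit 936) (nat_lit 760) (nat_lit 0) (XT.nd (nat_lit 468) (nat_lit 380) (nat_lit 0) (XT.nd (nat_lit 234) (nat_lit 152) (nat_lit 0) (XT.nd (nat_lit 78) (nat_lit 152) (nat_lit 0) (XT.lf (nat_lit 0) (nat_lit 25927175879) (nat_lit 152) (nat_lit 15062532239) (nat_lit 0) (nat_lit 2822802086) (nat_lit 32) (nat_lit 5) (nat_lit 34) (nat_lit 4) (nat_lit 32) (nat_lit 4) (nat_lit 447) (nat_lit 406) (nat_lit 347)) (XT.nd (nat_lit 78) (nat_lit 76) (nat_lit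 0) (XT.lf (nat_lit 0) (nat_lit 11783177366) (nat_lit 76) (nat_lit 28752180831) (nat_lit 76) (nat_lit 5629356208) (nat_lit 31) (nat_lit 4) (nat_lit 32) (nat_lit 5) (nat_lit 32) (nat_lit 4) (nat_lit 448) (nat_lit 406) (nat_lit 346)) (XT.lf (nat_lit 0) (nat_lit 7626433355) (nat_lit 152) (nat_lit 7276927344) (nat_lit 76) (nat_lit 33755109322) (nat_lit 30) (nat_lit 5) (nat_lit 32) (nat_lit 5) (nat_lit 31) (nat_lit 4) (nat_lit 449) (nat_lit 406) (nat_lit 345)))) (XT.nd (nat_lit 78) (nat_lit 76) (nat_lit 0) (XT.lf (nat_lit 0) (nat_lit 22188633524) (nat_lit 152) (nat_lit 28359244422) (nat_lit 0) (nat_lit 748145250) (nat_lit 29) (nat_lit 5) (nat_lit 31) (nat_lit 4) (nat_lit 29) (nat_lit 4) (nat_lit 450) (nat_lit 406) (nat_lit 344)) (XT.nd (nat_lit 78) (nat_lit 0) (nat_lit 0) (XT.lf (nat_lit 0) (nat_lit 1494099755) (nat_lit 76) (nat_lit 37028013739) (nat_lit 76) (nat_lit 15573963555) (nat_lit 28)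 (nat_lit 4) (nat_lit 29) (nat_lit 5) (nat_lit 29) (nat_lit 4) (nat_lit 451) (nat_lit 406) (nat_lit 343)) (XT.lf (nat_lit 0) (nat_lit 35308432068) (nat_lit 76) (nat_lit 21608951205) (nat_lit 76) (nat_lit 142343696) (nat_lit 28) (nat_lit 4) (nat_lit 29) (nat_lit 5) (nat_lit 29) (nat_lit 4) (nat_lit 452) (nat_lit 406) (nat_lit 342))))) (XT.nd (nat_lit 234) (nat_lit 152) (nat_lit 0) (XT.nd (nat_lit 78) (nat_lit 76) (nat_lit 0) (XT.lf (nat_lit 0) (nat_lit 11718090607) (nat_lit 76) (nat_lit 4241681156) (nat_lit 152) (nat_lit 44247901566) (nat_lit 26) (nat_lit 5) (nat_lit 27) (nat_lit 5) (nat_lit 28) (nat_lit 4) (nat_lit 453) (nat_lit 406) (nat_lit 341)) (XT.nd (nat_lit 78) (nat_lit 76) (nat_lit 0) (XT.lf (nat_lit 0) (nat_lit 34282440740) (nat_lit 152) (nat_lit 14864295435) (nat_lit 0) (nat_lit 14385218016) (nat_lit 26) (nat_lit 5) (nat_lit 28) (nat_lit 4) (nat_lit 26) (nat_lit 4) (nat_lit 454)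 (nat_lit 406) (nat_lit 340)) (XT.lf (nat_lit 0) (nat_lit 22427349981) (nat_lit 76) (nat_lit 32275368571) (nat_lit 76) (nat_lit 12368915838) (nat_lit 25) (nat_lit 4) (nat_lit 26) (nat_lit 5) (nat_lit 26) (nat_lit 4) (nat_lit 455) (nat_lit 406) (nat_lit 339)))) (XT.nd (nat_lit 78) (nat_lit 76) (nat_lit 0) (XT.lf (nat_lit 0) (nat_lit 5968134528) (nat_lit 152) (nat_lit 7501279217) (nat_lit 76) (nat_lit 57381856744) (nat_lit 24) (nat_lit 5) (nat_lit 26) (nat_lit 5) (nat_lit 25) (nat_lit 4) (nat_lit 456) (nat_lit 406) (nat_lit 338)) (XT.nd (nat_lit 78) (nat_lit 0) (nat_lit 0) (XT.lf (nat_lit 0) (nat_lit 26097873900) (nat_lit 152) (nat_lit 41079452009) (nat_lit 0) (nat_lit 7650732899) (nat_lit 23) (nat_lit 5) (nat_lit 25) (nat_lit 4) (nat_lit 23) (nat_lit 4) (nat_lit 457) (nat_lit 406) (nat_lit 337)) (XT.lf (nat_lit 0) (nat_lit 48381926371) (nat_lit 152) (nat_lit 769548431) (nat_lit 0) (nat_lit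 29928001038) (nat_lit 23) (nat_lit 5) (nat_lit 25) (nat_lit 4) (nat_lit 23) (nat_lit 4) (nat_lit 458) (nat_lit 406) (nat_lit 336)))))) (XT.nd (nat_lit 468) (nat_lit 304) (nat_lit 0) (XT.nd (nat_lit 234) (nat_lit 228) (nat_lit 0) (XT.nd (nat_lit 78) (nat_lit 152) (nat_lit 0) (XT.lf (nat_lit 0) (nat_lit 44985044449) (nat_lit 76) (nat_lit 28530414390) (nat_lit 76) (nat_lit 10070207269) (nat_lit 22) (nat_lit 4) (nat_lit 23) (nat_lit 5) (nat_lit 23) (nat_lit 4) (nat_lit 459) (nat_lit 406) (nat_lit 335)) (XT.nd (nat_lit 78) (nat_lit 0) (nat_lit 0) (XT.lf (nat_lit 0) (nat_lit 5966999362) (nat_lit 76) (nat_lit 5779646288) (nat_lit 152) (nat_lit 76670220679) (nat_lit 20) (nat_lit 5) (nat_lit 21) (nat_lit 5) (nat_lit 22) (nat_lit 4) (nat_lit 460) (nat_lit 406) (nat_lit 334)) (XT.lf (nat_lit 0) (nat_lit 36284479157) (nat_lit 152) (nat_lit 38026261288) (nat_lit 0) (nat_lit 19181322477) (nat_lit 20)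 (nat_lit 5) (nat_lit 22) (nat_lit 4) (nat_lit 20) (nat_lit 4) (nat_lit 461) (nat_lit 406) (nat_lit 333)))) (XT.nd (nat_lit 78) (nat_lit 152) (nat_lit 0) (XT.lf (nat_lit 0) (nat_lit 10287486076) (nat_lit 76) (nat_lit 52881438296) (nat_lit 76) (nat_lit 35773664314) (nat_lit 19) (nat_lit 4) (nat_lit 20) (nat_lit 5) (nat_lit 20) (nat_lit 4) (nat_lit 462) (nat_lit 406) (nat_lit 332)) (XT.nd (nat_lit 78) (nat_lit 152) (nat_lit 0) (XT.lf (nat_lit 0) (nat_lit 64601387735) (nat_lit 76) (nat_lit 28628864070) (nat_lit 76) (nat_lit 11516814809) (nat_lit 19) (nat_lit 4) (nat_lit 20) (nat_lit 5) (nat_lit 20) (nat_lit 4) (nat_lit 463) (nat_lit 406) (nat_lit 331)) (XT.lf (nat_lit 0) (nat_lit 12490061142) (nat_lit 76) (nat_lit 1743625874) (nat_lit 152) (nat_lit 96730971560) (nat_lit 17) (nat_lit 5) (nat_lit 18) (nat_lit 5) (nat_lit 19) (nat_lit 4) (nat_lit 464) (nat_lit 406) (nat_lit 330))))) (XT.nd (nat_lit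 234) (nat_lit 228) (nat_lit 0) (XT.nd (nat_lit 78) (nat_lit 76) (nat_lit 0) (XT.lf (nat_lit 0) (nat_lit 43191700783) (nat_lit 152) (nat_lit 46982300429) (nat_lit 0) (nat_lit 27340151508) (nat_lit 17) (nat_lit 5) (nat_lit 19) (nat_lit 4) (nat_lit 17) (nat_lit 4) (nat_lit 465) (nat_lit 406) (nat_lit 329)) (XT.nd (nat_lit 78) (nat_lit 0) (nat_lit 0) (XT.lf (nat_lit 0) (nat_lit 9010574390) (nat_lit 76) (nat_lit 65705858850) (nat_lit 76) (nat_lit 49851167117) (nat_lit 16) (nat_lit 4) (nat_lit 17) (nat_lit 5) (nat_lit 17) (nat_lit 4) (nat_lit 466) (nat_lit 406) (nat_lit 328)) (XT.lf (nat_lit 0) (nat_lit 72131156102) (nat_lit 76) (nat_lit 37904965544) (nat_lit 76) (nat_lit 22047364127) (nat_lit 16) (nat_lit 4) (nat_lit 17) (nat_lit 5) (nat_lit 17) (nat_lit 4) (nat_lit 467) (nat_lit 406) (nat_lit 327)))) (XT.nd (nat_lit 156) (nat_lit 76) (nat_lit 0) (XT.nd (nat_lit 78) (nat_lit 76) (nat_lit 0)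 (XT.lf (nat_lit 0) (nat_lit 7570492250) (nat_lit 152) (nat_lit 113671687) (nat_lit 76) (nat_lit 132502004993) (nat_lit 15) (nat_lit 5) (nat_lit 17) (nat_lit 5) (nat_lit 16) (nat_lit 4) (nat_lit 468) (nat_lit 406) (nat_lit 326)) (XT.lf (nat_lit 0) (nat_lit 40631435793) (nat_lit 152) (nat_lit 82134968116) (nat_lit 0) (nat_lit 25943667133) (nat_lit 14) (nat_lit 5) (nat_lit 16) (nat_lit 4) (nat_lit 14) (nat_lit 4) (nat_lit 469) (nat_lit 406) (nat_lit 325))) (XT.nd (nat_lit 78) (nat_lit 76) (nat_lit 0) (XT.lf (nat_lit 0) (nat_lit 76529846099) (nat_lit 152) (nat_lit 19530693300) (nat_lit 0) (nat_lit 61839938734) (nat_lit 14) (nat_lit 5) (nat_lit 16) (nat_lit 4) (nat_lit 14) (nat_lit 4) (nat_lit 470) (nat_lit 406) (nat_lit 324)) (XT.lf (nat_lit 0) (nat_lit 50593528422) (nat_lit 76) (nat_lit 65913944802) (nat_lit 76) (nat_lit 51222057156) (nat_lit 13) (nat_lit 4) (nat_lit 14) (nat_lit 5) (nat_lit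 14) (nat_lit 4) (nat_lit 471) (nat_lit 406) (nat_lit 323))))))) (XT.nd (nat_lit 936) (nat_lit 228) (nat_lit 0) (XT.nd (nat_lit 468) (nat_lit 228) (nat_lit 0) (XT.nd (nat_lit 234) (nat_lit 76) (nat_lit 0) (XT.nd (nat_lit 78) (nat_lit 152) (nat_lit 0) (XT.lf (nat_lit 0) (nat_lit 127419615754) (nat_lit 76) (nat_lit 32788513448) (nat_lit 76) (nat_lit 18094792207) (nat_lit 13) (nat_lit 4) (nat_lit 14) (nat_lit 5) (nat_lit 14) (nat_lit 4) (nat_lit 472) (nat_lit 406) (nat_lit 322)) (XT.nd (nat_lit 78) (nat_lit 0) (nat_lit 0) (XT.lf (nat_lit 0) (nat_lit 17397395522) (nat_lit 152) (nat_lit 168452296794) (nat_lit 0) (nat_lit 3790526065) (nat_lit 11) (nat_lit 5) (nat_lit 13) (nat_lit 4) (nat_lit 11) (nat_lit 4) (nat_lit 473) (nat_lit 406) (nat_lit 321)) (XT.lf (nat_lit 0) (nat_lit 57021682433) (nat_lit 152) (nat_lit 101230234742) (nat_lit 0) (nat_lit 43413357411) (nat_lit 11) (nat_lit 5) (nat_lit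 13) (nat_lit 4) (nat_lit 11) (nat_lit 4) (nat_lit 474) (nat_lit 406) (nat_lit 320)))) (XT.nd (nat_lit 78) (nat_lit 76) (nat_lit 0) (XT.lf (nat_lit 0) (nat_lit 99807845066) (nat_lit 152) (nat_lit 28646963374) (nat_lit 0) (nat_lit 86198172297) (nat_lit 11) (nat_lit 5) (nat_lit 13) (nat_lit 4) (nat_lit 11) (nat_lit 4) (nat_lit 475) (nat_lit 406) (nat_lit 319)) (XT.nd (nat_lit 78) (nat_lit 0) (nat_lit 0) (XT.lf (nat_lit 0) (nat_lit 52346209817) (nat_lit 76) (nat_lit 94922148838) (nat_lit 76) (nat_lit 81311228156) (nat_lit 10) (nat_lit 4) (nat_lit 11) (nat_lit 5) (nat_lit 11) (nat_lit 4) (nat_lit 476) (nat_lit 406) (nat_lit 318)) (XT.lf (nat_lit 0) (nat_lit 141433073834) (nat_lit 76) (nat_lit 57868622557) (nat_lit 76) (nat_lit 44256546399) (nat_lit 10) (nat_lit 4) (nat_lit 11) (nat_lit 5) (nat_lit 11) (nat_lit 4) (nat_lit 477) (nat_lit 406) (nat_lit 317))))) (XT.nd (nat_lit 234) (nat_lit 76)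 (nat_lit 0) (XT.nd (nat_lit 78) (nat_lit 152) (nat_lit 0) (XT.lf (nat_lit 0) (nat_lit 237633052508) (nat_lit 76) (nat_lit 17857911888) (nat_lit 76) (nat_lit 4244765846) (nat_lit 10) (nat_lit 4) (nat_lit 11) (nat_lit 5) (nat_lit 11) (nat_lit 4) (nat_lit 478) (nat_lit 406) (nat_lit 316)) (XT.nd (nat_lit 78) (nat_lit 0) (nat_lit 0) (XT.lf (nat_lit 0) (nat_lit 39292165844) (nat_lit 152) (nat_lit 210971909237) (nat_lit 0) (nat_lit 26686483737) (nat_lit 8) (nat_lit 5) (nat_lit 10) (nat_lit 4) (nat_lit 8) (nat_lit 4) (nat_lit 479) (nat_lit 406) (nat_lit 315)) (XT.lf (nat_lit 0) (nat_lit 87160197334) (nat_lit 152) (nat_lit 133733692352) (nat_lit 0) (nat_lit 74553665917) (nat_lit 8) (nat_lit 5) (nat_lit 10) (nat_lit 4) (nat_lit 8) (nat_lit 4) (nat_lit 480) (nat_lit 406) (nat_lit 314)))) (XT.nd (nat_lit 78) (nat_lit 76) (nat_lit 0) (XT.lf (nat_lit 0) (nat_lit 138851752672) (nat_lit 152) (nat_lit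 50328598136) (nat_lit 0) (nat_lit 126244434858) (nat_lit 8) (nat_lit 5) (nat_lit 10) (nat_lit 4) (nat_lit 8) (nat_lit 4) (nat_lit 481) (nat_lit 406) (nat_lit 313)) (XT.nd (nat_lit 78) (nat_lit 0) (nat_lit 0) (XT.lf (nat_lit 0) (nat_lit 41830138777) (nat_lit 76) (nat_lit 153849029254) (nat_lit 76) (nat_lit 141240983295) (nat_lit 7) (nat_lit 4) (nat_lit 8) (nat_lit 5) (nat_lit 8) (nat_lit 4) (nat_lit 482) (nat_lit 406) (nat_lit 312)) (XT.lf (nat_lit 0) (nat_lit 144212814332) (nat_lit 76) (nat_lit 114210696679) (nat_lit 76) (nat_lit 101601976511) (nat_lit 7) (nat_lit 4) (nat_lit 8) (nat_lit 5) (nat_lit 8) (nat_lit 4) (nat_lit 483) (nat_lit 406) (nat_lit 311)))))) (XT.nd (nat_lit 468) (nat_lit 76) (nat_lit 0) (XT.nd (nat_lit 234) (nat_lit 0) (nat_lit 0) (XT.nd (nat_lit 78) (nat_lit 152) (nat_lit 0) (XT.lf (nat_lit 0) (nat_lit 254775925894) (nat_lit 76) (nat_lit 71406532324) (nat_lit 76) (nat_lit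 58797187889) (nat_lit 7) (nat_lit 4) (nat_lit 8) (nat_lit 5) (nat_lit 8) (nat_lit 4) (nat_lit 484) (nat_lit 406) (nat_lit 310)) (XT.nd (nat_lit 78) (nat_lit 152) (nat_lit 0) (XT.lf (nat_lit 0) (nat_lit 374174662271) (nat_lit 76) (nat_lit 25182881880) (nat_lit 76) (nat_lit 12572959420) (nat_lit 7) (nat_lit 4) (nat_lit 8) (nat_lit 5) (nat_lit 8) (nat_lit 4) (nat_lit 485) (nat_lit 406) (nat_lit 309)) (XT.lf (nat_lit 0) (nat_lit 37683794479) (nat_lit 152) (nat_lit 377098094789) (nat_lit 0) (nat_lit 26007444785) (nat_lit 5) (nat_lit 5) (nat_lit 7) (nat_lit 4) (nat_lit 5) (nat_lit 4) (nat_lit 486) (nat_lit 406) (nat_lit 308)))) (XT.nd (nat_lit 78) (nat_lit 0) (nat_lit 0) (XT.lf (nat_lit 0) (nat_lit 92990704049) (nat_lit 152) (nat_lit 297489435278) (nat_lit 0) (nat_lit 81313895500) (nat_lit 5) (nat_lit 5) (nat_lit 7) (nat_lit 4) (nat_lit 5) (nat_lit 4) (nat_lit 487) (nat_lit 406) (nat_lit 307))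 (XT.nd (nat_lit 78) (nat_lit 0) (nat_lit 0) (XT.lf (nat_lit 0) (nat_lit 152718144173) (nat_lit 152) (nat_lit 211520378531) (nat_lit 0) (nat_lit 141040910758) (nat_lit 5) (nat_lit 5) (nat_lit 7) (nat_lit 4) (nat_lit 5) (nat_lit 4) (nat_lit 488) (nat_lit 406) (nat_lit 306)) (XT.lf (nat_lit 0) (nat_lit 217220055237) (nat_lit 152) (nat_lit 118681478287) (nat_lit 0) (nat_lit 205542428428) (nat_lit 5) (nat_lit 5) (nat_lit 7) (nat_lit 4) (nat_lit 5) (nat_lit 4) (nat_lit 489) (nat_lit 406) (nat_lit 305))))) (XT.nd (nat_lit 234) (nat_lit 0) (nat_lit 0) (XT.nd (nat_lit 78) (nat_lit 76) (nat_lit 0) (XT.lf (nat_lit 0) (nat_lit 286878670788) (nat_lit 152) (nat_lit 18422578100) (nat_lit 0) (nat_lit 275200679725) (nat_lit 5) (nat_lit 5) (nat_lit 7) (nat_lit 4) (nat_lit 5) (nat_lit 4) (nat_lit 490) (nat_lit 406) (nat_lit 304)) (XT.nd (nat_lit 78) (nat_lit 0) (nat_lit 0) (XT.lf (nat_lit 0) (nat_lit 94581814253)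 (nat_lit 76) (nat_lit 269799663275) (nat_lit 76) (nat_lit 258121334940) (nat_lit 4) (nat_lit 4) (nat_lit 5) (nat_lit 5) (nat_lit 5) (nat_lit 4) (nat_lit 491) (nat_lit 406) (nat_lit 303)) (XT.lf (nat_lit 0) (nat_lit 217667847796) (nat_lit 76) (nat_lit 230917256134) (nat_lit 76) (nat_lit 219238615510) (nat_lit 4) (nat_lit 4) (nat_lit 5) (nat_lit 5) (nat_lit 5) (nat_lit 4) (nat_lit 492) (nat_lit 406) (nat_lit 302)))) (XT.nd (nat_lit 156) (nat_lit 0) (nat_lit 0) (XT.nd (nat_lit 78) (nat_lit 0) (nat_lit 0) (XT.lf (nat_lit 0) (nat_lit 350594820929) (nat_lit 76) (nat_lit 188927319133) (nat_lit 76) (nat_lit 177248389352) (nat_lit 4) (nat_lit 4) (nat_lit 5) (nat_lit 5) (nat_lit 5) (nat_lit 4) (nat_lit 493) (nat_lit 406) (nat_lit 301)) (XT.lf (nat_lit 0) (nat_lit 494150449049) (nat_lit 76) (nat_lit 143581023016) (nat_lit 76) (nat_lit 131901825497) (nat_lit 4) (nat_lit 4) (nat_lit 5) (nat_lit 5) (nat_lit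 5) (nat_lit 4) (nat_lit 494) (nat_lit 406) (nat_lit 300))) (XT.nd (nat_lit 78) (nat_lit 0) (nat_lit 0) (XT.lf (nat_lit 0) (nat_lit 649185432174) (nat_lit 76) (nat_lit 94609648991) (nat_lit 76) (nat_lit 82930203568) (nat_lit 4) (nat_lit 4) (nat_lit 5) (nat_lit 5) (nat_lit 5) (nat_lit 4) (nat_lit 495) (nat_lit 406) (nat_lit 299)) (XT.lf (nat_lit 0) (nat_lit 816618496131) (nat_lit 76) (nat_lit 41722996324) (nat_lit 76) (nat_lit 30043321358) (nat_lit 4) (nat_lit 4) (nat_lit 5) (nat_lit 5) (nat_lit 5) (nat_lit 4) (nat_lit 496) (nat_lit 406) (nat_lit 298))))))))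
noncomputable def xc110 : XT := (XT.nd (nat_lit 1950) (nat_lit 0) (nat_lit 0) (XT.nd (nat_lit 936) (nat_lit 0) (nat_lit 0) (XT.nd (nat_lit 468) (nat_lit 76) (nat_lit 0) (XT.nd (nat_lit 234) (nat_lit 0) (nat_lit 0) (XT.nd (nat_lit 78) (nat_lit 0) (nat_lit 0) (XT.lf (nat_lit 0) (nat_lit 27191124271) (nat_lit 152) (nat_lit 911239796763) (nat_lit 0) (nat_lit 16376413619) (nat_lit 2) (nat_lit 5) (nat_lit 4) (nat_lit 4) (nat_lit 2) (nat_lit 4) (nat_lit 497) (nat_lit 406) (nat_lit 297)) (XT.nd (nat_lit 78) (nat_lit 0) (nat_lit 0) (XT.lf (nat_lit 0) (nat_lit 90475934528) (nat_lit 152) (nat_lit 856096675009) (nat_lit 0) (nat_lit 79661041658) (nat_lit 2) (nat_lit 5) (nat_lit 4) (nat_lit 4) (nat_lit 2) (nat_lit 4) (nat_lit 498) (nat_lit 406) (nat_lit 296)) (XT.lf (nat_lit 0) (nat_lit 158821519856) (nat_lit 152) (nat_lit 796546255729) (nat_lit 0) (nat_lit 148006458266) (nat_lit 2) (nat_lit 5) (nat_lit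 4) (nat_lit 4) (nat_lit 2) (nat_lit 4) (nat_lit 499) (nat_lit 406) (nat_lit 295)))) (XT.nd (nat_lit 78) (nat_lit 0) (nat_lit 0) (XT.lf (nat_lit 0) (nat_lit 232632891130) (nat_lit 152) (nat_lit 732235647549) (nat_lit 0) (nat_lit 221817673317) (nat_lit 2) (nat_lit 5) (nat_lit 4) (nat_lit 4) (nat_lit 2) (nat_lit 4) (nat_lit 500) (nat_lit 406) (nat_lit 294)) (XT.nd (nat_lit 78) (nat_lit 0) (nat_lit 0) (XT.lf (nat_lit 0) (nat_lit 312347449068) (nat_lit 152) (nat_lit 662783750570) (nat_lit 0) (nat_lit 301532086606) (nat_lit 2) (nat_lit 5) (nat_lit 4) (nat_lit 4) (nat_lit 2) (nat_lit 4) (nat_lit 501) (nat_lit 406) (nat_lit 293)) (XT.lf (nat_lit 0) (nat_lit 398437576238) (nat_lit 152) (nat_lit 587778997994) (nat_lit 0) (nat_lit 387622079840) (nat_lit 2) (nat_lit 5) (nat_lit 4) (nat_lit 4) (nat_lit 2) (nat_lit 4) (nat_lit 502) (nat_lit 406) (nat_lit 292))))) (XT.nd (nat_lit 234) (nat_lit 76) (nat_lit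 0) (XT.nd (nat_lit 78) (nat_lit 0) (nat_lit 0) (XT.lf (nat_lit 0) (nat_lit 491413436354) (nat_lit 152) (nat_lit 506776917214) (nat_lit 0) (nat_lit 480597815942) (nat_lit 2) (nat_lit 5) (nat_lit 4) (nat_lit 4) (nat_lit 2) (nat_lit 4) (nat_lit 503) (nat_lit 406) (nat_lit 291)) (XT.nd (nat_lit 78) (nat_lit 0) (nat_lit 0) (XT.lf (nat_lit 0) (nat_lit 591825997478) (nat_lit 152) (nat_lit 419297495899) (nat_lit 0) (nat_lit 581010262237) (nat_lit 2) (nat_lit 5) (nat_lit 4) (nat_lit 4) (nat_lit 2) (nat_lit 4) (nat_lit 504) (nat_lit 406) (nat_lit 290)) (XT.lf (nat_lit 0) (nat_lit 700270297008) (nat_lit 152) (nat_lit 324822337478) (nat_lit 0) (nat_lit 689454455445) (nat_lit 2) (nat_lit 5) (nat_lit 4) (nat_lit 4) (nat_lit 2) (nat_lit 4) (nat_lit 505) (nat_lit 406) (nat_lit 289)))) (XT.nd (nat_lit 78) (nat_lit 76) (nat_lit 0) (XT.lf (nat_lit 0) (nat_lit 817388967830) (nat_lit 152) (nat_lit 222791589161)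 (nat_lit 0) (nat_lit 806573027821) (nat_lit 2) (nat_lit 5) (nat_lit 4) (nat_lit 4) (nat_lit 2) (nat_lit 4) (nat_lit 506) (nat_lit 406) (nat_lit 288)) (XT.nd (nat_lit 78) (nat_lit 76) (nat_lit 0) (XT.lf (nat_lit 0) (nat_lit 943876046513) (nat_lit 152) (nat_lit 112600624291) (nat_lit 0) (nat_lit 933060015349) (nat_lit 2) (nat_lit 5) (nat_lit 4) (nat_lit 4) (nat_lit 2) (nat_lit 4) (nat_lit 507) (nat_lit 406) (nat_lit 287)) (XT.lf (nat_lit 0) (nat_lit 6740739729) (nat_lit 76) (nat_lit 1073902461338) (nat_lit 76) (nat_lit 1063086345772) (nat_lit 1) (nat_lit 4) (nat_lit 2) (nat_lit 5) (nat_lit 2) (nat_lit 4) (nat_lit 508) (nat_lit 406) (nat_lit 286)))))) (XT.nd (nat_lit 468) (nat_lit 0) (nat_lit 0) (XT.nd (nat_lit 234) (nat_lit 0) (nat_lit 0) (XT.nd (nat_lit 78) (nat_lit 0) (nat_lit 0) (XT.lf (nat_lit 0) (nat_lit 142031085592) (nat_lit 76) (nat_lit 1089398363413) (nat_lit 76) (nat_lit 1078582169697)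 (nat_lit 1) (nat_lit 4) (nat_lit 2) (nat_lit 5) (nat_lit 2) (nat_lit 4) (nat_lit 509) (nat_lit 406) (nat_lit 285)) (XT.nd (nat_lit 78) (nat_lit 0) (nat_lit 0) (XT.lf (nat_lit 0) (nat_lit 288142784536) (nat_lit 76) (nat_lit 1106134905211) (nat_lit 76) (nat_lit 1095318639134) (nat_lit 1) (nat_lit 4) (nat_lit 2) (nat_lit 5) (nat_lit 2) (nat_lit 4) (nat_lit 510) (nat_lit 406) (nat_lit 284)) (XT.lf (nat_lit 0) (nat_lit 445941683666) (nat_lit 76) (nat_lit 1124211266239) (nat_lit 76) (nat_lit 1113394933161) (nat_lit 1) (nat_lit 4) (nat_lit 2) (nat_lit 5) (nat_lit 2) (nat_lit 4) (nat_lit 511) (nat_lit 406) (nat_lit 283)))) (XT.nd (nat_lit 78) (nat_lit 0) (nat_lit 0) (XT.lf (nat_lit 0) (nat_lit 616362887569) (nat_lit 76) (nat_lit 1143734565673) (nat_lit 76) (nat_lit 1132918170558) (nat_lit 1) (nat_lit 4) (nat_lit 2) (nat_lit 5) (nat_lit 2) (nat_lit 4) (nat_lit 512) (nat_lit 406) (nat_lit 282)) (XT.nd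 (nat_lit 78) (nat_lit 0) (nat_lit 0) (XT.lf (nat_lit 0) (nat_lit 800416299676) (nat_lit 76) (nat_lit 1164820497140) (nat_lit 76) (nat_lit 1154004044582) (nat_lit 1) (nat_lit 4) (nat_lit 2) (nat_lit 5) (nat_lit 2) (nat_lit 4) (nat_lit 513) (nat_lit 406) (nat_lit 281)) (XT.lf (nat_lit 0) (nat_lit 999192606873) (nat_lit 76) (nat_lit 1187594014307) (nat_lit 76) (nat_lit 1176777508561) (nat_lit 1) (nat_lit 4) (nat_lit 2) (nat_lit 5) (nat_lit 2) (nat_lit 4) (nat_lit 514) (nat_lit 406) (nat_lit 280))))) (XT.nd (nat_lit 234) (nat_lit 0) (nat_lit 0) (XT.nd (nat_lit 78) (nat_lit 0) (nat_lit 0) (XT.lf (nat_lit 0) (nat_lit 1213869742832) (nat_lit 76) (nat_lit 1212190071351) (nat_lit 76) (nat_lit 1201373516357) (nat_lit 1) (nat_lit 4) (nat_lit 2) (nat_lit 5) (nat_lit 2) (nat_lit 4) (nat_lit 515) (nat_lit 406) (nat_lit 279)) (XT.nd (nat_lit 78) (nat_lit 0) (nat_lit 0) (XT.lf (nat_lit 0) (nat_lit 1445719868360)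 (nat_lit 76) (nat_lit 1238754422683) (nat_lit 76) (nat_lit 1227937822089) (nat_lit 1) (nat_lit 4) (nat_lit 2) (nat_lit 5) (nat_lit 2) (nat_lit 4) (nat_lit 516) (nat_lit 406) (nat_lit 278)) (XT.lf (nat_lit 0) (nat_lit 1696116910126) (nat_lit 76) (nat_lit 1267444486681) (nat_lit 76) (nat_lit 1256627843865) (nat_lit 1) (nat_lit 4) (nat_lit 2) (nat_lit 5) (nat_lit 2) (nat_lit 4) (nat_lit 517) (nat_lit 406) (nat_lit 277)))) (XT.nd (nat_lit 156) (nat_lit 0) (nat_lit 0) (XT.nd (nat_lit 78) (nat_lit 0) (nat_lit 0) (XT.lf (nat_lit 0) (nat_lit 1966544702452) (nat_lit 76) (nat_lit 1298430278540) (nat_lit 76) (nat_lit 1287613596630) (nat_lit 1) (nat_lit 4) (nat_lit 2) (nat_lit 5) (nat_lit 2) (nat_lit 4) (nat_lit 518) (nat_lit 406) (nat_lit 276)) (XT.lf (nat_lit 0) (nat_lit 2258605780403) (nat_lit 76) (nat_lit 1331895417768) (nat_lit 76) (nat_lit 1321078699659) (nat_lit 1) (nat_lit 4) (nat_lit 2) (nat_lit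 5) (nat_lit 2) (nat_lit 4) (nat_lit 519) (nat_lit 406) (nat_lit 275))) (XT.nd (nat_lit 78) (nat_lit 0) (nat_lit 0) (XT.lf (nat_lit 0) (nat_lit 2574030876293) (nat_lit 76) (nat_lit 1368038216299) (nat_lit 76) (nat_lit 1357221464673) (nat_lit 1) (nat_lit 4) (nat_lit 2) (nat_lit 5) (nat_lit 2) (nat_lit 4) (nat_lit 520) (nat_lit 406) (nat_lit 274)) (XT.lf (nat_lit 0) (nat_lit 2914689175876) (nat_lit 76) (nat_lit 1407072853681) (nat_lit 76) (nat_lit 1396256071021) (nat_lit 1) (nat_lit 4) (nat_lit 2) (nat_lit 5) (nat_lit 2) (nat_lit 4) (nat_lit 521) (nat_lit 406) (nat_lit 273))))))) (XT.nd (nat_lit 936) (nat_lit 0) (nat_lit 0) (XT.nd (nat_lit 468) (nat_lit 0) (nat_lit 0) (XT.nd (nat_lit 234) (nat_lit 0) (nat_lit 0) (XT.nd (nat_lit 78) (nat_lit 0) (nat_lit 0) (XT.lf (nat_lit 0) (nat_lit 3282599395000) (nat_lit 76) (nat_lit 1449230646285) (nat_lit 76) (nat_lit 1438413834889) (nat_lit 1) (nat_lit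 4) (nat_lit 2) (nat_lit 5) (nat_lit 2) (nat_lit 4) (nat_lit 522) (nat_lit 406) (nat_lit 272)) (XT.nd (nat_lit 78) (nat_lit 0) (nat_lit 0) (XT.lf (nat_lit 0) (nat_lit 3679941742373) (nat_lit 76) (nat_lit 1494761418065) (nat_lit 76) (nat_lit 1483944580062) (nat_lit 1) (nat_lit 4) (nat_lit 2) (nat_lit 5) (nat_lit 2) (nat_lit 4) (nat_lit 523) (nat_lit 406) (nat_lit 271)) (XT.lf (nat_lit 0) (nat_lit 4109070839310) (nat_lit 76) (nat_lit 1543934981002) (nat_lit 76) (nat_lit 1533118118363) (nat_lit 1) (nat_lit 4) (nat_lit 2) (nat_lit 5) (nat_lit 2) (nat_lit 4) (nat_lit 524) (nat_lit 406) (nat_lit 270)))) (XT.nd (nat_lit 78) (nat_lit 0) (nat_lit 0) (XT.lf (nat_lit 0) (nat_lit 4572529673055) (nat_lit 76) (nat_lit 1597042733990) (nat_lit 76) (nat_lit 1586225848539) (nat_lit 1) (nat_lit 4) (nat_lit 2) (nat_lit 5) (nat_lit 2) (nat_lit 4) (nat_lit 525) (nat_lit 406) (nat_lit 269)) (XT.nd (nat_lit 78)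 (nat_lit 0) (nat_lit 0) (XT.lf (nat_lit 0) (nat_lit 5073064666325) (nat_lit 76) (nat_lit 1654399389636) (nat_lit 76) (nat_lit 1643582483064) (nat_lit 1) (nat_lit 4) (nat_lit 2) (nat_lit 5) (nat_lit 2) (nat_lit 4) (nat_lit 526) (nat_lit 406) (nat_lit 268)) (XT.lf (nat_lit 0) (nat_lit 5613641952413) (nat_lit 76) (nat_lit 1716344839235) (nat_lit 76) (nat_lit 1705527913106) (nat_lit 1) (nat_lit 4) (nat_lit 2) (nat_lit 5) (nat_lit 2) (nat_lit 4) (nat_lit 527) (nat_lit 406) (nat_lit 267))))) (XT.nd (nat_lit 234) (nat_lit 0) (nat_lit 0) (XT.nd (nat_lit 78) (nat_lit 0) (nat_lit 0) (XT.lf (nat_lit 0) (nat_lit 6197464952274) (nat_lit 76) (nat_lit 1783246166932) (nat_lit 76) (nat_lit 1772429222695) (nat_lit 1) (nat_lit 4) (nat_lit 2) (nat_lit 5) (nat_lit 2) (nat_lit 4) (nat_lit 528) (nat_lit 406) (nat_lit 266)) (XT.nd (nat_lit 78) (nat_lit 0) (nat_lit 0) (XT.lf (nat_lit 0) (nat_lit 6827993357760)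 (nat_lit 76) (nat_lit 1855499825040) (nat_lit 76) (nat_lit 1844682864036) (nat_lit 1) (nat_lit 4) (nat_lit 2) (nat_lit 5) (nat_lit 2) (nat_lit 4) (nat_lit 529) (nat_lit 406) (nat_lit 265)) (XT.lf (nat_lit 0) (nat_lit 7508963633495) (nat_lit 76) (nat_lit 1933533983383) (nat_lit 76) (nat_lit 1922717006854) (nat_lit 1) (nat_lit 4) (nat_lit 2) (nat_lit 5) (nat_lit 2) (nat_lit 4) (nat_lit 530) (nat_lit 406) (nat_lit 264)))) (XT.nd (nat_lit 78) (nat_lit 0) (nat_lit 0) (XT.lf (nat_lit 0) (nat_lit 8244411158891) (nat_lit 76) (nat_lit 2017811066605) (nat_lit 76) (nat_lit 2006994075701) (nat_lit 1) (nat_lit 4) (nat_lit 2) (nat_lit 5) (nat_lit 2) (nat_lit 4) (nat_lit 531) (nat_lit 406) (nat_lit 263)) (XT.nd (nat_lit 78) (nat_lit 0) (nat_lit 0) (XT.lf (nat_lit 0) (nat_lit 9038694141506) (nat_lit 76) (nat_lit 2108830494458) (nat_lit 76) (nat_lit 2098013490243) (nat_lit 1) (nat_lit 4) (nat_lit 2) (nat_lit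 5) (nat_lit 2) (nat_lit 4) (nat_lit 532) (nat_lit 406) (nat_lit 262)) (XT.lf (nat_lit 0) (nat_lit 9896519443460) (nat_lit 76) (nat_lit 2207131641328) (nat_lit 76) (nat_lit 2196314624790) (nat_lit 1) (nat_lit 4) (nat_lit 2) (nat_lit 5) (nat_lit 2) (nat_lit 4) (nat_lit 533) (nat_lit 406) (nat_lit 261)))))) (XT.nd (nat_lit 52962) (nat_lit 0) (nat_lit 5092) (XT.nd (nat_lit 52728) (nat_lit 0) (nat_lit 6232) (XT.nd (nat_lit 52572) (nat_lit 0) (nat_lit 6612) (XT.lf (nat_lit 0) (nat_lit 10822970473948) (nat_lit 76) (nat_lit 2313297032531) (nat_lit 76) (nat_lit 2302480004581) (nat_lit 1) (nat_lit 4) (nat_lit 2) (nat_lit 5) (nat_lit 2) (nat_lit 4) (nat_lit 534) (nat_lit 406) (nat_lit 260)) (XT.nd (nat_lit 78) (nat_lit 0) (nat_lit 0) (XT.lf (nat_lit 0) (nat_lit 798610978) (nat_lit 0) (nat_lit 798610978) (nat_lit 380) (nat_lit 2326313252) (nat_lit 88) (nat_lit 5) (nat_lit 88) (nat_lit 3) (nat_lit 93)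 (nat_lit 3) (nat_lit 407) (nat_lit 407) (nat_lit 386)) (XT.lf (nat_lit 0) (nat_lit 4591643506) (nat_lit 380) (nat_lit 2351515859) (nat_lit 456) (nat_lit 1115872298) (nat_lit 88) (nat_lit 5) (nat_lit 93) (nat_lit 3) (nat_lit 94) (nat_lit 5) (nat_lit 408) (nat_lit 407) (nat_lit 385)))) (XT.nd (nat_lit 78) (nat_lit 380) (nat_lit 0) (XT.lf (nat_lit 76) (nat_lit 1835461667) (nat_lit 0) (nat_lit 4228102917) (nat_lit 456) (nat_lit 2227386383) (nat_lit 89) (nat_lit 5) (nat_lit 88) (nat_lit 5) (nat_lit 94) (nat_lit 5) (nat_lit 409) (nat_lit 407) (nat_lit 384)) (XT.nd (nat_lit 78) (nat_lit 380) (nat_lit 0) (XT.lf (nat_lit 76) (nat_lit 6419439653) (nat_lit 0) (nat_lit 1182774164) (nat_lit 456) (nat_lit 943326115) (nat_lit 89) (nat_lit 5) (nat_lit 88) (nat_lit 5) (nat_lit 94) (nat_lit 5) (nat_lit 410) (nat_lit 407) (nat_lit 383)) (XT.lf (nat_lit 0) (nat_lit 427596852) (nat_lit 456) (nat_lit 6280202779)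 (nat_lit 532) (nat_lit 2111366660) (nat_lit 83) (nat_lit 5) (nat_lit 89) (nat_lit 5) (nat_lit 90) (nat_lit 5) (nat_lit 411) (nat_lit 407) (nat_lit 382))))) (XT.nd (nat_lit 234) (nat_lit 1140) (nat_lit 0) (XT.nd (nat_lit 78) (nat_lit 0) (nat_lit 76) (XT.lf (nat_lit 0) (nat_lit 1845224965) (nat_lit 456) (nat_lit 1548040763) (nat_lit 532) (nat_lit 5720444289) (nat_lit 83) (nat_lit 5) (nat_lit 89) (nat_lit 5) (nat_lit 90) (nat_lit 5) (nat_lit 412) (nat_lit 407) (nat_lit 381)) (XT.nd (nat_lit 78) (nat_lit 0) (nat_lit 0) (XT.lf (nat_lit 0) (nat_lit 3377100934) (nat_lit 456) (nat_lit 5766758222) (nat_lit 76) (nat_lit 287916123) (nat_lit 84) (nat_lit 5) (nat_lit 90) (nat_lit 5) (nat_lit 85) (nat_lit 5) (nat_lit 413) (nat_lit 407) (nat_lit 380)) (XT.lf (nat_lit 0) (nat_lit 5074030447) (nat_lit 456) (nat_lit 557264488) (nat_lit 76) (nat_lit 4140613739) (nat_lit 84) (nat_lit 5) (nat_lit 90) (nat_lit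 5) (nat_lit 85) (nat_lit 5) (nat_lit 414) (nat_lit 407) (nat_lit 379)))) (XT.nd (nat_lit 156) (nat_lit 304) (nat_lit 0) (XT.nd (nat_lit 78) (nat_lit 456) (nat_lit 0) (XT.lf (nat_lit 0) (nat_lit 5258633343) (nat_lit 456) (nat_lit 1692089326) (nat_lit 532) (nat_lit 3185030877) (nat_lit 78) (nat_lit 5) (nat_lit 84) (nat_lit 5) (nat_lit 85) (nat_lit 5) (nat_lit 415) (nat_lit 407) (nat_lit 378)) (XT.lf (nat_lit 0) (nat_lit 951616137) (nat_lit 456) (nat_lit 8048157392) (nat_lit 532) (nat_lit 1527174499) (nat_lit 72) (nat_lit 5) (nat_lit 78) (nat_lit 5) (nat_lit 79) (nat_lit 5) (nat_lit 416) (nat_lit 407) (nat_lit 377))) (XT.nd (nat_lit 78) (nat_lit 228) (nat_lit 0) (XT.lf (nat_lit 0) (nat_lit 354988815) (nat_lit 532) (nat_lit 3548517183) (nat_lit 76) (nat_lit 7037054483) (nat_lit 71) (nat_lit 5) (nat_lit 78) (nat_lit 5) (nat_lit 72) (nat_lit 5) (nat_lit 417) (nat_lit 407) (nat_lit 376)) (XT.lf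 (nat_lit 0) (nat_lit 2323581096) (nat_lit 304) (nat_lit 8403960248) (nat_lit 76) (nat_lit 655093982) (nat_lit 68) (nat_lit 5) (nat_lit 72) (nat_lit 5) (nat_lit 69) (nat_lit 5) (nat_lit 418) (nat_lit 407) (nat_lit 375))))))))
noncomputable def xc111 : XT := (XT.nd (nat_lit 1950) (nat_lit 1672) (nat_lit 0) (XT.nd (nat_lit 936) (nat_lit 1064) (nat_lit 0) (XT.nd (nat_lit 468) (nat_lit 684) (nat_lit 0) (XT.nd (nat_lit 234) (nat_lit 304) (nat_lit 0) (XT.nd (nat_lit 78) (nat_lit 380) (nat_lit 0) (XT.lf (nat_lit 0) (nat_lit 4583643814) (nat_lit 304) (nat_lit 1803819576) (nat_lit 76) (nat_lit 5461908738) (nat_lit 68) (nat_lit 5) (nat_lit 72) (nat_lit 5) (nat_lit 69) (nat_lit 5) (nat_lit 419) (nat_lit 407) (nat_lit 374)) (XT.nd (nat_lit 78) (nat_lit 152) (nat_lit 0) (XT.lf (nat_lit 0) (nat_lit 5529217458) (nat_lit 228) (nat_lit 1566281596) (nat_lit 304) (nat_lit 5252283352) (nat_lit 65) (nat_lit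 5) (nat_lit 68) (nat_lit 5) (nat_lit 69) (nat_lit 5) (nat_lit 420) (nat_lit 407) (nat_lit 373)) (XT.lf (nat_lit 0) (nat_lit 532805895) (nat_lit 152) (nat_lit 9367128413) (nat_lit 228) (nat_lit 2978813198) (nat_lit 63) (nat_lit 5) (nat_lit 65) (nat_lit 5) (nat_lit 66) (nat_lit 5) (nat_lit 421) (nat_lit 407) (nat_lit 372)))) (XT.nd (nat_lit 78) (nat_lit 304) (nat_lit 0) (XT.lf (nat_lit 0) (nat_lit 8744750029) (nat_lit 152) (nat_lit 4353371401) (nat_lit 228) (nat_lit 340528222) (nat_lit 63) (nat_lit 5) (nat_lit 65) (nat_lit 5) (nat_lit 66) (nat_lit 5) (nat_lit 422) (nat_lit 407) (nat_lit 371)) (XT.nd (nat_lit 78) (nat_lit 0) (nat_lit 0) (XT.lf (nat_lit 0) (nat_lit 2445515841) (nat_lit 304) (nat_lit 10443692428) (nat_lit 76) (nat_lit 1144342865) (nat_lit 59) (nat_lit 5) (nat_lit 63) (nat_lit 5) (nat_lit 60) (nat_lit 5) (nat_lit 423) (nat_lit 407) (nat_lit 370)) (XT.lf (nat_lit 0) (nat_lit 5628880358)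 (nat_lit 304) (nat_lit 2059690203) (nat_lit 76) (nat_lit 6971349047) (nat_lit 59) (nat_lit 5) (nat_lit 63) (nat_lit 5) (nat_lit 60) (nat_lit 5) (nat_lit 424) (nat_lit 407) (nat_lit 369))))) (XT.nd (nat_lit 234) (nat_lit 304) (nat_lit 0) (XT.nd (nat_lit 78) (nat_lit 228) (nat_lit 0) (XT.lf (nat_lit 0) (nat_lit 7293275450) (nat_lit 152) (nat_lit 1900974153) (nat_lit 228) (nat_lit 6131969637) (nat_lit 57) (nat_lit 5) (nat_lit 59) (nat_lit 5) (nat_lit 60) (nat_lit 5) (nat_lit 425) (nat_lit 407) (nat_lit 368)) (XT.nd (nat_lit 78) (nat_lit 76) (nat_lit 0) (XT.lf (nat_lit 0) (nat_lit 1364324578) (nat_lit 152) (nat_lit 11829201355) (nat_lit 228) (nat_lit 2840410605) (nat_lit 55) (nat_lit 5) (nat_lit 57) (nat_lit 5) (nat_lit 58) (nat_lit 5) (nat_lit 426) (nat_lit 407) (nat_lit 367)) (XT.lf (nat_lit 0) (nat_lit 907607695) (nat_lit 228) (nat_lit 4951594723) (nat_lit 76) (nat_lit 10919390891) (nat_lit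 54) (nat_lit 5) (nat_lit 57) (nat_lit 5) (nat_lit 55) (nat_lit 5) (nat_lit 427) (nat_lit 407) (nat_lit 366)))) (XT.nd (nat_lit 78) (nat_lit 152) (nat_lit 0) (XT.lf (nat_lit 0) (nat_lit 4915546184) (nat_lit 228) (nat_lit 11897453239) (nat_lit 76) (nat_lit 754844539) (nat_lit 52) (nat_lit 5) (nat_lit 55) (nat_lit 5) (nat_lit 53) (nat_lit 5) (nat_lit 428) (nat_lit 407) (nat_lit 365)) (XT.nd (nat_lit 78) (nat_lit 152) (nat_lit 0) (XT.lf (nat_lit 0) (nat_lit 9493900615) (nat_lit 228) (nat_lit 1206259084) (nat_lit 76) (nat_lit 7700098304) (nat_lit 52) (nat_lit 5) (nat_lit 55) (nat_lit 5) (nat_lit 53) (nat_lit 5) (nat_lit 429) (nat_lit 407) (nat_lit 364)) (XT.lf (nat_lit 0) (nat_lit 10821483312) (nat_lit 152) (nat_lit 3839048789) (nat_lit 228) (nat_lit 4620977744) (nat_lit 50) (nat_lit 5) (nat_lit 52) (nat_lit 5) (nat_lit 53) (nat_lit 5) (nat_lit 430) (nat_lit 407) (nat_lit 363)))))) (XT.nd (nat_lit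 468) (nat_lit 456) (nat_lit 0) (XT.nd (nat_lit 234) (nat_lit 304) (nat_lit 0) (XT.nd (nat_lit 78) (nat_lit 152) (nat_lit 0) (XT.lf (nat_lit 0) (nat_lit 182331640) (nat_lit 152) (nat_lit 16538111849) (nat_lit 76) (nat_lit 3498772144) (nat_lit 48) (nat_lit 5) (nat_lit 50) (nat_lit 5) (nat_lit 49) (nat_lit 5) (nat_lit 431) (nat_lit 407) (nat_lit 362)) (XT.nd (nat_lit 78) (nat_lit 152) (nat_lit 0) (XT.lf (nat_lit 0) (nat_lit 5420339583) (nat_lit 152) (nat_lit 4225922887) (nat_lit 76) (nat_lit 11552070716) (nat_lit 48) (nat_lit 5) (nat_lit 50) (nat_lit 5) (nat_lit 49) (nat_lit 5) (nat_lit 432) (nat_lit 407) (nat_lit 361)) (XT.lf (nat_lit 0) (nat_lit 9489076321) (nat_lit 152) (nat_lit 1782312183) (nat_lit 228) (nat_lit 10968875564) (nat_lit 46) (nat_lit 5) (nat_lit 48) (nat_lit 5) (nat_lit 49) (nat_lit 5) (nat_lit 433) (nat_lit 407) (nat_lit 360)))) (XT.nd (nat_lit 78) (nat_lit 228) (nat_lit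 0) (XT.lf (nat_lit 0) (nat_lit 1014123608) (nat_lit 76) (nat_lit 16847177447) (nat_lit 152) (nat_lit 5482589645) (nat_lit 45) (nat_lit 5) (nat_lit 46) (nat_lit 5) (nat_lit 47) (nat_lit 4) (nat_lit 434) (nat_lit 407) (nat_lit 359)) (XT.nd (nat_lit 78) (nat_lit 152) (nat_lit 0) (XT.lf (nat_lit 0) (nat_lit 791190720) (nat_lit 152) (nat_lit 8025890911) (nat_lit 76) (nat_lit 15688218830) (nat_lit 44) (nat_lit 5) (nat_lit 46) (nat_lit 5) (nat_lit 45) (nat_lit 5) (nat_lit 435) (nat_lit 407) (nat_lit 358)) (XT.lf (nat_lit 0) (nat_lit 7427250079) (nat_lit 228) (nat_lit 18133599900) (nat_lit 76) (nat_lit 174857230) (nat_lit 42) (nat_lit 5) (nat_lit 45) (nat_lit 5) (nat_lit 43) (nat_lit 4) (nat_lit 436) (nat_lit 407) (nat_lit 357))))) (XT.nd (nat_lit 234) (nat_lit 228) (nat_lit 0) (XT.nd (nat_lit 78) (nat_lit 228) (nat_lit 0) (XT.lf (nat_lit 0) (nat_lit 15018044712) (nat_lit 228) (nat_lit 2398940722)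 (nat_lit 76) (nat_lit 9613655707) (nat_lit 42) (nat_lit 5) (nat_lit 45) (nat_lit 5) (nat_lit 43) (nat_lit 4) (nat_lit 437) (nat_lit 407) (nat_lit 356)) (XT.nd (nat_lit 78) (nat_lit 152) (nat_lit 0) (XT.lf (nat_lit 0) (nat_lit 15310359207) (nat_lit 76) (nat_lit 8245896679) (nat_lit 152) (nat_lit 4845704154) (nat_lit 41) (nat_lit 5) (nat_lit 42) (nat_lit 5) (nat_lit 43) (nat_lit 4) (nat_lit 438) (nat_lit 407) (nat_lit 355)) (XT.lf (nat_lit 0) (nat_lit 2950883095) (nat_lit 152) (nat_lit 25096529239) (nat_lit 76) (nat_lit 1813913937) (nat_lit 39) (nat_lit 5) (nat_lit 41) (nat_lit 5) (nat_lit 40) (nat_lit 4) (nat_lit 439) (nat_lit 407) (nat_lit 354)))) (XT.nd (nat_lit 156) (nat_lit 152) (nat_lit 0) (XT.nd (nat_lit 78) (nat_lit 76) (nat_lit 0) (XT.lf (nat_lit 0) (nat_lit 11663322780) (nat_lit 152) (nat_lit 7014488651) (nat_lit 76) (nat_lit 12705249801) (nat_lit 39) (nat_lit 5) (nat_lit 41) (nat_lit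 5) (nat_lit 40) (nat_lit 4) (nat_lit 440) (nat_lit 407) (nat_lit 353)) (XT.lf (nat_lit 0) (nat_lit 13123785448) (nat_lit 76) (nat_lit 8239132232) (nat_lit 152) (nat_lit 11640406338) (nat_lit 38) (nat_lit 5) (nat_lit 39) (nat_lit 5) (nat_lit 40) (nat_lit 4) (nat_lit 441) (nat_lit 407) (nat_lit 352))) (XT.nd (nat_lit 78) (nat_lit 76) (nat_lit 0) (XT.lf (nat_lit 0) (nat_lit 430633636) (nat_lit 76) (nat_lit 31662773513) (nat_lit 76) (nat_lit 2639408212) (nat_lit 37) (nat_lit 4) (nat_lit 38) (nat_lit 5) (nat_lit 38) (nat_lit 4) (nat_lit 442) (nat_lit 407) (nat_lit 351)) (XT.lf (nat_lit 0) (nat_lit 7474021154) (nat_lit 152) (nat_lit 13506680446) (nat_lit 76) (nat_lit 15546612302) (nat_lit 36) (nat_lit 5) (nat_lit 38) (nat_lit 5) (nat_lit 37) (nat_lit 4) (nat_lit 443) (nat_lit 407) (nat_lit 350))))))) (XT.nd (nat_lit 1014) (nat_lit 836) (nat_lit 0) (XT.nd (nat_lit 468) (nat_lit 456) (nat_lit 0)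 (XT.nd (nat_lit 234) (nat_lit 152) (nat_lit 0) (XT.nd (nat_lit 78) (nat_lit 152) (nat_lit 0) (XT.lf (nat_lit 0) (nat_lit 9305663093) (nat_lit 76) (nat_lit 9148864725) (nat_lit 152) (nat_lit 19989313406) (nat_lit 35) (nat_lit 5) (nat_lit 36) (nat_lit 5) (nat_lit 37) (nat_lit 4) (nat_lit 444) (nat_lit 407) (nat_lit 349)) (XT.nd (nat_lit 78) (nat_lit 152) (nat_lit 0) (XT.lf (nat_lit 0) (nat_lit 30756660812) (nat_lit 152) (nat_lit 5913857080) (nat_lit 0) (nat_lit 3807719220) (nat_lit 35) (nat_lit 5) (nat_lit 37) (nat_lit 4) (nat_lit 35) (nat_lit 4) (nat_lit 445) (nat_lit 407) (nat_lit 348)) (XT.lf (nat_lit 0) (nat_lit 2011780480) (nat_lit 152) (nat_lit 22785959239) (nat_lit 76) (nat_lit 17818005787) (nat_lit 33) (nat_lit 5) (nat_lit 35) (nat_lit 5) (nat_lit 34) (nat_lit 4) (nat_lit 446) (nat_lit 407) (nat_lit 347)))) (XT.nd (nat_lit 78) (nat_lit 76) (nat_lit 0) (XT.lf (nat_lit 0) (nat_lit 2905789581)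 (nat_lit 76) (nat_lit 11467373455) (nat_lit 152) (nat_lit 30513725857) (nat_lit 32) (nat_lit 5) (nat_lit 33) (nat_lit 5) (nat_lit 34) (nat_lit 4) (nat_lit 447) (nat_lit 407) (nat_lit 346)) (XT.nd (nat_lit 78) (nat_lit 76) (nat_lit 0) (XT.lf (nat_lit 0) (nat_lit 28412048339) (nat_lit 152) (nat_lit 15468726140) (nat_lit 0) (nat_lit 3403862816) (nat_lit 32) (nat_lit 5) (nat_lit 34) (nat_lit 4) (nat_lit 32) (nat_lit 4) (nat_lit 448) (nat_lit 407) (nat_lit 345)) (XT.lf (nat_lit 0) (nat_lit 13504417229) (nat_lit 76) (nat_lit 30672770914) (nat_lit 76) (nat_lit 5648766779) (nat_lit 31) (nat_lit 4) (nat_lit 32) (nat_lit 5) (nat_lit 32) (nat_lit 4) (nat_lit 449) (nat_lit 407) (nat_lit 344))))) (XT.nd (nat_lit 234) (nat_lit 228) (nat_lit 0) (XT.nd (nat_lit 78) (nat_lit 152) (nat_lit 0) (XT.lf (nat_lit 0) (nat_lit 8615604195) (nat_lit 152) (nat_lit 7118194270) (nat_lit 76) (nat_lit 36787010489) (nat_lit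 30) (nat_lit 5) (nat_lit 32) (nat_lit 5) (nat_lit 31) (nat_lit 4) (nat_lit 450) (nat_lit 407) (nat_lit 343)) (XT.nd (nat_lit 78) (nat_lit 76) (nat_lit 0) (XT.lf (nat_lit 0) (nat_lit 24340577949) (nat_lit 152) (nat_lit 29884881163) (nat_lit 0) (nat_lit 1144084516) (nat_lit 29) (nat_lit 5) (nat_lit 31) (nat_lit 4) (nat_lit 29) (nat_lit 4) (nat_lit 451) (nat_lit 407) (nat_lit 342)) (XT.lf (nat_lit 0) (nat_lit 2337917818) (nat_lit 76) (nat_lit 39632322600) (nat_lit 76) (nat_lit 16424202014) (nat_lit 28) (nat_lit 4) (nat_lit 29) (nat_lit 5) (nat_lit 29) (nat_lit 4) (nat_lit 452) (nat_lit 407) (nat_lit 341)))) (XT.nd (nat_lit 156) (nat_lit 76) (nat_lit 0) (XT.nd (nat_lit 78) (nat_lit 76) (nat_lit 0) (XT.lf (nat_lit 0) (nat_lit 202000895) (nat_lit 152) (nat_lit 22798724604) (nat_lit 76) (nat_lit 38596221641) (nat_lit 27) (nat_lit 5) (nat_lit 29) (nat_lit 5) (nat_lit 28) (nat_lit 4) (nat_lit 453)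 (nat_lit 407) (nat_lit 340)) (XT.lf (nat_lit 0) (nat_lit 13327072060) (nat_lit 76) (nat_lit 4247892813) (nat_lit 152) (nat_lit 47422239767) (nat_lit 26) (nat_lit 5) (nat_lit 27) (nat_lit 5) (nat_lit 28) (nat_lit 4) (nat_lit 454) (nat_lit 407) (nat_lit 339))) (XT.nd (nat_lit 78) (nat_lit 76) (nat_lit 0) (XT.lf (nat_lit 0) (nat_lit 37345798019) (nat_lit 152) (nat_lit 15413989859) (nat_lit 0) (nat_lit 15829052755) (nat_lit 26) (nat_lit 5) (nat_lit 28) (nat_lit 4) (nat_lit 26) (nat_lit 4) (nat_lit 455) (nat_lit 407) (nat_lit 338)) (XT.lf (nat_lit 0) (nat_lit 24844798603) (nat_lit 76) (nat_lit 34546128737) (nat_lit 76) (nat_lit 13021470228) (nat_lit 25) (nat_lit 4) (nat_lit 26) (nat_lit 5) (nat_lit 26) (nat_lit 4) (nat_lit 456) (nat_lit 407) (nat_lit 337)))))) (XT.nd (nat_lit 468) (nat_lit 456) (nat_lit 0) (XT.nd (nat_lit 234) (nat_lit 228) (nat_lit 0) (XT.nd (nat_lit 78) (nat_lit 76) (nat_lit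 0) (XT.lf (nat_lit 0) (nat_lit 6741976799) (nat_lit 152) (nat_lit 7508673842) (nat_lit 76) (nat_lit 62245003075) (nat_lit 24) (nat_lit 5) (nat_lit 26) (nat_lit 5) (nat_lit 25) (nat_lit 4) (nat_lit 457) (nat_lit 407) (nat_lit 336)) (XT.nd (nat_lit 78) (nat_lit 0) (nat_lit 0) (XT.lf (nat_lit 0) (nat_lit 28480993559) (nat_lit 152) (nat_lit 43771992130) (nat_lit 0) (nat_lit 8537688079) (nat_lit 23) (nat_lit 5) (nat_lit 25) (nat_lit 4) (nat_lit 23) (nat_lit 4) (nat_lit 458) (nat_lit 407) (nat_lit 335)) (XT.lf (nat_lit 0) (nat_lit 52525896913) (nat_lit 152) (nat_lit 281282640) (nat_lit 0) (nat_lit 32576774962) (nat_lit 23) (nat_lit 5) (nat_lit 25) (nat_lit 4) (nat_lit 23) (nat_lit 4) (nat_lit 459) (nat_lit 407) (nat_lit 334)))) (XT.nd (nat_lit 78) (nat_lit 152) (nat_lit 0) (XT.lf (nat_lit 0) (nat_lit 49119757932) (nat_lit 76) (nat_lit 30542989624) (nat_lit 76) (nat_lit 10588482052) (nat_lit 22)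 (nat_lit 4) (nat_lit 23) (nat_lit 5) (nat_lit 23) (nat_lit 4) (nat_lit 460) (nat_lit 407) (nat_lit 333)) (XT.nd (nat_lit 78) (nat_lit 0) (nat_lit 0) (XT.lf (nat_lit 0) (nat_lit 6980717080) (nat_lit 76) (nat_lit 5971307601) (nat_lit 152) (nat_lit 82516934339) (nat_lit 20) (nat_lit 5) (nat_lit 21) (nat_lit 5) (nat_lit 22) (nat_lit 4) (nat_lit 461) (nat_lit 407) (nat_lit 332)) (XT.lf (nat_lit 0) (nat_lit 39439235610) (nat_lit 152) (nat_lit 40558080901) (nat_lit 0) (nat_lit 20953947128) (nat_lit 20) (nat_lit 5) (nat_lit 22) (nat_lit 4) (nat_lit 20) (nat_lit 4) (nat_lit 462) (nat_lit 407) (nat_lit 331))))) (XT.nd (nat_lit 234) (nat_lit 228) (nat_lit 0) (XT.nd (nat_lit 78) (nat_lit 152) (nat_lit 0) (XT.lf (nat_lit 0) (nat_lit 11607847739) (nat_lit 76) (nat_lit 56859883763) (nat_lit 76) (nat_lit 38370636688) (nat_lit 19) (nat_lit 4) (nat_lit 20) (nat_lit 5) (nat_lit 20) (nat_lit 4) (nat_lit 463)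 (nat_lit 407) (nat_lit 330)) (XT.nd (nat_lit 78) (nat_lit 152) (nat_lit 0) (XT.lf (nat_lit 0) (nat_lit 70230019843) (nat_lit 76) (nat_lit 30685775421) (nat_lit 76) (nat_lit 12192862983) (nat_lit 19) (nat_lit 4) (nat_lit 20) (nat_lit 5) (nat_lit 20) (nat_lit 4) (nat_lit 464) (nat_lit 407) (nat_lit 329)) (XT.lf (nat_lit 0) (nat_lit 13950091917) (nat_lit 76) (nat_lit 1649137991) (nat_lit 152) (nat_lit 104224450237) (nat_lit 17) (nat_lit 5) (nat_lit 18) (nat_lit 5) (nat_lit 19) (nat_lit 4) (nat_lit 465) (nat_lit 407) (nat_lit 328)))) (XT.nd (nat_lit 156) (nat_lit 152) (nat_lit 0) (XT.nd (nat_lit 78) (nat_lit 76) (nat_lit 0) (XT.lf (nat_lit 0) (nat_lit 46862291573) (nat_lit 152) (nat_lit 50302597588) (nat_lit 0) (nat_lit 29733172359) (nat_lit 17) (nat_lit 5) (nat_lit 19) (nat_lit 4) (nat_lit 17) (nat_lit 4) (nat_lit 466) (nat_lit 407) (nat_lit 327)) (XT.lf (nat_lit 0) (nat_lit 10158611347) (nat_lit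 76) (nat_lit 70744720439) (nat_lit 76) (nat_lit 53612907074) (nat_lit 16) (nat_lit 4) (nat_lit 17) (nat_lit 5) (nat_lit 17) (nat_lit 4) (nat_lit 467) (nat_lit 407) (nat_lit 326))) (XT.nd (nat_lit 78) (nat_lit 152) (nat_lit 0) (XT.lf (nat_lit 0) (nat_lit 78297195818) (nat_lit 76) (nat_lit 40735874713) (nat_lit 76) (nat_lit 23601566764) (nat_lit 16) (nat_lit 4) (nat_lit 17) (nat_lit 5) (nat_lit 17) (nat_lit 4) (nat_lit 468) (nat_lit 407) (nat_lit 325)) (XT.lf (nat_lit 0) (nat_lit 266524632) (nat_lit 76) (nat_lit 8100370743) (nat_lit 152) (nat_lit 143018903735) (nat_lit 14) (nat_lit 5) (nat_lit 15) (nat_lit 5) (nat_lit 16) (nat_lit 4) (nat_lit 469) (nat_lit 407) (nat_lit 324))))))))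
noncomputable def xc112 : XT := (XT.nd (nat_lit 1950) (nat_lit 228) (nat_lit 0) (XT.nd (nat_lit 936) (nat_lit 304) (nat_lit 0) (XT.nd (nat_lit 468) (nat_lit 228) (nat_lit 0) (XT.nd (nat_lit 234) (nat_lit 152) (nat_lit 0) (XT.nd (nat_lit 78) (nat_lit 76) (nat_lit 0) (XT.lf (nat_lit 0) (nat_lit 44065957157) (nat_lit 152) (nat_lit 88329458760) (nat_lit 0) (nat_lit 28196738218) (nat_lit 14) (nat_lit 5) (nat_lit 16) (nat_lit 4) (nat_lit 14) (nat_lit 4) (nat_lit 470) (nat_lit 407) (nat_lit 323)) (XT.nd (nat_lit 78) (nat_lit 76) (nat_lit 0) (XT.lf (nat_lit 0) (nat_lit 82822610176) (nat_lit 152) (nat_lit 20744716538) (nat_lit 0) (nat_lit 66951557643) (nat_lit 14) (nat_lit 5) (nat_lit 16) (nat_lit 4) (nat_lit 14) (nat_lit 4) (nat_lit 471) (nat_lit 407) (nat_lit 322)) (XT.lf (nat_lit 0) (nat_lit 54980621854) (nat_lit 76) (nat_lit 71013372801) (nat_lit 76) (nat_lit 55140622495) (nat_lit 13) (nat_lit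 4) (nat_lit 14) (nat_lit 5) (nat_lit 14) (nat_lit 4) (nat_lit 472) (nat_lit 407) (nat_lit 321)))) (XT.nd (nat_lit 78) (nat_lit 152) (nat_lit 0) (XT.lf (nat_lit 0) (nat_lit 137927639790) (nat_lit 76) (nat_lit 35250772686) (nat_lit 76) (nat_lit 19376450368) (nat_lit 13) (nat_lit 4) (nat_lit 14) (nat_lit 5) (nat_lit 14) (nat_lit 4) (nat_lit 473) (nat_lit 407) (nat_lit 320)) (XT.nd (nat_lit 78) (nat_lit 0) (nat_lit 0) (XT.lf (nat_lit 0) (nat_lit 18946575747) (nat_lit 152) (nat_lit 181605486200) (nat_lit 0) (nat_lit 4246781410) (nat_lit 11) (nat_lit 5) (nat_lit 13) (nat_lit 4) (nat_lit 11) (nat_lit 4) (nat_lit 474) (nat_lit 407) (nat_lit 319)) (XT.lf (nat_lit 0) (nat_lit 61729147198) (nat_lit 152) (nat_lit 109029584690) (nat_lit 0) (nat_lit 47028104947) (nat_lit 11) (nat_lit 5) (nat_lit 13) (nat_lit 4) (nat_lit 11) (nat_lit 4) (nat_lit 475) (nat_lit 407) (nat_lit 318))))) (XT.nd (nat_lit 234)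 (nat_lit 152) (nat_lit 0) (XT.nd (nat_lit 78) (nat_lit 76) (nat_lit 0) (XT.lf (nat_lit 0) (nat_lit 107927408014) (nat_lit 152) (nat_lit 30661804859) (nat_lit 0) (nat_lit 93225210288) (nat_lit 11) (nat_lit 5) (nat_lit 13) (nat_lit 4) (nat_lit 11) (nat_lit 4) (nat_lit 476) (nat_lit 407) (nat_lit 317)) (XT.nd (nat_lit 78) (nat_lit 0) (nat_lit 0) (XT.lf (nat_lit 0) (nat_lit 56803811666) (nat_lit 76) (nat_lit 102377447037) (nat_lit 76) (nat_lit 87674179427) (nat_lit 10) (nat_lit 4) (nat_lit 11) (nat_lit 5) (nat_lit 11) (nat_lit 4) (nat_lit 477) (nat_lit 407) (nat_lit 316)) (XT.lf (nat_lit 0) (nat_lit 152997631836) (nat_lit 76) (nat_lit 62369895965) (nat_lit 76) (nat_lit 47665637721) (nat_lit 10) (nat_lit 4) (nat_lit 11) (nat_lit 5) (nat_lit 11) (nat_lit 4) (nat_lit 478) (nat_lit 407) (nat_lit 315)))) (XT.nd (nat_lit 78) (nat_lit 152) (nat_lit 0) (XT.lf (nat_lit 0) (nat_lit 256875096797) (nat_lit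 76) (nat_lit 19167825954) (nat_lit 76) (nat_lit 4462650456) (nat_lit 10) (nat_lit 4) (nat_lit 11) (nat_lit 5) (nat_lit 11) (nat_lit 4) (nat_lit 479) (nat_lit 407) (nat_lit 314)) (XT.nd (nat_lit 78) (nat_lit 0) (nat_lit 0) (XT.lf (nat_lit 0) (nat_lit 42551010084) (nat_lit 152) (nat_lit 227612034492) (nat_lit 0) (nat_lit 28934320448) (nat_lit 8) (nat_lit 5) (nat_lit 10) (nat_lit 4) (nat_lit 8) (nat_lit 4) (nat_lit 480) (nat_lit 407) (nat_lit 313)) (XT.lf (nat_lit 0) (nat_lit 94239930687) (nat_lit 152) (nat_lit 144212362292) (nat_lit 0) (nat_lit 80622512906) (nat_lit 8) (nat_lit 5) (nat_lit 10) (nat_lit 4) (nat_lit 8) (nat_lit 4) (nat_lit 481) (nat_lit 407) (nat_lit 312)))))) (XT.nd (nat_lit 468) (nat_lit 76) (nat_lit 0) (XT.nd (nat_lit 234) (nat_lit 152) (nat_lit 0) (XT.nd (nat_lit 78) (nat_lit 76) (nat_lit 0) (XT.lf (nat_lit 0) (nat_lit 150058890633) (nat_lit 152) (nat_lit 54151158720) (nat_lit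 0) (nat_lit 136440798643) (nat_lit 8) (nat_lit 5) (nat_lit 10) (nat_lit 4) (nat_lit 8) (nat_lit 4) (nat_lit 482) (nat_lit 407) (nat_lit 311)) (XT.nd (nat_lit 78) (nat_lit 0) (nat_lit 0) (XT.lf (nat_lit 0) (nat_lit 45375119493) (nat_lit 76) (nat_lit 166054822164) (nat_lit 76) (nat_lit 152436105907) (nat_lit 7) (nat_lit 4) (nat_lit 8) (nat_lit 5) (nat_lit 8) (nat_lit 4) (nat_lit 483) (nat_lit 407) (nat_lit 310)) (XT.lf (nat_lit 0) (nat_lit 155933700233) (nat_lit 76) (nat_lit 123252988127) (nat_lit 76) (nat_lit 109633693844) (nat_lit 7) (nat_lit 4) (nat_lit 8) (nat_lit 5) (nat_lit 8) (nat_lit 4) (nat_lit 484) (nat_lit 407) (nat_lit 309)))) (XT.nd (nat_lit 78) (nat_lit 152) (nat_lit 0) (XT.lf (nat_lit 0) (nat_lit 275328241405) (nat_lit 76) (nat_lit 77031495385) (nat_lit 76) (nat_lit 63411665893) (nat_lit 7) (nat_lit 4) (nat_lit 8) (nat_lit 5) (nat_lit 8) (nat_lit 4) (nat_lit 485) (nat_lit 407)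 (nat_lit 308)) (XT.nd (nat_lit 78) (nat_lit 152) (nat_lit 0) (XT.lf (nat_lit 0) (nat_lit 404266266215) (nat_lit 76) (nat_lit 27116438796) (nat_lit 76) (nat_lit 13496113741) (nat_lit 7) (nat_lit 4) (nat_lit 8) (nat_lit 5) (nat_lit 8) (nat_lit 4) (nat_lit 486) (nat_lit 407) (nat_lit 307)) (XT.lf (nat_lit 0) (nat_lit 40776969841) (nat_lit 152) (nat_lit 407104099859) (nat_lit 0) (nat_lit 28165132888) (nat_lit 5) (nat_lit 5) (nat_lit 7) (nat_lit 4) (nat_lit 5) (nat_lit 4) (nat_lit 487) (nat_lit 407) (nat_lit 306))))) (XT.nd (nat_lit 234) (nat_lit 76) (nat_lit 0) (XT.nd (nat_lit 78) (nat_lit 0) (nat_lit 0) (XT.lf (nat_lit 0) (nat_lit 100502619451) (nat_lit 152) (nat_lit 321138735921) (nat_lit 0) (nat_lit 87890389103) (nat_lit 5) (nat_lit 5) (nat_lit 7) (nat_lit 4) (nat_lit 5) (nat_lit 4) (nat_lit 488) (nat_lit 407) (nat_lit 305)) (XT.nd (nat_lit 78) (nat_lit 0) (nat_lit 0) (XT.lf (nat_lit 0)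 (nat_lit 165002872631) (nat_lit 152) (nat_lit 228303254945) (nat_lit 0) (nat_lit 152390278029) (nat_lit 5) (nat_lit 5) (nat_lit 7) (nat_lit 4) (nat_lit 5) (nat_lit 4) (nat_lit 489) (nat_lit 407) (nat_lit 304)) (XT.lf (nat_lit 0) (nat_lit 234659953105) (nat_lit 152) (nat_lit 128047520746) (nat_lit 0) (nat_lit 222047021230) (nat_lit 5) (nat_lit 5) (nat_lit 7) (nat_lit 4) (nat_lit 5) (nat_lit 4) (nat_lit 490) (nat_lit 407) (nat_lit 303)))) (XT.nd (nat_lit 156) (nat_lit 0) (nat_lit 0) (XT.nd (nat_lit 78) (nat_lit 76) (nat_lit 0) (XT.lf (nat_lit 0) (nat_lit 309886643570) (nat_lit 152) (nat_lit 19777425270) (nat_lit 0) (nat_lit 297273399406) (nat_lit 5) (nat_lit 5) (nat_lit 7) (nat_lit 4) (nat_lit 5) (nat_lit 4) (nat_lit 491) (nat_lit 407) (nat_lit 302)) (XT.lf (nat_lit 0) (nat_lit 102264306850) (nat_lit 76) (nat_lit 291323884012) (nat_lit 76) (nat_lit 278710350692) (nat_lit 4) (nat_lit 4) (nat_lit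 5) (nat_lit 5) (nat_lit 5) (nat_lit 4) (nat_lit 492) (nat_lit 407) (nat_lit 301))) (XT.nd (nat_lit 78) (nat_lit 0) (nat_lit 0) (XT.lf (nat_lit 0) (nat_lit 235188634375) (nat_lit 76) (nat_lit 249335310397) (nat_lit 76) (nat_lit 236721509340) (nat_lit 4) (nat_lit 4) (nat_lit 5) (nat_lit 5) (nat_lit 5) (nat_lit 4) (nat_lit 493) (nat_lit 407) (nat_lit 300)) (XT.lf (nat_lit 0) (nat_lit 378741812859) (nat_lit 76) (nat_lit 203990276676) (nat_lit 76) (nat_lit 191376227713) (nat_lit 4) (nat_lit 4) (nat_lit 5) (nat_lit 5) (nat_lit 5) (nat_lit 4) (nat_lit 494) (nat_lit 407) (nat_lit 299))))))) (XT.nd (nat_lit 936) (nat_lit 76) (nat_lit 0) (XT.nd (nat_lit 468) (nat_lit 0) (nat_lit 0) (XT.nd (nat_lit 234) (nat_lit 152) (nat_lit 0) (XT.nd (nat_lit 78) (nat_lit 0) (nat_lit 0) (XT.lf (nat_lit 0) (nat_lit 533774527802) (nat_lit 76) (nat_lit 155020071535) (nat_lit 76) (nat_lit 142405793030) (nat_lit 4) (nat_lit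 4) (nat_lit 5) (nat_lit 5) (nat_lit 5) (nat_lit 4) (nat_lit 495) (nat_lit 407) (nat_lit 298)) (XT.nd (nat_lit 78) (nat_lit 0) (nat_lit 0) (XT.lf (nat_lit 0) (nat_lit 701205491590) (nat_lit 76) (nat_lit 102134501168) (nat_lit 76) (nat_lit 89520010124) (nat_lit 4) (nat_lit 4) (nat_lit 5) (nat_lit 5) (nat_lit 5) (nat_lit 4) (nat_lit 496) (nat_lit 407) (nat_lit 297)) (XT.lf (nat_lit 0) (nat_lit 882026887712) (nat_lit 76) (nat_lit 45020169601) (nat_lit 76) (nat_lit 32405481763) (nat_lit 4) (nat_lit 4) (nat_lit 5) (nat_lit 5) (nat_lit 5) (nat_lit 4) (nat_lit 497) (nat_lit 407) (nat_lit 296)))) (XT.nd (nat_lit 78) (nat_lit 0) (nat_lit 0) (XT.lf (nat_lit 0) (nat_lit 29405623667) (nat_lit 152) (nat_lit 984057972396) (nat_lit 0) (nat_lit 17725188430) (nat_lit 2) (nat_lit 5) (nat_lit 4) (nat_lit 4) (nat_lit 2) (nat_lit 4) (nat_lit 498) (nat_lit 407) (nat_lit 295)) (XT.nd (nat_lit 78) (nat_lit 0) (nat_lit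 0) (XT.lf (nat_lit 0) (nat_lit 97750314341) (nat_lit 152) (nat_lit 924509401502) (nat_lit 0) (nat_lit 86069722881) (nat_lit 2) (nat_lit 5) (nat_lit 4) (nat_lit 4) (nat_lit 2) (nat_lit 4) (nat_lit 499) (nat_lit 407) (nat_lit 294)) (XT.lf (nat_lit 0) (nat_lit 171560857231) (nat_lit 152) (nat_lit 860200504792) (nat_lit 0) (nat_lit 159880121121) (nat_lit 2) (nat_lit 5) (nat_lit 4) (nat_lit 4) (nat_lit 2) (nat_lit 4) (nat_lit 500) (nat_lit 407) (nat_lit 293))))) (XT.nd (nat_lit 234) (nat_lit 0) (nat_lit 0) (XT.nd (nat_lit 78) (nat_lit 0) (nat_lit 0) (XT.lf (nat_lit 0) (nat_lit 251274648149) (nat_lit 152) (nat_lit 790750192506) (nat_lit 0) (nat_lit 239593778103) (nat_lit 2) (nat_lit 5) (nat_lit 4) (nat_lit 4) (nat_lit 2) (nat_lit 4) (nat_lit 501) (nat_lit 407) (nat_lit 292)) (XT.nd (nat_lit 78) (nat_lit 0) (nat_lit 0) (XT.lf (nat_lit 0) (nat_lit 337364065113) (nat_lit 152) (nat_lit 715746907238)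 (nat_lit 0) (nat_lit 325683071053) (nat_lit 2) (nat_lit 5) (nat_lit 4) (nat_lit 4) (nat_lit 2) (nat_lit 4) (nat_lit 502) (nat_lit 407) (nat_lit 291)) (XT.lf (nat_lit 0) (nat_lit 430339267632) (nat_lit 152) (nat_lit 634746185077) (nat_lit 0) (nat_lit 418658158745) (nat_lit 2) (nat_lit 5) (nat_lit 4) (nat_lit 4) (nat_lit 2) (nat_lit 4) (nat_lit 503) (nat_lit 407) (nat_lit 290)))) (XT.nd (nat_lit 78) (nat_lit 0) (nat_lit 0) (XT.lf (nat_lit 0) (nat_lit 530751219870) (nat_lit 152) (nat_lit 547268021743) (nat_lit 0) (nat_lit 519070004660) (nat_lit 2) (nat_lit 5) (nat_lit 4) (nat_lit 4) (nat_lit 2) (nat_lit 4) (nat_lit 504) (nat_lit 407) (nat_lit 289)) (XT.nd (nat_lit 78) (nat_lit 0) (nat_lit 0) (XT.lf (nat_lit 0) (nat_lit 639194955616) (nat_lit 152) (nat_lit 452794028118) (nat_lit 0) (nat_lit 627513641959) (nat_lit 2) (nat_lit 5) (nat_lit 4) (nat_lit 4) (nat_lit 2) (nat_lit 4) (nat_lit 505) (nat_lit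 407) (nat_lit 288)) (XT.lf (nat_lit 0) (nat_lit 756313104416) (nat_lit 152) (nat_lit 350764358317) (nat_lit 0) (nat_lit 744631699606) (nat_lit 2) (nat_lit 5) (nat_lit 4) (nat_lit 4) (nat_lit 2) (nat_lit 4) (nat_lit 506) (nat_lit 407) (nat_lit 287)))))) (XT.nd (nat_lit 468) (nat_lit 0) (nat_lit 0) (XT.nd (nat_lit 234) (nat_lit 0) (nat_lit 0) (XT.nd (nat_lit 78) (nat_lit 76) (nat_lit 0) (XT.lf (nat_lit 0) (nat_lit 882799699745) (nat_lit 152) (nat_lit 240574392072) (nat_lit 0) (nat_lit 871118210533) (nat_lit 2) (nat_lit 5) (nat_lit 4) (nat_lit 4) (nat_lit 2) (nat_lit 4) (nat_lit 507) (nat_lit 407) (nat_lit 286)) (XT.nd (nat_lit 78) (nat_lit 76) (nat_lit 0) (XT.lf (nat_lit 0) (nat_lit 1019404291797) (nat_lit 152) (nat_lit 121571151806) (nat_lit 0) (nat_lit 1007722724435) (nat_lit 2) (nat_lit 5) (nat_lit 4) (nat_lit 4) (nat_lit 2) (nat_lit 4) (nat_lit 508) (nat_lit 407) (nat_lit 285)) (XT.lf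 (nat_lit 0) (nat_lit 7316571400) (nat_lit 76) (nat_lit 1159795781584) (nat_lit 76) (nat_lit 1148114141860) (nat_lit 1) (nat_lit 4) (nat_lit 2) (nat_lit 5) (nat_lit 2) (nat_lit 4) (nat_lit 509) (nat_lit 407) (nat_lit 284)))) (XT.nd (nat_lit 78) (nat_lit 0) (nat_lit 0) (XT.lf (nat_lit 0) (nat_lit 153427435859) (nat_lit 76) (nat_lit 1176532754096) (nat_lit 76) (nat_lit 1164851047371) (nat_lit 1) (nat_lit 4) (nat_lit 2) (nat_lit 5) (nat_lit 2) (nat_lit 4) (nat_lit 510) (nat_lit 407) (nat_lit 283)) (XT.nd (nat_lit 78) (nat_lit 0) (nat_lit 0) (XT.lf (nat_lit 0) (nat_lit 311225562317) (nat_lit 76) (nat_lit 1194609513934) (nat_lit 76) (nat_lit 1182927745171) (nat_lit 1) (nat_lit 4) (nat_lit 2) (nat_lit 5) (nat_lit 2) (nat_lit 4) (nat_lit 511) (nat_lit 407) (nat_lit 282)) (XT.lf (nat_lit 0) (nat_lit 481646050783) (nat_lit 76) (nat_lit 1214133182636) (nat_lit 76) (nat_lit 1202451356430) (nat_lit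 1) (nat_lit 4) (nat_lit 2) (nat_lit 5) (nat_lit 2) (nat_lit 4) (nat_lit 512) (nat_lit 407) (nat_lit 281))))) (XT.nd (nat_lit 234) (nat_lit 0) (nat_lit 0) (XT.nd (nat_lit 78) (nat_lit 0) (nat_lit 0) (XT.lf (nat_lit 0) (nat_lit 665698800449) (nat_lit 76) (nat_lit 1235219456018) (nat_lit 76) (nat_lit 1223537576625) (nat_lit 1) (nat_lit 4) (nat_lit 2) (nat_lit 5) (nat_lit 2) (nat_lit 4) (nat_lit 513) (nat_lit 407) (nat_lit 280)) (XT.nd (nat_lit 78) (nat_lit 0) (nat_lit 0) (XT.lf (nat_lit 0) (nat_lit 864474494274) (nat_lit 76) (nat_lit 1257993289773) (nat_lit 76) (nat_lit 1246311361132) (nat_lit 1) (nat_lit 4) (nat_lit 2) (nat_lit 5) (nat_lit 2) (nat_lit 4) (nat_lit 514) (nat_lit 407) (nat_lit 279)) (XT.lf (nat_lit 0) (nat_lit 1079151062297) (nat_lit 76) (nat_lit 1282589639953) (nat_lit 76) (nat_lit 1270907665713) (nat_lit 1) (nat_lit 4) (nat_lit 2) (nat_lit 5) (nat_lit 2) (nat_lit 4) (nat_lit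 515) (nat_lit 407) (nat_lit 278)))) (XT.nd (nat_lit 156) (nat_lit 0) (nat_lit 0) (XT.nd (nat_lit 78) (nat_lit 0) (nat_lit 0) (XT.lf (nat_lit 0) (nat_lit 1311000661957) (nat_lit 76) (nat_lit 1309154262708) (nat_lit 76) (nat_lit 1297472246245) (nat_lit 1) (nat_lit 4) (nat_lit 2) (nat_lit 5) (nat_lit 2) (nat_lit 4) (nat_lit 516) (nat_lit 407) (nat_lit 277)) (XT.lf (nat_lit 0) (nat_lit 1561397216809) (nat_lit 76) (nat_lit 1337844578025) (nat_lit 76) (nat_lit 1326162522467) (nat_lit 1) (nat_lit 4) (nat_lit 2) (nat_lit 5) (nat_lit 2) (nat_lit 4) (nat_lit 517) (nat_lit 407) (nat_lit 276))) (XT.nd (nat_lit 78) (nat_lit 0) (nat_lit 0) (XT.lf (nat_lit 0) (nat_lit 1831824558289) (nat_lit 76) (nat_lit 1368830602585) (nat_lit 76) (nat_lit 1357148510829) (nat_lit 1) (nat_lit 4) (nat_lit 2) (nat_lit 5) (nat_lit 2) (nat_lit 4) (nat_lit 518) (nat_lit 407) (nat_lit 275)) (XT.lf (nat_lit 0) (nat_lit 2123885218789)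 (nat_lit 76) (nat_lit 1402295957277) (nat_lit 76) (nat_lit 1390613832004) (nat_lit 1) (nat_lit 4) (nat_lit 2) (nat_lit 5) (nat_lit 2) (nat_lit 4) (nat_lit 519) (nat_lit 407) (nat_lit 274))))))))
noncomputable def xc113 : XT := (XT.nd (nat_lit 54522) (nat_lit 0) (nat_lit 2812) (XT.nd (nat_lit 936) (nat_lit 0) (nat_lit 0) (XT.nd (nat_lit 468) (nat_lit 0) (nat_lit 0) (XT.nd (nat_lit 234) (nat_lit 0) (nat_lit 0) (XT.nd (nat_lit 78) (nat_lit 0) (nat_lit 0) (XT.lf (nat_lit 0) (nat_lit 2439309928151) (nat_lit 76) (nat_lit 1438438955313) (nat_lit 76) (nat_lit 1426756799005) (nat_lit 1) (nat_lit 4) (nat_lit 2) (nat_lit 5) (nat_lit 2) (nat_lit 4) (nat_lit 520) (nat_lit 407) (nat_lit 273)) (XT.nd (nat_lit 78) (nat_lit 0) (nat_lit 0) (XT.lf (nat_lit 0) (nat_lit 2779967869837) (nat_lit 76) (nat_lit 1477473777421) (nat_lit 76) (nat_lit 1465791592378) (nat_lit 1) (nat_lit 4) (nat_lit 2) (nat_lit 5) (nat_lit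 2) (nat_lit 4) (nat_lit 521) (nat_lit 407) (nat_lit 272)) (XT.lf (nat_lit 0) (nat_lit 3147877757576) (nat_lit 76) (nat_lit 1519631741067) (nat_lit 76) (nat_lit 1507949529417) (nat_lit 1) (nat_lit 4) (nat_lit 2) (nat_lit 5) (nat_lit 2) (nat_lit 4) (nat_lit 522) (nat_lit 407) (nat_lit 271)))) (XT.nd (nat_lit 78) (nat_lit 0) (nat_lit 0) (XT.lf (nat_lit 0) (nat_lit 3545219798110) (nat_lit 76) (nat_lit 1565162671220) (nat_lit 76) (nat_lit 1553480434933) (nat_lit 1) (nat_lit 4) (nat_lit 2) (nat_lit 5) (nat_lit 2) (nat_lit 4) (nat_lit 523) (nat_lit 407) (nat_lit 270)) (XT.nd (nat_lit 78) (nat_lit 0) (nat_lit 0) (XT.lf (nat_lit 0) (nat_lit 3974348610938) (nat_lit 76) (nat_lit 1614336380799) (nat_lit 76) (nat_lit 1602654121701) (nat_lit 1) (nat_lit 4) (nat_lit 2) (nat_lit 5) (nat_lit 2) (nat_lit 4) (nat_lit 524) (nat_lit 407) (nat_lit 269)) (XT.lf (nat_lit 0) (nat_lit 4437807181617) (nat_lit 76)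 (nat_lit 1667444269565) (nat_lit 76) (nat_lit 1655761989346) (nat_lit 1) (nat_lit 4) (nat_lit 2) (nat_lit 5) (nat_lit 2) (nat_lit 4) (nat_lit 525) (nat_lit 407) (nat_lit 268))))) (XT.nd (nat_lit 234) (nat_lit 0) (nat_lit 0) (XT.nd (nat_lit 78) (nat_lit 0) (nat_lit 0) (XT.lf (nat_lit 0) (nat_lit 4938341931309) (nat_lit 76) (nat_lit 1724801050933) (nat_lit 76) (nat_lit 1713118751157) (nat_lit 1) (nat_lit 4) (nat_lit 2) (nat_lit 5) (nat_lit 2) (nat_lit 4) (nat_lit 526) (nat_lit 407) (nat_lit 267)) (XT.nd (nat_lit 78) (nat_lit 0) (nat_lit 0) (XT.lf (nat_lit 0) (nat_lit 5478918991862) (nat_lit 76) (nat_lit 1786746616941) (nat_lit 76) (nat_lit 1775064299057) (nat_lit 1) (nat_lit 4) (nat_lit 2) (nat_lit 5) (nat_lit 2) (nat_lit 4) (nat_lit 527) (nat_lit 407) (nat_lit 266)) (XT.lf (nat_lit 0) (nat_lit 6062741782894) (nat_lit 76) (nat_lit 1853648052424) (nat_lit 76) (nat_lit 1841965717773) (nat_lit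 1) (nat_lit 4) (nat_lit 2) (nat_lit 5) (nat_lit 2) (nat_lit 4) (nat_lit 528) (nat_lit 407) (nat_lit 265)))) (XT.nd (nat_lit 78) (nat_lit 0) (nat_lit 0) (XT.lf (nat_lit 0) (nat_lit 6693269995019) (nat_lit 76) (nat_lit 1925901810333) (nat_lit 76) (nat_lit 1914219460157) (nat_lit 1) (nat_lit 4) (nat_lit 2) (nat_lit 5) (nat_lit 2) (nat_lit 4) (nat_lit 529) (nat_lit 407) (nat_lit 264)) (XT.nd (nat_lit 78) (nat_lit 0) (nat_lit 0) (XT.lf (nat_lit 0) (nat_lit 7374240091717) (nat_lit 76) (nat_lit 2003936061086) (nat_lit 76) (nat_lit 1992253696534) (nat_lit 1) (nat_lit 4) (nat_lit 2) (nat_lit 5) (nat_lit 2) (nat_lit 4) (nat_lit 530) (nat_lit 407) (nat_lit 263)) (XT.lf (nat_lit 0) (nat_lit 8109687451338) (nat_lit 76) (nat_lit 2088213229872) (nat_lit 76) (nat_lit 2076530852010) (nat_lit 1) (nat_lit 4) (nat_lit 2) (nat_lit 5) (nat_lit 2) (nat_lit 4) (nat_lit 531) (nat_lit 407) (nat_lit 262)))))) (XT.nd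 (nat_lit 53040) (nat_lit 0) (nat_lit 5396) (XT.nd (nat_lit 52806) (nat_lit 0) (nat_lit 6612) (XT.nd (nat_lit 78) (nat_lit 0) (nat_lit 0) (XT.lf (nat_lit 0) (nat_lit 8903970280457) (nat_lit 76) (nat_lit 2179232736950) (nat_lit 76) (nat_lit 2167550346764) (nat_lit 1) (nat_lit 4) (nat_lit 2) (nat_lit 5) (nat_lit 2) (nat_lit 4) (nat_lit 532) (nat_lit 407) (nat_lit 261)) (XT.nd (nat_lit 78) (nat_lit 0) (nat_lit 0) (XT.lf (nat_lit 0) (nat_lit 9761795440285) (nat_lit 76) (nat_lit 2277533957178) (nat_lit 76) (nat_lit 2265851555580) (nat_lit 1) (nat_lit 4) (nat_lit 2) (nat_lit 5) (nat_lit 2) (nat_lit 4) (nat_lit 533) (nat_lit 407) (nat_lit 260)) (XT.lf (nat_lit 0) (nat_lit 10688246339175) (nat_lit 76) (nat_lit 2383699416304) (nat_lit 76) (nat_lit 2372017004141) (nat_lit 1) (nat_lit 4) (nat_lit 2) (nat_lit 5) (nat_lit 2) (nat_lit 4) (nat_lit 534) (nat_lit 407) (nat_lit 259)))) (XT.nd (nat_lit 78)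 (nat_lit 0) (nat_lit 0) (XT.lf (nat_lit 0) (nat_lit 1468160701) (nat_lit 0) (nat_lit 1468160701) (nat_lit 380) (nat_lit 1203831909) (nat_lit 88) (nat_lit 5) (nat_lit 88) (nat_lit 3) (nat_lit 93) (nat_lit 3) (nat_lit 408) (nat_lit 408) (nat_lit 384)) (XT.nd (nat_lit 78) (nat_lit 0) (nat_lit 0) (XT.lf (nat_lit 0) (nat_lit 7175188933) (nat_lit 380) (nat_lit 1210948765) (nat_lit 456) (nat_lit 139654608) (nat_lit 88) (nat_lit 5) (nat_lit 93) (nat_lit 3) (nat_lit 94) (nat_lit 5) (nat_lit 409) (nat_lit 408) (nat_lit 383)) (XT.lf (nat_lit 76) (nat_lit 3277349283) (nat_lit 0) (nat_lit 5354496419) (nat_lit 456) (nat_lit 155110135) (nat_lit 89) (nat_lit 5) (nat_lit 88) (nat_lit 5) (nat_lit 94) (nat_lit 5) (nat_lit 410) (nat_lit 408) (nat_lit 382))))) (XT.nd (nat_lit 234) (nat_lit 760) (nat_lit 0) (XT.nd (nat_lit 78) (nat_lit 0) (nat_lit 76) (XT.lf (nat_lit 0) (nat_lit 1011699386) (nat_lit 456) (nat_lit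 967799194) (nat_lit 532) (nat_lit 7092754787) (nat_lit 82) (nat_lit 5) (nat_lit 88) (nat_lit 5) (nat_lit 89) (nat_lit 5) (nat_lit 411) (nat_lit 408) (nat_lit 381)) (XT.nd (nat_lit 78) (nat_lit 0) (nat_lit 0) (XT.lf (nat_lit 0) (nat_lit 2311013406) (nat_lit 456) (nat_lit 5347924569) (nat_lit 532) (nat_lit 1717336286) (nat_lit 83) (nat_lit 5) (nat_lit 89) (nat_lit 5) (nat_lit 90) (nat_lit 5) (nat_lit 412) (nat_lit 408) (nat_lit 380)) (XT.lf (nat_lit 0) (nat_lit 3705073338) (nat_lit 456) (nat_lit 343463253) (nat_lit 532) (nat_lit 5656839363) (nat_lit 83) (nat_lit 5) (nat_lit 89) (nat_lit 5) (nat_lit 90) (nat_lit 5) (nat_lit 413) (nat_lit 408) (nat_lit 379)))) (XT.nd (nat_lit 156) (nat_lit 456) (nat_lit 0) (XT.nd (nat_lit 78) (nat_lit 456) (nat_lit 0) (XT.lf (nat_lit 0) (nat_lit 5256069176) (nat_lit 456) (nat_lit 4795828980) (nat_lit 76) (nat_lit 5296211) (nat_lit 84) (nat_lit 5) (nat_lit 90)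 (nat_lit 5) (nat_lit 85) (nat_lit 5) (nat_lit 414) (nat_lit 408) (nat_lit 378)) (XT.lf (nat_lit 0) (nat_lit 762472129) (nat_lit 456) (nat_lit 6225448012) (nat_lit 532) (nat_lit 3444715957) (nat_lit 78) (nat_lit 5) (nat_lit 84) (nat_lit 5) (nat_lit 85) (nat_lit 5) (nat_lit 415) (nat_lit 408) (nat_lit 377))) (XT.nd (nat_lit 78) (nat_lit 456) (nat_lit 0) (XT.lf (nat_lit 0) (nat_lit 6971925772) (nat_lit 456) (nat_lit 1945228652) (nat_lit 532) (nat_lit 1916270333) (nat_lit 78) (nat_lit 5) (nat_lit 84) (nat_lit 5) (nat_lit 85) (nat_lit 5) (nat_lit 416) (nat_lit 408) (nat_lit 376)) (XT.lf (nat_lit 0) (nat_lit 2400707337) (nat_lit 456) (nat_lit 8655347024) (nat_lit 532) (nat_lit 205813040) (nat_lit 72) (nat_lit 5) (nat_lit 78) (nat_lit 5) (nat_lit 79) (nat_lit 5) (nat_lit 417) (nat_lit 408) (nat_lit 375))))))) (XT.nd (nat_lit 936) (nat_lit 1064) (nat_lit 0) (XT.nd (nat_lit 468) (nat_lit 760) (nat_lit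 0) (XT.nd (nat_lit 234) (nat_lit 456) (nat_lit 0) (XT.nd (nat_lit 78) (nat_lit 228) (nat_lit 0) (XT.lf (nat_lit 0) (nat_lit 1653132301) (nat_lit 532) (nat_lit 2493989932) (nat_lit 76) (nat_lit 7566818427) (nat_lit 71) (nat_lit 5) (nat_lit 78) (nat_lit 5) (nat_lit 72) (nat_lit 5) (nat_lit 418) (nat_lit 408) (nat_lit 374)) (XT.nd (nat_lit 78) (nat_lit 0) (nat_lit 0) (XT.lf (nat_lit 0) (nat_lit 3718874637) (nat_lit 304) (nat_lit 7677267124) (nat_lit 76) (nat_lit 800087837) (nat_lit 68) (nat_lit 5) (nat_lit 72) (nat_lit 5) (nat_lit 69) (nat_lit 5) (nat_lit 419) (nat_lit 408) (nat_lit 373)) (XT.lf (nat_lit 0) (nat_lit 6070156664) (nat_lit 304) (nat_lit 652745565) (nat_lit 76) (nat_lit 5984589526) (nat_lit 68) (nat_lit 5) (nat_lit 72) (nat_lit 5) (nat_lit 69) (nat_lit 5) (nat_lit 420) (nat_lit 408) (nat_lit 372)))) (XT.nd (nat_lit 78) (nat_lit 228) (nat_lit 0) (XT.lf (nat_lit 0) (nat_lit 7234140013)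 (nat_lit 228) (nat_lit 1496235785) (nat_lit 304) (nat_lit 4519623925) (nat_lit 65) (nat_lit 5) (nat_lit 68) (nat_lit 5) (nat_lit 69) (nat_lit 5) (nat_lit 421) (nat_lit 408) (nat_lit 371)) (XT.nd (nat_lit 78) (nat_lit 76) (nat_lit 0) (XT.lf (nat_lit 0) (nat_lit 1884910205) (nat_lit 152) (nat_lit 9831044232) (nat_lit 228) (nat_lit 2110961275) (nat_lit 63) (nat_lit 5) (nat_lit 65) (nat_lit 5) (nat_lit 66) (nat_lit 5) (nat_lit 422) (nat_lit 408) (nat_lit 370)) (XT.lf (nat_lit 0) (nat_lit 623610710) (nat_lit 228) (nat_lit 3796670101) (nat_lit 76) (nat_lit 10016150031) (nat_lit 62) (nat_lit 5) (nat_lit 65) (nat_lit 5) (nat_lit 63) (nat_lit 5) (nat_lit 423) (nat_lit 408) (nat_lit 369))))) (XT.nd (nat_lit 234) (nat_lit 380) (nat_lit 0) (XT.nd (nat_lit 78) (nat_lit 152) (nat_lit 0) (XT.lf (nat_lit 0) (nat_lit 3578943001) (nat_lit 304) (nat_lit 9979926931) (nat_lit 76) (nat_lit 1522176062) (nat_lit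 59) (nat_lit 5) (nat_lit 63) (nat_lit 5) (nat_lit 60) (nat_lit 5) (nat_lit 424) (nat_lit 408) (nat_lit 368)) (XT.nd (nat_lit 78) (nat_lit 152) (nat_lit 0) (XT.lf (nat_lit 0) (nat_lit 6947511058) (nat_lit 304) (nat_lit 1021446075) (nat_lit 76) (nat_lit 7794136385) (nat_lit 59) (nat_lit 5) (nat_lit 63) (nat_lit 5) (nat_lit 60) (nat_lit 5) (nat_lit 425) (nat_lit 408) (nat_lit 367)) (XT.lf (nat_lit 0) (nat_lit 9049300644) (nat_lit 152) (nat_lit 1712689351) (nat_lit 228) (nat_lit 5723608125) (nat_lit 57) (nat_lit 5) (nat_lit 59) (nat_lit 5) (nat_lit 60) (nat_lit 5) (nat_lit 426) (nat_lit 408) (nat_lit 366)))) (XT.nd (nat_lit 78) (nat_lit 228) (nat_lit 0) (XT.lf (nat_lit 0) (nat_lit 2673399640) (nat_lit 152) (nat_lit 12382602020) (nat_lit 228) (nat_lit 2195958247) (nat_lit 55) (nat_lit 5) (nat_lit 57) (nat_lit 5) (nat_lit 58) (nat_lit 5) (nat_lit 427) (nat_lit 408) (nat_lit 365)) (XT.nd (nat_lit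 78) (nat_lit 152) (nat_lit 0) (XT.lf (nat_lit 0) (nat_lit 1746957034) (nat_lit 228) (nat_lit 4196188412) (nat_lit 76) (nat_lit 12116282848) (nat_lit 54) (nat_lit 5) (nat_lit 57) (nat_lit 5) (nat_lit 55) (nat_lit 5) (nat_lit 428) (nat_lit 408) (nat_lit 364)) (XT.lf (nat_lit 0) (nat_lit 6054998193) (nat_lit 228) (nat_lit 11677078366) (nat_lit 76) (nat_lit 1181393420) (nat_lit 52) (nat_lit 5) (nat_lit 55) (nat_lit 5) (nat_lit 53) (nat_lit 5) (nat_lit 429) (nat_lit 408) (nat_lit 363)))))) (XT.nd (nat_lit 468) (nat_lit 532) (nat_lit 0) (XT.nd (nat_lit 234) (nat_lit 228) (nat_lit 0) (XT.nd (nat_lit 78) (nat_lit 304) (nat_lit 0) (XT.lf (nat_lit 0) (nat_lit 10944346289) (nat_lit 228) (nat_lit 217416170) (nat_lit 76) (nat_lit 8655144426) (nat_lit 52) (nat_lit 5) (nat_lit 55) (nat_lit 5) (nat_lit 53) (nat_lit 5) (nat_lit 430) (nat_lit 408) (nat_lit 362)) (XT.nd (nat_lit 78) (nat_lit 152) (nat_lit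 0) (XT.lf (nat_lit 0) (nat_lit 12745068563) (nat_lit 152) (nat_lit 3753501178) (nat_lit 228) (nat_lit 4272155406) (nat_lit 50) (nat_lit 5) (nat_lit 52) (nat_lit 5) (nat_lit 53) (nat_lit 5) (nat_lit 431) (nat_lit 408) (nat_lit 361)) (XT.lf (nat_lit 0) (nat_lit 864384487) (nat_lit 152) (nat_lit 16752099691) (nat_lit 76) (nat_lit 4166794343) (nat_lit 48) (nat_lit 5) (nat_lit 50) (nat_lit 5) (nat_lit 49) (nat_lit 5) (nat_lit 432) (nat_lit 408) (nat_lit 360)))) (XT.nd (nat_lit 78) (nat_lit 228) (nat_lit 0) (XT.lf (nat_lit 0) (nat_lit 6471991117) (nat_lit 152) (nat_lit 3537088287) (nat_lit 76) (nat_lit 12835607140) (nat_lit 48) (nat_lit 5) (nat_lit 50) (nat_lit 5) (nat_lit 49) (nat_lit 5) (nat_lit 433) (nat_lit 408) (nat_lit 359)) (XT.nd (nat_lit 78) (nat_lit 76) (nat_lit 0) (XT.lf (nat_lit 0) (nat_lit 11249113176) (nat_lit 152) (nat_lit 1520303120) (nat_lit 228) (nat_lit 11202297498) (nat_lit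 46) (nat_lit 5) (nat_lit 48) (nat_lit 5) (nat_lit 49) (nat_lit 5) (nat_lit 434) (nat_lit 408) (nat_lit 358)) (XT.lf (nat_lit 0) (nat_lit 2107902576) (nat_lit 76) (nat_lit 17767811619) (nat_lit 152) (nat_lit 5288785866) (nat_lit 45) (nat_lit 5) (nat_lit 46) (nat_lit 5) (nat_lit 47) (nat_lit 4) (nat_lit 435) (nat_lit 408) (nat_lit 357))))) (XT.nd (nat_lit 234) (nat_lit 304) (nat_lit 0) (XT.nd (nat_lit 78) (nat_lit 152) (nat_lit 0) (XT.lf (nat_lit 0) (nat_lit 1410759306) (nat_lit 152) (nat_lit 7700979336) (nat_lit 76) (nat_lit 17309431547) (nat_lit 44) (nat_lit 5) (nat_lit 46) (nat_lit 5) (nat_lit 45) (nat_lit 5) (nat_lit 436) (nat_lit 408) (nat_lit 356)) (XT.nd (nat_lit 78) (nat_lit 0) (nat_lit 0) (XT.lf (nat_lit 0) (nat_lit 8568899844) (nat_lit 228) (nat_lit 18608452916) (nat_lit 76) (nat_lit 573364886) (nat_lit 42) (nat_lit 5) (nat_lit 45) (nat_lit 5) (nat_lit 43) (nat_lit 4) (nat_lit 437)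 (nat_lit 408) (nat_lit 355)) (XT.lf (nat_lit 0) (nat_lit 16726404732) (nat_lit 228) (nat_lit 1687305077) (nat_lit 76) (nat_lit 10738784347) (nat_lit 42) (nat_lit 5) (nat_lit 45) (nat_lit 5) (nat_lit 43) (nat_lit 4) (nat_lit 438) (nat_lit 408) (nat_lit 354)))) (XT.nd (nat_lit 156) (nat_lit 76) (nat_lit 0) (XT.nd (nat_lit 78) (nat_lit 152) (nat_lit 0) (XT.lf (nat_lit 0) (nat_lit 17415864141) (nat_lit 76) (nat_lit 8515439577) (nat_lit 152) (nat_lit 4703527705) (nat_lit 41) (nat_lit 5) (nat_lit 42) (nat_lit 5) (nat_lit 43) (nat_lit 4) (nat_lit 439) (nat_lit 408) (nat_lit 353)) (XT.lf (nat_lit 0) (nat_lit 3683811256) (nat_lit 152) (nat_lit 26190525873) (nat_lit 76) (nat_lit 2336110950) (nat_lit 39) (nat_lit 5) (nat_lit 41) (nat_lit 5) (nat_lit 40) (nat_lit 4) (nat_lit 440) (nat_lit 408) (nat_lit 352))) (XT.nd (nat_lit 78) (nat_lit 76) (nat_lit 0) (XT.lf (nat_lit 0) (nat_lit 13056441855) (nat_lit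 152) (nat_lit 6729605424) (nat_lit 76) (nat_lit 14070821543) (nat_lit 39) (nat_lit 5) (nat_lit 41) (nat_lit 5) (nat_lit 40) (nat_lit 4) (nat_lit 441) (nat_lit 408) (nat_lit 351)) (XT.lf (nat_lit 0) (nat_lit 14998311809) (nat_lit 76) (nat_lit 8519446735) (nat_lit 152) (nat_lit 12090136199) (nat_lit 38) (nat_lit 5) (nat_lit 39) (nat_lit 5) (nat_lit 40) (nat_lit 4) (nat_lit 442) (nat_lit 408) (nat_lit 350))))))))
noncomputable def xc114 : XT := (XT.nd (nat_lit 1950) (nat_lit 912) (nat_lit 0) (XT.nd (nat_lit 936) (nat_lit 760) (nat_lit 0) (XT.nd (nat_lit 468) (nat_lit 380) (nat_lit 0) (XT.nd (nat_lit 234) (nat_lit 228) (nat_lit 0) (XT.nd (nat_lit 78) (nat_lit 152) (nat_lit 0) (XT.lf (nat_lit 0) (nat_lit 1294742939) (nat_lit 76) (nat_lit 33807310449) (nat_lit 76) (nat_lit 2374064975) (nat_lit 37) (nat_lit 4) (nat_lit 38) (nat_lit 5) (nat_lit 38) (nat_lit 4) (nat_lit 443) (nat_lit 408) (nat_lit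 349)) (XT.nd (nat_lit 78) (nat_lit 76) (nat_lit 0) (XT.lf (nat_lit 0) (nat_lit 8491072142) (nat_lit 152) (nat_lit 13796917566) (nat_lit 76) (nat_lit 17127954672) (nat_lit 36) (nat_lit 5) (nat_lit 38) (nat_lit 5) (nat_lit 37) (nat_lit 4) (nat_lit 444) (nat_lit 408) (nat_lit 348)) (XT.lf (nat_lit 0) (nat_lit 10820405930) (nat_lit 76) (nat_lit 9517092283) (nat_lit 152) (nat_lit 21149299164) (nat_lit 35) (nat_lit 5) (nat_lit 36) (nat_lit 5) (nat_lit 37) (nat_lit 4) (nat_lit 445) (nat_lit 408) (nat_lit 347)))) (XT.nd (nat_lit 78) (nat_lit 228) (nat_lit 0) (XT.lf (nat_lit 0) (nat_lit 33601781382) (nat_lit 152) (nat_lit 5651693070) (nat_lit 0) (nat_lit 4432233788) (nat_lit 35) (nat_lit 5) (nat_lit 37) (nat_lit 4) (nat_lit 35) (nat_lit 4) (nat_lit 446) (nat_lit 408) (nat_lit 346)) (XT.nd (nat_lit 78) (nat_lit 76) (nat_lit 0) (XT.lf (nat_lit 0) (nat_lit 2555773630) (nat_lit 152) (nat_lit 23871989271)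 (nat_lit 76) (nat_lit 19566580334) (nat_lit 33) (nat_lit 5) (nat_lit 35) (nat_lit 5) (nat_lit 34) (nat_lit 4) (nat_lit 447) (nat_lit 408) (nat_lit 345)) (XT.lf (nat_lit 0) (nat_lit 3856445108) (nat_lit 76) (nat_lit 12038520099) (nat_lit 152) (nat_lit 32553102335) (nat_lit 32) (nat_lit 5) (nat_lit 33) (nat_lit 5) (nat_lit 34) (nat_lit 4) (nat_lit 448) (nat_lit 408) (nat_lit 344))))) (XT.nd (nat_lit 234) (nat_lit 228) (nat_lit 0) (XT.nd (nat_lit 78) (nat_lit 152) (nat_lit 0) (XT.lf (nat_lit 0) (nat_lit 31037119878) (nat_lit 152) (nat_lit 16021374542) (nat_lit 0) (nat_lit 3980729937) (nat_lit 32) (nat_lit 5) (nat_lit 34) (nat_lit 4) (nat_lit 32) (nat_lit 4) (nat_lit 449) (nat_lit 408) (nat_lit 343)) (XT.nd (nat_lit 78) (nat_lit 76) (nat_lit 0) (XT.lf (nat_lit 0) (nat_lit 15252282330) (nat_lit 76) (nat_lit 32801160160) (nat_lit 76) (nat_lit 5731208308) (nat_lit 31) (nat_lit 4) (nat_lit 32)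 (nat_lit 5) (nat_lit 32) (nat_lit 4) (nat_lit 450) (nat_lit 408) (nat_lit 342)) (XT.lf (nat_lit 0) (nat_lit 9629832102) (nat_lit 152) (nat_lit 7052458402) (nat_lit 76) (nat_lit 40014172650) (nat_lit 30) (nat_lit 5) (nat_lit 32) (nat_lit 5) (nat_lit 31) (nat_lit 4) (nat_lit 451) (nat_lit 408) (nat_lit 341)))) (XT.nd (nat_lit 78) (nat_lit 152) (nat_lit 0) (XT.lf (nat_lit 0) (nat_lit 26610915530) (nat_lit 152) (nat_lit 31638580767) (nat_lit 0) (nat_lit 1523752263) (nat_lit 29) (nat_lit 5) (nat_lit 31) (nat_lit 4) (nat_lit 29) (nat_lit 4) (nat_lit 452) (nat_lit 408) (nat_lit 340)) (XT.nd (nat_lit 78) (nat_lit 76) (nat_lit 0) (XT.lf (nat_lit 0) (nat_lit 3145913250) (nat_lit 76) (nat_lit 42496039206) (nat_lit 76) (nat_lit 17398907530) (nat_lit 28) (nat_lit 4) (nat_lit 29) (nat_lit 5) (nat_lit 29) (nat_lit 4) (nat_lit 453) (nat_lit 408) (nat_lit 339)) (XT.lf (nat_lit 0) (nat_lit 516550740) (nat_lit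 152) (nat_lit 24031936143) (nat_lit 76) (nat_lit 41952335915) (nat_lit 27) (nat_lit 5) (nat_lit 29) (nat_lit 5) (nat_lit 28) (nat_lit 4) (nat_lit 454) (nat_lit 408) (nat_lit 338)))))) (XT.nd (nat_lit 468) (nat_lit 380) (nat_lit 0) (XT.nd (nat_lit 234) (nat_lit 228) (nat_lit 0) (XT.nd (nat_lit 78) (nat_lit 76) (nat_lit 0) (XT.lf (nat_lit 0) (nat_lit 14968970166) (nat_lit 76) (nat_lit 4302125100) (nat_lit 152) (nat_lit 50902666819) (nat_lit 26) (nat_lit 5) (nat_lit 27) (nat_lit 5) (nat_lit 28) (nat_lit 4) (nat_lit 455) (nat_lit 408) (nat_lit 337)) (XT.nd (nat_lit 78) (nat_lit 76) (nat_lit 0) (XT.lf (nat_lit 0) (nat_lit 40608463591) (nat_lit 152) (nat_lit 16098884416) (nat_lit 0) (nat_lit 17346592080) (nat_lit 26) (nat_lit 5) (nat_lit 28) (nat_lit 4) (nat_lit 26) (nat_lit 4) (nat_lit 456) (nat_lit 408) (nat_lit 336)) (XT.lf (nat_lit 0) (nat_lit 27366728018) (nat_lit 76) (nat_lit 37042955764)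 (nat_lit 76) (nat_lit 13774299920) (nat_lit 25) (nat_lit 4) (nat_lit 26) (nat_lit 5) (nat_lit 26) (nat_lit 4) (nat_lit 457) (nat_lit 408) (nat_lit 335)))) (XT.nd (nat_lit 78) (nat_lit 152) (nat_lit 0) (XT.lf (nat_lit 0) (nat_lit 7535442890) (nat_lit 152) (nat_lit 7601216420) (nat_lit 76) (nat_lit 67458311990) (nat_lit 24) (nat_lit 5) (nat_lit 26) (nat_lit 5) (nat_lit 25) (nat_lit 4) (nat_lit 458) (nat_lit 408) (nat_lit 334)) (XT.nd (nat_lit 78) (nat_lit 76) (nat_lit 0) (XT.lf (nat_lit 0) (nat_lit 31012636406) (nat_lit 152) (nat_lit 46764649958) (nat_lit 0) (nat_lit 9456382607) (nat_lit 23) (nat_lit 5) (nat_lit 25) (nat_lit 4) (nat_lit 23) (nat_lit 4) (nat_lit 459) (nat_lit 408) (nat_lit 333)) (XT.lf (nat_lit 0) (nat_lit 176430850) (nat_lit 76) (nat_lit 56790191502) (nat_lit 76) (nat_lit 35228951017) (nat_lit 22) (nat_lit 4) (nat_lit 23) (nat_lit 5) (nat_lit 23) (nat_lit 4) (nat_lit 460)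 (nat_lit 408) (nat_lit 332))))) (XT.nd (nat_lit 234) (nat_lit 228) (nat_lit 0) (XT.nd (nat_lit 78) (nat_lit 152) (nat_lit 0) (XT.lf (nat_lit 0) (nat_lit 53508794952) (nat_lit 76) (nat_lit 32755069124) (nat_lit 76) (nat_lit 11189211337) (nat_lit 22) (nat_lit 4) (nat_lit 23) (nat_lit 5) (nat_lit 23) (nat_lit 4) (nat_lit 461) (nat_lit 408) (nat_lit 331)) (XT.nd (nat_lit 78) (nat_lit 0) (nat_lit 0) (XT.lf (nat_lit 0) (nat_lit 7999014784) (nat_lit 76) (nat_lit 6216921682) (nat_lit 152) (nat_lit 88872315154) (nat_lit 20) (nat_lit 5) (nat_lit 21) (nat_lit 5) (nat_lit 22) (nat_lit 4) (nat_lit 462) (nat_lit 408) (nat_lit 330)) (XT.lf (nat_lit 0) (nat_lit 42810422230) (nat_lit 152) (nat_lit 43365243414) (nat_lit 0) (nat_lit 22834411434) (nat_lit 20) (nat_lit 5) (nat_lit 22) (nat_lit 4) (nat_lit 20) (nat_lit 4) (nat_lit 463) (nat_lit 408) (nat_lit 329)))) (XT.nd (nat_lit 156) (nat_lit 152) (nat_lit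 0) (XT.nd (nat_lit 78) (nat_lit 0) (nat_lit 0) (XT.lf (nat_lit 0) (nat_lit 12962883974) (nat_lit 76) (nat_lit 61192565413) (nat_lit 76) (nat_lit 41213160762) (nat_lit 19) (nat_lit 4) (nat_lit 20) (nat_lit 5) (nat_lit 20) (nat_lit 4) (nat_lit 464) (nat_lit 408) (nat_lit 328)) (XT.lf (nat_lit 0) (nat_lit 76243244038) (nat_lit 76) (nat_lit 32940536481) (nat_lit 76) (nat_lit 12957989372) (nat_lit 19) (nat_lit 4) (nat_lit 20) (nat_lit 5) (nat_lit 20) (nat_lit 4) (nat_lit 465) (nat_lit 408) (nat_lit 327))) (XT.nd (nat_lit 78) (nat_lit 0) (nat_lit 0) (XT.lf (nat_lit 0) (nat_lit 15461183189) (nat_lit 76) (nat_lit 1580470648) (nat_lit 152) (nat_lit 112352359061) (nat_lit 17) (nat_lit 5) (nat_lit 18) (nat_lit 5) (nat_lit 19) (nat_lit 4) (nat_lit 466) (nat_lit 408) (nat_lit 326)) (XT.lf (nat_lit 0) (nat_lit 50795821132) (nat_lit 152) (nat_lit 53951045042) (nat_lit 0) (nat_lit 32288273962) (nat_lit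 17) (nat_lit 5) (nat_lit 19) (nat_lit 4) (nat_lit 17) (nat_lit 4) (nat_lit 467) (nat_lit 408) (nat_lit 325))))))) (XT.nd (nat_lit 936) (nat_lit 380) (nat_lit 0) (XT.nd (nat_lit 468) (nat_lit 228) (nat_lit 0) (XT.nd (nat_lit 234) (nat_lit 76) (nat_lit 0) (XT.nd (nat_lit 78) (nat_lit 152) (nat_lit 0) (XT.lf (nat_lit 0) (nat_lit 11337547687) (nat_lit 76) (nat_lit 76217735043) (nat_lit 76) (nat_lit 57707878072) (nat_lit 16) (nat_lit 4) (nat_lit 17) (nat_lit 5) (nat_lit 17) (nat_lit 4) (nat_lit 468) (nat_lit 408) (nat_lit 324)) (XT.nd (nat_lit 78) (nat_lit 152) (nat_lit 0) (XT.lf (nat_lit 0) (nat_lit 84900089477) (nat_lit 76) (nat_lit 43822001143) (nat_lit 76) (nat_lit 25310005468) (nat_lit 16) (nat_lit 4) (nat_lit 17) (nat_lit 5) (nat_lit 17) (nat_lit 4) (nat_lit 469) (nat_lit 408) (nat_lit 323)) (XT.lf (nat_lit 0) (nat_lit 627142440) (nat_lit 76) (nat_lit 8575318327) (nat_lit 152) (nat_lit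 154280903254) (nat_lit 14) (nat_lit 5) (nat_lit 15) (nat_lit 5) (nat_lit 16) (nat_lit 4) (nat_lit 470) (nat_lit 408) (nat_lit 322)))) (XT.nd (nat_lit 78) (nat_lit 76) (nat_lit 0) (XT.lf (nat_lit 0) (nat_lit 47748989646) (nat_lit 152) (nat_lit 95073193029) (nat_lit 0) (nat_lit 30604721543) (nat_lit 14) (nat_lit 5) (nat_lit 16) (nat_lit 4) (nat_lit 14) (nat_lit 4) (nat_lit 471) (nat_lit 408) (nat_lit 321)) (XT.nd (nat_lit 78) (nat_lit 76) (nat_lit 0) (XT.lf (nat_lit 0) (nat_lit 89594489283) (nat_lit 152) (nat_lit 22105569387) (nat_lit 0) (nat_lit 72448649169) (nat_lit 14) (nat_lit 5) (nat_lit 16) (nat_lit 4) (nat_lit 14) (nat_lit 4) (nat_lit 472) (nat_lit 408) (nat_lit 320)) (XT.lf (nat_lit 0) (nat_lit 59670233431) (nat_lit 76) (nat_lit 76545533516) (nat_lit 76) (nat_lit 59398237836) (nat_lit 13) (nat_lit 4) (nat_lit 14) (nat_lit 5) (nat_lit 14) (nat_lit 4) (nat_lit 473) (nat_lit 408) (nat_lit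 319))))) (XT.nd (nat_lit 234) (nat_lit 76) (nat_lit 0) (XT.nd (nat_lit 78) (nat_lit 152) (nat_lit 0) (XT.lf (nat_lit 0) (nat_lit 149231445260) (nat_lit 76) (nat_lit 37932955696) (nat_lit 76) (nat_lit 20784312269) (nat_lit 13) (nat_lit 4) (nat_lit 14) (nat_lit 5) (nat_lit 14) (nat_lit 4) (nat_lit 474) (nat_lit 408) (nat_lit 318)) (XT.nd (nat_lit 78) (nat_lit 0) (nat_lit 0) (XT.lf (nat_lit 0) (nat_lit 20597237149) (nat_lit 152) (nat_lit 195857009511) (nat_lit 0) (nat_lit 4717708130) (nat_lit 11) (nat_lit 5) (nat_lit 13) (nat_lit 4) (nat_lit 11) (nat_lit 4) (nat_lit 475) (nat_lit 408) (nat_lit 317)) (XT.lf (nat_lit 0) (nat_lit 66792419105) (nat_lit 152) (nat_lit 117495548146) (nat_lit 0) (nat_lit 50911820202) (nat_lit 11) (nat_lit 5) (nat_lit 13) (nat_lit 4) (nat_lit 11) (nat_lit 4) (nat_lit 476) (nat_lit 408) (nat_lit 316)))) (XT.nd (nat_lit 78) (nat_lit 76) (nat_lit 0) (XT.lf (nat_lit 0)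 (nat_lit 116677285962) (nat_lit 152) (nat_lit 32877338767) (nat_lit 0) (nat_lit 100795696425) (nat_lit 11) (nat_lit 5) (nat_lit 13) (nat_lit 4) (nat_lit 11) (nat_lit 4) (nat_lit 477) (nat_lit 408) (nat_lit 315)) (XT.nd (nat_lit 78) (nat_lit 0) (nat_lit 0) (XT.lf (nat_lit 0) (nat_lit 61579516688) (nat_lit 76) (nat_lit 110448923914) (nat_lit 76) (nat_lit 94566417123) (nat_lit 10) (nat_lit 4) (nat_lit 11) (nat_lit 5) (nat_lit 11) (nat_lit 4) (nat_lit 478) (nat_lit 408) (nat_lit 314)) (XT.lf (nat_lit 0) (nat_lit 165451701724) (nat_lit 76) (nat_lit 67249562748) (nat_lit 76) (nat_lit 51366206648) (nat_lit 10) (nat_lit 4) (nat_lit 11) (nat_lit 5) (nat_lit 11) (nat_lit 4) (nat_lit 479) (nat_lit 408) (nat_lit 313)))))) (XT.nd (nat_lit 468) (nat_lit 152) (nat_lit 0) (XT.nd (nat_lit 234) (nat_lit 76) (nat_lit 0) (XT.nd (nat_lit 78) (nat_lit 152) (nat_lit 0) (XT.lf (nat_lit 0) (nat_lit 277623492820)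 (nat_lit 76) (nat_lit 20599469721) (nat_lit 76) (nat_lit 4715327224) (nat_lit 10) (nat_lit 4) (nat_lit 11) (nat_lit 5) (nat_lit 11) (nat_lit 4) (nat_lit 480) (nat_lit 408) (nat_lit 312)) (XT.nd (nat_lit 78) (nat_lit 0) (nat_lit 0) (XT.lf (nat_lit 0) (nat_lit 46054088638) (nat_lit 152) (nat_lit 245617269984) (nat_lit 0) (nat_lit 31345875080) (nat_lit 8) (nat_lit 5) (nat_lit 10) (nat_lit 4) (nat_lit 8) (nat_lit 4) (nat_lit 481) (nat_lit 408) (nat_lit 311)) (XT.lf (nat_lit 0) (nat_lit 101870789722) (nat_lit 152) (nat_lit 155560714917) (nat_lit 0) (nat_lit 87161951897) (nat_lit 8) (nat_lit 5) (nat_lit 10) (nat_lit 4) (nat_lit 8) (nat_lit 4) (nat_lit 482) (nat_lit 408) (nat_lit 310)))) (XT.nd (nat_lit 78) (nat_lit 76) (nat_lit 0) (XT.lf (nat_lit 0) (nat_lit 162148476495) (nat_lit 152) (nat_lit 58308588123) (nat_lit 0) (nat_lit 147439060644) (nat_lit 8) (nat_lit 5) (nat_lit 10) (nat_lit 4) (nat_lit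 8) (nat_lit 4) (nat_lit 483) (nat_lit 408) (nat_lit 309)) (XT.nd (nat_lit 78) (nat_lit 0) (nat_lit 0) (XT.lf (nat_lit 0) (nat_lit 49175370492) (nat_lit 76) (nat_lit 179251648413) (nat_lit 76) (nat_lit 164541697353) (nat_lit 7) (nat_lit 4) (nat_lit 8) (nat_lit 5) (nat_lit 8) (nat_lit 4) (nat_lit 484) (nat_lit 408) (nat_lit 308)) (XT.lf (nat_lit 0) (nat_lit 168566027214) (nat_lit 76) (nat_lit 133032153542) (nat_lit 76) (nat_lit 118321706919) (nat_lit 7) (nat_lit 4) (nat_lit 8) (nat_lit 5) (nat_lit 8) (nat_lit 4) (nat_lit 485) (nat_lit 408) (nat_lit 307))))) (XT.nd (nat_lit 234) (nat_lit 0) (nat_lit 0) (XT.nd (nat_lit 78) (nat_lit 152) (nat_lit 0) (XT.lf (nat_lit 0) (nat_lit 297500455312) (nat_lit 76) (nat_lit 83118946835) (nat_lit 76) (nat_lit 68408041357) (nat_lit 7) (nat_lit 4) (nat_lit 8) (nat_lit 5) (nat_lit 8) (nat_lit 4) (nat_lit 486) (nat_lit 408) (nat_lit 306)) (XT.nd (nat_lit 78)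 (nat_lit 152) (nat_lit 0) (XT.lf (nat_lit 0) (nat_lit 436742710655) (nat_lit 76) (nat_lit 29216246326) (nat_lit 76) (nat_lit 14504915982) (nat_lit 7) (nat_lit 4) (nat_lit 8) (nat_lit 5) (nat_lit 8) (nat_lit 4) (nat_lit 487) (nat_lit 408) (nat_lit 305)) (XT.lf (nat_lit 0) (nat_lit 44106404353) (nat_lit 152) (nat_lit 439533673978) (nat_lit 0) (nat_lit 30484437929) (nat_lit 5) (nat_lit 5) (nat_lit 7) (nat_lit 4) (nat_lit 5) (nat_lit 4) (nat_lit 488) (nat_lit 408) (nat_lit 304)))) (XT.nd (nat_lit 156) (nat_lit 0) (nat_lit 0) (XT.nd (nat_lit 78) (nat_lit 0) (nat_lit 0) (XT.lf (nat_lit 0) (nat_lit 108605122456) (nat_lit 152) (nat_lit 346701358990) (nat_lit 0) (nat_lit 94982818759) (nat_lit 5) (nat_lit 5) (nat_lit 7) (nat_lit 4) (nat_lit 5) (nat_lit 4) (nat_lit 489) (nat_lit 408) (nat_lit 303)) (XT.lf (nat_lit 0) (nat_lit 178260781561) (nat_lit 152) (nat_lit 246448556262) (nat_lit 0) (nat_lit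 164638165575) (nat_lit 5) (nat_lit 5) (nat_lit 7) (nat_lit 4) (nat_lit 5) (nat_lit 4) (nat_lit 490) (nat_lit 408) (nat_lit 302))) (XT.nd (nat_lit 78) (nat_lit 0) (nat_lit 0) (XT.lf (nat_lit 0) (nat_lit 253486155945) (nat_lit 152) (nat_lit 138181175110) (nat_lit 0) (nat_lit 239863250802) (nat_lit 5) (nat_lit 5) (nat_lit 7) (nat_lit 4) (nat_lit 5) (nat_lit 4) (nat_lit 491) (nat_lit 408) (nat_lit 301)) (XT.lf (nat_lit 0) (nat_lit 334727025603) (nat_lit 152) (nat_lit 21257631055) (nat_lit 0) (nat_lit 321103852723) (nat_lit 5) (nat_lit 5) (nat_lit 7) (nat_lit 4) (nat_lit 5) (nat_lit 4) (nat_lit 492) (nat_lit 408) (nat_lit 300))))))))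
noncomputable def xc115 : XT := (XT.nd (nat_lit 1950) (nat_lit 0) (nat_lit 0) (XT.nd (nat_lit 936) (nat_lit 76) (nat_lit 0) (XT.nd (nat_lit 468) (nat_lit 152) (nat_lit 0) (XT.nd (nat_lit 234) (nat_lit 0) (nat_lit 0) (XT.nd (nat_lit 78) (nat_lit 0) (nat_lit 0) (XT.lf (nat_lit 0) (nat_lit 110544857653) (nat_lit 76) (nat_lit 314578566745) (nat_lit 76) (nat_lit 300955145960) (nat_lit 4) (nat_lit 4) (nat_lit 5) (nat_lit 5) (nat_lit 5) (nat_lit 4) (nat_lit 493) (nat_lit 408) (nat_lit 299)) (XT.nd (nat_lit 78) (nat_lit 0) (nat_lit 0) (XT.lf (nat_lit 0) (nat_lit 254095767954) (nat_lit 76) (nat_lit 269234701907) (nat_lit 76) (nat_lit 255611051580) (nat_lit 4) (nat_lit 4) (nat_lit 5) (nat_lit 5) (nat_lit 5) (nat_lit 4) (nat_lit 494) (nat_lit 408) (nat_lit 298)) (XT.lf (nat_lit 0) (nat_lit 409126382729) (nat_lit 76) (nat_lit 220265579067) (nat_lit 76) (nat_lit 206641716201) (nat_lit 4) (nat_lit 4)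 (nat_lit 5) (nat_lit 5) (nat_lit 5) (nat_lit 4) (nat_lit 495) (nat_lit 408) (nat_lit 297)))) (XT.nd (nat_lit 78) (nat_lit 0) (nat_lit 0) (XT.lf (nat_lit 0) (nat_lit 576555401917) (nat_lit 76) (nat_lit 167381010829) (nat_lit 76) (nat_lit 153756951168) (nat_lit 4) (nat_lit 4) (nat_lit 5) (nat_lit 5) (nat_lit 5) (nat_lit 4) (nat_lit 496) (nat_lit 408) (nat_lit 296)) (XT.nd (nat_lit 78) (nat_lit 0) (nat_lit 0) (XT.lf (nat_lit 0) (nat_lit 757374997483) (nat_lit 76) (nat_lit 110267607161) (nat_lit 76) (nat_lit 96643365282) (nat_lit 4) (nat_lit 4) (nat_lit 5) (nat_lit 5) (nat_lit 5) (nat_lit 4) (nat_lit 497) (nat_lit 408) (nat_lit 295)) (XT.lf (nat_lit 0) (nat_lit 952656692956) (nat_lit 76) (nat_lit 48586918261) (nat_lit 76) (nat_lit 34962507663) (nat_lit 4) (nat_lit 4) (nat_lit 5) (nat_lit 5) (nat_lit 5) (nat_lit 4) (nat_lit 498) (nat_lit 408) (nat_lit 294))))) (XT.nd (nat_lit 234) (nat_lit 0)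 (nat_lit 0) (XT.nd (nat_lit 78) (nat_lit 0) (nat_lit 0) (XT.lf (nat_lit 0) (nat_lit 31791689347) (nat_lit 152) (nat_lit 1062713158793) (nat_lit 0) (nat_lit 19176349698) (nat_lit 2) (nat_lit 5) (nat_lit 4) (nat_lit 4) (nat_lit 2) (nat_lit 4) (nat_lit 499) (nat_lit 408) (nat_lit 293)) (XT.nd (nat_lit 78) (nat_lit 0) (nat_lit 0) (XT.lf (nat_lit 0) (nat_lit 105601465217) (nat_lit 152) (nat_lit 998405846775) (nat_lit 0) (nat_lit 92985991632) (nat_lit 2) (nat_lit 5) (nat_lit 4) (nat_lit 4) (nat_lit 2) (nat_lit 4) (nat_lit 500) (nat_lit 408) (nat_lit 292)) (XT.lf (nat_lit 0) (nat_lit 185314545929) (nat_lit 152) (nat_lit 928957001798) (nat_lit 0) (nat_lit 172698948330) (nat_lit 2) (nat_lit 5) (nat_lit 4) (nat_lit 4) (nat_lit 2) (nat_lit 4) (nat_lit 501) (nat_lit 408) (nat_lit 291)))) (XT.nd (nat_lit 78) (nat_lit 0) (nat_lit 0) (XT.lf (nat_lit 0) (nat_lit 271403305296) (nat_lit 152) (nat_lit 853955075149)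 (nat_lit 0) (nat_lit 258787592869) (nat_lit 2) (nat_lit 5) (nat_lit 4) (nat_lit 4) (nat_lit 2) (nat_lit 4) (nat_lit 502) (nat_lit 408) (nat_lit 290)) (XT.nd (nat_lit 78) (nat_lit 0) (nat_lit 0) (XT.lf (nat_lit 0) (nat_lit 364377898929) (nat_lit 152) (nat_lit 772955610969) (nat_lit 0) (nat_lit 351762080180) (nat_lit 2) (nat_lit 5) (nat_lit 4) (nat_lit 4) (nat_lit 2) (nat_lit 4) (nat_lit 503) (nat_lit 408) (nat_lit 289)) (XT.lf (nat_lit 0) (nat_lit 464789287383) (nat_lit 152) (nat_lit 685478612431) (nat_lit 0) (nat_lit 452173370187) (nat_lit 2) (nat_lit 5) (nat_lit 4) (nat_lit 4) (nat_lit 2) (nat_lit 4) (nat_lit 504) (nat_lit 408) (nat_lit 288)))))) (XT.nd (nat_lit 468) (nat_lit 0) (nat_lit 0) (XT.nd (nat_lit 234) (nat_lit 76) (nat_lit 0) (XT.nd (nat_lit 78) (nat_lit 0) (nat_lit 0) (XT.lf (nat_lit 0) (nat_lit 573232501107) (nat_lit 152) (nat_lit 591005697322) (nat_lit 0) (nat_lit 560616492757)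 (nat_lit 2) (nat_lit 5) (nat_lit 4) (nat_lit 4) (nat_lit 2) (nat_lit 4) (nat_lit 505) (nat_lit 408) (nat_lit 287)) (XT.nd (nat_lit 78) (nat_lit 0) (nat_lit 0) (XT.lf (nat_lit 0) (nat_lit 690350166554) (nat_lit 152) (nat_lit 488977026146) (nat_lit 0) (nat_lit 677734073802) (nat_lit 2) (nat_lit 5) (nat_lit 4) (nat_lit 4) (nat_lit 2) (nat_lit 4) (nat_lit 506) (nat_lit 408) (nat_lit 286)) (XT.lf (nat_lit 0) (nat_lit 816836314333) (nat_lit 152) (nat_lit 378787984554) (nat_lit 0) (nat_lit 804220143431) (nat_lit 2) (nat_lit 5) (nat_lit 4) (nat_lit 4) (nat_lit 2) (nat_lit 4) (nat_lit 507) (nat_lit 408) (nat_lit 285)))) (XT.nd (nat_lit 78) (nat_lit 76) (nat_lit 0) (XT.lf (nat_lit 0) (nat_lit 953440491988) (nat_lit 152) (nat_lit 259785600449) (nat_lit 0) (nat_lit 940824248725) (nat_lit 2) (nat_lit 5) (nat_lit 4) (nat_lit 4) (nat_lit 2) (nat_lit 4) (nat_lit 508) (nat_lit 408) (nat_lit 284)) (XT.nd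 (nat_lit 78) (nat_lit 76) (nat_lit 0) (XT.lf (nat_lit 0) (nat_lit 1100972205755) (nat_lit 152) (nat_lit 131264674516) (nat_lit 0) (nat_lit 1088355895491) (nat_lit 2) (nat_lit 5) (nat_lit 4) (nat_lit 4) (nat_lit 2) (nat_lit 4) (nat_lit 509) (nat_lit 408) (nat_lit 283)) (XT.lf (nat_lit 0) (nat_lit 7933252130) (nat_lit 76) (nat_lit 1252563260416) (nat_lit 76) (nat_lit 1239946888114) (nat_lit 1) (nat_lit 4) (nat_lit 2) (nat_lit 5) (nat_lit 2) (nat_lit 4) (nat_lit 510) (nat_lit 408) (nat_lit 282))))) (XT.nd (nat_lit 234) (nat_lit 0) (nat_lit 0) (XT.nd (nat_lit 78) (nat_lit 0) (nat_lit 0) (XT.lf (nat_lit 0) (nat_lit 165730663152) (nat_lit 76) (nat_lit 1270640389522) (nat_lit 76) (nat_lit 1258023959777) (nat_lit 1) (nat_lit 4) (nat_lit 2) (nat_lit 5) (nat_lit 2) (nat_lit 4) (nat_lit 511) (nat_lit 408) (nat_lit 281)) (XT.nd (nat_lit 78) (nat_lit 0) (nat_lit 0) (XT.lf (nat_lit 0) (nat_lit 336150489177)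 (nat_lit 76) (nat_lit 1290164400139) (nat_lit 76) (nat_lit 1277547917207) (nat_lit 1) (nat_lit 4) (nat_lit 2) (nat_lit 5) (nat_lit 2) (nat_lit 4) (nat_lit 512) (nat_lit 408) (nat_lit 280)) (XT.lf (nat_lit 0) (nat_lit 520202625470) (nat_lit 76) (nat_lit 1311250990109) (nat_lit 76) (nat_lit 1298634457929) (nat_lit 1) (nat_lit 4) (nat_lit 2) (nat_lit 5) (nat_lit 2) (nat_lit 4) (nat_lit 513) (nat_lit 408) (nat_lit 279)))) (XT.nd (nat_lit 156) (nat_lit 0) (nat_lit 0) (XT.nd (nat_lit 78) (nat_lit 0) (nat_lit 0) (XT.lf (nat_lit 0) (nat_lit 718977751359) (nat_lit 76) (nat_lit 1334025117001) (nat_lit 76) (nat_lit 1321408539221) (nat_lit 1) (nat_lit 4) (nat_lit 2) (nat_lit 5) (nat_lit 2) (nat_lit 4) (nat_lit 514) (nat_lit 408) (nat_lit 278)) (XT.lf (nat_lit 0) (nat_lit 933653793514) (nat_lit 76) (nat_lit 1358621738605) (nat_lit 76) (nat_lit 1346005118602) (nat_lit 1) (nat_lit 4) (nat_lit 2) (nat_lit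 5) (nat_lit 2) (nat_lit 4) (nat_lit 515) (nat_lit 408) (nat_lit 277))) (XT.nd (nat_lit 78) (nat_lit 0) (nat_lit 0) (XT.lf (nat_lit 0) (nat_lit 1165502906261) (nat_lit 76) (nat_lit 1385186612677) (nat_lit 76) (nat_lit 1372569953581) (nat_lit 1) (nat_lit 4) (nat_lit 2) (nat_lit 5) (nat_lit 2) (nat_lit 4) (nat_lit 516) (nat_lit 408) (nat_lit 276)) (XT.lf (nat_lit 0) (nat_lit 1415899010266) (nat_lit 76) (nat_lit 1413877160695) (nat_lit 76) (nat_lit 1401260465400) (nat_lit 1) (nat_lit 4) (nat_lit 2) (nat_lit 5) (nat_lit 2) (nat_lit 4) (nat_lit 517) (nat_lit 408) (nat_lit 275))))))) (XT.nd (nat_lit 936) (nat_lit 0) (nat_lit 0) (XT.nd (nat_lit 468) (nat_lit 0) (nat_lit 0) (XT.nd (nat_lit 234) (nat_lit 0) (nat_lit 0) (XT.nd (nat_lit 78) (nat_lit 0) (nat_lit 0) (XT.lf (nat_lit 0) (nat_lit 1686325934295) (nat_lit 76) (nat_lit 1444863400720) (nat_lit 76) (nat_lit 1432246671908) (nat_lit 1) (nat_lit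 4) (nat_lit 2) (nat_lit 5) (nat_lit 2) (nat_lit 4) (nat_lit 518) (nat_lit 408) (nat_lit 274)) (XT.nd (nat_lit 78) (nat_lit 0) (nat_lit 0) (XT.lf (nat_lit 0) (nat_lit 1978386208267) (nat_lit 76) (nat_lit 1478328954916) (nat_lit 76) (nat_lit 1465712195069) (nat_lit 1) (nat_lit 4) (nat_lit 2) (nat_lit 5) (nat_lit 2) (nat_lit 4) (nat_lit 519) (nat_lit 408) (nat_lit 273)) (XT.lf (nat_lit 0) (nat_lit 2293810559732) (nat_lit 76) (nat_lit 1514472137678) (nat_lit 76) (nat_lit 1501855349095) (nat_lit 1) (nat_lit 4) (nat_lit 2) (nat_lit 5) (nat_lit 2) (nat_lit 4) (nat_lit 520) (nat_lit 408) (nat_lit 272)))) (XT.nd (nat_lit 78) (nat_lit 0) (nat_lit 0) (XT.lf (nat_lit 0) (nat_lit 2634468170033) (nat_lit 76) (nat_lit 1553507130829) (nat_lit 76) (nat_lit 1540890315639) (nat_lit 1) (nat_lit 4) (nat_lit 2) (nat_lit 5) (nat_lit 2) (nat_lit 4) (nat_lit 521) (nat_lit 408) (nat_lit 271)) (XT.nd (nat_lit 78)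 (nat_lit 0) (nat_lit 0) (XT.lf (nat_lit 0) (nat_lit 3002377750933) (nat_lit 76) (nat_lit 1595665252847) (nat_lit 76) (nat_lit 1583048413022) (nat_lit 1) (nat_lit 4) (nat_lit 2) (nat_lit 5) (nat_lit 2) (nat_lit 4) (nat_lit 522) (nat_lit 408) (nat_lit 270)) (XT.lf (nat_lit 0) (nat_lit 3399719507357) (nat_lit 76) (nat_lit 1641196329641) (nat_lit 76) (nat_lit 1628579467005) (nat_lit 1) (nat_lit 4) (nat_lit 2) (nat_lit 5) (nat_lit 2) (nat_lit 4) (nat_lit 523) (nat_lit 408) (nat_lit 269))))) (XT.nd (nat_lit 234) (nat_lit 0) (nat_lit 0) (XT.nd (nat_lit 78) (nat_lit 0) (nat_lit 0) (XT.lf (nat_lit 0) (nat_lit 3828848057120) (nat_lit 76) (nat_lit 1690370175000) (nat_lit 76) (nat_lit 1677753291242) (nat_lit 1) (nat_lit 4) (nat_lit 2) (nat_lit 5) (nat_lit 2) (nat_lit 4) (nat_lit 524) (nat_lit 408) (nat_lit 268)) (XT.nd (nat_lit 78) (nat_lit 0) (nat_lit 0) (XT.lf (nat_lit 0) (nat_lit 4292306384222)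 (nat_lit 76) (nat_lit 1743478189488) (nat_lit 76) (nat_lit 1730861286172) (nat_lit 1) (nat_lit 4) (nat_lit 2) (nat_lit 5) (nat_lit 2) (nat_lit 4) (nat_lit 525) (nat_lit 408) (nat_lit 267)) (XT.lf (nat_lit 0) (nat_lit 4792840908378) (nat_lit 76) (nat_lit 1800835087265) (nat_lit 76) (nat_lit 1788218165841) (nat_lit 1) (nat_lit 4) (nat_lit 2) (nat_lit 5) (nat_lit 2) (nat_lit 4) (nat_lit 526) (nat_lit 408) (nat_lit 266)))) (XT.nd (nat_lit 78) (nat_lit 0) (nat_lit 0) (XT.lf (nat_lit 0) (nat_lit 5333417760101) (nat_lit 76) (nat_lit 1862780761058) (nat_lit 76) (nat_lit 1850163822867) (nat_lit 1) (nat_lit 4) (nat_lit 2) (nat_lit 5) (nat_lit 2) (nat_lit 4) (nat_lit 527) (nat_lit 408) (nat_lit 265)) (XT.nd (nat_lit 78) (nat_lit 0) (nat_lit 0) (XT.lf (nat_lit 0) (nat_lit 5917240357773) (nat_lit 76) (nat_lit 1929682296343) (nat_lit 76) (nat_lit 1917065342627) (nat_lit 1) (nat_lit 4) (nat_lit 2) (nat_lit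 5) (nat_lit 2) (nat_lit 4) (nat_lit 528) (nat_lit 408) (nat_lit 264)) (XT.lf (nat_lit 0) (nat_lit 6547768390861) (nat_lit 76) (nat_lit 2001936146661) (nat_lit 76) (nat_lit 1989319178570) (nat_lit 1) (nat_lit 4) (nat_lit 2) (nat_lit 5) (nat_lit 2) (nat_lit 4) (nat_lit 529) (nat_lit 408) (nat_lit 263)))))) (XT.nd (nat_lit 53118) (nat_lit 0) (nat_lit 5852) (XT.nd (nat_lit 234) (nat_lit 0) (nat_lit 0) (XT.nd (nat_lit 78) (nat_lit 0) (nat_lit 0) (XT.lf (nat_lit 0) (nat_lit 7228738321784) (nat_lit 76) (nat_lit 2079970482977) (nat_lit 76) (nat_lit 2067353501577) (nat_lit 1) (nat_lit 4) (nat_lit 2) (nat_lit 5) (nat_lit 2) (nat_lit 4) (nat_lit 530) (nat_lit 408) (nat_lit 262)) (XT.nd (nat_lit 78) (nat_lit 0) (nat_lit 0) (XT.lf (nat_lit 0) (nat_lit 7964185527909) (nat_lit 76) (nat_lit 2164247730989) (nat_lit 76) (nat_lit 2151630737264) (nat_lit 1) (nat_lit 4) (nat_lit 2) (nat_lit 5) (nat_lit 2) (nat_lit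 4) (nat_lit 531) (nat_lit 408) (nat_lit 261)) (XT.lf (nat_lit 0) (nat_lit 8758468214903) (nat_lit 76) (nat_lit 2255267311424) (nat_lit 76) (nat_lit 2242650306288) (nat_lit 1) (nat_lit 4) (nat_lit 2) (nat_lit 5) (nat_lit 2) (nat_lit 4) (nat_lit 532) (nat_lit 408) (nat_lit 260)))) (XT.nd (nat_lit 78) (nat_lit 0) (nat_lit 0) (XT.lf (nat_lit 0) (nat_lit 9616293243133) (nat_lit 76) (nat_lit 2353568599575) (nat_lit 76) (nat_lit 2340951583873) (nat_lit 1) (nat_lit 4) (nat_lit 2) (nat_lit 5) (nat_lit 2) (nat_lit 4) (nat_lit 533) (nat_lit 408) (nat_lit 259)) (XT.nd (nat_lit 52728) (nat_lit 0) (nat_lit 6612) (XT.lf (nat_lit 0) (nat_lit 10542744020173) (nat_lit 76) (nat_lit 2459734121594) (nat_lit 76) (nat_lit 2447117096108) (nat_lit 1) (nat_lit 4) (nat_lit 2) (nat_lit 5) (nat_lit 2) (nat_lit 4) (nat_lit 534) (nat_lit 408) (nat_lit 258)) (XT.lf (nat_lit 0) (nat_lit 2104870111) (nat_lit 0) (nat_lit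 2104870111) (nat_lit 380) (nat_lit 178236540) (nat_lit 88) (nat_lit 5) (nat_lit 88) (nat_lit 3) (nat_lit 93) (nat_lit 3) (nat_lit 409) (nat_lit 409) (nat_lit 382))))) (XT.nd (nat_lit 234) (nat_lit 228) (nat_lit 0) (XT.nd (nat_lit 78) (nat_lit 0) (nat_lit 76) (XT.lf (nat_lit 0) (nat_lit 584064814) (nat_lit 532) (nat_lit 202782771) (nat_lit 532) (nat_lit 8265706932) (nat_lit 81) (nat_lit 3) (nat_lit 88) (nat_lit 3) (nat_lit 88) (nat_lit 5) (nat_lit 410) (nat_lit 409) (nat_lit 381)) (XT.nd (nat_lit 78) (nat_lit 0) (nat_lit 0) (XT.lf (nat_lit 0) (nat_lit 1673756843) (nat_lit 456) (nat_lit 4739043345) (nat_lit 532) (nat_lit 2930314128) (nat_lit 82) (nat_lit 5) (nat_lit 88) (nat_lit 5) (nat_lit 89) (nat_lit 5) (nat_lit 411) (nat_lit 409) (nat_lit 380)) (XT.lf (nat_lit 76) (nat_lit 76475540) (nat_lit 0) (nat_lit 2715124789) (nat_lit 532) (nat_lit 6870063675) (nat_lit 83) (nat_lit 5) (nat_lit 82)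 (nat_lit 5) (nat_lit 89) (nat_lit 5) (nat_lit 412) (nat_lit 409) (nat_lit 379)))) (XT.nd (nat_lit 156) (nat_lit 380) (nat_lit 0) (XT.nd (nat_lit 78) (nat_lit 0) (nat_lit 0) (XT.lf (nat_lit 0) (nat_lit 4081292975) (nat_lit 456) (nat_lit 4545739303) (nat_lit 532) (nat_lit 1372093125) (nat_lit 83) (nat_lit 5) (nat_lit 89) (nat_lit 5) (nat_lit 90) (nat_lit 5) (nat_lit 413) (nat_lit 409) (nat_lit 378)) (XT.lf (nat_lit 76) (nat_lit 808406131) (nat_lit 0) (nat_lit 4680476831) (nat_lit 532) (nat_lit 4873542879) (nat_lit 84) (nat_lit 5) (nat_lit 83) (nat_lit 5) (nat_lit 90) (nat_lit 5) (nat_lit 414) (nat_lit 409) (nat_lit 377))) (XT.nd (nat_lit 78) (nat_lit 380) (nat_lit 0) (XT.lf (nat_lit 76) (nat_lit 6792504627) (nat_lit 0) (nat_lit 269826249) (nat_lit 532) (nat_lit 3688217791) (nat_lit 84) (nat_lit 5) (nat_lit 83) (nat_lit 5) (nat_lit 90) (nat_lit 5) (nat_lit 415) (nat_lit 409) (nat_lit 376))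 (XT.lf (nat_lit 0) (nat_lit 2020323382) (nat_lit 456) (nat_lit 6832532168) (nat_lit 532) (nat_lit 2309586740) (nat_lit 78) (nat_lit 5) (nat_lit 84) (nat_lit 5) (nat_lit 85) (nat_lit 5) (nat_lit 416) (nat_lit 409) (nat_lit 375))))))))
noncomputable def xc116 : XT := (XT.nd (nat_lit 1950) (nat_lit 1520) (nat_lit 0) (XT.nd (nat_lit 936) (nat_lit 1216) (nat_lit 0) (XT.nd (nat_lit 468) (nat_lit 760) (nat_lit 0) (XT.nd (nat_lit 234) (nat_lit 456) (nat_lit 0) (XT.nd (nat_lit 78) (nat_lit 532) (nat_lit 0) (XT.lf (nat_lit 0) (nat_lit 8637877502) (nat_lit 456) (nat_lit 2201817606) (nat_lit 532) (nat_lit 763362244) (nat_lit 78) (nat_lit 5) (nat_lit 84) (nat_lit 5) (nat_lit 85) (nat_lit 5) (nat_lit 417) (nat_lit 409) (nat_lit 374)) (XT.nd (nat_lit 78) (nat_lit 0) (nat_lit 0) (XT.lf (nat_lit 0) (nat_lit 964530406) (nat_lit 532) (nat_lit 8325439830) (nat_lit 76) (nat_lit 2778955090) (nat_lit 71) (nat_lit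 5) (nat_lit 78) (nat_lit 5) (nat_lit 72) (nat_lit 5) (nat_lit 418) (nat_lit 409) (nat_lit 373)) (XT.lf (nat_lit 0) (nat_lit 2873984034) (nat_lit 532) (nat_lit 1546039455) (nat_lit 76) (nat_lit 8143699897) (nat_lit 71) (nat_lit 5) (nat_lit 78) (nat_lit 5) (nat_lit 72) (nat_lit 5) (nat_lit 419) (nat_lit 409) (nat_lit 372)))) (XT.nd (nat_lit 78) (nat_lit 228) (nat_lit 0) (XT.lf (nat_lit 0) (nat_lit 5053256224) (nat_lit 304) (nat_lit 7092022959) (nat_lit 76) (nat_lit 943472724) (nat_lit 68) (nat_lit 5) (nat_lit 72) (nat_lit 5) (nat_lit 69) (nat_lit 5) (nat_lit 420) (nat_lit 409) (nat_lit 371)) (XT.nd (nat_lit 78) (nat_lit 0) (nat_lit 0) (XT.lf (nat_lit 0) (nat_lit 426972902) (nat_lit 228) (nat_lit 7099131315) (nat_lit 304) (nat_lit 6120150513) (nat_lit 65) (nat_lit 5) (nat_lit 68) (nat_lit 5) (nat_lit 69) (nat_lit 5) (nat_lit 421) (nat_lit 409) (nat_lit 370)) (XT.lf (nat_lit 0) (nat_lit 8895334484)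 (nat_lit 228) (nat_lit 1448454934) (nat_lit 304) (nat_lit 3892817557) (nat_lit 65) (nat_lit 5) (nat_lit 68) (nat_lit 5) (nat_lit 69) (nat_lit 5) (nat_lit 422) (nat_lit 409) (nat_lit 369))))) (XT.nd (nat_lit 234) (nat_lit 304) (nat_lit 0) (XT.nd (nat_lit 78) (nat_lit 304) (nat_lit 0) (XT.lf (nat_lit 0) (nat_lit 3158370920) (nat_lit 152) (nat_lit 10372796586) (nat_lit 228) (nat_lit 1331486857) (nat_lit 63) (nat_lit 5) (nat_lit 65) (nat_lit 5) (nat_lit 66) (nat_lit 5) (nat_lit 423) (nat_lit 409) (nat_lit 368)) (XT.nd (nat_lit 78) (nat_lit 228) (nat_lit 0) (XT.lf (nat_lit 0) (nat_lit 1507676369) (nat_lit 228) (nat_lit 3016816087) (nat_lit 76) (nat_lit 10999964673) (nat_lit 62) (nat_lit 5) (nat_lit 65) (nat_lit 5) (nat_lit 63) (nat_lit 5) (nat_lit 424) (nat_lit 409) (nat_lit 367)) (XT.lf (nat_lit 0) (nat_lit 4669258692) (nat_lit 304) (nat_lit 9664414286) (nat_lit 76) (nat_lit 1889394049) (nat_lit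 59) (nat_lit 5) (nat_lit 63) (nat_lit 5) (nat_lit 60) (nat_lit 5) (nat_lit 425) (nat_lit 409) (nat_lit 366)))) (XT.nd (nat_lit 78) (nat_lit 304) (nat_lit 0) (XT.lf (nat_lit 0) (nat_lit 8247756619) (nat_lit 304) (nat_lit 71766577) (nat_lit 76) (nat_lit 8644930168) (nat_lit 59) (nat_lit 5) (nat_lit 63) (nat_lit 5) (nat_lit 60) (nat_lit 5) (nat_lit 426) (nat_lit 409) (nat_lit 365)) (XT.nd (nat_lit 78) (nat_lit 152) (nat_lit 0) (XT.lf (nat_lit 0) (nat_lit 10778528610) (nat_lit 152) (nat_lit 1557898315) (nat_lit 228) (nat_lit 5410818549) (nat_lit 57) (nat_lit 5) (nat_lit 59) (nat_lit 5) (nat_lit 60) (nat_lit 5) (nat_lit 427) (nat_lit 409) (nat_lit 364)) (XT.lf (nat_lit 0) (nat_lit 3916017407) (nat_lit 152) (nat_lit 13036331372) (nat_lit 228) (nat_lit 1624305341) (nat_lit 55) (nat_lit 5) (nat_lit 57) (nat_lit 5) (nat_lit 58) (nat_lit 5) (nat_lit 428) (nat_lit 409) (nat_lit 363)))))) (XT.nd (nat_lit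 468) (nat_lit 684) (nat_lit 0) (XT.nd (nat_lit 234) (nat_lit 152) (nat_lit 0) (XT.nd (nat_lit 78) (nat_lit 304) (nat_lit 0) (XT.lf (nat_lit 0) (nat_lit 2544070184) (nat_lit 228) (nat_lit 3544628780) (nat_lit 76) (nat_lit 13362797997) (nat_lit 54) (nat_lit 5) (nat_lit 57) (nat_lit 5) (nat_lit 55) (nat_lit 5) (nat_lit 429) (nat_lit 409) (nat_lit 362)) (XT.nd (nat_lit 78) (nat_lit 152) (nat_lit 0) (XT.lf (nat_lit 0) (nat_lit 7179151405) (nat_lit 228) (nat_lit 11606296820) (nat_lit 76) (nat_lit 1589829205) (nat_lit 52) (nat_lit 5) (nat_lit 55) (nat_lit 5) (nat_lit 53) (nat_lit 5) (nat_lit 430) (nat_lit 409) (nat_lit 361)) (XT.lf (nat_lit 0) (nat_lit 732331984) (nat_lit 152) (nat_lit 11697538828) (nat_lit 228) (nat_lit 8923507257) (nat_lit 50) (nat_lit 5) (nat_lit 52) (nat_lit 5) (nat_lit 53) (nat_lit 5) (nat_lit 431) (nat_lit 409) (nat_lit 360)))) (XT.nd (nat_lit 78) (nat_lit 152) (nat_lit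 0) (XT.lf (nat_lit 0) (nat_lit 14671624140) (nat_lit 152) (nat_lit 3717128740) (nat_lit 228) (nat_lit 3997929418) (nat_lit 50) (nat_lit 5) (nat_lit 52) (nat_lit 5) (nat_lit 53) (nat_lit 5) (nat_lit 432) (nat_lit 409) (nat_lit 359)) (XT.nd (nat_lit 78) (nat_lit 0) (nat_lit 0) (XT.lf (nat_lit 0) (nat_lit 1505780030) (nat_lit 152) (nat_lit 17141426527) (nat_lit 76) (nat_lit 4832888600) (nat_lit 48) (nat_lit 5) (nat_lit 50) (nat_lit 5) (nat_lit 49) (nat_lit 5) (nat_lit 433) (nat_lit 409) (nat_lit 358)) (XT.lf (nat_lit 0) (nat_lit 7519606687) (nat_lit 152) (nat_lit 2939646888) (nat_lit 76) (nat_lit 14170558220) (nat_lit 48) (nat_lit 5) (nat_lit 50) (nat_lit 5) (nat_lit 49) (nat_lit 5) (nat_lit 434) (nat_lit 409) (nat_lit 357))))) (XT.nd (nat_lit 234) (nat_lit 380) (nat_lit 0) (XT.nd (nat_lit 78) (nat_lit 152) (nat_lit 0) (XT.lf (nat_lit 0) (nat_lit 13007161871) (nat_lit 152) (nat_lit 1295053194)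 (nat_lit 228) (nat_lit 11546279555) (nat_lit 46) (nat_lit 5) (nat_lit 48) (nat_lit 5) (nat_lit 49) (nat_lit 5) (nat_lit 435) (nat_lit 409) (nat_lit 356)) (XT.nd (nat_lit 78) (nat_lit 76) (nat_lit 0) (XT.lf (nat_lit 0) (nat_lit 3144718150) (nat_lit 76) (nat_lit 18823032825) (nat_lit 152) (nat_lit 5169698276) (nat_lit 45) (nat_lit 5) (nat_lit 46) (nat_lit 5) (nat_lit 47) (nat_lit 4) (nat_lit 436) (nat_lit 409) (nat_lit 355)) (XT.lf (nat_lit 0) (nat_lit 2000534769) (nat_lit 152) (nat_lit 7488025749) (nat_lit 76) (nat_lit 19008105147) (nat_lit 44) (nat_lit 5) (nat_lit 46) (nat_lit 5) (nat_lit 45) (nat_lit 5) (nat_lit 437) (nat_lit 409) (nat_lit 354)))) (XT.nd (nat_lit 156) (nat_lit 228) (nat_lit 0) (XT.nd (nat_lit 78) (nat_lit 0) (nat_lit 0) (XT.lf (nat_lit 0) (nat_lit 9723778909) (nat_lit 228) (nat_lit 19260507942) (nat_lit 76) (nat_lit 948897209) (nat_lit 42) (nat_lit 5) (nat_lit 45) (nat_lit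 5) (nat_lit 43) (nat_lit 4) (nat_lit 438) (nat_lit 409) (nat_lit 353)) (XT.lf (nat_lit 0) (nat_lit 18499116256) (nat_lit 228) (nat_lit 1047640217) (nat_lit 76) (nat_lit 11903130736) (nat_lit 42) (nat_lit 5) (nat_lit 45) (nat_lit 5) (nat_lit 43) (nat_lit 4) (nat_lit 439) (nat_lit 409) (nat_lit 352))) (XT.nd (nat_lit 78) (nat_lit 152) (nat_lit 0) (XT.lf (nat_lit 0) (nat_lit 19564171164) (nat_lit 76) (nat_lit 8862202147) (nat_lit 152) (nat_lit 4625563710) (nat_lit 41) (nat_lit 5) (nat_lit 42) (nat_lit 5) (nat_lit 43) (nat_lit 4) (nat_lit 440) (nat_lit 409) (nat_lit 351)) (XT.lf (nat_lit 0) (nat_lit 4404491391) (nat_lit 152) (nat_lit 27502395426) (nat_lit 76) (nat_lit 2846288490) (nat_lit 39) (nat_lit 5) (nat_lit 41) (nat_lit 5) (nat_lit 40) (nat_lit 4) (nat_lit 441) (nat_lit 409) (nat_lit 350))))))) (XT.nd (nat_lit 936) (nat_lit 760) (nat_lit 0) (XT.nd (nat_lit 468) (nat_lit 456) (nat_lit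 0) (XT.nd (nat_lit 234) (nat_lit 152) (nat_lit 0) (XT.nd (nat_lit 78) (nat_lit 152) (nat_lit 0) (XT.lf (nat_lit 0) (nat_lit 14495378717) (nat_lit 152) (nat_lit 6542628935) (nat_lit 76) (nat_lit 15495828622) (nat_lit 39) (nat_lit 5) (nat_lit 41) (nat_lit 5) (nat_lit 40) (nat_lit 4) (nat_lit 442) (nat_lit 409) (nat_lit 349)) (XT.nd (nat_lit 78) (nat_lit 76) (nat_lit 0) (XT.lf (nat_lit 0) (nat_lit 16905158515) (nat_lit 76) (nat_lit 8876228746) (nat_lit 152) (nat_lit 12644536184) (nat_lit 38) (nat_lit 5) (nat_lit 39) (nat_lit 5) (nat_lit 40) (nat_lit 4) (nat_lit 443) (nat_lit 409) (nat_lit 348)) (XT.lf (nat_lit 0) (nat_lit 2109620910) (nat_lit 76) (nat_lit 36178832060) (nat_lit 76) (nat_lit 2155471746) (nat_lit 37) (nat_lit 4) (nat_lit 38) (nat_lit 5) (nat_lit 38) (nat_lit 4) (nat_lit 444) (nat_lit 409) (nat_lit 347)))) (XT.nd (nat_lit 78) (nat_lit 76) (nat_lit 0) (XT.lf (nat_lit 0) (nat_lit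 9529693729) (nat_lit 152) (nat_lit 14223118403) (nat_lit 76) (nat_lit 18787640107) (nat_lit 36) (nat_lit 5) (nat_lit 38) (nat_lit 5) (nat_lit 37) (nat_lit 4) (nat_lit 445) (nat_lit 409) (nat_lit 346)) (XT.nd (nat_lit 78) (nat_lit 0) (nat_lit 0) (XT.lf (nat_lit 0) (nat_lit 12346437743) (nat_lit 76) (nat_lit 9966661295) (nat_lit 152) (nat_lit 22464734768) (nat_lit 35) (nat_lit 5) (nat_lit 36) (nat_lit 5) (nat_lit 37) (nat_lit 4) (nat_lit 446) (nat_lit 409) (nat_lit 345)) (XT.lf (nat_lit 0) (nat_lit 36619645861) (nat_lit 152) (nat_lit 5473450792) (nat_lit 0) (nat_lit 5061072633) (nat_lit 35) (nat_lit 5) (nat_lit 37) (nat_lit 4) (nat_lit 35) (nat_lit 4) (nat_lit 447) (nat_lit 409) (nat_lit 344))))) (XT.nd (nat_lit 234) (nat_lit 228) (nat_lit 0) (XT.nd (nat_lit 78) (nat_lit 76) (nat_lit 0) (XT.lf (nat_lit 0) (nat_lit 3088639766) (nat_lit 152) (nat_lit 25150021125) (nat_lit 76) (nat_lit 21408942155)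 (nat_lit 33) (nat_lit 5) (nat_lit 35) (nat_lit 5) (nat_lit 34) (nat_lit 4) (nat_lit 448) (nat_lit 409) (nat_lit 343)) (XT.nd (nat_lit 78) (nat_lit 0) (nat_lit 0) (XT.lf (nat_lit 0) (nat_lit 4780694908) (nat_lit 76) (nat_lit 12704753943) (nat_lit 152) (nat_lit 34812939007) (nat_lit 32) (nat_lit 5) (nat_lit 33) (nat_lit 5) (nat_lit 34) (nat_lit 4) (nat_lit 449) (nat_lit 409) (nat_lit 342)) (XT.lf (nat_lit 0) (nat_lit 33821965045) (nat_lit 152) (nat_lit 16715936280) (nat_lit 0) (nat_lit 4560297810) (nat_lit 32) (nat_lit 5) (nat_lit 34) (nat_lit 4) (nat_lit 32) (nat_lit 4) (nat_lit 450) (nat_lit 409) (nat_lit 341)))) (XT.nd (nat_lit 78) (nat_lit 152) (nat_lit 0) (XT.lf (nat_lit 0) (nat_lit 17044748630) (nat_lit 76) (nat_lit 35146247119) (nat_lit 76) (nat_lit 5872952732) (nat_lit 31) (nat_lit 4) (nat_lit 32) (nat_lit 5) (nat_lit 32) (nat_lit 4) (nat_lit 451) (nat_lit 409) (nat_lit 340)) (XT.nd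 (nat_lit 78) (nat_lit 76) (nat_lit 0) (XT.lf (nat_lit 0) (nat_lit 10678836273) (nat_lit 152) (nat_lit 7072080820) (nat_lit 76) (nat_lit 43458963287) (nat_lit 30) (nat_lit 5) (nat_lit 32) (nat_lit 5) (nat_lit 31) (nat_lit 4) (nat_lit 452) (nat_lit 409) (nat_lit 339)) (XT.lf (nat_lit 0) (nat_lit 29016787524) (nat_lit 152) (nat_lit 33623464477) (nat_lit 0) (nat_lit 1892686896) (nat_lit 29) (nat_lit 5) (nat_lit 31) (nat_lit 4) (nat_lit 29) (nat_lit 4) (nat_lit 453) (nat_lit 409) (nat_lit 338)))))) (XT.nd (nat_lit 468) (nat_lit 380) (nat_lit 0) (XT.nd (nat_lit 234) (nat_lit 152) (nat_lit 0) (XT.nd (nat_lit 78) (nat_lit 152) (nat_lit 0) (XT.lf (nat_lit 0) (nat_lit 3929961143) (nat_lit 76) (nat_lit 45632631462) (nat_lit 76) (nat_lit 18499984530) (nat_lit 28) (nat_lit 4) (nat_lit 29) (nat_lit 5) (nat_lit 29) (nat_lit 4) (nat_lit 454) (nat_lit 409) (nat_lit 337)) (XT.nd (nat_lit 78) (nat_lit 76)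 (nat_lit 0) (XT.lf (nat_lit 0) (nat_lit 813695935) (nat_lit 152) (nat_lit 25448072629) (nat_lit 76) (nat_lit 45538646709) (nat_lit 27) (nat_lit 5) (nat_lit 29) (nat_lit 5) (nat_lit 28) (nat_lit 4) (nat_lit 455) (nat_lit 409) (nat_lit 336)) (XT.lf (nat_lit 0) (nat_lit 16660085467) (nat_lit 76) (nat_lit 4401439879) (nat_lit 152) (nat_lit 54706231219) (nat_lit 26) (nat_lit 5) (nat_lit 27) (nat_lit 5) (nat_lit 28) (nat_lit 4) (nat_lit 456) (nat_lit 409) (nat_lit 335)))) (XT.nd (nat_lit 78) (nat_lit 152) (nat_lit 0) (XT.lf (nat_lit 0) (nat_lit 44092910339) (nat_lit 152) (nat_lit 16916780911) (nat_lit 0) (nat_lit 18949695907) (nat_lit 26) (nat_lit 5) (nat_lit 28) (nat_lit 4) (nat_lit 26) (nat_lit 4) (nat_lit 457) (nat_lit 409) (nat_lit 334)) (XT.nd (nat_lit 78) (nat_lit 76) (nat_lit 0) (XT.lf (nat_lit 0) (nat_lit 30014181424) (nat_lit 76) (nat_lit 39777599982) (nat_lit 76) (nat_lit 14628569080)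 (nat_lit 25) (nat_lit 4) (nat_lit 26) (nat_lit 5) (nat_lit 26) (nat_lit 4) (nat_lit 458) (nat_lit 409) (nat_lit 333)) (XT.lf (nat_lit 0) (nat_lit 8356134928) (nat_lit 152) (nat_lit 7773655872) (nat_lit 76) (nat_lit 73055344464) (nat_lit 24) (nat_lit 5) (nat_lit 26) (nat_lit 5) (nat_lit 25) (nat_lit 4) (nat_lit 459) (nat_lit 409) (nat_lit 332))))) (XT.nd (nat_lit 234) (nat_lit 228) (nat_lit 0) (XT.nd (nat_lit 78) (nat_lit 76) (nat_lit 0) (XT.lf (nat_lit 0) (nat_lit 33710694098) (nat_lit 152) (nat_lit 50069349439) (nat_lit 0) (nat_lit 10414950385) (nat_lit 23) (nat_lit 5) (nat_lit 25) (nat_lit 4) (nat_lit 23) (nat_lit 4) (nat_lit 460) (nat_lit 409) (nat_lit 331)) (XT.nd (nat_lit 78) (nat_lit 0) (nat_lit 0) (XT.lf (nat_lit 0) (nat_lit 615967897) (nat_lit 76) (nat_lit 61119184906) (nat_lit 76) (nat_lit 37819165914) (nat_lit 22) (nat_lit 4) (nat_lit 23) (nat_lit 5) (nat_lit 23) (nat_lit 4) (nat_lit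 461) (nat_lit 409) (nat_lit 330)) (XT.lf (nat_lit 0) (nat_lit 58183408343) (nat_lit 76) (nat_lit 35177121029) (nat_lit 76) (nat_lit 11873143444) (nat_lit 22) (nat_lit 4) (nat_lit 23) (nat_lit 5) (nat_lit 23) (nat_lit 4) (nat_lit 462) (nat_lit 409) (nat_lit 329)))) (XT.nd (nat_lit 156) (nat_lit 76) (nat_lit 0) (XT.nd (nat_lit 78) (nat_lit 0) (nat_lit 0) (XT.lf (nat_lit 0) (nat_lit 9033174939) (nat_lit 76) (nat_lit 6515295198) (nat_lit 152) (nat_lit 95771217366) (nat_lit 20) (nat_lit 5) (nat_lit 21) (nat_lit 5) (nat_lit 22) (nat_lit 4) (nat_lit 463) (nat_lit 409) (nat_lit 328)) (XT.lf (nat_lit 0) (nat_lit 46420482149) (nat_lit 152) (nat_lit 46459390905) (nat_lit 0) (nat_lit 24836188813) (nat_lit 20) (nat_lit 5) (nat_lit 22) (nat_lit 4) (nat_lit 20) (nat_lit 4) (nat_lit 464) (nat_lit 409) (nat_lit 327))) (XT.nd (nat_lit 78) (nat_lit 0) (nat_lit 0) (XT.lf (nat_lit 0) (nat_lit 14365491181) (nat_lit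 76) (nat_lit 65902691967) (nat_lit 76) (nat_lit 44315488948) (nat_lit 19) (nat_lit 4) (nat_lit 20) (nat_lit 5) (nat_lit 20) (nat_lit 4) (nat_lit 465) (nat_lit 409) (nat_lit 326)) (XT.lf (nat_lit 0) (nat_lit 82681200310) (nat_lit 76) (nat_lit 35404225068) (nat_lit 76) (nat_lit 13814327897) (nat_lit 19) (nat_lit 4) (nat_lit 20) (nat_lit 5) (nat_lit 20) (nat_lit 4) (nat_lit 466) (nat_lit 409) (nat_lit 325))))))))
noncomputable def xc117 : XT := (XT.nd (nat_lit 1950) (nat_lit 304) (nat_lit 0) (XT.nd (nat_lit 936) (nat_lit 456) (nat_lit 0) (XT.nd (nat_lit 468) (nat_lit 228) (nat_lit 0) (XT.nd (nat_lit 234) (nat_lit 152) (nat_lit 0) (XT.nd (nat_lit 78) (nat_lit 76) (nat_lit 0) (XT.lf (nat_lit 0) (nat_lit 17036798625) (nat_lit 76) (nat_lit 1534927519) (nat_lit 152) (nat_lit 121160466172) (nat_lit 17) (nat_lit 5) (nat_lit 18) (nat_lit 5) (nat_lit 19) (nat_lit 4) (nat_lit 467) (nat_lit 409) (nat_lit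 324)) (XT.nd (nat_lit 78) (nat_lit 76) (nat_lit 0) (XT.lf (nat_lit 0) (nat_lit 55017705473) (nat_lit 152) (nat_lit 57944974707) (nat_lit 0) (nat_lit 35022611439) (nat_lit 17) (nat_lit 5) (nat_lit 19) (nat_lit 4) (nat_lit 17) (nat_lit 4) (nat_lit 468) (nat_lit 409) (nat_lit 323)) (XT.lf (nat_lit 0) (nat_lit 12558549644) (nat_lit 76) (nat_lit 82155206117) (nat_lit 76) (nat_lit 62158131802) (nat_lit 16) (nat_lit 4) (nat_lit 17) (nat_lit 5) (nat_lit 17) (nat_lit 4) (nat_lit 469) (nat_lit 409) (nat_lit 322)))) (XT.nd (nat_lit 78) (nat_lit 152) (nat_lit 0) (XT.lf (nat_lit 0) (nat_lit 91982835655) (nat_lit 76) (nat_lit 47179661486) (nat_lit 76) (nat_lit 27180753576) (nat_lit 16) (nat_lit 4) (nat_lit 17) (nat_lit 5) (nat_lit 17) (nat_lit 4) (nat_lit 470) (nat_lit 409) (nat_lit 321)) (XT.nd (nat_lit 78) (nat_lit 0) (nat_lit 0) (XT.lf (nat_lit 0) (nat_lit 968205328) (nat_lit 76) (nat_lit 9112953811)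 (nat_lit 152) (nat_lit 166469472241) (nat_lit 14) (nat_lit 5) (nat_lit 15) (nat_lit 5) (nat_lit 16) (nat_lit 4) (nat_lit 471) (nat_lit 409) (nat_lit 320)) (XT.lf (nat_lit 0) (nat_lit 51704159089) (nat_lit 152) (nat_lit 102402451736) (nat_lit 0) (nat_lit 33183624188) (nat_lit 14) (nat_lit 5) (nat_lit 16) (nat_lit 4) (nat_lit 14) (nat_lit 4) (nat_lit 472) (nat_lit 409) (nat_lit 319))))) (XT.nd (nat_lit 234) (nat_lit 152) (nat_lit 0) (XT.nd (nat_lit 78) (nat_lit 76) (nat_lit 0) (XT.lf (nat_lit 0) (nat_lit 96887280159) (nat_lit 152) (nat_lit 23617906849) (nat_lit 0) (nat_lit 78365397511) (nat_lit 14) (nat_lit 5) (nat_lit 16) (nat_lit 4) (nat_lit 14) (nat_lit 4) (nat_lit 473) (nat_lit 409) (nat_lit 318)) (XT.nd (nat_lit 78) (nat_lit 0) (nat_lit 0) (XT.lf (nat_lit 0) (nat_lit 64693476445) (nat_lit 76) (nat_lit 82541510638) (nat_lit 76) (nat_lit 64018380077) (nat_lit 13) (nat_lit 4) (nat_lit 14)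 (nat_lit 5) (nat_lit 14) (nat_lit 4) (nat_lit 474) (nat_lit 409) (nat_lit 317)) (XT.lf (nat_lit 0) (nat_lit 161401094528) (nat_lit 76) (nat_lit 40849383300) (nat_lit 76) (nat_lit 22325097264) (nat_lit 13) (nat_lit 4) (nat_lit 14) (nat_lit 5) (nat_lit 14) (nat_lit 4) (nat_lit 475) (nat_lit 409) (nat_lit 316)))) (XT.nd (nat_lit 78) (nat_lit 0) (nat_lit 0) (XT.lf (nat_lit 0) (nat_lit 22360701428) (nat_lit 152) (nat_lit 211288159792) (nat_lit 0) (nat_lit 5207594094) (nat_lit 11) (nat_lit 5) (nat_lit 13) (nat_lit 4) (nat_lit 11) (nat_lit 4) (nat_lit 476) (nat_lit 409) (nat_lit 315)) (XT.nd (nat_lit 78) (nat_lit 0) (nat_lit 0) (XT.lf (nat_lit 0) (nat_lit 72242928659) (nat_lit 152) (nat_lit 126675367479) (nat_lit 0) (nat_lit 55088904071) (nat_lit 11) (nat_lit 5) (nat_lit 13) (nat_lit 4) (nat_lit 11) (nat_lit 4) (nat_lit 477) (nat_lit 409) (nat_lit 314)) (XT.lf (nat_lit 0) (nat_lit 126110650344)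 (nat_lit 152) (nat_lit 35303984647) (nat_lit 0) (nat_lit 108955776447) (nat_lit 11) (nat_lit 5) (nat_lit 13) (nat_lit 4) (nat_lit 11) (nat_lit 4) (nat_lit 478) (nat_lit 409) (nat_lit 313)))))) (XT.nd (nat_lit 468) (nat_lit 228) (nat_lit 0) (XT.nd (nat_lit 234) (nat_lit 152) (nat_lit 0) (XT.nd (nat_lit 78) (nat_lit 0) (nat_lit 0) (XT.lf (nat_lit 0) (nat_lit 66704266302) (nat_lit 76) (nat_lit 119183055518) (nat_lit 76) (nat_lit 102027395224) (nat_lit 10) (nat_lit 4) (nat_lit 11) (nat_lit 5) (nat_lit 11) (nat_lit 4) (nat_lit 479) (nat_lit 409) (nat_lit 312)) (XT.nd (nat_lit 78) (nat_lit 0) (nat_lit 0) (XT.lf (nat_lit 0) (nat_lit 178871530713) (nat_lit 76) (nat_lit 72535284888) (nat_lit 76) (nat_lit 55378896449) (nat_lit 10) (nat_lit 4) (nat_lit 11) (nat_lit 5) (nat_lit 11) (nat_lit 4) (nat_lit 480) (nat_lit 409) (nat_lit 311)) (XT.lf (nat_lit 0) (nat_lit 300003458219) (nat_lit 76) (nat_lit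 22160165373) (nat_lit 76) (nat_lit 5003102725) (nat_lit 10) (nat_lit 4) (nat_lit 11) (nat_lit 5) (nat_lit 11) (nat_lit 4) (nat_lit 481) (nat_lit 409) (nat_lit 310)))) (XT.nd (nat_lit 78) (nat_lit 0) (nat_lit 0) (XT.lf (nat_lit 0) (nat_lit 49823290340) (nat_lit 152) (nat_lit 265091988288) (nat_lit 0) (nat_lit 33936543196) (nat_lit 8) (nat_lit 5) (nat_lit 10) (nat_lit 4) (nat_lit 8) (nat_lit 4) (nat_lit 482) (nat_lit 409) (nat_lit 309)) (XT.nd (nat_lit 78) (nat_lit 0) (nat_lit 0) (XT.lf (nat_lit 0) (nat_lit 110099040504) (nat_lit 152) (nat_lit 167843846838) (nat_lit 0) (nat_lit 94211758151) (nat_lit 8) (nat_lit 5) (nat_lit 10) (nat_lit 4) (nat_lit 8) (nat_lit 4) (nat_lit 483) (nat_lit 409) (nat_lit 308)) (XT.lf (nat_lit 0) (nat_lit 175193120914) (nat_lit 152) (nat_lit 62823529550) (nat_lit 0) (nat_lit 159305342997) (nat_lit 8) (nat_lit 5) (nat_lit 10) (nat_lit 4) (nat_lit 8) (nat_lit 4) (nat_lit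 484) (nat_lit 409) (nat_lit 307))))) (XT.nd (nat_lit 234) (nat_lit 152) (nat_lit 0) (XT.nd (nat_lit 78) (nat_lit 0) (nat_lit 0) (XT.lf (nat_lit 0) (nat_lit 53255354726) (nat_lit 76) (nat_lit 193516712106) (nat_lit 76) (nat_lit 177628475334) (nat_lit 7) (nat_lit 4) (nat_lit 8) (nat_lit 5) (nat_lit 8) (nat_lit 4) (nat_lit 485) (nat_lit 409) (nat_lit 306)) (XT.nd (nat_lit 78) (nat_lit 0) (nat_lit 0) (XT.lf (nat_lit 0) (nat_lit 182186452534) (nat_lit 76) (nat_lit 143605218252) (nat_lit 76) (nat_lit 127716556614) (nat_lit 7) (nat_lit 4) (nat_lit 8) (nat_lit 5) (nat_lit 8) (nat_lit 4) (nat_lit 486) (nat_lit 409) (nat_lit 305)) (XT.lf (nat_lit 0) (nat_lit 321425624277) (nat_lit 76) (nat_lit 89704103718) (nat_lit 76) (nat_lit 73815048686) (nat_lit 7) (nat_lit 4) (nat_lit 8) (nat_lit 5) (nat_lit 8) (nat_lit 4) (nat_lit 487) (nat_lit 409) (nat_lit 304)))) (XT.nd (nat_lit 156) (nat_lit 0) (nat_lit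 0) (XT.nd (nat_lit 78) (nat_lit 152) (nat_lit 0) (XT.lf (nat_lit 0) (nat_lit 471797990971) (nat_lit 76) (nat_lit 31493954491) (nat_lit 76) (nat_lit 15604535205) (nat_lit 7) (nat_lit 4) (nat_lit 8) (nat_lit 5) (nat_lit 8) (nat_lit 4) (nat_lit 488) (nat_lit 409) (nat_lit 303)) (XT.lf (nat_lit 0) (nat_lit 47692595820) (nat_lit 152) (nat_lit 474577408818) (nat_lit 0) (nat_lit 32979858267) (nat_lit 5) (nat_lit 5) (nat_lit 7) (nat_lit 4) (nat_lit 5) (nat_lit 4) (nat_lit 489) (nat_lit 409) (nat_lit 302))) (XT.nd (nat_lit 78) (nat_lit 0) (nat_lit 0) (XT.lf (nat_lit 0) (nat_lit 117346938844) (nat_lit 152) (nat_lit 374327320415) (nat_lit 0) (nat_lit 102633912134) (nat_lit 5) (nat_lit 5) (nat_lit 7) (nat_lit 4) (nat_lit 5) (nat_lit 4) (nat_lit 490) (nat_lit 409) (nat_lit 301)) (XT.lf (nat_lit 0) (nat_lit 192571094634) (nat_lit 152) (nat_lit 266062452527) (nat_lit 0) (nat_lit 177857800186) (nat_lit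 5) (nat_lit 5) (nat_lit 7) (nat_lit 4) (nat_lit 5) (nat_lit 4) (nat_lit 491) (nat_lit 409) (nat_lit 300))))))) (XT.nd (nat_lit 936) (nat_lit 76) (nat_lit 0) (XT.nd (nat_lit 468) (nat_lit 152) (nat_lit 0) (XT.nd (nat_lit 234) (nat_lit 0) (nat_lit 0) (XT.nd (nat_lit 78) (nat_lit 76) (nat_lit 0) (XT.lf (nat_lit 0) (nat_lit 273810835965) (nat_lit 152) (nat_lit 149141235568) (nat_lit 0) (nat_lit 259097293611) (nat_lit 5) (nat_lit 5) (nat_lit 7) (nat_lit 4) (nat_lit 5) (nat_lit 4) (nat_lit 492) (nat_lit 409) (nat_lit 299)) (XT.nd (nat_lit 78) (nat_lit 76) (nat_lit 0) (XT.lf (nat_lit 0) (nat_lit 361547583526) (nat_lit 152) (nat_lit 22870803066) (nat_lit 0) (nat_lit 346833811631) (nat_lit 5) (nat_lit 5) (nat_lit 7) (nat_lit 4) (nat_lit 5) (nat_lit 4) (nat_lit 493) (nat_lit 409) (nat_lit 298)) (XT.lf (nat_lit 0) (nat_lit 119473671107) (nat_lit 76) (nat_lit 339700932341) (nat_lit 76) (nat_lit 324986947908)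 (nat_lit 4) (nat_lit 4) (nat_lit 5) (nat_lit 5) (nat_lit 5) (nat_lit 4) (nat_lit 494) (nat_lit 409) (nat_lit 297)))) (XT.nd (nat_lit 78) (nat_lit 0) (nat_lit 0) (XT.lf (nat_lit 0) (nat_lit 274502341281) (nat_lit 76) (nat_lit 290732811631) (nat_lit 76) (nat_lit 276018630402) (nat_lit 4) (nat_lit 4) (nat_lit 5) (nat_lit 5) (nat_lit 5) (nat_lit 4) (nat_lit 495) (nat_lit 409) (nat_lit 296)) (XT.nd (nat_lit 78) (nat_lit 0) (nat_lit 0) (XT.lf (nat_lit 0) (nat_lit 441929559913) (nat_lit 76) (nat_lit 237849171291) (nat_lit 76) (nat_lit 223134807845) (nat_lit 4) (nat_lit 4) (nat_lit 5) (nat_lit 5) (nat_lit 5) (nat_lit 4) (nat_lit 496) (nat_lit 409) (nat_lit 295)) (XT.lf (nat_lit 0) (nat_lit 622747488297) (nat_lit 76) (nat_lit 180736626788) (nat_lit 76) (nat_lit 166022094621) (nat_lit 4) (nat_lit 4) (nat_lit 5) (nat_lit 5) (nat_lit 5) (nat_lit 4) (nat_lit 497) (nat_lit 409) (nat_lit 294))))) (XT.nd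 (nat_lit 234) (nat_lit 0) (nat_lit 0) (XT.nd (nat_lit 78) (nat_lit 152) (nat_lit 0) (XT.lf (nat_lit 0) (nat_lit 818027640084) (nat_lit 76) (nat_lit 119056733411) (nat_lit 76) (nat_lit 104342045022) (nat_lit 4) (nat_lit 4) (nat_lit 5) (nat_lit 5) (nat_lit 5) (nat_lit 4) (nat_lit 498) (nat_lit 409) (nat_lit 293)) (XT.nd (nat_lit 78) (nat_lit 152) (nat_lit 0) (XT.lf (nat_lit 0) (nat_lit 1028927230988) (nat_lit 76) (nat_lit 52443980683) (nat_lit 76) (nat_lit 37729147644) (nat_lit 4) (nat_lit 4) (nat_lit 5) (nat_lit 5) (nat_lit 5) (nat_lit 4) (nat_lit 499) (nat_lit 409) (nat_lit 292)) (XT.lf (nat_lit 0) (nat_lit 34363844614) (nat_lit 152) (nat_lit 1147670668119) (nat_lit 0) (nat_lit 20738875193) (nat_lit 2) (nat_lit 5) (nat_lit 4) (nat_lit 4) (nat_lit 2) (nat_lit 4) (nat_lit 500) (nat_lit 409) (nat_lit 291)))) (XT.nd (nat_lit 78) (nat_lit 0) (nat_lit 0) (XT.lf (nat_lit 0) (nat_lit 114076267730)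 (nat_lit 152) (nat_lit 1078223181760) (nat_lit 0) (nat_lit 100451183481) (nat_lit 2) (nat_lit 5) (nat_lit 4) (nat_lit 4) (nat_lit 2) (nat_lit 4) (nat_lit 501) (nat_lit 409) (nat_lit 290)) (XT.nd (nat_lit 78) (nat_lit 0) (nat_lit 0) (XT.lf (nat_lit 0) (nat_lit 200164418210) (nat_lit 152) (nat_lit 1003222513092) (nat_lit 0) (nat_lit 186539227639) (nat_lit 2) (nat_lit 5) (nat_lit 4) (nat_lit 4) (nat_lit 2) (nat_lit 4) (nat_lit 502) (nat_lit 409) (nat_lit 289)) (XT.lf (nat_lit 0) (nat_lit 293138448060) (nat_lit 152) (nat_lit 922224213709) (nat_lit 0) (nat_lit 279513159042) (nat_lit 2) (nat_lit 5) (nat_lit 4) (nat_lit 4) (nat_lit 2) (nat_lit 4) (nat_lit 503) (nat_lit 409) (nat_lit 288)))))) (XT.nd (nat_lit 468) (nat_lit 76) (nat_lit 0) (XT.nd (nat_lit 234) (nat_lit 0) (nat_lit 0) (XT.nd (nat_lit 78) (nat_lit 0) (nat_lit 0) (XT.lf (nat_lit 0) (nat_lit 393549314491) (nat_lit 152) (nat_lit 834748293686)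 (nat_lit 0) (nat_lit 379923934319) (nat_lit 2) (nat_lit 5) (nat_lit 4) (nat_lit 4) (nat_lit 2) (nat_lit 4) (nat_lit 504) (nat_lit 409) (nat_lit 287)) (XT.nd (nat_lit 78) (nat_lit 0) (nat_lit 0) (XT.lf (nat_lit 0) (nat_lit 501992044862) (nat_lit 152) (nat_lit 740276377203) (nat_lit 0) (nat_lit 488366580288) (nat_lit 2) (nat_lit 5) (nat_lit 4) (nat_lit 4) (nat_lit 2) (nat_lit 4) (nat_lit 505) (nat_lit 409) (nat_lit 286)) (XT.lf (nat_lit 0) (nat_lit 619109262759) (nat_lit 152) (nat_lit 638248630680) (nat_lit 0) (nat_lit 605483720035) (nat_lit 2) (nat_lit 5) (nat_lit 4) (nat_lit 4) (nat_lit 2) (nat_lit 4) (nat_lit 506) (nat_lit 409) (nat_lit 285)))) (XT.nd (nat_lit 78) (nat_lit 0) (nat_lit 0) (XT.lf (nat_lit 0) (nat_lit 745594996141) (nat_lit 152) (nat_lit 528060445249) (nat_lit 0) (nat_lit 731969381056) (nat_lit 2) (nat_lit 5) (nat_lit 4) (nat_lit 4) (nat_lit 2) (nat_lit 4) (nat_lit 507) (nat_lit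 409) (nat_lit 284)) (XT.nd (nat_lit 78) (nat_lit 0) (nat_lit 0) (XT.lf (nat_lit 0) (nat_lit 882198790094) (nat_lit 152) (nat_lit 409058853884) (nat_lit 0) (nat_lit 868573108007) (nat_lit 2) (nat_lit 5) (nat_lit 4) (nat_lit 4) (nat_lit 2) (nat_lit 4) (nat_lit 508) (nat_lit 409) (nat_lit 283)) (XT.lf (nat_lit 0) (nat_lit 1029730148582) (nat_lit 152) (nat_lit 280538661971) (nat_lit 0) (nat_lit 1016104404457) (nat_lit 2) (nat_lit 5) (nat_lit 4) (nat_lit 4) (nat_lit 2) (nat_lit 4) (nat_lit 509) (nat_lit 409) (nat_lit 282))))) (XT.nd (nat_lit 234) (nat_lit 0) (nat_lit 0) (XT.nd (nat_lit 78) (nat_lit 76) (nat_lit 0) (XT.lf (nat_lit 0) (nat_lit 1189063331507) (nat_lit 152) (nat_lit 141738268373) (nat_lit 0) (nat_lit 1175437529940) (nat_lit 2) (nat_lit 5) (nat_lit 4) (nat_lit 4) (nat_lit 2) (nat_lit 4) (nat_lit 510) (nat_lit 409) (nat_lit 281)) (XT.nd (nat_lit 78) (nat_lit 0) (nat_lit 0) (XT.lf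 (nat_lit 0) (nat_lit 8594794175) (nat_lit 76) (nat_lit 1352754446340) (nat_lit 76) (nat_lit 1339128591586) (nat_lit 1) (nat_lit 4) (nat_lit 2) (nat_lit 5) (nat_lit 2) (nat_lit 4) (nat_lit 511) (nat_lit 409) (nat_lit 280)) (XT.lf (nat_lit 0) (nat_lit 179014006828) (nat_lit 76) (nat_lit 1372278773545) (nat_lit 76) (nat_lit 1358652869543) (nat_lit 1) (nat_lit 4) (nat_lit 2) (nat_lit 5) (nat_lit 2) (nat_lit 4) (nat_lit 512) (nat_lit 409) (nat_lit 279)))) (XT.nd (nat_lit 156) (nat_lit 0) (nat_lit 0) (XT.nd (nat_lit 78) (nat_lit 0) (nat_lit 0) (XT.lf (nat_lit 0) (nat_lit 363065575185) (nat_lit 76) (nat_lit 1393365656652) (nat_lit 76) (nat_lit 1379739707050) (nat_lit 1) (nat_lit 4) (nat_lit 2) (nat_lit 5) (nat_lit 2) (nat_lit 4) (nat_lit 513) (nat_lit 409) (nat_lit 278)) (XT.lf (nat_lit 0) (nat_lit 561840175206) (nat_lit 76) (nat_lit 1416140054967) (nat_lit 76) (nat_lit 1402514063143) (nat_lit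 1) (nat_lit 4) (nat_lit 2) (nat_lit 5) (nat_lit 2) (nat_lit 4) (nat_lit 514) (nat_lit 409) (nat_lit 277))) (XT.nd (nat_lit 78) (nat_lit 0) (nat_lit 0) (XT.lf (nat_lit 0) (nat_lit 776515730448) (nat_lit 76) (nat_lit 1440736927888) (nat_lit 76) (nat_lit 1427110896970) (nat_lit 1) (nat_lit 4) (nat_lit 2) (nat_lit 5) (nat_lit 2) (nat_lit 4) (nat_lit 515) (nat_lit 409) (nat_lit 276)) (XT.lf (nat_lit 0) (nat_lit 1008364392347) (nat_lit 76) (nat_lit 1467302034663) (nat_lit 76) (nat_lit 1453675967545) (nat_lit 1) (nat_lit 4) (nat_lit 2) (nat_lit 5) (nat_lit 2) (nat_lit 4) (nat_lit 516) (nat_lit 409) (nat_lit 275))))))))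
noncomputable def xc118 : XT := (XT.nd (nat_lit 54678) (nat_lit 0) (nat_lit 3040) (XT.nd (nat_lit 936) (nat_lit 0) (nat_lit 0) (XT.nd (nat_lit 468) (nat_lit 0) (nat_lit 0) (XT.nd (nat_lit 234) (nat_lit 0) (nat_lit 0) (XT.nd (nat_lit 78) (nat_lit 0) (nat_lit 0) (XT.lf (nat_lit 0) (nat_lit 1258760078902) (nat_lit 76) (nat_lit 1495992798145) (nat_lit 76) (nat_lit 1482366697510) (nat_lit 1) (nat_lit 4) (nat_lit 2) (nat_lit 5) (nat_lit 2) (nat_lit 4) (nat_lit 517) (nat_lit 409) (nat_lit 274)) (XT.nd (nat_lit 78) (nat_lit 0) (nat_lit 0) (XT.lf (nat_lit 0) (nat_lit 1529186616403) (nat_lit 76) (nat_lit 1526979237674) (nat_lit 76) (nat_lit 1513353106005) (nat_lit 1) (nat_lit 4) (nat_lit 2) (nat_lit 5) (nat_lit 2) (nat_lit 4) (nat_lit 518) (nat_lit 409) (nat_lit 273)) (XT.lf (nat_lit 0) (nat_lit 1821246532479) (nat_lit 76) (nat_lit 1560444976596) (nat_lit 76) (nat_lit 1546818816191) (nat_lit 1) (nat_lit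 4) (nat_lit 2) (nat_lit 5) (nat_lit 2) (nat_lit 4) (nat_lit 519) (nat_lit 409) (nat_lit 272)))) (XT.nd (nat_lit 78) (nat_lit 0) (nat_lit 0) (XT.lf (nat_lit 0) (nat_lit 2136670552558) (nat_lit 76) (nat_lit 1596588330400) (nat_lit 76) (nat_lit 1582962143389) (nat_lit 1) (nat_lit 4) (nat_lit 2) (nat_lit 5) (nat_lit 2) (nat_lit 4) (nat_lit 520) (nat_lit 409) (nat_lit 271)) (XT.nd (nat_lit 78) (nat_lit 0) (nat_lit 0) (XT.lf (nat_lit 0) (nat_lit 2477327856020) (nat_lit 76) (nat_lit 1635623481924) (nat_lit 76) (nat_lit 1621997270276) (nat_lit 1) (nat_lit 4) (nat_lit 2) (nat_lit 5) (nat_lit 2) (nat_lit 4) (nat_lit 521) (nat_lit 409) (nat_lit 270)) (XT.lf (nat_lit 0) (nat_lit 2845237152811) (nat_lit 76) (nat_lit 1677781750584) (nat_lit 76) (nat_lit 1664155516125) (nat_lit 1) (nat_lit 4) (nat_lit 2) (nat_lit 5) (nat_lit 2) (nat_lit 4) (nat_lit 522) (nat_lit 409) (nat_lit 269))))) (XT.nd (nat_lit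 234) (nat_lit 0) (nat_lit 0) (XT.nd (nat_lit 78) (nat_lit 0) (nat_lit 0) (XT.lf (nat_lit 0) (nat_lit 3242578646170) (nat_lit 76) (nat_lit 1723312963158) (nat_lit 76) (nat_lit 1709686707577) (nat_lit 1) (nat_lit 4) (nat_lit 2) (nat_lit 5) (nat_lit 2) (nat_lit 4) (nat_lit 523) (nat_lit 409) (nat_lit 268)) (XT.nd (nat_lit 78) (nat_lit 0) (nat_lit 0) (XT.lf (nat_lit 0) (nat_lit 3671706952355) (nat_lit 76) (nat_lit 1772486934237) (nat_lit 76) (nat_lit 1758860659100) (nat_lit 1) (nat_lit 4) (nat_lit 2) (nat_lit 5) (nat_lit 2) (nat_lit 4) (nat_lit 524) (nat_lit 409) (nat_lit 267)) (XT.lf (nat_lit 0) (nat_lit 4135165053921) (nat_lit 76) (nat_lit 1825595065134) (nat_lit 76) (nat_lit 1811968771888) (nat_lit 1) (nat_lit 4) (nat_lit 2) (nat_lit 5) (nat_lit 2) (nat_lit 4) (nat_lit 525) (nat_lit 409) (nat_lit 266)))) (XT.nd (nat_lit 78) (nat_lit 0) (nat_lit 0) (XT.lf (nat_lit 0) (nat_lit 4635699369248)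 (nat_lit 76) (nat_lit 1882952070697) (nat_lit 76) (nat_lit 1869325760684) (nat_lit 1) (nat_lit 4) (nat_lit 2) (nat_lit 5) (nat_lit 2) (nat_lit 4) (nat_lit 526) (nat_lit 409) (nat_lit 265)) (XT.nd (nat_lit 78) (nat_lit 0) (nat_lit 0) (XT.lf (nat_lit 0) (nat_lit 5176276027611) (nat_lit 76) (nat_lit 1944897844292) (nat_lit 76) (nat_lit 1931271518754) (nat_lit 1) (nat_lit 4) (nat_lit 2) (nat_lit 5) (nat_lit 2) (nat_lit 4) (nat_lit 527) (nat_lit 409) (nat_lit 264)) (XT.lf (nat_lit 0) (nat_lit 5760098446245) (nat_lit 76) (nat_lit 2011799471986) (nat_lit 76) (nat_lit 1998173132073) (nat_lit 1) (nat_lit 4) (nat_lit 2) (nat_lit 5) (nat_lit 2) (nat_lit 4) (nat_lit 528) (nat_lit 409) (nat_lit 263)))))) (XT.nd (nat_lit 53196) (nat_lit 0) (nat_lit 6080) (XT.nd (nat_lit 234) (nat_lit 0) (nat_lit 0) (XT.nd (nat_lit 78) (nat_lit 0) (nat_lit 0) (XT.lf (nat_lit 0) (nat_lit 6390626313558) (nat_lit 76) (nat_lit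 2084053407868) (nat_lit 76) (nat_lit 2070427054645) (nat_lit 1) (nat_lit 4) (nat_lit 2) (nat_lit 5) (nat_lit 2) (nat_lit 4) (nat_lit 529) (nat_lit 409) (nat_lit 262)) (XT.nd (nat_lit 78) (nat_lit 0) (nat_lit 0) (XT.lf (nat_lit 0) (nat_lit 7071596090985) (nat_lit 76) (nat_lit 2162087823410) (nat_lit 76) (nat_lit 2148461457863) (nat_lit 1) (nat_lit 4) (nat_lit 2) (nat_lit 5) (nat_lit 2) (nat_lit 4) (nat_lit 530) (nat_lit 409) (nat_lit 261)) (XT.lf (nat_lit 0) (nat_lit 7807043154984) (nat_lit 76) (nat_lit 2246365144779) (nat_lit 76) (nat_lit 2232738767820) (nat_lit 1) (nat_lit 4) (nat_lit 2) (nat_lit 5) (nat_lit 2) (nat_lit 4) (nat_lit 531) (nat_lit 409) (nat_lit 260)))) (XT.nd (nat_lit 78) (nat_lit 0) (nat_lit 0) (XT.lf (nat_lit 0) (nat_lit 8601325710380) (nat_lit 76) (nat_lit 2337384793138) (nat_lit 76) (nat_lit 2323758405613) (nat_lit 1) (nat_lit 4) (nat_lit 2) (nat_lit 5) (nat_lit 2) (nat_lit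 4) (nat_lit 532) (nat_lit 409) (nat_lit 259)) (XT.nd (nat_lit 78) (nat_lit 0) (nat_lit 0) (XT.lf (nat_lit 0) (nat_lit 9459150616761) (nat_lit 76) (nat_lit 2435686144181) (nat_lit 76) (nat_lit 2422059746873) (nat_lit 1) (nat_lit 4) (nat_lit 2) (nat_lit 5) (nat_lit 2) (nat_lit 4) (nat_lit 533) (nat_lit 409) (nat_lit 258)) (XT.lf (nat_lit 0) (nat_lit 10385601280977) (nat_lit 76) (nat_lit 2541851724432) (nat_lit 76) (nat_lit 2528225318066) (nat_lit 1) (nat_lit 4) (nat_lit 2) (nat_lit 5) (nat_lit 2) (nat_lit 4) (nat_lit 534) (nat_lit 409) (nat_lit 257))))) (XT.nd (nat_lit 234) (nat_lit 0) (nat_lit 76) (XT.nd (nat_lit 78) (nat_lit 0) (nat_lit 0) (XT.lf (nat_lit 0) (nat_lit 730868374) (nat_lit 532) (nat_lit 1967586911) (nat_lit 532) (nat_lit 1967586911) (nat_lit 81) (nat_lit 3) (nat_lit 88) (nat_lit 3) (nat_lit 88) (nat_lit 5) (nat_lit 410) (nat_lit 410) (nat_lit 380)) (XT.nd (nat_lit 78) (nat_lit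 0) (nat_lit 76) (XT.lf (nat_lit 76) (nat_lit 731550370) (nat_lit 0) (nat_lit 1608934237) (nat_lit 532) (nat_lit 7299046268) (nat_lit 82) (nat_lit 5) (nat_lit 81) (nat_lit 3) (nat_lit 88) (nat_lit 5) (nat_lit 411) (nat_lit 410) (nat_lit 379)) (XT.lf (nat_lit 0) (nat_lit 3379070125) (nat_lit 456) (nat_lit 4083099170) (nat_lit 532) (nat_lit 2502262227) (nat_lit 82) (nat_lit 5) (nat_lit 88) (nat_lit 5) (nat_lit 89) (nat_lit 5) (nat_lit 412) (nat_lit 410) (nat_lit 378)))) (XT.nd (nat_lit 156) (nat_lit 0) (nat_lit 76) (XT.nd (nat_lit 78) (nat_lit 0) (nat_lit 76) (XT.lf (nat_lit 76) (nat_lit 1091456982) (nat_lit 0) (nat_lit 3402746353) (nat_lit 532) (nat_lit 5821663901) (nat_lit 83) (nat_lit 5) (nat_lit 82) (nat_lit 5) (nat_lit 89) (nat_lit 5) (nat_lit 413) (nat_lit 410) (nat_lit 377)) (XT.lf (nat_lit 0) (nat_lit 5767020089) (nat_lit 456) (nat_lit 3854855210) (nat_lit 532) (nat_lit 1068083085)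 (nat_lit 83) (nat_lit 5) (nat_lit 89) (nat_lit 5) (nat_lit 90) (nat_lit 5) (nat_lit 414) (nat_lit 410) (nat_lit 376))) (XT.nd (nat_lit 78) (nat_lit 0) (nat_lit 0) (XT.lf (nat_lit 76) (nat_lit 1900924562) (nat_lit 0) (nat_lit 5310329198) (nat_lit 532) (nat_lit 3877172783) (nat_lit 84) (nat_lit 5) (nat_lit 83) (nat_lit 5) (nat_lit 90) (nat_lit 5) (nat_lit 415) (nat_lit 410) (nat_lit 375)) (XT.lf (nat_lit 76) (nat_lit 8287614201) (nat_lit 0) (nat_lit 527906997) (nat_lit 532) (nat_lit 2699707135) (nat_lit 84) (nat_lit 5) (nat_lit 83) (nat_lit 5) (nat_lit 90) (nat_lit 5) (nat_lit 416) (nat_lit 410) (nat_lit 374))))))) (XT.nd (nat_lit 936) (nat_lit 1216) (nat_lit 0) (XT.nd (nat_lit 468) (nat_lit 608) (nat_lit 0) (XT.nd (nat_lit 234) (nat_lit 456) (nat_lit 0) (XT.nd (nat_lit 78) (nat_lit 532) (nat_lit 0) (XT.lf (nat_lit 0) (nat_lit 3208058205) (nat_lit 456) (nat_lit 7472626095) (nat_lit 532) (nat_lit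 1284900238) (nat_lit 78) (nat_lit 5) (nat_lit 84) (nat_lit 5) (nat_lit 85) (nat_lit 5) (nat_lit 417) (nat_lit 410) (nat_lit 373)) (XT.nd (nat_lit 78) (nat_lit 456) (nat_lit 0) (XT.lf (nat_lit 0) (nat_lit 280654315) (nat_lit 532) (nat_lit 2176201181) (nat_lit 76) (nat_lit 9990680683) (nat_lit 77) (nat_lit 5) (nat_lit 84) (nat_lit 5) (nat_lit 78) (nat_lit 5) (nat_lit 418) (nat_lit 410) (nat_lit 372)) (XT.lf (nat_lit 0) (nat_lit 2049656866) (nat_lit 532) (nat_lit 7929003098) (nat_lit 76) (nat_lit 2974915937) (nat_lit 71) (nat_lit 5) (nat_lit 78) (nat_lit 5) (nat_lit 72) (nat_lit 5) (nat_lit 419) (nat_lit 410) (nat_lit 371)))) (XT.nd (nat_lit 78) (nat_lit 456) (nat_lit 0) (XT.lf (nat_lit 0) (nat_lit 4037202781) (nat_lit 532) (nat_lit 685952316) (nat_lit 76) (nat_lit 8770792592) (nat_lit 71) (nat_lit 5) (nat_lit 78) (nat_lit 5) (nat_lit 72) (nat_lit 5) (nat_lit 420) (nat_lit 410) (nat_lit 370))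 (XT.nd (nat_lit 78) (nat_lit 228) (nat_lit 0) (XT.lf (nat_lit 0) (nat_lit 6346467010) (nat_lit 304) (nat_lit 6631070722) (nat_lit 76) (nat_lit 1087004262) (nat_lit 68) (nat_lit 5) (nat_lit 72) (nat_lit 5) (nat_lit 69) (nat_lit 5) (nat_lit 421) (nat_lit 410) (nat_lit 369)) (XT.lf (nat_lit 0) (nat_lit 1463411540) (nat_lit 228) (nat_lit 7511988011) (nat_lit 304) (nat_lit 5694599330) (nat_lit 65) (nat_lit 5) (nat_lit 68) (nat_lit 5) (nat_lit 69) (nat_lit 5) (nat_lit 422) (nat_lit 410) (nat_lit 368))))) (XT.nd (nat_lit 234) (nat_lit 380) (nat_lit 0) (XT.nd (nat_lit 78) (nat_lit 228) (nat_lit 0) (XT.lf (nat_lit 0) (nat_lit 10534999026) (nat_lit 228) (nat_lit 1420744468) (nat_lit 304) (nat_lit 3356869607) (nat_lit 65) (nat_lit 5) (nat_lit 68) (nat_lit 5) (nat_lit 69) (nat_lit 5) (nat_lit 423) (nat_lit 410) (nat_lit 367)) (XT.nd (nat_lit 78) (nat_lit 76) (nat_lit 0) (XT.lf (nat_lit 0) (nat_lit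 4373547367) (nat_lit 152) (nat_lit 10992802768) (nat_lit 228) (nat_lit 624947403) (nat_lit 63) (nat_lit 5) (nat_lit 65) (nat_lit 5) (nat_lit 66) (nat_lit 5) (nat_lit 424) (nat_lit 410) (nat_lit 366)) (XT.lf (nat_lit 0) (nat_lit 2343462634) (nat_lit 228) (nat_lit 2329159640) (nat_lit 76) (nat_lit 12036445592) (nat_lit 62) (nat_lit 5) (nat_lit 65) (nat_lit 5) (nat_lit 63) (nat_lit 5) (nat_lit 425) (nat_lit 410) (nat_lit 365)))) (XT.nd (nat_lit 78) (nat_lit 152) (nat_lit 0) (XT.lf (nat_lit 0) (nat_lit 5732100014) (nat_lit 304) (nat_lit 9482571888) (nat_lit 76) (nat_lit 2250974158) (nat_lit 59) (nat_lit 5) (nat_lit 63) (nat_lit 5) (nat_lit 60) (nat_lit 5) (nat_lit 426) (nat_lit 410) (nat_lit 364)) (XT.nd (nat_lit 78) (nat_lit 0) (nat_lit 0) (XT.lf (nat_lit 0) (nat_lit 849229107) (nat_lit 152) (nat_lit 8717013344) (nat_lit 228) (nat_lit 8702560738) (nat_lit 57) (nat_lit 5) (nat_lit 59) (nat_lit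 5) (nat_lit 60) (nat_lit 5) (nat_lit 427) (nat_lit 410) (nat_lit 363)) (XT.lf (nat_lit 0) (nat_lit 12502679824) (nat_lit 152) (nat_lit 1432353409) (nat_lit 228) (nat_lit 5182951671) (nat_lit 57) (nat_lit 5) (nat_lit 59) (nat_lit 5) (nat_lit 60) (nat_lit 5) (nat_lit 428) (nat_lit 410) (nat_lit 362)))))) (XT.nd (nat_lit 468) (nat_lit 532) (nat_lit 0) (XT.nd (nat_lit 234) (nat_lit 304) (nat_lit 0) (XT.nd (nat_lit 78) (nat_lit 228) (nat_lit 0) (XT.lf (nat_lit 0) (nat_lit 5111282507) (nat_lit 152) (nat_lit 13790418600) (nat_lit 228) (nat_lit 1113535120) (nat_lit 55) (nat_lit 5) (nat_lit 57) (nat_lit 5) (nat_lit 58) (nat_lit 5) (nat_lit 429) (nat_lit 410) (nat_lit 361)) (XT.nd (nat_lit 78) (nat_lit 152) (nat_lit 0) (XT.lf (nat_lit 0) (nat_lit 3311173121) (nat_lit 228) (nat_lit 2981787298) (nat_lit 76) (nat_lit 14669486894) (nat_lit 54) (nat_lit 5) (nat_lit 57) (nat_lit 5) (nat_lit 55) (nat_lit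 5) (nat_lit 430) (nat_lit 410) (nat_lit 360)) (XT.lf (nat_lit 0) (nat_lit 8301968905) (nat_lit 228) (nat_lit 11673219791) (nat_lit 76) (nat_lit 1986155041) (nat_lit 52) (nat_lit 5) (nat_lit 55) (nat_lit 5) (nat_lit 53) (nat_lit 5) (nat_lit 431) (nat_lit 410) (nat_lit 359)))) (XT.nd (nat_lit 78) (nat_lit 152) (nat_lit 0) (XT.lf (nat_lit 0) (nat_lit 1630687146) (nat_lit 152) (nat_lit 12321626626) (nat_lit 228) (nat_lit 9067018929) (nat_lit 50) (nat_lit 5) (nat_lit 52) (nat_lit 5) (nat_lit 53) (nat_lit 5) (nat_lit 432) (nat_lit 410) (nat_lit 358)) (XT.nd (nat_lit 78) (nat_lit 152) (nat_lit 0) (XT.lf (nat_lit 0) (nat_lit 16622917592) (nat_lit 152) (nat_lit 3725873755) (nat_lit 228) (nat_lit 3789644412) (nat_lit 50) (nat_lit 5) (nat_lit 52) (nat_lit 5) (nat_lit 53) (nat_lit 5) (nat_lit 433) (nat_lit 410) (nat_lit 357)) (XT.lf (nat_lit 0) (nat_lit 2116850100) (nat_lit 152) (nat_lit 17697547628)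 (nat_lit 76) (nat_lit 5504799789) (nat_lit 48) (nat_lit 5) (nat_lit 50) (nat_lit 5) (nat_lit 49) (nat_lit 5) (nat_lit 434) (nat_lit 410) (nat_lit 356))))) (XT.nd (nat_lit 234) (nat_lit 304) (nat_lit 0) (XT.nd (nat_lit 78) (nat_lit 228) (nat_lit 0) (XT.lf (nat_lit 0) (nat_lit 8575441582) (nat_lit 152) (nat_lit 2420010286) (nat_lit 76) (nat_lit 15568351119) (nat_lit 48) (nat_lit 5) (nat_lit 50) (nat_lit 5) (nat_lit 49) (nat_lit 5) (nat_lit 435) (nat_lit 410) (nat_lit 355)) (XT.nd (nat_lit 78) (nat_lit 76) (nat_lit 0) (XT.lf (nat_lit 0) (nat_lit 14783434101) (nat_lit 152) (nat_lit 1101268754) (nat_lit 228) (nat_lit 11996557930) (nat_lit 46) (nat_lit 5) (nat_lit 48) (nat_lit 5) (nat_lit 49) (nat_lit 5) (nat_lit 436) (nat_lit 410) (nat_lit 354)) (XT.lf (nat_lit 0) (nat_lit 4140622906) (nat_lit 76) (nat_lit 20014914783) (nat_lit 152) (nat_lit 5118433210) (nat_lit 45) (nat_lit 5) (nat_lit 46)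 (nat_lit 5) (nat_lit 47) (nat_lit 4) (nat_lit 437) (nat_lit 410) (nat_lit 353)))) (XT.nd (nat_lit 156) (nat_lit 76) (nat_lit 0) (XT.nd (nat_lit 78) (nat_lit 152) (nat_lit 0) (XT.lf (nat_lit 0) (nat_lit 2569455053) (nat_lit 152) (nat_lit 7376306549) (nat_lit 76) (nat_lit 20797888569) (nat_lit 44) (nat_lit 5) (nat_lit 46) (nat_lit 5) (nat_lit 45) (nat_lit 5) (nat_lit 438) (nat_lit 410) (nat_lit 352)) (XT.lf (nat_lit 0) (nat_lit 10904087838) (nat_lit 228) (nat_lit 20084080739) (nat_lit 76) (nat_lit 1307441987) (nat_lit 42) (nat_lit 5) (nat_lit 45) (nat_lit 5) (nat_lit 43) (nat_lit 4) (nat_lit 439) (nat_lit 410) (nat_lit 351))) (XT.nd (nat_lit 78) (nat_lit 76) (nat_lit 0) (XT.lf (nat_lit 0) (nat_lit 20351644275) (nat_lit 228) (nat_lit 467314547) (nat_lit 76) (nat_lit 13117078418) (nat_lit 42) (nat_lit 5) (nat_lit 45) (nat_lit 5) (nat_lit 43) (nat_lit 4) (nat_lit 440) (nat_lit 410) (nat_lit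 350)) (XT.lf (nat_lit 0) (nat_lit 21776628153) (nat_lit 76) (nat_lit 9284421977) (nat_lit 152) (nat_lit 4606165896) (nat_lit 41) (nat_lit 5) (nat_lit 42) (nat_lit 5) (nat_lit 43) (nat_lit 4) (nat_lit 441) (nat_lit 410) (nat_lit 349))))))))
noncomputable def xc119 : XT := (XT.nd (nat_lit 1950) (nat_lit 1064) (nat_lit 0) (XT.nd (nat_lit 936) (nat_lit 836) (nat_lit 0) (XT.nd (nat_lit 468) (nat_lit 380) (nat_lit 0) (XT.nd (nat_lit 234) (nat_lit 228) (nat_lit 0) (XT.nd (nat_lit 78) (nat_lit 76) (nat_lit 0) (XT.lf (nat_lit 0) (nat_lit 5122055807) (nat_lit 152) (nat_lit 29030971390) (nat_lit 76) (nat_lit 3351159492) (nat_lit 39) (nat_lit 5) (nat_lit 41) (nat_lit 5) (nat_lit 40) (nat_lit 4) (nat_lit 442) (nat_lit 410) (nat_lit 348)) (XT.nd (nat_lit 78) (nat_lit 76) (nat_lit 0) (XT.lf (nat_lit 0) (nat_lit 15993161889) (nat_lit 152) (nat_lit 6444172889) (nat_lit 76) (nat_lit 16992131877) (nat_lit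 39) (nat_lit 5) (nat_lit 41) (nat_lit 5) (nat_lit 40) (nat_lit 4) (nat_lit 443) (nat_lit 410) (nat_lit 347)) (XT.lf (nat_lit 0) (nat_lit 18863694105) (nat_lit 76) (nat_lit 9307885921) (nat_lit 152) (nat_lit 13302180260) (nat_lit 38) (nat_lit 5) (nat_lit 39) (nat_lit 5) (nat_lit 40) (nat_lit 4) (nat_lit 444) (nat_lit 410) (nat_lit 346)))) (XT.nd (nat_lit 78) (nat_lit 152) (nat_lit 0) (XT.lf (nat_lit 0) (nat_lit 2888214430) (nat_lit 76) (nat_lit 38787590593) (nat_lit 76) (nat_lit 1977670780) (nat_lit 37) (nat_lit 4) (nat_lit 38) (nat_lit 5) (nat_lit 38) (nat_lit 4) (nat_lit 445) (nat_lit 410) (nat_lit 345)) (XT.nd (nat_lit 78) (nat_lit 76) (nat_lit 0) (XT.lf (nat_lit 0) (nat_lit 10600141772) (nat_lit 152) (nat_lit 14780075755) (nat_lit 76) (nat_lit 20538807233) (nat_lit 36) (nat_lit 5) (nat_lit 38) (nat_lit 5) (nat_lit 37) (nat_lit 4) (nat_lit 446) (nat_lit 410) (nat_lit 344)) (XT.lf (nat_lit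 0) (nat_lit 13900338753) (nat_lit 76) (nat_lit 10496677350) (nat_lit 152) (nat_lit 23939118344) (nat_lit 35) (nat_lit 5) (nat_lit 36) (nat_lit 5) (nat_lit 37) (nat_lit 4) (nat_lit 447) (nat_lit 410) (nat_lit 343))))) (XT.nd (nat_lit 234) (nat_lit 152) (nat_lit 0) (XT.nd (nat_lit 78) (nat_lit 228) (nat_lit 0) (XT.lf (nat_lit 0) (nat_lit 39831900973) (nat_lit 152) (nat_lit 5370879562) (nat_lit 0) (nat_lit 5701092311) (nat_lit 35) (nat_lit 5) (nat_lit 37) (nat_lit 4) (nat_lit 35) (nat_lit 4) (nat_lit 448) (nat_lit 410) (nat_lit 342)) (XT.nd (nat_lit 78) (nat_lit 76) (nat_lit 0) (XT.lf (nat_lit 0) (nat_lit 3617284655) (nat_lit 152) (nat_lit 26620418488) (nat_lit 76) (nat_lit 23359170726) (nat_lit 33) (nat_lit 5) (nat_lit 35) (nat_lit 5) (nat_lit 34) (nat_lit 4) (nat_lit 449) (nat_lit 410) (nat_lit 341)) (XT.lf (nat_lit 0) (nat_lit 5691043326) (nat_lit 76) (nat_lit 13466635146) (nat_lit 152)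 (nat_lit 37302696765) (nat_lit 32) (nat_lit 5) (nat_lit 33) (nat_lit 5) (nat_lit 34) (nat_lit 4) (nat_lit 450) (nat_lit 410) (nat_lit 340)))) (XT.nd (nat_lit 78) (nat_lit 152) (nat_lit 0) (XT.lf (nat_lit 0) (nat_lit 36786531899) (nat_lit 152) (nat_lit 17549826215) (nat_lit 0) (nat_lit 5148980928) (nat_lit 32) (nat_lit 5) (nat_lit 34) (nat_lit 4) (nat_lit 32) (nat_lit 4) (nat_lit 451) (nat_lit 410) (nat_lit 339)) (XT.nd (nat_lit 78) (nat_lit 76) (nat_lit 0) (XT.lf (nat_lit 0) (nat_lit 18898969564) (nat_lit 76) (nat_lit 37718744339) (nat_lit 76) (nat_lit 6071224959) (nat_lit 31) (nat_lit 4) (nat_lit 32) (nat_lit 5) (nat_lit 32) (nat_lit 4) (nat_lit 452) (nat_lit 410) (nat_lit 338)) (XT.lf (nat_lit 0) (nat_lit 11772012861) (nat_lit 152) (nat_lit 7170962636) (nat_lit 76) (nat_lit 47144576806) (nat_lit 30) (nat_lit 5) (nat_lit 32) (nat_lit 5) (nat_lit 31) (nat_lit 4) (nat_lit 453) (nat_lit 410)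 (nat_lit 337)))))) (XT.nd (nat_lit 468) (nat_lit 456) (nat_lit 0) (XT.nd (nat_lit 234) (nat_lit 152) (nat_lit 0) (XT.nd (nat_lit 78) (nat_lit 152) (nat_lit 0) (XT.lf (nat_lit 0) (nat_lit 31575612309) (nat_lit 152) (nat_lit 35845060813) (nat_lit 0) (nat_lit 2255894075) (nat_lit 29) (nat_lit 5) (nat_lit 31) (nat_lit 4) (nat_lit 29) (nat_lit 4) (nat_lit 454) (nat_lit 410) (nat_lit 336)) (XT.nd (nat_lit 78) (nat_lit 76) (nat_lit 0) (XT.lf (nat_lit 0) (nat_lit 4700783647) (nat_lit 76) (nat_lit 49057683954) (nat_lit 76) (nat_lit 19730638641) (nat_lit 28) (nat_lit 4) (nat_lit 29) (nat_lit 5) (nat_lit 29) (nat_lit 4) (nat_lit 455) (nat_lit 410) (nat_lit 335)) (XT.lf (nat_lit 0) (nat_lit 1098117001) (nat_lit 152) (nat_lit 27049746280) (nat_lit 76) (nat_lit 49379032618) (nat_lit 27) (nat_lit 5) (nat_lit 29) (nat_lit 5) (nat_lit 28) (nat_lit 4) (nat_lit 456) (nat_lit 410) (nat_lit 334)))) (XT.nd (nat_lit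 78) (nat_lit 76) (nat_lit 0) (XT.lf (nat_lit 0) (nat_lit 18416072762) (nat_lit 76) (nat_lit 4543631177) (nat_lit 152) (nat_lit 58852406546) (nat_lit 26) (nat_lit 5) (nat_lit 27) (nat_lit 5) (nat_lit 28) (nat_lit 4) (nat_lit 457) (nat_lit 410) (nat_lit 333)) (XT.nd (nat_lit 78) (nat_lit 76) (nat_lit 0) (XT.lf (nat_lit 0) (nat_lit 47822477648) (nat_lit 152) (nat_lit 17867161913) (nat_lit 0) (nat_lit 20650322181) (nat_lit 26) (nat_lit 5) (nat_lit 28) (nat_lit 4) (nat_lit 26) (nat_lit 4) (nat_lit 458) (nat_lit 410) (nat_lit 332)) (XT.lf (nat_lit 0) (nat_lit 32808075852) (nat_lit 76) (nat_lit 42763655509) (nat_lit 76) (nat_lit 15586513357) (nat_lit 25) (nat_lit 4) (nat_lit 26) (nat_lit 5) (nat_lit 26) (nat_lit 4) (nat_lit 459) (nat_lit 410) (nat_lit 331))))) (XT.nd (nat_lit 234) (nat_lit 228) (nat_lit 0) (XT.nd (nat_lit 78) (nat_lit 152) (nat_lit 0) (XT.lf (nat_lit 0) (nat_lit 9211402649) (nat_lit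 152) (nat_lit 8022041944) (nat_lit 76) (nat_lit 79071554870) (nat_lit 24) (nat_lit 5) (nat_lit 26) (nat_lit 5) (nat_lit 25) (nat_lit 4) (nat_lit 460) (nat_lit 410) (nat_lit 330)) (XT.nd (nat_lit 78) (nat_lit 76) (nat_lit 0) (XT.lf (nat_lit 0) (nat_lit 36593632255) (nat_lit 152) (nat_lit 53700692563) (nat_lit 0) (nat_lit 11421377871) (nat_lit 23) (nat_lit 5) (nat_lit 25) (nat_lit 4) (nat_lit 23) (nat_lit 4) (nat_lit 461) (nat_lit 410) (nat_lit 329)) (XT.lf (nat_lit 0) (nat_lit 1029976621) (nat_lit 76) (nat_lit 65825058934) (nat_lit 76) (nat_lit 40649139187) (nat_lit 22) (nat_lit 4) (nat_lit 23) (nat_lit 5) (nat_lit 23) (nat_lit 4) (nat_lit 462) (nat_lit 410) (nat_lit 328)))) (XT.nd (nat_lit 156) (nat_lit 76) (nat_lit 0) (XT.nd (nat_lit 78) (nat_lit 152) (nat_lit 0) (XT.lf (nat_lit 0) (nat_lit 63175795169) (nat_lit 76) (nat_lit 37821234447) (nat_lit 76) (nat_lit 12641920845) (nat_lit 22)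 (nat_lit 4) (nat_lit 23) (nat_lit 5) (nat_lit 23) (nat_lit 4) (nat_lit 463) (nat_lit 410) (nat_lit 327)) (XT.lf (nat_lit 0) (nat_lit 10093825309) (nat_lit 76) (nat_lit 6865925349) (nat_lit 152) (nat_lit 103252116572) (nat_lit 20) (nat_lit 5) (nat_lit 21) (nat_lit 5) (nat_lit 22) (nat_lit 4) (nat_lit 464) (nat_lit 410) (nat_lit 326))) (XT.nd (nat_lit 78) (nat_lit 76) (nat_lit 0) (XT.lf (nat_lit 0) (nat_lit 50292922283) (nat_lit 152) (nat_lit 49854578407) (nat_lit 0) (nat_lit 26973139187) (nat_lit 20) (nat_lit 5) (nat_lit 22) (nat_lit 4) (nat_lit 20) (nat_lit 4) (nat_lit 465) (nat_lit 410) (nat_lit 325)) (XT.lf (nat_lit 0) (nat_lit 15828153391) (nat_lit 76) (nat_lit 71016060721) (nat_lit 76) (nat_lit 47693783040) (nat_lit 19) (nat_lit 4) (nat_lit 20) (nat_lit 5) (nat_lit 20) (nat_lit 4) (nat_lit 466) (nat_lit 410) (nat_lit 324))))))) (XT.nd (nat_lit 1014) (nat_lit 456) (nat_lit 0) (XT.nd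 (nat_lit 468) (nat_lit 228) (nat_lit 0) (XT.nd (nat_lit 234) (nat_lit 228) (nat_lit 0) (XT.nd (nat_lit 78) (nat_lit 152) (nat_lit 0) (XT.lf (nat_lit 0) (nat_lit 89585902738) (nat_lit 76) (nat_lit 38089482884) (nat_lit 76) (nat_lit 14764895403) (nat_lit 19) (nat_lit 4) (nat_lit 20) (nat_lit 5) (nat_lit 20) (nat_lit 4) (nat_lit 467) (nat_lit 410) (nat_lit 323)) (XT.nd (nat_lit 78) (nat_lit 0) (nat_lit 0) (XT.lf (nat_lit 0) (nat_lit 18690140989) (nat_lit 76) (nat_lit 1510275921) (nat_lit 152) (nat_lit 130698912507) (nat_lit 17) (nat_lit 5) (nat_lit 18) (nat_lit 5) (nat_lit 19) (nat_lit 4) (nat_lit 468) (nat_lit 410) (nat_lit 322)) (XT.lf (nat_lit 0) (nat_lit 59554768901) (nat_lit 152) (nat_lit 62304377607) (nat_lit 0) (nat_lit 37954114765) (nat_lit 17) (nat_lit 5) (nat_lit 19) (nat_lit 4) (nat_lit 17) (nat_lit 4) (nat_lit 469) (nat_lit 410) (nat_lit 321)))) (XT.nd (nat_lit 78) (nat_lit 152)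 (nat_lit 0) (XT.lf (nat_lit 0) (nat_lit 13832436413) (nat_lit 76) (nat_lit 88590493209) (nat_lit 76) (nat_lit 66988141301) (nat_lit 16) (nat_lit 4) (nat_lit 17) (nat_lit 5) (nat_lit 17) (nat_lit 4) (nat_lit 470) (nat_lit 410) (nat_lit 320)) (XT.nd (nat_lit 78) (nat_lit 152) (nat_lit 0) (XT.lf (nat_lit 0) (nat_lit 99590724356) (nat_lit 76) (nat_lit 50827062740) (nat_lit 76) (nat_lit 29223138820) (nat_lit 16) (nat_lit 4) (nat_lit 17) (nat_lit 5) (nat_lit 17) (nat_lit 4) (nat_lit 471) (nat_lit 410) (nat_lit 319)) (XT.lf (nat_lit 0) (nat_lit 1295054324) (nat_lit 76) (nat_lit 9714769623) (nat_lit 152) (nat_lit 179655082769) (nat_lit 14) (nat_lit 5) (nat_lit 15) (nat_lit 5) (nat_lit 16) (nat_lit 4) (nat_lit 472) (nat_lit 410) (nat_lit 318))))) (XT.nd (nat_lit 234) (nat_lit 152) (nat_lit 0) (XT.nd (nat_lit 78) (nat_lit 76) (nat_lit 0) (XT.lf (nat_lit 0) (nat_lit 55956447124) (nat_lit 152) (nat_lit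 110357510757) (nat_lit 0) (nat_lit 35950218205) (nat_lit 14) (nat_lit 5) (nat_lit 16) (nat_lit 4) (nat_lit 14) (nat_lit 4) (nat_lit 473) (nat_lit 410) (nat_lit 317)) (XT.nd (nat_lit 78) (nat_lit 76) (nat_lit 0) (XT.lf (nat_lit 0) (nat_lit 104745628597) (nat_lit 152) (nat_lit 25287767991) (nat_lit 0) (nat_lit 84738244203) (nat_lit 14) (nat_lit 5) (nat_lit 16) (nat_lit 4) (nat_lit 14) (nat_lit 4) (nat_lit 474) (nat_lit 410) (nat_lit 316)) (XT.lf (nat_lit 0) (nat_lit 70082967197) (nat_lit 76) (nat_lit 89035378849) (nat_lit 76) (nat_lit 69026924569) (nat_lit 13) (nat_lit 4) (nat_lit 14) (nat_lit 5) (nat_lit 14) (nat_lit 4) (nat_lit 475) (nat_lit 410) (nat_lit 315)))) (XT.nd (nat_lit 156) (nat_lit 0) (nat_lit 0) (XT.nd (nat_lit 78) (nat_lit 152) (nat_lit 0) (XT.lf (nat_lit 0) (nat_lit 174511341939) (nat_lit 76) (nat_lit 44015988927) (nat_lit 76) (nat_lit 24006544013) (nat_lit 13) (nat_lit 4)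 (nat_lit 14) (nat_lit 5) (nat_lit 14) (nat_lit 4) (nat_lit 476) (nat_lit 410) (nat_lit 314)) (XT.lf (nat_lit 0) (nat_lit 24248739047) (nat_lit 152) (nat_lit 227987671354) (nat_lit 0) (nat_lit 5720625930) (nat_lit 11) (nat_lit 5) (nat_lit 13) (nat_lit 4) (nat_lit 11) (nat_lit 4) (nat_lit 477) (nat_lit 410) (nat_lit 313))) (XT.nd (nat_lit 78) (nat_lit 0) (nat_lit 0) (XT.lf (nat_lit 0) (nat_lit 78114197678) (nat_lit 152) (nat_lit 136620932783) (nat_lit 0) (nat_lit 59585298164) (nat_lit 11) (nat_lit 5) (nat_lit 13) (nat_lit 4) (nat_lit 11) (nat_lit 4) (nat_lit 478) (nat_lit 410) (nat_lit 312)) (XT.lf (nat_lit 0) (nat_lit 136284534526) (nat_lit 152) (nat_lit 37953799629) (nat_lit 0) (nat_lit 117754906866) (nat_lit 11) (nat_lit 5) (nat_lit 13) (nat_lit 4) (nat_lit 11) (nat_lit 4) (nat_lit 479) (nat_lit 410) (nat_lit 311)))))) (XT.nd (nat_lit 468) (nat_lit 228) (nat_lit 0) (XT.nd (nat_lit 234)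 (nat_lit 152) (nat_lit 0) (XT.nd (nat_lit 78) (nat_lit 0) (nat_lit 0) (XT.lf (nat_lit 0) (nat_lit 72210693579) (nat_lit 76) (nat_lit 128630438035) (nat_lit 76) (nat_lit 110100136166) (nat_lit 10) (nat_lit 4) (nat_lit 11) (nat_lit 5) (nat_lit 11) (nat_lit 4) (nat_lit 480) (nat_lit 410) (nat_lit 310)) (XT.nd (nat_lit 78) (nat_lit 0) (nat_lit 0) (XT.lf (nat_lit 0) (nat_lit 193338740182) (nat_lit 76) (nat_lit 78257309601) (nat_lit 76) (nat_lit 59726383465) (nat_lit 10) (nat_lit 4) (nat_lit 11) (nat_lit 5) (nat_lit 11) (nat_lit 4) (nat_lit 481) (nat_lit 410) (nat_lit 309)) (XT.lf (nat_lit 0) (nat_lit 324149556184) (nat_lit 76) (nat_lit 23858165567) (nat_lit 76) (nat_lit 5326661406) (nat_lit 10) (nat_lit 4) (nat_lit 11) (nat_lit 5) (nat_lit 11) (nat_lit 4) (nat_lit 482) (nat_lit 410) (nat_lit 308)))) (XT.nd (nat_lit 78) (nat_lit 0) (nat_lit 0) (XT.lf (nat_lit 0) (nat_lit 53881919867) (nat_lit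 152) (nat_lit 286149601729) (nat_lit 0) (nat_lit 36722624154) (nat_lit 8) (nat_lit 5) (nat_lit 10) (nat_lit 4) (nat_lit 8) (nat_lit 4) (nat_lit 483) (nat_lit 410) (nat_lit 307)) (XT.nd (nat_lit 78) (nat_lit 0) (nat_lit 0) (XT.lf (nat_lit 0) (nat_lit 118974339947) (nat_lit 152) (nat_lit 181132701231) (nat_lit 0) (nat_lit 101814585378) (nat_lit 8) (nat_lit 5) (nat_lit 10) (nat_lit 4) (nat_lit 8) (nat_lit 4) (nat_lit 484) (nat_lit 410) (nat_lit 306)) (XT.lf (nat_lit 0) (nat_lit 189270955960) (nat_lit 152) (nat_lit 67721029178) (nat_lit 0) (nat_lit 172110776526) (nat_lit 8) (nat_lit 5) (nat_lit 10) (nat_lit 4) (nat_lit 8) (nat_lit 4) (nat_lit 485) (nat_lit 410) (nat_lit 305))))) (XT.nd (nat_lit 234) (nat_lit 152) (nat_lit 0) (XT.nd (nat_lit 78) (nat_lit 0) (nat_lit 0) (XT.lf (nat_lit 0) (nat_lit 57640915644) (nat_lit 76) (nat_lit 208933690209) (nat_lit 76) (nat_lit 191773117381) (nat_lit 7)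 (nat_lit 4) (nat_lit 8) (nat_lit 5) (nat_lit 8) (nat_lit 4) (nat_lit 486) (nat_lit 410) (nat_lit 304)) (XT.nd (nat_lit 78) (nat_lit 0) (nat_lit 0) (XT.lf (nat_lit 0) (nat_lit 196877232200) (nat_lit 76) (nat_lit 155034044171) (nat_lit 76) (nat_lit 137873107088) (nat_lit 7) (nat_lit 4) (nat_lit 8) (nat_lit 5) (nat_lit 8) (nat_lit 4) (nat_lit 487) (nat_lit 410) (nat_lit 303)) (XT.lf (nat_lit 0) (nat_lit 347246955203) (nat_lit 76) (nat_lit 96825254662) (nat_lit 76) (nat_lit 79663980307) (nat_lit 7) (nat_lit 4) (nat_lit 8) (nat_lit 5) (nat_lit 8) (nat_lit 4) (nat_lit 488) (nat_lit 410) (nat_lit 302)))) (XT.nd (nat_lit 156) (nat_lit 0) (nat_lit 0) (XT.nd (nat_lit 78) (nat_lit 152) (nat_lit 0) (XT.lf (nat_lit 0) (nat_lit 509641164493) (nat_lit 76) (nat_lit 33962380708) (nat_lit 76) (nat_lit 16800794064) (nat_lit 7) (nat_lit 4) (nat_lit 8) (nat_lit 5) (nat_lit 8) (nat_lit 4) (nat_lit 489) (nat_lit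 410) (nat_lit 301)) (XT.lf (nat_lit 0) (nat_lit 51557454034) (nat_lit 152) (nat_lit 512441613288) (nat_lit 0) (nat_lit 35666828293) (nat_lit 5) (nat_lit 5) (nat_lit 7) (nat_lit 4) (nat_lit 5) (nat_lit 4) (nat_lit 490) (nat_lit 410) (nat_lit 300))) (XT.nd (nat_lit 78) (nat_lit 0) (nat_lit 0) (XT.lf (nat_lit 0) (nat_lit 126780481496) (nat_lit 152) (nat_lit 404179072496) (nat_lit 0) (nat_lit 110889607849) (nat_lit 5) (nat_lit 5) (nat_lit 7) (nat_lit 4) (nat_lit 5) (nat_lit 4) (nat_lit 491) (nat_lit 410) (nat_lit 299)) (XT.lf (nat_lit 0) (nat_lit 208019178079) (nat_lit 152) (nat_lit 287260010255) (nat_lit 0) (nat_lit 192128074890) (nat_lit 5) (nat_lit 5) (nat_lit 7) (nat_lit 4) (nat_lit 5) (nat_lit 4) (nat_lit 492) (nat_lit 410) (nat_lit 298))))))))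
noncomputable def xc120 : XT := (XT.nd (nat_lit 1950) (nat_lit 0) (nat_lit 0) (XT.nd (nat_lit 936) (nat_lit 76) (nat_lit 0) (XT.nd (nat_lit 468) (nat_lit 152) (nat_lit 0) (XT.nd (nat_lit 234) (nat_lit 0) (nat_lit 0) (XT.nd (nat_lit 78) (nat_lit 76) (nat_lit 0) (XT.lf (nat_lit 0) (nat_lit 295754958281) (nat_lit 152) (nat_lit 160991572863) (nat_lit 0) (nat_lit 279863642554) (nat_lit 5) (nat_lit 5) (nat_lit 7) (nat_lit 4) (nat_lit 5) (nat_lit 4) (nat_lit 493) (nat_lit 410) (nat_lit 297)) (XT.nd (nat_lit 78) (nat_lit 76) (nat_lit 0) (XT.lf (nat_lit 0) (nat_lit 390507737837) (nat_lit 152) (nat_lit 24625502913) (nat_lit 0) (nat_lit 374616225315) (nat_lit 5) (nat_lit 5) (nat_lit 7) (nat_lit 4) (nat_lit 5) (nat_lit 4) (nat_lit 494) (nat_lit 410) (nat_lit 296)) (XT.lf (nat_lit 0) (nat_lit 129104631361) (nat_lit 76) (nat_lit 366839352828) (nat_lit 76) (nat_lit 350947658088) (nat_lit 4) (nat_lit 4)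 (nat_lit 5) (nat_lit 5) (nat_lit 5) (nat_lit 4) (nat_lit 495) (nat_lit 410) (nat_lit 295)))) (XT.nd (nat_lit 78) (nat_lit 0) (nat_lit 0) (XT.lf (nat_lit 0) (nat_lit 296530182811) (nat_lit 76) (nat_lit 313956571653) (nat_lit 76) (nat_lit 298064708193) (nat_lit 4) (nat_lit 4) (nat_lit 5) (nat_lit 5) (nat_lit 5) (nat_lit 4) (nat_lit 496) (nat_lit 410) (nat_lit 294)) (XT.nd (nat_lit 78) (nat_lit 0) (nat_lit 0) (XT.lf (nat_lit 0) (nat_lit 477346567509) (nat_lit 76) (nat_lit 256844822672) (nat_lit 76) (nat_lit 240952802990) (nat_lit 4) (nat_lit 4) (nat_lit 5) (nat_lit 5) (nat_lit 5) (nat_lit 4) (nat_lit 497) (nat_lit 410) (nat_lit 293)) (XT.lf (nat_lit 0) (nat_lit 672625289956) (nat_lit 76) (nat_lit 195165665891) (nat_lit 76) (nat_lit 179273501559) (nat_lit 4) (nat_lit 4) (nat_lit 5) (nat_lit 5) (nat_lit 5) (nat_lit 4) (nat_lit 498) (nat_lit 410) (nat_lit 292))))) (XT.nd (nat_lit 234) (nat_lit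 0) (nat_lit 0) (XT.nd (nat_lit 78) (nat_lit 152) (nat_lit 0) (XT.lf (nat_lit 0) (nat_lit 883523557398) (nat_lit 76) (nat_lit 128553595196) (nat_lit 76) (nat_lit 112661296928) (nat_lit 4) (nat_lit 4) (nat_lit 5) (nat_lit 5) (nat_lit 5) (nat_lit 4) (nat_lit 499) (nat_lit 410) (nat_lit 291)) (XT.nd (nat_lit 78) (nat_lit 152) (nat_lit 0) (XT.lf (nat_lit 0) (nat_lit 1111291137344) (nat_lit 76) (nat_lit 56613872390) (nat_lit 76) (nat_lit 40721450107) (nat_lit 4) (nat_lit 4) (nat_lit 5) (nat_lit 5) (nat_lit 5) (nat_lit 4) (nat_lit 500) (nat_lit 410) (nat_lit 290)) (XT.lf (nat_lit 0) (nat_lit 37137660791) (nat_lit 152) (nat_lit 1239433272719) (nat_lit 0) (nat_lit 22422348651) (nat_lit 2) (nat_lit 5) (nat_lit 4) (nat_lit 4) (nat_lit 2) (nat_lit 4) (nat_lit 501) (nat_lit 410) (nat_lit 289)))) (XT.nd (nat_lit 78) (nat_lit 0) (nat_lit 0) (XT.lf (nat_lit 0) (nat_lit 123225247488) (nat_lit 152) (nat_lit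 1164433768848) (nat_lit 0) (nat_lit 108509836902) (nat_lit 2) (nat_lit 5) (nat_lit 4) (nat_lit 4) (nat_lit 2) (nat_lit 4) (nat_lit 502) (nat_lit 410) (nat_lit 288)) (XT.nd (nat_lit 78) (nat_lit 0) (nat_lit 0) (XT.lf (nat_lit 0) (nat_lit 216198755315) (nat_lit 152) (nat_lit 1083436547980) (nat_lit 0) (nat_lit 201483253575) (nat_lit 2) (nat_lit 5) (nat_lit 4) (nat_lit 4) (nat_lit 2) (nat_lit 4) (nat_lit 503) (nat_lit 410) (nat_lit 287)) (XT.lf (nat_lit 0) (nat_lit 316609138393) (nat_lit 152) (nat_lit 995961626583) (nat_lit 0) (nat_lit 301893552251) (nat_lit 2) (nat_lit 5) (nat_lit 4) (nat_lit 4) (nat_lit 2) (nat_lit 4) (nat_lit 504) (nat_lit 410) (nat_lit 286)))))) (XT.nd (nat_lit 468) (nat_lit 76) (nat_lit 0) (XT.nd (nat_lit 234) (nat_lit 0) (nat_lit 0) (XT.nd (nat_lit 78) (nat_lit 0) (nat_lit 0) (XT.lf (nat_lit 0) (nat_lit 425051421214) (nat_lit 152) (nat_lit 901490634753) (nat_lit 0) (nat_lit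 410335756922) (nat_lit 2) (nat_lit 5) (nat_lit 4) (nat_lit 4) (nat_lit 2) (nat_lit 4) (nat_lit 505) (nat_lit 410) (nat_lit 285)) (XT.nd (nat_lit 78) (nat_lit 0) (nat_lit 0) (XT.lf (nat_lit 0) (nat_lit 542168224714) (nat_lit 152) (nat_lit 799463744390) (nat_lit 0) (nat_lit 527452488061) (nat_lit 2) (nat_lit 5) (nat_lit 4) (nat_lit 4) (nat_lit 2) (nat_lit 4) (nat_lit 506) (nat_lit 410) (nat_lit 284)) (XT.lf (nat_lit 0) (nat_lit 668653574394) (nat_lit 152) (nat_lit 689276351700) (nat_lit 0) (nat_lit 653937770740) (nat_lit 2) (nat_lit 5) (nat_lit 4) (nat_lit 4) (nat_lit 2) (nat_lit 4) (nat_lit 507) (nat_lit 410) (nat_lit 283)))) (XT.nd (nat_lit 78) (nat_lit 0) (nat_lit 0) (XT.lf (nat_lit 0) (nat_lit 805257013067) (nat_lit 152) (nat_lit 570275494355) (nat_lit 0) (nat_lit 790541147375) (nat_lit 2) (nat_lit 5) (nat_lit 4) (nat_lit 4) (nat_lit 2) (nat_lit 4) (nat_lit 508) (nat_lit 410) (nat_lit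 282)) (XT.nd (nat_lit 78) (nat_lit 0) (nat_lit 0) (XT.lf (nat_lit 0) (nat_lit 952788042593) (nat_lit 152) (nat_lit 441755982090) (nat_lit 0) (nat_lit 938072119458) (nat_lit 2) (nat_lit 5) (nat_lit 4) (nat_lit 4) (nat_lit 2) (nat_lit 4) (nat_lit 509) (nat_lit 410) (nat_lit 281)) (XT.lf (nat_lit 0) (nat_lit 1112120920923) (nat_lit 152) (nat_lit 302956217795) (nat_lit 0) (nat_lit 1097404944601) (nat_lit 2) (nat_lit 5) (nat_lit 4) (nat_lit 4) (nat_lit 2) (nat_lit 4) (nat_lit 510) (nat_lit 410) (nat_lit 280))))) (XT.nd (nat_lit 234) (nat_lit 0) (nat_lit 0) (XT.nd (nat_lit 78) (nat_lit 76) (nat_lit 0) (XT.lf (nat_lit 0) (nat_lit 1284199842893) (nat_lit 152) (nat_lit 153053684348) (nat_lit 0) (nat_lit 1269483817323) (nat_lit 2) (nat_lit 5) (nat_lit 4) (nat_lit 4) (nat_lit 2) (nat_lit 4) (nat_lit 511) (nat_lit 410) (nat_lit 279)) (XT.nd (nat_lit 78) (nat_lit 0) (nat_lit 0) (XT.lf (nat_lit 0) (nat_lit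 9305424583) (nat_lit 76) (nat_lit 1460962906549) (nat_lit 76) (nat_lit 1446246835379) (nat_lit 1) (nat_lit 4) (nat_lit 2) (nat_lit 5) (nat_lit 2) (nat_lit 4) (nat_lit 512) (nat_lit 410) (nat_lit 278)) (XT.lf (nat_lit 0) (nat_lit 193356467073) (nat_lit 76) (nat_lit 1482050061079) (nat_lit 76) (nat_lit 1467333947686) (nat_lit 1) (nat_lit 4) (nat_lit 2) (nat_lit 5) (nat_lit 2) (nat_lit 4) (nat_lit 513) (nat_lit 410) (nat_lit 277)))) (XT.nd (nat_lit 156) (nat_lit 0) (nat_lit 0) (XT.nd (nat_lit 78) (nat_lit 0) (nat_lit 0) (XT.lf (nat_lit 0) (nat_lit 392130580180) (nat_lit 76) (nat_lit 1504824710712) (nat_lit 76) (nat_lit 1490108558225) (nat_lit 1) (nat_lit 4) (nat_lit 2) (nat_lit 5) (nat_lit 2) (nat_lit 4) (nat_lit 514) (nat_lit 410) (nat_lit 276)) (XT.lf (nat_lit 0) (nat_lit 606805684575) (nat_lit 76) (nat_lit 1529421816334) (nat_lit 76) (nat_lit 1514705627649) (nat_lit 1) (nat_lit 4) (nat_lit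 2) (nat_lit 5) (nat_lit 2) (nat_lit 4) (nat_lit 515) (nat_lit 410) (nat_lit 275))) (XT.nd (nat_lit 78) (nat_lit 0) (nat_lit 0) (XT.lf (nat_lit 0) (nat_lit 838653929024) (nat_lit 76) (nat_lit 1555987138573) (nat_lit 76) (nat_lit 1541270916371) (nat_lit 1) (nat_lit 4) (nat_lit 2) (nat_lit 5) (nat_lit 2) (nat_lit 4) (nat_lit 516) (nat_lit 410) (nat_lit 274)) (XT.lf (nat_lit 0) (nat_lit 1089049229051) (nat_lit 76) (nat_lit 1584678101559) (nat_lit 76) (nat_lit 1569961848322) (nat_lit 1) (nat_lit 4) (nat_lit 2) (nat_lit 5) (nat_lit 2) (nat_lit 4) (nat_lit 517) (nat_lit 410) (nat_lit 273))))))) (XT.nd (nat_lit 936) (nat_lit 0) (nat_lit 0) (XT.nd (nat_lit 468) (nat_lit 0) (nat_lit 0) (XT.nd (nat_lit 234) (nat_lit 0) (nat_lit 0) (XT.nd (nat_lit 78) (nat_lit 0) (nat_lit 0) (XT.lf (nat_lit 0) (nat_lit 1359475408655) (nat_lit 76) (nat_lit 1615664725815) (nat_lit 76) (nat_lit 1600948443842) (nat_lit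 1) (nat_lit 4) (nat_lit 2) (nat_lit 5) (nat_lit 2) (nat_lit 4) (nat_lit 518) (nat_lit 410) (nat_lit 272)) (XT.nd (nat_lit 78) (nat_lit 0) (nat_lit 0) (XT.lf (nat_lit 0) (nat_lit 1651534993345) (nat_lit 76) (nat_lit 1649130635779) (nat_lit 76) (nat_lit 1634414327200) (nat_lit 1) (nat_lit 4) (nat_lit 2) (nat_lit 5) (nat_lit 2) (nat_lit 4) (nat_lit 519) (nat_lit 410) (nat_lit 271)) (XT.lf (nat_lit 0) (nat_lit 1966958706586) (nat_lit 76) (nat_lit 1685274147956) (nat_lit 76) (nat_lit 1670557814740) (nat_lit 1) (nat_lit 4) (nat_lit 2) (nat_lit 5) (nat_lit 2) (nat_lit 4) (nat_lit 520) (nat_lit 410) (nat_lit 270)))) (XT.nd (nat_lit 78) (nat_lit 0) (nat_lit 0) (XT.lf (nat_lit 0) (nat_lit 2307615725938) (nat_lit 76) (nat_lit 1724309446121) (nat_lit 76) (nat_lit 1709593090094) (nat_lit 1) (nat_lit 4) (nat_lit 2) (nat_lit 5) (nat_lit 2) (nat_lit 4) (nat_lit 521) (nat_lit 410) (nat_lit 269)) (XT.nd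 (nat_lit 78) (nat_lit 0) (nat_lit 0) (XT.lf (nat_lit 0) (nat_lit 2675524759664) (nat_lit 76) (nat_lit 1766467850561) (nat_lit 76) (nat_lit 1751751473412) (nat_lit 1) (nat_lit 4) (nat_lit 2) (nat_lit 5) (nat_lit 2) (nat_lit 4) (nat_lit 522) (nat_lit 410) (nat_lit 268)) (XT.lf (nat_lit 0) (nat_lit 3072866009445) (nat_lit 76) (nat_lit 1811999188856) (nat_lit 76) (nat_lit 1797282792150) (nat_lit 1) (nat_lit 4) (nat_lit 2) (nat_lit 5) (nat_lit 2) (nat_lit 4) (nat_lit 523) (nat_lit 410) (nat_lit 267))))) (XT.nd (nat_lit 234) (nat_lit 0) (nat_lit 0) (XT.nd (nat_lit 78) (nat_lit 0) (nat_lit 0) (XT.lf (nat_lit 0) (nat_lit 3501994090094) (nat_lit 76) (nat_lit 1861173276344) (nat_lit 76) (nat_lit 1846456861530) (nat_lit 1) (nat_lit 4) (nat_lit 2) (nat_lit 5) (nat_lit 2) (nat_lit 4) (nat_lit 524) (nat_lit 410) (nat_lit 266)) (XT.nd (nat_lit 78) (nat_lit 0) (nat_lit 0) (XT.lf (nat_lit 0) (nat_lit 3965451982831)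 (nat_lit 76) (nat_lit 1914281515026) (nat_lit 76) (nat_lit 1899565083446) (nat_lit 1) (nat_lit 4) (nat_lit 2) (nat_lit 5) (nat_lit 2) (nat_lit 4) (nat_lit 525) (nat_lit 410) (nat_lit 265)) (XT.lf (nat_lit 0) (nat_lit 4465986104798) (nat_lit 76) (nat_lit 1971638620391) (nat_lit 76) (nat_lit 1956922173285) (nat_lit 1) (nat_lit 4) (nat_lit 2) (nat_lit 5) (nat_lit 2) (nat_lit 4) (nat_lit 526) (nat_lit 410) (nat_lit 264)))) (XT.nd (nat_lit 78) (nat_lit 0) (nat_lit 0) (XT.lf (nat_lit 0) (nat_lit 5006562584123) (nat_lit 76) (nat_lit 2033584486395) (nat_lit 76) (nat_lit 2018868024914) (nat_lit 1) (nat_lit 4) (nat_lit 2) (nat_lit 5) (nat_lit 2) (nat_lit 4) (nat_lit 527) (nat_lit 410) (nat_lit 263)) (XT.nd (nat_lit 78) (nat_lit 0) (nat_lit 0) (XT.lf (nat_lit 0) (nat_lit 5590384836983) (nat_lit 76) (nat_lit 2100486199653) (nat_lit 76) (nat_lit 2085769724862) (nat_lit 1) (nat_lit 4) (nat_lit 2) (nat_lit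 5) (nat_lit 2) (nat_lit 4) (nat_lit 528) (nat_lit 410) (nat_lit 262)) (XT.lf (nat_lit 0) (nat_lit 6220912550800) (nat_lit 76) (nat_lit 2172740214761) (nat_lit 76) (nat_lit 2158023727646) (nat_lit 1) (nat_lit 4) (nat_lit 2) (nat_lit 5) (nat_lit 2) (nat_lit 4) (nat_lit 529) (nat_lit 410) (nat_lit 261)))))) (XT.nd (nat_lit 53274) (nat_lit 0) (nat_lit 5852) (XT.nd (nat_lit 234) (nat_lit 0) (nat_lit 0) (XT.nd (nat_lit 78) (nat_lit 0) (nat_lit 0) (XT.lf (nat_lit 0) (nat_lit 6901882186101) (nat_lit 76) (nat_lit 2250774703660) (nat_lit 76) (nat_lit 2236058205134) (nat_lit 1) (nat_lit 4) (nat_lit 2) (nat_lit 5) (nat_lit 2) (nat_lit 4) (nat_lit 530) (nat_lit 410) (nat_lit 260)) (XT.nd (nat_lit 78) (nat_lit 0) (nat_lit 0) (XT.lf (nat_lit 0) (nat_lit 7637329118502) (nat_lit 76) (nat_lit 2335052092952) (nat_lit 76) (nat_lit 2320335583860) (nat_lit 1) (nat_lit 4) (nat_lit 2) (nat_lit 5) (nat_lit 2) (nat_lit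 4) (nat_lit 531) (nat_lit 410) (nat_lit 259)) (XT.lf (nat_lit 0) (nat_lit 8431611552049) (nat_lit 76) (nat_lit 2426071804203) (nat_lit 76) (nat_lit 2411355285327) (nat_lit 1) (nat_lit 4) (nat_lit 2) (nat_lit 5) (nat_lit 2) (nat_lit 4) (nat_lit 532) (nat_lit 410) (nat_lit 258)))) (XT.nd (nat_lit 78) (nat_lit 0) (nat_lit 0) (XT.lf (nat_lit 0) (nat_lit 9289436345605) (nat_lit 76) (nat_lit 2524373213480) (nat_lit 76) (nat_lit 2509656685545) (nat_lit 1) (nat_lit 4) (nat_lit 2) (nat_lit 5) (nat_lit 2) (nat_lit 4) (nat_lit 533) (nat_lit 410) (nat_lit 257)) (XT.nd (nat_lit 52884) (nat_lit 0) (nat_lit 6080) (XT.lf (nat_lit 0) (nat_lit 10215886905355) (nat_lit 76) (nat_lit 2630538847651) (nat_lit 76) (nat_lit 2615822311329) (nat_lit 1) (nat_lit 4) (nat_lit 2) (nat_lit 5) (nat_lit 2) (nat_lit 4) (nat_lit 534) (nat_lit 410) (nat_lit 256)) (XT.lf (nat_lit 0) (nat_lit 1572717846) (nat_lit 532) (nat_lit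 1701863932) (nat_lit 532) (nat_lit 1701863932) (nat_lit 81) (nat_lit 3) (nat_lit 88) (nat_lit 3) (nat_lit 88) (nat_lit 5) (nat_lit 411) (nat_lit 411) (nat_lit 378))))) (XT.nd (nat_lit 234) (nat_lit 228) (nat_lit 0) (XT.nd (nat_lit 78) (nat_lit 0) (nat_lit 76) (XT.lf (nat_lit 76) (nat_lit 1614909963) (nat_lit 0) (nat_lit 2383354436) (nat_lit 532) (nat_lit 6294397775) (nat_lit 82) (nat_lit 5) (nat_lit 81) (nat_lit 3) (nat_lit 88) (nat_lit 5) (nat_lit 412) (nat_lit 411) (nat_lit 377)) (XT.nd (nat_lit 78) (nat_lit 0) (nat_lit 0) (XT.lf (nat_lit 0) (nat_lit 4996628875) (nat_lit 456) (nat_lit 3522343432) (nat_lit 532) (nat_lit 2134475929) (nat_lit 82) (nat_lit 5) (nat_lit 88) (nat_lit 5) (nat_lit 89) (nat_lit 5) (nat_lit 413) (nat_lit 411) (nat_lit 376)) (XT.lf (nat_lit 76) (nat_lit 2043711296) (nat_lit 0) (nat_lit 4078268172) (nat_lit 532) (nat_lit 4917365404) (nat_lit 83) (nat_lit 5) (nat_lit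 82) (nat_lit 5) (nat_lit 89) (nat_lit 5) (nat_lit 414) (nat_lit 411) (nat_lit 375)))) (XT.nd (nat_lit 156) (nat_lit 380) (nat_lit 0) (XT.nd (nat_lit 78) (nat_lit 0) (nat_lit 0) (XT.lf (nat_lit 0) (nat_lit 7393696919) (nat_lit 456) (nat_lit 3259142771) (nat_lit 532) (nat_lit 798782227) (nat_lit 83) (nat_lit 5) (nat_lit 89) (nat_lit 5) (nat_lit 90) (nat_lit 5) (nat_lit 415) (nat_lit 411) (nat_lit 374)) (XT.lf (nat_lit 76) (nat_lit 2934210753) (nat_lit 0) (nat_lit 5954132060) (nat_lit 532) (nat_lit 2998857643) (nat_lit 84) (nat_lit 5) (nat_lit 83) (nat_lit 5) (nat_lit 90) (nat_lit 5) (nat_lit 416) (nat_lit 411) (nat_lit 373))) (XT.nd (nat_lit 78) (nat_lit 380) (nat_lit 0) (XT.lf (nat_lit 76) (nat_lit 9766560583) (nat_lit 0) (nat_lit 772895600) (nat_lit 532) (nat_lit 1815230962) (nat_lit 84) (nat_lit 5) (nat_lit 83) (nat_lit 5) (nat_lit 90) (nat_lit 5) (nat_lit 417) (nat_lit 411) (nat_lit 372))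 (XT.lf (nat_lit 0) (nat_lit 4344425901) (nat_lit 456) (nat_lit 8150589949) (nat_lit 532) (nat_lit 350780870) (nat_lit 78) (nat_lit 5) (nat_lit 84) (nat_lit 5) (nat_lit 85) (nat_lit 5) (nat_lit 418) (nat_lit 411) (nat_lit 371))))))))
noncomputable def xc121 : XT := (XT.nd (nat_lit 1950) (nat_lit 1520) (nat_lit 0) (XT.nd (nat_lit 936) (nat_lit 1216) (nat_lit 0) (XT.nd (nat_lit 468) (nat_lit 760) (nat_lit 0) (XT.nd (nat_lit 234) (nat_lit 228) (nat_lit 0) (XT.nd (nat_lit 78) (nat_lit 684) (nat_lit 0) (XT.lf (nat_lit 0) (nat_lit 1215181548) (nat_lit 532) (nat_lit 1487501095) (nat_lit 76) (nat_lit 10667480875) (nat_lit 77) (nat_lit 5) (nat_lit 84) (nat_lit 5) (nat_lit 78) (nat_lit 5) (nat_lit 419) (nat_lit 411) (nat_lit 370)) (XT.nd (nat_lit 78) (nat_lit 228) (nat_lit 0) (XT.lf (nat_lit 0) (nat_lit 3077796105) (nat_lit 532) (nat_lit 7652424924) (nat_lit 76) (nat_lit 3190313568) (nat_lit 71) (nat_lit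 5) (nat_lit 78) (nat_lit 5) (nat_lit 72) (nat_lit 5) (nat_lit 420) (nat_lit 411) (nat_lit 369)) (XT.lf (nat_lit 0) (nat_lit 107998484) (nat_lit 228) (nat_lit 5054932227) (nat_lit 304) (nat_lit 9346132988) (nat_lit 68) (nat_lit 5) (nat_lit 71) (nat_lit 5) (nat_lit 72) (nat_lit 5) (nat_lit 421) (nat_lit 411) (nat_lit 368)))) (XT.nd (nat_lit 78) (nat_lit 228) (nat_lit 0) (XT.lf (nat_lit 0) (nat_lit 7616315963) (nat_lit 304) (nat_lit 6279942806) (nat_lit 76) (nat_lit 1232309700) (nat_lit 68) (nat_lit 5) (nat_lit 72) (nat_lit 5) (nat_lit 69) (nat_lit 5) (nat_lit 422) (nat_lit 411) (nat_lit 367)) (XT.nd (nat_lit 78) (nat_lit 0) (nat_lit 0) (XT.lf (nat_lit 0) (nat_lit 2439778706) (nat_lit 228) (nat_lit 7979996255) (nat_lit 304) (nat_lit 5365562318) (nat_lit 65) (nat_lit 5) (nat_lit 68) (nat_lit 5) (nat_lit 69) (nat_lit 5) (nat_lit 423) (nat_lit 411) (nat_lit 366)) (XT.lf (nat_lit 0) (nat_lit 12173441766)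 (nat_lit 228) (nat_lit 1411301436) (nat_lit 304) (nat_lit 2898933102) (nat_lit 65) (nat_lit 5) (nat_lit 68) (nat_lit 5) (nat_lit 69) (nat_lit 5) (nat_lit 424) (nat_lit 411) (nat_lit 365))))) (XT.nd (nat_lit 234) (nat_lit 304) (nat_lit 0) (XT.nd (nat_lit 78) (nat_lit 228) (nat_lit 0) (XT.lf (nat_lit 0) (nat_lit 21016636) (nat_lit 228) (nat_lit 11670750995) (nat_lit 76) (nat_lit 5527034308) (nat_lit 62) (nat_lit 5) (nat_lit 65) (nat_lit 5) (nat_lit 63) (nat_lit 5) (nat_lit 425) (nat_lit 411) (nat_lit 364)) (XT.nd (nat_lit 78) (nat_lit 228) (nat_lit 0) (XT.lf (nat_lit 0) (nat_lit 3144084496) (nat_lit 228) (nat_lit 1719023160) (nat_lit 76) (nat_lit 13133520829) (nat_lit 62) (nat_lit 5) (nat_lit 65) (nat_lit 5) (nat_lit 63) (nat_lit 5) (nat_lit 426) (nat_lit 411) (nat_lit 363)) (XT.lf (nat_lit 0) (nat_lit 6781632202) (nat_lit 304) (nat_lit 9422422888) (nat_lit 76) (nat_lit 2611460686) (nat_lit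 59) (nat_lit 5) (nat_lit 63) (nat_lit 5) (nat_lit 60) (nat_lit 5) (nat_lit 427) (nat_lit 411) (nat_lit 362)))) (XT.nd (nat_lit 78) (nat_lit 152) (nat_lit 0) (XT.lf (nat_lit 0) (nat_lit 1715194218) (nat_lit 152) (nat_lit 9182729253) (nat_lit 228) (nat_lit 8786976374) (nat_lit 57) (nat_lit 5) (nat_lit 59) (nat_lit 5) (nat_lit 60) (nat_lit 5) (nat_lit 428) (nat_lit 411) (nat_lit 361)) (XT.nd (nat_lit 78) (nat_lit 152) (nat_lit 0) (XT.lf (nat_lit 0) (nat_lit 14241807897) (nat_lit 152) (nat_lit 1332455425) (nat_lit 228) (nat_lit 5031116301) (nat_lit 57) (nat_lit 5) (nat_lit 59) (nat_lit 5) (nat_lit 60) (nat_lit 5) (nat_lit 429) (nat_lit 411) (nat_lit 360)) (XT.lf (nat_lit 0) (nat_lit 6276343978) (nat_lit 152) (nat_lit 14646036106) (nat_lit 228) (nat_lit 653308388) (nat_lit 55) (nat_lit 5) (nat_lit 57) (nat_lit 5) (nat_lit 58) (nat_lit 5) (nat_lit 430) (nat_lit 411) (nat_lit 359)))))) (XT.nd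 (nat_lit 468) (nat_lit 684) (nat_lit 0) (XT.nd (nat_lit 234) (nat_lit 152) (nat_lit 0) (XT.nd (nat_lit 78) (nat_lit 304) (nat_lit 0) (XT.lf (nat_lit 0) (nat_lit 4059243686) (nat_lit 228) (nat_lit 2494668601) (nat_lit 76) (nat_lit 16046805324) (nat_lit 54) (nat_lit 5) (nat_lit 57) (nat_lit 5) (nat_lit 55) (nat_lit 5) (nat_lit 431) (nat_lit 411) (nat_lit 358)) (XT.nd (nat_lit 78) (nat_lit 152) (nat_lit 0) (XT.lf (nat_lit 0) (nat_lit 9436364233) (nat_lit 228) (nat_lit 11868410730) (nat_lit 76) (nat_lit 2375791186) (nat_lit 52) (nat_lit 5) (nat_lit 55) (nat_lit 5) (nat_lit 53) (nat_lit 5) (nat_lit 432) (nat_lit 411) (nat_lit 357)) (XT.lf (nat_lit 0) (nat_lit 2481108341) (nat_lit 152) (nat_lit 13040111122) (nat_lit 228) (nat_lit 9303381037) (nat_lit 50) (nat_lit 5) (nat_lit 52) (nat_lit 5) (nat_lit 53) (nat_lit 5) (nat_lit 433) (nat_lit 411) (nat_lit 356)))) (XT.nd (nat_lit 78) (nat_lit 152)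 (nat_lit 0) (XT.lf (nat_lit 0) (nat_lit 18619386392) (nat_lit 152) (nat_lit 3776493994) (nat_lit 228) (nat_lit 3640038737) (nat_lit 50) (nat_lit 5) (nat_lit 52) (nat_lit 5) (nat_lit 53) (nat_lit 5) (nat_lit 434) (nat_lit 411) (nat_lit 355)) (XT.nd (nat_lit 78) (nat_lit 0) (nat_lit 0) (XT.lf (nat_lit 0) (nat_lit 2706815107) (nat_lit 152) (nat_lit 18414454815) (nat_lit 76) (nat_lit 6189765478) (nat_lit 48) (nat_lit 5) (nat_lit 50) (nat_lit 5) (nat_lit 49) (nat_lit 5) (nat_lit 435) (nat_lit 411) (nat_lit 354)) (XT.lf (nat_lit 0) (nat_lit 9650937093) (nat_lit 152) (nat_lit 1966484606) (nat_lit 76) (nat_lit 17040283751) (nat_lit 48) (nat_lit 5) (nat_lit 50) (nat_lit 5) (nat_lit 49) (nat_lit 5) (nat_lit 436) (nat_lit 411) (nat_lit 353))))) (XT.nd (nat_lit 234) (nat_lit 380) (nat_lit 0) (XT.nd (nat_lit 78) (nat_lit 152) (nat_lit 0) (XT.lf (nat_lit 0) (nat_lit 16596852383) (nat_lit 152) (nat_lit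 934407380) (nat_lit 228) (nat_lit 12550397799) (nat_lit 46) (nat_lit 5) (nat_lit 48) (nat_lit 5) (nat_lit 49) (nat_lit 5) (nat_lit 437) (nat_lit 411) (nat_lit 352)) (XT.nd (nat_lit 78) (nat_lit 76) (nat_lit 0) (XT.lf (nat_lit 0) (nat_lit 5110013432) (nat_lit 76) (nat_lit 21346937297) (nat_lit 152) (nat_lit 5129381693) (nat_lit 45) (nat_lit 5) (nat_lit 46) (nat_lit 5) (nat_lit 47) (nat_lit 4) (nat_lit 438) (nat_lit 411) (nat_lit 351)) (XT.lf (nat_lit 0) (nat_lit 3125558013) (nat_lit 152) (nat_lit 7357047852) (nat_lit 76) (nat_lit 22692459547) (nat_lit 44) (nat_lit 5) (nat_lit 46) (nat_lit 5) (nat_lit 45) (nat_lit 5) (nat_lit 439) (nat_lit 411) (nat_lit 350)))) (XT.nd (nat_lit 156) (nat_lit 152) (nat_lit 0) (XT.nd (nat_lit 78) (nat_lit 76) (nat_lit 0) (XT.lf (nat_lit 0) (nat_lit 12121413679) (nat_lit 228) (nat_lit 21075865635) (nat_lit 76) (nat_lit 1654349590) (nat_lit 42) (nat_lit 5) (nat_lit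 45) (nat_lit 5) (nat_lit 43) (nat_lit 4) (nat_lit 440) (nat_lit 411) (nat_lit 349)) (XT.lf (nat_lit 0) (nat_lit 68097118) (nat_lit 76) (nat_lit 22232759782) (nat_lit 152) (nat_lit 14324348499) (nat_lit 41) (nat_lit 5) (nat_lit 42) (nat_lit 5) (nat_lit 43) (nat_lit 4) (nat_lit 441) (nat_lit 411) (nat_lit 348))) (XT.nd (nat_lit 78) (nat_lit 152) (nat_lit 0) (XT.lf (nat_lit 0) (nat_lit 24073733796) (nat_lit 76) (nat_lit 9781328392) (nat_lit 152) (nat_lit 4640774642) (nat_lit 41) (nat_lit 5) (nat_lit 42) (nat_lit 5) (nat_lit 43) (nat_lit 4) (nat_lit 442) (nat_lit 411) (nat_lit 347)) (XT.lf (nat_lit 0) (nat_lit 5844924785) (nat_lit 152) (nat_lit 30777646915) (nat_lit 76) (nat_lit 3856879070) (nat_lit 39) (nat_lit 5) (nat_lit 41) (nat_lit 5) (nat_lit 40) (nat_lit 4) (nat_lit 443) (nat_lit 411) (nat_lit 346))))))) (XT.nd (nat_lit 936) (nat_lit 760) (nat_lit 0) (XT.nd (nat_lit 468) (nat_lit 456)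 (nat_lit 0) (XT.nd (nat_lit 234) (nat_lit 152) (nat_lit 0) (XT.nd (nat_lit 78) (nat_lit 152) (nat_lit 0) (XT.lf (nat_lit 0) (nat_lit 17562526427) (nat_lit 152) (nat_lit 6426556547) (nat_lit 76) (nat_lit 18571527260) (nat_lit 39) (nat_lit 5) (nat_lit 41) (nat_lit 5) (nat_lit 40) (nat_lit 4) (nat_lit 444) (nat_lit 411) (nat_lit 345)) (XT.nd (nat_lit 78) (nat_lit 76) (nat_lit 0) (XT.lf (nat_lit 0) (nat_lit 20892442333) (nat_lit 76) (nat_lit 9813798409) (nat_lit 152) (nat_lit 14062926338) (nat_lit 38) (nat_lit 5) (nat_lit 39) (nat_lit 5) (nat_lit 40) (nat_lit 4) (nat_lit 445) (nat_lit 411) (nat_lit 344)) (XT.lf (nat_lit 0) (nat_lit 3642097242) (nat_lit 76) (nat_lit 41645786427) (nat_lit 76) (nat_lit 1835611203) (nat_lit 37) (nat_lit 4) (nat_lit 38) (nat_lit 5) (nat_lit 38) (nat_lit 4) (nat_lit 446) (nat_lit 411) (nat_lit 343)))) (XT.nd (nat_lit 78) (nat_lit 76) (nat_lit 0) (XT.lf (nat_lit 0)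 (nat_lit 11712275665) (nat_lit 152) (nat_lit 15464460451) (nat_lit 76) (nat_lit 22394665513) (nat_lit 36) (nat_lit 5) (nat_lit 38) (nat_lit 5) (nat_lit 37) (nat_lit 4) (nat_lit 447) (nat_lit 411) (nat_lit 342)) (XT.nd (nat_lit 78) (nat_lit 0) (nat_lit 0) (XT.lf (nat_lit 0) (nat_lit 15497779082) (nat_lit 76) (nat_lit 11107230428) (nat_lit 152) (nat_lit 25577502950) (nat_lit 35) (nat_lit 5) (nat_lit 36) (nat_lit 5) (nat_lit 37) (nat_lit 4) (nat_lit 448) (nat_lit 411) (nat_lit 341)) (XT.lf (nat_lit 0) (nat_lit 43260808541) (nat_lit 152) (nat_lit 5337203481) (nat_lit 0) (nat_lit 6358769088) (nat_lit 35) (nat_lit 5) (nat_lit 37) (nat_lit 4) (nat_lit 35) (nat_lit 4) (nat_lit 449) (nat_lit 411) (nat_lit 340))))) (XT.nd (nat_lit 234) (nat_lit 228) (nat_lit 0) (XT.nd (nat_lit 78) (nat_lit 76) (nat_lit 0) (XT.lf (nat_lit 0) (nat_lit 4148054352) (nat_lit 152) (nat_lit 28285713553) (nat_lit 76) (nat_lit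 25431533669) (nat_lit 33) (nat_lit 5) (nat_lit 35) (nat_lit 5) (nat_lit 34) (nat_lit 4) (nat_lit 450) (nat_lit 411) (nat_lit 339)) (XT.nd (nat_lit 78) (nat_lit 0) (nat_lit 0) (XT.lf (nat_lit 0) (nat_lit 6598909804) (nat_lit 76) (nat_lit 14325773989) (nat_lit 152) (nat_lit 40033759762) (nat_lit 32) (nat_lit 5) (nat_lit 33) (nat_lit 5) (nat_lit 34) (nat_lit 4) (nat_lit 451) (nat_lit 411) (nat_lit 338)) (XT.lf (nat_lit 0) (nat_lit 39951342012) (nat_lit 152) (nat_lit 18522240839) (nat_lit 0) (nat_lit 5752822664) (nat_lit 32) (nat_lit 5) (nat_lit 34) (nat_lit 4) (nat_lit 32) (nat_lit 4) (nat_lit 452) (nat_lit 411) (nat_lit 337)))) (XT.nd (nat_lit 78) (nat_lit 152) (nat_lit 0) (XT.lf (nat_lit 0) (nat_lit 20831532743) (nat_lit 76) (nat_lit 40531166255) (nat_lit 76) (nat_lit 6324100603) (nat_lit 31) (nat_lit 4) (nat_lit 32) (nat_lit 5) (nat_lit 32) (nat_lit 4) (nat_lit 453) (nat_lit 411) (nat_lit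 336)) (XT.nd (nat_lit 78) (nat_lit 76) (nat_lit 0) (XT.lf (nat_lit 0) (nat_lit 12918566145) (nat_lit 152) (nat_lit 7344361313) (nat_lit 76) (nat_lit 51095237991) (nat_lit 30) (nat_lit 5) (nat_lit 32) (nat_lit 5) (nat_lit 31) (nat_lit 4) (nat_lit 454) (nat_lit 411) (nat_lit 335)) (XT.lf (nat_lit 0) (nat_lit 34305263645) (nat_lit 152) (nat_lit 38311190350) (nat_lit 0) (nat_lit 2617943298) (nat_lit 29) (nat_lit 5) (nat_lit 31) (nat_lit 4) (nat_lit 29) (nat_lit 4) (nat_lit 455) (nat_lit 411) (nat_lit 334)))))) (XT.nd (nat_lit 468) (nat_lit 380) (nat_lit 0) (XT.nd (nat_lit 234) (nat_lit 152) (nat_lit 0) (XT.nd (nat_lit 78) (nat_lit 152) (nat_lit 0) (XT.lf (nat_lit 0) (nat_lit 5468157734) (nat_lit 76) (nat_lit 52788919019) (nat_lit 76) (nat_lit 21095316883) (nat_lit 28) (nat_lit 4) (nat_lit 29) (nat_lit 5) (nat_lit 29) (nat_lit 4) (nat_lit 456) (nat_lit 411) (nat_lit 333)) (XT.nd (nat_lit 78)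 (nat_lit 76) (nat_lit 0) (XT.lf (nat_lit 0) (nat_lit 1374002533) (nat_lit 152) (nat_lit 28841493337) (nat_lit 76) (nat_lit 53498503179) (nat_lit 27) (nat_lit 5) (nat_lit 29) (nat_lit 5) (nat_lit 28) (nat_lit 4) (nat_lit 457) (nat_lit 411) (nat_lit 332)) (XT.lf (nat_lit 0) (nat_lit 20252167619) (nat_lit 76) (nat_lit 4727145768) (nat_lit 152) (nat_lit 63363134075) (nat_lit 26) (nat_lit 5) (nat_lit 27) (nat_lit 5) (nat_lit 28) (nat_lit 4) (nat_lit 458) (nat_lit 411) (nat_lit 331)))) (XT.nd (nat_lit 78) (nat_lit 152) (nat_lit 0) (XT.lf (nat_lit 0) (nat_lit 51821573598) (nat_lit 152) (nat_lit 18951060355) (nat_lit 0) (nat_lit 22460656085) (nat_lit 26) (nat_lit 5) (nat_lit 28) (nat_lit 4) (nat_lit 26) (nat_lit 4) (nat_lit 459) (nat_lit 411) (nat_lit 330)) (XT.nd (nat_lit 78) (nat_lit 76) (nat_lit 0) (XT.lf (nat_lit 0) (nat_lit 35769450242) (nat_lit 76) (nat_lit 46016578822) (nat_lit 76) (nat_lit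 16651386029) (nat_lit 25) (nat_lit 4) (nat_lit 26) (nat_lit 5) (nat_lit 26) (nat_lit 4) (nat_lit 460) (nat_lit 411) (nat_lit 329)) (XT.lf (nat_lit 0) (nat_lit 10108445970) (nat_lit 152) (nat_lit 8343583766) (nat_lit 76) (nat_lit 85544555365) (nat_lit 24) (nat_lit 5) (nat_lit 26) (nat_lit 5) (nat_lit 25) (nat_lit 4) (nat_lit 461) (nat_lit 411) (nat_lit 328))))) (XT.nd (nat_lit 234) (nat_lit 228) (nat_lit 0) (XT.nd (nat_lit 78) (nat_lit 76) (nat_lit 0) (XT.lf (nat_lit 0) (nat_lit 39680658697) (nat_lit 152) (nat_lit 57675927639) (nat_lit 0) (nat_lit 12483606152) (nat_lit 23) (nat_lit 5) (nat_lit 25) (nat_lit 4) (nat_lit 23) (nat_lit 4) (nat_lit 462) (nat_lit 411) (nat_lit 327)) (XT.nd (nat_lit 78) (nat_lit 0) (nat_lit 0) (XT.lf (nat_lit 0) (nat_lit 1425073046) (nat_lit 76) (nat_lit 70933604146) (nat_lit 76) (nat_lit 43733409143) (nat_lit 22) (nat_lit 4) (nat_lit 23) (nat_lit 5) (nat_lit 23)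 (nat_lit 4) (nat_lit 463) (nat_lit 411) (nat_lit 326)) (XT.lf (nat_lit 0) (nat_lit 68519394242) (nat_lit 76) (nat_lit 40701137367) (nat_lit 76) (nat_lit 13498032680) (nat_lit 22) (nat_lit 4) (nat_lit 23) (nat_lit 5) (nat_lit 23) (nat_lit 4) (nat_lit 464) (nat_lit 411) (nat_lit 325)))) (XT.nd (nat_lit 156) (nat_lit 76) (nat_lit 0) (XT.nd (nat_lit 78) (nat_lit 0) (nat_lit 0) (XT.lf (nat_lit 0) (nat_lit 11191108747) (nat_lit 76) (nat_lit 7268942976) (nat_lit 152) (nat_lit 111357280597) (nat_lit 20) (nat_lit 5) (nat_lit 21) (nat_lit 5) (nat_lit 22) (nat_lit 4) (nat_lit 465) (nat_lit 411) (nat_lit 324)) (XT.lf (nat_lit 0) (nat_lit 54452502809) (nat_lit 152) (nat_lit 53567255576) (nat_lit 0) (nat_lit 29259638528) (nat_lit 20) (nat_lit 5) (nat_lit 22) (nat_lit 4) (nat_lit 20) (nat_lit 4) (nat_lit 466) (nat_lit 411) (nat_lit 323))) (XT.nd (nat_lit 78) (nat_lit 0) (nat_lit 0) (XT.lf (nat_lit 0)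 (nat_lit 17363115295) (nat_lit 76) (nat_lit 76561160219) (nat_lit 76) (nat_lit 51366157234) (nat_lit 19) (nat_lit 4) (nat_lit 20) (nat_lit 5) (nat_lit 20) (nat_lit 4) (nat_lit 467) (nat_lit 411) (nat_lit 322)) (XT.lf (nat_lit 0) (nat_lit 97001580172) (nat_lit 76) (nat_lit 41010543960) (nat_lit 76) (nat_lit 15813560693) (nat_lit 19) (nat_lit 4) (nat_lit 20) (nat_lit 5) (nat_lit 20) (nat_lit 4) (nat_lit 468) (nat_lit 411) (nat_lit 321))))))))
noncomputable def xc122 : XT := (XT.nd (nat_lit 1950) (nat_lit 304) (nat_lit 0) (XT.nd (nat_lit 936) (nat_lit 456) (nat_lit 0) (XT.nd (nat_lit 468) (nat_lit 228) (nat_lit 0) (XT.nd (nat_lit 234) (nat_lit 152) (nat_lit 0) (XT.nd (nat_lit 78) (nat_lit 76) (nat_lit 0) (XT.lf (nat_lit 0) (nat_lit 20434322154) (nat_lit 76) (nat_lit 1504686987) (nat_lit 152) (nat_lit 141022460145) (nat_lit 17) (nat_lit 5) (nat_lit 18) (nat_lit 5) (nat_lit 19) (nat_lit 4) (nat_lit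 469) (nat_lit 411) (nat_lit 320)) (XT.nd (nat_lit 78) (nat_lit 76) (nat_lit 0) (XT.lf (nat_lit 0) (nat_lit 64435445845) (nat_lit 152) (nat_lit 67051935054) (nat_lit 0) (nat_lit 41101635999) (nat_lit 17) (nat_lit 5) (nat_lit 19) (nat_lit 4) (nat_lit 17) (nat_lit 4) (nat_lit 470) (nat_lit 411) (nat_lit 319)) (XT.lf (nat_lit 0) (nat_lit 15169829334) (nat_lit 76) (nat_lit 95560166310) (nat_lit 76) (nat_lit 72224900899) (nat_lit 16) (nat_lit 4) (nat_lit 17) (nat_lit 5) (nat_lit 17) (nat_lit 4) (nat_lit 471) (nat_lit 411) (nat_lit 318)))) (XT.nd (nat_lit 78) (nat_lit 152) (nat_lit 0) (XT.lf (nat_lit 0) (nat_lit 107771684164) (nat_lit 76) (nat_lit 54784370023) (nat_lit 76) (nat_lit 31447756865) (nat_lit 16) (nat_lit 4) (nat_lit 17) (nat_lit 5) (nat_lit 17) (nat_lit 4) (nat_lit 472) (nat_lit 411) (nat_lit 317)) (XT.nd (nat_lit 78) (nat_lit 0) (nat_lit 0) (XT.lf (nat_lit 0) (nat_lit 1612472601)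 (nat_lit 76) (nat_lit 10382880125) (nat_lit 152) (nat_lit 193914365889) (nat_lit 14) (nat_lit 5) (nat_lit 15) (nat_lit 5) (nat_lit 16) (nat_lit 4) (nat_lit 473) (nat_lit 411) (nat_lit 316)) (XT.lf (nat_lit 0) (nat_lit 60532375881) (nat_lit 152) (nat_lit 118982804759) (nat_lit 0) (nat_lit 38922175375) (nat_lit 14) (nat_lit 5) (nat_lit 16) (nat_lit 4) (nat_lit 14) (nat_lit 4) (nat_lit 474) (nat_lit 411) (nat_lit 315))))) (XT.nd (nat_lit 234) (nat_lit 152) (nat_lit 0) (XT.nd (nat_lit 78) (nat_lit 76) (nat_lit 0) (XT.lf (nat_lit 0) (nat_lit 113217327947) (nat_lit 152) (nat_lit 27122542340) (nat_lit 0) (nat_lit 91606136807) (nat_lit 14) (nat_lit 5) (nat_lit 16) (nat_lit 4) (nat_lit 14) (nat_lit 4) (nat_lit 475) (nat_lit 411) (nat_lit 314)) (XT.nd (nat_lit 78) (nat_lit 0) (nat_lit 0) (XT.lf (nat_lit 0) (nat_lit 75873085914) (nat_lit 76) (nat_lit 96064371159) (nat_lit 76) (nat_lit 74452262765)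 (nat_lit 13) (nat_lit 4) (nat_lit 14) (nat_lit 5) (nat_lit 14) (nat_lit 4) (nat_lit 476) (nat_lit 411) (nat_lit 313)) (XT.lf (nat_lit 0) (nat_lit 188642139425) (nat_lit 76) (nat_lit 47450381006) (nat_lit 76) (nat_lit 25837423303) (nat_lit 13) (nat_lit 4) (nat_lit 14) (nat_lit 5) (nat_lit 14) (nat_lit 4) (nat_lit 477) (nat_lit 411) (nat_lit 312)))) (XT.nd (nat_lit 78) (nat_lit 0) (nat_lit 0) (XT.lf (nat_lit 0) (nat_lit 26273670325) (nat_lit 152) (nat_lit 246052181271) (nat_lit 0) (nat_lit 6260944307) (nat_lit 11) (nat_lit 5) (nat_lit 13) (nat_lit 4) (nat_lit 11) (nat_lit 4) (nat_lit 478) (nat_lit 411) (nat_lit 311)) (XT.nd (nat_lit 78) (nat_lit 0) (nat_lit 0) (XT.lf (nat_lit 0) (nat_lit 84442066969) (nat_lit 152) (nat_lit 147389029822) (nat_lit 0) (nat_lit 64428666742) (nat_lit 11) (nat_lit 5) (nat_lit 13) (nat_lit 4) (nat_lit 11) (nat_lit 4) (nat_lit 479) (nat_lit 411) (nat_lit 310)) (XT.lf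 (nat_lit 0) (nat_lit 147260198655) (nat_lit 152) (nat_lit 40840494725) (nat_lit 0) (nat_lit 127246174160) (nat_lit 11) (nat_lit 5) (nat_lit 13) (nat_lit 4) (nat_lit 11) (nat_lit 4) (nat_lit 480) (nat_lit 411) (nat_lit 309)))))) (XT.nd (nat_lit 468) (nat_lit 228) (nat_lit 0) (XT.nd (nat_lit 234) (nat_lit 152) (nat_lit 0) (XT.nd (nat_lit 78) (nat_lit 0) (nat_lit 0) (XT.lf (nat_lit 0) (nat_lit 78133370373) (nat_lit 76) (nat_lit 138846060042) (nat_lit 76) (nat_lit 118831457522) (nat_lit 10) (nat_lit 4) (nat_lit 11) (nat_lit 5) (nat_lit 11) (nat_lit 4) (nat_lit 481) (nat_lit 411) (nat_lit 308)) (XT.nd (nat_lit 78) (nat_lit 0) (nat_lit 0) (XT.lf (nat_lit 0) (nat_lit 208940859126) (nat_lit 76) (nat_lit 84448623039) (nat_lit 76) (nat_lit 64433485311) (nat_lit 10) (nat_lit 4) (nat_lit 11) (nat_lit 5) (nat_lit 11) (nat_lit 4) (nat_lit 482) (nat_lit 411) (nat_lit 307)) (XT.lf (nat_lit 0) (nat_lit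 350206538947) (nat_lit 76) (nat_lit 25702678693) (nat_lit 76) (nat_lit 5687045401) (nat_lit 10) (nat_lit 4) (nat_lit 11) (nat_lit 5) (nat_lit 11) (nat_lit 4) (nat_lit 483) (nat_lit 411) (nat_lit 306)))) (XT.nd (nat_lit 78) (nat_lit 0) (nat_lit 0) (XT.lf (nat_lit 0) (nat_lit 58254858830) (nat_lit 152) (nat_lit 308913187131) (nat_lit 0) (nat_lit 39721440175) (nat_lit 8) (nat_lit 5) (nat_lit 10) (nat_lit 4) (nat_lit 8) (nat_lit 4) (nat_lit 484) (nat_lit 411) (nat_lit 305)) (XT.nd (nat_lit 78) (nat_lit 0) (nat_lit 0) (XT.lf (nat_lit 0) (nat_lit 128550051377) (nat_lit 152) (nat_lit 195504444426) (nat_lit 0) (nat_lit 110016239328) (nat_lit 8) (nat_lit 5) (nat_lit 10) (nat_lit 4) (nat_lit 8) (nat_lit 4) (nat_lit 485) (nat_lit 411) (nat_lit 304)) (XT.lf (nat_lit 0) (nat_lit 204466117839) (nat_lit 152) (nat_lit 73028644009) (nat_lit 0) (nat_lit 185931941536) (nat_lit 8) (nat_lit 5) (nat_lit 10)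 (nat_lit 4) (nat_lit 8) (nat_lit 4) (nat_lit 486) (nat_lit 411) (nat_lit 303))))) (XT.nd (nat_lit 234) (nat_lit 152) (nat_lit 0) (XT.nd (nat_lit 78) (nat_lit 0) (nat_lit 0) (XT.lf (nat_lit 0) (nat_lit 62359469879) (nat_lit 76) (nat_lit 225593208073) (nat_lit 76) (nat_lit 207058694497) (nat_lit 7) (nat_lit 4) (nat_lit 8) (nat_lit 5) (nat_lit 8) (nat_lit 4) (nat_lit 487) (nat_lit 411) (nat_lit 302)) (XT.nd (nat_lit 78) (nat_lit 0) (nat_lit 0) (XT.lf (nat_lit 0) (nat_lit 212726745020) (nat_lit 76) (nat_lit 167385677562) (nat_lit 76) (nat_lit 148850851698) (nat_lit 7) (nat_lit 4) (nat_lit 8) (nat_lit 5) (nat_lit 8) (nat_lit 4) (nat_lit 488) (nat_lit 411) (nat_lit 301)) (XT.lf (nat_lit 0) (nat_lit 375118687771) (nat_lit 76) (nat_lit 104523969348) (nat_lit 76) (nat_lit 85988854327) (nat_lit 7) (nat_lit 4) (nat_lit 8) (nat_lit 5) (nat_lit 8) (nat_lit 4) (nat_lit 489) (nat_lit 411) (nat_lit 300))))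 (XT.nd (nat_lit 156) (nat_lit 0) (nat_lit 0) (XT.nd (nat_lit 78) (nat_lit 152) (nat_lit 0) (XT.lf (nat_lit 0) (nat_lit 550497620757) (nat_lit 76) (nat_lit 36635569603) (nat_lit 76) (nat_lit 18100186844) (nat_lit 7) (nat_lit 4) (nat_lit 8) (nat_lit 5) (nat_lit 8) (nat_lit 4) (nat_lit 490) (nat_lit 411) (nat_lit 299)) (XT.lf (nat_lit 0) (nat_lit 55724446231) (nat_lit 152) (nat_lit 553349503877) (nat_lit 0) (nat_lit 38561825246) (nat_lit 5) (nat_lit 5) (nat_lit 7) (nat_lit 4) (nat_lit 5) (nat_lit 4) (nat_lit 491) (nat_lit 411) (nat_lit 298))) (XT.nd (nat_lit 78) (nat_lit 0) (nat_lit 0) (XT.lf (nat_lit 0) (nat_lit 136962175455) (nat_lit 152) (nat_lit 436432436746) (nat_lit 0) (nat_lit 119799341931) (nat_lit 5) (nat_lit 5) (nat_lit 7) (nat_lit 4) (nat_lit 5) (nat_lit 4) (nat_lit 492) (nat_lit 411) (nat_lit 297)) (XT.lf (nat_lit 0) (nat_lit 224697059954) (nat_lit 152) (nat_lit 310165846677) (nat_lit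 0) (nat_lit 207534029635) (nat_lit 5) (nat_lit 5) (nat_lit 7) (nat_lit 4) (nat_lit 5) (nat_lit 4) (nat_lit 493) (nat_lit 411) (nat_lit 296))))))) (XT.nd (nat_lit 936) (nat_lit 76) (nat_lit 0) (XT.nd (nat_lit 468) (nat_lit 152) (nat_lit 0) (XT.nd (nat_lit 234) (nat_lit 0) (nat_lit 0) (XT.nd (nat_lit 78) (nat_lit 76) (nat_lit 0) (XT.lf (nat_lit 0) (nat_lit 319449010155) (nat_lit 152) (nat_lit 173801487212) (nat_lit 0) (nat_lit 302285797619) (nat_lit 5) (nat_lit 5) (nat_lit 7) (nat_lit 4) (nat_lit 5) (nat_lit 4) (nat_lit 494) (nat_lit 411) (nat_lit 295)) (XT.nd (nat_lit 78) (nat_lit 76) (nat_lit 0) (XT.lf (nat_lit 0) (nat_lit 421779519097) (nat_lit 152) (nat_lit 26531273257) (nat_lit 0) (nat_lit 404616137841) (nat_lit 5) (nat_lit 5) (nat_lit 7) (nat_lit 4) (nat_lit 5) (nat_lit 4) (nat_lit 495) (nat_lit 411) (nat_lit 294)) (XT.lf (nat_lit 0) (nat_lit 139495644673) (nat_lit 76) (nat_lit 396154218732)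 (nat_lit 76) (nat_lit 378990681253) (nat_lit 4) (nat_lit 4) (nat_lit 5) (nat_lit 5) (nat_lit 5) (nat_lit 4) (nat_lit 496) (nat_lit 411) (nat_lit 293)))) (XT.nd (nat_lit 78) (nat_lit 0) (nat_lit 0) (XT.lf (nat_lit 0) (nat_lit 320310600031) (nat_lit 76) (nat_lit 339043206347) (nat_lit 76) (nat_lit 321879524217) (nat_lit 4) (nat_lit 4) (nat_lit 5) (nat_lit 5) (nat_lit 5) (nat_lit 4) (nat_lit 497) (nat_lit 411) (nat_lit 292)) (XT.nd (nat_lit 78) (nat_lit 0) (nat_lit 0) (XT.lf (nat_lit 0) (nat_lit 515587999016) (nat_lit 76) (nat_lit 277364731598) (nat_lit 76) (nat_lit 260200915533) (nat_lit 4) (nat_lit 4) (nat_lit 5) (nat_lit 5) (nat_lit 5) (nat_lit 4) (nat_lit 498) (nat_lit 411) (nat_lit 291)) (XT.lf (nat_lit 0) (nat_lit 726485041029) (nat_lit 76) (nat_lit 210753292415) (nat_lit 76) (nat_lit 193589352335) (nat_lit 4) (nat_lit 4) (nat_lit 5) (nat_lit 5) (nat_lit 5) (nat_lit 4) (nat_lit 499)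 (nat_lit 411) (nat_lit 290))))) (XT.nd (nat_lit 234) (nat_lit 0) (nat_lit 0) (XT.nd (nat_lit 78) (nat_lit 152) (nat_lit 0) (XT.lf (nat_lit 0) (nat_lit 954251486320) (nat_lit 76) (nat_lit 138814154341) (nat_lit 76) (nat_lit 121650099434) (nat_lit 4) (nat_lit 4) (nat_lit 5) (nat_lit 5) (nat_lit 5) (nat_lit 4) (nat_lit 500) (nat_lit 411) (nat_lit 289)) (XT.nd (nat_lit 78) (nat_lit 152) (nat_lit 0) (XT.lf (nat_lit 0) (nat_lit 1200237061970) (nat_lit 76) (nat_lit 61121011375) (nat_lit 76) (nat_lit 43956850145) (nat_lit 4) (nat_lit 4) (nat_lit 5) (nat_lit 5) (nat_lit 5) (nat_lit 4) (nat_lit 501) (nat_lit 411) (nat_lit 288)) (XT.lf (nat_lit 0) (nat_lit 40129857302) (nat_lit 152) (nat_lit 1338544168377) (nat_lit 0) (nat_lit 24237024268) (nat_lit 2) (nat_lit 5) (nat_lit 4) (nat_lit 4) (nat_lit 2) (nat_lit 4) (nat_lit 502) (nat_lit 411) (nat_lit 287)))) (XT.nd (nat_lit 78) (nat_lit 0) (nat_lit 0)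 (XT.lf (nat_lit 0) (nat_lit 133102881776) (nat_lit 152) (nat_lit 1257547946134) (nat_lit 0) (nat_lit 117209964340) (nat_lit 2) (nat_lit 5) (nat_lit 4) (nat_lit 4) (nat_lit 2) (nat_lit 4) (nat_lit 503) (nat_lit 411) (nat_lit 286)) (XT.nd (nat_lit 78) (nat_lit 0) (nat_lit 0) (XT.lf (nat_lit 0) (nat_lit 233512817304) (nat_lit 152) (nat_lit 1170073949390) (nat_lit 0) (nat_lit 217619821719) (nat_lit 2) (nat_lit 5) (nat_lit 4) (nat_lit 4) (nat_lit 2) (nat_lit 4) (nat_lit 504) (nat_lit 411) (nat_lit 285)) (XT.lf (nat_lit 0) (nat_lit 341954685728) (nat_lit 152) (nat_lit 1075603813721) (nat_lit 0) (nat_lit 326061617781) (nat_lit 2) (nat_lit 5) (nat_lit 4) (nat_lit 4) (nat_lit 2) (nat_lit 4) (nat_lit 505) (nat_lit 411) (nat_lit 284)))))) (XT.nd (nat_lit 468) (nat_lit 76) (nat_lit 0) (XT.nd (nat_lit 234) (nat_lit 0) (nat_lit 0) (XT.nd (nat_lit 78) (nat_lit 0) (nat_lit 0) (XT.lf (nat_lit 0) (nat_lit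 459071105525) (nat_lit 152) (nat_lit 973577716099) (nat_lit 0) (nat_lit 443177970578) (nat_lit 2) (nat_lit 5) (nat_lit 4) (nat_lit 4) (nat_lit 2) (nat_lit 4) (nat_lit 506) (nat_lit 411) (nat_lit 283)) (XT.nd (nat_lit 78) (nat_lit 0) (nat_lit 0) (XT.lf (nat_lit 0) (nat_lit 585556099926) (nat_lit 152) (nat_lit 863391057429) (nat_lit 0) (nat_lit 569662902940) (nat_lit 2) (nat_lit 5) (nat_lit 4) (nat_lit 4) (nat_lit 2) (nat_lit 4) (nat_lit 507) (nat_lit 411) (nat_lit 282)) (XT.lf (nat_lit 0) (nat_lit 722159209637) (nat_lit 152) (nat_lit 744390879732) (nat_lit 0) (nat_lit 706265955209) (nat_lit 2) (nat_lit 5) (nat_lit 4) (nat_lit 4) (nat_lit 2) (nat_lit 4) (nat_lit 508) (nat_lit 411) (nat_lit 281)))) (XT.nd (nat_lit 78) (nat_lit 0) (nat_lit 0) (XT.lf (nat_lit 0) (nat_lit 869689934568) (nat_lit 152) (nat_lit 615871996770) (nat_lit 0) (nat_lit 853796626952) (nat_lit 2) (nat_lit 5) (nat_lit 4)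 (nat_lit 4) (nat_lit 2) (nat_lit 4) (nat_lit 509) (nat_lit 411) (nat_lit 280)) (XT.nd (nat_lit 78) (nat_lit 0) (nat_lit 0) (XT.lf (nat_lit 0) (nat_lit 1029022530866) (nat_lit 152) (nat_lit 477072815163) (nat_lit 0) (nat_lit 1013129174002) (nat_lit 2) (nat_lit 5) (nat_lit 4) (nat_lit 4) (nat_lit 2) (nat_lit 4) (nat_lit 510) (nat_lit 411) (nat_lit 279)) (XT.lf (nat_lit 0) (nat_lit 1201101191695) (nat_lit 152) (nat_lit 327170821243) (nat_lit 0) (nat_lit 1185207789232) (nat_lit 2) (nat_lit 5) (nat_lit 4) (nat_lit 4) (nat_lit 2) (nat_lit 4) (nat_lit 511) (nat_lit 411) (nat_lit 278))))) (XT.nd (nat_lit 234) (nat_lit 0) (nat_lit 0) (XT.nd (nat_lit 78) (nat_lit 76) (nat_lit 0) (XT.lf (nat_lit 0) (nat_lit 1386945642453) (nat_lit 152) (nat_lit 165277706896) (nat_lit 0) (nat_lit 1371052197767) (nat_lit 2) (nat_lit 5) (nat_lit 4) (nat_lit 4) (nat_lit 2) (nat_lit 4) (nat_lit 512) (nat_lit 411) (nat_lit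 277)) (XT.nd (nat_lit 78) (nat_lit 0) (nat_lit 0) (XT.lf (nat_lit 0) (nat_lit 10069617530) (nat_lit 76) (nat_lit 1577829740600) (nat_lit 76) (nat_lit 1561936256820) (nat_lit 1) (nat_lit 4) (nat_lit 2) (nat_lit 5) (nat_lit 2) (nat_lit 4) (nat_lit 513) (nat_lit 411) (nat_lit 276)) (XT.lf (nat_lit 0) (nat_lit 208843279791) (nat_lit 76) (nat_lit 1600604622935) (nat_lit 76) (nat_lit 1584711102956) (nat_lit 1) (nat_lit 4) (nat_lit 2) (nat_lit 5) (nat_lit 2) (nat_lit 4) (nat_lit 514) (nat_lit 411) (nat_lit 275)))) (XT.nd (nat_lit 156) (nat_lit 0) (nat_lit 0) (XT.nd (nat_lit 78) (nat_lit 0) (nat_lit 0) (XT.lf (nat_lit 0) (nat_lit 423517966735) (nat_lit 76) (nat_lit 1625201944022) (nat_lit 76) (nat_lit 1609308390526) (nat_lit 1) (nat_lit 4) (nat_lit 2) (nat_lit 5) (nat_lit 2) (nat_lit 4) (nat_lit 515) (nat_lit 411) (nat_lit 274)) (XT.lf (nat_lit 0) (nat_lit 655365824656) (nat_lit 76) (nat_lit 1651767465765)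 (nat_lit 76) (nat_lit 1635873881235) (nat_lit 1) (nat_lit 4) (nat_lit 2) (nat_lit 5) (nat_lit 2) (nat_lit 4) (nat_lit 516) (nat_lit 411) (nat_lit 273))) (XT.nd (nat_lit 78) (nat_lit 0) (nat_lit 0) (XT.lf (nat_lit 0) (nat_lit 905760766786) (nat_lit 76) (nat_lit 1680458613477) (nat_lit 76) (nat_lit 1664565000211) (nat_lit 1) (nat_lit 4) (nat_lit 2) (nat_lit 5) (nat_lit 2) (nat_lit 4) (nat_lit 517) (nat_lit 411) (nat_lit 272)) (XT.lf (nat_lit 0) (nat_lit 1176186615005) (nat_lit 76) (nat_lit 1711445408775) (nat_lit 76) (nat_lit 1695551768902) (nat_lit 1) (nat_lit 4) (nat_lit 2) (nat_lit 5) (nat_lit 2) (nat_lit 4) (nat_lit 518) (nat_lit 411) (nat_lit 271))))))))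
noncomputable def xc123 : XT := (XT.nd (nat_lit 54834) (nat_lit 0) (nat_lit 2888) (XT.nd (nat_lit 936) (nat_lit 0) (nat_lit 0) (XT.nd (nat_lit 468) (nat_lit 0) (nat_lit 0) (XT.nd (nat_lit 234) (nat_lit 0) (nat_lit 0) (XT.nd (nat_lit 78) (nat_lit 0) (nat_lit 0) (XT.lf (nat_lit 0) (nat_lit 1468245892856) (nat_lit 76) (nat_lit 1744911477112) (nat_lit 76) (nat_lit 1729017812603) (nat_lit 1) (nat_lit 4) (nat_lit 2) (nat_lit 5) (nat_lit 2) (nat_lit 4) (nat_lit 519) (nat_lit 411) (nat_lit 270)) (XT.nd (nat_lit 78) (nat_lit 0) (nat_lit 0) (XT.lf (nat_lit 0) (nat_lit 1783669321987) (nat_lit 76) (nat_lit 1781055135931) (nat_lit 76) (nat_lit 1765161448610) (nat_lit 1) (nat_lit 4) (nat_lit 2) (nat_lit 5) (nat_lit 2) (nat_lit 4) (nat_lit 520) (nat_lit 411) (nat_lit 269)) (XT.lf (nat_lit 0) (nat_lit 2124326078275) (nat_lit 76) (nat_lit 1820090569875) (nat_lit 76) (nat_lit 1804196861433) (nat_lit 1) (nat_lit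 4) (nat_lit 2) (nat_lit 5) (nat_lit 2) (nat_lit 4) (nat_lit 521) (nat_lit 411) (nat_lit 268)))) (XT.nd (nat_lit 78) (nat_lit 0) (nat_lit 0) (XT.lf (nat_lit 0) (nat_lit 2492234868422) (nat_lit 76) (nat_lit 1862249100036) (nat_lit 76) (nat_lit 1846355372037) (nat_lit 1) (nat_lit 4) (nat_lit 2) (nat_lit 5) (nat_lit 2) (nat_lit 4) (nat_lit 522) (nat_lit 411) (nat_lit 267)) (XT.nd (nat_lit 78) (nat_lit 0) (nat_lit 0) (XT.lf (nat_lit 0) (nat_lit 2889575892668) (nat_lit 76) (nat_lit 1907780554739) (nat_lit 76) (nat_lit 1891886808632) (nat_lit 1) (nat_lit 4) (nat_lit 2) (nat_lit 5) (nat_lit 2) (nat_lit 4) (nat_lit 523) (nat_lit 411) (nat_lit 266)) (XT.lf (nat_lit 0) (nat_lit 3318703764488) (nat_lit 76) (nat_lit 1956954750014) (nat_lit 76) (nat_lit 1941060987140) (nat_lit 1) (nat_lit 4) (nat_lit 2) (nat_lit 5) (nat_lit 2) (nat_lit 4) (nat_lit 524) (nat_lit 411) (nat_lit 265))))) (XT.nd (nat_lit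 234) (nat_lit 0) (nat_lit 0) (XT.nd (nat_lit 78) (nat_lit 0) (nat_lit 0) (XT.lf (nat_lit 0) (nat_lit 3782161463865) (nat_lit 76) (nat_lit 2010063088498) (nat_lit 76) (nat_lit 1994169310099) (nat_lit 1) (nat_lit 4) (nat_lit 2) (nat_lit 5) (nat_lit 2) (nat_lit 4) (nat_lit 525) (nat_lit 411) (nat_lit 264)) (XT.nd (nat_lit 78) (nat_lit 0) (nat_lit 0) (XT.lf (nat_lit 0) (nat_lit 4282695406794) (nat_lit 76) (nat_lit 2067420286271) (nat_lit 76) (nat_lit 2051526493497) (nat_lit 1) (nat_lit 4) (nat_lit 2) (nat_lit 5) (nat_lit 2) (nat_lit 4) (nat_lit 526) (nat_lit 411) (nat_lit 263)) (XT.lf (nat_lit 0) (nat_lit 4823271720344) (nat_lit 76) (nat_lit 2129366237840) (nat_lit 76) (nat_lit 2113472431755) (nat_lit 1) (nat_lit 4) (nat_lit 2) (nat_lit 5) (nat_lit 2) (nat_lit 4) (nat_lit 527) (nat_lit 411) (nat_lit 262)))) (XT.nd (nat_lit 78) (nat_lit 0) (nat_lit 0) (XT.lf (nat_lit 0) (nat_lit 5407093819708)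 (nat_lit 76) (nat_lit 2196268030323) (nat_lit 76) (nat_lit 2180374211914) (nat_lit 1) (nat_lit 4) (nat_lit 2) (nat_lit 5) (nat_lit 2) (nat_lit 4) (nat_lit 528) (nat_lit 411) (nat_lit 261)) (XT.nd (nat_lit 78) (nat_lit 0) (nat_lit 0) (XT.lf (nat_lit 0) (nat_lit 6037621391399) (nat_lit 76) (nat_lit 2268522118788) (nat_lit 76) (nat_lit 2252628288968) (nat_lit 1) (nat_lit 4) (nat_lit 2) (nat_lit 5) (nat_lit 2) (nat_lit 4) (nat_lit 529) (nat_lit 411) (nat_lit 260)) (XT.lf (nat_lit 0) (nat_lit 6718590895102) (nat_lit 76) (nat_lit 2346556675611) (nat_lit 76) (nat_lit 2330662835225) (nat_lit 1) (nat_lit 4) (nat_lit 2) (nat_lit 5) (nat_lit 2) (nat_lit 4) (nat_lit 530) (nat_lit 411) (nat_lit 259)))))) (XT.nd (nat_lit 53352) (nat_lit 0) (nat_lit 5776) (XT.nd (nat_lit 234) (nat_lit 0) (nat_lit 0) (XT.nd (nat_lit 78) (nat_lit 0) (nat_lit 0) (XT.lf (nat_lit 0) (nat_lit 7454037705654) (nat_lit 76) (nat_lit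 2430834127795) (nat_lit 76) (nat_lit 2414940277626) (nat_lit 1) (nat_lit 4) (nat_lit 2) (nat_lit 5) (nat_lit 2) (nat_lit 4) (nat_lit 531) (nat_lit 411) (nat_lit 258)) (XT.nd (nat_lit 78) (nat_lit 0) (nat_lit 0) (XT.lf (nat_lit 0) (nat_lit 8248320026377) (nat_lit 76) (nat_lit 2521853897279) (nat_lit 76) (nat_lit 2505960038052) (nat_lit 1) (nat_lit 4) (nat_lit 2) (nat_lit 5) (nat_lit 2) (nat_lit 4) (nat_lit 532) (nat_lit 411) (nat_lit 257)) (XT.lf (nat_lit 0) (nat_lit 9106144715466) (nat_lit 76) (nat_lit 2620155360475) (nat_lit 76) (nat_lit 2604261492860) (nat_lit 1) (nat_lit 4) (nat_lit 2) (nat_lit 5) (nat_lit 2) (nat_lit 4) (nat_lit 533) (nat_lit 411) (nat_lit 256)))) (XT.nd (nat_lit 52962) (nat_lit 0) (nat_lit 6080) (XT.lf (nat_lit 0) (nat_lit 10032595178488) (nat_lit 76) (nat_lit 2726321044573) (nat_lit 76) (nat_lit 2710427169191) (nat_lit 1) (nat_lit 4) (nat_lit 2) (nat_lit 5) (nat_lit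 2) (nat_lit 4) (nat_lit 534) (nat_lit 411) (nat_lit 255)) (XT.nd (nat_lit 78) (nat_lit 0) (nat_lit 0) (XT.lf (nat_lit 0) (nat_lit 2370157361) (nat_lit 532) (nat_lit 1475247331) (nat_lit 532) (nat_lit 1475247331) (nat_lit 81) (nat_lit 3) (nat_lit 88) (nat_lit 3) (nat_lit 88) (nat_lit 5) (nat_lit 412) (nat_lit 412) (nat_lit 376)) (XT.lf (nat_lit 76) (nat_lit 2451266308) (nat_lit 0) (nat_lit 3127611149) (nat_lit 532) (nat_lit 5436004986) (nat_lit 82) (nat_lit 5) (nat_lit 81) (nat_lit 3) (nat_lit 88) (nat_lit 5) (nat_lit 413) (nat_lit 412) (nat_lit 375))))) (XT.nd (nat_lit 234) (nat_lit 380) (nat_lit 0) (XT.nd (nat_lit 78) (nat_lit 0) (nat_lit 0) (XT.lf (nat_lit 0) (nat_lit 6551394456) (nat_lit 456) (nat_lit 3043325289) (nat_lit 532) (nat_lit 1818293609) (nat_lit 82) (nat_lit 5) (nat_lit 88) (nat_lit 5) (nat_lit 89) (nat_lit 5) (nat_lit 414) (nat_lit 412) (nat_lit 374)) (XT.nd (nat_lit 78)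 (nat_lit 0) (nat_lit 76) (XT.lf (nat_lit 76) (nat_lit 2948752916) (nat_lit 0) (nat_lit 4750296181) (nat_lit 532) (nat_lit 4136173354) (nat_lit 83) (nat_lit 5) (nat_lit 82) (nat_lit 5) (nat_lit 89) (nat_lit 5) (nat_lit 415) (nat_lit 412) (nat_lit 373)) (XT.lf (nat_lit 0) (nat_lit 8984262652) (nat_lit 456) (nat_lit 2744753432) (nat_lit 532) (nat_lit 558545998) (nat_lit 83) (nat_lit 5) (nat_lit 89) (nat_lit 5) (nat_lit 90) (nat_lit 5) (nat_lit 416) (nat_lit 412) (nat_lit 372)))) (XT.nd (nat_lit 156) (nat_lit 456) (nat_lit 0) (XT.nd (nat_lit 78) (nat_lit 0) (nat_lit 0) (XT.lf (nat_lit 76) (nat_lit 3924445063) (nat_lit 0) (nat_lit 6618199702) (nat_lit 532) (nat_lit 2219828530) (nat_lit 84) (nat_lit 5) (nat_lit 83) (nat_lit 5) (nat_lit 90) (nat_lit 5) (nat_lit 417) (nat_lit 412) (nat_lit 371)) (XT.lf (nat_lit 76) (nat_lit 11247420106) (nat_lit 0) (nat_lit 1008557875) (nat_lit 532) (nat_lit 1016988583)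 (nat_lit 84) (nat_lit 5) (nat_lit 83) (nat_lit 5) (nat_lit 90) (nat_lit 5) (nat_lit 418) (nat_lit 412) (nat_lit 370))) (XT.nd (nat_lit 78) (nat_lit 0) (nat_lit 0) (XT.lf (nat_lit 0) (nat_lit 484621723) (nat_lit 532) (nat_lit 8373483941) (nat_lit 76) (nat_lit 4948328545) (nat_lit 77) (nat_lit 5) (nat_lit 84) (nat_lit 5) (nat_lit 78) (nat_lit 5) (nat_lit 419) (nat_lit 412) (nat_lit 369)) (XT.lf (nat_lit 0) (nat_lit 2094353281) (nat_lit 532) (nat_lit 866792522) (nat_lit 76) (nat_lit 11415894552) (nat_lit 77) (nat_lit 5) (nat_lit 84) (nat_lit 5) (nat_lit 78) (nat_lit 5) (nat_lit 420) (nat_lit 412) (nat_lit 368))))))) (XT.nd (nat_lit 936) (nat_lit 1140) (nat_lit 0) (XT.nd (nat_lit 468) (nat_lit 608) (nat_lit 0) (XT.nd (nat_lit 234) (nat_lit 456) (nat_lit 0) (XT.nd (nat_lit 78) (nat_lit 228) (nat_lit 0) (XT.lf (nat_lit 0) (nat_lit 4064903443) (nat_lit 532) (nat_lit 7483670340) (nat_lit 76) (nat_lit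 3426166530) (nat_lit 71) (nat_lit 5) (nat_lit 78) (nat_lit 5) (nat_lit 72) (nat_lit 5) (nat_lit 421) (nat_lit 412) (nat_lit 367)) (XT.nd (nat_lit 78) (nat_lit 0) (nat_lit 0) (XT.lf (nat_lit 0) (nat_lit 877816091) (nat_lit 228) (nat_lit 5402458800) (nat_lit 304) (nat_lit 9333015091) (nat_lit 68) (nat_lit 5) (nat_lit 71) (nat_lit 5) (nat_lit 72) (nat_lit 5) (nat_lit 422) (nat_lit 412) (nat_lit 366)) (XT.lf (nat_lit 0) (nat_lit 8879026239) (nat_lit 304) (nat_lit 6026496689) (nat_lit 76) (nat_lit 1380915992) (nat_lit 68) (nat_lit 5) (nat_lit 72) (nat_lit 5) (nat_lit 69) (nat_lit 5) (nat_lit 423) (nat_lit 412) (nat_lit 365)))) (XT.nd (nat_lit 78) (nat_lit 228) (nat_lit 0) (XT.lf (nat_lit 0) (nat_lit 3371667316) (nat_lit 228) (nat_lit 8504412076) (nat_lit 304) (nat_lit 5122135014) (nat_lit 65) (nat_lit 5) (nat_lit 68) (nat_lit 5) (nat_lit 69) (nat_lit 5) (nat_lit 424) (nat_lit 412) (nat_lit 364))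 (XT.nd (nat_lit 78) (nat_lit 228) (nat_lit 0) (XT.lf (nat_lit 0) (nat_lit 13829452582) (nat_lit 228) (nat_lit 1418664921) (nat_lit 304) (nat_lit 2508003038) (nat_lit 65) (nat_lit 5) (nat_lit 68) (nat_lit 5) (nat_lit 69) (nat_lit 5) (nat_lit 425) (nat_lit 412) (nat_lit 363)) (XT.lf (nat_lit 0) (nat_lit 590424681) (nat_lit 228) (nat_lit 11866939546) (nat_lit 76) (nat_lit 6093418895) (nat_lit 62) (nat_lit 5) (nat_lit 65) (nat_lit 5) (nat_lit 63) (nat_lit 5) (nat_lit 426) (nat_lit 412) (nat_lit 362))))) (XT.nd (nat_lit 234) (nat_lit 228) (nat_lit 0) (XT.nd (nat_lit 78) (nat_lit 380) (nat_lit 0) (XT.lf (nat_lit 0) (nat_lit 3921284140) (nat_lit 228) (nat_lit 1173701005) (nat_lit 76) (nat_lit 14299222720) (nat_lit 62) (nat_lit 5) (nat_lit 65) (nat_lit 5) (nat_lit 63) (nat_lit 5) (nat_lit 427) (nat_lit 412) (nat_lit 361)) (XT.nd (nat_lit 78) (nat_lit 152) (nat_lit 0) (XT.lf (nat_lit 0) (nat_lit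 7830819316) (nat_lit 304) (nat_lit 9474266487) (nat_lit 76) (nat_lit 2975048833) (nat_lit 59) (nat_lit 5) (nat_lit 63) (nat_lit 5) (nat_lit 60) (nat_lit 5) (nat_lit 428) (nat_lit 412) (nat_lit 360)) (XT.lf (nat_lit 0) (nat_lit 2536589095) (nat_lit 152) (nat_lit 9718749207) (nat_lit 228) (nat_lit 8965423832) (nat_lit 57) (nat_lit 5) (nat_lit 59) (nat_lit 5) (nat_lit 60) (nat_lit 5) (nat_lit 429) (nat_lit 412) (nat_lit 359)))) (XT.nd (nat_lit 78) (nat_lit 228) (nat_lit 0) (XT.lf (nat_lit 0) (nat_lit 16014651919) (nat_lit 152) (nat_lit 1255164464) (nat_lit 228) (nat_lit 4947947595) (nat_lit 57) (nat_lit 5) (nat_lit 59) (nat_lit 5) (nat_lit 60) (nat_lit 5) (nat_lit 430) (nat_lit 412) (nat_lit 358)) (XT.nd (nat_lit 78) (nat_lit 76) (nat_lit 0) (XT.lf (nat_lit 0) (nat_lit 7426735851) (nat_lit 152) (nat_lit 15605428201) (nat_lit 228) (nat_lit 234628665) (nat_lit 55) (nat_lit 5) (nat_lit 57) (nat_lit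 5) (nat_lit 58) (nat_lit 5) (nat_lit 431) (nat_lit 412) (nat_lit 357)) (XT.lf (nat_lit 0) (nat_lit 4798229337) (nat_lit 228) (nat_lit 2072104159) (nat_lit 76) (nat_lit 17505240662) (nat_lit 54) (nat_lit 5) (nat_lit 57) (nat_lit 5) (nat_lit 55) (nat_lit 5) (nat_lit 432) (nat_lit 412) (nat_lit 356)))))) (XT.nd (nat_lit 468) (nat_lit 532) (nat_lit 0) (XT.nd (nat_lit 234) (nat_lit 304) (nat_lit 0) (XT.nd (nat_lit 78) (nat_lit 152) (nat_lit 0) (XT.lf (nat_lit 0) (nat_lit 10594426505) (nat_lit 228) (nat_lit 12184595998) (nat_lit 76) (nat_lit 2763680047) (nat_lit 52) (nat_lit 5) (nat_lit 55) (nat_lit 5) (nat_lit 53) (nat_lit 5) (nat_lit 433) (nat_lit 412) (nat_lit 355)) (XT.nd (nat_lit 78) (nat_lit 0) (nat_lit 0) (XT.lf (nat_lit 0) (nat_lit 3296852001) (nat_lit 152) (nat_lit 13854199955) (nat_lit 228) (nat_lit 9628413346) (nat_lit 50) (nat_lit 5) (nat_lit 52) (nat_lit 5) (nat_lit 53) (nat_lit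 5) (nat_lit 434) (nat_lit 412) (nat_lit 354)) (XT.lf (nat_lit 0) (nat_lit 20680469704) (nat_lit 152) (nat_lit 3866465313) (nat_lit 228) (nat_lit 3543058341) (nat_lit 50) (nat_lit 5) (nat_lit 52) (nat_lit 5) (nat_lit 53) (nat_lit 5) (nat_lit 435) (nat_lit 412) (nat_lit 353)))) (XT.nd (nat_lit 78) (nat_lit 152) (nat_lit 0) (XT.lf (nat_lit 0) (nat_lit 3283971598) (nat_lit 152) (nat_lit 19288419994) (nat_lit 76) (nat_lit 6894636107) (nat_lit 48) (nat_lit 5) (nat_lit 50) (nat_lit 5) (nat_lit 49) (nat_lit 5) (nat_lit 436) (nat_lit 412) (nat_lit 352)) (XT.nd (nat_lit 78) (nat_lit 152) (nat_lit 0) (XT.lf (nat_lit 0) (nat_lit 10756911395) (nat_lit 152) (nat_lit 1568996702) (nat_lit 76) (nat_lit 18597663294) (nat_lit 48) (nat_lit 5) (nat_lit 50) (nat_lit 5) (nat_lit 49) (nat_lit 5) (nat_lit 437) (nat_lit 412) (nat_lit 351)) (XT.lf (nat_lit 0) (nat_lit 18465361508) (nat_lit 152) (nat_lit 790570401)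 (nat_lit 228) (nat_lit 13206448857) (nat_lit 46) (nat_lit 5) (nat_lit 48) (nat_lit 5) (nat_lit 49) (nat_lit 5) (nat_lit 438) (nat_lit 412) (nat_lit 350))))) (XT.nd (nat_lit 234) (nat_lit 228) (nat_lit 0) (XT.nd (nat_lit 78) (nat_lit 228) (nat_lit 0) (XT.lf (nat_lit 0) (nat_lit 6065917295) (nat_lit 76) (nat_lit 22823921817) (nat_lit 152) (nat_lit 5198060269) (nat_lit 45) (nat_lit 5) (nat_lit 46) (nat_lit 5) (nat_lit 47) (nat_lit 4) (nat_lit 439) (nat_lit 412) (nat_lit 349)) (XT.nd (nat_lit 78) (nat_lit 152) (nat_lit 0) (XT.lf (nat_lit 0) (nat_lit 3676139824) (nat_lit 152) (nat_lit 7423180936) (nat_lit 76) (nat_lit 24705678578) (nat_lit 44) (nat_lit 5) (nat_lit 46) (nat_lit 5) (nat_lit 45) (nat_lit 5) (nat_lit 440) (nat_lit 412) (nat_lit 348)) (XT.lf (nat_lit 0) (nat_lit 13386907649) (nat_lit 228) (nat_lit 22234721612) (nat_lit 76) (nat_lit 1994441250) (nat_lit 42) (nat_lit 5) (nat_lit 45)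 (nat_lit 5) (nat_lit 43) (nat_lit 4) (nat_lit 441) (nat_lit 412) (nat_lit 347)))) (XT.nd (nat_lit 156) (nat_lit 152) (nat_lit 0) (XT.nd (nat_lit 78) (nat_lit 0) (nat_lit 0) (XT.lf (nat_lit 0) (nat_lit 587410990) (nat_lit 76) (nat_lit 23783744136) (nat_lit 152) (nat_lit 15161144041) (nat_lit 41) (nat_lit 5) (nat_lit 42) (nat_lit 5) (nat_lit 43) (nat_lit 4) (nat_lit 442) (nat_lit 412) (nat_lit 346)) (XT.lf (nat_lit 0) (nat_lit 26475434446) (nat_lit 76) (nat_lit 10353060193) (nat_lit 152) (nat_lit 4725784448) (nat_lit 41) (nat_lit 5) (nat_lit 42) (nat_lit 5) (nat_lit 43) (nat_lit 4) (nat_lit 443) (nat_lit 412) (nat_lit 345))) (XT.nd (nat_lit 78) (nat_lit 0) (nat_lit 0) (XT.lf (nat_lit 0) (nat_lit 6580955422) (nat_lit 152) (nat_lit 32746201101) (nat_lit 76) (nat_lit 4369156093) (nat_lit 39) (nat_lit 5) (nat_lit 41) (nat_lit 5) (nat_lit 40) (nat_lit 4) (nat_lit 444) (nat_lit 412) (nat_lit 344))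 (XT.lf (nat_lit 0) (nat_lit 19216080999) (nat_lit 152) (nat_lit 6483590731) (nat_lit 76) (nat_lit 20245885272) (nat_lit 39) (nat_lit 5) (nat_lit 41) (nat_lit 5) (nat_lit 40) (nat_lit 4) (nat_lit 445) (nat_lit 412) (nat_lit 343))))))))
noncomputable def xc124 : XT := (XT.nd (nat_lit 1950) (nat_lit 912) (nat_lit 0) (XT.nd (nat_lit 936) (nat_lit 836) (nat_lit 0) (XT.nd (nat_lit 468) (nat_lit 380) (nat_lit 0) (XT.nd (nat_lit 234) (nat_lit 228) (nat_lit 0) (XT.nd (nat_lit 78) (nat_lit 152) (nat_lit 0) (XT.lf (nat_lit 0) (nat_lit 23009356153) (nat_lit 76) (nat_lit 10394239743) (nat_lit 152) (nat_lit 14927819548) (nat_lit 38) (nat_lit 5) (nat_lit 39) (nat_lit 5) (nat_lit 40) (nat_lit 4) (nat_lit 446) (nat_lit 412) (nat_lit 342)) (XT.nd (nat_lit 78) (nat_lit 76) (nat_lit 0) (XT.lf (nat_lit 0) (nat_lit 4381703755) (nat_lit 76) (nat_lit 44767563013) (nat_lit 76) (nat_lit 1725024194) (nat_lit 37)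 (nat_lit 4) (nat_lit 38) (nat_lit 5) (nat_lit 38) (nat_lit 4) (nat_lit 447) (nat_lit 412) (nat_lit 341)) (XT.lf (nat_lit 0) (nat_lit 12875700235) (nat_lit 152) (nat_lit 16274644238) (nat_lit 76) (nat_lit 24368640761) (nat_lit 36) (nat_lit 5) (nat_lit 38) (nat_lit 5) (nat_lit 37) (nat_lit 4) (nat_lit 448) (nat_lit 412) (nat_lit 340)))) (XT.nd (nat_lit 78) (nat_lit 152) (nat_lit 0) (XT.lf (nat_lit 0) (nat_lit 17153765013) (nat_lit 76) (nat_lit 11799322999) (nat_lit 152) (nat_lit 27386439073) (nat_lit 35) (nat_lit 5) (nat_lit 36) (nat_lit 5) (nat_lit 37) (nat_lit 4) (nat_lit 449) (nat_lit 412) (nat_lit 339)) (XT.nd (nat_lit 78) (nat_lit 152) (nat_lit 0) (XT.lf (nat_lit 0) (nat_lit 46929453994) (nat_lit 152) (nat_lit 5366934865) (nat_lit 0) (nat_lit 7040301026) (nat_lit 35) (nat_lit 5) (nat_lit 37) (nat_lit 4) (nat_lit 35) (nat_lit 4) (nat_lit 450) (nat_lit 412) (nat_lit 338)) (XT.lf (nat_lit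 0) (nat_lit 4686849080) (nat_lit 152) (nat_lit 30150475288) (nat_lit 76) (nat_lit 27640635654) (nat_lit 33) (nat_lit 5) (nat_lit 35) (nat_lit 5) (nat_lit 34) (nat_lit 4) (nat_lit 451) (nat_lit 412) (nat_lit 337))))) (XT.nd (nat_lit 234) (nat_lit 228) (nat_lit 0) (XT.nd (nat_lit 78) (nat_lit 76) (nat_lit 0) (XT.lf (nat_lit 0) (nat_lit 7514839573) (nat_lit 76) (nat_lit 15284771464) (nat_lit 152) (nat_lit 43019422867) (nat_lit 32) (nat_lit 5) (nat_lit 33) (nat_lit 5) (nat_lit 34) (nat_lit 4) (nat_lit 452) (nat_lit 412) (nat_lit 336)) (XT.nd (nat_lit 78) (nat_lit 76) (nat_lit 0) (XT.lf (nat_lit 0) (nat_lit 43337682192) (nat_lit 152) (nat_lit 19634017128) (nat_lit 0) (nat_lit 6377591739) (nat_lit 32) (nat_lit 5) (nat_lit 34) (nat_lit 4) (nat_lit 32) (nat_lit 4) (nat_lit 453) (nat_lit 412) (nat_lit 335)) (XT.lf (nat_lit 0) (nat_lit 22858691176) (nat_lit 76) (nat_lit 43597838541) (nat_lit 76)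 (nat_lit 6630421010) (nat_lit 31) (nat_lit 4) (nat_lit 32) (nat_lit 5) (nat_lit 32) (nat_lit 4) (nat_lit 454) (nat_lit 412) (nat_lit 334)))) (XT.nd (nat_lit 78) (nat_lit 152) (nat_lit 0) (XT.lf (nat_lit 0) (nat_lit 14127627787) (nat_lit 152) (nat_lit 7588736064) (nat_lit 76) (nat_lit 55336402162) (nat_lit 30) (nat_lit 5) (nat_lit 32) (nat_lit 5) (nat_lit 31) (nat_lit 4) (nat_lit 455) (nat_lit 412) (nat_lit 333)) (XT.nd (nat_lit 78) (nat_lit 76) (nat_lit 0) (XT.lf (nat_lit 0) (nat_lit 37224240937) (nat_lit 152) (nat_lit 41031885194) (nat_lit 0) (nat_lit 2983052371) (nat_lit 29) (nat_lit 5) (nat_lit 31) (nat_lit 4) (nat_lit 29) (nat_lit 4) (nat_lit 456) (nat_lit 412) (nat_lit 332)) (XT.lf (nat_lit 0) (nat_lit 6241096803) (nat_lit 76) (nat_lit 56846240659) (nat_lit 76) (nat_lit 22599666472) (nat_lit 28) (nat_lit 4) (nat_lit 29) (nat_lit 5) (nat_lit 29) (nat_lit 4) (nat_lit 457) (nat_lit 412)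 (nat_lit 331)))))) (XT.nd (nat_lit 468) (nat_lit 456) (nat_lit 0) (XT.nd (nat_lit 234) (nat_lit 228) (nat_lit 0) (XT.nd (nat_lit 78) (nat_lit 76) (nat_lit 0) (XT.lf (nat_lit 0) (nat_lit 1645133445) (nat_lit 152) (nat_lit 30829683306) (nat_lit 76) (nat_lit 57923400539) (nat_lit 27) (nat_lit 5) (nat_lit 29) (nat_lit 5) (nat_lit 28) (nat_lit 4) (nat_lit 458) (nat_lit 412) (nat_lit 330)) (XT.nd (nat_lit 78) (nat_lit 0) (nat_lit 0) (XT.lf (nat_lit 0) (nat_lit 22183391298) (nat_lit 76) (nat_lit 4951017102) (nat_lit 152) (nat_lit 68262890395) (nat_lit 26) (nat_lit 5) (nat_lit 27) (nat_lit 5) (nat_lit 28) (nat_lit 4) (nat_lit 459) (nat_lit 412) (nat_lit 329)) (XT.lf (nat_lit 0) (nat_lit 56115874364) (nat_lit 152) (nat_lit 20170956473) (nat_lit 0) (nat_lit 24393232276) (nat_lit 26) (nat_lit 5) (nat_lit 28) (nat_lit 4) (nat_lit 26) (nat_lit 4) (nat_lit 460) (nat_lit 412) (nat_lit 328)))) (XT.nd (nat_lit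 78) (nat_lit 152) (nat_lit 0) (XT.lf (nat_lit 0) (nat_lit 38919696523) (nat_lit 76) (nat_lit 49553727205) (nat_lit 76) (nat_lit 17827419753) (nat_lit 25) (nat_lit 4) (nat_lit 26) (nat_lit 5) (nat_lit 26) (nat_lit 4) (nat_lit 461) (nat_lit 412) (nat_lit 327)) (XT.nd (nat_lit 78) (nat_lit 76) (nat_lit 0) (XT.lf (nat_lit 0) (nat_lit 11054408265) (nat_lit 152) (nat_lit 8736532115) (nat_lit 76) (nat_lit 92514385316) (nat_lit 24) (nat_lit 5) (nat_lit 26) (nat_lit 5) (nat_lit 25) (nat_lit 4) (nat_lit 462) (nat_lit 412) (nat_lit 326)) (XT.lf (nat_lit 0) (nat_lit 42991887680) (nat_lit 152) (nat_lit 62014950128) (nat_lit 0) (nat_lit 13609624935) (nat_lit 23) (nat_lit 5) (nat_lit 25) (nat_lit 4) (nat_lit 23) (nat_lit 4) (nat_lit 463) (nat_lit 412) (nat_lit 325))))) (XT.nd (nat_lit 234) (nat_lit 228) (nat_lit 0) (XT.nd (nat_lit 78) (nat_lit 152) (nat_lit 0) (XT.lf (nat_lit 0) (nat_lit 1807167277) (nat_lit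 76) (nat_lit 76473296333) (nat_lit 76) (nat_lit 47088339436) (nat_lit 22) (nat_lit 4) (nat_lit 23) (nat_lit 5) (nat_lit 23) (nat_lit 4) (nat_lit 464) (nat_lit 412) (nat_lit 324)) (XT.nd (nat_lit 78) (nat_lit 152) (nat_lit 0) (XT.lf (nat_lit 0) (nat_lit 74249175770) (nat_lit 76) (nat_lit 43832231926) (nat_lit 76) (nat_lit 14444780444) (nat_lit 22) (nat_lit 4) (nat_lit 23) (nat_lit 5) (nat_lit 23) (nat_lit 4) (nat_lit 465) (nat_lit 412) (nat_lit 323)) (XT.lf (nat_lit 0) (nat_lit 12334834873) (nat_lit 76) (nat_lit 7725067124) (nat_lit 152) (nat_lit 120132970983) (nat_lit 20) (nat_lit 5) (nat_lit 21) (nat_lit 5) (nat_lit 22) (nat_lit 4) (nat_lit 466) (nat_lit 412) (nat_lit 322)))) (XT.nd (nat_lit 156) (nat_lit 152) (nat_lit 0) (XT.nd (nat_lit 78) (nat_lit 76) (nat_lit 0) (XT.lf (nat_lit 0) (nat_lit 58925426922) (nat_lit 152) (nat_lit 57616277052) (nat_lit 0) (nat_lit 31710704712) (nat_lit 20)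 (nat_lit 5) (nat_lit 22) (nat_lit 4) (nat_lit 20) (nat_lit 4) (nat_lit 467) (nat_lit 412) (nat_lit 321)) (XT.lf (nat_lit 0) (nat_lit 18982539717) (nat_lit 76) (nat_lit 82569296040) (nat_lit 76) (nat_lit 55352740236) (nat_lit 19) (nat_lit 4) (nat_lit 20) (nat_lit 5) (nat_lit 20) (nat_lit 4) (nat_lit 468) (nat_lit 412) (nat_lit 320))) (XT.nd (nat_lit 78) (nat_lit 152) (nat_lit 0) (XT.lf (nat_lit 0) (nat_lit 104975016956) (nat_lit 76) (nat_lit 44183279147) (nat_lit 76) (nat_lit 16965025571) (nat_lit 19) (nat_lit 4) (nat_lit 20) (nat_lit 5) (nat_lit 20) (nat_lit 4) (nat_lit 469) (nat_lit 412) (nat_lit 319)) (XT.lf (nat_lit 0) (nat_lit 22282519475) (nat_lit 76) (nat_lit 1516684881) (nat_lit 152) (nat_lit 152190774993) (nat_lit 17) (nat_lit 5) (nat_lit 18) (nat_lit 5) (nat_lit 19) (nat_lit 4) (nat_lit 470) (nat_lit 412) (nat_lit 318))))))) (XT.nd (nat_lit 936) (nat_lit 380) (nat_lit 0) (XT.nd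 (nat_lit 468) (nat_lit 304) (nat_lit 0) (XT.nd (nat_lit 234) (nat_lit 152) (nat_lit 0) (XT.nd (nat_lit 78) (nat_lit 76) (nat_lit 0) (XT.lf (nat_lit 0) (nat_lit 69689986100) (nat_lit 152) (nat_lit 72213078231) (nat_lit 0) (nat_lit 44485096143) (nat_lit 17) (nat_lit 5) (nat_lit 19) (nat_lit 4) (nat_lit 17) (nat_lit 4) (nat_lit 471) (nat_lit 412) (nat_lit 317)) (XT.nd (nat_lit 78) (nat_lit 0) (nat_lit 0) (XT.lf (nat_lit 0) (nat_lit 16581287773) (nat_lit 76) (nat_lit 103104185415) (nat_lit 76) (nat_lit 77898047544) (nat_lit 16) (nat_lit 4) (nat_lit 17) (nat_lit 5) (nat_lit 17) (nat_lit 4) (nat_lit 472) (nat_lit 412) (nat_lit 316)) (XT.lf (nat_lit 0) (nat_lit 116576633798) (nat_lit 76) (nat_lit 59073791661) (nat_lit 76) (nat_lit 33866498315) (nat_lit 16) (nat_lit 4) (nat_lit 17) (nat_lit 5) (nat_lit 17) (nat_lit 4) (nat_lit 473) (nat_lit 412) (nat_lit 315)))) (XT.nd (nat_lit 78) (nat_lit 0)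 (nat_lit 0) (XT.lf (nat_lit 0) (nat_lit 1924781393) (nat_lit 76) (nat_lit 11119999675) (nat_lit 152) (nat_lit 209330529992) (nat_lit 14) (nat_lit 5) (nat_lit 15) (nat_lit 5) (nat_lit 16) (nat_lit 4) (nat_lit 474) (nat_lit 412) (nat_lit 314)) (XT.nd (nat_lit 78) (nat_lit 0) (nat_lit 0) (XT.lf (nat_lit 0) (nat_lit 65460196564) (nat_lit 152) (nat_lit 128327126279) (nat_lit 0) (nat_lit 42118202245) (nat_lit 14) (nat_lit 5) (nat_lit 16) (nat_lit 4) (nat_lit 14) (nat_lit 4) (nat_lit 475) (nat_lit 412) (nat_lit 313)) (XT.lf (nat_lit 0) (nat_lit 122353631417) (nat_lit 152) (nat_lit 29130954189) (nat_lit 0) (nat_lit 99010787789) (nat_lit 14) (nat_lit 5) (nat_lit 16) (nat_lit 4) (nat_lit 14) (nat_lit 4) (nat_lit 476) (nat_lit 412) (nat_lit 312))))) (XT.nd (nat_lit 234) (nat_lit 76) (nat_lit 0) (XT.nd (nat_lit 78) (nat_lit 152) (nat_lit 0) (XT.lf (nat_lit 0) (nat_lit 82100238464) (nat_lit 76) (nat_lit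 103669069893) (nat_lit 76) (nat_lit 80325439868) (nat_lit 13) (nat_lit 4) (nat_lit 14) (nat_lit 5) (nat_lit 14) (nat_lit 4) (nat_lit 477) (nat_lit 412) (nat_lit 311)) (XT.nd (nat_lit 78) (nat_lit 152) (nat_lit 0) (XT.lf (nat_lit 0) (nat_lit 203879163983) (nat_lit 76) (nat_lit 51171919859) (nat_lit 76) (nat_lit 27827561688) (nat_lit 13) (nat_lit 4) (nat_lit 14) (nat_lit 5) (nat_lit 14) (nat_lit 4) (nat_lit 478) (nat_lit 412) (nat_lit 310)) (XT.lf (nat_lit 0) (nat_lit 28448465318) (nat_lit 152) (nat_lit 265586746899) (nat_lit 0) (nat_lit 6832694597) (nat_lit 11) (nat_lit 5) (nat_lit 13) (nat_lit 4) (nat_lit 11) (nat_lit 4) (nat_lit 479) (nat_lit 412) (nat_lit 309)))) (XT.nd (nat_lit 78) (nat_lit 76) (nat_lit 0) (XT.lf (nat_lit 0) (nat_lit 91264933592) (nat_lit 152) (nat_lit 159041625473) (nat_lit 0) (nat_lit 69648584845) (nat_lit 11) (nat_lit 5) (nat_lit 13) (nat_lit 4) (nat_lit 11) (nat_lit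 4) (nat_lit 480) (nat_lit 412) (nat_lit 308)) (XT.nd (nat_lit 78) (nat_lit 76) (nat_lit 0) (XT.lf (nat_lit 0) (nat_lit 159103515719) (nat_lit 152) (nat_lit 43979468808) (nat_lit 0) (nat_lit 137486631764) (nat_lit 11) (nat_lit 5) (nat_lit 13) (nat_lit 4) (nat_lit 11) (nat_lit 4) (nat_lit 481) (nat_lit 412) (nat_lit 307)) (XT.lf (nat_lit 0) (nat_lit 84509058271) (nat_lit 76) (nat_lit 149889604725) (nat_lit 76) (nat_lit 128272225206) (nat_lit 10) (nat_lit 4) (nat_lit 11) (nat_lit 5) (nat_lit 11) (nat_lit 4) (nat_lit 482) (nat_lit 412) (nat_lit 306)))))) (XT.nd (nat_lit 468) (nat_lit 152) (nat_lit 0) (XT.nd (nat_lit 234) (nat_lit 76) (nat_lit 0) (XT.nd (nat_lit 78) (nat_lit 152) (nat_lit 0) (XT.lf (nat_lit 0) (nat_lit 225771885512) (nat_lit 76) (nat_lit 91145123883) (nat_lit 76) (nat_lit 69527285508) (nat_lit 10) (nat_lit 4) (nat_lit 11) (nat_lit 5) (nat_lit 11) (nat_lit 4) (nat_lit 483) (nat_lit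 412) (nat_lit 305)) (XT.nd (nat_lit 78) (nat_lit 152) (nat_lit 0) (XT.lf (nat_lit 0) (nat_lit 378330245077) (nat_lit 76) (nat_lit 27703903173) (nat_lit 76) (nat_lit 6085639933) (nat_lit 10) (nat_lit 4) (nat_lit 11) (nat_lit 5) (nat_lit 11) (nat_lit 4) (nat_lit 484) (nat_lit 412) (nat_lit 304)) (XT.lf (nat_lit 0) (nat_lit 62968732938) (nat_lit 152) (nat_lit 333516174599) (nat_lit 0) (nat_lit 42951458277) (nat_lit 8) (nat_lit 5) (nat_lit 10) (nat_lit 4) (nat_lit 8) (nat_lit 4) (nat_lit 485) (nat_lit 412) (nat_lit 303)))) (XT.nd (nat_lit 78) (nat_lit 76) (nat_lit 0) (XT.lf (nat_lit 0) (nat_lit 138883579008) (nat_lit 152) (nat_lit 211042885625) (nat_lit 0) (nat_lit 118865967074) (nat_lit 8) (nat_lit 5) (nat_lit 10) (nat_lit 4) (nat_lit 8) (nat_lit 4) (nat_lit 486) (nat_lit 412) (nat_lit 302)) (XT.nd (nat_lit 78) (nat_lit 76) (nat_lit 0) (XT.lf (nat_lit 0) (nat_lit 220869262378) (nat_lit 152)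 (nat_lit 78776570387) (nat_lit 0) (nat_lit 200851338155) (nat_lit 8) (nat_lit 5) (nat_lit 10) (nat_lit 4) (nat_lit 8) (nat_lit 4) (nat_lit 487) (nat_lit 412) (nat_lit 301)) (XT.lf (nat_lit 0) (nat_lit 67440203622) (nat_lit 76) (nat_lit 243593359032) (nat_lit 76) (nat_lit 223575145652) (nat_lit 7) (nat_lit 4) (nat_lit 8) (nat_lit 5) (nat_lit 8) (nat_lit 4) (nat_lit 488) (nat_lit 412) (nat_lit 300))))) (XT.nd (nat_lit 234) (nat_lit 152) (nat_lit 0) (XT.nd (nat_lit 78) (nat_lit 0) (nat_lit 0) (XT.lf (nat_lit 0) (nat_lit 229830047726) (nat_lit 76) (nat_lit 180732730205) (nat_lit 76) (nat_lit 160714249088) (nat_lit 7) (nat_lit 4) (nat_lit 8) (nat_lit 5) (nat_lit 8) (nat_lit 4) (nat_lit 489) (nat_lit 412) (nat_lit 299)) (XT.nd (nat_lit 78) (nat_lit 0) (nat_lit 0) (XT.lf (nat_lit 0) (nat_lit 405207037519) (nat_lit 76) (nat_lit 112845329894) (nat_lit 76) (nat_lit 92826600872) (nat_lit 7) (nat_lit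 4) (nat_lit 8) (nat_lit 5) (nat_lit 8) (nat_lit 4) (nat_lit 490) (nat_lit 412) (nat_lit 298)) (XT.lf (nat_lit 0) (nat_lit 594610444052) (nat_lit 76) (nat_lit 39528862392) (nat_lit 76) (nat_lit 19509903828) (nat_lit 7) (nat_lit 4) (nat_lit 8) (nat_lit 5) (nat_lit 8) (nat_lit 4) (nat_lit 491) (nat_lit 412) (nat_lit 297)))) (XT.nd (nat_lit 156) (nat_lit 0) (nat_lit 0) (XT.nd (nat_lit 78) (nat_lit 0) (nat_lit 0) (XT.lf (nat_lit 0) (nat_lit 60218749558) (nat_lit 152) (nat_lit 597542499789) (nat_lit 0) (nat_lit 41682480019) (nat_lit 5) (nat_lit 5) (nat_lit 7) (nat_lit 4) (nat_lit 5) (nat_lit 4) (nat_lit 492) (nat_lit 412) (nat_lit 296)) (XT.lf (nat_lit 0) (nat_lit 147952804703) (nat_lit 152) (nat_lit 471277620206) (nat_lit 0) (nat_lit 129416352946) (nat_lit 5) (nat_lit 5) (nat_lit 7) (nat_lit 4) (nat_lit 5) (nat_lit 4) (nat_lit 493) (nat_lit 412) (nat_lit 295))) (XT.nd (nat_lit 78) (nat_lit 0)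 (nat_lit 0) (XT.lf (nat_lit 0) (nat_lit 242703986984) (nat_lit 152) (nat_lit 334914844523) (nat_lit 0) (nat_lit 224167366506) (nat_lit 5) (nat_lit 5) (nat_lit 7) (nat_lit 4) (nat_lit 5) (nat_lit 4) (nat_lit 494) (nat_lit 412) (nat_lit 294)) (XT.lf (nat_lit 0) (nat_lit 345033784888) (nat_lit 152) (nat_lit 187646097033) (nat_lit 0) (nat_lit 326497008188) (nat_lit 5) (nat_lit 5) (nat_lit 7) (nat_lit 4) (nat_lit 5) (nat_lit 4) (nat_lit 495) (nat_lit 412) (nat_lit 293))))))))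
noncomputable def xc125 : XT := (XT.nd (nat_lit 1950) (nat_lit 0) (nat_lit 0) (XT.nd (nat_lit 936) (nat_lit 76) (nat_lit 0) (XT.nd (nat_lit 468) (nat_lit 152) (nat_lit 0) (XT.nd (nat_lit 234) (nat_lit 0) (nat_lit 0) (XT.nd (nat_lit 78) (nat_lit 76) (nat_lit 0) (XT.lf (nat_lit 0) (nat_lit 455548597218) (nat_lit 152) (nat_lit 28598674048) (nat_lit 0) (nat_lit 437011675867) (nat_lit 5) (nat_lit 5) (nat_lit 7) (nat_lit 4) (nat_lit 5) (nat_lit 4) (nat_lit 496) (nat_lit 412) (nat_lit 292)) (XT.nd (nat_lit 78) (nat_lit 0) (nat_lit 0) (XT.lf (nat_lit 0) (nat_lit 150709002353) (nat_lit 76) (nat_lit 427818879343) (nat_lit 76) (nat_lit 409281824057) (nat_lit 4) (nat_lit 4) (nat_lit 5) (nat_lit 5) (nat_lit 5) (nat_lit 4) (nat_lit 497) (nat_lit 412) (nat_lit 291)) (XT.lf (nat_lit 0) (nat_lit 345985175910) (nat_lit 76) (nat_lit 366141036106) (nat_lit 76) (nat_lit 347603856806) (nat_lit 4) (nat_lit 4)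 (nat_lit 5) (nat_lit 5) (nat_lit 5) (nat_lit 4) (nat_lit 498) (nat_lit 412) (nat_lit 290)))) (XT.nd (nat_lit 78) (nat_lit 0) (nat_lit 0) (XT.lf (nat_lit 0) (nat_lit 556881083267) (nat_lit 76) (nat_lit 299530181656) (nat_lit 76) (nat_lit 280992887528) (nat_lit 4) (nat_lit 4) (nat_lit 5) (nat_lit 5) (nat_lit 5) (nat_lit 4) (nat_lit 499) (nat_lit 412) (nat_lit 289)) (XT.nd (nat_lit 78) (nat_lit 0) (nat_lit 0) (XT.lf (nat_lit 0) (nat_lit 784646477951) (nat_lit 76) (nat_lit 227591585002) (nat_lit 76) (nat_lit 209054184552) (nat_lit 4) (nat_lit 4) (nat_lit 5) (nat_lit 5) (nat_lit 5) (nat_lit 4) (nat_lit 500) (nat_lit 412) (nat_lit 288)) (XT.lf (nat_lit 0) (nat_lit 1030631080817) (nat_lit 76) (nat_lit 149898943350) (nat_lit 76) (nat_lit 131361444453) (nat_lit 4) (nat_lit 4) (nat_lit 5) (nat_lit 5) (nat_lit 5) (nat_lit 4) (nat_lit 501) (nat_lit 412) (nat_lit 287))))) (XT.nd (nat_lit 234) (nat_lit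 0) (nat_lit 0) (XT.nd (nat_lit 78) (nat_lit 152) (nat_lit 0) (XT.lf (nat_lit 0) (nat_lit 1296292578402) (nat_lit 76) (nat_lit 65991855860) (nat_lit 76) (nat_lit 47454265809) (nat_lit 4) (nat_lit 4) (nat_lit 5) (nat_lit 5) (nat_lit 5) (nat_lit 4) (nat_lit 502) (nat_lit 412) (nat_lit 286)) (XT.nd (nat_lit 78) (nat_lit 0) (nat_lit 0) (XT.lf (nat_lit 0) (nat_lit 43358407450) (nat_lit 152) (nat_lit 1445590179419) (nat_lit 0) (nat_lit 26193894067) (nat_lit 2) (nat_lit 5) (nat_lit 4) (nat_lit 4) (nat_lit 2) (nat_lit 4) (nat_lit 503) (nat_lit 412) (nat_lit 285)) (XT.lf (nat_lit 0) (nat_lit 143767928580) (nat_lit 152) (nat_lit 1358117038836) (nat_lit 0) (nat_lit 126603342837) (nat_lit 2) (nat_lit 5) (nat_lit 4) (nat_lit 4) (nat_lit 2) (nat_lit 4) (nat_lit 504) (nat_lit 412) (nat_lit 284)))) (XT.nd (nat_lit 78) (nat_lit 0) (nat_lit 0) (XT.lf (nat_lit 0) (nat_lit 252209413302) (nat_lit 152) (nat_lit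 1263647695908) (nat_lit 0) (nat_lit 235044760557) (nat_lit 2) (nat_lit 5) (nat_lit 4) (nat_lit 4) (nat_lit 2) (nat_lit 4) (nat_lit 505) (nat_lit 412) (nat_lit 283)) (XT.nd (nat_lit 78) (nat_lit 0) (nat_lit 0) (XT.lf (nat_lit 0) (nat_lit 369325477821) (nat_lit 152) (nat_lit 1161622332306) (nat_lit 0) (nat_lit 352160763038) (nat_lit 2) (nat_lit 5) (nat_lit 4) (nat_lit 4) (nat_lit 2) (nat_lit 4) (nat_lit 506) (nat_lit 412) (nat_lit 282)) (XT.lf (nat_lit 0) (nat_lit 495810143259) (nat_lit 152) (nat_lit 1051436353283) (nat_lit 0) (nat_lit 478645371034) (nat_lit 2) (nat_lit 5) (nat_lit 4) (nat_lit 4) (nat_lit 2) (nat_lit 4) (nat_lit 507) (nat_lit 412) (nat_lit 281)))))) (XT.nd (nat_lit 468) (nat_lit 76) (nat_lit 0) (XT.nd (nat_lit 234) (nat_lit 0) (nat_lit 0) (XT.nd (nat_lit 78) (nat_lit 0) (nat_lit 0) (XT.lf (nat_lit 0) (nat_lit 632412948375) (nat_lit 152) (nat_lit 932436804889) (nat_lit 0)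 (nat_lit 615248122962) (nat_lit 2) (nat_lit 5) (nat_lit 4) (nat_lit 4) (nat_lit 2) (nat_lit 4) (nat_lit 508) (nat_lit 412) (nat_lit 280)) (XT.nd (nat_lit 78) (nat_lit 0) (nat_lit 0) (XT.lf (nat_lit 0) (nat_lit 779943391274) (nat_lit 152) (nat_lit 803918504616) (nat_lit 0) (nat_lit 762778516613) (nat_lit 2) (nat_lit 5) (nat_lit 4) (nat_lit 4) (nat_lit 2) (nat_lit 4) (nat_lit 509) (nat_lit 412) (nat_lit 279)) (XT.lf (nat_lit 0) (nat_lit 939275726431) (nat_lit 152) (nat_lit 665119862535) (nat_lit 0) (nat_lit 922110806171) (nat_lit 2) (nat_lit 5) (nat_lit 4) (nat_lit 4) (nat_lit 2) (nat_lit 4) (nat_lit 510) (nat_lit 412) (nat_lit 278)))) (XT.nd (nat_lit 78) (nat_lit 0) (nat_lit 0) (XT.lf (nat_lit 0) (nat_lit 1111354145463) (nat_lit 152) (nat_lit 515218368176) (nat_lit 0) (nat_lit 1094189182981) (nat_lit 2) (nat_lit 5) (nat_lit 4) (nat_lit 4) (nat_lit 2) (nat_lit 4) (nat_lit 511) (nat_lit 412)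 (nat_lit 277)) (XT.nd (nat_lit 78) (nat_lit 0) (nat_lit 0) (XT.lf (nat_lit 0) (nat_lit 1297198372334) (nat_lit 152) (nat_lit 353325716386) (nat_lit 0) (nat_lit 1280033370757) (nat_lit 2) (nat_lit 5) (nat_lit 4) (nat_lit 4) (nat_lit 2) (nat_lit 4) (nat_lit 512) (nat_lit 412) (nat_lit 276)) (XT.lf (nat_lit 0) (nat_lit 1497909706167) (nat_lit 152) (nat_lit 178482543303) (nat_lit 0) (nat_lit 1480744668391) (nat_lit 2) (nat_lit 5) (nat_lit 4) (nat_lit 4) (nat_lit 2) (nat_lit 4) (nat_lit 513) (nat_lit 412) (nat_lit 275))))) (XT.nd (nat_lit 234) (nat_lit 0) (nat_lit 0) (XT.nd (nat_lit 78) (nat_lit 0) (nat_lit 0) (XT.lf (nat_lit 0) (nat_lit 10892127073) (nat_lit 76) (nat_lit 1704047376302) (nat_lit 76) (nat_lit 1686882305009) (nat_lit 1) (nat_lit 4) (nat_lit 2) (nat_lit 5) (nat_lit 2) (nat_lit 4) (nat_lit 514) (nat_lit 412) (nat_lit 274)) (XT.nd (nat_lit 78) (nat_lit 0) (nat_lit 0) (XT.lf (nat_lit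 0) (nat_lit 225566427489) (nat_lit 76) (nat_lit 1728644896893) (nat_lit 76) (nat_lit 1711479794566) (nat_lit 1) (nat_lit 4) (nat_lit 2) (nat_lit 5) (nat_lit 2) (nat_lit 4) (nat_lit 515) (nat_lit 412) (nat_lit 273)) (XT.lf (nat_lit 0) (nat_lit 457413927514) (nat_lit 76) (nat_lit 1755210603362) (nat_lit 76) (nat_lit 1738045472299) (nat_lit 1) (nat_lit 4) (nat_lit 2) (nat_lit 5) (nat_lit 2) (nat_lit 4) (nat_lit 516) (nat_lit 412) (nat_lit 272)))) (XT.nd (nat_lit 156) (nat_lit 0) (nat_lit 0) (XT.nd (nat_lit 78) (nat_lit 0) (nat_lit 0) (XT.lf (nat_lit 0) (nat_lit 707808538258) (nat_lit 76) (nat_lit 1783901922117) (nat_lit 76) (nat_lit 1766736764447) (nat_lit 1) (nat_lit 4) (nat_lit 2) (nat_lit 5) (nat_lit 2) (nat_lit 4) (nat_lit 517) (nat_lit 412) (nat_lit 271)) (XT.lf (nat_lit 0) (nat_lit 978234079638) (nat_lit 76) (nat_lit 1814888875788) (nat_lit 76) (nat_lit 1797723693482) (nat_lit 1) (nat_lit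 4) (nat_lit 2) (nat_lit 5) (nat_lit 2) (nat_lit 4) (nat_lit 518) (nat_lit 412) (nat_lit 270))) (XT.nd (nat_lit 78) (nat_lit 0) (nat_lit 0) (XT.lf (nat_lit 0) (nat_lit 1270293073380) (nat_lit 76) (nat_lit 1848355090766) (nat_lit 76) (nat_lit 1831189885649) (nat_lit 1) (nat_lit 4) (nat_lit 2) (nat_lit 5) (nat_lit 2) (nat_lit 4) (nat_lit 519) (nat_lit 412) (nat_lit 269)) (XT.lf (nat_lit 0) (nat_lit 1585716239447) (nat_lit 76) (nat_lit 1884498885364) (nat_lit 76) (nat_lit 1867333659125) (nat_lit 1) (nat_lit 4) (nat_lit 2) (nat_lit 5) (nat_lit 2) (nat_lit 4) (nat_lit 520) (nat_lit 412) (nat_lit 268))))))) (XT.nd (nat_lit 936) (nat_lit 0) (nat_lit 0) (XT.nd (nat_lit 468) (nat_lit 0) (nat_lit 0) (XT.nd (nat_lit 234) (nat_lit 0) (nat_lit 0) (XT.nd (nat_lit 78) (nat_lit 0) (nat_lit 0) (XT.lf (nat_lit 0) (nat_lit 1926372752156) (nat_lit 76) (nat_lit 1923534445030) (nat_lit 76) (nat_lit 1906369199234)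 (nat_lit 1) (nat_lit 4) (nat_lit 2) (nat_lit 5) (nat_lit 2) (nat_lit 4) (nat_lit 521) (nat_lit 412) (nat_lit 267)) (XT.nd (nat_lit 78) (nat_lit 0) (nat_lit 0) (XT.lf (nat_lit 0) (nat_lit 2294281316768) (nat_lit 76) (nat_lit 1965693091599) (nat_lit 76) (nat_lit 1948527827695) (nat_lit 1) (nat_lit 4) (nat_lit 2) (nat_lit 5) (nat_lit 2) (nat_lit 4) (nat_lit 522) (nat_lit 412) (nat_lit 266)) (XT.lf (nat_lit 0) (nat_lit 2691622132184) (nat_lit 76) (nat_lit 2011224654089) (nat_lit 76) (nat_lit 1994059373418) (nat_lit 1) (nat_lit 4) (nat_lit 2) (nat_lit 5) (nat_lit 2) (nat_lit 4) (nat_lit 523) (nat_lit 412) (nat_lit 265)))) (XT.nd (nat_lit 78) (nat_lit 0) (nat_lit 0) (XT.lf (nat_lit 0) (nat_lit 3120749810644) (nat_lit 76) (nat_lit 2060398949165) (nat_lit 76) (nat_lit 2043233652969) (nat_lit 1) (nat_lit 4) (nat_lit 2) (nat_lit 5) (nat_lit 2) (nat_lit 4) (nat_lit 524) (nat_lit 412) (nat_lit 264))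 (XT.nd (nat_lit 78) (nat_lit 0) (nat_lit 0) (XT.lf (nat_lit 0) (nat_lit 3584207330983) (nat_lit 76) (nat_lit 2113507380058) (nat_lit 76) (nat_lit 2096342069487) (nat_lit 1) (nat_lit 4) (nat_lit 2) (nat_lit 5) (nat_lit 2) (nat_lit 4) (nat_lit 525) (nat_lit 412) (nat_lit 263)) (XT.lf (nat_lit 0) (nat_lit 4084741108137) (nat_lit 76) (nat_lit 2170864663395) (nat_lit 76) (nat_lit 2153699339514) (nat_lit 1) (nat_lit 4) (nat_lit 2) (nat_lit 5) (nat_lit 2) (nat_lit 4) (nat_lit 526) (nat_lit 412) (nat_lit 262))))) (XT.nd (nat_lit 234) (nat_lit 0) (nat_lit 0) (XT.nd (nat_lit 78) (nat_lit 0) (nat_lit 0) (XT.lf (nat_lit 0) (nat_lit 4625317268192) (nat_lit 76) (nat_lit 2232810694189) (nat_lit 76) (nat_lit 2215645357984) (nat_lit 1) (nat_lit 4) (nat_lit 2) (nat_lit 5) (nat_lit 2) (nat_lit 4) (nat_lit 527) (nat_lit 412) (nat_lit 261)) (XT.nd (nat_lit 78) (nat_lit 0) (nat_lit 0) (XT.lf (nat_lit 0) (nat_lit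 5209139225430) (nat_lit 76) (nat_lit 2299712560030) (nat_lit 76) (nat_lit 2282547212413) (nat_lit 1) (nat_lit 4) (nat_lit 2) (nat_lit 5) (nat_lit 2) (nat_lit 4) (nat_lit 528) (nat_lit 412) (nat_lit 260)) (XT.lf (nat_lit 0) (nat_lit 5839666665523) (nat_lit 76) (nat_lit 2371966716418) (nat_lit 76) (nat_lit 2354801358236) (nat_lit 1) (nat_lit 4) (nat_lit 2) (nat_lit 5) (nat_lit 2) (nat_lit 4) (nat_lit 529) (nat_lit 412) (nat_lit 259)))) (XT.nd (nat_lit 78) (nat_lit 0) (nat_lit 0) (XT.lf (nat_lit 0) (nat_lit 6520636047377) (nat_lit 76) (nat_lit 2450001336133) (nat_lit 76) (nat_lit 2432835968167) (nat_lit 1) (nat_lit 4) (nat_lit 2) (nat_lit 5) (nat_lit 2) (nat_lit 4) (nat_lit 530) (nat_lit 412) (nat_lit 258)) (XT.nd (nat_lit 78) (nat_lit 0) (nat_lit 0) (XT.lf (nat_lit 0) (nat_lit 7256082745105) (nat_lit 76) (nat_lit 2534278846551) (nat_lit 76) (nat_lit 2517113469526) (nat_lit 1) (nat_lit 4)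 (nat_lit 2) (nat_lit 5) (nat_lit 2) (nat_lit 4) (nat_lit 531) (nat_lit 412) (nat_lit 257)) (XT.lf (nat_lit 0) (nat_lit 8050364961361) (nat_lit 76) (nat_lit 2625298669955) (nat_lit 76) (nat_lit 2608133284542) (nat_lit 1) (nat_lit 4) (nat_lit 2) (nat_lit 5) (nat_lit 2) (nat_lit 4) (nat_lit 532) (nat_lit 412) (nat_lit 256)))))) (XT.nd (nat_lit 53430) (nat_lit 0) (nat_lit 5092) (XT.nd (nat_lit 53196) (nat_lit 0) (nat_lit 6080) (XT.nd (nat_lit 78) (nat_lit 0) (nat_lit 0) (XT.lf (nat_lit 0) (nat_lit 8908189553722) (nat_lit 76) (nat_lit 2723600183077) (nat_lit 76) (nat_lit 2706434789898) (nat_lit 1) (nat_lit 4) (nat_lit 2) (nat_lit 5) (nat_lit 2) (nat_lit 4) (nat_lit 533) (nat_lit 412) (nat_lit 255)) (XT.nd (nat_lit 53040) (nat_lit 0) (nat_lit 6080) (XT.lf (nat_lit 0) (nat_lit 9834639927181) (nat_lit 76) (nat_lit 2829765913401) (nat_lit 76) (nat_lit 2812600513032) (nat_lit 1) (nat_lit 4) (nat_lit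 2) (nat_lit 5) (nat_lit 2) (nat_lit 4) (nat_lit 534) (nat_lit 412) (nat_lit 254)) (XT.lf (nat_lit 0) (nat_lit 3135577637) (nat_lit 532) (nat_lit 1282253986) (nat_lit 532) (nat_lit 1282253986) (nat_lit 81) (nat_lit 3) (nat_lit 88) (nat_lit 3) (nat_lit 88) (nat_lit 5) (nat_lit 413) (nat_lit 413) (nat_lit 374)))) (XT.nd (nat_lit 78) (nat_lit 0) (nat_lit 76) (XT.lf (nat_lit 76) (nat_lit 3253646374) (nat_lit 0) (nat_lit 3852432831) (nat_lit 532) (nat_lit 4703237398) (nat_lit 82) (nat_lit 5) (nat_lit 81) (nat_lit 3) (nat_lit 88) (nat_lit 5) (nat_lit 414) (nat_lit 413) (nat_lit 373)) (XT.nd (nat_lit 78) (nat_lit 0) (nat_lit 0) (XT.lf (nat_lit 0) (nat_lit 8065762589) (nat_lit 456) (nat_lit 2634523122) (nat_lit 532) (nat_lit 1546284194) (nat_lit 82) (nat_lit 5) (nat_lit 88) (nat_lit 5) (nat_lit 89) (nat_lit 5) (nat_lit 415) (nat_lit 413) (nat_lit 372)) (XT.lf (nat_lit 76) (nat_lit 3820408220) (nat_lit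 0) (nat_lit 5426758966) (nat_lit 532) (nat_lit 3460053090) (nat_lit 83) (nat_lit 5) (nat_lit 82) (nat_lit 5) (nat_lit 89) (nat_lit 5) (nat_lit 416) (nat_lit 413) (nat_lit 371))))) (XT.nd (nat_lit 234) (nat_lit 1140) (nat_lit 0) (XT.nd (nat_lit 78) (nat_lit 0) (nat_lit 0) (XT.lf (nat_lit 0) (nat_lit 10559545141) (nat_lit 456) (nat_lit 2299792588) (nat_lit 532) (nat_lit 342479671) (nat_lit 83) (nat_lit 5) (nat_lit 89) (nat_lit 5) (nat_lit 90) (nat_lit 5) (nat_lit 417) (nat_lit 413) (nat_lit 370)) (XT.nd (nat_lit 78) (nat_lit 0) (nat_lit 0) (XT.lf (nat_lit 76) (nat_lit 4886117961) (nat_lit 0) (nat_lit 7308609962) (nat_lit 532) (nat_lit 1523839945) (nat_lit 84) (nat_lit 5) (nat_lit 83) (nat_lit 5) (nat_lit 90) (nat_lit 5) (nat_lit 418) (nat_lit 413) (nat_lit 369)) (XT.lf (nat_lit 76) (nat_lit 12746951949) (nat_lit 0) (nat_lit 1238274249) (nat_lit 532) (nat_lit 289482051) (nat_lit 84) (nat_lit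 5) (nat_lit 83) (nat_lit 5) (nat_lit 90) (nat_lit 5) (nat_lit 419) (nat_lit 413) (nat_lit 368)))) (XT.nd (nat_lit 156) (nat_lit 684) (nat_lit 0) (XT.nd (nat_lit 78) (nat_lit 0) (nat_lit 0) (XT.lf (nat_lit 0) (nat_lit 1247425913) (nat_lit 532) (nat_lit 8358447230) (nat_lit 76) (nat_lit 5246986687) (nat_lit 77) (nat_lit 5) (nat_lit 84) (nat_lit 5) (nat_lit 78) (nat_lit 5) (nat_lit 420) (nat_lit 413) (nat_lit 367)) (XT.lf (nat_lit 0) (nat_lit 2932303815) (nat_lit 532) (nat_lit 301954973) (nat_lit 76) (nat_lit 12239158578) (nat_lit 77) (nat_lit 5) (nat_lit 84) (nat_lit 5) (nat_lit 78) (nat_lit 5) (nat_lit 421) (nat_lit 413) (nat_lit 366))) (XT.nd (nat_lit 78) (nat_lit 228) (nat_lit 0) (XT.lf (nat_lit 0) (nat_lit 5025284034) (nat_lit 532) (nat_lit 7412826435) (nat_lit 76) (nat_lit 3683651379) (nat_lit 71) (nat_lit 5) (nat_lit 78) (nat_lit 5) (nat_lit 72) (nat_lit 5) (nat_lit 422) (nat_lit 413)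 (nat_lit 365)) (XT.lf (nat_lit 0) (nat_lit 1600628594) (nat_lit 228) (nat_lit 5785900355) (nat_lit 304) (nat_lit 9427385605) (nat_lit 68) (nat_lit 5) (nat_lit 71) (nat_lit 5) (nat_lit 72) (nat_lit 5) (nat_lit 423) (nat_lit 413) (nat_lit 364))))))))
noncomputable def xc126 : XT := (XT.nd (nat_lit 1950) (nat_lit 1596) (nat_lit 0) (XT.nd (nat_lit 936) (nat_lit 988) (nat_lit 0) (XT.nd (nat_lit 468) (nat_lit 684) (nat_lit 0) (XT.nd (nat_lit 234) (nat_lit 456) (nat_lit 0) (XT.nd (nat_lit 78) (nat_lit 228) (nat_lit 0) (XT.lf (nat_lit 0) (nat_lit 10149537810) (nat_lit 304) (nat_lit 5860604128) (nat_lit 76) (nat_lit 1534274659) (nat_lit 68) (nat_lit 5) (nat_lit 72) (nat_lit 5) (nat_lit 69) (nat_lit 5) (nat_lit 424) (nat_lit 413) (nat_lit 363)) (XT.nd (nat_lit 78) (nat_lit 0) (nat_lit 0) (XT.lf (nat_lit 0) (nat_lit 4273007622) (nat_lit 228) (nat_lit 9087042238) (nat_lit 304) (nat_lit 4955197748)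 (nat_lit 65) (nat_lit 5) (nat_lit 68) (nat_lit 5) (nat_lit 69) (nat_lit 5) (nat_lit 425) (nat_lit 413) (nat_lit 362)) (XT.lf (nat_lit 0) (nat_lit 15520630012) (nat_lit 228) (nat_lit 1441674037) (nat_lit 304) (nat_lit 2174654330) (nat_lit 65) (nat_lit 5) (nat_lit 68) (nat_lit 5) (nat_lit 69) (nat_lit 5) (nat_lit 426) (nat_lit 413) (nat_lit 361)))) (XT.nd (nat_lit 78) (nat_lit 228) (nat_lit 0) (XT.lf (nat_lit 0) (nat_lit 1124392808) (nat_lit 228) (nat_lit 12184031740) (nat_lit 76) (nat_lit 6687392614) (nat_lit 62) (nat_lit 5) (nat_lit 65) (nat_lit 5) (nat_lit 63) (nat_lit 5) (nat_lit 427) (nat_lit 413) (nat_lit 360)) (XT.nd (nat_lit 78) (nat_lit 228) (nat_lit 0) (XT.lf (nat_lit 0) (nat_lit 4685666642) (nat_lit 228) (nat_lit 682168409) (nat_lit 76) (nat_lit 15541771840) (nat_lit 62) (nat_lit 5) (nat_lit 65) (nat_lit 5) (nat_lit 63) (nat_lit 5) (nat_lit 428) (nat_lit 413) (nat_lit 359)) (XT.lf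 (nat_lit 0) (nat_lit 8891661181) (nat_lit 304) (nat_lit 9630398622) (nat_lit 76) (nat_lit 3345658443) (nat_lit 59) (nat_lit 5) (nat_lit 63) (nat_lit 5) (nat_lit 60) (nat_lit 5) (nat_lit 429) (nat_lit 413) (nat_lit 358))))) (XT.nd (nat_lit 234) (nat_lit 304) (nat_lit 0) (XT.nd (nat_lit 78) (nat_lit 228) (nat_lit 0) (XT.lf (nat_lit 0) (nat_lit 3326089732) (nat_lit 152) (nat_lit 10325983038) (nat_lit 228) (nat_lit 9232974396) (nat_lit 57) (nat_lit 5) (nat_lit 59) (nat_lit 5) (nat_lit 60) (nat_lit 5) (nat_lit 430) (nat_lit 413) (nat_lit 357)) (XT.nd (nat_lit 78) (nat_lit 228) (nat_lit 0) (XT.lf (nat_lit 0) (nat_lit 17838947691) (nat_lit 152) (nat_lit 1197923819) (nat_lit 228) (nat_lit 4927409937) (nat_lit 57) (nat_lit 5) (nat_lit 59) (nat_lit 5) (nat_lit 60) (nat_lit 5) (nat_lit 431) (nat_lit 413) (nat_lit 356)) (XT.lf (nat_lit 0) (nat_lit 142838338) (nat_lit 228) (nat_lit 16525113527) (nat_lit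 76) (nat_lit 8429930271) (nat_lit 54) (nat_lit 5) (nat_lit 57) (nat_lit 5) (nat_lit 55) (nat_lit 5) (nat_lit 432) (nat_lit 413) (nat_lit 355)))) (XT.nd (nat_lit 78) (nat_lit 304) (nat_lit 0) (XT.lf (nat_lit 0) (nat_lit 5537236994) (nat_lit 228) (nat_lit 1704489494) (nat_lit 76) (nat_lit 19055429215) (nat_lit 54) (nat_lit 5) (nat_lit 57) (nat_lit 5) (nat_lit 55) (nat_lit 5) (nat_lit 433) (nat_lit 413) (nat_lit 354)) (XT.nd (nat_lit 78) (nat_lit 152) (nat_lit 0) (XT.lf (nat_lit 0) (nat_lit 11787619458) (nat_lit 228) (nat_lit 12616421643) (nat_lit 76) (nat_lit 3154377989) (nat_lit 52) (nat_lit 5) (nat_lit 55) (nat_lit 5) (nat_lit 53) (nat_lit 5) (nat_lit 434) (nat_lit 413) (nat_lit 353)) (XT.lf (nat_lit 0) (nat_lit 4089796829) (nat_lit 152) (nat_lit 14766102433) (nat_lit 228) (nat_lit 10039257252) (nat_lit 50) (nat_lit 5) (nat_lit 52) (nat_lit 5) (nat_lit 53) (nat_lit 5) (nat_lit 435) (nat_lit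 413) (nat_lit 352)))))) (XT.nd (nat_lit 468) (nat_lit 532) (nat_lit 0) (XT.nd (nat_lit 234) (nat_lit 304) (nat_lit 0) (XT.nd (nat_lit 78) (nat_lit 152) (nat_lit 0) (XT.lf (nat_lit 0) (nat_lit 22824904195) (nat_lit 152) (nat_lit 3993899650) (nat_lit 228) (nat_lit 3493698229) (nat_lit 50) (nat_lit 5) (nat_lit 52) (nat_lit 5) (nat_lit 53) (nat_lit 5) (nat_lit 436) (nat_lit 413) (nat_lit 351)) (XT.nd (nat_lit 78) (nat_lit 0) (nat_lit 0) (XT.lf (nat_lit 0) (nat_lit 3855855377) (nat_lit 152) (nat_lit 20317783711) (nat_lit 76) (nat_lit 7625981850) (nat_lit 48) (nat_lit 5) (nat_lit 50) (nat_lit 5) (nat_lit 49) (nat_lit 5) (nat_lit 437) (nat_lit 413) (nat_lit 350)) (XT.lf (nat_lit 0) (nat_lit 11903729169) (nat_lit 152) (nat_lit 1218859140) (nat_lit 76) (nat_lit 20251934556) (nat_lit 48) (nat_lit 5) (nat_lit 50) (nat_lit 5) (nat_lit 49) (nat_lit 5) (nat_lit 438) (nat_lit 413) (nat_lit 349)))) (XT.nd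 (nat_lit 78) (nat_lit 152) (nat_lit 0) (XT.lf (nat_lit 0) (nat_lit 20406205770) (nat_lit 152) (nat_lit 666410710) (nat_lit 228) (nat_lit 13964627346) (nat_lit 46) (nat_lit 5) (nat_lit 48) (nat_lit 5) (nat_lit 49) (nat_lit 5) (nat_lit 439) (nat_lit 413) (nat_lit 348)) (XT.nd (nat_lit 78) (nat_lit 76) (nat_lit 0) (XT.lf (nat_lit 0) (nat_lit 7020243138) (nat_lit 76) (nat_lit 24451987085) (nat_lit 152) (nat_lit 5320976457) (nat_lit 45) (nat_lit 5) (nat_lit 46) (nat_lit 5) (nat_lit 47) (nat_lit 4) (nat_lit 440) (nat_lit 413) (nat_lit 347)) (XT.lf (nat_lit 0) (nat_lit 4227893193) (nat_lit 152) (nat_lit 7569135253) (nat_lit 76) (nat_lit 26851733573) (nat_lit 44) (nat_lit 5) (nat_lit 46) (nat_lit 5) (nat_lit 45) (nat_lit 5) (nat_lit 441) (nat_lit 413) (nat_lit 346))))) (XT.nd (nat_lit 234) (nat_lit 304) (nat_lit 0) (XT.nd (nat_lit 78) (nat_lit 76) (nat_lit 0) (XT.lf (nat_lit 0) (nat_lit 14711444688)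 (nat_lit 228) (nat_lit 23561498935) (nat_lit 76) (nat_lit 2332103283) (nat_lit 42) (nat_lit 5) (nat_lit 45) (nat_lit 5) (nat_lit 43) (nat_lit 4) (nat_lit 442) (nat_lit 413) (nat_lit 345)) (XT.nd (nat_lit 78) (nat_lit 0) (nat_lit 0) (XT.lf (nat_lit 0) (nat_lit 1074961227) (nat_lit 76) (nat_lit 25491282120) (nat_lit 152) (nat_lit 16108987262) (nat_lit 41) (nat_lit 5) (nat_lit 42) (nat_lit 5) (nat_lit 43) (nat_lit 4) (nat_lit 443) (nat_lit 413) (nat_lit 344)) (XT.lf (nat_lit 0) (nat_lit 29001392682) (nat_lit 76) (nat_lit 11000599872) (nat_lit 152) (nat_lit 4858432110) (nat_lit 41) (nat_lit 5) (nat_lit 42) (nat_lit 5) (nat_lit 43) (nat_lit 4) (nat_lit 444) (nat_lit 413) (nat_lit 343)))) (XT.nd (nat_lit 156) (nat_lit 152) (nat_lit 0) (XT.nd (nat_lit 78) (nat_lit 0) (nat_lit 0) (XT.lf (nat_lit 0) (nat_lit 7337573021) (nat_lit 152) (nat_lit 34942665393) (nat_lit 76) (nat_lit 4893351387) (nat_lit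 39) (nat_lit 5) (nat_lit 41) (nat_lit 5) (nat_lit 40) (nat_lit 4) (nat_lit 445) (nat_lit 413) (nat_lit 342)) (XT.lf (nat_lit 0) (nat_lit 20966461150) (nat_lit 152) (nat_lit 6610396697) (nat_lit 76) (nat_lit 22027280914) (nat_lit 39) (nat_lit 5) (nat_lit 41) (nat_lit 5) (nat_lit 40) (nat_lit 4) (nat_lit 446) (nat_lit 413) (nat_lit 341))) (XT.nd (nat_lit 78) (nat_lit 76) (nat_lit 0) (XT.lf (nat_lit 0) (nat_lit 25232064892) (nat_lit 76) (nat_lit 11050313783) (nat_lit 152) (nat_lit 15899016221) (nat_lit 38) (nat_lit 5) (nat_lit 39) (nat_lit 5) (nat_lit 40) (nat_lit 4) (nat_lit 447) (nat_lit 413) (nat_lit 340)) (XT.lf (nat_lit 0) (nat_lit 5116532522) (nat_lit 76) (nat_lit 48169024357) (nat_lit 76) (nat_lit 1642316335) (nat_lit 37) (nat_lit 4) (nat_lit 38) (nat_lit 5) (nat_lit 38) (nat_lit 4) (nat_lit 448) (nat_lit 413) (nat_lit 339))))))) (XT.nd (nat_lit 936) (nat_lit 760) (nat_lit 0) (XT.nd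 (nat_lit 468) (nat_lit 456) (nat_lit 0) (XT.nd (nat_lit 234) (nat_lit 228) (nat_lit 0) (XT.nd (nat_lit 78) (nat_lit 76) (nat_lit 0) (XT.lf (nat_lit 0) (nat_lit 14099894215) (nat_lit 152) (nat_lit 17210555206) (nat_lit 76) (nat_lit 26474512344) (nat_lit 36) (nat_lit 5) (nat_lit 38) (nat_lit 5) (nat_lit 37) (nat_lit 4) (nat_lit 449) (nat_lit 413) (nat_lit 338)) (XT.nd (nat_lit 78) (nat_lit 0) (nat_lit 0) (XT.lf (nat_lit 0) (nat_lit 18882859428) (nat_lit 76) (nat_lit 12574813881) (nat_lit 152) (nat_lit 29373938464) (nat_lit 35) (nat_lit 5) (nat_lit 36) (nat_lit 5) (nat_lit 37) (nat_lit 4) (nat_lit 450) (nat_lit 413) (nat_lit 337)) (XT.lf (nat_lit 0) (nat_lit 50861948834) (nat_lit 152) (nat_lit 5455716185) (nat_lit 0) (nat_lit 7751699330) (nat_lit 35) (nat_lit 5) (nat_lit 37) (nat_lit 4) (nat_lit 35) (nat_lit 4) (nat_lit 451) (nat_lit 413) (nat_lit 336)))) (XT.nd (nat_lit 78) (nat_lit 76) (nat_lit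 0) (XT.lf (nat_lit 0) (nat_lit 5239223602) (nat_lit 152) (nat_lit 32221210715) (nat_lit 76) (nat_lit 30001560110) (nat_lit 33) (nat_lit 5) (nat_lit 35) (nat_lit 5) (nat_lit 34) (nat_lit 4) (nat_lit 452) (nat_lit 413) (nat_lit 335)) (XT.nd (nat_lit 78) (nat_lit 0) (nat_lit 0) (XT.lf (nat_lit 0) (nat_lit 8448688764) (nat_lit 76) (nat_lit 16347175570) (nat_lit 152) (nat_lit 46274901871) (nat_lit 32) (nat_lit 5) (nat_lit 33) (nat_lit 5) (nat_lit 34) (nat_lit 4) (nat_lit 453) (nat_lit 413) (nat_lit 334)) (XT.lf (nat_lit 0) (nat_lit 46967790749) (nat_lit 152) (nat_lit 20887520582) (nat_lit 0) (nat_lit 7028868405) (nat_lit 32) (nat_lit 5) (nat_lit 34) (nat_lit 4) (nat_lit 32) (nat_lit 4) (nat_lit 454) (nat_lit 413) (nat_lit 333))))) (XT.nd (nat_lit 234) (nat_lit 228) (nat_lit 0) (XT.nd (nat_lit 78) (nat_lit 152) (nat_lit 0) (XT.lf (nat_lit 0) (nat_lit 24996573554) (nat_lit 76) (nat_lit 46934927443)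 (nat_lit 76) (nat_lit 6989723311) (nat_lit 31) (nat_lit 4) (nat_lit 32) (nat_lit 5) (nat_lit 32) (nat_lit 4) (nat_lit 455) (nat_lit 413) (nat_lit 332)) (XT.nd (nat_lit 78) (nat_lit 76) (nat_lit 0) (XT.lf (nat_lit 0) (nat_lit 15408366432) (nat_lit 152) (nat_lit 7901618424) (nat_lit 76) (nat_lit 59894954536) (nat_lit 30) (nat_lit 5) (nat_lit 32) (nat_lit 5) (nat_lit 31) (nat_lit 4) (nat_lit 456) (nat_lit 413) (nat_lit 331)) (XT.lf (nat_lit 0) (nat_lit 40351834019) (nat_lit 152) (nat_lit 44019339658) (nat_lit 0) (nat_lit 3355161589) (nat_lit 29) (nat_lit 5) (nat_lit 31) (nat_lit 4) (nat_lit 29) (nat_lit 4) (nat_lit 457) (nat_lit 413) (nat_lit 330)))) (XT.nd (nat_lit 78) (nat_lit 152) (nat_lit 0) (XT.lf (nat_lit 0) (nat_lit 7028010104) (nat_lit 76) (nat_lit 61251800095) (nat_lit 76) (nat_lit 24250510364) (nat_lit 28) (nat_lit 4) (nat_lit 29) (nat_lit 5) (nat_lit 29) (nat_lit 4) (nat_lit 458)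 (nat_lit 413) (nat_lit 329)) (XT.nd (nat_lit 78) (nat_lit 76) (nat_lit 0) (XT.lf (nat_lit 0) (nat_lit 1914956321) (nat_lit 152) (nat_lit 33022455863) (nat_lit 76) (nat_lit 62681601377) (nat_lit 27) (nat_lit 5) (nat_lit 29) (nat_lit 5) (nat_lit 28) (nat_lit 4) (nat_lit 459) (nat_lit 413) (nat_lit 328)) (XT.lf (nat_lit 0) (nat_lit 24224738074) (nat_lit 76) (nat_lit 5214810809) (nat_lit 152) (nat_lit 73578778961) (nat_lit 26) (nat_lit 5) (nat_lit 27) (nat_lit 5) (nat_lit 28) (nat_lit 4) (nat_lit 460) (nat_lit 413) (nat_lit 327)))))) (XT.nd (nat_lit 468) (nat_lit 456) (nat_lit 0) (XT.nd (nat_lit 234) (nat_lit 152) (nat_lit 0) (XT.nd (nat_lit 78) (nat_lit 152) (nat_lit 0) (XT.lf (nat_lit 0) (nat_lit 60732523324) (nat_lit 152) (nat_lit 21530698911) (nat_lit 0) (nat_lit 26461052058) (nat_lit 26) (nat_lit 5) (nat_lit 28) (nat_lit 4) (nat_lit 26) (nat_lit 4) (nat_lit 461) (nat_lit 413) (nat_lit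 326)) (XT.nd (nat_lit 78) (nat_lit 76) (nat_lit 0) (XT.lf (nat_lit 0) (nat_lit 42280777613) (nat_lit 76) (nat_lit 53394416052) (nat_lit 76) (nat_lit 19119802328) (nat_lit 25) (nat_lit 4) (nat_lit 26) (nat_lit 5) (nat_lit 26) (nat_lit 4) (nat_lit 462) (nat_lit 413) (nat_lit 325)) (XT.lf (nat_lit 0) (nat_lit 12056462072) (nat_lit 152) (nat_lit 9200082297) (nat_lit 76) (nat_lit 100023788475) (nat_lit 24) (nat_lit 5) (nat_lit 26) (nat_lit 5) (nat_lit 25) (nat_lit 4) (nat_lit 463) (nat_lit 413) (nat_lit 324)))) (XT.nd (nat_lit 78) (nat_lit 76) (nat_lit 0) (XT.lf (nat_lit 0) (nat_lit 46548502316) (nat_lit 152) (nat_lit 66740333619) (nat_lit 0) (nat_lit 14807560131) (nat_lit 23) (nat_lit 5) (nat_lit 25) (nat_lit 4) (nat_lit 23) (nat_lit 4) (nat_lit 464) (nat_lit 413) (nat_lit 323)) (XT.nd (nat_lit 78) (nat_lit 0) (nat_lit 0) (XT.lf (nat_lit 0) (nat_lit 2181583241) (nat_lit 76) (nat_lit 82475422604)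 (nat_lit 76) (nat_lit 50732170619) (nat_lit 22) (nat_lit 4) (nat_lit 23) (nat_lit 5) (nat_lit 23) (nat_lit 4) (nat_lit 465) (nat_lit 413) (nat_lit 322)) (XT.lf (nat_lit 0) (nat_lit 80401927037) (nat_lit 76) (nat_lit 47231646188) (nat_lit 76) (nat_lit 15486255498) (nat_lit 22) (nat_lit 4) (nat_lit 23) (nat_lit 5) (nat_lit 23) (nat_lit 4) (nat_lit 466) (nat_lit 413) (nat_lit 321))))) (XT.nd (nat_lit 234) (nat_lit 228) (nat_lit 0) (XT.nd (nat_lit 78) (nat_lit 76) (nat_lit 0) (XT.lf (nat_lit 0) (nat_lit 13534616712) (nat_lit 76) (nat_lit 8235569673) (nat_lit 152) (nat_lit 129629675138) (nat_lit 20) (nat_lit 5) (nat_lit 21) (nat_lit 5) (nat_lit 22) (nat_lit 4) (nat_lit 467) (nat_lit 413) (nat_lit 320)) (XT.nd (nat_lit 78) (nat_lit 76) (nat_lit 0) (XT.lf (nat_lit 0) (nat_lit 63739532996) (nat_lit 152) (nat_lit 62022939495) (nat_lit 0) (nat_lit 34342121362) (nat_lit 20) (nat_lit 5) (nat_lit 22)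 (nat_lit 4) (nat_lit 20) (nat_lit 4) (nat_lit 468) (nat_lit 413) (nat_lit 319)) (XT.lf (nat_lit 0) (nat_lit 20698652497) (nat_lit 76) (nat_lit 89074739418) (nat_lit 76) (nat_lit 59675755772) (nat_lit 19) (nat_lit 4) (nat_lit 20) (nat_lit 5) (nat_lit 20) (nat_lit 4) (nat_lit 469) (nat_lit 413) (nat_lit 318)))) (XT.nd (nat_lit 156) (nat_lit 76) (nat_lit 0) (XT.nd (nat_lit 78) (nat_lit 152) (nat_lit 0) (XT.lf (nat_lit 0) (nat_lit 113555897573) (nat_lit 76) (nat_lit 47625256011) (nat_lit 76) (nat_lit 18224816799) (nat_lit 19) (nat_lit 4) (nat_lit 20) (nat_lit 5) (nat_lit 20) (nat_lit 4) (nat_lit 470) (nat_lit 413) (nat_lit 317)) (XT.lf (nat_lit 0) (nat_lit 24248121331) (nat_lit 76) (nat_lit 1545103807) (nat_lit 152) (nat_lit 164268744500) (nat_lit 17) (nat_lit 5) (nat_lit 18) (nat_lit 5) (nat_lit 19) (nat_lit 4) (nat_lit 471) (nat_lit 413) (nat_lit 316))) (XT.nd (nat_lit 78) (nat_lit 76) (nat_lit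 0) (XT.lf (nat_lit 0) (nat_lit 75350665602) (nat_lit 152) (nat_lit 77816074741) (nat_lit 0) (nat_lit 48125633313) (nat_lit 17) (nat_lit 5) (nat_lit 19) (nat_lit 4) (nat_lit 17) (nat_lit 4) (nat_lit 472) (nat_lit 413) (nat_lit 315)) (XT.lf (nat_lit 0) (nat_lit 18077434220) (nat_lit 76) (nat_lit 111266105467) (nat_lit 76) (nat_lit 84040003293) (nat_lit 16) (nat_lit 4) (nat_lit 17) (nat_lit 5) (nat_lit 17) (nat_lit 4) (nat_lit 473) (nat_lit 413) (nat_lit 314))))))))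
noncomputable def xc127 : XT := (XT.nd (nat_lit 1950) (nat_lit 228) (nat_lit 0) (XT.nd (nat_lit 936) (nat_lit 456) (nat_lit 0) (XT.nd (nat_lit 468) (nat_lit 228) (nat_lit 0) (XT.nd (nat_lit 234) (nat_lit 76) (nat_lit 0) (XT.nd (nat_lit 78) (nat_lit 152) (nat_lit 0) (XT.lf (nat_lit 0) (nat_lit 126059841748) (nat_lit 76) (nat_lit 63719681308) (nat_lit 76) (nat_lit 36492588500) (nat_lit 16) (nat_lit 4) (nat_lit 17) (nat_lit 5) (nat_lit 17) (nat_lit 4) (nat_lit 474) (nat_lit 413) (nat_lit 313)) (XT.nd (nat_lit 78) (nat_lit 0) (nat_lit 0) (XT.lf (nat_lit 0) (nat_lit 2235923527) (nat_lit 76) (nat_lit 11929429159) (nat_lit 152) (nat_lit 225993823241) (nat_lit 14) (nat_lit 5) (nat_lit 15) (nat_lit 5) (nat_lit 16) (nat_lit 4) (nat_lit 475) (nat_lit 413) (nat_lit 312)) (XT.lf (nat_lit 0) (nat_lit 70770083803) (nat_lit 152) (nat_lit 138443859771) (nat_lit 0) (nat_lit 45558176979) (nat_lit 14) (nat_lit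 5) (nat_lit 16) (nat_lit 4) (nat_lit 14) (nat_lit 4) (nat_lit 476) (nat_lit 413) (nat_lit 311)))) (XT.nd (nat_lit 78) (nat_lit 76) (nat_lit 0) (XT.lf (nat_lit 0) (nat_lit 132209580739) (nat_lit 152) (nat_lit 31323063293) (nat_lit 0) (nat_lit 106996945770) (nat_lit 14) (nat_lit 5) (nat_lit 16) (nat_lit 4) (nat_lit 14) (nat_lit 4) (nat_lit 477) (nat_lit 413) (nat_lit 310)) (XT.nd (nat_lit 78) (nat_lit 0) (nat_lit 0) (XT.lf (nat_lit 0) (nat_lit 88803121804) (nat_lit 76) (nat_lit 111893621755) (nat_lit 76) (nat_lit 86680312577) (nat_lit 13) (nat_lit 4) (nat_lit 14) (nat_lit 5) (nat_lit 14) (nat_lit 4) (nat_lit 478) (nat_lit 413) (nat_lit 309)) (XT.lf (nat_lit 0) (nat_lit 220314371420) (nat_lit 76) (nat_lit 55201808883) (nat_lit 76) (nat_lit 29987875437) (nat_lit 13) (nat_lit 4) (nat_lit 14) (nat_lit 5) (nat_lit 14) (nat_lit 4) (nat_lit 479) (nat_lit 413) (nat_lit 308))))) (XT.nd (nat_lit 234)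 (nat_lit 76) (nat_lit 0) (XT.nd (nat_lit 78) (nat_lit 0) (nat_lit 0) (XT.lf (nat_lit 0) (nat_lit 30786843716) (nat_lit 152) (nat_lit 286705421156) (nat_lit 0) (nat_lit 7440073835) (nat_lit 11) (nat_lit 5) (nat_lit 13) (nat_lit 4) (nat_lit 11) (nat_lit 4) (nat_lit 480) (nat_lit 413) (nat_lit 307)) (XT.nd (nat_lit 78) (nat_lit 0) (nat_lit 0) (XT.lf (nat_lit 0) (nat_lit 98623999735) (nat_lit 152) (nat_lit 171646191163) (nat_lit 0) (nat_lit 75276734291) (nat_lit 11) (nat_lit 5) (nat_lit 13) (nat_lit 4) (nat_lit 11) (nat_lit 4) (nat_lit 481) (nat_lit 413) (nat_lit 306)) (XT.lf (nat_lit 0) (nat_lit 171885381658) (nat_lit 152) (nat_lit 47387859324) (nat_lit 0) (nat_lit 148537657358) (nat_lit 11) (nat_lit 5) (nat_lit 13) (nat_lit 4) (nat_lit 11) (nat_lit 4) (nat_lit 482) (nat_lit 413) (nat_lit 305)))) (XT.nd (nat_lit 78) (nat_lit 0) (nat_lit 0) (XT.lf (nat_lit 0) (nat_lit 91376965946) (nat_lit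 76) (nat_lit 161825783288) (nat_lit 76) (nat_lit 138477634123) (nat_lit 10) (nat_lit 4) (nat_lit 11) (nat_lit 5) (nat_lit 11) (nat_lit 4) (nat_lit 483) (nat_lit 413) (nat_lit 304)) (XT.nd (nat_lit 78) (nat_lit 0) (nat_lit 0) (XT.lf (nat_lit 0) (nat_lit 243932879884) (nat_lit 76) (nat_lit 98385817298) (nat_lit 76) (nat_lit 75037274738) (nat_lit 10) (nat_lit 4) (nat_lit 11) (nat_lit 5) (nat_lit 11) (nat_lit 4) (nat_lit 484) (nat_lit 413) (nat_lit 303)) (XT.lf (nat_lit 0) (nat_lit 408688556842) (nat_lit 76) (nat_lit 29873070524) (nat_lit 76) (nat_lit 6524163711) (nat_lit 10) (nat_lit 4) (nat_lit 11) (nat_lit 5) (nat_lit 11) (nat_lit 4) (nat_lit 485) (nat_lit 413) (nat_lit 302)))))) (XT.nd (nat_lit 468) (nat_lit 228) (nat_lit 0) (XT.nd (nat_lit 234) (nat_lit 76) (nat_lit 0) (XT.nd (nat_lit 78) (nat_lit 0) (nat_lit 0) (XT.lf (nat_lit 0) (nat_lit 68052086685) (nat_lit 152) (nat_lit 360103103423)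 (nat_lit 0) (nat_lit 46432416235) (nat_lit 8) (nat_lit 5) (nat_lit 10) (nat_lit 4) (nat_lit 8) (nat_lit 4) (nat_lit 486) (nat_lit 413) (nat_lit 301)) (XT.nd (nat_lit 78) (nat_lit 0) (nat_lit 0) (XT.lf (nat_lit 0) (nat_lit 150036723765) (nat_lit 152) (nat_lit 227838941342) (nat_lit 0) (nat_lit 128416764159) (nat_lit 8) (nat_lit 5) (nat_lit 10) (nat_lit 4) (nat_lit 8) (nat_lit 4) (nat_lit 487) (nat_lit 413) (nat_lit 300)) (XT.lf (nat_lit 0) (nat_lit 238578116736) (nat_lit 152) (nat_lit 84997793117) (nat_lit 0) (nat_lit 216957889392) (nat_lit 8) (nat_lit 5) (nat_lit 10) (nat_lit 4) (nat_lit 8) (nat_lit 4) (nat_lit 488) (nat_lit 413) (nat_lit 299)))) (XT.nd (nat_lit 78) (nat_lit 0) (nat_lit 0) (XT.lf (nat_lit 0) (nat_lit 72914274638) (nat_lit 76) (nat_lit 263040270753) (nat_lit 76) (nat_lit 241419795503) (nat_lit 7) (nat_lit 4) (nat_lit 8) (nat_lit 5) (nat_lit 8) (nat_lit 4) (nat_lit 489) (nat_lit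 413) (nat_lit 298)) (XT.nd (nat_lit 78) (nat_lit 0) (nat_lit 0) (XT.lf (nat_lit 0) (nat_lit 248289465179) (nat_lit 76) (nat_lit 195153795842) (nat_lit 76) (nat_lit 173533091051) (nat_lit 7) (nat_lit 4) (nat_lit 8) (nat_lit 5) (nat_lit 8) (nat_lit 4) (nat_lit 490) (nat_lit 413) (nat_lit 297)) (XT.lf (nat_lit 0) (nat_lit 437691205738) (nat_lit 76) (nat_lit 121838185193) (nat_lit 76) (nat_lit 100217267864) (nat_lit 7) (nat_lit 4) (nat_lit 8) (nat_lit 5) (nat_lit 8) (nat_lit 4) (nat_lit 491) (nat_lit 413) (nat_lit 296))))) (XT.nd (nat_lit 234) (nat_lit 76) (nat_lit 0) (XT.nd (nat_lit 78) (nat_lit 152) (nat_lit 0) (XT.lf (nat_lit 0) (nat_lit 642241877000) (nat_lit 76) (nat_lit 42658975928) (nat_lit 76) (nat_lit 21037861803) (nat_lit 7) (nat_lit 4) (nat_lit 8) (nat_lit 5) (nat_lit 8) (nat_lit 4) (nat_lit 492) (nat_lit 413) (nat_lit 295)) (XT.nd (nat_lit 78) (nat_lit 0) (nat_lit 0) (XT.lf (nat_lit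 0) (nat_lit 65067411756) (nat_lit 152) (nat_lit 645281629884) (nat_lit 0) (nat_lit 45047692921) (nat_lit 5) (nat_lit 5) (nat_lit 7) (nat_lit 4) (nat_lit 5) (nat_lit 4) (nat_lit 493) (nat_lit 413) (nat_lit 294)) (XT.lf (nat_lit 0) (nat_lit 159817882999) (nat_lit 152) (nat_lit 508920320666) (nat_lit 0) (nat_lit 139798007941) (nat_lit 5) (nat_lit 5) (nat_lit 7) (nat_lit 4) (nat_lit 5) (nat_lit 4) (nat_lit 494) (nat_lit 413) (nat_lit 293)))) (XT.nd (nat_lit 156) (nat_lit 76) (nat_lit 0) (XT.nd (nat_lit 78) (nat_lit 0) (nat_lit 0) (XT.lf (nat_lit 0) (nat_lit 262147022535) (nat_lit 152) (nat_lit 361652931014) (nat_lit 0) (nat_lit 242127002826) (nat_lit 5) (nat_lit 5) (nat_lit 7) (nat_lit 4) (nat_lit 5) (nat_lit 4) (nat_lit 495) (nat_lit 413) (nat_lit 292)) (XT.lf (nat_lit 0) (nat_lit 372661225264) (nat_lit 152) (nat_lit 202606765286) (nat_lit 0) (nat_lit 352641071620) (nat_lit 5) (nat_lit 5)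 (nat_lit 7) (nat_lit 4) (nat_lit 5) (nat_lit 4) (nat_lit 496) (nat_lit 413) (nat_lit 291))) (XT.nd (nat_lit 78) (nat_lit 76) (nat_lit 0) (XT.lf (nat_lit 0) (nat_lit 492015390167) (nat_lit 152) (nat_lit 30839327685) (nat_lit 0) (nat_lit 471995112509) (nat_lit 5) (nat_lit 5) (nat_lit 7) (nat_lit 4) (nat_lit 5) (nat_lit 4) (nat_lit 497) (nat_lit 413) (nat_lit 290)) (XT.lf (nat_lit 0) (nat_lit 162811766872) (nat_lit 76) (nat_lit 462020661219) (nat_lit 76) (nat_lit 442000268733) (nat_lit 4) (nat_lit 4) (nat_lit 5) (nat_lit 5) (nat_lit 5) (nat_lit 4) (nat_lit 498) (nat_lit 413) (nat_lit 289))))))) (XT.nd (nat_lit 1014) (nat_lit 76) (nat_lit 0) (XT.nd (nat_lit 468) (nat_lit 0) (nat_lit 0) (XT.nd (nat_lit 234) (nat_lit 152) (nat_lit 0) (XT.nd (nat_lit 78) (nat_lit 0) (nat_lit 0) (XT.lf (nat_lit 0) (nat_lit 373706623622) (nat_lit 76) (nat_lit 395410348189) (nat_lit 76) (nat_lit 375389849380) (nat_lit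 4) (nat_lit 4) (nat_lit 5) (nat_lit 5) (nat_lit 5) (nat_lit 4) (nat_lit 499) (nat_lit 413) (nat_lit 288)) (XT.nd (nat_lit 78) (nat_lit 0) (nat_lit 0) (XT.lf (nat_lit 0) (nat_lit 601471045521) (nat_lit 76) (nat_lit 323472252849) (nat_lit 76) (nat_lit 303451655594) (nat_lit 4) (nat_lit 4) (nat_lit 5) (nat_lit 5) (nat_lit 5) (nat_lit 4) (nat_lit 500) (nat_lit 413) (nat_lit 287)) (XT.lf (nat_lit 0) (nat_lit 847454747661) (nat_lit 76) (nat_lit 245780075377) (nat_lit 76) (nat_lit 225759386968) (nat_lit 4) (nat_lit 4) (nat_lit 5) (nat_lit 5) (nat_lit 5) (nat_lit 4) (nat_lit 501) (nat_lit 413) (nat_lit 286)))) (XT.nd (nat_lit 78) (nat_lit 152) (nat_lit 0) (XT.lf (nat_lit 0) (nat_lit 1113115411239) (nat_lit 76) (nat_lit 161873417683) (nat_lit 76) (nat_lit 141852644872) (nat_lit 4) (nat_lit 4) (nat_lit 5) (nat_lit 5) (nat_lit 5) (nat_lit 4) (nat_lit 502) (nat_lit 413) (nat_lit 285)) (XT.nd (nat_lit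 78) (nat_lit 152) (nat_lit 0) (XT.lf (nat_lit 0) (nat_lit 1400027321671) (nat_lit 76) (nat_lit 71255055130) (nat_lit 76) (nat_lit 51234204169) (nat_lit 4) (nat_lit 4) (nat_lit 5) (nat_lit 5) (nat_lit 5) (nat_lit 4) (nat_lit 503) (nat_lit 413) (nat_lit 284)) (XT.lf (nat_lit 0) (nat_lit 46842650659) (nat_lit 152) (nat_lit 1561205224339) (nat_lit 0) (nat_lit 28304758694) (nat_lit 2) (nat_lit 5) (nat_lit 4) (nat_lit 4) (nat_lit 2) (nat_lit 4) (nat_lit 504) (nat_lit 413) (nat_lit 283))))) (XT.nd (nat_lit 234) (nat_lit 0) (nat_lit 0) (XT.nd (nat_lit 78) (nat_lit 0) (nat_lit 0) (XT.lf (nat_lit 0) (nat_lit 155283780102) (nat_lit 152) (nat_lit 1466736615430) (nat_lit 0) (nat_lit 136745826098) (nat_lit 2) (nat_lit 5) (nat_lit 4) (nat_lit 4) (nat_lit 2) (nat_lit 4) (nat_lit 505) (nat_lit 413) (nat_lit 282)) (XT.nd (nat_lit 78) (nat_lit 0) (nat_lit 0) (XT.lf (nat_lit 0) (nat_lit 272399515658) (nat_lit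 152) (nat_lit 1364711931476) (nat_lit 0) (nat_lit 253861504212) (nat_lit 2) (nat_lit 5) (nat_lit 4) (nat_lit 4) (nat_lit 2) (nat_lit 4) (nat_lit 506) (nat_lit 413) (nat_lit 281)) (XT.lf (nat_lit 0) (nat_lit 398883876501) (nat_lit 152) (nat_lit 1254526581756) (nat_lit 0) (nat_lit 380345811868) (nat_lit 2) (nat_lit 5) (nat_lit 4) (nat_lit 4) (nat_lit 2) (nat_lit 4) (nat_lit 507) (nat_lit 413) (nat_lit 280)))) (XT.nd (nat_lit 156) (nat_lit 0) (nat_lit 0) (XT.nd (nat_lit 78) (nat_lit 0) (nat_lit 0) (XT.lf (nat_lit 0) (nat_lit 535486399585) (nat_lit 152) (nat_lit 1135527616051) (nat_lit 0) (nat_lit 516948285704) (nat_lit 2) (nat_lit 5) (nat_lit 4) (nat_lit 4) (nat_lit 2) (nat_lit 4) (nat_lit 508) (nat_lit 413) (nat_lit 279)) (XT.lf (nat_lit 0) (nat_lit 683016581343) (nat_lit 152) (nat_lit 1007009855304) (nat_lit 0) (nat_lit 664478421862) (nat_lit 2) (nat_lit 5) (nat_lit 4) (nat_lit 4) (nat_lit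 2) (nat_lit 4) (nat_lit 509) (nat_lit 413) (nat_lit 278))) (XT.nd (nat_lit 78) (nat_lit 0) (nat_lit 0) (XT.lf (nat_lit 0) (nat_lit 842348674704) (nat_lit 152) (nat_lit 868211712785) (nat_lit 0) (nat_lit 823810473000) (nat_lit 2) (nat_lit 5) (nat_lit 4) (nat_lit 4) (nat_lit 2) (nat_lit 4) (nat_lit 510) (nat_lit 413) (nat_lit 277)) (XT.lf (nat_lit 0) (nat_lit 1014426869849) (nat_lit 152) (nat_lit 718310680982) (nat_lit 0) (nat_lit 995888629052) (nat_lit 2) (nat_lit 5) (nat_lit 4) (nat_lit 4) (nat_lit 2) (nat_lit 4) (nat_lit 511) (nat_lit 413) (nat_lit 276)))))) (XT.nd (nat_lit 468) (nat_lit 0) (nat_lit 0) (XT.nd (nat_lit 234) (nat_lit 76) (nat_lit 0) (XT.nd (nat_lit 78) (nat_lit 0) (nat_lit 0) (XT.lf (nat_lit 0) (nat_lit 1200270889418) (nat_lit 152) (nat_lit 556418457486) (nat_lit 0) (nat_lit 1181732612422) (nat_lit 2) (nat_lit 5) (nat_lit 4) (nat_lit 4) (nat_lit 2) (nat_lit 4) (nat_lit 512)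 (nat_lit 413) (nat_lit 275)) (XT.nd (nat_lit 78) (nat_lit 0) (nat_lit 0) (XT.lf (nat_lit 0) (nat_lit 1400982031305) (nat_lit 152) (nat_lit 381575680971) (nat_lit 0) (nat_lit 1382443720791) (nat_lit 2) (nat_lit 5) (nat_lit 4) (nat_lit 4) (nat_lit 2) (nat_lit 4) (nat_lit 513) (nat_lit 413) (nat_lit 274)) (XT.lf (nat_lit 0) (nat_lit 1617749694867) (nat_lit 152) (nat_lit 192746246095) (nat_lit 0) (nat_lit 1599211353319) (nat_lit 2) (nat_lit 5) (nat_lit 4) (nat_lit 4) (nat_lit 2) (nat_lit 4) (nat_lit 514) (nat_lit 413) (nat_lit 273)))) (XT.nd (nat_lit 78) (nat_lit 0) (nat_lit 0) (XT.lf (nat_lit 0) (nat_lit 11778020679) (nat_lit 76) (nat_lit 1840363670224) (nat_lit 76) (nat_lit 1821825299941) (nat_lit 1) (nat_lit 4) (nat_lit 2) (nat_lit 5) (nat_lit 2) (nat_lit 4) (nat_lit 515) (nat_lit 413) (nat_lit 272)) (XT.nd (nat_lit 78) (nat_lit 0) (nat_lit 0) (XT.lf (nat_lit 0) (nat_lit 243625189318) (nat_lit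 76) (nat_lit 1866929547736) (nat_lit 76) (nat_lit 1848391150845) (nat_lit 1) (nat_lit 4) (nat_lit 2) (nat_lit 5) (nat_lit 2) (nat_lit 4) (nat_lit 516) (nat_lit 413) (nat_lit 271)) (XT.lf (nat_lit 0) (nat_lit 494019493224) (nat_lit 76) (nat_lit 1895621024864) (nat_lit 76) (nat_lit 1877082603337) (nat_lit 1) (nat_lit 4) (nat_lit 2) (nat_lit 5) (nat_lit 2) (nat_lit 4) (nat_lit 517) (nat_lit 413) (nat_lit 270))))) (XT.nd (nat_lit 234) (nat_lit 0) (nat_lit 0) (XT.nd (nat_lit 78) (nat_lit 0) (nat_lit 0) (XT.lf (nat_lit 0) (nat_lit 764444750494) (nat_lit 76) (nat_lit 1926608125176) (nat_lit 76) (nat_lit 1908069680838) (nat_lit 1) (nat_lit 4) (nat_lit 2) (nat_lit 5) (nat_lit 2) (nat_lit 4) (nat_lit 518) (nat_lit 413) (nat_lit 269)) (XT.nd (nat_lit 78) (nat_lit 0) (nat_lit 0) (XT.lf (nat_lit 0) (nat_lit 1056503481171) (nat_lit 76) (nat_lit 1960074475933) (nat_lit 76) (nat_lit 1941536010474) (nat_lit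 1) (nat_lit 4) (nat_lit 2) (nat_lit 5) (nat_lit 2) (nat_lit 4) (nat_lit 519) (nat_lit 413) (nat_lit 268)) (XT.lf (nat_lit 0) (nat_lit 1371926403660) (nat_lit 76) (nat_lit 1996218396252) (nat_lit 76) (nat_lit 1977679911236) (nat_lit 1) (nat_lit 4) (nat_lit 2) (nat_lit 5) (nat_lit 2) (nat_lit 4) (nat_lit 520) (nat_lit 413) (nat_lit 267)))) (XT.nd (nat_lit 156) (nat_lit 0) (nat_lit 0) (XT.nd (nat_lit 78) (nat_lit 0) (nat_lit 0) (XT.lf (nat_lit 0) (nat_lit 1712582690833) (nat_lit 76) (nat_lit 2035254072327) (nat_lit 76) (nat_lit 2016715569202) (nat_lit 1) (nat_lit 4) (nat_lit 2) (nat_lit 5) (nat_lit 2) (nat_lit 4) (nat_lit 521) (nat_lit 413) (nat_lit 266)) (XT.lf (nat_lit 0) (nat_lit 2080491046616) (nat_lit 76) (nat_lit 2077412826682) (nat_lit 76) (nat_lit 2058874306790) (nat_lit 1) (nat_lit 4) (nat_lit 2) (nat_lit 5) (nat_lit 2) (nat_lit 4) (nat_lit 522) (nat_lit 413) (nat_lit 265))) (XT.nd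 (nat_lit 78) (nat_lit 0) (nat_lit 0) (XT.lf (nat_lit 0) (nat_lit 2477831668672) (nat_lit 76) (nat_lit 2122944488973) (nat_lit 76) (nat_lit 2104405953557) (nat_lit 1) (nat_lit 4) (nat_lit 2) (nat_lit 5) (nat_lit 2) (nat_lit 4) (nat_lit 523) (nat_lit 413) (nat_lit 264)) (XT.lf (nat_lit 0) (nat_lit 2906959168095) (nat_lit 76) (nat_lit 2172118876459) (nat_lit 76) (nat_lit 2153580326667) (nat_lit 1) (nat_lit 4) (nat_lit 2) (nat_lit 5) (nat_lit 2) (nat_lit 4) (nat_lit 524) (nat_lit 413) (nat_lit 263))))))))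
noncomputable def xc128 : XT := (XT.nd (nat_lit 55068) (nat_lit 0) (nat_lit 2356) (XT.nd (nat_lit 54054) (nat_lit 0) (nat_lit 4636) (XT.nd (nat_lit 468) (nat_lit 0) (nat_lit 0) (XT.nd (nat_lit 234) (nat_lit 0) (nat_lit 0) (XT.nd (nat_lit 78) (nat_lit 0) (nat_lit 0) (XT.lf (nat_lit 0) (nat_lit 3370416522659) (nat_lit 76) (nat_lit 2225227392916) (nat_lit 76) (nat_lit 2206688829814) (nat_lit 1) (nat_lit 4) (nat_lit 2) (nat_lit 5) (nat_lit 2) (nat_lit 4) (nat_lit 525) (nat_lit 413) (nat_lit 262)) (XT.nd (nat_lit 78) (nat_lit 0) (nat_lit 0) (XT.lf (nat_lit 0) (nat_lit 3870950146317) (nat_lit 76) (nat_lit 2282584755479) (nat_lit 76) (nat_lit 2264046180053) (nat_lit 1) (nat_lit 4) (nat_lit 2) (nat_lit 5) (nat_lit 2) (nat_lit 4) (nat_lit 526) (nat_lit 413) (nat_lit 261)) (XT.lf (nat_lit 0) (nat_lit 4411526164246) (nat_lit 76) (nat_lit 2344530859630) (nat_lit 76) (nat_lit 2325992272793) (nat_lit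 1) (nat_lit 4) (nat_lit 2) (nat_lit 5) (nat_lit 2) (nat_lit 4) (nat_lit 527) (nat_lit 413) (nat_lit 260)))) (XT.nd (nat_lit 78) (nat_lit 0) (nat_lit 0) (XT.lf (nat_lit 0) (nat_lit 4995347989886) (nat_lit 76) (nat_lit 2411432793394) (nat_lit 76) (nat_lit 2392894195991) (nat_lit 1) (nat_lit 4) (nat_lit 2) (nat_lit 5) (nat_lit 2) (nat_lit 4) (nat_lit 528) (nat_lit 413) (nat_lit 259)) (XT.nd (nat_lit 78) (nat_lit 0) (nat_lit 0) (XT.lf (nat_lit 0) (nat_lit 5625875308130) (nat_lit 76) (nat_lit 2483687012674) (nat_lit 76) (nat_lit 2465148405488) (nat_lit 1) (nat_lit 4) (nat_lit 2) (nat_lit 5) (nat_lit 2) (nat_lit 4) (nat_lit 529) (nat_lit 413) (nat_lit 258)) (XT.lf (nat_lit 0) (nat_lit 6306844577159) (nat_lit 76) (nat_lit 2561721690623) (nat_lit 76) (nat_lit 2543183074377) (nat_lit 1) (nat_lit 4) (nat_lit 2) (nat_lit 5) (nat_lit 2) (nat_lit 4) (nat_lit 530) (nat_lit 413) (nat_lit 257))))) (XT.nd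 (nat_lit 53352) (nat_lit 0) (nat_lit 6080) (XT.nd (nat_lit 78) (nat_lit 0) (nat_lit 0) (XT.lf (nat_lit 0) (nat_lit 7042291170421) (nat_lit 76) (nat_lit 2645999254960) (nat_lit 76) (nat_lit 2627460630327) (nat_lit 1) (nat_lit 4) (nat_lit 2) (nat_lit 5) (nat_lit 2) (nat_lit 4) (nat_lit 531) (nat_lit 413) (nat_lit 256)) (XT.nd (nat_lit 78) (nat_lit 0) (nat_lit 0) (XT.lf (nat_lit 0) (nat_lit 7836573289948) (nat_lit 76) (nat_lit 2737019128290) (nat_lit 76) (nat_lit 2718480495890) (nat_lit 1) (nat_lit 4) (nat_lit 2) (nat_lit 5) (nat_lit 2) (nat_lit 4) (nat_lit 532) (nat_lit 413) (nat_lit 255)) (XT.lf (nat_lit 0) (nat_lit 8694397792746) (nat_lit 76) (nat_lit 2835320687639) (nat_lit 76) (nat_lit 2816782048049) (nat_lit 1) (nat_lit 4) (nat_lit 2) (nat_lit 5) (nat_lit 2) (nat_lit 4) (nat_lit 533) (nat_lit 413) (nat_lit 254)))) (XT.nd (nat_lit 78) (nat_lit 0) (nat_lit 0) (XT.lf (nat_lit 0) (nat_lit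 3880086132) (nat_lit 532) (nat_lit 1118190674) (nat_lit 532) (nat_lit 1118190674) (nat_lit 81) (nat_lit 3) (nat_lit 88) (nat_lit 3) (nat_lit 88) (nat_lit 5) (nat_lit 414) (nat_lit 414) (nat_lit 372)) (XT.nd (nat_lit 78) (nat_lit 0) (nat_lit 76) (XT.lf (nat_lit 76) (nat_lit 4033724403) (nat_lit 0) (nat_lit 4567531427) (nat_lit 532) (nat_lit 4078426443) (nat_lit 82) (nat_lit 5) (nat_lit 81) (nat_lit 3) (nat_lit 88) (nat_lit 5) (nat_lit 415) (nat_lit 414) (nat_lit 371)) (XT.lf (nat_lit 0) (nat_lit 9560009001) (nat_lit 456) (nat_lit 2286070131) (nat_lit 532) (nat_lit 1312071203) (nat_lit 82) (nat_lit 5) (nat_lit 88) (nat_lit 5) (nat_lit 89) (nat_lit 5) (nat_lit 416) (nat_lit 414) (nat_lit 370)))))) (XT.nd (nat_lit 468) (nat_lit 684) (nat_lit 0) (XT.nd (nat_lit 234) (nat_lit 836) (nat_lit 0) (XT.nd (nat_lit 78) (nat_lit 0) (nat_lit 76) (XT.lf (nat_lit 76) (nat_lit 4671098381) (nat_lit 0) (nat_lit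 6115048424) (nat_lit 532) (nat_lit 2873505030) (nat_lit 83) (nat_lit 5) (nat_lit 82) (nat_lit 5) (nat_lit 89) (nat_lit 5) (nat_lit 417) (nat_lit 414) (nat_lit 369)) (XT.nd (nat_lit 78) (nat_lit 0) (nat_lit 0) (XT.lf (nat_lit 0) (nat_lit 12138655011) (nat_lit 456) (nat_lit 1914039097) (nat_lit 532) (nat_lit 146326942) (nat_lit 83) (nat_lit 5) (nat_lit 89) (nat_lit 5) (nat_lit 90) (nat_lit 5) (nat_lit 418) (nat_lit 414) (nat_lit 368)) (XT.lf (nat_lit 76) (nat_lit 5832320577) (nat_lit 0) (nat_lit 8031291115) (nat_lit 532) (nat_lit 896797494) (nat_lit 84) (nat_lit 5) (nat_lit 83) (nat_lit 5) (nat_lit 90) (nat_lit 5) (nat_lit 419) (nat_lit 414) (nat_lit 367)))) (XT.nd (nat_lit 78) (nat_lit 380) (nat_lit 0) (XT.lf (nat_lit 0) (nat_lit 361780555) (nat_lit 532) (nat_lit 1093434611) (nat_lit 608) (nat_lit 13909214697) (nat_lit 76) (nat_lit 5) (nat_lit 83) (nat_lit 5) (nat_lit 84) (nat_lit 5) (nat_lit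 420) (nat_lit 414) (nat_lit 366)) (XT.nd (nat_lit 78) (nat_lit 456) (nat_lit 0) (XT.lf (nat_lit 0) (nat_lit 1967962830) (nat_lit 532) (nat_lit 8439918425) (nat_lit 76) (nat_lit 5583405308) (nat_lit 77) (nat_lit 5) (nat_lit 84) (nat_lit 5) (nat_lit 78) (nat_lit 5) (nat_lit 421) (nat_lit 414) (nat_lit 365)) (XT.lf (nat_lit 0) (nat_lit 229054825) (nat_lit 456) (nat_lit 3518103960) (nat_lit 532) (nat_lit 12917578255) (nat_lit 71) (nat_lit 5) (nat_lit 77) (nat_lit 5) (nat_lit 78) (nat_lit 5) (nat_lit 422) (nat_lit 414) (nat_lit 364))))) (XT.nd (nat_lit 234) (nat_lit 456) (nat_lit 0) (XT.nd (nat_lit 78) (nat_lit 228) (nat_lit 0) (XT.lf (nat_lit 0) (nat_lit 5971878357) (nat_lit 532) (nat_lit 7431832031) (nat_lit 76) (nat_lit 3964104401) (nat_lit 71) (nat_lit 5) (nat_lit 78) (nat_lit 5) (nat_lit 72) (nat_lit 5) (nat_lit 423) (nat_lit 414) (nat_lit 363)) (XT.nd (nat_lit 78) (nat_lit 0) (nat_lit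 0) (XT.lf (nat_lit 0) (nat_lit 2288167234) (nat_lit 228) (nat_lit 6206972702) (nat_lit 304) (nat_lit 9622359467) (nat_lit 68) (nat_lit 5) (nat_lit 71) (nat_lit 5) (nat_lit 72) (nat_lit 5) (nat_lit 424) (nat_lit 414) (nat_lit 362)) (XT.lf (nat_lit 0) (nat_lit 11441773015) (nat_lit 304) (nat_lit 5773886361) (nat_lit 76) (nat_lit 1693783940) (nat_lit 68) (nat_lit 5) (nat_lit 72) (nat_lit 5) (nat_lit 69) (nat_lit 5) (nat_lit 425) (nat_lit 414) (nat_lit 361)))) (XT.nd (nat_lit 156) (nat_lit 228) (nat_lit 0) (XT.nd (nat_lit 78) (nat_lit 0) (nat_lit 0) (XT.lf (nat_lit 0) (nat_lit 5156349365) (nat_lit 228) (nat_lit 9730224063) (nat_lit 304) (nat_lit 4857179354) (nat_lit 65) (nat_lit 5) (nat_lit 68) (nat_lit 5) (nat_lit 69) (nat_lit 5) (nat_lit 426) (nat_lit 414) (nat_lit 360)) (XT.lf (nat_lit 0) (nat_lit 17263670351) (nat_lit 228) (nat_lit 1479432447) (nat_lit 304) (nat_lit 1890817219) (nat_lit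 65) (nat_lit 5) (nat_lit 68) (nat_lit 5) (nat_lit 69) (nat_lit 5) (nat_lit 427) (nat_lit 414) (nat_lit 359))) (XT.nd (nat_lit 78) (nat_lit 0) (nat_lit 0) (XT.lf (nat_lit 0) (nat_lit 1631640316) (nat_lit 228) (nat_lit 12616690690) (nat_lit 76) (nat_lit 7313690786) (nat_lit 62) (nat_lit 5) (nat_lit 65) (nat_lit 5) (nat_lit 63) (nat_lit 5) (nat_lit 428) (nat_lit 414) (nat_lit 358)) (XT.lf (nat_lit 0) (nat_lit 5446905236) (nat_lit 228) (nat_lit 234831152) (nat_lit 76) (nat_lit 16869656886) (nat_lit 62) (nat_lit 5) (nat_lit 65) (nat_lit 5) (nat_lit 63) (nat_lit 5) (nat_lit 429) (nat_lit 414) (nat_lit 357))))))) (XT.nd (nat_lit 936) (nat_lit 988) (nat_lit 0) (XT.nd (nat_lit 468) (nat_lit 532) (nat_lit 0) (XT.nd (nat_lit 234) (nat_lit 380) (nat_lit 0) (XT.nd (nat_lit 78) (nat_lit 152) (nat_lit 0) (XT.lf (nat_lit 0) (nat_lit 9975401756) (nat_lit 304) (nat_lit 9884876135) (nat_lit 76) (nat_lit 3726999136)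 (nat_lit 59) (nat_lit 5) (nat_lit 63) (nat_lit 5) (nat_lit 60) (nat_lit 5) (nat_lit 430) (nat_lit 414) (nat_lit 356)) (XT.nd (nat_lit 78) (nat_lit 0) (nat_lit 0) (XT.lf (nat_lit 0) (nat_lit 4095069150) (nat_lit 152) (nat_lit 11006085938) (nat_lit 228) (nat_lit 9586081361) (nat_lit 57) (nat_lit 5) (nat_lit 59) (nat_lit 5) (nat_lit 60) (nat_lit 5) (nat_lit 431) (nat_lit 414) (nat_lit 355)) (XT.lf (nat_lit 0) (nat_lit 19731704469) (nat_lit 152) (nat_lit 1158595000) (nat_lit 228) (nat_lit 4964629596) (nat_lit 57) (nat_lit 5) (nat_lit 59) (nat_lit 5) (nat_lit 60) (nat_lit 5) (nat_lit 432) (nat_lit 414) (nat_lit 354)))) (XT.nd (nat_lit 78) (nat_lit 152) (nat_lit 0) (XT.lf (nat_lit 0) (nat_lit 483107359) (nat_lit 228) (nat_lit 17353249462) (nat_lit 76) (nat_lit 9242999970) (nat_lit 54) (nat_lit 5) (nat_lit 57) (nat_lit 5) (nat_lit 55) (nat_lit 5) (nat_lit 433) (nat_lit 414) (nat_lit 353)) (XT.nd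 (nat_lit 78) (nat_lit 152) (nat_lit 0) (XT.lf (nat_lit 0) (nat_lit 6284699244) (nat_lit 228) (nat_lit 1383558703) (nat_lit 76) (nat_lit 20708266587) (nat_lit 54) (nat_lit 5) (nat_lit 57) (nat_lit 5) (nat_lit 55) (nat_lit 5) (nat_lit 434) (nat_lit 414) (nat_lit 352)) (XT.lf (nat_lit 0) (nat_lit 13026958603) (nat_lit 228) (nat_lit 13160250090) (nat_lit 76) (nat_lit 3552135926) (nat_lit 52) (nat_lit 5) (nat_lit 55) (nat_lit 5) (nat_lit 53) (nat_lit 5) (nat_lit 435) (nat_lit 414) (nat_lit 351))))) (XT.nd (nat_lit 234) (nat_lit 228) (nat_lit 0) (XT.nd (nat_lit 78) (nat_lit 152) (nat_lit 0) (XT.lf (nat_lit 0) (nat_lit 4870681422) (nat_lit 152) (nat_lit 15778980546) (nat_lit 228) (nat_lit 10534245259) (nat_lit 50) (nat_lit 5) (nat_lit 52) (nat_lit 5) (nat_lit 53) (nat_lit 5) (nat_lit 436) (nat_lit 414) (nat_lit 350)) (XT.nd (nat_lit 78) (nat_lit 152) (nat_lit 0) (XT.lf (nat_lit 0) (nat_lit 25070989906)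 (nat_lit 152) (nat_lit 4157476361) (nat_lit 228) (nat_lit 3487867631) (nat_lit 50) (nat_lit 5) (nat_lit 52) (nat_lit 5) (nat_lit 53) (nat_lit 5) (nat_lit 437) (nat_lit 414) (nat_lit 349)) (XT.lf (nat_lit 0) (nat_lit 4429383865) (nat_lit 152) (nat_lit 21502782984) (nat_lit 76) (nat_lit 8390188360) (nat_lit 48) (nat_lit 5) (nat_lit 50) (nat_lit 5) (nat_lit 49) (nat_lit 5) (nat_lit 438) (nat_lit 414) (nat_lit 348)))) (XT.nd (nat_lit 78) (nat_lit 228) (nat_lit 0) (XT.lf (nat_lit 0) (nat_lit 13101453482) (nat_lit 152) (nat_lit 908568404) (nat_lit 76) (nat_lit 22014800397) (nat_lit 48) (nat_lit 5) (nat_lit 50) (nat_lit 5) (nat_lit 49) (nat_lit 5) (nat_lit 439) (nat_lit 414) (nat_lit 347)) (XT.nd (nat_lit 78) (nat_lit 76) (nat_lit 0) (XT.lf (nat_lit 0) (nat_lit 22436177661) (nat_lit 152) (nat_lit 559053708) (nat_lit 228) (nat_lit 14826021283) (nat_lit 46) (nat_lit 5) (nat_lit 48) (nat_lit 5) (nat_lit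 49) (nat_lit 5) (nat_lit 440) (nat_lit 414) (nat_lit 346)) (XT.lf (nat_lit 0) (nat_lit 7983999471) (nat_lit 76) (nat_lit 26238522872) (nat_lit 152) (nat_lit 5495515483) (nat_lit 45) (nat_lit 5) (nat_lit 46) (nat_lit 5) (nat_lit 47) (nat_lit 4) (nat_lit 441) (nat_lit 414) (nat_lit 345)))))) (XT.nd (nat_lit 468) (nat_lit 532) (nat_lit 0) (XT.nd (nat_lit 234) (nat_lit 152) (nat_lit 0) (XT.nd (nat_lit 78) (nat_lit 228) (nat_lit 0) (XT.lf (nat_lit 0) (nat_lit 4787028441) (nat_lit 152) (nat_lit 7790663880) (nat_lit 76) (nat_lit 29145277531) (nat_lit 44) (nat_lit 5) (nat_lit 46) (nat_lit 5) (nat_lit 45) (nat_lit 5) (nat_lit 442) (nat_lit 414) (nat_lit 344)) (XT.nd (nat_lit 78) (nat_lit 76) (nat_lit 0) (XT.lf (nat_lit 0) (nat_lit 16105768037) (nat_lit 228) (nat_lit 25058901355) (nat_lit 76) (nat_lit 2671369362) (nat_lit 42) (nat_lit 5) (nat_lit 45) (nat_lit 5) (nat_lit 43) (nat_lit 4) (nat_lit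 443) (nat_lit 414) (nat_lit 343)) (XT.lf (nat_lit 0) (nat_lit 1538665051) (nat_lit 76) (nat_lit 27363265118) (nat_lit 152) (nat_lit 17170470045) (nat_lit 41) (nat_lit 5) (nat_lit 42) (nat_lit 5) (nat_lit 43) (nat_lit 4) (nat_lit 444) (nat_lit 414) (nat_lit 342)))) (XT.nd (nat_lit 78) (nat_lit 152) (nat_lit 0) (XT.lf (nat_lit 0) (nat_lit 31671232731) (nat_lit 76) (nat_lit 11725722333) (nat_lit 152) (nat_lit 5036702792) (nat_lit 41) (nat_lit 5) (nat_lit 42) (nat_lit 5) (nat_lit 43) (nat_lit 4) (nat_lit 445) (nat_lit 414) (nat_lit 341)) (XT.nd (nat_lit 78) (nat_lit 0) (nat_lit 0) (XT.lf (nat_lit 0) (nat_lit 8121887817) (nat_lit 152) (nat_lit 37375225576) (nat_lit 76) (nat_lit 5434564702) (nat_lit 39) (nat_lit 5) (nat_lit 41) (nat_lit 5) (nat_lit 40) (nat_lit 4) (nat_lit 446) (nat_lit 414) (nat_lit 340)) (XT.lf (nat_lit 0) (nat_lit 22826471518) (nat_lit 152) (nat_lit 6803253388) (nat_lit 76)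 (nat_lit 23928116354) (nat_lit 39) (nat_lit 5) (nat_lit 41) (nat_lit 5) (nat_lit 40) (nat_lit 4) (nat_lit 447) (nat_lit 414) (nat_lit 339))))) (XT.nd (nat_lit 234) (nat_lit 304) (nat_lit 0) (XT.nd (nat_lit 78) (nat_lit 152) (nat_lit 0) (XT.lf (nat_lit 0) (nat_lit 27578099431) (nat_lit 76) (nat_lit 11783905810) (nat_lit 152) (nat_lit 16979726194) (nat_lit 38) (nat_lit 5) (nat_lit 39) (nat_lit 5) (nat_lit 40) (nat_lit 4) (nat_lit 448) (nat_lit 414) (nat_lit 338)) (XT.nd (nat_lit 78) (nat_lit 76) (nat_lit 0) (XT.lf (nat_lit 0) (nat_lit 5855323973) (nat_lit 76) (nat_lit 51868273589) (nat_lit 76) (nat_lit 1584478567) (nat_lit 37) (nat_lit 4) (nat_lit 38) (nat_lit 5) (nat_lit 38) (nat_lit 4) (nat_lit 449) (nat_lit 414) (nat_lit 337)) (XT.lf (nat_lit 0) (nat_lit 15394327762) (nat_lit 152) (nat_lit 18273561685) (nat_lit 76) (nat_lit 28726544252) (nat_lit 36) (nat_lit 5) (nat_lit 38) (nat_lit 5)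 (nat_lit 37) (nat_lit 4) (nat_lit 450) (nat_lit 414) (nat_lit 336)))) (XT.nd (nat_lit 156) (nat_lit 228) (nat_lit 0) (XT.nd (nat_lit 78) (nat_lit 0) (nat_lit 0) (XT.lf (nat_lit 0) (nat_lit 20699380856) (nat_lit 76) (nat_lit 13436376016) (nat_lit 152) (nat_lit 31549457336) (nat_lit 35) (nat_lit 5) (nat_lit 36) (nat_lit 5) (nat_lit 37) (nat_lit 4) (nat_lit 451) (nat_lit 414) (nat_lit 335)) (XT.lf (nat_lit 0) (nat_lit 55083629810) (nat_lit 152) (nat_lit 5600186623) (nat_lit 0) (nat_lit 8498870788) (nat_lit 35) (nat_lit 5) (nat_lit 37) (nat_lit 4) (nat_lit 35) (nat_lit 4) (nat_lit 452) (nat_lit 414) (nat_lit 334))) (XT.nd (nat_lit 78) (nat_lit 76) (nat_lit 0) (XT.lf (nat_lit 0) (nat_lit 5810476198) (nat_lit 152) (nat_lit 34506295606) (nat_lit 76) (nat_lit 32530005910) (nat_lit 33) (nat_lit 5) (nat_lit 35) (nat_lit 5) (nat_lit 34) (nat_lit 4) (nat_lit 453) (nat_lit 414) (nat_lit 333)) (XT.lf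 (nat_lit 0) (nat_lit 9409787933) (nat_lit 76) (nat_lit 17517451665) (nat_lit 152) (nat_lit 49817364850) (nat_lit 32) (nat_lit 5) (nat_lit 33) (nat_lit 5) (nat_lit 34) (nat_lit 4) (nat_lit 454) (nat_lit 414) (nat_lit 332))))))))
noncomputable def xc129 : XT := (XT.nd (nat_lit 1950) (nat_lit 684) (nat_lit 0) (XT.nd (nat_lit 936) (nat_lit 684) (nat_lit 0) (XT.nd (nat_lit 468) (nat_lit 380) (nat_lit 0) (XT.nd (nat_lit 234) (nat_lit 228) (nat_lit 0) (XT.nd (nat_lit 78) (nat_lit 152) (nat_lit 0) (XT.lf (nat_lit 0) (nat_lit 50865040810) (nat_lit 152) (nat_lit 22286558994) (nat_lit 0) (nat_lit 7712122088) (nat_lit 32) (nat_lit 5) (nat_lit 34) (nat_lit 4) (nat_lit 32) (nat_lit 4) (nat_lit 455) (nat_lit 414) (nat_lit 331)) (XT.nd (nat_lit 78) (nat_lit 76) (nat_lit 0) (XT.lf (nat_lit 0) (nat_lit 27261377527) (nat_lit 76) (nat_lit 50560487944) (nat_lit 76) (nat_lit 7402183601) (nat_lit 31) (nat_lit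 4) (nat_lit 32) (nat_lit 5) (nat_lit 32) (nat_lit 4) (nat_lit 456) (nat_lit 414) (nat_lit 330)) (XT.lf (nat_lit 0) (nat_lit 16770089605) (nat_lit 152) (nat_lit 8281504649) (nat_lit 76) (nat_lit 64799411154) (nat_lit 30) (nat_lit 5) (nat_lit 32) (nat_lit 5) (nat_lit 31) (nat_lit 4) (nat_lit 457) (nat_lit 414) (nat_lit 329)))) (XT.nd (nat_lit 78) (nat_lit 152) (nat_lit 0) (XT.lf (nat_lit 0) (nat_lit 43708284758) (nat_lit 152) (nat_lit 47287889274) (nat_lit 0) (nat_lit 3737999266) (nat_lit 29) (nat_lit 5) (nat_lit 31) (nat_lit 4) (nat_lit 29) (nat_lit 4) (nat_lit 458) (nat_lit 414) (nat_lit 328)) (XT.nd (nat_lit 78) (nat_lit 76) (nat_lit 0) (XT.lf (nat_lit 0) (nat_lit 7836843469) (nat_lit 76) (nat_lit 66030082121) (nat_lit 76) (nat_lit 26055838036) (nat_lit 28) (nat_lit 4) (nat_lit 29) (nat_lit 5) (nat_lit 29) (nat_lit 4) (nat_lit 459) (nat_lit 414) (nat_lit 327)) (XT.lf (nat_lit 0) (nat_lit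 2186647511) (nat_lit 152) (nat_lit 35429682624) (nat_lit 76) (nat_lit 67802721389) (nat_lit 27) (nat_lit 5) (nat_lit 29) (nat_lit 5) (nat_lit 28) (nat_lit 4) (nat_lit 460) (nat_lit 414) (nat_lit 326))))) (XT.nd (nat_lit 234) (nat_lit 228) (nat_lit 0) (XT.nd (nat_lit 78) (nat_lit 76) (nat_lit 0) (XT.lf (nat_lit 0) (nat_lit 26391348354) (nat_lit 76) (nat_lit 5518580326) (nat_lit 152) (nat_lit 79340644836) (nat_lit 26) (nat_lit 5) (nat_lit 27) (nat_lit 5) (nat_lit 28) (nat_lit 4) (nat_lit 461) (nat_lit 414) (nat_lit 325)) (XT.nd (nat_lit 78) (nat_lit 76) (nat_lit 0) (XT.lf (nat_lit 0) (nat_lit 65700332162) (nat_lit 152) (nat_lit 23035447280) (nat_lit 0) (nat_lit 28677697197) (nat_lit 26) (nat_lit 5) (nat_lit 28) (nat_lit 4) (nat_lit 26) (nat_lit 4) (nat_lit 462) (nat_lit 414) (nat_lit 324)) (XT.lf (nat_lit 0) (nat_lit 45875435783) (nat_lit 76) (nat_lit 57559994259) (nat_lit 76) (nat_lit 20534665144)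 (nat_lit 25) (nat_lit 4) (nat_lit 26) (nat_lit 5) (nat_lit 26) (nat_lit 4) (nat_lit 463) (nat_lit 414) (nat_lit 323)))) (XT.nd (nat_lit 78) (nat_lit 152) (nat_lit 0) (XT.lf (nat_lit 0) (nat_lit 13121888799) (nat_lit 152) (nat_lit 9734294996) (nat_lit 76) (nat_lit 108118500481) (nat_lit 24) (nat_lit 5) (nat_lit 26) (nat_lit 5) (nat_lit 25) (nat_lit 4) (nat_lit 464) (nat_lit 414) (nat_lit 322)) (XT.nd (nat_lit 78) (nat_lit 76) (nat_lit 0) (XT.lf (nat_lit 0) (nat_lit 50372917155) (nat_lit 152) (nat_lit 71877389081) (nat_lit 0) (nat_lit 16085756507) (nat_lit 23) (nat_lit 5) (nat_lit 25) (nat_lit 4) (nat_lit 23) (nat_lit 4) (nat_lit 465) (nat_lit 414) (nat_lit 321)) (XT.lf (nat_lit 0) (nat_lit 2553162869) (nat_lit 76) (nat_lit 88974230216) (nat_lit 76) (nat_lit 54685089285) (nat_lit 22) (nat_lit 4) (nat_lit 23) (nat_lit 5) (nat_lit 23) (nat_lit 4) (nat_lit 466) (nat_lit 414) (nat_lit 320))))))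 (XT.nd (nat_lit 468) (nat_lit 304) (nat_lit 0) (XT.nd (nat_lit 234) (nat_lit 228) (nat_lit 0) (XT.nd (nat_lit 78) (nat_lit 152) (nat_lit 0) (XT.lf (nat_lit 0) (nat_lit 87016537652) (nat_lit 76) (nat_lit 50918301775) (nat_lit 76) (nat_lit 16627327250) (nat_lit 22) (nat_lit 4) (nat_lit 23) (nat_lit 5) (nat_lit 23) (nat_lit 4) (nat_lit 467) (nat_lit 414) (nat_lit 319)) (XT.nd (nat_lit 78) (nat_lit 0) (nat_lit 0) (XT.lf (nat_lit 0) (nat_lit 14799994974) (nat_lit 76) (nat_lit 8802248906) (nat_lit 152) (nat_lit 139902369516) (nat_lit 20) (nat_lit 5) (nat_lit 21) (nat_lit 5) (nat_lit 22) (nat_lit 4) (nat_lit 468) (nat_lit 414) (nat_lit 318)) (XT.lf (nat_lit 0) (nat_lit 68924491179) (nat_lit 152) (nat_lit 66811043755) (nat_lit 0) (nat_lit 37170561263) (nat_lit 20) (nat_lit 5) (nat_lit 22) (nat_lit 4) (nat_lit 20) (nat_lit 4) (nat_lit 469) (nat_lit 414) (nat_lit 317)))) (XT.nd (nat_lit 78) (nat_lit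 152) (nat_lit 0) (XT.lf (nat_lit 0) (nat_lit 22523877345) (nat_lit 76) (nat_lit 96114898694) (nat_lit 76) (nat_lit 64359621032) (nat_lit 19) (nat_lit 4) (nat_lit 20) (nat_lit 5) (nat_lit 20) (nat_lit 4) (nat_lit 470) (nat_lit 414) (nat_lit 316)) (XT.nd (nat_lit 78) (nat_lit 152) (nat_lit 0) (XT.lf (nat_lit 0) (nat_lit 122797158869) (nat_lit 76) (nat_lit 51355813643) (nat_lit 76) (nat_lit 19599288067) (nat_lit 19) (nat_lit 4) (nat_lit 20) (nat_lit 5) (nat_lit 20) (nat_lit 4) (nat_lit 471) (nat_lit 414) (nat_lit 315)) (XT.lf (nat_lit 0) (nat_lit 26344864298) (nat_lit 76) (nat_lit 1589051734) (nat_lit 152) (nat_lit 177326831429) (nat_lit 17) (nat_lit 5) (nat_lit 18) (nat_lit 5) (nat_lit 19) (nat_lit 4) (nat_lit 472) (nat_lit 414) (nat_lit 314))))) (XT.nd (nat_lit 234) (nat_lit 228) (nat_lit 0) (XT.nd (nat_lit 78) (nat_lit 76) (nat_lit 0) (XT.lf (nat_lit 0) (nat_lit 81452004698) (nat_lit 152)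 (nat_lit 83892141114) (nat_lit 0) (nat_lit 52045753832) (nat_lit 17) (nat_lit 5) (nat_lit 19) (nat_lit 4) (nat_lit 17) (nat_lit 4) (nat_lit 473) (nat_lit 414) (nat_lit 313)) (XT.nd (nat_lit 78) (nat_lit 0) (nat_lit 0) (XT.lf (nat_lit 0) (nat_lit 19669070853) (nat_lit 76) (nat_lit 120093307158) (nat_lit 76) (nat_lit 90686139038) (nat_lit 16) (nat_lit 4) (nat_lit 17) (nat_lit 5) (nat_lit 17) (nat_lit 4) (nat_lit 474) (nat_lit 414) (nat_lit 312)) (XT.lf (nat_lit 0) (nat_lit 136279297508) (nat_lit 76) (nat_lit 68748656973) (nat_lit 76) (nat_lit 39340639544) (nat_lit 16) (nat_lit 4) (nat_lit 17) (nat_lit 5) (nat_lit 17) (nat_lit 4) (nat_lit 475) (nat_lit 414) (nat_lit 311)))) (XT.nd (nat_lit 156) (nat_lit 76) (nat_lit 0) (XT.nd (nat_lit 78) (nat_lit 0) (nat_lit 0) (XT.lf (nat_lit 0) (nat_lit 2549536454) (nat_lit 76) (nat_lit 12815050218) (nat_lit 152) (nat_lit 244002042106) (nat_lit 14) (nat_lit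 5) (nat_lit 15) (nat_lit 5) (nat_lit 16) (nat_lit 4) (nat_lit 476) (nat_lit 414) (nat_lit 310)) (XT.lf (nat_lit 0) (nat_lit 76494337552) (nat_lit 152) (nat_lit 149391250747) (nat_lit 0) (nat_lit 49263289431) (nat_lit 14) (nat_lit 5) (nat_lit 16) (nat_lit 4) (nat_lit 14) (nat_lit 4) (nat_lit 477) (nat_lit 414) (nat_lit 309))) (XT.nd (nat_lit 78) (nat_lit 76) (nat_lit 0) (XT.lf (nat_lit 0) (nat_lit 142844353721) (nat_lit 152) (nat_lit 33710280758) (nat_lit 0) (nat_lit 115612681333) (nat_lit 14) (nat_lit 5) (nat_lit 16) (nat_lit 4) (nat_lit 14) (nat_lit 4) (nat_lit 478) (nat_lit 414) (nat_lit 308)) (XT.lf (nat_lit 0) (nat_lit 96022995917) (nat_lit 76) (nat_lit 120785977640) (nat_lit 76) (nat_lit 93553727226) (nat_lit 13) (nat_lit 4) (nat_lit 14) (nat_lit 5) (nat_lit 14) (nat_lit 4) (nat_lit 479) (nat_lit 414) (nat_lit 307))))))) (XT.nd (nat_lit 936) (nat_lit 228) (nat_lit 0) (XT.nd (nat_lit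 468) (nat_lit 228) (nat_lit 0) (XT.nd (nat_lit 234) (nat_lit 76) (nat_lit 0) (XT.nd (nat_lit 78) (nat_lit 152) (nat_lit 0) (XT.lf (nat_lit 0) (nat_lit 238046580733) (nat_lit 76) (nat_lit 59563200023) (nat_lit 76) (nat_lit 32330414400) (nat_lit 13) (nat_lit 4) (nat_lit 14) (nat_lit 5) (nat_lit 14) (nat_lit 4) (nat_lit 480) (nat_lit 414) (nat_lit 306)) (XT.nd (nat_lit 78) (nat_lit 0) (nat_lit 0) (XT.lf (nat_lit 0) (nat_lit 33303375894) (nat_lit 152) (nat_lit 309531887860) (nat_lit 0) (nat_lit 8087374796) (nat_lit 11) (nat_lit 5) (nat_lit 13) (nat_lit 4) (nat_lit 11) (nat_lit 4) (nat_lit 481) (nat_lit 414) (nat_lit 305)) (XT.lf (nat_lit 0) (nat_lit 106563535159) (nat_lit 152) (nat_lit 185276065170) (nat_lit 0) (nat_lit 81347109195) (nat_lit 11) (nat_lit 5) (nat_lit 13) (nat_lit 4) (nat_lit 11) (nat_lit 4) (nat_lit 482) (nat_lit 414) (nat_lit 304)))) (XT.nd (nat_lit 78) (nat_lit 76) (nat_lit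 0) (XT.lf (nat_lit 0) (nat_lit 185682152418) (nat_lit 152) (nat_lit 51084609101) (nat_lit 0) (nat_lit 160465333059) (nat_lit 11) (nat_lit 5) (nat_lit 13) (nat_lit 4) (nat_lit 11) (nat_lit 4) (nat_lit 483) (nat_lit 414) (nat_lit 303)) (XT.nd (nat_lit 78) (nat_lit 0) (nat_lit 0) (XT.lf (nat_lit 0) (nat_lit 98779015381) (nat_lit 76) (nat_lit 174724701048) (nat_lit 76) (nat_lit 149507517436) (nat_lit 10) (nat_lit 4) (nat_lit 11) (nat_lit 5) (nat_lit 11) (nat_lit 4) (nat_lit 484) (nat_lit 414) (nat_lit 302)) (XT.lf (nat_lit 0) (nat_lit 263532595608) (nat_lit 76) (nat_lit 106213029994) (nat_lit 76) (nat_lit 80995509109) (nat_lit 10) (nat_lit 4) (nat_lit 11) (nat_lit 5) (nat_lit 11) (nat_lit 4) (nat_lit 485) (nat_lit 414) (nat_lit 301))))) (XT.nd (nat_lit 234) (nat_lit 76) (nat_lit 0) (XT.nd (nat_lit 78) (nat_lit 152) (nat_lit 0) (XT.lf (nat_lit 0) (nat_lit 441462424104) (nat_lit 76) (nat_lit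 32222497011) (nat_lit 76) (nat_lit 7004663837) (nat_lit 10) (nat_lit 4) (nat_lit 11) (nat_lit 5) (nat_lit 11) (nat_lit 4) (nat_lit 486) (nat_lit 414) (nat_lit 300)) (XT.nd (nat_lit 78) (nat_lit 0) (nat_lit 0) (XT.lf (nat_lit 0) (nat_lit 73535566987) (nat_lit 152) (nat_lit 388830448797) (nat_lit 0) (nat_lit 50185453718) (nat_lit 8) (nat_lit 5) (nat_lit 10) (nat_lit 4) (nat_lit 8) (nat_lit 4) (nat_lit 487) (nat_lit 414) (nat_lit 299)) (XT.lf (nat_lit 0) (nat_lit 162076062933) (nat_lit 152) (nat_lit 245991146557) (nat_lit 0) (nat_lit 138725701758) (nat_lit 8) (nat_lit 5) (nat_lit 10) (nat_lit 4) (nat_lit 8) (nat_lit 4) (nat_lit 488) (nat_lit 414) (nat_lit 298)))) (XT.nd (nat_lit 78) (nat_lit 76) (nat_lit 0) (XT.lf (nat_lit 0) (nat_lit 257698070951) (nat_lit 152) (nat_lit 91728255369) (nat_lit 0) (nat_lit 234347480235) (nat_lit 8) (nat_lit 5) (nat_lit 10) (nat_lit 4) (nat_lit 8) (nat_lit 4)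 (nat_lit 489) (nat_lit 414) (nat_lit 297)) (XT.nd (nat_lit 78) (nat_lit 0) (nat_lit 0) (XT.lf (nat_lit 0) (nat_lit 78815021826) (nat_lit 76) (nat_lit 284048721321) (nat_lit 76) (nat_lit 260697918066) (nat_lit 7) (nat_lit 4) (nat_lit 8) (nat_lit 5) (nat_lit 8) (nat_lit 4) (nat_lit 490) (nat_lit 414) (nat_lit 296)) (XT.lf (nat_lit 0) (nat_lit 268215219817) (nat_lit 76) (nat_lit 210733904054) (nat_lit 76) (nat_lit 187382904004) (nat_lit 7) (nat_lit 4) (nat_lit 8) (nat_lit 5) (nat_lit 8) (nat_lit 4) (nat_lit 491) (nat_lit 414) (nat_lit 295)))))) (XT.nd (nat_lit 468) (nat_lit 76) (nat_lit 0) (XT.nd (nat_lit 234) (nat_lit 0) (nat_lit 0) (XT.nd (nat_lit 78) (nat_lit 152) (nat_lit 0) (XT.lf (nat_lit 0) (nat_lit 472764462775) (nat_lit 76) (nat_lit 131555429402) (nat_lit 76) (nat_lit 108204247134) (nat_lit 7) (nat_lit 4) (nat_lit 8) (nat_lit 5) (nat_lit 8) (nat_lit 4) (nat_lit 492) (nat_lit 414)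 (nat_lit 294)) (XT.nd (nat_lit 78) (nat_lit 152) (nat_lit 0) (XT.lf (nat_lit 0) (nat_lit 693674894362) (nat_lit 76) (nat_lit 46044091588) (nat_lit 76) (nat_lit 22692740600) (nat_lit 7) (nat_lit 4) (nat_lit 8) (nat_lit 5) (nat_lit 8) (nat_lit 4) (nat_lit 493) (nat_lit 414) (nat_lit 293)) (XT.lf (nat_lit 0) (nat_lit 70299521289) (nat_lit 152) (nat_lit 696849059204) (nat_lit 0) (nat_lit 48677755354) (nat_lit 5) (nat_lit 5) (nat_lit 7) (nat_lit 4) (nat_lit 5) (nat_lit 4) (nat_lit 494) (nat_lit 414) (nat_lit 292)))) (XT.nd (nat_lit 78) (nat_lit 0) (nat_lit 0) (XT.lf (nat_lit 0) (nat_lit 172628051224) (nat_lit 152) (nat_lit 549582926810) (nat_lit 0) (nat_lit 151006151354) (nat_lit 5) (nat_lit 5) (nat_lit 7) (nat_lit 4) (nat_lit 5) (nat_lit 4) (nat_lit 495) (nat_lit 414) (nat_lit 291)) (XT.nd (nat_lit 78) (nat_lit 0) (nat_lit 0) (XT.lf (nat_lit 0) (nat_lit 283141689509) (nat_lit 152) (nat_lit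 390537925209) (nat_lit 0) (nat_lit 261519665624) (nat_lit 5) (nat_lit 5) (nat_lit 7) (nat_lit 4) (nat_lit 5) (nat_lit 4) (nat_lit 496) (nat_lit 414) (nat_lit 290)) (XT.lf (nat_lit 0) (nat_lit 402495331778) (nat_lit 152) (nat_lit 218771565503) (nat_lit 0) (nat_lit 380873193064) (nat_lit 5) (nat_lit 5) (nat_lit 7) (nat_lit 4) (nat_lit 5) (nat_lit 4) (nat_lit 497) (nat_lit 414) (nat_lit 289))))) (XT.nd (nat_lit 234) (nat_lit 0) (nat_lit 0) (XT.nd (nat_lit 78) (nat_lit 76) (nat_lit 0) (XT.lf (nat_lit 0) (nat_lit 531396258873) (nat_lit 152) (nat_lit 33265972968) (nat_lit 0) (nat_lit 509774013838) (nat_lit 5) (nat_lit 5) (nat_lit 7) (nat_lit 4) (nat_lit 5) (nat_lit 4) (nat_lit 498) (nat_lit 414) (nat_lit 288)) (XT.nd (nat_lit 78) (nat_lit 0) (nat_lit 0) (XT.lf (nat_lit 0) (nat_lit 175876183813) (nat_lit 76) (nat_lit 498961970778) (nat_lit 76) (nat_lit 477339627296) (nat_lit 4) (nat_lit 4) (nat_lit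 5) (nat_lit 5) (nat_lit 5) (nat_lit 4) (nat_lit 499) (nat_lit 414) (nat_lit 287)) (XT.lf (nat_lit 0) (nat_lit 403639704985) (nat_lit 76) (nat_lit 427024339619) (nat_lit 76) (nat_lit 405401904982) (nat_lit 4) (nat_lit 4) (nat_lit 5) (nat_lit 5) (nat_lit 5) (nat_lit 4) (nat_lit 500) (nat_lit 414) (nat_lit 286)))) (XT.nd (nat_lit 156) (nat_lit 0) (nat_lit 0) (XT.nd (nat_lit 78) (nat_lit 0) (nat_lit 0) (XT.lf (nat_lit 0) (nat_lit 649622573120) (nat_lit 76) (nat_lit 349332591943) (nat_lit 76) (nat_lit 327710072905) (nat_lit 4) (nat_lit 4) (nat_lit 5) (nat_lit 5) (nat_lit 5) (nat_lit 4) (nat_lit 501) (nat_lit 414) (nat_lit 285)) (XT.lf (nat_lit 0) (nat_lit 915282464471) (nat_lit 76) (nat_lit 265426332209) (nat_lit 76) (nat_lit 243803735021) (nat_lit 4) (nat_lit 4) (nat_lit 5) (nat_lit 5) (nat_lit 5) (nat_lit 4) (nat_lit 502) (nat_lit 414) (nat_lit 284))) (XT.nd (nat_lit 78) (nat_lit 0) (nat_lit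 0) (XT.lf (nat_lit 0) (nat_lit 1202193659877) (nat_lit 76) (nat_lit 174808338137) (nat_lit 76) (nat_lit 153185668587) (nat_lit 4) (nat_lit 4) (nat_lit 5) (nat_lit 5) (nat_lit 5) (nat_lit 4) (nat_lit 503) (nat_lit 414) (nat_lit 283)) (XT.lf (nat_lit 0) (nat_lit 1512056373829) (nat_lit 76) (nat_lit 76941614206) (nat_lit 76) (nat_lit 55318877655) (nat_lit 4) (nat_lit 4) (nat_lit 5) (nat_lit 5) (nat_lit 5) (nat_lit 4) (nat_lit 504) (nat_lit 414) (nat_lit 282))))))))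
noncomputable def xc130 : XT := (XT.nd (nat_lit 1950) (nat_lit 0) (nat_lit 0) (XT.nd (nat_lit 936) (nat_lit 0) (nat_lit 0) (XT.nd (nat_lit 468) (nat_lit 76) (nat_lit 0) (XT.nd (nat_lit 234) (nat_lit 0) (nat_lit 0) (XT.nd (nat_lit 78) (nat_lit 0) (nat_lit 0) (XT.lf (nat_lit 0) (nat_lit 50603412004) (nat_lit 152) (nat_lit 1686074062181) (nat_lit 0) (nat_lit 30582302199) (nat_lit 2) (nat_lit 5) (nat_lit 4) (nat_lit 4) (nat_lit 2) (nat_lit 4) (nat_lit 505) (nat_lit 414) (nat_lit 281)) (XT.nd (nat_lit 78) (nat_lit 0) (nat_lit 0) (XT.lf (nat_lit 0) (nat_lit 167718842965) (nat_lit 152) (nat_lit 1584050007530) (nat_lit 0) (nat_lit 147697679973) (nat_lit 2) (nat_lit 5) (nat_lit 4) (nat_lit 4) (nat_lit 2) (nat_lit 4) (nat_lit 506) (nat_lit 414) (nat_lit 280)) (XT.lf (nat_lit 0) (nat_lit 294202921776) (nat_lit 152) (nat_lit 1473865240499) (nat_lit 0) (nat_lit 274181709537) (nat_lit 2) (nat_lit 5)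 (nat_lit 4) (nat_lit 4) (nat_lit 2) (nat_lit 4) (nat_lit 507) (nat_lit 414) (nat_lit 279)))) (XT.nd (nat_lit 78) (nat_lit 0) (nat_lit 0) (XT.lf (nat_lit 0) (nat_lit 430805183720) (nat_lit 152) (nat_lit 1354866814320) (nat_lit 0) (nat_lit 410783925880) (nat_lit 2) (nat_lit 5) (nat_lit 4) (nat_lit 4) (nat_lit 2) (nat_lit 4) (nat_lit 508) (nat_lit 414) (nat_lit 278)) (XT.nd (nat_lit 78) (nat_lit 0) (nat_lit 0) (XT.lf (nat_lit 0) (nat_lit 578335123680) (nat_lit 152) (nat_lit 1226349553135) (nat_lit 0) (nat_lit 558313823619) (nat_lit 2) (nat_lit 5) (nat_lit 4) (nat_lit 4) (nat_lit 2) (nat_lit 4) (nat_lit 509) (nat_lit 414) (nat_lit 277)) (XT.lf (nat_lit 0) (nat_lit 737666993154) (nat_lit 152) (nat_lit 1087551873172) (nat_lit 0) (nat_lit 717645653998) (nat_lit 2) (nat_lit 5) (nat_lit 4) (nat_lit 4) (nat_lit 2) (nat_lit 4) (nat_lit 510) (nat_lit 414) (nat_lit 276))))) (XT.nd (nat_lit 234) (nat_lit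 76) (nat_lit 0) (XT.nd (nat_lit 78) (nat_lit 0) (nat_lit 0) (XT.lf (nat_lit 0) (nat_lit 909744980998) (nat_lit 152) (nat_lit 937651269663) (nat_lit 0) (nat_lit 889723605643) (nat_lit 2) (nat_lit 5) (nat_lit 4) (nat_lit 4) (nat_lit 2) (nat_lit 4) (nat_lit 511) (nat_lit 414) (nat_lit 275)) (XT.nd (nat_lit 78) (nat_lit 0) (nat_lit 0) (XT.lf (nat_lit 0) (nat_lit 1095588808621) (nat_lit 152) (nat_lit 775759442735) (nat_lit 0) (nat_lit 1075567399749) (nat_lit 2) (nat_lit 5) (nat_lit 4) (nat_lit 4) (nat_lit 2) (nat_lit 4) (nat_lit 512) (nat_lit 414) (nat_lit 274)) (XT.lf (nat_lit 0) (nat_lit 1296299772779) (nat_lit 152) (nat_lit 600917033412) (nat_lit 0) (nat_lit 1276278332873) (nat_lit 2) (nat_lit 5) (nat_lit 4) (nat_lit 4) (nat_lit 2) (nat_lit 4) (nat_lit 513) (nat_lit 414) (nat_lit 273)))) (XT.nd (nat_lit 78) (nat_lit 76) (nat_lit 0) (XT.lf (nat_lit 0) (nat_lit 1513067271778) (nat_lit 152)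 (nat_lit 412087938530) (nat_lit 0) (nat_lit 1493045803136) (nat_lit 2) (nat_lit 5) (nat_lit 4) (nat_lit 4) (nat_lit 2) (nat_lit 4) (nat_lit 514) (nat_lit 414) (nat_lit 272)) (XT.nd (nat_lit 78) (nat_lit 76) (nat_lit 0) (XT.lf (nat_lit 0) (nat_lit 1747175853762) (nat_lit 152) (nat_lit 208153170858) (nat_lit 0) (nat_lit 1727154358513) (nat_lit 2) (nat_lit 5) (nat_lit 4) (nat_lit 4) (nat_lit 2) (nat_lit 4) (nat_lit 515) (nat_lit 414) (nat_lit 271)) (XT.lf (nat_lit 0) (nat_lit 12732713843) (nat_lit 76) (nat_lit 1987586337075) (nat_lit 76) (nat_lit 1967564817190) (nat_lit 1) (nat_lit 4) (nat_lit 2) (nat_lit 5) (nat_lit 2) (nat_lit 4) (nat_lit 516) (nat_lit 414) (nat_lit 270)))))) (XT.nd (nat_lit 468) (nat_lit 0) (nat_lit 0) (XT.nd (nat_lit 234) (nat_lit 0) (nat_lit 0) (XT.nd (nat_lit 78) (nat_lit 0) (nat_lit 0) (XT.lf (nat_lit 0) (nat_lit 263126733639) (nat_lit 76) (nat_lit 2016277960844) (nat_lit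 76) (nat_lit 1996256418148) (nat_lit 1) (nat_lit 4) (nat_lit 2) (nat_lit 5) (nat_lit 2) (nat_lit 4) (nat_lit 517) (nat_lit 414) (nat_lit 269)) (XT.nd (nat_lit 78) (nat_lit 0) (nat_lit 0) (XT.lf (nat_lit 0) (nat_lit 533551727844) (nat_lit 76) (nat_lit 2047265196935) (nat_lit 76) (nat_lit 2027243633117) (nat_lit 1) (nat_lit 4) (nat_lit 2) (nat_lit 5) (nat_lit 2) (nat_lit 4) (nat_lit 518) (nat_lit 414) (nat_lit 268)) (XT.lf (nat_lit 0) (nat_lit 825610214943) (nat_lit 76) (nat_lit 2080731673414) (nat_lit 76) (nat_lit 2060710090040) (nat_lit 1) (nat_lit 4) (nat_lit 2) (nat_lit 5) (nat_lit 2) (nat_lit 4) (nat_lit 519) (nat_lit 414) (nat_lit 267)))) (XT.nd (nat_lit 78) (nat_lit 0) (nat_lit 0) (XT.lf (nat_lit 0) (nat_lit 1141032911896) (nat_lit 76) (nat_lit 2116875710142) (nat_lit 76) (nat_lit 2096854108659) (nat_lit 1) (nat_lit 4) (nat_lit 2) (nat_lit 5) (nat_lit 2) (nat_lit 4) (nat_lit 520) (nat_lit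 414) (nat_lit 266)) (XT.nd (nat_lit 78) (nat_lit 0) (nat_lit 0) (XT.lf (nat_lit 0) (nat_lit 1481688990240) (nat_lit 76) (nat_lit 2155911494003) (nat_lit 76) (nat_lit 2135889875753) (nat_lit 1) (nat_lit 4) (nat_lit 2) (nat_lit 5) (nat_lit 2) (nat_lit 4) (nat_lit 521) (nat_lit 414) (nat_lit 265)) (XT.lf (nat_lit 0) (nat_lit 1849597152663) (nat_lit 76) (nat_lit 2198070348160) (nat_lit 76) (nat_lit 2178048714385) (nat_lit 1) (nat_lit 4) (nat_lit 2) (nat_lit 5) (nat_lit 2) (nat_lit 4) (nat_lit 522) (nat_lit 414) (nat_lit 264))))) (XT.nd (nat_lit 234) (nat_lit 0) (nat_lit 0) (XT.nd (nat_lit 78) (nat_lit 0) (nat_lit 0) (XT.lf (nat_lit 0) (nat_lit 2246937595681) (nat_lit 76) (nat_lit 2243602102860) (nat_lit 76) (nat_lit 2223580454710) (nat_lit 1) (nat_lit 4) (nat_lit 2) (nat_lit 5) (nat_lit 2) (nat_lit 4) (nat_lit 523) (nat_lit 414) (nat_lit 263)) (XT.nd (nat_lit 78) (nat_lit 0) (nat_lit 0) (XT.lf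 (nat_lit 0) (nat_lit 2676064929329) (nat_lit 76) (nat_lit 2292776575909) (nat_lit 76) (nat_lit 2272754914449) (nat_lit 1) (nat_lit 4) (nat_lit 2) (nat_lit 5) (nat_lit 2) (nat_lit 4) (nat_lit 524) (nat_lit 414) (nat_lit 262)) (XT.lf (nat_lit 0) (nat_lit 3139522130397) (nat_lit 76) (nat_lit 2345885171591) (nat_lit 76) (nat_lit 2325863497807) (nat_lit 1) (nat_lit 4) (nat_lit 2) (nat_lit 5) (nat_lit 2) (nat_lit 4) (nat_lit 525) (nat_lit 414) (nat_lit 261)))) (XT.nd (nat_lit 156) (nat_lit 0) (nat_lit 0) (XT.nd (nat_lit 78) (nat_lit 0) (nat_lit 0) (XT.lf (nat_lit 0) (nat_lit 3640055611929) (nat_lit 76) (nat_lit 2403242607512) (nat_lit 76) (nat_lit 2383220922316) (nat_lit 1) (nat_lit 4) (nat_lit 2) (nat_lit 5) (nat_lit 2) (nat_lit 4) (nat_lit 526) (nat_lit 414) (nat_lit 260)) (XT.lf (nat_lit 0) (nat_lit 4180631498261) (nat_lit 76) (nat_lit 2465188779587) (nat_lit 76) (nat_lit 2445167083825) (nat_lit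 1) (nat_lit 4) (nat_lit 2) (nat_lit 5) (nat_lit 2) (nat_lit 4) (nat_lit 527) (nat_lit 414) (nat_lit 259))) (XT.nd (nat_lit 78) (nat_lit 0) (nat_lit 0) (XT.lf (nat_lit 0) (nat_lit 4764453202051) (nat_lit 76) (nat_lit 2532090776243) (nat_lit 76) (nat_lit 2512069070697) (nat_lit 1) (nat_lit 4) (nat_lit 2) (nat_lit 5) (nat_lit 2) (nat_lit 4) (nat_lit 528) (nat_lit 414) (nat_lit 258)) (XT.lf (nat_lit 0) (nat_lit 5394980407471) (nat_lit 76) (nat_lit 2604345053756) (nat_lit 76) (nat_lit 2584323339153) (nat_lit 1) (nat_lit 4) (nat_lit 2) (nat_lit 5) (nat_lit 2) (nat_lit 4) (nat_lit 529) (nat_lit 414) (nat_lit 257))))))) (XT.nd (nat_lit 54132) (nat_lit 0) (nat_lit 4028) (XT.nd (nat_lit 53664) (nat_lit 0) (nat_lit 5700) (XT.nd (nat_lit 234) (nat_lit 0) (nat_lit 0) (XT.nd (nat_lit 78) (nat_lit 0) (nat_lit 0) (XT.lf (nat_lit 0) (nat_lit 6075949572034) (nat_lit 76) (nat_lit 2682379785624) (nat_lit 76)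 (nat_lit 2662358062633) (nat_lit 1) (nat_lit 4) (nat_lit 2) (nat_lit 5) (nat_lit 2) (nat_lit 4) (nat_lit 530) (nat_lit 414) (nat_lit 256)) (XT.nd (nat_lit 78) (nat_lit 0) (nat_lit 0) (XT.lf (nat_lit 0) (nat_lit 6811396068567) (nat_lit 76) (nat_lit 2766657399887) (nat_lit 76) (nat_lit 2746635669130) (nat_lit 1) (nat_lit 4) (nat_lit 2) (nat_lit 5) (nat_lit 2) (nat_lit 4) (nat_lit 531) (nat_lit 414) (nat_lit 255)) (XT.lf (nat_lit 0) (nat_lit 7605678098531) (nat_lit 76) (nat_lit 2857677319445) (nat_lit 76) (nat_lit 2837655581496) (nat_lit 1) (nat_lit 4) (nat_lit 2) (nat_lit 5) (nat_lit 2) (nat_lit 4) (nat_lit 532) (nat_lit 414) (nat_lit 254)))) (XT.nd (nat_lit 53274) (nat_lit 0) (nat_lit 6080) (XT.lf (nat_lit 0) (nat_lit 8463502518400) (nat_lit 76) (nat_lit 2955978921597) (nat_lit 76) (nat_lit 2935957176990) (nat_lit 1) (nat_lit 4) (nat_lit 2) (nat_lit 5) (nat_lit 2) (nat_lit 4) (nat_lit 533)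 (nat_lit 414) (nat_lit 253)) (XT.nd (nat_lit 78) (nat_lit 0) (nat_lit 0) (XT.lf (nat_lit 0) (nat_lit 4613728863) (nat_lit 532) (nat_lit 979041992) (nat_lit 532) (nat_lit 979041992) (nat_lit 81) (nat_lit 3) (nat_lit 88) (nat_lit 3) (nat_lit 88) (nat_lit 5) (nat_lit 415) (nat_lit 415) (nat_lit 370)) (XT.lf (nat_lit 76) (nat_lit 4802055345) (nat_lit 0) (nat_lit 5281788510) (nat_lit 532) (nat_lit 3546444431) (nat_lit 82) (nat_lit 5) (nat_lit 81) (nat_lit 3) (nat_lit 88) (nat_lit 5) (nat_lit 416) (nat_lit 415) (nat_lit 369))))) (XT.nd (nat_lit 234) (nat_lit 456) (nat_lit 0) (XT.nd (nat_lit 78) (nat_lit 0) (nat_lit 0) (XT.lf (nat_lit 0) (nat_lit 11052677867) (nat_lit 456) (nat_lit 1989519150) (nat_lit 532) (nat_lit 1110181853) (nat_lit 82) (nat_lit 5) (nat_lit 88) (nat_lit 5) (nat_lit 89) (nat_lit 5) (nat_lit 417) (nat_lit 415) (nat_lit 368)) (XT.nd (nat_lit 78) (nat_lit 0) (nat_lit 0) (XT.lf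 (nat_lit 76) (nat_lit 5512085208) (nat_lit 0) (nat_lit 6822143879) (nat_lit 532) (nat_lit 2363199984) (nat_lit 83) (nat_lit 5) (nat_lit 82) (nat_lit 5) (nat_lit 89) (nat_lit 5) (nat_lit 418) (nat_lit 415) (nat_lit 367)) (XT.lf (nat_lit 76) (nat_lit 13704785635) (nat_lit 0) (nat_lit 35396623) (nat_lit 532) (nat_lit 1544159331) (nat_lit 83) (nat_lit 5) (nat_lit 82) (nat_lit 5) (nat_lit 89) (nat_lit 5) (nat_lit 419) (nat_lit 415) (nat_lit 366)))) (XT.nd (nat_lit 78) (nat_lit 532) (nat_lit 0) (XT.lf (nat_lit 76) (nat_lit 6774997770) (nat_lit 0) (nat_lit 8792100608) (nat_lit 532) (nat_lit 326437688) (nat_lit 84) (nat_lit 5) (nat_lit 83) (nat_lit 5) (nat_lit 90) (nat_lit 5) (nat_lit 420) (nat_lit 415) (nat_lit 365)) (XT.nd (nat_lit 78) (nat_lit 0) (nat_lit 76) (XT.lf (nat_lit 0) (nat_lit 955522058) (nat_lit 532) (nat_lit 710210496) (nat_lit 608) (nat_lit 14882535713) (nat_lit 76) (nat_lit 5)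 (nat_lit 83) (nat_lit 5) (nat_lit 84) (nat_lit 5) (nat_lit 421) (nat_lit 415) (nat_lit 364)) (XT.lf (nat_lit 0) (nat_lit 2657586794) (nat_lit 532) (nat_lit 8611678615) (nat_lit 76) (nat_lit 5958626847) (nat_lit 77) (nat_lit 5) (nat_lit 84) (nat_lit 5) (nat_lit 78) (nat_lit 5) (nat_lit 422) (nat_lit 415) (nat_lit 363)))))) (XT.nd (nat_lit 468) (nat_lit 836) (nat_lit 0) (XT.nd (nat_lit 234) (nat_lit 228) (nat_lit 0) (XT.nd (nat_lit 78) (nat_lit 228) (nat_lit 0) (XT.lf (nat_lit 0) (nat_lit 738067350) (nat_lit 456) (nat_lit 3813430883) (nat_lit 532) (nat_lit 13405939211) (nat_lit 71) (nat_lit 5) (nat_lit 77) (nat_lit 5) (nat_lit 78) (nat_lit 5) (nat_lit 423) (nat_lit 415) (nat_lit 362)) (XT.nd (nat_lit 78) (nat_lit 228) (nat_lit 0) (XT.lf (nat_lit 0) (nat_lit 6916510999) (nat_lit 532) (nat_lit 7534248519) (nat_lit 76) (nat_lit 4269025029) (nat_lit 71) (nat_lit 5) (nat_lit 78) (nat_lit 5) (nat_lit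 72) (nat_lit 5) (nat_lit 424) (nat_lit 415) (nat_lit 361)) (XT.lf (nat_lit 0) (nat_lit 2950891698) (nat_lit 228) (nat_lit 6667694029) (nat_lit 304) (nat_lit 9912709793) (nat_lit 68) (nat_lit 5) (nat_lit 71) (nat_lit 5) (nat_lit 72) (nat_lit 5) (nat_lit 425) (nat_lit 415) (nat_lit 360)))) (XT.nd (nat_lit 78) (nat_lit 228) (nat_lit 0) (XT.lf (nat_lit 0) (nat_lit 12768870841) (nat_lit 304) (nat_lit 5759488887) (nat_lit 76) (nat_lit 1860808695) (nat_lit 68) (nat_lit 5) (nat_lit 72) (nat_lit 5) (nat_lit 69) (nat_lit 5) (nat_lit 426) (nat_lit 415) (nat_lit 359)) (XT.nd (nat_lit 78) (nat_lit 0) (nat_lit 0) (XT.lf (nat_lit 0) (nat_lit 6033107256) (nat_lit 228) (nat_lit 10436812809) (nat_lit 304) (nat_lit 4821856056) (nat_lit 65) (nat_lit 5) (nat_lit 68) (nat_lit 5) (nat_lit 69) (nat_lit 5) (nat_lit 427) (nat_lit 415) (nat_lit 358)) (XT.lf (nat_lit 0) (nat_lit 19074625037) (nat_lit 228) (nat_lit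 1531278544) (nat_lit 304) (nat_lit 1649584776) (nat_lit 65) (nat_lit 5) (nat_lit 68) (nat_lit 5) (nat_lit 69) (nat_lit 5) (nat_lit 428) (nat_lit 415) (nat_lit 357))))) (XT.nd (nat_lit 234) (nat_lit 380) (nat_lit 0) (XT.nd (nat_lit 78) (nat_lit 228) (nat_lit 0) (XT.lf (nat_lit 0) (nat_lit 2119935674) (nat_lit 228) (nat_lit 13161293787) (nat_lit 76) (nat_lit 7977066880) (nat_lit 62) (nat_lit 5) (nat_lit 65) (nat_lit 5) (nat_lit 63) (nat_lit 5) (nat_lit 429) (nat_lit 415) (nat_lit 356)) (XT.nd (nat_lit 78) (nat_lit 0) (nat_lit 0) (XT.lf (nat_lit 0) (nat_lit 185994086) (nat_lit 228) (nat_lit 6032399815) (nat_lit 304) (nat_lit 18110190764) (nat_lit 59) (nat_lit 5) (nat_lit 62) (nat_lit 5) (nat_lit 63) (nat_lit 5) (nat_lit 430) (nat_lit 415) (nat_lit 355)) (XT.lf (nat_lit 0) (nat_lit 11092713458) (nat_lit 304) (nat_lit 10233318510) (nat_lit 76) (nat_lit 4122628217) (nat_lit 59) (nat_lit 5) (nat_lit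 63) (nat_lit 5) (nat_lit 60) (nat_lit 5) (nat_lit 431) (nat_lit 415) (nat_lit 354)))) (XT.nd (nat_lit 156) (nat_lit 228) (nat_lit 0) (XT.nd (nat_lit 78) (nat_lit 0) (nat_lit 0) (XT.lf (nat_lit 0) (nat_lit 4853823722) (nat_lit 152) (nat_lit 11761422142) (nat_lit 228) (nat_lit 10022437188) (nat_lit 57) (nat_lit 5) (nat_lit 59) (nat_lit 5) (nat_lit 60) (nat_lit 5) (nat_lit 432) (nat_lit 415) (nat_lit 353)) (XT.lf (nat_lit 0) (nat_lit 21709452900) (nat_lit 152) (nat_lit 1135402349) (nat_lit 228) (nat_lit 5055753037) (nat_lit 57) (nat_lit 5) (nat_lit 59) (nat_lit 5) (nat_lit 60) (nat_lit 5) (nat_lit 433) (nat_lit 415) (nat_lit 352))) (XT.nd (nat_lit 78) (nat_lit 0) (nat_lit 0) (XT.lf (nat_lit 0) (nat_lit 803684920) (nat_lit 228) (nat_lit 18318092798) (nat_lit 76) (nat_lit 10101331667) (nat_lit 54) (nat_lit 5) (nat_lit 57) (nat_lit 5) (nat_lit 55) (nat_lit 5) (nat_lit 434) (nat_lit 415) (nat_lit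 351)) (XT.lf (nat_lit 0) (nat_lit 7048520529) (nat_lit 228) (nat_lit 1102190972) (nat_lit 76) (nat_lit 22475012820) (nat_lit 54) (nat_lit 5) (nat_lit 57) (nat_lit 5) (nat_lit 55) (nat_lit 5) (nat_lit 435) (nat_lit 415) (nat_lit 350))))))))
noncomputable def xc131 : XT := (XT.nd (nat_lit 1950) (nat_lit 1368) (nat_lit 0) (XT.nd (nat_lit 936) (nat_lit 836) (nat_lit 0) (XT.nd (nat_lit 468) (nat_lit 532) (nat_lit 0) (XT.nd (nat_lit 234) (nat_lit 304) (nat_lit 0) (XT.nd (nat_lit 78) (nat_lit 152) (nat_lit 0) (XT.lf (nat_lit 0) (nat_lit 14323170151) (nat_lit 228) (nat_lit 13813991493) (nat_lit 76) (nat_lit 3960970463) (nat_lit 52) (nat_lit 5) (nat_lit 55) (nat_lit 5) (nat_lit 53) (nat_lit 5) (nat_lit 436) (nat_lit 415) (nat_lit 349)) (XT.nd (nat_lit 78) (nat_lit 0) (nat_lit 0) (XT.lf (nat_lit 0) (nat_lit 5649311284) (nat_lit 152) (nat_lit 16896914489) (nat_lit 228) (nat_lit 11112793716) (nat_lit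 50) (nat_lit 5) (nat_lit 52) (nat_lit 5) (nat_lit 53) (nat_lit 5) (nat_lit 437) (nat_lit 415) (nat_lit 348)) (XT.lf (nat_lit 0) (nat_lit 27436831459) (nat_lit 152) (nat_lit 4356385118) (nat_lit 228) (nat_lit 3522275593) (nat_lit 50) (nat_lit 5) (nat_lit 52) (nat_lit 5) (nat_lit 53) (nat_lit 5) (nat_lit 438) (nat_lit 415) (nat_lit 347)))) (XT.nd (nat_lit 78) (nat_lit 152) (nat_lit 0) (XT.lf (nat_lit 0) (nat_lit 5010980851) (nat_lit 152) (nat_lit 22845413524) (nat_lit 76) (nat_lit 9193543314) (nat_lit 48) (nat_lit 5) (nat_lit 50) (nat_lit 5) (nat_lit 49) (nat_lit 5) (nat_lit 439) (nat_lit 415) (nat_lit 346)) (XT.nd (nat_lit 78) (nat_lit 152) (nat_lit 0) (XT.lf (nat_lit 0) (nat_lit 14359982980) (nat_lit 152) (nat_lit 631631563) (nat_lit 76) (nat_lit 23898336174) (nat_lit 48) (nat_lit 5) (nat_lit 50) (nat_lit 5) (nat_lit 49) (nat_lit 5) (nat_lit 440) (nat_lit 415) (nat_lit 345)) (XT.lf (nat_lit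 0) (nat_lit 24571842990) (nat_lit 152) (nat_lit 466029497) (nat_lit 228) (nat_lit 15792816076) (nat_lit 46) (nat_lit 5) (nat_lit 48) (nat_lit 5) (nat_lit 49) (nat_lit 5) (nat_lit 441) (nat_lit 415) (nat_lit 344))))) (XT.nd (nat_lit 234) (nat_lit 228) (nat_lit 0) (XT.nd (nat_lit 78) (nat_lit 228) (nat_lit 0) (XT.lf (nat_lit 0) (nat_lit 8967486989) (nat_lit 76) (nat_lit 28192180165) (nat_lit 152) (nat_lit 5719845431) (nat_lit 45) (nat_lit 5) (nat_lit 46) (nat_lit 5) (nat_lit 47) (nat_lit 4) (nat_lit 442) (nat_lit 415) (nat_lit 343)) (XT.nd (nat_lit 78) (nat_lit 152) (nat_lit 0) (XT.lf (nat_lit 0) (nat_lit 5359380112) (nat_lit 152) (nat_lit 8084697003) (nat_lit 76) (nat_lit 31601561317) (nat_lit 44) (nat_lit 5) (nat_lit 46) (nat_lit 5) (nat_lit 45) (nat_lit 5) (nat_lit 443) (nat_lit 415) (nat_lit 342)) (XT.lf (nat_lit 0) (nat_lit 17580621604) (nat_lit 228) (nat_lit 26731379671) (nat_lit 76)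 (nat_lit 3015992677) (nat_lit 42) (nat_lit 5) (nat_lit 45) (nat_lit 5) (nat_lit 43) (nat_lit 4) (nat_lit 444) (nat_lit 415) (nat_lit 341)))) (XT.nd (nat_lit 78) (nat_lit 152) (nat_lit 0) (XT.lf (nat_lit 0) (nat_lit 1985581065) (nat_lit 76) (nat_lit 29408876764) (nat_lit 152) (nat_lit 18349289235) (nat_lit 41) (nat_lit 5) (nat_lit 42) (nat_lit 5) (nat_lit 43) (nat_lit 4) (nat_lit 445) (nat_lit 415) (nat_lit 340)) (XT.nd (nat_lit 78) (nat_lit 152) (nat_lit 0) (XT.lf (nat_lit 0) (nat_lit 34504767285) (nat_lit 76) (nat_lit 12530956450) (nat_lit 152) (nat_lit 5259251595) (nat_lit 41) (nat_lit 5) (nat_lit 42) (nat_lit 5) (nat_lit 43) (nat_lit 4) (nat_lit 446) (nat_lit 415) (nat_lit 339)) (XT.lf (nat_lit 0) (nat_lit 8940799469) (nat_lit 152) (nat_lit 40054155617) (nat_lit 76) (nat_lit 5997712254) (nat_lit 39) (nat_lit 5) (nat_lit 41) (nat_lit 5) (nat_lit 40) (nat_lit 4) (nat_lit 447) (nat_lit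 415) (nat_lit 338)))))) (XT.nd (nat_lit 468) (nat_lit 532) (nat_lit 0) (XT.nd (nat_lit 234) (nat_lit 152) (nat_lit 0) (XT.nd (nat_lit 78) (nat_lit 152) (nat_lit 0) (XT.lf (nat_lit 0) (nat_lit 24809219449) (nat_lit 152) (nat_lit 7059469210) (nat_lit 76) (nat_lit 25961238233) (nat_lit 39) (nat_lit 5) (nat_lit 41) (nat_lit 5) (nat_lit 40) (nat_lit 4) (nat_lit 448) (nat_lit 415) (nat_lit 337)) (XT.nd (nat_lit 78) (nat_lit 76) (nat_lit 0) (XT.lf (nat_lit 0) (nat_lit 30065099570) (nat_lit 76) (nat_lit 12597646159) (nat_lit 152) (nat_lit 18174171397) (nat_lit 38) (nat_lit 5) (nat_lit 39) (nat_lit 5) (nat_lit 40) (nat_lit 4) (nat_lit 449) (nat_lit 415) (nat_lit 336)) (XT.lf (nat_lit 0) (nat_lit 6606216326) (nat_lit 76) (nat_lit 55885471487) (nat_lit 76) (nat_lit 1549008564) (nat_lit 37) (nat_lit 4) (nat_lit 38) (nat_lit 5) (nat_lit 38) (nat_lit 4) (nat_lit 450) (nat_lit 415) (nat_lit 335)))) (XT.nd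 (nat_lit 78) (nat_lit 76) (nat_lit 0) (XT.lf (nat_lit 0) (nat_lit 16768571179) (nat_lit 152) (nat_lit 19466381173) (nat_lit 76) (nat_lit 31139611997) (nat_lit 36) (nat_lit 5) (nat_lit 38) (nat_lit 5) (nat_lit 37) (nat_lit 4) (nat_lit 451) (nat_lit 415) (nat_lit 334)) (XT.nd (nat_lit 78) (nat_lit 0) (nat_lit 0) (XT.lf (nat_lit 0) (nat_lit 22617584988) (nat_lit 76) (nat_lit 14387466674) (nat_lit 152) (nat_lit 33923897285) (nat_lit 35) (nat_lit 5) (nat_lit 36) (nat_lit 5) (nat_lit 37) (nat_lit 4) (nat_lit 452) (nat_lit 415) (nat_lit 333)) (XT.lf (nat_lit 0) (nat_lit 59621257325) (nat_lit 152) (nat_lit 5797869886) (nat_lit 0) (nat_lit 9287692927) (nat_lit 35) (nat_lit 5) (nat_lit 37) (nat_lit 4) (nat_lit 35) (nat_lit 4) (nat_lit 453) (nat_lit 415) (nat_lit 332))))) (XT.nd (nat_lit 234) (nat_lit 304) (nat_lit 0) (XT.nd (nat_lit 78) (nat_lit 76) (nat_lit 0) (XT.lf (nat_lit 0) (nat_lit 6405728138)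 (nat_lit 152) (nat_lit 37015931657) (nat_lit 76) (nat_lit 35242420950) (nat_lit 33) (nat_lit 5) (nat_lit 35) (nat_lit 5) (nat_lit 34) (nat_lit 4) (nat_lit 454) (nat_lit 415) (nat_lit 331)) (XT.nd (nat_lit 78) (nat_lit 0) (nat_lit 0) (XT.lf (nat_lit 0) (nat_lit 10407087486) (nat_lit 76) (nat_lit 18800965466) (nat_lit 152) (nat_lit 53665983487) (nat_lit 32) (nat_lit 5) (nat_lit 33) (nat_lit 5) (nat_lit 34) (nat_lit 4) (nat_lit 455) (nat_lit 415) (nat_lit 330)) (XT.lf (nat_lit 0) (nat_lit 55054123020) (nat_lit 152) (nat_lit 23836319075) (nat_lit 0) (nat_lit 8432782022) (nat_lit 32) (nat_lit 5) (nat_lit 34) (nat_lit 4) (nat_lit 32) (nat_lit 4) (nat_lit 456) (nat_lit 415) (nat_lit 329)))) (XT.nd (nat_lit 156) (nat_lit 152) (nat_lit 0) (XT.nd (nat_lit 78) (nat_lit 76) (nat_lit 0) (XT.lf (nat_lit 0) (nat_lit 29669549466) (nat_lit 76) (nat_lit 54494529917) (nat_lit 76) (nat_lit 7868571616) (nat_lit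 31) (nat_lit 4) (nat_lit 32) (nat_lit 5) (nat_lit 32) (nat_lit 4) (nat_lit 457) (nat_lit 415) (nat_lit 328)) (XT.lf (nat_lit 0) (nat_lit 18222339657) (nat_lit 152) (nat_lit 8727767092) (nat_lit 76) (nat_lit 70080123524) (nat_lit 30) (nat_lit 5) (nat_lit 32) (nat_lit 5) (nat_lit 31) (nat_lit 4) (nat_lit 458) (nat_lit 415) (nat_lit 327))) (XT.nd (nat_lit 78) (nat_lit 76) (nat_lit 0) (XT.lf (nat_lit 0) (nat_lit 47314947555) (nat_lit 152) (nat_lit 50854015788) (nat_lit 0) (nat_lit 4135139987) (nat_lit 29) (nat_lit 5) (nat_lit 31) (nat_lit 4) (nat_lit 29) (nat_lit 4) (nat_lit 459) (nat_lit 415) (nat_lit 326)) (XT.lf (nat_lit 0) (nat_lit 8675204318) (nat_lit 76) (nat_lit 71208011682) (nat_lit 76) (nat_lit 28024810260) (nat_lit 28) (nat_lit 4) (nat_lit 29) (nat_lit 5) (nat_lit 29) (nat_lit 4) (nat_lit 460) (nat_lit 415) (nat_lit 325))))))) (XT.nd (nat_lit 936) (nat_lit 684) (nat_lit 0) (XT.nd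 (nat_lit 468) (nat_lit 304) (nat_lit 0) (XT.nd (nat_lit 234) (nat_lit 228) (nat_lit 0) (XT.nd (nat_lit 78) (nat_lit 76) (nat_lit 0) (XT.lf (nat_lit 0) (nat_lit 2463169405) (nat_lit 152) (nat_lit 38062951517) (nat_lit 76) (nat_lit 73318324476) (nat_lit 27) (nat_lit 5) (nat_lit 29) (nat_lit 5) (nat_lit 28) (nat_lit 4) (nat_lit 461) (nat_lit 415) (nat_lit 324)) (XT.nd (nat_lit 78) (nat_lit 0) (nat_lit 0) (XT.lf (nat_lit 0) (nat_lit 28698670655) (nat_lit 76) (nat_lit 5862831372) (nat_lit 152) (nat_lit 85581212230) (nat_lit 26) (nat_lit 5) (nat_lit 27) (nat_lit 5) (nat_lit 28) (nat_lit 4) (nat_lit 462) (nat_lit 415) (nat_lit 323)) (XT.lf (nat_lit 0) (nat_lit 71049986110) (nat_lit 152) (nat_lit 24691633933) (nat_lit 0) (nat_lit 31057441929) (nat_lit 26) (nat_lit 5) (nat_lit 28) (nat_lit 4) (nat_lit 26) (nat_lit 4) (nat_lit 463) (nat_lit 415) (nat_lit 322)))) (XT.nd (nat_lit 78) (nat_lit 152)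 (nat_lit 0) (XT.lf (nat_lit 0) (nat_lit 49727394480) (nat_lit 76) (nat_lit 62073937252) (nat_lit 76) (nat_lit 22079083271) (nat_lit 25) (nat_lit 4) (nat_lit 26) (nat_lit 5) (nat_lit 26) (nat_lit 4) (nat_lit 464) (nat_lit 415) (nat_lit 321)) (XT.nd (nat_lit 78) (nat_lit 76) (nat_lit 0) (XT.lf (nat_lit 0) (nat_lit 14258153759) (nat_lit 152) (nat_lit 10340032865) (nat_lit 76) (nat_lit 116847549216) (nat_lit 24) (nat_lit 5) (nat_lit 26) (nat_lit 5) (nat_lit 25) (nat_lit 4) (nat_lit 465) (nat_lit 415) (nat_lit 320)) (XT.lf (nat_lit 0) (nat_lit 54488942790) (nat_lit 152) (nat_lit 77454250967) (nat_lit 0) (nat_lit 17452856709) (nat_lit 23) (nat_lit 5) (nat_lit 25) (nat_lit 4) (nat_lit 23) (nat_lit 4) (nat_lit 466) (nat_lit 415) (nat_lit 319))))) (XT.nd (nat_lit 234) (nat_lit 76) (nat_lit 0) (XT.nd (nat_lit 78) (nat_lit 152) (nat_lit 0) (XT.lf (nat_lit 0) (nat_lit 2926357057) (nat_lit 76) (nat_lit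 96007098163) (nat_lit 76) (nat_lit 58969314310) (nat_lit 22) (nat_lit 4) (nat_lit 23) (nat_lit 5) (nat_lit 23) (nat_lit 4) (nat_lit 467) (nat_lit 415) (nat_lit 318)) (XT.nd (nat_lit 78) (nat_lit 152) (nat_lit 0) (XT.lf (nat_lit 0) (nat_lit 94134287663) (nat_lit 76) (nat_lit 54912996963) (nat_lit 76) (nat_lit 17873641098) (nat_lit 22) (nat_lit 4) (nat_lit 23) (nat_lit 5) (nat_lit 23) (nat_lit 4) (nat_lit 468) (nat_lit 415) (nat_lit 317)) (XT.lf (nat_lit 0) (nat_lit 16140552292) (nat_lit 76) (nat_lit 9427411036) (nat_lit 152) (nat_lit 151010814536) (nat_lit 20) (nat_lit 5) (nat_lit 21) (nat_lit 5) (nat_lit 22) (nat_lit 4) (nat_lit 469) (nat_lit 415) (nat_lit 316)))) (XT.nd (nat_lit 78) (nat_lit 76) (nat_lit 0) (XT.lf (nat_lit 0) (nat_lit 74512006322) (nat_lit 152) (nat_lit 72006981011) (nat_lit 0) (nat_lit 40213710787) (nat_lit 20) (nat_lit 5) (nat_lit 22) (nat_lit 4) (nat_lit 20) (nat_lit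 4) (nat_lit 470) (nat_lit 415) (nat_lit 315)) (XT.nd (nat_lit 78) (nat_lit 0) (nat_lit 0) (XT.lf (nat_lit 0) (nat_lit 24470962986) (nat_lit 76) (nat_lit 103730513877) (nat_lit 76) (nat_lit 69431062867) (nat_lit 19) (nat_lit 4) (nat_lit 20) (nat_lit 5) (nat_lit 20) (nat_lit 4) (nat_lit 471) (nat_lit 415) (nat_lit 314)) (XT.lf (nat_lit 0) (nat_lit 132755353294) (nat_lit 76) (nat_lit 55396152148) (nat_lit 76) (nat_lit 21095631254) (nat_lit 19) (nat_lit 4) (nat_lit 20) (nat_lit 5) (nat_lit 20) (nat_lit 4) (nat_lit 472) (nat_lit 415) (nat_lit 313)))))) (XT.nd (nat_lit 468) (nat_lit 304) (nat_lit 0) (XT.nd (nat_lit 234) (nat_lit 152) (nat_lit 0) (XT.nd (nat_lit 78) (nat_lit 76) (nat_lit 0) (XT.lf (nat_lit 0) (nat_lit 28586964124) (nat_lit 76) (nat_lit 1647879939) (nat_lit 152) (nat_lit 191441465056) (nat_lit 17) (nat_lit 5) (nat_lit 18) (nat_lit 5) (nat_lit 19) (nat_lit 4) (nat_lit 473) (nat_lit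 415) (nat_lit 312)) (XT.nd (nat_lit 78) (nat_lit 76) (nat_lit 0) (XT.lf (nat_lit 0) (nat_lit 88030995877) (nat_lit 152) (nat_lit 90475580642) (nat_lit 0) (nat_lit 56269487745) (nat_lit 17) (nat_lit 5) (nat_lit 19) (nat_lit 4) (nat_lit 17) (nat_lit 4) (nat_lit 474) (nat_lit 415) (nat_lit 311)) (XT.lf (nat_lit 0) (nat_lit 21367289503) (nat_lit 76) (nat_lit 129637254286) (nat_lit 76) (nat_lit 97874959757) (nat_lit 16) (nat_lit 4) (nat_lit 17) (nat_lit 5) (nat_lit 17) (nat_lit 4) (nat_lit 475) (nat_lit 415) (nat_lit 310)))) (XT.nd (nat_lit 78) (nat_lit 152) (nat_lit 0) (XT.lf (nat_lit 0) (nat_lit 147297097774) (nat_lit 76) (nat_lit 74189737083) (nat_lit 76) (nat_lit 42426714408) (nat_lit 16) (nat_lit 4) (nat_lit 17) (nat_lit 5) (nat_lit 17) (nat_lit 4) (nat_lit 476) (nat_lit 415) (nat_lit 309)) (XT.nd (nat_lit 78) (nat_lit 0) (nat_lit 0) (XT.lf (nat_lit 0) (nat_lit 2869016385) (nat_lit 76)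 (nat_lit 13781326532) (nat_lit 152) (nat_lit 263461088367) (nat_lit 14) (nat_lit 5) (nat_lit 15) (nat_lit 5) (nat_lit 16) (nat_lit 4) (nat_lit 477) (nat_lit 415) (nat_lit 308)) (XT.lf (nat_lit 0) (nat_lit 82667594300) (nat_lit 152) (nat_lit 161232710437) (nat_lit 0) (nat_lit 53256185827) (nat_lit 14) (nat_lit 5) (nat_lit 16) (nat_lit 4) (nat_lit 14) (nat_lit 4) (nat_lit 478) (nat_lit 415) (nat_lit 307))))) (XT.nd (nat_lit 234) (nat_lit 228) (nat_lit 0) (XT.nd (nat_lit 78) (nat_lit 76) (nat_lit 0) (XT.lf (nat_lit 0) (nat_lit 154321633263) (nat_lit 152) (nat_lit 36305399173) (nat_lit 0) (nat_lit 124909689582) (nat_lit 14) (nat_lit 5) (nat_lit 16) (nat_lit 4) (nat_lit 14) (nat_lit 4) (nat_lit 479) (nat_lit 415) (nat_lit 306)) (XT.nd (nat_lit 78) (nat_lit 0) (nat_lit 0) (XT.lf (nat_lit 0) (nat_lit 103803964850) (nat_lit 76) (nat_lit 130398158101) (nat_lit 76) (nat_lit 100985718856) (nat_lit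 13) (nat_lit 4) (nat_lit 14) (nat_lit 5) (nat_lit 14) (nat_lit 4) (nat_lit 480) (nat_lit 415) (nat_lit 305)) (XT.lf (nat_lit 0) (nat_lit 257182093544) (nat_lit 76) (nat_lit 64281313664) (nat_lit 76) (nat_lit 34868415563) (nat_lit 13) (nat_lit 4) (nat_lit 14) (nat_lit 5) (nat_lit 14) (nat_lit 4) (nat_lit 481) (nat_lit 415) (nat_lit 304)))) (XT.nd (nat_lit 156) (nat_lit 76) (nat_lit 0) (XT.nd (nat_lit 78) (nat_lit 0) (nat_lit 0) (XT.lf (nat_lit 0) (nat_lit 36013586193) (nat_lit 152) (nat_lit 334200159920) (nat_lit 0) (nat_lit 8779027891) (nat_lit 11) (nat_lit 5) (nat_lit 13) (nat_lit 4) (nat_lit 11) (nat_lit 4) (nat_lit 482) (nat_lit 415) (nat_lit 303)) (XT.lf (nat_lit 0) (nat_lit 115131155219) (nat_lit 152) (nat_lit 200010855043) (nat_lit 0) (nat_lit 87896232664) (nat_lit 11) (nat_lit 5) (nat_lit 13) (nat_lit 4) (nat_lit 11) (nat_lit 4) (nat_lit 483) (nat_lit 415) (nat_lit 302))) (XT.nd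 (nat_lit 78) (nat_lit 76) (nat_lit 0) (XT.lf (nat_lit 0) (nat_lit 200576110951) (nat_lit 152) (nat_lit 55090548810) (nat_lit 0) (nat_lit 173340851123) (nat_lit 11) (nat_lit 5) (nat_lit 13) (nat_lit 4) (nat_lit 11) (nat_lit 4) (nat_lit 484) (nat_lit 415) (nat_lit 301)) (XT.lf (nat_lit 0) (nat_lit 106760119327) (nat_lit 76) (nat_lit 188662257977) (nat_lit 76) (nat_lit 161426685860) (nat_lit 10) (nat_lit 4) (nat_lit 11) (nat_lit 5) (nat_lit 11) (nat_lit 4) (nat_lit 485) (nat_lit 415) (nat_lit 300))))))))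
noncomputable def xc132 : XT := (XT.nd (nat_lit 1950) (nat_lit 76) (nat_lit 0) (XT.nd (nat_lit 936) (nat_lit 228) (nat_lit 0) (XT.nd (nat_lit 468) (nat_lit 152) (nat_lit 0) (XT.nd (nat_lit 234) (nat_lit 76) (nat_lit 0) (XT.nd (nat_lit 78) (nat_lit 152) (nat_lit 0) (XT.lf (nat_lit 0) (nat_lit 284688150215) (nat_lit 76) (nat_lit 114672647250) (nat_lit 76) (nat_lit 87436785976) (nat_lit 10) (nat_lit 4) (nat_lit 11) (nat_lit 5) (nat_lit 11) (nat_lit 4) (nat_lit 486) (nat_lit 415) (nat_lit 299)) (XT.nd (nat_lit 78) (nat_lit 152) (nat_lit 0) (XT.lf (nat_lit 0) (nat_lit 476846961513) (nat_lit 76) (nat_lit 34765643861) (nat_lit 76) (nat_lit 7529514849) (nat_lit 10) (nat_lit 4) (nat_lit 11) (nat_lit 5) (nat_lit 11) (nat_lit 4) (nat_lit 487) (nat_lit 415) (nat_lit 298)) (XT.lf (nat_lit 0) (nat_lit 79452117222) (nat_lit 152) (nat_lit 419867523503) (nat_lit 0) (nat_lit 54233249707) (nat_lit 8) (nat_lit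 5) (nat_lit 10) (nat_lit 4) (nat_lit 8) (nat_lit 4) (nat_lit 488) (nat_lit 415) (nat_lit 297)))) (XT.nd (nat_lit 78) (nat_lit 76) (nat_lit 0) (XT.lf (nat_lit 0) (nat_lit 175073356186) (nat_lit 152) (nat_lit 265606214950) (nat_lit 0) (nat_lit 149854276132) (nat_lit 8) (nat_lit 5) (nat_lit 10) (nat_lit 4) (nat_lit 8) (nat_lit 4) (nat_lit 489) (nat_lit 415) (nat_lit 296)) (XT.nd (nat_lit 78) (nat_lit 76) (nat_lit 0) (XT.lf (nat_lit 0) (nat_lit 278342813125) (nat_lit 152) (nat_lit 99007049751) (nat_lit 0) (nat_lit 253123536276) (nat_lit 8) (nat_lit 5) (nat_lit 10) (nat_lit 4) (nat_lit 8) (nat_lit 4) (nat_lit 490) (nat_lit 415) (nat_lit 295)) (XT.lf (nat_lit 0) (nat_lit 85178184150) (nat_lit 76) (nat_lit 306742808420) (nat_lit 76) (nat_lit 281523349353) (nat_lit 7) (nat_lit 4) (nat_lit 8) (nat_lit 5) (nat_lit 8) (nat_lit 4) (nat_lit 491) (nat_lit 415) (nat_lit 294))))) (XT.nd (nat_lit 234) (nat_lit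 152) (nat_lit 0) (XT.nd (nat_lit 78) (nat_lit 0) (nat_lit 0) (XT.lf (nat_lit 0) (nat_lit 289726104604) (nat_lit 76) (nat_lit 227565013965) (nat_lit 76) (nat_lit 202345386178) (nat_lit 7) (nat_lit 4) (nat_lit 8) (nat_lit 5) (nat_lit 8) (nat_lit 4) (nat_lit 492) (nat_lit 415) (nat_lit 293)) (XT.nd (nat_lit 78) (nat_lit 0) (nat_lit 0) (XT.lf (nat_lit 0) (nat_lit 510635311650) (nat_lit 76) (nat_lit 142054305963) (nat_lit 76) (nat_lit 116834521954) (nat_lit 7) (nat_lit 4) (nat_lit 8) (nat_lit 5) (nat_lit 8) (nat_lit 4) (nat_lit 493) (nat_lit 415) (nat_lit 292)) (XT.lf (nat_lit 0) (nat_lit 749214896886) (nat_lit 76) (nat_lit 49703954294) (nat_lit 76) (nat_lit 24484025634) (nat_lit 7) (nat_lit 4) (nat_lit 8) (nat_lit 5) (nat_lit 8) (nat_lit 4) (nat_lit 494) (nat_lit 415) (nat_lit 291)))) (XT.nd (nat_lit 78) (nat_lit 0) (nat_lit 0) (XT.lf (nat_lit 0) (nat_lit 75946388164) (nat_lit 152) (nat_lit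 752549743653) (nat_lit 0) (nat_lit 52594478354) (nat_lit 5) (nat_lit 5) (nat_lit 7) (nat_lit 4) (nat_lit 5) (nat_lit 4) (nat_lit 495) (nat_lit 415) (nat_lit 290)) (XT.nd (nat_lit 78) (nat_lit 0) (nat_lit 0) (XT.lf (nat_lit 0) (nat_lit 186459503815) (nat_lit 152) (nat_lit 593505819948) (nat_lit 0) (nat_lit 163107479176) (nat_lit 5) (nat_lit 5) (nat_lit 7) (nat_lit 4) (nat_lit 5) (nat_lit 4) (nat_lit 496) (nat_lit 415) (nat_lit 289)) (XT.lf (nat_lit 0) (nat_lit 305812662163) (nat_lit 152) (nat_lit 421740458294) (nat_lit 0) (nat_lit 282460531202) (nat_lit 5) (nat_lit 5) (nat_lit 7) (nat_lit 4) (nat_lit 5) (nat_lit 4) (nat_lit 497) (nat_lit 415) (nat_lit 288)))))) (XT.nd (nat_lit 468) (nat_lit 152) (nat_lit 0) (XT.nd (nat_lit 234) (nat_lit 0) (nat_lit 0) (XT.nd (nat_lit 78) (nat_lit 76) (nat_lit 0) (XT.lf (nat_lit 0) (nat_lit 434713141184) (nat_lit 152) (nat_lit 236235789880) (nat_lit 0) (nat_lit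 411360911777) (nat_lit 5) (nat_lit 5) (nat_lit 7) (nat_lit 4) (nat_lit 5) (nat_lit 4) (nat_lit 498) (nat_lit 415) (nat_lit 287)) (XT.nd (nat_lit 78) (nat_lit 76) (nat_lit 0) (XT.lf (nat_lit 0) (nat_lit 573924795568) (nat_lit 152) (nat_lit 35892527784) (nat_lit 0) (nat_lit 550572475007) (nat_lit 5) (nat_lit 5) (nat_lit 7) (nat_lit 4) (nat_lit 5) (nat_lit 4) (nat_lit 499) (nat_lit 415) (nat_lit 286)) (XT.lf (nat_lit 0) (nat_lit 189980122475) (nat_lit 76) (nat_lit 538861487306) (nat_lit 76) (nat_lit 515509082343) (nat_lit 4) (nat_lit 4) (nat_lit 5) (nat_lit 5) (nat_lit 5) (nat_lit 4) (nat_lit 500) (nat_lit 415) (nat_lit 285)))) (XT.nd (nat_lit 78) (nat_lit 0) (nat_lit 0) (XT.lf (nat_lit 0) (nat_lit 435962218382) (nat_lit 76) (nat_lit 461170137590) (nat_lit 76) (nat_lit 437817654476) (nat_lit 4) (nat_lit 4) (nat_lit 5) (nat_lit 5) (nat_lit 5) (nat_lit 4) (nat_lit 501) (nat_lit 415) (nat_lit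 284)) (XT.nd (nat_lit 78) (nat_lit 0) (nat_lit 0) (XT.lf (nat_lit 0) (nat_lit 701621394707) (nat_lit 76) (nat_lit 377264246337) (nat_lit 76) (nat_lit 353911690862) (nat_lit 4) (nat_lit 4) (nat_lit 5) (nat_lit 5) (nat_lit 5) (nat_lit 4) (nat_lit 502) (nat_lit 415) (nat_lit 283)) (XT.lf (nat_lit 0) (nat_lit 988531928053) (nat_lit 76) (nat_lit 286646593451) (nat_lit 76) (nat_lit 263293970975) (nat_lit 4) (nat_lit 4) (nat_lit 5) (nat_lit 5) (nat_lit 5) (nat_lit 4) (nat_lit 503) (nat_lit 415) (nat_lit 282))))) (XT.nd (nat_lit 234) (nat_lit 0) (nat_lit 0) (XT.nd (nat_lit 78) (nat_lit 152) (nat_lit 0) (XT.lf (nat_lit 0) (nat_lit 1298394028986) (nat_lit 76) (nat_lit 188780185433) (nat_lit 76) (nat_lit 165427500920) (nat_lit 4) (nat_lit 4) (nat_lit 5) (nat_lit 5) (nat_lit 5) (nat_lit 4) (nat_lit 504) (nat_lit 415) (nat_lit 281)) (XT.nd (nat_lit 78) (nat_lit 152) (nat_lit 0) (XT.lf (nat_lit 0) (nat_lit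 1633043917364) (nat_lit 76) (nat_lit 83085073200) (nat_lit 76) (nat_lit 59732331243) (nat_lit 4) (nat_lit 4) (nat_lit 5) (nat_lit 5) (nat_lit 5) (nat_lit 4) (nat_lit 505) (nat_lit 415) (nat_lit 280)) (XT.lf (nat_lit 0) (nat_lit 54663129830) (nat_lit 152) (nat_lit 1820936341661) (nat_lit 0) (nat_lit 33040171363) (nat_lit 2) (nat_lit 5) (nat_lit 4) (nat_lit 4) (nat_lit 2) (nat_lit 4) (nat_lit 506) (nat_lit 415) (nat_lit 279)))) (XT.nd (nat_lit 156) (nat_lit 0) (nat_lit 0) (XT.nd (nat_lit 78) (nat_lit 0) (nat_lit 0) (XT.lf (nat_lit 0) (nat_lit 181146947500) (nat_lit 152) (nat_lit 1710752114156) (nat_lit 0) (nat_lit 159523943434) (nat_lit 2) (nat_lit 5) (nat_lit 4) (nat_lit 4) (nat_lit 2) (nat_lit 4) (nat_lit 507) (nat_lit 415) (nat_lit 278)) (XT.lf (nat_lit 0) (nat_lit 317748967646) (nat_lit 152) (nat_lit 1591754187539) (nat_lit 0) (nat_lit 296125921358) (nat_lit 2) (nat_lit 5) (nat_lit 4)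 (nat_lit 4) (nat_lit 2) (nat_lit 4) (nat_lit 508) (nat_lit 415) (nat_lit 277))) (XT.nd (nat_lit 78) (nat_lit 0) (nat_lit 0) (XT.lf (nat_lit 0) (nat_lit 465278683721) (nat_lit 152) (nat_lit 1463237388910) (nat_lit 0) (nat_lit 443655598338) (nat_lit 2) (nat_lit 5) (nat_lit 4) (nat_lit 4) (nat_lit 2) (nat_lit 4) (nat_lit 509) (nat_lit 415) (nat_lit 276)) (XT.lf (nat_lit 0) (nat_lit 624610345893) (nat_lit 152) (nat_lit 1324440137241) (nat_lit 0) (nat_lit 602987224311) (nat_lit 2) (nat_lit 5) (nat_lit 4) (nat_lit 4) (nat_lit 2) (nat_lit 4) (nat_lit 510) (nat_lit 415) (nat_lit 275))))))) (XT.nd (nat_lit 936) (nat_lit 0) (nat_lit 0) (XT.nd (nat_lit 468) (nat_lit 76) (nat_lit 0) (XT.nd (nat_lit 234) (nat_lit 0) (nat_lit 0) (XT.nd (nat_lit 78) (nat_lit 0) (nat_lit 0) (XT.lf (nat_lit 0) (nat_lit 796688141790) (nat_lit 152) (nat_lit 1174539930300) (nat_lit 0) (nat_lit 775064986691) (nat_lit 2) (nat_lit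 5) (nat_lit 4) (nat_lit 4) (nat_lit 2) (nat_lit 4) (nat_lit 511) (nat_lit 415) (nat_lit 274)) (XT.nd (nat_lit 78) (nat_lit 0) (nat_lit 0) (XT.lf (nat_lit 0) (nat_lit 982531791685) (nat_lit 152) (nat_lit 1012648470564) (nat_lit 0) (nat_lit 960908605551) (nat_lit 2) (nat_lit 5) (nat_lit 4) (nat_lit 4) (nat_lit 2) (nat_lit 4) (nat_lit 512) (nat_lit 415) (nat_lit 273)) (XT.lf (nat_lit 0) (nat_lit 1183242591280) (nat_lit 152) (nat_lit 837806401235) (nat_lit 0) (nat_lit 1161619376411) (nat_lit 2) (nat_lit 5) (nat_lit 4) (nat_lit 4) (nat_lit 2) (nat_lit 4) (nat_lit 513) (nat_lit 415) (nat_lit 272)))) (XT.nd (nat_lit 78) (nat_lit 0) (nat_lit 0) (XT.lf (nat_lit 0) (nat_lit 1400009937906) (nat_lit 152) (nat_lit 648977621161) (nat_lit 0) (nat_lit 1378386696430) (nat_lit 2) (nat_lit 5) (nat_lit 4) (nat_lit 4) (nat_lit 2) (nat_lit 4) (nat_lit 514) (nat_lit 415) (nat_lit 271)) (XT.nd (nat_lit 78) (nat_lit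 0) (nat_lit 0) (XT.lf (nat_lit 0) (nat_lit 1634118378803) (nat_lit 152) (nat_lit 445043144978) (nat_lit 0) (nat_lit 1612495112691) (nat_lit 2) (nat_lit 5) (nat_lit 4) (nat_lit 4) (nat_lit 2) (nat_lit 4) (nat_lit 515) (nat_lit 415) (nat_lit 270)) (XT.lf (nat_lit 0) (nat_lit 1886955223250) (nat_lit 152) (nat_lit 224794472088) (nat_lit 0) (nat_lit 1865331934327) (nat_lit 2) (nat_lit 5) (nat_lit 4) (nat_lit 4) (nat_lit 2) (nat_lit 4) (nat_lit 516) (nat_lit 415) (nat_lit 269))))) (XT.nd (nat_lit 234) (nat_lit 0) (nat_lit 0) (XT.nd (nat_lit 78) (nat_lit 0) (nat_lit 0) (XT.lf (nat_lit 0) (nat_lit 13762006112) (nat_lit 76) (nat_lit 2146587734123) (nat_lit 76) (nat_lit 2124964424079) (nat_lit 1) (nat_lit 4) (nat_lit 2) (nat_lit 5) (nat_lit 2) (nat_lit 4) (nat_lit 517) (nat_lit 415) (nat_lit 268)) (XT.nd (nat_lit 78) (nat_lit 0) (nat_lit 0) (XT.lf (nat_lit 0) (nat_lit 284186756739) (nat_lit 76) (nat_lit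 2177575095936) (nat_lit 76) (nat_lit 2155951766334) (nat_lit 1) (nat_lit 4) (nat_lit 2) (nat_lit 5) (nat_lit 2) (nat_lit 4) (nat_lit 518) (nat_lit 415) (nat_lit 267)) (XT.lf (nat_lit 0) (nat_lit 576245018303) (nat_lit 76) (nat_lit 2211041688824) (nat_lit 76) (nat_lit 2189418341114) (nat_lit 1) (nat_lit 4) (nat_lit 2) (nat_lit 5) (nat_lit 2) (nat_lit 4) (nat_lit 519) (nat_lit 415) (nat_lit 266)))) (XT.nd (nat_lit 78) (nat_lit 0) (nat_lit 0) (XT.lf (nat_lit 0) (nat_lit 891667506426) (nat_lit 76) (nat_lit 2247185833338) (nat_lit 76) (nat_lit 2225562468861) (nat_lit 1) (nat_lit 4) (nat_lit 2) (nat_lit 5) (nat_lit 2) (nat_lit 4) (nat_lit 520) (nat_lit 415) (nat_lit 265)) (XT.nd (nat_lit 78) (nat_lit 0) (nat_lit 0) (XT.lf (nat_lit 0) (nat_lit 1232323391411) (nat_lit 76) (nat_lit 2286221717000) (nat_lit 76) (nat_lit 2264598336998) (nat_lit 1) (nat_lit 4) (nat_lit 2) (nat_lit 5) (nat_lit 2) (nat_lit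 4) (nat_lit 521) (nat_lit 415) (nat_lit 264)) (XT.lf (nat_lit 0) (nat_lit 1600231374796) (nat_lit 76) (nat_lit 2328380663566) (nat_lit 76) (nat_lit 2306757269189) (nat_lit 1) (nat_lit 4) (nat_lit 2) (nat_lit 5) (nat_lit 2) (nat_lit 4) (nat_lit 522) (nat_lit 415) (nat_lit 263)))))) (XT.nd (nat_lit 468) (nat_lit 0) (nat_lit 0) (XT.nd (nat_lit 234) (nat_lit 0) (nat_lit 0) (XT.nd (nat_lit 78) (nat_lit 0) (nat_lit 0) (XT.lf (nat_lit 0) (nat_lit 1997571652039) (nat_lit 76) (nat_lit 2373912503830) (nat_lit 76) (nat_lit 2352289096143) (nat_lit 1) (nat_lit 4) (nat_lit 2) (nat_lit 5) (nat_lit 2) (nat_lit 4) (nat_lit 523) (nat_lit 415) (nat_lit 262)) (XT.nd (nat_lit 78) (nat_lit 0) (nat_lit 0) (XT.lf (nat_lit 0) (nat_lit 2426698832191) (nat_lit 76) (nat_lit 2423087056105) (nat_lit 76) (nat_lit 2401463636093) (nat_lit 1) (nat_lit 4) (nat_lit 2) (nat_lit 5) (nat_lit 2) (nat_lit 4) (nat_lit 524) (nat_lit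 415) (nat_lit 261)) (XT.lf (nat_lit 0) (nat_lit 2890155891133) (nat_lit 76) (nat_lit 2476195725145) (nat_lit 76) (nat_lit 2454572293722) (nat_lit 1) (nat_lit 4) (nat_lit 2) (nat_lit 5) (nat_lit 2) (nat_lit 4) (nat_lit 525) (nat_lit 415) (nat_lit 260)))) (XT.nd (nat_lit 78) (nat_lit 0) (nat_lit 0) (XT.lf (nat_lit 0) (nat_lit 3390689241068) (nat_lit 76) (nat_lit 2533553228988) (nat_lit 76) (nat_lit 2511929787000) (nat_lit 1) (nat_lit 4) (nat_lit 2) (nat_lit 5) (nat_lit 2) (nat_lit 4) (nat_lit 526) (nat_lit 415) (nat_lit 259)) (XT.nd (nat_lit 78) (nat_lit 0) (nat_lit 0) (XT.lf (nat_lit 0) (nat_lit 3931265005549) (nat_lit 76) (nat_lit 2595499463955) (nat_lit 76) (nat_lit 2573876012183) (nat_lit 1) (nat_lit 4) (nat_lit 2) (nat_lit 5) (nat_lit 2) (nat_lit 4) (nat_lit 527) (nat_lit 415) (nat_lit 258)) (XT.lf (nat_lit 0) (nat_lit 4515086596516) (nat_lit 76) (nat_lit 2662401518844) (nat_lit 76)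 (nat_lit 2640778058014) (nat_lit 1) (nat_lit 4) (nat_lit 2) (nat_lit 5) (nat_lit 2) (nat_lit 4) (nat_lit 528) (nat_lit 415) (nat_lit 257))))) (XT.nd (nat_lit 234) (nat_lit 0) (nat_lit 0) (XT.nd (nat_lit 78) (nat_lit 0) (nat_lit 0) (XT.lf (nat_lit 0) (nat_lit 5145613697469) (nat_lit 76) (nat_lit 2734655850278) (nat_lit 76) (nat_lit 2713032381060) (nat_lit 1) (nat_lit 4) (nat_lit 2) (nat_lit 5) (nat_lit 2) (nat_lit 4) (nat_lit 529) (nat_lit 415) (nat_lit 256)) (XT.nd (nat_lit 78) (nat_lit 0) (nat_lit 0) (XT.lf (nat_lit 0) (nat_lit 5826582765304) (nat_lit 76) (nat_lit 2812690632072) (nat_lit 76) (nat_lit 2791067155087) (nat_lit 1) (nat_lit 4) (nat_lit 2) (nat_lit 5) (nat_lit 2) (nat_lit 4) (nat_lit 530) (nat_lit 415) (nat_lit 255)) (XT.lf (nat_lit 0) (nat_lit 6562029172273) (nat_lit 76) (nat_lit 2896968292562) (nat_lit 76) (nat_lit 2875344808386) (nat_lit 1) (nat_lit 4) (nat_lit 2) (nat_lit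 5) (nat_lit 2) (nat_lit 4) (nat_lit 531) (nat_lit 415) (nat_lit 254)))) (XT.nd (nat_lit 53430) (nat_lit 0) (nat_lit 6080) (XT.nd (nat_lit 78) (nat_lit 0) (nat_lit 0) (XT.lf (nat_lit 0) (nat_lit 7356311119309) (nat_lit 76) (nat_lit 2987988254923) (nat_lit 76) (nat_lit 2966364764089) (nat_lit 1) (nat_lit 4) (nat_lit 2) (nat_lit 5) (nat_lit 2) (nat_lit 4) (nat_lit 532) (nat_lit 415) (nat_lit 253)) (XT.lf (nat_lit 0) (nat_lit 8214135462392) (nat_lit 76) (nat_lit 3086289896708) (nat_lit 76) (nat_lit 3064666399709) (nat_lit 1) (nat_lit 4) (nat_lit 2) (nat_lit 5) (nat_lit 2) (nat_lit 4) (nat_lit 533) (nat_lit 415) (nat_lit 252))) (XT.nd (nat_lit 78) (nat_lit 0) (nat_lit 0) (XT.lf (nat_lit 0) (nat_lit 5345683688) (nat_lit 532) (nat_lit 861374322) (nat_lit 532) (nat_lit 861374322) (nat_lit 81) (nat_lit 3) (nat_lit 88) (nat_lit 3) (nat_lit 88) (nat_lit 5) (nat_lit 416) (nat_lit 416) (nat_lit 368))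 (XT.lf (nat_lit 76) (nat_lit 5568278233) (nat_lit 0) (nat_lit 6003418155) (nat_lit 532) (nat_lit 3094343690) (nat_lit 82) (nat_lit 5) (nat_lit 81) (nat_lit 3) (nat_lit 88) (nat_lit 5) (nat_lit 417) (nat_lit 416) (nat_lit 367))))))))
noncomputable def xc133 : XT := (XT.nd (nat_lit 1950) (nat_lit 1748) (nat_lit 0) (XT.nd (nat_lit 936) (nat_lit 1444) (nat_lit 0) (XT.nd (nat_lit 468) (nat_lit 836) (nat_lit 0) (XT.nd (nat_lit 234) (nat_lit 456) (nat_lit 0) (XT.nd (nat_lit 78) (nat_lit 0) (nat_lit 0) (XT.lf (nat_lit 0) (nat_lit 12560921714) (nat_lit 456) (nat_lit 1737641079) (nat_lit 532) (nat_lit 935917657) (nat_lit 82) (nat_lit 5) (nat_lit 88) (nat_lit 5) (nat_lit 89) (nat_lit 5) (nat_lit 418) (nat_lit 416) (nat_lit 366)) (XT.nd (nat_lit 78) (nat_lit 0) (nat_lit 0) (XT.lf (nat_lit 76) (nat_lit 6353685561) (nat_lit 0) (nat_lit 7554722301) (nat_lit 532) (nat_lit 1917666263) (nat_lit 83) (nat_lit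 5) (nat_lit 82) (nat_lit 5) (nat_lit 89) (nat_lit 5) (nat_lit 419) (nat_lit 416) (nat_lit 365)) (XT.lf (nat_lit 76) (nat_lit 15172125463) (nat_lit 0) (nat_lit 211197715) (nat_lit 532) (nat_lit 1080109003) (nat_lit 83) (nat_lit 5) (nat_lit 82) (nat_lit 5) (nat_lit 89) (nat_lit 5) (nat_lit 420) (nat_lit 416) (nat_lit 364)))) (XT.nd (nat_lit 78) (nat_lit 0) (nat_lit 0) (XT.lf (nat_lit 0) (nat_lit 188045502) (nat_lit 532) (nat_lit 9403710158) (nat_lit 608) (nat_lit 7531982357) (nat_lit 76) (nat_lit 5) (nat_lit 83) (nat_lit 5) (nat_lit 84) (nat_lit 5) (nat_lit 421) (nat_lit 416) (nat_lit 363)) (XT.nd (nat_lit 78) (nat_lit 0) (nat_lit 76) (XT.lf (nat_lit 0) (nat_lit 1516187982) (nat_lit 532) (nat_lit 363478909) (nat_lit 608) (nat_lit 15953611684) (nat_lit 76) (nat_lit 5) (nat_lit 83) (nat_lit 5) (nat_lit 84) (nat_lit 5) (nat_lit 422) (nat_lit 416) (nat_lit 362)) (XT.lf (nat_lit 0) (nat_lit 3326458258)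 (nat_lit 532) (nat_lit 8869000005) (nat_lit 76) (nat_lit 6374059376) (nat_lit 77) (nat_lit 5) (nat_lit 84) (nat_lit 5) (nat_lit 78) (nat_lit 5) (nat_lit 423) (nat_lit 416) (nat_lit 361))))) (XT.nd (nat_lit 234) (nat_lit 228) (nat_lit 0) (XT.nd (nat_lit 78) (nat_lit 228) (nat_lit 0) (XT.lf (nat_lit 0) (nat_lit 1217798728) (nat_lit 456) (nat_lit 4130404021) (nat_lit 532) (nat_lit 14011125849) (nat_lit 71) (nat_lit 5) (nat_lit 77) (nat_lit 5) (nat_lit 78) (nat_lit 5) (nat_lit 424) (nat_lit 416) (nat_lit 360)) (XT.nd (nat_lit 78) (nat_lit 228) (nat_lit 0) (XT.lf (nat_lit 0) (nat_lit 7870108262) (nat_lit 532) (nat_lit 7715066184) (nat_lit 76) (nat_lit 4600080876) (nat_lit 71) (nat_lit 5) (nat_lit 78) (nat_lit 5) (nat_lit 72) (nat_lit 5) (nat_lit 425) (nat_lit 416) (nat_lit 359)) (XT.lf (nat_lit 0) (nat_lit 3598203676) (nat_lit 228) (nat_lit 7170385537) (nat_lit 304) (nat_lit 10294685397) (nat_lit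 68) (nat_lit 5) (nat_lit 71) (nat_lit 5) (nat_lit 72) (nat_lit 5) (nat_lit 426) (nat_lit 416) (nat_lit 358)))) (XT.nd (nat_lit 78) (nat_lit 228) (nat_lit 0) (XT.lf (nat_lit 0) (nat_lit 14143394898) (nat_lit 304) (nat_lit 5811890332) (nat_lit 76) (nat_lit 2036698460) (nat_lit 68) (nat_lit 5) (nat_lit 72) (nat_lit 5) (nat_lit 69) (nat_lit 5) (nat_lit 427) (nat_lit 416) (nat_lit 357)) (XT.nd (nat_lit 78) (nat_lit 0) (nat_lit 0) (XT.lf (nat_lit 0) (nat_lit 6913775335) (nat_lit 228) (nat_lit 11210175891) (nat_lit 304) (nat_lit 4844180633) (nat_lit 65) (nat_lit 5) (nat_lit 68) (nat_lit 5) (nat_lit 69) (nat_lit 5) (nat_lit 428) (nat_lit 416) (nat_lit 356)) (XT.lf (nat_lit 0) (nat_lit 20969131612) (nat_lit 228) (nat_lit 1596760510) (nat_lit 304) (nat_lit 1445047941) (nat_lit 65) (nat_lit 5) (nat_lit 68) (nat_lit 5) (nat_lit 69) (nat_lit 5) (nat_lit 429) (nat_lit 416) (nat_lit 355)))))) (XT.nd (nat_lit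 468) (nat_lit 608) (nat_lit 0) (XT.nd (nat_lit 234) (nat_lit 380) (nat_lit 0) (XT.nd (nat_lit 78) (nat_lit 228) (nat_lit 0) (XT.lf (nat_lit 0) (nat_lit 2596255606) (nat_lit 228) (nat_lit 13815764370) (nat_lit 76) (nat_lit 8682345427) (nat_lit 62) (nat_lit 5) (nat_lit 65) (nat_lit 5) (nat_lit 63) (nat_lit 5) (nat_lit 430) (nat_lit 416) (nat_lit 354)) (XT.nd (nat_lit 78) (nat_lit 0) (nat_lit 0) (XT.lf (nat_lit 0) (nat_lit 589219624) (nat_lit 228) (nat_lit 6419990223) (nat_lit 304) (nat_lit 19242141594) (nat_lit 59) (nat_lit 5) (nat_lit 62) (nat_lit 5) (nat_lit 63) (nat_lit 5) (nat_lit 431) (nat_lit 416) (nat_lit 353)) (XT.lf (nat_lit 0) (nat_lit 12253861298) (nat_lit 304) (nat_lit 10672742122) (nat_lit 76) (nat_lit 4536002561) (nat_lit 59) (nat_lit 5) (nat_lit 63) (nat_lit 5) (nat_lit 60) (nat_lit 5) (nat_lit 432) (nat_lit 416) (nat_lit 352)))) (XT.nd (nat_lit 78) (nat_lit 228) (nat_lit 0)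 (XT.lf (nat_lit 0) (nat_lit 5611770428) (nat_lit 152) (nat_lit 12595039385) (nat_lit 228) (nat_lit 10540855379) (nat_lit 57) (nat_lit 5) (nat_lit 59) (nat_lit 5) (nat_lit 60) (nat_lit 5) (nat_lit 433) (nat_lit 416) (nat_lit 351)) (XT.nd (nat_lit 78) (nat_lit 228) (nat_lit 0) (XT.lf (nat_lit 0) (nat_lit 23788469141) (nat_lit 152) (nat_lit 1126885899) (nat_lit 228) (nat_lit 5197827368) (nat_lit 57) (nat_lit 5) (nat_lit 59) (nat_lit 5) (nat_lit 60) (nat_lit 5) (nat_lit 434) (nat_lit 416) (nat_lit 350)) (XT.lf (nat_lit 0) (nat_lit 1109688367) (nat_lit 228) (nat_lit 19420528716) (nat_lit 76) (nat_lit 11011368669) (nat_lit 54) (nat_lit 5) (nat_lit 57) (nat_lit 5) (nat_lit 55) (nat_lit 5) (nat_lit 435) (nat_lit 416) (nat_lit 349))))) (XT.nd (nat_lit 234) (nat_lit 304) (nat_lit 0) (XT.nd (nat_lit 78) (nat_lit 304) (nat_lit 0) (XT.lf (nat_lit 0) (nat_lit 7836206480) (nat_lit 228) (nat_lit 854244485)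 (nat_lit 76) (nat_lit 24367393910) (nat_lit 54) (nat_lit 5) (nat_lit 57) (nat_lit 5) (nat_lit 55) (nat_lit 5) (nat_lit 436) (nat_lit 416) (nat_lit 348)) (XT.nd (nat_lit 78) (nat_lit 152) (nat_lit 0) (XT.lf (nat_lit 0) (nat_lit 15686834857) (nat_lit 228) (nat_lit 14576965233) (nat_lit 76) (nat_lit 4384727099) (nat_lit 52) (nat_lit 5) (nat_lit 55) (nat_lit 5) (nat_lit 53) (nat_lit 5) (nat_lit 437) (nat_lit 416) (nat_lit 347)) (XT.lf (nat_lit 0) (nat_lit 6434739853) (nat_lit 152) (nat_lit 18124881211) (nat_lit 228) (nat_lit 11775315872) (nat_lit 50) (nat_lit 5) (nat_lit 52) (nat_lit 5) (nat_lit 53) (nat_lit 5) (nat_lit 438) (nat_lit 416) (nat_lit 346)))) (XT.nd (nat_lit 156) (nat_lit 152) (nat_lit 0) (XT.nd (nat_lit 78) (nat_lit 152) (nat_lit 0) (XT.lf (nat_lit 0) (nat_lit 29940559148) (nat_lit 152) (nat_lit 4590278855) (nat_lit 228) (nat_lit 3594334177) (nat_lit 50) (nat_lit 5) (nat_lit 52)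 (nat_lit 5) (nat_lit 53) (nat_lit 5) (nat_lit 439) (nat_lit 416) (nat_lit 345)) (XT.lf (nat_lit 0) (nat_lit 5606686374) (nat_lit 152) (nat_lit 24349322241) (nat_lit 76) (nat_lit 10042315432) (nat_lit 48) (nat_lit 5) (nat_lit 50) (nat_lit 5) (nat_lit 49) (nat_lit 5) (nat_lit 440) (nat_lit 416) (nat_lit 344))) (XT.nd (nat_lit 78) (nat_lit 152) (nat_lit 0) (XT.lf (nat_lit 0) (nat_lit 15689177040) (nat_lit 152) (nat_lit 382417306) (nat_lit 76) (nat_lit 25915099969) (nat_lit 48) (nat_lit 5) (nat_lit 50) (nat_lit 5) (nat_lit 49) (nat_lit 5) (nat_lit 441) (nat_lit 416) (nat_lit 343)) (XT.lf (nat_lit 0) (nat_lit 26829746736) (nat_lit 152) (nat_lit 385214714) (nat_lit 228) (nat_lit 16868238182) (nat_lit 46) (nat_lit 5) (nat_lit 48) (nat_lit 5) (nat_lit 49) (nat_lit 5) (nat_lit 442) (nat_lit 416) (nat_lit 342))))))) (XT.nd (nat_lit 936) (nat_lit 912) (nat_lit 0) (XT.nd (nat_lit 468) (nat_lit 304)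 (nat_lit 0) (XT.nd (nat_lit 234) (nat_lit 228) (nat_lit 0) (XT.nd (nat_lit 78) (nat_lit 228) (nat_lit 0) (XT.lf (nat_lit 0) (nat_lit 9980468562) (nat_lit 76) (nat_lit 30322876477) (nat_lit 152) (nat_lit 5992838337) (nat_lit 45) (nat_lit 5) (nat_lit 46) (nat_lit 5) (nat_lit 47) (nat_lit 4) (nat_lit 443) (nat_lit 416) (nat_lit 341)) (XT.nd (nat_lit 78) (nat_lit 152) (nat_lit 0) (XT.lf (nat_lit 0) (nat_lit 5950501403) (nat_lit 152) (nat_lit 8449219687) (nat_lit 76) (nat_lit 34236563438) (nat_lit 44) (nat_lit 5) (nat_lit 46) (nat_lit 5) (nat_lit 45) (nat_lit 5) (nat_lit 444) (nat_lit 416) (nat_lit 340)) (XT.lf (nat_lit 0) (nat_lit 19146872536) (nat_lit 228) (nat_lit 28585053118) (nat_lit 76) (nat_lit 3369509544) (nat_lit 42) (nat_lit 5) (nat_lit 45) (nat_lit 5) (nat_lit 43) (nat_lit 4) (nat_lit 445) (nat_lit 416) (nat_lit 339)))) (XT.nd (nat_lit 78) (nat_lit 152) (nat_lit 0) (XT.lf (nat_lit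 0) (nat_lit 2422053416) (nat_lit 76) (nat_lit 31638602026) (nat_lit 152) (nat_lit 19650206985) (nat_lit 41) (nat_lit 5) (nat_lit 42) (nat_lit 5) (nat_lit 43) (nat_lit 4) (nat_lit 446) (nat_lit 416) (nat_lit 338)) (XT.nd (nat_lit 78) (nat_lit 152) (nat_lit 0) (XT.lf (nat_lit 0) (nat_lit 37522209655) (nat_lit 76) (nat_lit 13419558077) (nat_lit 152) (nat_lit 5525338585) (nat_lit 41) (nat_lit 5) (nat_lit 42) (nat_lit 5) (nat_lit 43) (nat_lit 4) (nat_lit 447) (nat_lit 416) (nat_lit 337)) (XT.lf (nat_lit 0) (nat_lit 9801091398) (nat_lit 152) (nat_lit 42991780243) (nat_lit 76) (nat_lit 6587596430) (nat_lit 39) (nat_lit 5) (nat_lit 41) (nat_lit 5) (nat_lit 40) (nat_lit 4) (nat_lit 448) (nat_lit 416) (nat_lit 336))))) (XT.nd (nat_lit 234) (nat_lit 152) (nat_lit 0) (XT.nd (nat_lit 78) (nat_lit 152) (nat_lit 0) (XT.lf (nat_lit 0) (nat_lit 26928242164) (nat_lit 152) (nat_lit 7377275059) (nat_lit 76)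 (nat_lit 28140051361) (nat_lit 39) (nat_lit 5) (nat_lit 41) (nat_lit 5) (nat_lit 40) (nat_lit 4) (nat_lit 449) (nat_lit 416) (nat_lit 335)) (XT.nd (nat_lit 78) (nat_lit 76) (nat_lit 0) (XT.lf (nat_lit 0) (nat_lit 32711007283) (nat_lit 76) (nat_lit 13494885050) (nat_lit 152) (nat_lit 19487559076) (nat_lit 38) (nat_lit 5) (nat_lit 39) (nat_lit 5) (nat_lit 40) (nat_lit 4) (nat_lit 450) (nat_lit 416) (nat_lit 334)) (XT.lf (nat_lit 0) (nat_lit 7376883072) (nat_lit 76) (nat_lit 60242914153) (nat_lit 76) (nat_lit 1533844640) (nat_lit 37) (nat_lit 4) (nat_lit 38) (nat_lit 5) (nat_lit 38) (nat_lit 4) (nat_lit 451) (nat_lit 416) (nat_lit 333)))) (XT.nd (nat_lit 78) (nat_lit 76) (nat_lit 0) (XT.lf (nat_lit 0) (nat_lit 18232396719) (nat_lit 152) (nat_lit 20793011414) (nat_lit 76) (nat_lit 33729327086) (nat_lit 36) (nat_lit 5) (nat_lit 38) (nat_lit 5) (nat_lit 37) (nat_lit 4) (nat_lit 452) (nat_lit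 416) (nat_lit 332)) (XT.nd (nat_lit 78) (nat_lit 0) (nat_lit 0) (XT.lf (nat_lit 0) (nat_lit 24651832034) (nat_lit 76) (nat_lit 15432308810) (nat_lit 152) (nat_lit 36509622650) (nat_lit 35) (nat_lit 5) (nat_lit 36) (nat_lit 5) (nat_lit 37) (nat_lit 4) (nat_lit 453) (nat_lit 416) (nat_lit 331)) (XT.lf (nat_lit 0) (nat_lit 64503215396) (nat_lit 152) (nat_lit 6047080421) (nat_lit 0) (nat_lit 10124083255) (nat_lit 35) (nat_lit 5) (nat_lit 37) (nat_lit 4) (nat_lit 35) (nat_lit 4) (nat_lit 454) (nat_lit 416) (nat_lit 330)))))) (XT.nd (nat_lit 468) (nat_lit 456) (nat_lit 0) (XT.nd (nat_lit 234) (nat_lit 228) (nat_lit 0) (XT.nd (nat_lit 78) (nat_lit 76) (nat_lit 0) (XT.lf (nat_lit 0) (nat_lit 7029995240) (nat_lit 152) (nat_lit 39762127660) (nat_lit 76) (nat_lit 38156134384) (nat_lit 33) (nat_lit 5) (nat_lit 35) (nat_lit 5) (nat_lit 34) (nat_lit 4) (nat_lit 455) (nat_lit 416) (nat_lit 329)) (XT.nd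 (nat_lit 78) (nat_lit 0) (nat_lit 0) (XT.lf (nat_lit 0) (nat_lit 11449287989) (nat_lit 76) (nat_lit 20203977605) (nat_lit 152) (nat_lit 57842003463) (nat_lit 32) (nat_lit 5) (nat_lit 33) (nat_lit 5) (nat_lit 34) (nat_lit 4) (nat_lit 456) (nat_lit 416) (nat_lit 328)) (XT.lf (nat_lit 0) (nat_lit 59561229735) (nat_lit 152) (nat_lit 25543323505) (nat_lit 0) (nat_lit 9196302188) (nat_lit 32) (nat_lit 5) (nat_lit 34) (nat_lit 4) (nat_lit 32) (nat_lit 4) (nat_lit 457) (nat_lit 416) (nat_lit 327)))) (XT.nd (nat_lit 78) (nat_lit 152) (nat_lit 0) (XT.lf (nat_lit 0) (nat_lit 32237953732) (nat_lit 76) (nat_lit 58759101687) (nat_lit 76) (nat_lit 8390215548) (nat_lit 31) (nat_lit 4) (nat_lit 32) (nat_lit 5) (nat_lit 32) (nat_lit 4) (nat_lit 458) (nat_lit 416) (nat_lit 326)) (XT.nd (nat_lit 78) (nat_lit 76) (nat_lit 0) (XT.lf (nat_lit 0) (nat_lit 19774985268) (nat_lit 152) (nat_lit 9240582142) (nat_lit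 76) (nat_lit 75769489063) (nat_lit 30) (nat_lit 5) (nat_lit 32) (nat_lit 5) (nat_lit 31) (nat_lit 4) (nat_lit 459) (nat_lit 416) (nat_lit 325)) (XT.lf (nat_lit 0) (nat_lit 51194450643) (nat_lit 152) (nat_lit 54736376294) (nat_lit 0) (nat_lit 4550056794) (nat_lit 29) (nat_lit 5) (nat_lit 31) (nat_lit 4) (nat_lit 29) (nat_lit 4) (nat_lit 460) (nat_lit 416) (nat_lit 324))))) (XT.nd (nat_lit 234) (nat_lit 228) (nat_lit 0) (XT.nd (nat_lit 78) (nat_lit 152) (nat_lit 0) (XT.lf (nat_lit 0) (nat_lit 9550473553) (nat_lit 76) (nat_lit 76815080422) (nat_lit 76) (nat_lit 30167776889) (nat_lit 28) (nat_lit 4) (nat_lit 29) (nat_lit 5) (nat_lit 29) (nat_lit 4) (nat_lit 461) (nat_lit 416) (nat_lit 323)) (XT.nd (nat_lit 78) (nat_lit 76) (nat_lit 0) (XT.lf (nat_lit 0) (nat_lit 2747320087) (nat_lit 152) (nat_lit 40935571901) (nat_lit 76) (nat_lit 79262138664) (nat_lit 27) (nat_lit 5) (nat_lit 29) (nat_lit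 5) (nat_lit 28) (nat_lit 4) (nat_lit 462) (nat_lit 416) (nat_lit 322)) (XT.lf (nat_lit 0) (nat_lit 31162615090) (nat_lit 76) (nat_lit 6248494216) (nat_lit 152) (nat_lit 92336244709) (nat_lit 26) (nat_lit 5) (nat_lit 27) (nat_lit 5) (nat_lit 28) (nat_lit 4) (nat_lit 463) (nat_lit 416) (nat_lit 321)))) (XT.nd (nat_lit 156) (nat_lit 152) (nat_lit 0) (XT.nd (nat_lit 78) (nat_lit 76) (nat_lit 0) (XT.lf (nat_lit 0) (nat_lit 76814255383) (nat_lit 152) (nat_lit 26506943104) (nat_lit 0) (nat_lit 33615364578) (nat_lit 26) (nat_lit 5) (nat_lit 28) (nat_lit 4) (nat_lit 26) (nat_lit 4) (nat_lit 464) (nat_lit 416) (nat_lit 320)) (XT.lf (nat_lit 0) (nat_lit 53861556405) (nat_lit 76) (nat_lit 66961957387) (nat_lit 76) (nat_lit 23761086301) (nat_lit 25) (nat_lit 4) (nat_lit 26) (nat_lit 5) (nat_lit 26) (nat_lit 4) (nat_lit 465) (nat_lit 416) (nat_lit 319))) (XT.nd (nat_lit 78) (nat_lit 76) (nat_lit 0) (XT.lf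 (nat_lit 0) (nat_lit 15472977748) (nat_lit 152) (nat_lit 11018910964) (nat_lit 76) (nat_lit 126263570486) (nat_lit 24) (nat_lit 5) (nat_lit 26) (nat_lit 5) (nat_lit 25) (nat_lit 4) (nat_lit 466) (nat_lit 416) (nat_lit 318)) (XT.lf (nat_lit 0) (nat_lit 58921954186) (nat_lit 152) (nat_lit 83501989157) (nat_lit 0) (nat_lit 18917877840) (nat_lit 23) (nat_lit 5) (nat_lit 25) (nat_lit 4) (nat_lit 23) (nat_lit 4) (nat_lit 467) (nat_lit 416) (nat_lit 317))))))))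
noncomputable def xc134 : XT := (XT.nd (nat_lit 1950) (nat_lit 380) (nat_lit 0) (XT.nd (nat_lit 936) (nat_lit 532) (nat_lit 0) (XT.nd (nat_lit 468) (nat_lit 380) (nat_lit 0) (XT.nd (nat_lit 234) (nat_lit 76) (nat_lit 0) (XT.nd (nat_lit 78) (nat_lit 152) (nat_lit 0) (XT.lf (nat_lit 0) (nat_lit 3305305436) (nat_lit 76) (nat_lit 103614731799) (nat_lit 76) (nat_lit 63609199888) (nat_lit 22) (nat_lit 4) (nat_lit 23) (nat_lit 5) (nat_lit 23) (nat_lit 4) (nat_lit 468) (nat_lit 416) (nat_lit 316)) (XT.nd (nat_lit 78) (nat_lit 152) (nat_lit 0) (XT.lf (nat_lit 0) (nat_lit 101799141615) (nat_lit 76) (nat_lit 59238505038) (nat_lit 76) (nat_lit 19231625380) (nat_lit 22) (nat_lit 4) (nat_lit 23) (nat_lit 5) (nat_lit 23) (nat_lit 4) (nat_lit 469) (nat_lit 416) (nat_lit 315)) (XT.lf (nat_lit 0) (nat_lit 17566019486) (nat_lit 76) (nat_lit 10113858906) (nat_lit 152) (nat_lit 163019882253) (nat_lit 20) (nat_lit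 5) (nat_lit 21) (nat_lit 5) (nat_lit 22) (nat_lit 4) (nat_lit 470) (nat_lit 416) (nat_lit 314)))) (XT.nd (nat_lit 78) (nat_lit 76) (nat_lit 0) (XT.lf (nat_lit 0) (nat_lit 80536029113) (nat_lit 152) (nat_lit 77639842094) (nat_lit 0) (nat_lit 43490396662) (nat_lit 20) (nat_lit 5) (nat_lit 22) (nat_lit 4) (nat_lit 20) (nat_lit 4) (nat_lit 471) (nat_lit 416) (nat_lit 313)) (XT.nd (nat_lit 78) (nat_lit 0) (nat_lit 0) (XT.lf (nat_lit 0) (nat_lit 26553104577) (nat_lit 76) (nat_lit 111965874816) (nat_lit 76) (nat_lit 74919251731) (nat_lit 19) (nat_lit 4) (nat_lit 20) (nat_lit 5) (nat_lit 20) (nat_lit 4) (nat_lit 472) (nat_lit 416) (nat_lit 312)) (XT.lf (nat_lit 0) (nat_lit 143491026513) (nat_lit 76) (nat_lit 59769436754) (nat_lit 76) (nat_lit 22721896415) (nat_lit 19) (nat_lit 4) (nat_lit 20) (nat_lit 5) (nat_lit 20) (nat_lit 4) (nat_lit 473) (nat_lit 416) (nat_lit 311))))) (XT.nd (nat_lit 234)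 (nat_lit 152) (nat_lit 0) (XT.nd (nat_lit 78) (nat_lit 76) (nat_lit 0) (XT.lf (nat_lit 0) (nat_lit 30989242484) (nat_lit 76) (nat_lit 1721157578) (nat_lit 152) (nat_lit 206695471487) (nat_lit 17) (nat_lit 5) (nat_lit 18) (nat_lit 5) (nat_lit 19) (nat_lit 4) (nat_lit 474) (nat_lit 416) (nat_lit 310)) (XT.nd (nat_lit 78) (nat_lit 76) (nat_lit 0) (XT.lf (nat_lit 0) (nat_lit 95127342834) (nat_lit 152) (nat_lit 97603946228) (nat_lit 0) (nat_lit 60822550200) (nat_lit 17) (nat_lit 5) (nat_lit 19) (nat_lit 4) (nat_lit 17) (nat_lit 4) (nat_lit 475) (nat_lit 416) (nat_lit 309)) (XT.lf (nat_lit 0) (nat_lit 23183576798) (nat_lit 76) (nat_lit 139953778659) (nat_lit 76) (nat_lit 105648311816) (nat_lit 16) (nat_lit 4) (nat_lit 17) (nat_lit 5) (nat_lit 17) (nat_lit 4) (nat_lit 476) (nat_lit 416) (nat_lit 308)))) (XT.nd (nat_lit 78) (nat_lit 152) (nat_lit 0) (XT.lf (nat_lit 0) (nat_lit 159179850906) (nat_lit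 76) (nat_lit 80074493855) (nat_lit 76) (nat_lit 45768402745) (nat_lit 16) (nat_lit 4) (nat_lit 17) (nat_lit 5) (nat_lit 17) (nat_lit 4) (nat_lit 477) (nat_lit 416) (nat_lit 307)) (XT.nd (nat_lit 78) (nat_lit 0) (nat_lit 0) (XT.lf (nat_lit 0) (nat_lit 3197574916) (nat_lit 76) (nat_lit 14833311646) (nat_lit 152) (nat_lit 284485577367) (nat_lit 14) (nat_lit 5) (nat_lit 15) (nat_lit 5) (nat_lit 16) (nat_lit 4) (nat_lit 478) (nat_lit 416) (nat_lit 306)) (XT.lf (nat_lit 0) (nat_lit 89327049292) (nat_lit 152) (nat_lit 174037156860) (nat_lit 0) (nat_lit 57561119344) (nat_lit 14) (nat_lit 5) (nat_lit 16) (nat_lit 4) (nat_lit 14) (nat_lit 4) (nat_lit 479) (nat_lit 416) (nat_lit 305)))))) (XT.nd (nat_lit 468) (nat_lit 304) (nat_lit 0) (XT.nd (nat_lit 234) (nat_lit 152) (nat_lit 0) (XT.nd (nat_lit 78) (nat_lit 76) (nat_lit 0) (XT.lf (nat_lit 0) (nat_lit 166710000450) (nat_lit 152) (nat_lit 39122636280)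 (nat_lit 0) (nat_lit 134943611647) (nat_lit 14) (nat_lit 5) (nat_lit 16) (nat_lit 4) (nat_lit 14) (nat_lit 4) (nat_lit 480) (nat_lit 416) (nat_lit 304)) (XT.nd (nat_lit 78) (nat_lit 0) (nat_lit 0) (XT.lf (nat_lit 0) (nat_lit 112193269401) (nat_lit 76) (nat_lit 140786545599) (nat_lit 76) (nat_lit 109019731930) (nat_lit 13) (nat_lit 4) (nat_lit 14) (nat_lit 5) (nat_lit 14) (nat_lit 4) (nat_lit 481) (nat_lit 416) (nat_lit 303)) (XT.lf (nat_lit 0) (nat_lit 277835353029) (nat_lit 76) (nat_lit 69383573248) (nat_lit 76) (nat_lit 37616366184) (nat_lit 13) (nat_lit 4) (nat_lit 14) (nat_lit 5) (nat_lit 14) (nat_lit 4) (nat_lit 482) (nat_lit 416) (nat_lit 302)))) (XT.nd (nat_lit 78) (nat_lit 0) (nat_lit 0) (XT.lf (nat_lit 0) (nat_lit 38934059428) (nat_lit 152) (nat_lit 360855343694) (nat_lit 0) (nat_lit 9519641542) (nat_lit 11) (nat_lit 5) (nat_lit 13) (nat_lit 4) (nat_lit 11) (nat_lit 4) (nat_lit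 483) (nat_lit 416) (nat_lit 301)) (XT.nd (nat_lit 78) (nat_lit 0) (nat_lit 0) (XT.lf (nat_lit 0) (nat_lit 124378116471) (nat_lit 152) (nat_lit 215936881761) (nat_lit 0) (nat_lit 94963386295) (nat_lit 11) (nat_lit 5) (nat_lit 13) (nat_lit 4) (nat_lit 11) (nat_lit 4) (nat_lit 484) (nat_lit 416) (nat_lit 300)) (XT.lf (nat_lit 0) (nat_lit 216655967266) (nat_lit 152) (nat_lit 59428494859) (nat_lit 0) (nat_lit 187240947933) (nat_lit 11) (nat_lit 5) (nat_lit 13) (nat_lit 4) (nat_lit 11) (nat_lit 4) (nat_lit 485) (nat_lit 416) (nat_lit 299))))) (XT.nd (nat_lit 234) (nat_lit 228) (nat_lit 0) (XT.nd (nat_lit 78) (nat_lit 0) (nat_lit 0) (XT.lf (nat_lit 0) (nat_lit 115368472353) (nat_lit 76) (nat_lit 203720585704) (nat_lit 76) (nat_lit 174305298634) (nat_lit 10) (nat_lit 4) (nat_lit 11) (nat_lit 5) (nat_lit 11) (nat_lit 4) (nat_lit 486) (nat_lit 416) (nat_lit 298)) (XT.nd (nat_lit 78) (nat_lit 0) (nat_lit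 0) (XT.lf (nat_lit 0) (nat_lit 307525742491) (nat_lit 76) (nat_lit 123814373001) (nat_lit 76) (nat_lit 94398838026) (nat_lit 10) (nat_lit 4) (nat_lit 11) (nat_lit 5) (nat_lit 11) (nat_lit 4) (nat_lit 487) (nat_lit 416) (nat_lit 297)) (XT.lf (nat_lit 0) (nat_lit 515052626081) (nat_lit 76) (nat_lit 37517186084) (nat_lit 76) (nat_lit 8101421567) (nat_lit 10) (nat_lit 4) (nat_lit 11) (nat_lit 5) (nat_lit 11) (nat_lit 4) (nat_lit 488) (nat_lit 416) (nat_lit 296)))) (XT.nd (nat_lit 156) (nat_lit 76) (nat_lit 0) (XT.nd (nat_lit 78) (nat_lit 0) (nat_lit 0) (XT.lf (nat_lit 0) (nat_lit 85837183099) (nat_lit 152) (nat_lit 453397459336) (nat_lit 0) (nat_lit 58600167306) (nat_lit 8) (nat_lit 5) (nat_lit 10) (nat_lit 4) (nat_lit 8) (nat_lit 4) (nat_lit 489) (nat_lit 416) (nat_lit 295)) (XT.lf (nat_lit 0) (nat_lit 189105980698) (nat_lit 152) (nat_lit 286799650992) (nat_lit 0) (nat_lit 161868782688) (nat_lit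 8) (nat_lit 5) (nat_lit 10) (nat_lit 4) (nat_lit 8) (nat_lit 4) (nat_lit 490) (nat_lit 416) (nat_lit 294))) (XT.nd (nat_lit 78) (nat_lit 76) (nat_lit 0) (XT.lf (nat_lit 0) (nat_lit 300635012266) (nat_lit 152) (nat_lit 106876631181) (nat_lit 0) (nat_lit 273397645536) (nat_lit 8) (nat_lit 5) (nat_lit 10) (nat_lit 4) (nat_lit 8) (nat_lit 4) (nat_lit 491) (nat_lit 416) (nat_lit 293)) (XT.lf (nat_lit 0) (nat_lit 92042130735) (nat_lit 76) (nat_lit 331256675302) (nat_lit 76) (nat_lit 304019152350) (nat_lit 7) (nat_lit 4) (nat_lit 8) (nat_lit 5) (nat_lit 8) (nat_lit 4) (nat_lit 492) (nat_lit 416) (nat_lit 292))))))) (XT.nd (nat_lit 936) (nat_lit 152) (nat_lit 0) (XT.nd (nat_lit 468) (nat_lit 76) (nat_lit 0) (XT.nd (nat_lit 234) (nat_lit 152) (nat_lit 0) (XT.nd (nat_lit 78) (nat_lit 0) (nat_lit 0) (XT.lf (nat_lit 0) (nat_lit 312950203948) (nat_lit 76) (nat_lit 245746550461) (nat_lit 76) (nat_lit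 218508882858) (nat_lit 7) (nat_lit 4) (nat_lit 8) (nat_lit 5) (nat_lit 8) (nat_lit 4) (nat_lit 493) (nat_lit 416) (nat_lit 291)) (XT.nd (nat_lit 78) (nat_lit 0) (nat_lit 0) (XT.lf (nat_lit 0) (nat_lit 551528739337) (nat_lit 76) (nat_lit 153396738754) (nat_lit 76) (nat_lit 126158937216) (nat_lit 7) (nat_lit 4) (nat_lit 8) (nat_lit 5) (nat_lit 8) (nat_lit 4) (nat_lit 494) (nat_lit 416) (nat_lit 290)) (XT.lf (nat_lit 0) (nat_lit 809191535632) (nat_lit 76) (nat_lit 53659982039) (nat_lit 76) (nat_lit 26422056487) (nat_lit 7) (nat_lit 4) (nat_lit 8) (nat_lit 5) (nat_lit 8) (nat_lit 4) (nat_lit 495) (nat_lit 416) (nat_lit 289)))) (XT.nd (nat_lit 78) (nat_lit 0) (nat_lit 0) (XT.lf (nat_lit 0) (nat_lit 82041736710) (nat_lit 152) (nat_lit 812713222214) (nat_lit 0) (nat_lit 56821328951) (nat_lit 5) (nat_lit 5) (nat_lit 7) (nat_lit 4) (nat_lit 5) (nat_lit 4) (nat_lit 496) (nat_lit 416) (nat_lit 288))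 (XT.nd (nat_lit 78) (nat_lit 0) (nat_lit 0) (XT.lf (nat_lit 0) (nat_lit 201394446984) (nat_lit 152) (nat_lit 640948784681) (nat_lit 0) (nat_lit 176173940778) (nat_lit 5) (nat_lit 5) (nat_lit 7) (nat_lit 4) (nat_lit 5) (nat_lit 4) (nat_lit 497) (nat_lit 416) (nat_lit 287)) (XT.lf (nat_lit 0) (nat_lit 330294511121) (nat_lit 152) (nat_lit 455444971936) (nat_lit 0) (nat_lit 305073913760) (nat_lit 5) (nat_lit 5) (nat_lit 7) (nat_lit 4) (nat_lit 5) (nat_lit 4) (nat_lit 498) (nat_lit 416) (nat_lit 286))))) (XT.nd (nat_lit 234) (nat_lit 0) (nat_lit 0) (XT.nd (nat_lit 78) (nat_lit 76) (nat_lit 0) (XT.lf (nat_lit 0) (nat_lit 469505781353) (nat_lit 152) (nat_lit 255102502126) (nat_lit 0) (nat_lit 444285099591) (nat_lit 5) (nat_lit 5) (nat_lit 7) (nat_lit 4) (nat_lit 5) (nat_lit 4) (nat_lit 499) (nat_lit 416) (nat_lit 285)) (XT.nd (nat_lit 78) (nat_lit 76) (nat_lit 0) (XT.lf (nat_lit 0) (nat_lit 619853213357)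 (nat_lit 152) (nat_lit 38734160613) (nat_lit 0) (nat_lit 594632453444) (nat_lit 5) (nat_lit 5) (nat_lit 7) (nat_lit 4) (nat_lit 5) (nat_lit 4) (nat_lit 500) (nat_lit 416) (nat_lit 284)) (XT.lf (nat_lit 0) (nat_lit 205207548012) (nat_lit 76) (nat_lit 581955453329) (nat_lit 76) (nat_lit 556734621056) (nat_lit 4) (nat_lit 4) (nat_lit 5) (nat_lit 5) (nat_lit 5) (nat_lit 4) (nat_lit 501) (nat_lit 416) (nat_lit 283)))) (XT.nd (nat_lit 78) (nat_lit 0) (nat_lit 0) (XT.lf (nat_lit 0) (nat_lit 470866062277) (nat_lit 76) (nat_lit 498049903262) (nat_lit 76) (nat_lit 472829003988) (nat_lit 4) (nat_lit 4) (nat_lit 5) (nat_lit 5) (nat_lit 5) (nat_lit 4) (nat_lit 502) (nat_lit 416) (nat_lit 282)) (XT.nd (nat_lit 78) (nat_lit 0) (nat_lit 0) (XT.lf (nat_lit 0) (nat_lit 757775982603) (nat_lit 76) (nat_lit 407432566290) (nat_lit 76) (nat_lit 382211604977) (nat_lit 4) (nat_lit 4) (nat_lit 5) (nat_lit 5) (nat_lit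 5) (nat_lit 4) (nat_lit 503) (nat_lit 416) (nat_lit 281)) (XT.lf (nat_lit 0) (nat_lit 1067637515926) (nat_lit 76) (nat_lit 309566450784) (nat_lit 76) (nat_lit 284345432029) (nat_lit 4) (nat_lit 4) (nat_lit 5) (nat_lit 5) (nat_lit 5) (nat_lit 4) (nat_lit 504) (nat_lit 416) (nat_lit 280)))))) (XT.nd (nat_lit 468) (nat_lit 0) (nat_lit 0) (XT.nd (nat_lit 234) (nat_lit 0) (nat_lit 0) (XT.nd (nat_lit 78) (nat_lit 152) (nat_lit 0) (XT.lf (nat_lit 0) (nat_lit 1402286878739) (nat_lit 76) (nat_lit 203871609395) (nat_lit 76) (nat_lit 178650537452) (nat_lit 4) (nat_lit 4) (nat_lit 5) (nat_lit 5) (nat_lit 5) (nat_lit 4) (nat_lit 505) (nat_lit 416) (nat_lit 279)) (XT.nd (nat_lit 78) (nat_lit 152) (nat_lit 0) (XT.lf (nat_lit 0) (nat_lit 1763707178378) (nat_lit 76) (nat_lit 89721702321) (nat_lit 76) (nat_lit 64500581131) (nat_lit 4) (nat_lit 4) (nat_lit 5) (nat_lit 5) (nat_lit 5) (nat_lit 4) (nat_lit 506)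 (nat_lit 416) (nat_lit 278)) (XT.lf (nat_lit 0) (nat_lit 59045992344) (nat_lit 152) (nat_lit 1966590976794) (nat_lit 0) (nat_lit 35693060130) (nat_lit 2) (nat_lit 5) (nat_lit 4) (nat_lit 4) (nat_lit 2) (nat_lit 4) (nat_lit 507) (nat_lit 416) (nat_lit 277)))) (XT.nd (nat_lit 78) (nat_lit 0) (nat_lit 0) (XT.lf (nat_lit 0) (nat_lit 195647788604) (nat_lit 152) (nat_lit 1847593512733) (nat_lit 0) (nat_lit 172294817296) (nat_lit 2) (nat_lit 5) (nat_lit 4) (nat_lit 4) (nat_lit 2) (nat_lit 4) (nat_lit 508) (nat_lit 416) (nat_lit 276)) (XT.nd (nat_lit 78) (nat_lit 0) (nat_lit 0) (XT.lf (nat_lit 0) (nat_lit 343177297376) (nat_lit 152) (nat_lit 1719077142398) (nat_lit 0) (nat_lit 319824289869) (nat_lit 2) (nat_lit 5) (nat_lit 4) (nat_lit 4) (nat_lit 2) (nat_lit 4) (nat_lit 509) (nat_lit 416) (nat_lit 275)) (XT.lf (nat_lit 0) (nat_lit 502508767602) (nat_lit 152) (nat_lit 1580280287297) (nat_lit 0)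 (nat_lit 479155726578) (nat_lit 2) (nat_lit 5) (nat_lit 4) (nat_lit 4) (nat_lit 2) (nat_lit 4) (nat_lit 510) (nat_lit 416) (nat_lit 274))))) (XT.nd (nat_lit 234) (nat_lit 0) (nat_lit 0) (XT.nd (nat_lit 78) (nat_lit 0) (nat_lit 0) (XT.lf (nat_lit 0) (nat_lit 674586385771) (nat_lit 152) (nat_lit 1430380447548) (nat_lit 0) (nat_lit 651233313713) (nat_lit 2) (nat_lit 5) (nat_lit 4) (nat_lit 4) (nat_lit 2) (nat_lit 4) (nat_lit 511) (nat_lit 416) (nat_lit 273)) (XT.nd (nat_lit 78) (nat_lit 0) (nat_lit 0) (XT.lf (nat_lit 0) (nat_lit 860429871103) (nat_lit 152) (nat_lit 1268489327805) (nat_lit 0) (nat_lit 837076770309) (nat_lit 2) (nat_lit 5) (nat_lit 4) (nat_lit 4) (nat_lit 2) (nat_lit 4) (nat_lit 512) (nat_lit 416) (nat_lit 272)) (XT.lf (nat_lit 0) (nat_lit 1061140518324) (nat_lit 152) (nat_lit 1093647573284) (nat_lit 0) (nat_lit 1037787390923) (nat_lit 2) (nat_lit 5) (nat_lit 4) (nat_lit 4)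 (nat_lit 2) (nat_lit 4) (nat_lit 513) (nat_lit 416) (nat_lit 271)))) (XT.nd (nat_lit 156) (nat_lit 0) (nat_lit 0) (XT.nd (nat_lit 78) (nat_lit 0) (nat_lit 0) (XT.lf (nat_lit 0) (nat_lit 1277907723864) (nat_lit 152) (nat_lit 904819084699) (nat_lit 0) (nat_lit 1254554571827) (nat_lit 2) (nat_lit 5) (nat_lit 4) (nat_lit 4) (nat_lit 2) (nat_lit 4) (nat_lit 514) (nat_lit 416) (nat_lit 270)) (XT.lf (nat_lit 0) (nat_lit 1512016034126) (nat_lit 152) (nat_lit 700884878414) (nat_lit 0) (nat_lit 1488662859277) (nat_lit 2) (nat_lit 5) (nat_lit 4) (nat_lit 4) (nat_lit 2) (nat_lit 4) (nat_lit 515) (nat_lit 416) (nat_lit 269))) (XT.nd (nat_lit 78) (nat_lit 0) (nat_lit 0) (XT.lf (nat_lit 0) (nat_lit 1764852757614) (nat_lit 152) (nat_lit 480636455429) (nat_lit 0) (nat_lit 1741499561644) (nat_lit 2) (nat_lit 5) (nat_lit 4) (nat_lit 4) (nat_lit 2) (nat_lit 4) (nat_lit 516) (nat_lit 416) (nat_lit 268)) (XT.lf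 (nat_lit 0) (nat_lit 2037916186024) (nat_lit 152) (nat_lit 242768639904) (nat_lit 0) (nat_lit 2014562970497) (nat_lit 2) (nat_lit 5) (nat_lit 4) (nat_lit 4) (nat_lit 2) (nat_lit 4) (nat_lit 517) (nat_lit 416) (nat_lit 267))))))))
noncomputable def xc135 : XT := (XT.nd (nat_lit 55302) (nat_lit 0) (nat_lit 2888) (XT.nd (nat_lit 936) (nat_lit 0) (nat_lit 0) (XT.nd (nat_lit 468) (nat_lit 0) (nat_lit 0) (XT.nd (nat_lit 234) (nat_lit 0) (nat_lit 0) (XT.nd (nat_lit 78) (nat_lit 0) (nat_lit 0) (XT.lf (nat_lit 0) (nat_lit 14872118832) (nat_lit 76) (nat_lit 2318310028987) (nat_lit 76) (nat_lit 2294956795352) (nat_lit 1) (nat_lit 4) (nat_lit 2) (nat_lit 5) (nat_lit 2) (nat_lit 4) (nat_lit 518) (nat_lit 416) (nat_lit 266)) (XT.nd (nat_lit 78) (nat_lit 0) (nat_lit 0) (XT.lf (nat_lit 0) (nat_lit 306930171567) (nat_lit 76) (nat_lit 2351776729661) (nat_lit 76) (nat_lit 2328423479259) (nat_lit 1) (nat_lit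 4) (nat_lit 2) (nat_lit 5) (nat_lit 2) (nat_lit 4) (nat_lit 519) (nat_lit 416) (nat_lit 265)) (XT.lf (nat_lit 0) (nat_lit 622352466330) (nat_lit 76) (nat_lit 2387920973976) (nat_lit 76) (nat_lit 2364567708049) (nat_lit 1) (nat_lit 4) (nat_lit 2) (nat_lit 5) (nat_lit 2) (nat_lit 4) (nat_lit 520) (nat_lit 416) (nat_lit 264)))) (XT.nd (nat_lit 78) (nat_lit 0) (nat_lit 0) (XT.lf (nat_lit 0) (nat_lit 963008172277) (nat_lit 76) (nat_lit 2426956950047) (nat_lit 76) (nat_lit 2403603669745) (nat_lit 1) (nat_lit 4) (nat_lit 2) (nat_lit 5) (nat_lit 2) (nat_lit 4) (nat_lit 521) (nat_lit 416) (nat_lit 263)) (XT.nd (nat_lit 78) (nat_lit 0) (nat_lit 0) (XT.lf (nat_lit 0) (nat_lit 1330915989886) (nat_lit 76) (nat_lit 2469115982177) (nat_lit 76) (nat_lit 2445762688565) (nat_lit 1) (nat_lit 4) (nat_lit 2) (nat_lit 5) (nat_lit 2) (nat_lit 4) (nat_lit 522) (nat_lit 416) (nat_lit 262)) (XT.lf (nat_lit 0) (nat_lit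 1728256113634) (nat_lit 76) (nat_lit 2514647901667) (nat_lit 76) (nat_lit 2491294595731) (nat_lit 1) (nat_lit 4) (nat_lit 2) (nat_lit 5) (nat_lit 2) (nat_lit 4) (nat_lit 523) (nat_lit 416) (nat_lit 261))))) (XT.nd (nat_lit 234) (nat_lit 0) (nat_lit 0) (XT.nd (nat_lit 78) (nat_lit 0) (nat_lit 0) (XT.lf (nat_lit 0) (nat_lit 2157383151660) (nat_lit 76) (nat_lit 2563822527299) (nat_lit 76) (nat_lit 2540469209951) (nat_lit 1) (nat_lit 4) (nat_lit 2) (nat_lit 5) (nat_lit 2) (nat_lit 4) (nat_lit 524) (nat_lit 416) (nat_lit 260)) (XT.nd (nat_lit 78) (nat_lit 0) (nat_lit 0) (XT.lf (nat_lit 0) (nat_lit 2620840079005) (nat_lit 76) (nat_lit 2616931264263) (nat_lit 76) (nat_lit 2593577936349) (nat_lit 1) (nat_lit 4) (nat_lit 2) (nat_lit 5) (nat_lit 2) (nat_lit 4) (nat_lit 525) (nat_lit 416) (nat_lit 259)) (XT.lf (nat_lit 0) (nat_lit 3121373307089) (nat_lit 76) (nat_lit 2674288830998) (nat_lit 76) (nat_lit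 2650935493301) (nat_lit 1) (nat_lit 4) (nat_lit 2) (nat_lit 5) (nat_lit 2) (nat_lit 4) (nat_lit 526) (nat_lit 416) (nat_lit 258)))) (XT.nd (nat_lit 78) (nat_lit 0) (nat_lit 0) (XT.lf (nat_lit 0) (nat_lit 3661948958747) (nat_lit 76) (nat_lit 2736235124198) (nat_lit 76) (nat_lit 2712881777443) (nat_lit 1) (nat_lit 4) (nat_lit 2) (nat_lit 5) (nat_lit 2) (nat_lit 4) (nat_lit 527) (nat_lit 416) (nat_lit 257)) (XT.nd (nat_lit 78) (nat_lit 0) (nat_lit 0) (XT.lf (nat_lit 0) (nat_lit 4245770445247) (nat_lit 76) (nat_lit 2803137233007) (nat_lit 76) (nat_lit 2779783877864) (nat_lit 1) (nat_lit 4) (nat_lit 2) (nat_lit 5) (nat_lit 2) (nat_lit 4) (nat_lit 528) (nat_lit 416) (nat_lit 256)) (XT.lf (nat_lit 0) (nat_lit 4876297449472) (nat_lit 76) (nat_lit 2875391614367) (nat_lit 76) (nat_lit 2852038251457) (nat_lit 1) (nat_lit 4) (nat_lit 2) (nat_lit 5) (nat_lit 2) (nat_lit 4) (nat_lit 529) (nat_lit 416)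 (nat_lit 255)))))) (XT.nd (nat_lit 53820) (nat_lit 0) (nat_lit 5320) (XT.nd (nat_lit 234) (nat_lit 0) (nat_lit 0) (XT.nd (nat_lit 78) (nat_lit 0) (nat_lit 0) (XT.lf (nat_lit 0) (nat_lit 5557266427743) (nat_lit 76) (nat_lit 2953426442388) (nat_lit 76) (nat_lit 2930073072287) (nat_lit 1) (nat_lit 4) (nat_lit 2) (nat_lit 5) (nat_lit 2) (nat_lit 4) (nat_lit 530) (nat_lit 416) (nat_lit 254)) (XT.nd (nat_lit 78) (nat_lit 0) (nat_lit 0) (XT.lf (nat_lit 0) (nat_lit 6292712751784) (nat_lit 76) (nat_lit 3037704145682) (nat_lit 76) (nat_lit 3014350768923) (nat_lit 1) (nat_lit 4) (nat_lit 2) (nat_lit 5) (nat_lit 2) (nat_lit 4) (nat_lit 531) (nat_lit 416) (nat_lit 253)) (XT.lf (nat_lit 0) (nat_lit 7086994622033) (nat_lit 76) (nat_lit 3128724147675) (nat_lit 76) (nat_lit 3105370764750) (nat_lit 1) (nat_lit 4) (nat_lit 2) (nat_lit 5) (nat_lit 2) (nat_lit 4) (nat_lit 532) (nat_lit 416) (nat_lit 252))))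 (XT.nd (nat_lit 53430) (nat_lit 0) (nat_lit 6080) (XT.lf (nat_lit 0) (nat_lit 7944818894018) (nat_lit 76) (nat_lit 3227025826157) (nat_lit 76) (nat_lit 3203672437524) (nat_lit 1) (nat_lit 4) (nat_lit 2) (nat_lit 5) (nat_lit 2) (nat_lit 4) (nat_lit 533) (nat_lit 416) (nat_lit 251)) (XT.nd (nat_lit 78) (nat_lit 0) (nat_lit 0) (XT.lf (nat_lit 0) (nat_lit 6084429360) (nat_lit 532) (nat_lit 762253551) (nat_lit 532) (nat_lit 762253551) (nat_lit 81) (nat_lit 3) (nat_lit 88) (nat_lit 3) (nat_lit 88) (nat_lit 5) (nat_lit 417) (nat_lit 417) (nat_lit 366)) (XT.lf (nat_lit 76) (nat_lit 6341294043) (nat_lit 0) (nat_lit 6740110130) (nat_lit 532) (nat_lit 2711047310) (nat_lit 82) (nat_lit 5) (nat_lit 81) (nat_lit 3) (nat_lit 88) (nat_lit 5) (nat_lit 418) (nat_lit 417) (nat_lit 365))))) (XT.nd (nat_lit 234) (nat_lit 836) (nat_lit 0) (XT.nd (nat_lit 78) (nat_lit 0) (nat_lit 0) (XT.lf (nat_lit 0) (nat_lit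 14100800267) (nat_lit 456) (nat_lit 1524252158) (nat_lit 532) (nat_lit 785243450) (nat_lit 82) (nat_lit 5) (nat_lit 88) (nat_lit 5) (nat_lit 89) (nat_lit 5) (nat_lit 419) (nat_lit 417) (nat_lit 364)) (XT.nd (nat_lit 78) (nat_lit 0) (nat_lit 0) (XT.lf (nat_lit 76) (nat_lit 7205459090) (nat_lit 0) (nat_lit 8319256902) (nat_lit 532) (nat_lit 1527021162) (nat_lit 83) (nat_lit 5) (nat_lit 82) (nat_lit 5) (nat_lit 89) (nat_lit 5) (nat_lit 420) (nat_lit 417) (nat_lit 363)) (XT.lf (nat_lit 76) (nat_lit 16703931318) (nat_lit 0) (nat_lit 376386881) (nat_lit 532) (nat_lit 662759945) (nat_lit 83) (nat_lit 5) (nat_lit 82) (nat_lit 5) (nat_lit 89) (nat_lit 5) (nat_lit 421) (nat_lit 417) (nat_lit 362)))) (XT.nd (nat_lit 156) (nat_lit 380) (nat_lit 0) (XT.nd (nat_lit 78) (nat_lit 0) (nat_lit 0) (XT.lf (nat_lit 0) (nat_lit 651444844) (nat_lit 532) (nat_lit 9782351020) (nat_lit 608) (nat_lit 8023867903)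 (nat_lit 76) (nat_lit 5) (nat_lit 83) (nat_lit 5) (nat_lit 84) (nat_lit 5) (nat_lit 422) (nat_lit 417) (nat_lit 361)) (XT.lf (nat_lit 0) (nat_lit 2052627189) (nat_lit 532) (nat_lit 46579490) (nat_lit 608) (nat_lit 17127425580) (nat_lit 76) (nat_lit 5) (nat_lit 83) (nat_lit 5) (nat_lit 84) (nat_lit 5) (nat_lit 423) (nat_lit 417) (nat_lit 360))) (XT.nd (nat_lit 78) (nat_lit 456) (nat_lit 0) (XT.lf (nat_lit 0) (nat_lit 3983748205) (nat_lit 532) (nat_lit 9208481512) (nat_lit 76) (nat_lit 6831465592) (nat_lit 77) (nat_lit 5) (nat_lit 84) (nat_lit 5) (nat_lit 78) (nat_lit 5) (nat_lit 424) (nat_lit 417) (nat_lit 359)) (XT.lf (nat_lit 0) (nat_lit 1675893056) (nat_lit 456) (nat_lit 4471037532) (nat_lit 532) (nat_lit 14731391347) (nat_lit 71) (nat_lit 5) (nat_lit 77) (nat_lit 5) (nat_lit 78) (nat_lit 5) (nat_lit 425) (nat_lit 417) (nat_lit 358))))))) (XT.nd (nat_lit 936) (nat_lit 1140) (nat_lit 0)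 (XT.nd (nat_lit 468) (nat_lit 608) (nat_lit 0) (XT.nd (nat_lit 234) (nat_lit 456) (nat_lit 0) (XT.nd (nat_lit 78) (nat_lit 228) (nat_lit 0) (XT.lf (nat_lit 0) (nat_lit 8842889405) (nat_lit 532) (nat_lit 7970541183) (nat_lit 76) (nat_lit 4959114305) (nat_lit 71) (nat_lit 5) (nat_lit 78) (nat_lit 5) (nat_lit 72) (nat_lit 5) (nat_lit 426) (nat_lit 417) (nat_lit 357)) (XT.nd (nat_lit 78) (nat_lit 0) (nat_lit 0) (XT.lf (nat_lit 0) (nat_lit 4238632537) (nat_lit 228) (nat_lit 7717675490) (nat_lit 304) (nat_lit 10765858669) (nat_lit 68) (nat_lit 5) (nat_lit 71) (nat_lit 5) (nat_lit 72) (nat_lit 5) (nat_lit 427) (nat_lit 417) (nat_lit 356)) (XT.lf (nat_lit 0) (nat_lit 15577519431) (nat_lit 304) (nat_lit 5926740678) (nat_lit 76) (nat_lit 2222803977) (nat_lit 68) (nat_lit 5) (nat_lit 72) (nat_lit 5) (nat_lit 69) (nat_lit 5) (nat_lit 428) (nat_lit 417) (nat_lit 355)))) (XT.nd (nat_lit 78) (nat_lit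 228) (nat_lit 0) (XT.lf (nat_lit 0) (nat_lit 7808114928) (nat_lit 228) (nat_lit 12054193371) (nat_lit 304) (nat_lit 4920137660) (nat_lit 65) (nat_lit 5) (nat_lit 68) (nat_lit 5) (nat_lit 69) (nat_lit 5) (nat_lit 429) (nat_lit 417) (nat_lit 354)) (XT.nd (nat_lit 78) (nat_lit 228) (nat_lit 0) (XT.lf (nat_lit 0) (nat_lit 22962622851) (nat_lit 228) (nat_lit 1675615618) (nat_lit 304) (nat_lit 1272154161) (nat_lit 65) (nat_lit 5) (nat_lit 68) (nat_lit 5) (nat_lit 69) (nat_lit 5) (nat_lit 430) (nat_lit 417) (nat_lit 353)) (XT.lf (nat_lit 0) (nat_lit 3066923372) (nat_lit 228) (nat_lit 14579433510) (nat_lit 76) (nat_lit 9434471809) (nat_lit 62) (nat_lit 5) (nat_lit 65) (nat_lit 5) (nat_lit 63) (nat_lit 5) (nat_lit 431) (nat_lit 417) (nat_lit 352))))) (XT.nd (nat_lit 234) (nat_lit 228) (nat_lit 0) (XT.nd (nat_lit 78) (nat_lit 152) (nat_lit 0) (XT.lf (nat_lit 0) (nat_lit 969301305) (nat_lit 228) (nat_lit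 6852140901) (nat_lit 304) (nat_lit 20509852743) (nat_lit 59) (nat_lit 5) (nat_lit 62) (nat_lit 5) (nat_lit 63) (nat_lit 5) (nat_lit 432) (nat_lit 417) (nat_lit 351)) (XT.nd (nat_lit 78) (nat_lit 152) (nat_lit 0) (XT.lf (nat_lit 0) (nat_lit 13468850211) (nat_lit 304) (nat_lit 11201422715) (nat_lit 76) (nat_lit 4970525501) (nat_lit 59) (nat_lit 5) (nat_lit 63) (nat_lit 5) (nat_lit 60) (nat_lit 5) (nat_lit 433) (nat_lit 417) (nat_lit 350)) (XT.lf (nat_lit 0) (nat_lit 6377619478) (nat_lit 152) (nat_lit 13510653056) (nat_lit 228) (nat_lit 11141173891) (nat_lit 57) (nat_lit 5) (nat_lit 59) (nat_lit 5) (nat_lit 60) (nat_lit 5) (nat_lit 434) (nat_lit 417) (nat_lit 349)))) (XT.nd (nat_lit 78) (nat_lit 228) (nat_lit 0) (XT.lf (nat_lit 0) (nat_lit 25984979464) (nat_lit 152) (nat_lit 1131861327) (nat_lit 228) (nat_lit 5388699930) (nat_lit 57) (nat_lit 5) (nat_lit 59) (nat_lit 5) (nat_lit 60) (nat_lit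 5) (nat_lit 435) (nat_lit 417) (nat_lit 348)) (XT.nd (nat_lit 78) (nat_lit 0) (nat_lit 0) (XT.lf (nat_lit 0) (nat_lit 1405689648) (nat_lit 228) (nat_lit 20662947157) (nat_lit 76) (nat_lit 11979667111) (nat_lit 54) (nat_lit 5) (nat_lit 57) (nat_lit 5) (nat_lit 55) (nat_lit 5) (nat_lit 436) (nat_lit 417) (nat_lit 347)) (XT.lf (nat_lit 0) (nat_lit 8654979120) (nat_lit 228) (nat_lit 634413806) (nat_lit 76) (nat_lit 26397701115) (nat_lit 54) (nat_lit 5) (nat_lit 57) (nat_lit 5) (nat_lit 55) (nat_lit 5) (nat_lit 437) (nat_lit 417) (nat_lit 346)))))) (XT.nd (nat_lit 468) (nat_lit 532) (nat_lit 0) (XT.nd (nat_lit 234) (nat_lit 304) (nat_lit 0) (XT.nd (nat_lit 78) (nat_lit 152) (nat_lit 0) (XT.lf (nat_lit 0) (nat_lit 17128519552) (nat_lit 228) (nat_lit 15449787764) (nat_lit 76) (nat_lit 4827136781) (nat_lit 52) (nat_lit 5) (nat_lit 55) (nat_lit 5) (nat_lit 53) (nat_lit 5) (nat_lit 438) (nat_lit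 417) (nat_lit 345)) (XT.nd (nat_lit 78) (nat_lit 0) (nat_lit 0) (XT.lf (nat_lit 0) (nat_lit 7235427534) (nat_lit 152) (nat_lit 19468744789) (nat_lit 228) (nat_lit 12523152750) (nat_lit 50) (nat_lit 5) (nat_lit 52) (nat_lit 5) (nat_lit 53) (nat_lit 5) (nat_lit 439) (nat_lit 417) (nat_lit 344)) (XT.lf (nat_lit 0) (nat_lit 32600533966) (nat_lit 152) (nat_lit 4859235499) (nat_lit 228) (nat_lit 3702076844) (nat_lit 50) (nat_lit 5) (nat_lit 52) (nat_lit 5) (nat_lit 53) (nat_lit 5) (nat_lit 440) (nat_lit 417) (nat_lit 343)))) (XT.nd (nat_lit 78) (nat_lit 152) (nat_lit 0) (XT.lf (nat_lit 0) (nat_lit 6222254082) (nat_lit 152) (nat_lit 26019726555) (nat_lit 76) (nat_lit 10942827427) (nat_lit 48) (nat_lit 5) (nat_lit 50) (nat_lit 5) (nat_lit 49) (nat_lit 5) (nat_lit 441) (nat_lit 417) (nat_lit 342)) (XT.nd (nat_lit 78) (nat_lit 152) (nat_lit 0) (XT.lf (nat_lit 0) (nat_lit 17098971201) (nat_lit 152)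 (nat_lit 156027852) (nat_lit 76) (nat_lit 28078240152) (nat_lit 48) (nat_lit 5) (nat_lit 50) (nat_lit 5) (nat_lit 49) (nat_lit 5) (nat_lit 442) (nat_lit 417) (nat_lit 341)) (XT.lf (nat_lit 0) (nat_lit 29226603418) (nat_lit 152) (nat_lit 314782626) (nat_lit 228) (nat_lit 18056514812) (nat_lit 46) (nat_lit 5) (nat_lit 48) (nat_lit 5) (nat_lit 49) (nat_lit 5) (nat_lit 443) (nat_lit 417) (nat_lit 340))))) (XT.nd (nat_lit 234) (nat_lit 228) (nat_lit 0) (XT.nd (nat_lit 78) (nat_lit 228) (nat_lit 0) (XT.lf (nat_lit 0) (nat_lit 11032320496) (nat_lit 76) (nat_lit 32641815219) (nat_lit 152) (nat_lit 6314005178) (nat_lit 45) (nat_lit 5) (nat_lit 46) (nat_lit 5) (nat_lit 47) (nat_lit 4) (nat_lit 444) (nat_lit 417) (nat_lit 339)) (XT.nd (nat_lit 78) (nat_lit 152) (nat_lit 0) (XT.lf (nat_lit 0) (nat_lit 6565748376) (nat_lit 152) (nat_lit 8883170743) (nat_lit 76) (nat_lit 37067118499) (nat_lit 44) (nat_lit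 5) (nat_lit 46) (nat_lit 5) (nat_lit 45) (nat_lit 5) (nat_lit 445) (nat_lit 417) (nat_lit 338)) (XT.lf (nat_lit 0) (nat_lit 20815626115) (nat_lit 228) (nat_lit 30627655612) (nat_lit 76) (nat_lit 3735295834) (nat_lit 42) (nat_lit 5) (nat_lit 45) (nat_lit 5) (nat_lit 43) (nat_lit 4) (nat_lit 446) (nat_lit 417) (nat_lit 337)))) (XT.nd (nat_lit 156) (nat_lit 152) (nat_lit 0) (XT.nd (nat_lit 78) (nat_lit 0) (nat_lit 0) (XT.lf (nat_lit 0) (nat_lit 2853837121) (nat_lit 76) (nat_lit 34064250477) (nat_lit 152) (nat_lit 21079026194) (nat_lit 41) (nat_lit 5) (nat_lit 42) (nat_lit 5) (nat_lit 43) (nat_lit 4) (nat_lit 447) (nat_lit 417) (nat_lit 336)) (XT.lf (nat_lit 0) (nat_lit 40744374790) (nat_lit 76) (nat_lit 14395493361) (nat_lit 152) (nat_lit 5834775532) (nat_lit 41) (nat_lit 5) (nat_lit 42) (nat_lit 5) (nat_lit 43) (nat_lit 4) (nat_lit 448) (nat_lit 417) (nat_lit 335))) (XT.nd (nat_lit 78) (nat_lit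 0) (nat_lit 0) (XT.lf (nat_lit 0) (nat_lit 10709516820) (nat_lit 152) (nat_lit 46202463693) (nat_lit 76) (nat_lit 7208969024) (nat_lit 39) (nat_lit 5) (nat_lit 41) (nat_lit 5) (nat_lit 40) (nat_lit 4) (nat_lit 449) (nat_lit 417) (nat_lit 334)) (XT.lf (nat_lit 0) (nat_lit 29197629417) (nat_lit 152) (nat_lit 7755735795) (nat_lit 76) (nat_lit 30478630359) (nat_lit 39) (nat_lit 5) (nat_lit 41) (nat_lit 5) (nat_lit 40) (nat_lit 4) (nat_lit 450) (nat_lit 417) (nat_lit 333))))))))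
noncomputable def xc136 : XT := (XT.nd (nat_lit 1950) (nat_lit 912) (nat_lit 0) (XT.nd (nat_lit 936) (nat_lit 836) (nat_lit 0) (XT.nd (nat_lit 468) (nat_lit 380) (nat_lit 0) (XT.nd (nat_lit 234) (nat_lit 228) (nat_lit 0) (XT.nd (nat_lit 78) (nat_lit 152) (nat_lit 0) (XT.lf (nat_lit 0) (nat_lit 35534249102) (nat_lit 76) (nat_lit 14479677499) (nat_lit 152) (nat_lit 20926068233) (nat_lit 38) (nat_lit 5) (nat_lit 39) (nat_lit 5) (nat_lit 40) (nat_lit 4) (nat_lit 451) (nat_lit 417) (nat_lit 332)) (XT.nd (nat_lit 78) (nat_lit 76) (nat_lit 0) (XT.lf (nat_lit 0) (nat_lit 8174654980) (nat_lit 76) (nat_lit 64965129305) (nat_lit 76) (nat_lit 1537309577) (nat_lit 37) (nat_lit 4) (nat_lit 38) (nat_lit 5) (nat_lit 38) (nat_lit 4) (nat_lit 452) (nat_lit 417) (nat_lit 331)) (XT.lf (nat_lit 0) (nat_lit 19795875156) (nat_lit 152) (nat_lit 22258681191) (nat_lit 76) (nat_lit 36512160674) (nat_lit 36) (nat_lit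 5) (nat_lit 38) (nat_lit 5) (nat_lit 37) (nat_lit 4) (nat_lit 453) (nat_lit 417) (nat_lit 330)))) (XT.nd (nat_lit 78) (nat_lit 152) (nat_lit 0) (XT.lf (nat_lit 0) (nat_lit 26816742869) (nat_lit 76) (nat_lit 16575882542) (nat_lit 152) (nat_lit 39320493270) (nat_lit 35) (nat_lit 5) (nat_lit 36) (nat_lit 5) (nat_lit 37) (nat_lit 4) (nat_lit 454) (nat_lit 417) (nat_lit 329)) (XT.nd (nat_lit 78) (nat_lit 152) (nat_lit 0) (XT.lf (nat_lit 0) (nat_lit 69759715327) (nat_lit 152) (nat_lit 6346845606) (nat_lit 0) (nat_lit 11014063837) (nat_lit 35) (nat_lit 5) (nat_lit 37) (nat_lit 4) (nat_lit 35) (nat_lit 4) (nat_lit 455) (nat_lit 417) (nat_lit 328)) (XT.lf (nat_lit 0) (nat_lit 7688252928) (nat_lit 152) (nat_lit 42758702700) (nat_lit 76) (nat_lit 41289489126) (nat_lit 33) (nat_lit 5) (nat_lit 35) (nat_lit 5) (nat_lit 34) (nat_lit 4) (nat_lit 456) (nat_lit 417) (nat_lit 327))))) (XT.nd (nat_lit 234)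 (nat_lit 228) (nat_lit 0) (XT.nd (nat_lit 78) (nat_lit 76) (nat_lit 0) (XT.lf (nat_lit 0) (nat_lit 12544957969) (nat_lit 76) (nat_lit 21733648780) (nat_lit 152) (nat_lit 62368833302) (nat_lit 32) (nat_lit 5) (nat_lit 33) (nat_lit 5) (nat_lit 34) (nat_lit 4) (nat_lit 457) (nat_lit 417) (nat_lit 326)) (XT.nd (nat_lit 78) (nat_lit 76) (nat_lit 0) (XT.lf (nat_lit 0) (nat_lit 64414242717) (nat_lit 152) (nat_lit 27415406415) (nat_lit 0) (nat_lit 10008221731) (nat_lit 32) (nat_lit 5) (nat_lit 34) (nat_lit 4) (nat_lit 32) (nat_lit 4) (nat_lit 458) (nat_lit 417) (nat_lit 325)) (XT.lf (nat_lit 0) (nat_lit 34984034191) (nat_lit 76) (nat_lit 63378390673) (nat_lit 76) (nat_lit 8968975833) (nat_lit 31) (nat_lit 4) (nat_lit 32) (nat_lit 5) (nat_lit 32) (nat_lit 4) (nat_lit 459) (nat_lit 417) (nat_lit 324)))) (XT.nd (nat_lit 78) (nat_lit 152) (nat_lit 0) (XT.lf (nat_lit 0) (nat_lit 21438309912) (nat_lit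 152) (nat_lit 9820872680) (nat_lit 76) (nat_lit 81902169293) (nat_lit 30) (nat_lit 5) (nat_lit 32) (nat_lit 5) (nat_lit 31) (nat_lit 4) (nat_lit 460) (nat_lit 417) (nat_lit 323)) (XT.nd (nat_lit 78) (nat_lit 76) (nat_lit 0) (XT.lf (nat_lit 0) (nat_lit 55370859989) (nat_lit 152) (nat_lit 58955855021) (nat_lit 0) (nat_lit 4986168339) (nat_lit 29) (nat_lit 5) (nat_lit 31) (nat_lit 4) (nat_lit 29) (nat_lit 4) (nat_lit 461) (nat_lit 417) (nat_lit 322)) (XT.lf (nat_lit 0) (nat_lit 10469906577) (nat_lit 76) (nat_lit 82883493135) (nat_lit 76) (nat_lit 32496306901) (nat_lit 28) (nat_lit 4) (nat_lit 29) (nat_lit 5) (nat_lit 29) (nat_lit 4) (nat_lit 462) (nat_lit 417) (nat_lit 321)))))) (XT.nd (nat_lit 468) (nat_lit 456) (nat_lit 0) (XT.nd (nat_lit 234) (nat_lit 228) (nat_lit 0) (XT.nd (nat_lit 78) (nat_lit 76) (nat_lit 0) (XT.lf (nat_lit 0) (nat_lit 3041777445) (nat_lit 152) (nat_lit 44062598948)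 (nat_lit 76) (nat_lit 85670280736) (nat_lit 27) (nat_lit 5) (nat_lit 29) (nat_lit 5) (nat_lit 28) (nat_lit 4) (nat_lit 463) (nat_lit 417) (nat_lit 320)) (XT.nd (nat_lit 78) (nat_lit 0) (nat_lit 0) (XT.lf (nat_lit 0) (nat_lit 33799700757) (nat_lit 76) (nat_lit 6676902846) (nat_lit 152) (nat_lit 99644728219) (nat_lit 26) (nat_lit 5) (nat_lit 27) (nat_lit 5) (nat_lit 28) (nat_lit 4) (nat_lit 464) (nat_lit 417) (nat_lit 319)) (XT.lf (nat_lit 0) (nat_lit 83028214730) (nat_lit 152) (nat_lit 28490305870) (nat_lit 0) (nat_lit 36367460080) (nat_lit 26) (nat_lit 5) (nat_lit 28) (nat_lit 4) (nat_lit 26) (nat_lit 4) (nat_lit 465) (nat_lit 417) (nat_lit 318)))) (XT.nd (nat_lit 78) (nat_lit 152) (nat_lit 0) (XT.lf (nat_lit 0) (nat_lit 58304200366) (nat_lit 76) (nat_lit 72252131704) (nat_lit 76) (nat_lit 25589679282) (nat_lit 25) (nat_lit 4) (nat_lit 26) (nat_lit 5) (nat_lit 26) (nat_lit 4) (nat_lit 466)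 (nat_lit 417) (nat_lit 317)) (XT.nd (nat_lit 78) (nat_lit 76) (nat_lit 0) (XT.lf (nat_lit 0) (nat_lit 16774406234) (nat_lit 152) (nat_lit 11773259465) (nat_lit 76) (nat_lit 136423141492) (nat_lit 24) (nat_lit 5) (nat_lit 26) (nat_lit 5) (nat_lit 25) (nat_lit 4) (nat_lit 467) (nat_lit 417) (nat_lit 316)) (XT.lf (nat_lit 0) (nat_lit 63699064406) (nat_lit 152) (nat_lit 90054746123) (nat_lit 0) (nat_lit 20490286629) (nat_lit 23) (nat_lit 5) (nat_lit 25) (nat_lit 4) (nat_lit 23) (nat_lit 4) (nat_lit 468) (nat_lit 417) (nat_lit 315))))) (XT.nd (nat_lit 234) (nat_lit 228) (nat_lit 0) (XT.nd (nat_lit 78) (nat_lit 152) (nat_lit 0) (XT.lf (nat_lit 0) (nat_lit 3693906666) (nat_lit 76) (nat_lit 111841381008) (nat_lit 76) (nat_lit 68631355317) (nat_lit 22) (nat_lit 4) (nat_lit 23) (nat_lit 5) (nat_lit 23) (nat_lit 4) (nat_lit 469) (nat_lit 417) (nat_lit 314)) (XT.nd (nat_lit 78) (nat_lit 152) (nat_lit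 0) (XT.lf (nat_lit 0) (nat_lit 110058051459) (nat_lit 76) (nat_lit 63919687909) (nat_lit 76) (nat_lit 20708506743) (nat_lit 22) (nat_lit 4) (nat_lit 23) (nat_lit 5) (nat_lit 23) (nat_lit 4) (nat_lit 470) (nat_lit 417) (nat_lit 313)) (XT.lf (nat_lit 0) (nat_lit 19086375643) (nat_lit 76) (nat_lit 10864887190) (nat_lit 152) (nat_lit 175999918096) (nat_lit 20) (nat_lit 5) (nat_lit 21) (nat_lit 5) (nat_lit 22) (nat_lit 4) (nat_lit 471) (nat_lit 417) (nat_lit 312)))) (XT.nd (nat_lit 156) (nat_lit 152) (nat_lit 0) (XT.nd (nat_lit 78) (nat_lit 76) (nat_lit 0) (XT.lf (nat_lit 0) (nat_lit 87032977187) (nat_lit 152) (nat_lit 83741549526) (nat_lit 0) (nat_lit 47020716368) (nat_lit 20) (nat_lit 5) (nat_lit 22) (nat_lit 4) (nat_lit 20) (nat_lit 4) (nat_lit 472) (nat_lit 417) (nat_lit 311)) (XT.lf (nat_lit 0) (nat_lit 28784061235) (nat_lit 76) (nat_lit 120869063721) (nat_lit 76) (nat_lit 80855953593)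 (nat_lit 19) (nat_lit 4) (nat_lit 20) (nat_lit 5) (nat_lit 20) (nat_lit 4) (nat_lit 473) (nat_lit 417) (nat_lit 310))) (XT.nd (nat_lit 78) (nat_lit 152) (nat_lit 0) (XT.lf (nat_lit 0) (nat_lit 155069112609) (nat_lit 76) (nat_lit 64500916620) (nat_lit 76) (nat_lit 24487020095) (nat_lit 19) (nat_lit 4) (nat_lit 20) (nat_lit 5) (nat_lit 20) (nat_lit 4) (nat_lit 474) (nat_lit 417) (nat_lit 309)) (XT.lf (nat_lit 0) (nat_lit 33567251250) (nat_lit 76) (nat_lit 1808650634) (nat_lit 152) (nat_lit 223178545099) (nat_lit 17) (nat_lit 5) (nat_lit 18) (nat_lit 5) (nat_lit 19) (nat_lit 4) (nat_lit 475) (nat_lit 417) (nat_lit 308))))))) (XT.nd (nat_lit 936) (nat_lit 380) (nat_lit 0) (XT.nd (nat_lit 468) (nat_lit 304) (nat_lit 0) (XT.nd (nat_lit 234) (nat_lit 152) (nat_lit 0) (XT.nd (nat_lit 78) (nat_lit 76) (nat_lit 0) (XT.lf (nat_lit 0) (nat_lit 102783712776) (nat_lit 152) (nat_lit 105318228263) (nat_lit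 0) (nat_lit 65732510110) (nat_lit 17) (nat_lit 5) (nat_lit 19) (nat_lit 4) (nat_lit 17) (nat_lit 4) (nat_lit 476) (nat_lit 417) (nat_lit 307)) (XT.nd (nat_lit 78) (nat_lit 0) (nat_lit 0) (XT.lf (nat_lit 0) (nat_lit 25129916006) (nat_lit 76) (nat_lit 151103393734) (nat_lit 76) (nat_lit 114051613043) (nat_lit 16) (nat_lit 4) (nat_lit 17) (nat_lit 5) (nat_lit 17) (nat_lit 4) (nat_lit 477) (nat_lit 417) (nat_lit 306)) (XT.lf (nat_lit 0) (nat_lit 171999102927) (nat_lit 76) (nat_lit 86437224458) (nat_lit 76) (nat_lit 49384908558) (nat_lit 16) (nat_lit 4) (nat_lit 17) (nat_lit 5) (nat_lit 17) (nat_lit 4) (nat_lit 478) (nat_lit 417) (nat_lit 305)))) (XT.nd (nat_lit 78) (nat_lit 0) (nat_lit 0) (XT.lf (nat_lit 0) (nat_lit 3538289363) (nat_lit 76) (nat_lit 15976662957) (nat_lit 152) (nat_lit 307199500658) (nat_lit 14) (nat_lit 5) (nat_lit 15) (nat_lit 5) (nat_lit 16) (nat_lit 4) (nat_lit 479) (nat_lit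 417) (nat_lit 304)) (XT.nd (nat_lit 78) (nat_lit 0) (nat_lit 0) (XT.lf (nat_lit 0) (nat_lit 96512691500) (nat_lit 152) (nat_lit 187879393458) (nat_lit 0) (nat_lit 62204107872) (nat_lit 14) (nat_lit 5) (nat_lit 16) (nat_lit 4) (nat_lit 14) (nat_lit 4) (nat_lit 480) (nat_lit 417) (nat_lit 303)) (XT.lf (nat_lit 0) (nat_lit 180083354435) (nat_lit 152) (nat_lit 42177691673) (nat_lit 0) (nat_lit 145774377412) (nat_lit 14) (nat_lit 5) (nat_lit 16) (nat_lit 4) (nat_lit 14) (nat_lit 4) (nat_lit 481) (nat_lit 417) (nat_lit 302))))) (XT.nd (nat_lit 234) (nat_lit 76) (nat_lit 0) (XT.nd (nat_lit 78) (nat_lit 152) (nat_lit 0) (XT.lf (nat_lit 0) (nat_lit 121241593918) (nat_lit 76) (nat_lit 152012204887) (nat_lit 76) (nat_lit 117702863610) (nat_lit 13) (nat_lit 4) (nat_lit 14) (nat_lit 5) (nat_lit 14) (nat_lit 4) (nat_lit 482) (nat_lit 417) (nat_lit 301)) (XT.nd (nat_lit 78) (nat_lit 152) (nat_lit 0) (XT.lf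 (nat_lit 0) (nat_lit 300129646980) (nat_lit 76) (nat_lit 74899755071) (nat_lit 76) (nat_lit 40590076522) (nat_lit 13) (nat_lit 4) (nat_lit 14) (nat_lit 5) (nat_lit 14) (nat_lit 4) (nat_lit 483) (nat_lit 417) (nat_lit 300)) (XT.lf (nat_lit 0) (nat_lit 42082551621) (nat_lit 152) (nat_lit 389654473334) (nat_lit 0) (nat_lit 10314041586) (nat_lit 11) (nat_lit 5) (nat_lit 13) (nat_lit 4) (nat_lit 11) (nat_lit 4) (nat_lit 484) (nat_lit 417) (nat_lit 299)))) (XT.nd (nat_lit 78) (nat_lit 76) (nat_lit 0) (XT.lf (nat_lit 0) (nat_lit 134359631935) (nat_lit 152) (nat_lit 233147667621) (nat_lit 0) (nat_lit 102590854162) (nat_lit 11) (nat_lit 5) (nat_lit 13) (nat_lit 4) (nat_lit 11) (nat_lit 4) (nat_lit 485) (nat_lit 417) (nat_lit 298)) (XT.nd (nat_lit 78) (nat_lit 76) (nat_lit 0) (XT.lf (nat_lit 0) (nat_lit 234017394783) (nat_lit 152) (nat_lit 64123362705) (nat_lit 0) (nat_lit 202248369105) (nat_lit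 11) (nat_lit 5) (nat_lit 13) (nat_lit 4) (nat_lit 11) (nat_lit 4) (nat_lit 486) (nat_lit 417) (nat_lit 297)) (XT.lf (nat_lit 0) (nat_lit 124655857789) (nat_lit 76) (nat_lit 219988523275) (nat_lit 76) (nat_lit 188219268054) (nat_lit 10) (nat_lit 4) (nat_lit 11) (nat_lit 5) (nat_lit 11) (nat_lit 4) (nat_lit 487) (nat_lit 417) (nat_lit 296)))))) (XT.nd (nat_lit 468) (nat_lit 152) (nat_lit 0) (XT.nd (nat_lit 234) (nat_lit 76) (nat_lit 0) (XT.nd (nat_lit 78) (nat_lit 152) (nat_lit 0) (XT.lf (nat_lit 0) (nat_lit 332181420083) (nat_lit 76) (nat_lit 133692014243) (nat_lit 76) (nat_lit 101922546484) (nat_lit 10) (nat_lit 4) (nat_lit 11) (nat_lit 5) (nat_lit 11) (nat_lit 4) (nat_lit 488) (nat_lit 417) (nat_lit 295)) (XT.nd (nat_lit 78) (nat_lit 152) (nat_lit 0) (XT.lf (nat_lit 0) (nat_lit 556306482642) (nat_lit 76) (nat_lit 40493090047) (nat_lit 76) (nat_lit 8723425493) (nat_lit 10) (nat_lit 4) (nat_lit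 11) (nat_lit 5) (nat_lit 11) (nat_lit 4) (nat_lit 489) (nat_lit 417) (nat_lit 294)) (XT.lf (nat_lit 0) (nat_lit 92728931837) (nat_lit 152) (nat_lit 489618273532) (nat_lit 0) (nat_lit 63312407048) (nat_lit 8) (nat_lit 5) (nat_lit 10) (nat_lit 4) (nat_lit 8) (nat_lit 4) (nat_lit 490) (nat_lit 417) (nat_lit 293)))) (XT.nd (nat_lit 78) (nat_lit 76) (nat_lit 0) (XT.lf (nat_lit 0) (nat_lit 204257398126) (nat_lit 152) (nat_lit 309696417005) (nat_lit 0) (nat_lit 174840717115) (nat_lit 8) (nat_lit 5) (nat_lit 10) (nat_lit 4) (nat_lit 8) (nat_lit 4) (nat_lit 491) (nat_lit 417) (nat_lit 292)) (XT.nd (nat_lit 78) (nat_lit 76) (nat_lit 0) (XT.lf (nat_lit 0) (nat_lit 324707053036) (nat_lit 152) (nat_lit 115383052355) (nat_lit 0) (nat_lit 295290227375) (nat_lit 8) (nat_lit 5) (nat_lit 10) (nat_lit 4) (nat_lit 8) (nat_lit 4) (nat_lit 492) (nat_lit 417) (nat_lit 291)) (XT.lf (nat_lit 0) (nat_lit 99448103949)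 (nat_lit 76) (nat_lit 357735297641) (nat_lit 76) (nat_lit 328318338044) (nat_lit 7) (nat_lit 4) (nat_lit 8) (nat_lit 5) (nat_lit 8) (nat_lit 4) (nat_lit 493) (nat_lit 417) (nat_lit 290))))) (XT.nd (nat_lit 234) (nat_lit 152) (nat_lit 0) (XT.nd (nat_lit 78) (nat_lit 0) (nat_lit 0) (XT.lf (nat_lit 0) (nat_lit 338025667259) (nat_lit 76) (nat_lit 265385985899) (nat_lit 76) (nat_lit 235968902289) (nat_lit 7) (nat_lit 4) (nat_lit 8) (nat_lit 5) (nat_lit 8) (nat_lit 4) (nat_lit 494) (nat_lit 417) (nat_lit 289)) (XT.nd (nat_lit 78) (nat_lit 0) (nat_lit 0) (XT.lf (nat_lit 0) (nat_lit 595687563480) (nat_lit 76) (nat_lit 165649692116) (nat_lit 76) (nat_lit 136232493677) (nat_lit 7) (nat_lit 4) (nat_lit 8) (nat_lit 5) (nat_lit 8) (nat_lit 4) (nat_lit 495) (nat_lit 417) (nat_lit 288)) (XT.lf (nat_lit 0) (nat_lit 873960677923) (nat_lit 76) (nat_lit 57935386400) (nat_lit 76) (nat_lit 28518081638) (nat_lit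 7) (nat_lit 4) (nat_lit 8) (nat_lit 5) (nat_lit 8) (nat_lit 4) (nat_lit 496) (nat_lit 417) (nat_lit 287)))) (XT.nd (nat_lit 156) (nat_lit 0) (nat_lit 0) (XT.nd (nat_lit 78) (nat_lit 0) (nat_lit 0) (XT.lf (nat_lit 0) (nat_lit 88621911632) (nat_lit 152) (nat_lit 877695556970) (nat_lit 0) (nat_lit 61383575329) (nat_lit 5) (nat_lit 5) (nat_lit 7) (nat_lit 4) (nat_lit 5) (nat_lit 4) (nat_lit 497) (nat_lit 417) (nat_lit 286)) (XT.lf (nat_lit 0) (nat_lit 217521591618) (nat_lit 152) (nat_lit 692192536511) (nat_lit 0) (nat_lit 190283170912) (nat_lit 5) (nat_lit 5) (nat_lit 7) (nat_lit 4) (nat_lit 5) (nat_lit 4) (nat_lit 498) (nat_lit 417) (nat_lit 285))) (XT.nd (nat_lit 78) (nat_lit 0) (nat_lit 0) (XT.lf (nat_lit 0) (nat_lit 356732506154) (nat_lit 152) (nat_lit 491850800297) (nat_lit 0) (nat_lit 329494007298) (nat_lit 5) (nat_lit 5) (nat_lit 7) (nat_lit 4) (nat_lit 5) (nat_lit 4) (nat_lit 499) (nat_lit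 417) (nat_lit 284)) (XT.lf (nat_lit 0) (nat_lit 507079608809) (nat_lit 152) (nat_lit 275483138042) (nat_lit 0) (nat_lit 479841037593) (nat_lit 5) (nat_lit 5) (nat_lit 7) (nat_lit 4) (nat_lit 5) (nat_lit 4) (nat_lit 500) (nat_lit 417) (nat_lit 283))))))))
noncomputable def xc137 : XT := (XT.nd (nat_lit 1950) (nat_lit 0) (nat_lit 0) (XT.nd (nat_lit 936) (nat_lit 76) (nat_lit 0) (XT.nd (nat_lit 468) (nat_lit 152) (nat_lit 0) (XT.nd (nat_lit 234) (nat_lit 0) (nat_lit 0) (XT.nd (nat_lit 78) (nat_lit 76) (nat_lit 0) (XT.lf (nat_lit 0) (nat_lit 669453845377) (nat_lit 152) (nat_lit 41807371005) (nat_lit 0) (nat_lit 642215207159) (nat_lit 5) (nat_lit 5) (nat_lit 7) (nat_lit 4) (nat_lit 5) (nat_lit 4) (nat_lit 501) (nat_lit 417) (nat_lit 282)) (XT.nd (nat_lit 78) (nat_lit 0) (nat_lit 0) (XT.lf (nat_lit 0) (nat_lit 221649028172) (nat_lit 76) (nat_lit 628499069841) (nat_lit 76) (nat_lit 601260369585)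 (nat_lit 4) (nat_lit 4) (nat_lit 5) (nat_lit 5) (nat_lit 5) (nat_lit 4) (nat_lit 502) (nat_lit 417) (nat_lit 281)) (XT.lf (nat_lit 0) (nat_lit 508558380887) (nat_lit 76) (nat_lit 537882025381) (nat_lit 76) (nat_lit 510643267682) (nat_lit 4) (nat_lit 4) (nat_lit 5) (nat_lit 5) (nat_lit 5) (nat_lit 4) (nat_lit 503) (nat_lit 417) (nat_lit 280)))) (XT.nd (nat_lit 78) (nat_lit 0) (nat_lit 0) (XT.lf (nat_lit 0) (nat_lit 818419388645) (nat_lit 76) (nat_lit 440016180720) (nat_lit 76) (nat_lit 412777369834) (nat_lit 4) (nat_lit 4) (nat_lit 5) (nat_lit 5) (nat_lit 5) (nat_lit 4) (nat_lit 504) (nat_lit 417) (nat_lit 279)) (XT.nd (nat_lit 78) (nat_lit 0) (nat_lit 0) (XT.lf (nat_lit 0) (nat_lit 1153068264824) (nat_lit 76) (nat_lit 334321590113) (nat_lit 76) (nat_lit 307082729979) (nat_lit 4) (nat_lit 4) (nat_lit 5) (nat_lit 5) (nat_lit 5) (nat_lit 4) (nat_lit 505) (nat_lit 417) (nat_lit 278)) (XT.lf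 (nat_lit 0) (nat_lit 1514488113875) (nat_lit 76) (nat_lit 220171915245) (nat_lit 76) (nat_lit 192933009511) (nat_lit 4) (nat_lit 4) (nat_lit 5) (nat_lit 5) (nat_lit 5) (nat_lit 4) (nat_lit 506) (nat_lit 417) (nat_lit 277))))) (XT.nd (nat_lit 234) (nat_lit 0) (nat_lit 0) (XT.nd (nat_lit 78) (nat_lit 152) (nat_lit 0) (XT.lf (nat_lit 0) (nat_lit 1904820683052) (nat_lit 76) (nat_lit 96890713598) (nat_lit 76) (nat_lit 69651765642) (nat_lit 4) (nat_lit 4) (nat_lit 5) (nat_lit 5) (nat_lit 5) (nat_lit 4) (nat_lit 507) (nat_lit 417) (nat_lit 276)) (XT.nd (nat_lit 78) (nat_lit 0) (nat_lit 0) (XT.lf (nat_lit 0) (nat_lit 63778084050) (nat_lit 152) (nat_lit 2123900874793) (nat_lit 0) (nat_lit 38556799744) (nat_lit 2) (nat_lit 5) (nat_lit 4) (nat_lit 4) (nat_lit 2) (nat_lit 4) (nat_lit 508) (nat_lit 417) (nat_lit 275)) (XT.lf (nat_lit 0) (nat_lit 211307400876) (nat_lit 152) (nat_lit 1995384901026) (nat_lit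 0) (nat_lit 186086083053) (nat_lit 2) (nat_lit 5) (nat_lit 4) (nat_lit 4) (nat_lit 2) (nat_lit 4) (nat_lit 509) (nat_lit 417) (nat_lit 274)))) (XT.nd (nat_lit 78) (nat_lit 0) (nat_lit 0) (XT.lf (nat_lit 0) (nat_lit 370638693373) (nat_lit 152) (nat_lit 1856588413117) (nat_lit 0) (nat_lit 345417344516) (nat_lit 2) (nat_lit 5) (nat_lit 4) (nat_lit 4) (nat_lit 2) (nat_lit 4) (nat_lit 510) (nat_lit 417) (nat_lit 273)) (XT.nd (nat_lit 78) (nat_lit 0) (nat_lit 0) (XT.lf (nat_lit 0) (nat_lit 542716146979) (nat_lit 152) (nat_lit 1706688913362) (nat_lit 0) (nat_lit 517494769386) (nat_lit 2) (nat_lit 5) (nat_lit 4) (nat_lit 4) (nat_lit 2) (nat_lit 4) (nat_lit 511) (nat_lit 417) (nat_lit 272)) (XT.lf (nat_lit 0) (nat_lit 728559479938) (nat_lit 152) (nat_lit 1544798108427) (nat_lit 0) (nat_lit 703338075737) (nat_lit 2) (nat_lit 5) (nat_lit 4) (nat_lit 4) (nat_lit 2) (nat_lit 4) (nat_lit 512) (nat_lit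 417) (nat_lit 271)))))) (XT.nd (nat_lit 468) (nat_lit 76) (nat_lit 0) (XT.nd (nat_lit 234) (nat_lit 0) (nat_lit 0) (XT.nd (nat_lit 78) (nat_lit 0) (nat_lit 0) (XT.lf (nat_lit 0) (nat_lit 929269986073) (nat_lit 152) (nat_lit 1369956645396) (nat_lit 0) (nat_lit 904048557237) (nat_lit 2) (nat_lit 5) (nat_lit 4) (nat_lit 4) (nat_lit 2) (nat_lit 4) (nat_lit 513) (nat_lit 417) (nat_lit 270)) (XT.nd (nat_lit 78) (nat_lit 0) (nat_lit 0) (XT.lf (nat_lit 0) (nat_lit 1146037060978) (nat_lit 152) (nat_lit 1181128426708) (nat_lit 0) (nat_lit 1120815609330) (nat_lit 2) (nat_lit 5) (nat_lit 4) (nat_lit 4) (nat_lit 2) (nat_lit 4) (nat_lit 514) (nat_lit 417) (nat_lit 269)) (XT.lf (nat_lit 0) (nat_lit 1380145250280) (nat_lit 152) (nat_lit 977194470328) (nat_lit 0) (nat_lit 1354923777511) (nat_lit 2) (nat_lit 5) (nat_lit 4) (nat_lit 4) (nat_lit 2) (nat_lit 4) (nat_lit 515) (nat_lit 417) (nat_lit 268)))) (XT.nd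 (nat_lit 78) (nat_lit 0) (nat_lit 0) (XT.lf (nat_lit 0) (nat_lit 1632981861770) (nat_lit 152) (nat_lit 756946278736) (nat_lit 0) (nat_lit 1607760369444) (nat_lit 2) (nat_lit 5) (nat_lit 4) (nat_lit 4) (nat_lit 2) (nat_lit 4) (nat_lit 516) (nat_lit 417) (nat_lit 267)) (XT.nd (nat_lit 78) (nat_lit 0) (nat_lit 0) (XT.lf (nat_lit 0) (nat_lit 1906045186477) (nat_lit 152) (nat_lit 519078677464) (nat_lit 0) (nat_lit 1880823676042) (nat_lit 2) (nat_lit 5) (nat_lit 4) (nat_lit 4) (nat_lit 2) (nat_lit 4) (nat_lit 517) (nat_lit 417) (nat_lit 266)) (XT.lf (nat_lit 0) (nat_lit 2200953377436) (nat_lit 152) (nat_lit 262182080726) (nat_lit 0) (nat_lit 2175731850235) (nat_lit 2) (nat_lit 5) (nat_lit 4) (nat_lit 4) (nat_lit 2) (nat_lit 4) (nat_lit 518) (nat_lit 417) (nat_lit 265))))) (XT.nd (nat_lit 234) (nat_lit 0) (nat_lit 0) (XT.nd (nat_lit 78) (nat_lit 0) (nat_lit 0) (XT.lf (nat_lit 0) (nat_lit 16069734902)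 (nat_lit 76) (nat_lit 2503770781352) (nat_lit 76) (nat_lit 2478549238626) (nat_lit 1) (nat_lit 4) (nat_lit 2) (nat_lit 5) (nat_lit 2) (nat_lit 4) (nat_lit 519) (nat_lit 417) (nat_lit 264)) (XT.nd (nat_lit 78) (nat_lit 0) (nat_lit 0) (XT.lf (nat_lit 0) (nat_lit 331491850628) (nat_lit 76) (nat_lit 2539915118077) (nat_lit 76) (nat_lit 2514693560975) (nat_lit 1) (nat_lit 4) (nat_lit 2) (nat_lit 5) (nat_lit 2) (nat_lit 4) (nat_lit 520) (nat_lit 417) (nat_lit 263)) (XT.lf (nat_lit 0) (nat_lit 672147390799) (nat_lit 76) (nat_lit 2578951179712) (nat_lit 76) (nat_lit 2553729609300) (nat_lit 1) (nat_lit 4) (nat_lit 2) (nat_lit 5) (nat_lit 2) (nat_lit 4) (nat_lit 521) (nat_lit 417) (nat_lit 262)))) (XT.nd (nat_lit 156) (nat_lit 0) (nat_lit 0) (XT.nd (nat_lit 78) (nat_lit 0) (nat_lit 0) (XT.lf (nat_lit 0) (nat_lit 1040055054913) (nat_lit 76) (nat_lit 2621110291067) (nat_lit 76) (nat_lit 2595888708332)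 (nat_lit 1) (nat_lit 4) (nat_lit 2) (nat_lit 5) (nat_lit 2) (nat_lit 4) (nat_lit 522) (nat_lit 417) (nat_lit 261)) (XT.lf (nat_lit 0) (nat_lit 1437395036535) (nat_lit 76) (nat_lit 2666642283914) (nat_lit 76) (nat_lit 2641420689768) (nat_lit 1) (nat_lit 4) (nat_lit 2) (nat_lit 5) (nat_lit 2) (nat_lit 4) (nat_lit 523) (nat_lit 417) (nat_lit 260))) (XT.nd (nat_lit 78) (nat_lit 0) (nat_lit 0) (XT.lf (nat_lit 0) (nat_lit 1866521942963) (nat_lit 76) (nat_lit 2715816977470) (nat_lit 76) (nat_lit 2690595372757) (nat_lit 1) (nat_lit 4) (nat_lit 2) (nat_lit 5) (nat_lit 2) (nat_lit 4) (nat_lit 524) (nat_lit 417) (nat_lit 259)) (XT.lf (nat_lit 0) (nat_lit 2329978748458) (nat_lit 76) (nat_lit 2768925777325) (nat_lit 76) (nat_lit 2743704162829) (nat_lit 1) (nat_lit 4) (nat_lit 2) (nat_lit 5) (nat_lit 2) (nat_lit 4) (nat_lit 525) (nat_lit 417) (nat_lit 258))))))) (XT.nd (nat_lit 54366) (nat_lit 0) (nat_lit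 4408) (XT.nd (nat_lit 468) (nat_lit 0) (nat_lit 0) (XT.nd (nat_lit 234) (nat_lit 0) (nat_lit 0) (XT.nd (nat_lit 78) (nat_lit 0) (nat_lit 0) (XT.lf (nat_lit 0) (nat_lit 2830511863719) (nat_lit 76) (nat_lit 2826283402294) (nat_lit 76) (nat_lit 2801061778740) (nat_lit 1) (nat_lit 4) (nat_lit 2) (nat_lit 5) (nat_lit 2) (nat_lit 4) (nat_lit 526) (nat_lit 417) (nat_lit 257)) (XT.nd (nat_lit 78) (nat_lit 0) (nat_lit 0) (XT.lf (nat_lit 0) (nat_lit 3371087410910) (nat_lit 76) (nat_lit 2888229749414) (nat_lit 76) (nat_lit 2863008117472) (nat_lit 1) (nat_lit 4) (nat_lit 2) (nat_lit 5) (nat_lit 2) (nat_lit 4) (nat_lit 527) (nat_lit 417) (nat_lit 256)) (XT.lf (nat_lit 0) (nat_lit 3954908800682) (nat_lit 76) (nat_lit 2955131908149) (nat_lit 76) (nat_lit 2929910268440) (nat_lit 1) (nat_lit 4) (nat_lit 2) (nat_lit 5) (nat_lit 2) (nat_lit 4) (nat_lit 528) (nat_lit 417) (nat_lit 255)))) (XT.nd (nat_lit 78)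 (nat_lit 0) (nat_lit 0) (XT.lf (nat_lit 0) (nat_lit 4585435715344) (nat_lit 76) (nat_lit 3027386335736) (nat_lit 76) (nat_lit 3002164688836) (nat_lit 1) (nat_lit 4) (nat_lit 2) (nat_lit 5) (nat_lit 2) (nat_lit 4) (nat_lit 529) (nat_lit 417) (nat_lit 254)) (XT.nd (nat_lit 78) (nat_lit 0) (nat_lit 0) (XT.lf (nat_lit 0) (nat_lit 5266404610686) (nat_lit 76) (nat_lit 3105421206560) (nat_lit 76) (nat_lit 3080199553002) (nat_lit 1) (nat_lit 4) (nat_lit 2) (nat_lit 5) (nat_lit 2) (nat_lit 4) (nat_lit 530) (nat_lit 417) (nat_lit 253)) (XT.lf (nat_lit 0) (nat_lit 6001850857941) (nat_lit 76) (nat_lit 3189698949487) (nat_lit 76) (nat_lit 3164477289763) (nat_lit 1) (nat_lit 4) (nat_lit 2) (nat_lit 5) (nat_lit 2) (nat_lit 4) (nat_lit 531) (nat_lit 417) (nat_lit 252))))) (XT.nd (nat_lit 53664) (nat_lit 0) (nat_lit 6080) (XT.nd (nat_lit 78) (nat_lit 0) (nat_lit 0) (XT.lf (nat_lit 0) (nat_lit 6796132657092)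 (nat_lit 76) (nat_lit 3280718988177) (nat_lit 76) (nat_lit 3255497322745) (nat_lit 1) (nat_lit 4) (nat_lit 2) (nat_lit 5) (nat_lit 2) (nat_lit 4) (nat_lit 532) (nat_lit 417) (nat_lit 251)) (XT.nd (nat_lit 53508) (nat_lit 0) (nat_lit 6080) (XT.lf (nat_lit 0) (nat_lit 7653956863245) (nat_lit 76) (nat_lit 3379020700637) (nat_lit 76) (nat_lit 3353799029920) (nat_lit 1) (nat_lit 4) (nat_lit 2) (nat_lit 5) (nat_lit 2) (nat_lit 4) (nat_lit 533) (nat_lit 417) (nat_lit 250)) (XT.lf (nat_lit 0) (nat_lit 6837894080) (nat_lit 532) (nat_lit 679174578) (nat_lit 532) (nat_lit 679174578) (nat_lit 81) (nat_lit 3) (nat_lit 88) (nat_lit 3) (nat_lit 88) (nat_lit 5) (nat_lit 418) (nat_lit 418) (nat_lit 364)))) (XT.nd (nat_lit 78) (nat_lit 0) (nat_lit 76) (XT.lf (nat_lit 76) (nat_lit 7129421941) (nat_lit 0) (nat_lit 7499156494) (nat_lit 532) (nat_lit 2387084151) (nat_lit 82) (nat_lit 5) (nat_lit 81) (nat_lit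 3) (nat_lit 88) (nat_lit 5) (nat_lit 419) (nat_lit 418) (nat_lit 363)) (XT.nd (nat_lit 78) (nat_lit 0) (nat_lit 0) (XT.lf (nat_lit 0) (nat_lit 15687544687) (nat_lit 456) (nat_lit 1344065953) (nat_lit 532) (nat_lit 654692196) (nat_lit 82) (nat_lit 5) (nat_lit 88) (nat_lit 5) (nat_lit 89) (nat_lit 5) (nat_lit 420) (nat_lit 418) (nat_lit 362)) (XT.lf (nat_lit 76) (nat_lit 8076373426) (nat_lit 0) (nat_lit 9122106111) (nat_lit 532) (nat_lit 1182740467) (nat_lit 83) (nat_lit 5) (nat_lit 82) (nat_lit 5) (nat_lit 89) (nat_lit 5) (nat_lit 421) (nat_lit 418) (nat_lit 361)))))) (XT.nd (nat_lit 468) (nat_lit 912) (nat_lit 0) (XT.nd (nat_lit 234) (nat_lit 380) (nat_lit 0) (XT.nd (nat_lit 78) (nat_lit 456) (nat_lit 0) (XT.lf (nat_lit 76) (nat_lit 18312910277) (nat_lit 0) (nat_lit 533635476) (nat_lit 532) (nat_lit 283889640) (nat_lit 83) (nat_lit 5) (nat_lit 82) (nat_lit 5) (nat_lit 89) (nat_lit 5) (nat_lit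 422) (nat_lit 418) (nat_lit 360)) (XT.nd (nat_lit 78) (nat_lit 0) (nat_lit 0) (XT.lf (nat_lit 0) (nat_lit 1087953181) (nat_lit 532) (nat_lit 10244589350) (nat_lit 608) (nat_lit 8570893039) (nat_lit 76) (nat_lit 5) (nat_lit 83) (nat_lit 5) (nat_lit 84) (nat_lit 5) (nat_lit 423) (nat_lit 418) (nat_lit 359)) (XT.lf (nat_lit 76) (nat_lit 259284764) (nat_lit 0) (nat_lit 2319707616) (nat_lit 608) (nat_lit 18156714836) (nat_lit 77) (nat_lit 5) (nat_lit 76) (nat_lit 5) (nat_lit 84) (nat_lit 5) (nat_lit 424) (nat_lit 418) (nat_lit 358)))) (XT.nd (nat_lit 78) (nat_lit 456) (nat_lit 0) (XT.lf (nat_lit 0) (nat_lit 4637816105) (nat_lit 532) (nat_lit 9627911668) (nat_lit 76) (nat_lit 7332956661) (nat_lit 77) (nat_lit 5) (nat_lit 84) (nat_lit 5) (nat_lit 78) (nat_lit 5) (nat_lit 425) (nat_lit 418) (nat_lit 357)) (XT.nd (nat_lit 78) (nat_lit 0) (nat_lit 0) (XT.lf (nat_lit 0) (nat_lit 2119181262) (nat_lit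 456) (nat_lit 4837466410) (nat_lit 532) (nat_lit 15566431658) (nat_lit 71) (nat_lit 5) (nat_lit 77) (nat_lit 5) (nat_lit 78) (nat_lit 5) (nat_lit 426) (nat_lit 418) (nat_lit 356)) (XT.lf (nat_lit 0) (nat_lit 9844535649) (nat_lit 532) (nat_lit 8298059052) (nat_lit 76) (nat_lit 5348150512) (nat_lit 71) (nat_lit 5) (nat_lit 78) (nat_lit 5) (nat_lit 72) (nat_lit 5) (nat_lit 427) (nat_lit 418) (nat_lit 355))))) (XT.nd (nat_lit 234) (nat_lit 456) (nat_lit 0) (XT.nd (nat_lit 78) (nat_lit 228) (nat_lit 0) (XT.lf (nat_lit 0) (nat_lit 4879997289) (nat_lit 228) (nat_lit 8312506462) (nat_lit 304) (nat_lit 11324999825) (nat_lit 68) (nat_lit 5) (nat_lit 71) (nat_lit 5) (nat_lit 72) (nat_lit 5) (nat_lit 428) (nat_lit 418) (nat_lit 354)) (XT.nd (nat_lit 78) (nat_lit 228) (nat_lit 0) (XT.lf (nat_lit 0) (nat_lit 17083197101) (nat_lit 304) (nat_lit 6100724857) (nat_lit 76) (nat_lit 2420492528) (nat_lit 68)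 (nat_lit 5) (nat_lit 72) (nat_lit 5) (nat_lit 69) (nat_lit 5) (nat_lit 429) (nat_lit 418) (nat_lit 353)) (XT.lf (nat_lit 0) (nat_lit 8725320336) (nat_lit 228) (nat_lit 12973264274) (nat_lit 304) (nat_lit 5046621251) (nat_lit 65) (nat_lit 5) (nat_lit 68) (nat_lit 5) (nat_lit 69) (nat_lit 5) (nat_lit 430) (nat_lit 418) (nat_lit 352)))) (XT.nd (nat_lit 156) (nat_lit 228) (nat_lit 0) (XT.nd (nat_lit 78) (nat_lit 228) (nat_lit 0) (XT.lf (nat_lit 0) (nat_lit 25070518061) (nat_lit 228) (nat_lit 1767753232) (nat_lit 304) (nat_lit 1126586289) (nat_lit 65) (nat_lit 5) (nat_lit 68) (nat_lit 5) (nat_lit 69) (nat_lit 5) (nat_lit 431) (nat_lit 418) (nat_lit 351)) (XT.lf (nat_lit 0) (nat_lit 3537729332) (nat_lit 228) (nat_lit 15452928101) (nat_lit 76) (nat_lit 10238559757) (nat_lit 62) (nat_lit 5) (nat_lit 65) (nat_lit 5) (nat_lit 63) (nat_lit 5) (nat_lit 432) (nat_lit 418) (nat_lit 350))) (XT.nd (nat_lit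 78) (nat_lit 0) (nat_lit 0) (XT.lf (nat_lit 0) (nat_lit 1332291320) (nat_lit 228) (nat_lit 7330483178) (nat_lit 304) (nat_lit 21917736146) (nat_lit 59) (nat_lit 5) (nat_lit 62) (nat_lit 5) (nat_lit 63) (nat_lit 5) (nat_lit 433) (nat_lit 418) (nat_lit 349)) (XT.lf (nat_lit 0) (nat_lit 14747558510) (nat_lit 304) (nat_lit 11818782438) (nat_lit 76) (nat_lit 5429589639) (nat_lit 59) (nat_lit 5) (nat_lit 63) (nat_lit 5) (nat_lit 60) (nat_lit 5) (nat_lit 434) (nat_lit 418) (nat_lit 348))))))))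
noncomputable def xc138 : XT := (XT.nd (nat_lit 1950) (nat_lit 1444) (nat_lit 0) (XT.nd (nat_lit 936) (nat_lit 912) (nat_lit 0) (XT.nd (nat_lit 468) (nat_lit 456) (nat_lit 0) (XT.nd (nat_lit 234) (nat_lit 304) (nat_lit 0) (XT.nd (nat_lit 78) (nat_lit 228) (nat_lit 0) (XT.lf (nat_lit 0) (nat_lit 7159526066) (nat_lit 152) (nat_lit 14512639149) (nat_lit 228) (nat_lit 11824177406) (nat_lit 57) (nat_lit 5) (nat_lit 59) (nat_lit 5) (nat_lit 60) (nat_lit 5) (nat_lit 435) (nat_lit 418) (nat_lit 347)) (XT.nd (nat_lit 78) (nat_lit 228) (nat_lit 0) (XT.lf (nat_lit 0) (nat_lit 28315349145) (nat_lit 152) (nat_lit 1149386019) (nat_lit 228) (nat_lit 5626934446) (nat_lit 57) (nat_lit 5) (nat_lit 59) (nat_lit 5) (nat_lit 60) (nat_lit 5) (nat_lit 436) (nat_lit 418) (nat_lit 346)) (XT.lf (nat_lit 0) (nat_lit 1695807895) (nat_lit 228) (nat_lit 22049158635) (nat_lit 76) (nat_lit 13012962418) (nat_lit 54) (nat_lit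 5) (nat_lit 57) (nat_lit 5) (nat_lit 55) (nat_lit 5) (nat_lit 437) (nat_lit 418) (nat_lit 345)))) (XT.nd (nat_lit 78) (nat_lit 304) (nat_lit 0) (XT.lf (nat_lit 0) (nat_lit 9511880297) (nat_lit 228) (nat_lit 438107379) (nat_lit 76) (nat_lit 28578889369) (nat_lit 54) (nat_lit 5) (nat_lit 57) (nat_lit 5) (nat_lit 55) (nat_lit 5) (nat_lit 438) (nat_lit 418) (nat_lit 344)) (XT.nd (nat_lit 78) (nat_lit 152) (nat_lit 0) (XT.lf (nat_lit 0) (nat_lit 18658898772) (nat_lit 228) (nat_lit 16434283570) (nat_lit 76) (nat_lit 5291866978) (nat_lit 52) (nat_lit 5) (nat_lit 55) (nat_lit 5) (nat_lit 53) (nat_lit 5) (nat_lit 439) (nat_lit 418) (nat_lit 343)) (XT.lf (nat_lit 0) (nat_lit 8059382187) (nat_lit 152) (nat_lit 20935257646) (nat_lit 228) (nat_lit 13358519722) (nat_lit 50) (nat_lit 5) (nat_lit 52) (nat_lit 5) (nat_lit 53) (nat_lit 5) (nat_lit 440) (nat_lit 418) (nat_lit 342))))) (XT.nd (nat_lit 234)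 (nat_lit 152) (nat_lit 0) (XT.nd (nat_lit 78) (nat_lit 304) (nat_lit 0) (XT.lf (nat_lit 0) (nat_lit 35435540063) (nat_lit 152) (nat_lit 5163727369) (nat_lit 228) (nat_lit 3844089985) (nat_lit 50) (nat_lit 5) (nat_lit 52) (nat_lit 5) (nat_lit 53) (nat_lit 5) (nat_lit 441) (nat_lit 418) (nat_lit 341)) (XT.nd (nat_lit 78) (nat_lit 152) (nat_lit 0) (XT.lf (nat_lit 0) (nat_lit 6863238110) (nat_lit 152) (nat_lit 27863357608) (nat_lit 76) (nat_lit 11901524163) (nat_lit 48) (nat_lit 5) (nat_lit 50) (nat_lit 5) (nat_lit 49) (nat_lit 5) (nat_lit 442) (nat_lit 418) (nat_lit 340)) (XT.lf (nat_lit 0) (nat_lit 54539572) (nat_lit 152) (nat_lit 18546257022) (nat_lit 228) (nat_lit 30348373823) (nat_lit 46) (nat_lit 5) (nat_lit 48) (nat_lit 5) (nat_lit 49) (nat_lit 5) (nat_lit 443) (nat_lit 418) (nat_lit 339)))) (XT.nd (nat_lit 78) (nat_lit 152) (nat_lit 0) (XT.lf (nat_lit 0) (nat_lit 31779475298) (nat_lit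 152) (nat_lit 253160311) (nat_lit 228) (nat_lit 19362848048) (nat_lit 46) (nat_lit 5) (nat_lit 48) (nat_lit 5) (nat_lit 49) (nat_lit 5) (nat_lit 444) (nat_lit 418) (nat_lit 338)) (XT.nd (nat_lit 78) (nat_lit 76) (nat_lit 0) (XT.lf (nat_lit 0) (nat_lit 12132168181) (nat_lit 76) (nat_lit 35161518310) (nat_lit 152) (nat_lit 6683442956) (nat_lit 45) (nat_lit 5) (nat_lit 46) (nat_lit 5) (nat_lit 47) (nat_lit 4) (nat_lit 445) (nat_lit 418) (nat_lit 337)) (XT.lf (nat_lit 0) (nat_lit 7210355691) (nat_lit 152) (nat_lit 9386359966) (nat_lit 76) (nat_lit 40111045923) (nat_lit 44) (nat_lit 5) (nat_lit 46) (nat_lit 5) (nat_lit 45) (nat_lit 5) (nat_lit 446) (nat_lit 418) (nat_lit 336)))))) (XT.nd (nat_lit 468) (nat_lit 456) (nat_lit 0) (XT.nd (nat_lit 234) (nat_lit 228) (nat_lit 0) (XT.nd (nat_lit 78) (nat_lit 76) (nat_lit 0) (XT.lf (nat_lit 0) (nat_lit 22598334859) (nat_lit 228) (nat_lit 32868504416)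 (nat_lit 76) (nat_lit 4116617379) (nat_lit 42) (nat_lit 5) (nat_lit 45) (nat_lit 5) (nat_lit 43) (nat_lit 4) (nat_lit 447) (nat_lit 418) (nat_lit 335)) (XT.nd (nat_lit 78) (nat_lit 0) (nat_lit 0) (XT.lf (nat_lit 0) (nat_lit 3286207390) (nat_lit 76) (nat_lit 36698992957) (nat_lit 152) (nat_lit 22642579642) (nat_lit 41) (nat_lit 5) (nat_lit 42) (nat_lit 5) (nat_lit 43) (nat_lit 4) (nat_lit 448) (nat_lit 418) (nat_lit 334)) (XT.lf (nat_lit 0) (nat_lit 44192872273) (nat_lit 76) (nat_lit 15463431387) (nat_lit 152) (nat_lit 6187882902) (nat_lit 41) (nat_lit 5) (nat_lit 42) (nat_lit 5) (nat_lit 43) (nat_lit 4) (nat_lit 449) (nat_lit 418) (nat_lit 333)))) (XT.nd (nat_lit 78) (nat_lit 76) (nat_lit 0) (XT.lf (nat_lit 0) (nat_lit 11672878055) (nat_lit 152) (nat_lit 49702622576) (nat_lit 76) (nat_lit 7866589220) (nat_lit 39) (nat_lit 5) (nat_lit 41) (nat_lit 5) (nat_lit 40) (nat_lit 4) (nat_lit 450)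 (nat_lit 418) (nat_lit 332)) (XT.nd (nat_lit 78) (nat_lit 76) (nat_lit 0) (XT.lf (nat_lit 0) (nat_lit 31632143372) (nat_lit 152) (nat_lit 8194677795) (nat_lit 76) (nat_lit 32991830671) (nat_lit 39) (nat_lit 5) (nat_lit 41) (nat_lit 5) (nat_lit 40) (nat_lit 4) (nat_lit 451) (nat_lit 418) (nat_lit 331)) (XT.lf (nat_lit 0) (nat_lit 38553910529) (nat_lit 76) (nat_lit 15556777388) (nat_lit 152) (nat_lit 22496848162) (nat_lit 38) (nat_lit 5) (nat_lit 39) (nat_lit 5) (nat_lit 40) (nat_lit 4) (nat_lit 452) (nat_lit 418) (nat_lit 330))))) (XT.nd (nat_lit 234) (nat_lit 228) (nat_lit 0) (XT.nd (nat_lit 78) (nat_lit 152) (nat_lit 0) (XT.lf (nat_lit 0) (nat_lit 9006629147) (nat_lit 76) (nat_lit 70078990901) (nat_lit 76) (nat_lit 1558063003) (nat_lit 37) (nat_lit 4) (nat_lit 38) (nat_lit 5) (nat_lit 38) (nat_lit 4) (nat_lit 453) (nat_lit 418) (nat_lit 329)) (XT.nd (nat_lit 78) (nat_lit 76) (nat_lit 0)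 (XT.lf (nat_lit 0) (nat_lit 21469468608) (nat_lit 152) (nat_lit 23869818814) (nat_lit 76) (nat_lit 39505567875) (nat_lit 36) (nat_lit 5) (nat_lit 38) (nat_lit 5) (nat_lit 37) (nat_lit 4) (nat_lit 454) (nat_lit 418) (nat_lit 328)) (XT.lf (nat_lit 0) (nat_lit 29127346592) (nat_lit 76) (nat_lit 17823925906) (nat_lit 152) (nat_lit 42371911888) (nat_lit 35) (nat_lit 5) (nat_lit 36) (nat_lit 5) (nat_lit 37) (nat_lit 4) (nat_lit 455) (nat_lit 418) (nat_lit 327)))) (XT.nd (nat_lit 156) (nat_lit 76) (nat_lit 0) (XT.nd (nat_lit 78) (nat_lit 152) (nat_lit 0) (XT.lf (nat_lit 0) (nat_lit 75423005156) (nat_lit 152) (nat_lit 6696841841) (nat_lit 0) (nat_lit 11963822278) (nat_lit 35) (nat_lit 5) (nat_lit 37) (nat_lit 4) (nat_lit 35) (nat_lit 4) (nat_lit 456) (nat_lit 418) (nat_lit 326)) (XT.lf (nat_lit 0) (nat_lit 8385496006) (nat_lit 152) (nat_lit 46021309776) (nat_lit 76) (nat_lit 44661976095) (nat_lit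 33) (nat_lit 5) (nat_lit 35) (nat_lit 5) (nat_lit 34) (nat_lit 4) (nat_lit 457) (nat_lit 418) (nat_lit 325))) (XT.nd (nat_lit 78) (nat_lit 0) (nat_lit 0) (XT.lf (nat_lit 0) (nat_lit 13702641491) (nat_lit 76) (nat_lit 23398054818) (nat_lit 152) (nat_lit 67272151319) (nat_lit 32) (nat_lit 5) (nat_lit 33) (nat_lit 5) (nat_lit 34) (nat_lit 4) (nat_lit 458) (nat_lit 418) (nat_lit 324)) (XT.lf (nat_lit 0) (nat_lit 69642926204) (nat_lit 152) (nat_lit 29461705655) (nat_lit 0) (nat_lit 10874221863) (nat_lit 32) (nat_lit 5) (nat_lit 34) (nat_lit 4) (nat_lit 32) (nat_lit 4) (nat_lit 459) (nat_lit 418) (nat_lit 323))))))) (XT.nd (nat_lit 936) (nat_lit 684) (nat_lit 0) (XT.nd (nat_lit 468) (nat_lit 304) (nat_lit 0) (XT.nd (nat_lit 234) (nat_lit 228) (nat_lit 0) (XT.nd (nat_lit 78) (nat_lit 152) (nat_lit 0) (XT.lf (nat_lit 0) (nat_lit 37925970370) (nat_lit 76) (nat_lit 68378840983) (nat_lit 76) (nat_lit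 9607226959) (nat_lit 31) (nat_lit 4) (nat_lit 32) (nat_lit 5) (nat_lit 32) (nat_lit 4) (nat_lit 460) (nat_lit 418) (nat_lit 322)) (XT.nd (nat_lit 78) (nat_lit 76) (nat_lit 0) (XT.lf (nat_lit 0) (nat_lit 23223098490) (nat_lit 152) (nat_lit 10470263316) (nat_lit 76) (nat_lit 88515317720) (nat_lit 30) (nat_lit 5) (nat_lit 32) (nat_lit 5) (nat_lit 31) (nat_lit 4) (nat_lit 461) (nat_lit 418) (nat_lit 321)) (XT.lf (nat_lit 0) (nat_lit 59869847457) (nat_lit 152) (nat_lit 63535636714) (nat_lit 0) (nat_lit 5446881938) (nat_lit 29) (nat_lit 5) (nat_lit 31) (nat_lit 4) (nat_lit 29) (nat_lit 4) (nat_lit 462) (nat_lit 418) (nat_lit 320)))) (XT.nd (nat_lit 78) (nat_lit 152) (nat_lit 0) (XT.lf (nat_lit 0) (nat_lit 11440725388) (nat_lit 76) (nat_lit 89448334349) (nat_lit 76) (nat_lit 35023230126) (nat_lit 28) (nat_lit 4) (nat_lit 29) (nat_lit 5) (nat_lit 29) (nat_lit 4) (nat_lit 463) (nat_lit 418) (nat_lit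 319)) (XT.nd (nat_lit 78) (nat_lit 76) (nat_lit 0) (XT.lf (nat_lit 0) (nat_lit 3349138632) (nat_lit 152) (nat_lit 47460876149) (nat_lit 76) (nat_lit 92581491483) (nat_lit 27) (nat_lit 5) (nat_lit 29) (nat_lit 5) (nat_lit 28) (nat_lit 4) (nat_lit 464) (nat_lit 418) (nat_lit 318)) (XT.lf (nat_lit 0) (nat_lit 36627199159) (nat_lit 76) (nat_lit 7149780291) (nat_lit 152) (nat_lit 107549077339) (nat_lit 26) (nat_lit 5) (nat_lit 27) (nat_lit 5) (nat_lit 28) (nat_lit 4) (nat_lit 465) (nat_lit 418) (nat_lit 317))))) (XT.nd (nat_lit 234) (nat_lit 152) (nat_lit 0) (XT.nd (nat_lit 78) (nat_lit 152) (nat_lit 0) (XT.lf (nat_lit 0) (nat_lit 89729473037) (nat_lit 152) (nat_lit 30651909728) (nat_lit 0) (nat_lit 39330754637) (nat_lit 26) (nat_lit 5) (nat_lit 28) (nat_lit 4) (nat_lit 26) (nat_lit 4) (nat_lit 466) (nat_lit 418) (nat_lit 316)) (XT.nd (nat_lit 78) (nat_lit 76) (nat_lit 0) (XT.lf (nat_lit 0)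 (nat_lit 63083179271) (nat_lit 76) (nat_lit 77975047204) (nat_lit 76) (nat_lit 27574873238) (nat_lit 25) (nat_lit 4) (nat_lit 26) (nat_lit 5) (nat_lit 26) (nat_lit 4) (nat_lit 467) (nat_lit 418) (nat_lit 315)) (XT.lf (nat_lit 0) (nat_lit 18170877137) (nat_lit 152) (nat_lit 12606097265) (nat_lit 76) (nat_lit 147387134588) (nat_lit 24) (nat_lit 5) (nat_lit 26) (nat_lit 5) (nat_lit 25) (nat_lit 4) (nat_lit 468) (nat_lit 418) (nat_lit 314)))) (XT.nd (nat_lit 78) (nat_lit 76) (nat_lit 0) (XT.lf (nat_lit 0) (nat_lit 68849305304) (nat_lit 152) (nat_lit 97149898989) (nat_lit 0) (nat_lit 22180074169) (nat_lit 23) (nat_lit 5) (nat_lit 25) (nat_lit 4) (nat_lit 23) (nat_lit 4) (nat_lit 469) (nat_lit 418) (nat_lit 313)) (XT.nd (nat_lit 78) (nat_lit 0) (nat_lit 0) (XT.lf (nat_lit 0) (nat_lit 4095880787) (nat_lit 76) (nat_lit 120735082663) (nat_lit 76) (nat_lit 74064781643) (nat_lit 22) (nat_lit 4) (nat_lit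 23) (nat_lit 5) (nat_lit 23) (nat_lit 4) (nat_lit 470) (nat_lit 418) (nat_lit 312)) (XT.lf (nat_lit 0) (nat_lit 118961271119) (nat_lit 76) (nat_lit 68983625139) (nat_lit 76) (nat_lit 22312333486) (nat_lit 22) (nat_lit 4) (nat_lit 23) (nat_lit 5) (nat_lit 23) (nat_lit 4) (nat_lit 471) (nat_lit 418) (nat_lit 311)))))) (XT.nd (nat_lit 468) (nat_lit 304) (nat_lit 0) (XT.nd (nat_lit 234) (nat_lit 152) (nat_lit 0) (XT.nd (nat_lit 78) (nat_lit 76) (nat_lit 0) (XT.lf (nat_lit 0) (nat_lit 20711943614) (nat_lit 76) (nat_lit 11684283559) (nat_lit 152) (nat_lit 190027138277) (nat_lit 20) (nat_lit 5) (nat_lit 21) (nat_lit 5) (nat_lit 22) (nat_lit 4) (nat_lit 472) (nat_lit 418) (nat_lit 310)) (XT.nd (nat_lit 78) (nat_lit 76) (nat_lit 0) (XT.lf (nat_lit 0) (nat_lit 94041968024) (nat_lit 152) (nat_lit 90347012089) (nat_lit 0) (nat_lit 50826173380) (nat_lit 20) (nat_lit 5) (nat_lit 22) (nat_lit 4) (nat_lit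 20) (nat_lit 4) (nat_lit 473) (nat_lit 418) (nat_lit 309)) (XT.lf (nat_lit 0) (nat_lit 31178271296) (nat_lit 76) (nat_lit 130492223009) (nat_lit 76) (nat_lit 87275700219) (nat_lit 19) (nat_lit 4) (nat_lit 20) (nat_lit 5) (nat_lit 20) (nat_lit 4) (nat_lit 474) (nat_lit 418) (nat_lit 308)))) (XT.nd (nat_lit 78) (nat_lit 152) (nat_lit 0) (XT.lf (nat_lit 0) (nat_lit 167559350100) (nat_lit 76) (nat_lit 69618058644) (nat_lit 76) (nat_lit 26400861646) (nat_lit 19) (nat_lit 4) (nat_lit 20) (nat_lit 5) (nat_lit 20) (nat_lit 4) (nat_lit 475) (nat_lit 418) (nat_lit 307)) (XT.nd (nat_lit 78) (nat_lit 0) (nat_lit 0) (XT.lf (nat_lit 0) (nat_lit 36337395896) (nat_lit 76) (nat_lit 1910304662) (nat_lit 152) (nat_lit 240987763458) (nat_lit 17) (nat_lit 5) (nat_lit 18) (nat_lit 5) (nat_lit 19) (nat_lit 4) (nat_lit 476) (nat_lit 418) (nat_lit 306)) (XT.lf (nat_lit 0) (nat_lit 111046003862) (nat_lit 152) (nat_lit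 113663067814) (nat_lit 0) (nat_lit 71028967481) (nat_lit 17) (nat_lit 5) (nat_lit 19) (nat_lit 4) (nat_lit 17) (nat_lit 4) (nat_lit 477) (nat_lit 418) (nat_lit 305))))) (XT.nd (nat_lit 234) (nat_lit 76) (nat_lit 0) (XT.nd (nat_lit 78) (nat_lit 152) (nat_lit 0) (XT.lf (nat_lit 0) (nat_lit 27218887017) (nat_lit 76) (nat_lit 163151638469) (nat_lit 76) (nat_lit 123134106525) (nat_lit 16) (nat_lit 4) (nat_lit 17) (nat_lit 5) (nat_lit 17) (nat_lit 4) (nat_lit 478) (nat_lit 418) (nat_lit 304)) (XT.nd (nat_lit 78) (nat_lit 152) (nat_lit 0) (XT.lf (nat_lit 0) (nat_lit 185831788319) (nat_lit 76) (nat_lit 93315140596) (nat_lit 76) (nat_lit 53297149797) (nat_lit 16) (nat_lit 4) (nat_lit 17) (nat_lit 5) (nat_lit 17) (nat_lit 4) (nat_lit 479) (nat_lit 418) (nat_lit 303)) (XT.lf (nat_lit 0) (nat_lit 3894147826) (nat_lit 76) (nat_lit 17217661544) (nat_lit 152) (nat_lit 331736946566) (nat_lit 14) (nat_lit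 5) (nat_lit 15) (nat_lit 5) (nat_lit 16) (nat_lit 4) (nat_lit 480) (nat_lit 418) (nat_lit 302)))) (XT.nd (nat_lit 156) (nat_lit 76) (nat_lit 0) (XT.nd (nat_lit 78) (nat_lit 0) (nat_lit 0) (XT.lf (nat_lit 0) (nat_lit 104267553069) (nat_lit 152) (nat_lit 202840526870) (nat_lit 0) (nat_lit 67213100236) (nat_lit 14) (nat_lit 5) (nat_lit 16) (nat_lit 4) (nat_lit 14) (nat_lit 4) (nat_lit 481) (nat_lit 418) (nat_lit 301)) (XT.lf (nat_lit 0) (nat_lit 194521361910) (nat_lit 152) (nat_lit 45487816207) (nat_lit 0) (nat_lit 157466571804) (nat_lit 14) (nat_lit 5) (nat_lit 16) (nat_lit 4) (nat_lit 14) (nat_lit 4) (nat_lit 482) (nat_lit 418) (nat_lit 300))) (XT.nd (nat_lit 78) (nat_lit 0) (nat_lit 0) (XT.lf (nat_lit 0) (nat_lit 131003389680) (nat_lit 76) (nat_lit 164141233096) (nat_lit 76) (nat_lit 127086130701) (nat_lit 13) (nat_lit 4) (nat_lit 14) (nat_lit 5) (nat_lit 14) (nat_lit 4) (nat_lit 483) (nat_lit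 418) (nat_lit 299)) (XT.lf (nat_lit 0) (nat_lit 324197859710) (nat_lit 76) (nat_lit 80862153826) (nat_lit 76) (nat_lit 43806762275) (nat_lit 13) (nat_lit 4) (nat_lit 14) (nat_lit 5) (nat_lit 14) (nat_lit 4) (nat_lit 484) (nat_lit 418) (nat_lit 298))))))))
noncomputable def xc139 : XT := (XT.nd (nat_lit 1950) (nat_lit 76) (nat_lit 0) (XT.nd (nat_lit 936) (nat_lit 380) (nat_lit 0) (XT.nd (nat_lit 468) (nat_lit 228) (nat_lit 0) (XT.nd (nat_lit 234) (nat_lit 76) (nat_lit 0) (XT.nd (nat_lit 78) (nat_lit 0) (nat_lit 0) (XT.lf (nat_lit 0) (nat_lit 45478105887) (nat_lit 152) (nat_lit 420767419458) (nat_lit 0) (nat_lit 11167310249) (nat_lit 11) (nat_lit 5) (nat_lit 13) (nat_lit 4) (nat_lit 11) (nat_lit 4) (nat_lit 485) (nat_lit 418) (nat_lit 297)) (XT.nd (nat_lit 78) (nat_lit 0) (nat_lit 0) (XT.lf (nat_lit 0) (nat_lit 145135208171) (nat_lit 152) (nat_lit 251744470158) (nat_lit 0) (nat_lit 110824182991)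 (nat_lit 11) (nat_lit 5) (nat_lit 13) (nat_lit 4) (nat_lit 11) (nat_lit 4) (nat_lit 486) (nat_lit 418) (nat_lit 296)) (XT.lf (nat_lit 0) (nat_lit 252763606441) (nat_lit 152) (nat_lit 69202295728) (nat_lit 0) (nat_lit 218452368723) (nat_lit 11) (nat_lit 5) (nat_lit 13) (nat_lit 4) (nat_lit 11) (nat_lit 4) (nat_lit 487) (nat_lit 418) (nat_lit 295)))) (XT.nd (nat_lit 78) (nat_lit 0) (nat_lit 0) (XT.lf (nat_lit 0) (nat_lit 134677972886) (nat_lit 76) (nat_lit 237562134212) (nat_lit 76) (nat_lit 203250699699) (nat_lit 10) (nat_lit 4) (nat_lit 11) (nat_lit 5) (nat_lit 11) (nat_lit 4) (nat_lit 488) (nat_lit 418) (nat_lit 294)) (XT.nd (nat_lit 78) (nat_lit 0) (nat_lit 0) (XT.lf (nat_lit 0) (nat_lit 358801902647) (nat_lit 76) (nat_lit 144363791194) (nat_lit 76) (nat_lit 110052174462) (nat_lit 10) (nat_lit 4) (nat_lit 11) (nat_lit 5) (nat_lit 11) (nat_lit 4) (nat_lit 489) (nat_lit 418) (nat_lit 293))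 (XT.lf (nat_lit 0) (nat_lit 600853565103) (nat_lit 76) (nat_lit 43710700038) (nat_lit 76) (nat_lit 9398914587) (nat_lit 10) (nat_lit 4) (nat_lit 11) (nat_lit 5) (nat_lit 11) (nat_lit 4) (nat_lit 490) (nat_lit 418) (nat_lit 292))))) (XT.nd (nat_lit 234) (nat_lit 76) (nat_lit 0) (XT.nd (nat_lit 78) (nat_lit 0) (nat_lit 0) (XT.lf (nat_lit 0) (nat_lit 100168486173) (nat_lit 152) (nat_lit 528744026095) (nat_lit 0) (nat_lit 68398169808) (nat_lit 8) (nat_lit 5) (nat_lit 10) (nat_lit 4) (nat_lit 8) (nat_lit 4) (nat_lit 491) (nat_lit 418) (nat_lit 291)) (XT.nd (nat_lit 78) (nat_lit 0) (nat_lit 0) (XT.lf (nat_lit 0) (nat_lit 220617656448) (nat_lit 152) (nat_lit 334431658773) (nat_lit 0) (nat_lit 188847206148) (nat_lit 8) (nat_lit 5) (nat_lit 10) (nat_lit 4) (nat_lit 8) (nat_lit 4) (nat_lit 492) (nat_lit 418) (nat_lit 290)) (XT.lf (nat_lit 0) (nat_lit 350701826975) (nat_lit 152) (nat_lit 124576222847)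 (nat_lit 0) (nat_lit 318931252661) (nat_lit 8) (nat_lit 5) (nat_lit 10) (nat_lit 4) (nat_lit 8) (nat_lit 4) (nat_lit 493) (nat_lit 418) (nat_lit 289)))) (XT.nd (nat_lit 78) (nat_lit 0) (nat_lit 0) (XT.lf (nat_lit 0) (nat_lit 107440477261) (nat_lit 76) (nat_lit 386335335713) (nat_lit 76) (nat_lit 354564646571) (nat_lit 7) (nat_lit 4) (nat_lit 8) (nat_lit 5) (nat_lit 8) (nat_lit 4) (nat_lit 494) (nat_lit 418) (nat_lit 288)) (XT.nd (nat_lit 78) (nat_lit 0) (nat_lit 0) (XT.lf (nat_lit 0) (nat_lit 365101540080) (nat_lit 76) (nat_lit 286599470569) (nat_lit 76) (nat_lit 254828675104) (nat_lit 7) (nat_lit 4) (nat_lit 8) (nat_lit 5) (nat_lit 8) (nat_lit 4) (nat_lit 495) (nat_lit 418) (nat_lit 287)) (XT.lf (nat_lit 0) (nat_lit 643373882855) (nat_lit 76) (nat_lit 178885561741) (nat_lit 76) (nat_lit 147114667830) (nat_lit 7) (nat_lit 4) (nat_lit 8) (nat_lit 5) (nat_lit 8) (nat_lit 4) (nat_lit 496)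 (nat_lit 418) (nat_lit 286)))))) (XT.nd (nat_lit 468) (nat_lit 228) (nat_lit 0) (XT.nd (nat_lit 234) (nat_lit 0) (nat_lit 0) (XT.nd (nat_lit 78) (nat_lit 152) (nat_lit 0) (XT.lf (nat_lit 0) (nat_lit 943906526876) (nat_lit 76) (nat_lit 62555304586) (nat_lit 76) (nat_lit 30784319521) (nat_lit 7) (nat_lit 4) (nat_lit 8) (nat_lit 5) (nat_lit 8) (nat_lit 4) (nat_lit 497) (nat_lit 418) (nat_lit 285)) (XT.nd (nat_lit 78) (nat_lit 0) (nat_lit 0) (XT.lf (nat_lit 0) (nat_lit 95726098706) (nat_lit 152) (nat_lit 947881432134) (nat_lit 0) (nat_lit 66308441792) (nat_lit 5) (nat_lit 5) (nat_lit 7) (nat_lit 4) (nat_lit 5) (nat_lit 4) (nat_lit 498) (nat_lit 418) (nat_lit 284)) (XT.lf (nat_lit 0) (nat_lit 234936683895) (nat_lit 152) (nat_lit 747540375178) (nat_lit 0) (nat_lit 205518954619) (nat_lit 5) (nat_lit 5) (nat_lit 7) (nat_lit 4) (nat_lit 5) (nat_lit 4) (nat_lit 499) (nat_lit 418) (nat_lit 283))))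 (XT.nd (nat_lit 78) (nat_lit 0) (nat_lit 0) (XT.lf (nat_lit 0) (nat_lit 385283481598) (nat_lit 152) (nat_lit 531173341864) (nat_lit 0) (nat_lit 355865685322) (nat_lit 5) (nat_lit 5) (nat_lit 7) (nat_lit 4) (nat_lit 5) (nat_lit 4) (nat_lit 500) (nat_lit 418) (nat_lit 282)) (XT.nd (nat_lit 78) (nat_lit 0) (nat_lit 0) (XT.lf (nat_lit 0) (nat_lit 547657435803) (nat_lit 152) (nat_lit 297498157181) (nat_lit 0) (nat_lit 518239577488) (nat_lit 5) (nat_lit 5) (nat_lit 7) (nat_lit 4) (nat_lit 5) (nat_lit 4) (nat_lit 501) (nat_lit 418) (nat_lit 281)) (XT.lf (nat_lit 0) (nat_lit 723020762534) (nat_lit 152) (nat_lit 45130079292) (nat_lit 0) (nat_lit 693602846777) (nat_lit 5) (nat_lit 5) (nat_lit 7) (nat_lit 4) (nat_lit 5) (nat_lit 4) (nat_lit 502) (nat_lit 418) (nat_lit 280))))) (XT.nd (nat_lit 234) (nat_lit 152) (nat_lit 0) (XT.nd (nat_lit 78) (nat_lit 0) (nat_lit 0) (XT.lf (nat_lit 0) (nat_lit 239402277859)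 (nat_lit 76) (nat_lit 678768004556) (nat_lit 76) (nat_lit 649350035611) (nat_lit 4) (nat_lit 4) (nat_lit 5) (nat_lit 5) (nat_lit 5) (nat_lit 4) (nat_lit 503) (nat_lit 418) (nat_lit 279)) (XT.nd (nat_lit 78) (nat_lit 0) (nat_lit 0) (XT.lf (nat_lit 0) (nat_lit 549262798982) (nat_lit 76) (nat_lit 580902410677) (nat_lit 76) (nat_lit 551484392484) (nat_lit 4) (nat_lit 4) (nat_lit 5) (nat_lit 5) (nat_lit 5) (nat_lit 4) (nat_lit 504) (nat_lit 418) (nat_lit 278)) (XT.lf (nat_lit 0) (nat_lit 883911224574) (nat_lit 76) (nat_lit 475208052275) (nat_lit 76) (nat_lit 445789988483) (nat_lit 4) (nat_lit 4) (nat_lit 5) (nat_lit 5) (nat_lit 5) (nat_lit 4) (nat_lit 505) (nat_lit 418) (nat_lit 277)))) (XT.nd (nat_lit 156) (nat_lit 152) (nat_lit 0) (XT.nd (nat_lit 78) (nat_lit 0) (nat_lit 0) (XT.lf (nat_lit 0) (nat_lit 1245330656414) (nat_lit 76) (nat_lit 361058592412) (nat_lit 76) (nat_lit 331640486398) (nat_lit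 4) (nat_lit 4) (nat_lit 5) (nat_lit 5) (nat_lit 5) (nat_lit 4) (nat_lit 506) (nat_lit 418) (nat_lit 276)) (XT.lf (nat_lit 0) (nat_lit 1635662839286) (nat_lit 76) (nat_lit 237777589844) (nat_lit 76) (nat_lit 208359444736) (nat_lit 4) (nat_lit 4) (nat_lit 5) (nat_lit 5) (nat_lit 5) (nat_lit 4) (nat_lit 507) (nat_lit 418) (nat_lit 275))) (XT.nd (nat_lit 78) (nat_lit 152) (nat_lit 0) (XT.lf (nat_lit 0) (nat_lit 2057220852790) (nat_lit 76) (nat_lit 104634490482) (nat_lit 76) (nat_lit 75216309175) (nat_lit 4) (nat_lit 4) (nat_lit 5) (nat_lit 5) (nat_lit 5) (nat_lit 4) (nat_lit 508) (nat_lit 418) (nat_lit 274)) (XT.lf (nat_lit 0) (nat_lit 68887542980) (nat_lit 152) (nat_lit 2293798044104) (nat_lit 0) (nat_lit 41648455180) (nat_lit 2) (nat_lit 5) (nat_lit 4) (nat_lit 4) (nat_lit 2) (nat_lit 4) (nat_lit 509) (nat_lit 418) (nat_lit 273))))))) (XT.nd (nat_lit 936) (nat_lit 0) (nat_lit 0) (XT.nd (nat_lit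 468) (nat_lit 76) (nat_lit 0) (XT.nd (nat_lit 234) (nat_lit 0) (nat_lit 0) (XT.nd (nat_lit 78) (nat_lit 0) (nat_lit 0) (XT.lf (nat_lit 0) (nat_lit 228218670915) (nat_lit 152) (nat_lit 2155001896189) (nat_lit 0) (nat_lit 200979554379) (nat_lit 2) (nat_lit 5) (nat_lit 4) (nat_lit 4) (nat_lit 2) (nat_lit 4) (nat_lit 510) (nat_lit 418) (nat_lit 272)) (XT.nd (nat_lit 78) (nat_lit 0) (nat_lit 0) (XT.lf (nat_lit 0) (nat_lit 400295972148) (nat_lit 152) (nat_lit 2005102711242) (nat_lit 0) (nat_lit 373056829005) (nat_lit 2) (nat_lit 5) (nat_lit 4) (nat_lit 4) (nat_lit 2) (nat_lit 4) (nat_lit 511) (nat_lit 418) (nat_lit 271)) (XT.lf (nat_lit 0) (nat_lit 586139164020) (nat_lit 152) (nat_lit 1843212197797) (nat_lit 0) (nat_lit 558899996241) (nat_lit 2) (nat_lit 5) (nat_lit 4) (nat_lit 4) (nat_lit 2) (nat_lit 4) (nat_lit 512) (nat_lit 418) (nat_lit 270)))) (XT.nd (nat_lit 78) (nat_lit 0) (nat_lit 0)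 (XT.lf (nat_lit 0) (nat_lit 786849539520) (nat_lit 152) (nat_lit 1668371004662) (nat_lit 0) (nat_lit 759610348929) (nat_lit 2) (nat_lit 5) (nat_lit 4) (nat_lit 4) (nat_lit 2) (nat_lit 4) (nat_lit 513) (nat_lit 418) (nat_lit 269)) (XT.nd (nat_lit 78) (nat_lit 0) (nat_lit 0) (XT.lf (nat_lit 0) (nat_lit 1003616493466) (nat_lit 152) (nat_lit 1479543035880) (nat_lit 0) (nat_lit 976377281754) (nat_lit 2) (nat_lit 5) (nat_lit 4) (nat_lit 4) (nat_lit 2) (nat_lit 4) (nat_lit 514) (nat_lit 418) (nat_lit 268)) (XT.lf (nat_lit 0) (nat_lit 1237724570770) (nat_lit 152) (nat_lit 1275609310894) (nat_lit 0) (nat_lit 1210485339501) (nat_lit 2) (nat_lit 5) (nat_lit 4) (nat_lit 4) (nat_lit 2) (nat_lit 4) (nat_lit 515) (nat_lit 418) (nat_lit 267))))) (XT.nd (nat_lit 234) (nat_lit 76) (nat_lit 0) (XT.nd (nat_lit 78) (nat_lit 0) (nat_lit 0) (XT.lf (nat_lit 0) (nat_lit 1490561078556) (nat_lit 152) (nat_lit 1055361333555)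 (nat_lit 0) (nat_lit 1463321829179) (nat_lit 2) (nat_lit 5) (nat_lit 4) (nat_lit 4) (nat_lit 2) (nat_lit 4) (nat_lit 516) (nat_lit 418) (nat_lit 266)) (XT.nd (nat_lit 78) (nat_lit 0) (nat_lit 0) (XT.lf (nat_lit 0) (nat_lit 1763624307242) (nat_lit 152) (nat_lit 817493930666) (nat_lit 0) (nat_lit 1736385041098) (nat_lit 2) (nat_lit 5) (nat_lit 4) (nat_lit 4) (nat_lit 2) (nat_lit 4) (nat_lit 517) (nat_lit 418) (nat_lit 265)) (XT.lf (nat_lit 0) (nat_lit 2058532409294) (nat_lit 152) (nat_lit 560597517616) (nat_lit 0) (nat_lit 2031293127624) (nat_lit 2) (nat_lit 5) (nat_lit 4) (nat_lit 4) (nat_lit 2) (nat_lit 4) (nat_lit 518) (nat_lit 418) (nat_lit 264)))) (XT.nd (nat_lit 78) (nat_lit 76) (nat_lit 0) (XT.lf (nat_lit 0) (nat_lit 2377032988279) (nat_lit 152) (nat_lit 283149745290) (nat_lit 0) (nat_lit 2349793692234) (nat_lit 2) (nat_lit 5) (nat_lit 4) (nat_lit 4) (nat_lit 2) (nat_lit 4) (nat_lit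 519) (nat_lit 418) (nat_lit 263)) (XT.nd (nat_lit 78) (nat_lit 0) (nat_lit 0) (XT.lf (nat_lit 0) (nat_lit 17362040857) (nat_lit 76) (nat_lit 2704068971678) (nat_lit 76) (nat_lit 2676829662324) (nat_lit 1) (nat_lit 4) (nat_lit 2) (nat_lit 5) (nat_lit 2) (nat_lit 4) (nat_lit 520) (nat_lit 418) (nat_lit 262)) (XT.lf (nat_lit 0) (nat_lit 358017427533) (nat_lit 76) (nat_lit 2743105112539) (nat_lit 76) (nat_lit 2715865790860) (nat_lit 1) (nat_lit 4) (nat_lit 2) (nat_lit 5) (nat_lit 2) (nat_lit 4) (nat_lit 521) (nat_lit 418) (nat_lit 261)))))) (XT.nd (nat_lit 468) (nat_lit 0) (nat_lit 0) (XT.nd (nat_lit 234) (nat_lit 0) (nat_lit 0) (XT.nd (nat_lit 78) (nat_lit 0) (nat_lit 0) (XT.lf (nat_lit 0) (nat_lit 725924949521) (nat_lit 76) (nat_lit 2785264297252) (nat_lit 76) (nat_lit 2758024964162) (nat_lit 1) (nat_lit 4) (nat_lit 2) (nat_lit 5) (nat_lit 2) (nat_lit 4) (nat_lit 522) (nat_lit 418) (nat_lit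 260)) (XT.nd (nat_lit 78) (nat_lit 0) (nat_lit 0) (XT.lf (nat_lit 0) (nat_lit 1123264799545) (nat_lit 76) (nat_lit 2830796358022) (nat_lit 76) (nat_lit 2803557014366) (nat_lit 1) (nat_lit 4) (nat_lit 2) (nat_lit 5) (nat_lit 2) (nat_lit 4) (nat_lit 523) (nat_lit 418) (nat_lit 259)) (XT.lf (nat_lit 0) (nat_lit 1552391584124) (nat_lit 76) (nat_lit 2879971114470) (nat_lit 76) (nat_lit 2852731761031) (nat_lit 1) (nat_lit 4) (nat_lit 2) (nat_lit 5) (nat_lit 2) (nat_lit 4) (nat_lit 524) (nat_lit 418) (nat_lit 258)))) (XT.nd (nat_lit 78) (nat_lit 0) (nat_lit 0) (XT.lf (nat_lit 0) (nat_lit 2015848276795) (nat_lit 76) (nat_lit 2933079972559) (nat_lit 76) (nat_lit 2905840610061) (nat_lit 1) (nat_lit 4) (nat_lit 2) (nat_lit 5) (nat_lit 2) (nat_lit 4) (nat_lit 525) (nat_lit 418) (nat_lit 257)) (XT.nd (nat_lit 78) (nat_lit 0) (nat_lit 0) (XT.lf (nat_lit 0) (nat_lit 2516381287589) (nat_lit 76) (nat_lit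 2990437651447) (nat_lit 76) (nat_lit 2963198280562) (nat_lit 1) (nat_lit 4) (nat_lit 2) (nat_lit 5) (nat_lit 2) (nat_lit 4) (nat_lit 526) (nat_lit 418) (nat_lit 256)) (XT.lf (nat_lit 0) (nat_lit 3056956738052) (nat_lit 76) (nat_lit 3052384048493) (nat_lit 76) (nat_lit 3025144669841) (nat_lit 1) (nat_lit 4) (nat_lit 2) (nat_lit 5) (nat_lit 2) (nat_lit 4) (nat_lit 527) (nat_lit 418) (nat_lit 255))))) (XT.nd (nat_lit 234) (nat_lit 0) (nat_lit 0) (XT.nd (nat_lit 78) (nat_lit 0) (nat_lit 0) (XT.lf (nat_lit 0) (nat_lit 3640778038260) (nat_lit 76) (nat_lit 3119286253455) (nat_lit 76) (nat_lit 3092046867612) (nat_lit 1) (nat_lit 4) (nat_lit 2) (nat_lit 5) (nat_lit 2) (nat_lit 4) (nat_lit 528) (nat_lit 418) (nat_lit 254)) (XT.nd (nat_lit 78) (nat_lit 0) (nat_lit 0) (XT.lf (nat_lit 0) (nat_lit 4271304869993) (nat_lit 76) (nat_lit 3191540723845) (nat_lit 76) (nat_lit 3164301331344) (nat_lit 1) (nat_lit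 4) (nat_lit 2) (nat_lit 5) (nat_lit 2) (nat_lit 4) (nat_lit 529) (nat_lit 418) (nat_lit 253)) (XT.lf (nat_lit 0) (nat_lit 4952273688549) (nat_lit 76) (nat_lit 3269575634302) (nat_lit 76) (nat_lit 3242336235636) (nat_lit 1) (nat_lit 4) (nat_lit 2) (nat_lit 5) (nat_lit 2) (nat_lit 4) (nat_lit 530) (nat_lit 418) (nat_lit 252)))) (XT.nd (nat_lit 156) (nat_lit 0) (nat_lit 0) (XT.nd (nat_lit 78) (nat_lit 0) (nat_lit 0) (XT.lf (nat_lit 0) (nat_lit 5687719864706) (nat_lit 76) (nat_lit 3353853413926) (nat_lit 76) (nat_lit 3326614009551) (nat_lit 1) (nat_lit 4) (nat_lit 2) (nat_lit 5) (nat_lit 2) (nat_lit 4) (nat_lit 531) (nat_lit 418) (nat_lit 251)) (XT.lf (nat_lit 0) (nat_lit 6482001598025) (nat_lit 76) (nat_lit 3444873486594) (nat_lit 76) (nat_lit 3417634076934) (nat_lit 1) (nat_lit 4) (nat_lit 2) (nat_lit 5) (nat_lit 2) (nat_lit 4) (nat_lit 532) (nat_lit 418) (nat_lit 250))) (XT.nd (nat_lit 53586)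 (nat_lit 0) (nat_lit 6080) (XT.lf (nat_lit 0) (nat_lit 7339825743223) (nat_lit 76) (nat_lit 3543175230517) (nat_lit 76) (nat_lit 3515935815962) (nat_lit 1) (nat_lit 4) (nat_lit 2) (nat_lit 5) (nat_lit 2) (nat_lit 4) (nat_lit 533) (nat_lit 418) (nat_lit 249)) (XT.lf (nat_lit 0) (nat_lit 7613586762) (nat_lit 532) (nat_lit 610000951) (nat_lit 532) (nat_lit 610000951) (nat_lit 81) (nat_lit 3) (nat_lit 88) (nat_lit 3) (nat_lit 88) (nat_lit 5) (nat_lit 419) (nat_lit 419) (nat_lit 362))))))))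
noncomputable def xc140 : XT := (XT.nd (nat_lit 1950) (nat_lit 1672) (nat_lit 0) (XT.nd (nat_lit 936) (nat_lit 1444) (nat_lit 0) (XT.nd (nat_lit 468) (nat_lit 760) (nat_lit 0) (XT.nd (nat_lit 234) (nat_lit 456) (nat_lit 0) (XT.nd (nat_lit 78) (nat_lit 0) (nat_lit 76) (XT.lf (nat_lit 76) (nat_lit 7940537334) (nat_lit 0) (nat_lit 8287564282) (nat_lit 532) (nat_lit 2114361803) (nat_lit 82) (nat_lit 5) (nat_lit 81) (nat_lit 3) (nat_lit 88) (nat_lit 5) (nat_lit 420) (nat_lit 419) (nat_lit 361)) (XT.nd (nat_lit 78) (nat_lit 0) (nat_lit 0) (XT.lf (nat_lit 0) (nat_lit 17335792773) (nat_lit 456) (nat_lit 1192566556) (nat_lit 532) (nat_lit 541283338) (nat_lit 82) (nat_lit 5) (nat_lit 88) (nat_lit 5) (nat_lit 89) (nat_lit 5) (nat_lit 421) (nat_lit 419) (nat_lit 360)) (XT.lf (nat_lit 76) (nat_lit 8974950386) (nat_lit 0) (nat_lit 9969594641) (nat_lit 532) (nat_lit 877460538) (nat_lit 83) (nat_lit 5)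 (nat_lit 82) (nat_lit 5) (nat_lit 89) (nat_lit 5) (nat_lit 422) (nat_lit 419) (nat_lit 359)))) (XT.nd (nat_lit 78) (nat_lit 0) (nat_lit 76) (XT.lf (nat_lit 0) (nat_lit 60490853) (nat_lit 532) (nat_lit 623181573) (nat_lit 608) (nat_lit 19949564139) (nat_lit 75) (nat_lit 5) (nat_lit 82) (nat_lit 5) (nat_lit 83) (nat_lit 5) (nat_lit 423) (nat_lit 419) (nat_lit 358)) (XT.nd (nat_lit 78) (nat_lit 0) (nat_lit 0) (XT.lf (nat_lit 0) (nat_lit 1504544261) (nat_lit 532) (nat_lit 10789508220) (nat_lit 608) (nat_lit 9175216492) (nat_lit 76) (nat_lit 5) (nat_lit 83) (nat_lit 5) (nat_lit 84) (nat_lit 5) (nat_lit 424) (nat_lit 419) (nat_lit 357)) (XT.lf (nat_lit 76) (nat_lit 547722703) (nat_lit 0) (nat_lit 2549170500) (nat_lit 608) (nat_lit 19272672728) (nat_lit 77) (nat_lit 5) (nat_lit 76) (nat_lit 5) (nat_lit 84) (nat_lit 5) (nat_lit 425) (nat_lit 419) (nat_lit 356))))) (XT.nd (nat_lit 234) (nat_lit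 456) (nat_lit 0) (XT.nd (nat_lit 78) (nat_lit 456) (nat_lit 0) (XT.lf (nat_lit 0) (nat_lit 5296365436) (nat_lit 532) (nat_lit 10126155262) (nat_lit 76) (nat_lit 7880990504) (nat_lit 77) (nat_lit 5) (nat_lit 84) (nat_lit 5) (nat_lit 78) (nat_lit 5) (nat_lit 426) (nat_lit 419) (nat_lit 355)) (XT.nd (nat_lit 78) (nat_lit 0) (nat_lit 0) (XT.lf (nat_lit 0) (nat_lit 2553819296) (nat_lit 456) (nat_lit 5231961902) (nat_lit 532) (nat_lit 16517275172) (nat_lit 71) (nat_lit 5) (nat_lit 77) (nat_lit 5) (nat_lit 78) (nat_lit 5) (nat_lit 427) (nat_lit 419) (nat_lit 354)) (XT.lf (nat_lit 0) (nat_lit 10884340520) (nat_lit 532) (nat_lit 8696021210) (nat_lit 76) (nat_lit 5769407100) (nat_lit 71) (nat_lit 5) (nat_lit 78) (nat_lit 5) (nat_lit 72) (nat_lit 5) (nat_lit 428) (nat_lit 419) (nat_lit 353)))) (XT.nd (nat_lit 78) (nat_lit 228) (nat_lit 0) (XT.lf (nat_lit 0) (nat_lit 5529548434) (nat_lit 228) (nat_lit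 8958145638) (nat_lit 304) (nat_lit 11971974144) (nat_lit 68) (nat_lit 5) (nat_lit 71) (nat_lit 5) (nat_lit 72) (nat_lit 5) (nat_lit 429) (nat_lit 419) (nat_lit 352)) (XT.nd (nat_lit 78) (nat_lit 228) (nat_lit 0) (XT.lf (nat_lit 0) (nat_lit 18672311816) (nat_lit 304) (nat_lit 6331448247) (nat_lit 76) (nat_lit 2631162308) (nat_lit 68) (nat_lit 5) (nat_lit 72) (nat_lit 5) (nat_lit 69) (nat_lit 5) (nat_lit 430) (nat_lit 419) (nat_lit 351)) (XT.lf (nat_lit 0) (nat_lit 9674165761) (nat_lit 228) (nat_lit 13972318346) (nat_lit 304) (nat_lit 5221332243) (nat_lit 65) (nat_lit 5) (nat_lit 68) (nat_lit 5) (nat_lit 69) (nat_lit 5) (nat_lit 431) (nat_lit 419) (nat_lit 350)))))) (XT.nd (nat_lit 468) (nat_lit 836) (nat_lit 0) (XT.nd (nat_lit 234) (nat_lit 152) (nat_lit 0) (XT.nd (nat_lit 78) (nat_lit 456) (nat_lit 0) (XT.lf (nat_lit 0) (nat_lit 27308400061) (nat_lit 228) (nat_lit 1873241018) (nat_lit 304)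 (nat_lit 1004658833) (nat_lit 65) (nat_lit 5) (nat_lit 68) (nat_lit 5) (nat_lit 69) (nat_lit 5) (nat_lit 432) (nat_lit 419) (nat_lit 349)) (XT.nd (nat_lit 78) (nat_lit 228) (nat_lit 0) (XT.lf (nat_lit 0) (nat_lit 4014036507) (nat_lit 228) (nat_lit 16438082024) (nat_lit 76) (nat_lit 11099937235) (nat_lit 62) (nat_lit 5) (nat_lit 65) (nat_lit 5) (nat_lit 63) (nat_lit 5) (nat_lit 433) (nat_lit 419) (nat_lit 348)) (XT.lf (nat_lit 0) (nat_lit 1683598487) (nat_lit 228) (nat_lit 7857054724) (nat_lit 304) (nat_lit 23471476697) (nat_lit 59) (nat_lit 5) (nat_lit 62) (nat_lit 5) (nat_lit 63) (nat_lit 5) (nat_lit 434) (nat_lit 419) (nat_lit 347)))) (XT.nd (nat_lit 78) (nat_lit 152) (nat_lit 0) (XT.lf (nat_lit 0) (nat_lit 16099860003) (nat_lit 304) (nat_lit 12525298326) (nat_lit 76) (nat_lit 5916616360) (nat_lit 59) (nat_lit 5) (nat_lit 63) (nat_lit 5) (nat_lit 60) (nat_lit 5) (nat_lit 435) (nat_lit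 419) (nat_lit 346)) (XT.nd (nat_lit 78) (nat_lit 0) (nat_lit 0) (XT.lf (nat_lit 0) (nat_lit 7965224562) (nat_lit 152) (nat_lit 15606035268) (nat_lit 228) (nat_lit 12591536156) (nat_lit 57) (nat_lit 5) (nat_lit 59) (nat_lit 5) (nat_lit 60) (nat_lit 5) (nat_lit 436) (nat_lit 419) (nat_lit 345)) (XT.lf (nat_lit 0) (nat_lit 30796258938) (nat_lit 152) (nat_lit 1178730407) (nat_lit 228) (nat_lit 5911741570) (nat_lit 57) (nat_lit 5) (nat_lit 59) (nat_lit 5) (nat_lit 60) (nat_lit 5) (nat_lit 437) (nat_lit 419) (nat_lit 344))))) (XT.nd (nat_lit 234) (nat_lit 456) (nat_lit 0) (XT.nd (nat_lit 78) (nat_lit 152) (nat_lit 0) (XT.lf (nat_lit 0) (nat_lit 1983789979) (nat_lit 228) (nat_lit 23584332501) (nat_lit 76) (nat_lit 14118232897) (nat_lit 54) (nat_lit 5) (nat_lit 57) (nat_lit 5) (nat_lit 55) (nat_lit 5) (nat_lit 438) (nat_lit 419) (nat_lit 343)) (XT.nd (nat_lit 78) (nat_lit 152) (nat_lit 0) (XT.lf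 (nat_lit 0) (nat_lit 10413865399) (nat_lit 228) (nat_lit 261342242) (nat_lit 76) (nat_lit 30924675968) (nat_lit 54) (nat_lit 5) (nat_lit 57) (nat_lit 5) (nat_lit 55) (nat_lit 5) (nat_lit 439) (nat_lit 419) (nat_lit 342)) (XT.lf (nat_lit 0) (nat_lit 20288868610) (nat_lit 228) (nat_lit 17533416503) (nat_lit 76) (nat_lit 5782568234) (nat_lit 52) (nat_lit 5) (nat_lit 55) (nat_lit 5) (nat_lit 53) (nat_lit 5) (nat_lit 440) (nat_lit 419) (nat_lit 341)))) (XT.nd (nat_lit 156) (nat_lit 304) (nat_lit 0) (XT.nd (nat_lit 78) (nat_lit 0) (nat_lit 0) (XT.lf (nat_lit 0) (nat_lit 8914284040) (nat_lit 152) (nat_lit 22532071804) (nat_lit 228) (nat_lit 14284467035) (nat_lit 50) (nat_lit 5) (nat_lit 52) (nat_lit 5) (nat_lit 53) (nat_lit 5) (nat_lit 441) (nat_lit 419) (nat_lit 340)) (XT.lf (nat_lit 0) (nat_lit 38464967785) (nat_lit 152) (nat_lit 5504597362) (nat_lit 228) (nat_lit 4019455827) (nat_lit 50) (nat_lit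 5) (nat_lit 52) (nat_lit 5) (nat_lit 53) (nat_lit 5) (nat_lit 442) (nat_lit 419) (nat_lit 339))) (XT.nd (nat_lit 78) (nat_lit 152) (nat_lit 0) (XT.lf (nat_lit 0) (nat_lit 7535071251) (nat_lit 152) (nat_lit 29888424954) (nat_lit 76) (nat_lit 12925037164) (nat_lit 48) (nat_lit 5) (nat_lit 50) (nat_lit 5) (nat_lit 49) (nat_lit 5) (nat_lit 443) (nat_lit 419) (nat_lit 338)) (XT.lf (nat_lit 0) (nat_lit 257739411) (nat_lit 152) (nat_lit 19949582653) (nat_lit 228) (nat_lit 32648291924) (nat_lit 46) (nat_lit 5) (nat_lit 48) (nat_lit 5) (nat_lit 49) (nat_lit 5) (nat_lit 444) (nat_lit 419) (nat_lit 337))))))) (XT.nd (nat_lit 936) (nat_lit 836) (nat_lit 0) (XT.nd (nat_lit 468) (nat_lit 456) (nat_lit 0) (XT.nd (nat_lit 234) (nat_lit 228) (nat_lit 0) (XT.nd (nat_lit 78) (nat_lit 152) (nat_lit 0) (XT.lf (nat_lit 0) (nat_lit 34505941353) (nat_lit 152) (nat_lit 198991903) (nat_lit 228) (nat_lit 20793401998)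 (nat_lit 46) (nat_lit 5) (nat_lit 48) (nat_lit 5) (nat_lit 49) (nat_lit 5) (nat_lit 445) (nat_lit 419) (nat_lit 336)) (XT.nd (nat_lit 78) (nat_lit 76) (nat_lit 0) (XT.lf (nat_lit 0) (nat_lit 13289008820) (nat_lit 76) (nat_lit 37895871423) (nat_lit 152) (nat_lit 7101792401) (nat_lit 45) (nat_lit 5) (nat_lit 46) (nat_lit 5) (nat_lit 47) (nat_lit 4) (nat_lit 446) (nat_lit 419) (nat_lit 335)) (XT.lf (nat_lit 0) (nat_lit 7889505345) (nat_lit 152) (nat_lit 9959401448) (nat_lit 76) (nat_lit 43387280372) (nat_lit 44) (nat_lit 5) (nat_lit 46) (nat_lit 5) (nat_lit 45) (nat_lit 5) (nat_lit 447) (nat_lit 419) (nat_lit 334)))) (XT.nd (nat_lit 78) (nat_lit 76) (nat_lit 0) (XT.lf (nat_lit 0) (nat_lit 24506903513) (nat_lit 228) (nat_lit 35318489189) (nat_lit 76) (nat_lit 4516675404) (nat_lit 42) (nat_lit 5) (nat_lit 45) (nat_lit 5) (nat_lit 43) (nat_lit 4) (nat_lit 448) (nat_lit 419) (nat_lit 333)) (XT.nd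 (nat_lit 78) (nat_lit 0) (nat_lit 0) (XT.lf (nat_lit 0) (nat_lit 3724055370) (nat_lit 76) (nat_lit 39557411058) (nat_lit 152) (nat_lit 24348731686) (nat_lit 41) (nat_lit 5) (nat_lit 42) (nat_lit 5) (nat_lit 43) (nat_lit 4) (nat_lit 449) (nat_lit 419) (nat_lit 332)) (XT.lf (nat_lit 0) (nat_lit 47890294081) (nat_lit 76) (nat_lit 16628745402) (nat_lit 152) (nat_lit 6585455823) (nat_lit 41) (nat_lit 5) (nat_lit 42) (nat_lit 5) (nat_lit 43) (nat_lit 4) (nat_lit 450) (nat_lit 419) (nat_lit 331))))) (XT.nd (nat_lit 234) (nat_lit 228) (nat_lit 0) (XT.nd (nat_lit 78) (nat_lit 76) (nat_lit 0) (XT.lf (nat_lit 0) (nat_lit 12698100522) (nat_lit 152) (nat_lit 53510761213) (nat_lit 76) (nat_lit 8565277361) (nat_lit 39) (nat_lit 5) (nat_lit 41) (nat_lit 5) (nat_lit 40) (nat_lit 4) (nat_lit 451) (nat_lit 419) (nat_lit 330)) (XT.nd (nat_lit 78) (nat_lit 76) (nat_lit 0) (XT.lf (nat_lit 0) (nat_lit 34247337270)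 (nat_lit 152) (nat_lit 8694630566) (nat_lit 76) (nat_lit 35695400276) (nat_lit 39) (nat_lit 5) (nat_lit 41) (nat_lit 5) (nat_lit 40) (nat_lit 4) (nat_lit 452) (nat_lit 419) (nat_lit 329)) (XT.lf (nat_lit 0) (nat_lit 41789905041) (nat_lit 76) (nat_lit 16731639958) (nat_lit 152) (nat_lit 24208028174) (nat_lit 38) (nat_lit 5) (nat_lit 39) (nat_lit 5) (nat_lit 40) (nat_lit 4) (nat_lit 453) (nat_lit 419) (nat_lit 328)))) (XT.nd (nat_lit 78) (nat_lit 152) (nat_lit 0) (XT.lf (nat_lit 0) (nat_lit 9879767304) (nat_lit 76) (nat_lit 75613852055) (nat_lit 76) (nat_lit 1595061147) (nat_lit 37) (nat_lit 4) (nat_lit 38) (nat_lit 5) (nat_lit 38) (nat_lit 4) (nat_lit 454) (nat_lit 419) (nat_lit 327)) (XT.nd (nat_lit 78) (nat_lit 76) (nat_lit 0) (XT.lf (nat_lit 0) (nat_lit 23264120951) (nat_lit 152) (nat_lit 25634036630) (nat_lit 76) (nat_lit 42728114082) (nat_lit 36) (nat_lit 5) (nat_lit 38) (nat_lit 5)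 (nat_lit 37) (nat_lit 4) (nat_lit 455) (nat_lit 419) (nat_lit 326)) (XT.lf (nat_lit 0) (nat_lit 31599221813) (nat_lit 76) (nat_lit 19182944197) (nat_lit 152) (nat_lit 45680885652) (nat_lit 35) (nat_lit 5) (nat_lit 36) (nat_lit 5) (nat_lit 37) (nat_lit 4) (nat_lit 456) (nat_lit 419) (nat_lit 325)))))) (XT.nd (nat_lit 468) (nat_lit 456) (nat_lit 0) (XT.nd (nat_lit 234) (nat_lit 152) (nat_lit 0) (XT.nd (nat_lit 78) (nat_lit 228) (nat_lit 0) (XT.lf (nat_lit 0) (nat_lit 81527586825) (nat_lit 152) (nat_lit 7097342778) (nat_lit 0) (nat_lit 12979770082) (nat_lit 35) (nat_lit 5) (nat_lit 37) (nat_lit 4) (nat_lit 35) (nat_lit 4) (nat_lit 457) (nat_lit 419) (nat_lit 324)) (XT.nd (nat_lit 78) (nat_lit 76) (nat_lit 0) (XT.lf (nat_lit 0) (nat_lit 9126794229) (nat_lit 152) (nat_lit 49567478601) (nat_lit 76) (nat_lit 48294371630) (nat_lit 33) (nat_lit 5) (nat_lit 35) (nat_lit 5) (nat_lit 34) (nat_lit 4)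 (nat_lit 458) (nat_lit 419) (nat_lit 323)) (XT.lf (nat_lit 0) (nat_lit 14930957477) (nat_lit 76) (nat_lit 25206211048) (nat_lit 152) (nat_lit 72580030552) (nat_lit 32) (nat_lit 5) (nat_lit 33) (nat_lit 5) (nat_lit 34) (nat_lit 4) (nat_lit 459) (nat_lit 419) (nat_lit 322)))) (XT.nd (nat_lit 78) (nat_lit 152) (nat_lit 0) (XT.lf (nat_lit 0) (nat_lit 75279127164) (nat_lit 152) (nat_lit 31692670509) (nat_lit 0) (nat_lit 11800180183) (nat_lit 32) (nat_lit 5) (nat_lit 34) (nat_lit 4) (nat_lit 32) (nat_lit 4) (nat_lit 460) (nat_lit 419) (nat_lit 321)) (XT.nd (nat_lit 78) (nat_lit 76) (nat_lit 0) (XT.lf (nat_lit 0) (nat_lit 41082830445) (nat_lit 76) (nat_lit 73789288056) (nat_lit 76) (nat_lit 10307846490) (nat_lit 31) (nat_lit 4) (nat_lit 32) (nat_lit 5) (nat_lit 32) (nat_lit 4) (nat_lit 461) (nat_lit 419) (nat_lit 320)) (XT.lf (nat_lit 0) (nat_lit 25140723276) (nat_lit 152) (nat_lit 11191046951)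 (nat_lit 76) (nat_lit 95648819273) (nat_lit 30) (nat_lit 5) (nat_lit 32) (nat_lit 5) (nat_lit 31) (nat_lit 4) (nat_lit 462) (nat_lit 419) (nat_lit 319))))) (XT.nd (nat_lit 234) (nat_lit 228) (nat_lit 0) (XT.nd (nat_lit 78) (nat_lit 152) (nat_lit 0) (XT.lf (nat_lit 0) (nat_lit 64718864839) (nat_lit 152) (nat_lit 68501300830) (nat_lit 0) (nat_lit 5935633292) (nat_lit 29) (nat_lit 5) (nat_lit 31) (nat_lit 4) (nat_lit 29) (nat_lit 4) (nat_lit 463) (nat_lit 419) (nat_lit 318)) (XT.nd (nat_lit 78) (nat_lit 76) (nat_lit 0) (XT.lf (nat_lit 0) (nat_lit 12470203485) (nat_lit 76) (nat_lit 96547755420) (nat_lit 76) (nat_lit 37762690279) (nat_lit 28) (nat_lit 4) (nat_lit 29) (nat_lit 5) (nat_lit 29) (nat_lit 4) (nat_lit 464) (nat_lit 419) (nat_lit 317)) (XT.lf (nat_lit 0) (nat_lit 3671955689) (nat_lit 152) (nat_lit 51149095080) (nat_lit 76) (nat_lit 100037383476) (nat_lit 27) (nat_lit 5) (nat_lit 29)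 (nat_lit 5) (nat_lit 28) (nat_lit 4) (nat_lit 465) (nat_lit 419) (nat_lit 316)))) (XT.nd (nat_lit 156) (nat_lit 152) (nat_lit 0) (XT.nd (nat_lit 78) (nat_lit 0) (nat_lit 0) (XT.lf (nat_lit 0) (nat_lit 39663275591) (nat_lit 76) (nat_lit 7669229464) (nat_lit 152) (nat_lit 116095365377) (nat_lit 26) (nat_lit 5) (nat_lit 27) (nat_lit 5) (nat_lit 28) (nat_lit 4) (nat_lit 466) (nat_lit 419) (nat_lit 315)) (XT.lf (nat_lit 0) (nat_lit 96958414838) (nat_lit 152) (nat_lit 33003221790) (nat_lit 0) (nat_lit 42523423642) (nat_lit 26) (nat_lit 5) (nat_lit 28) (nat_lit 4) (nat_lit 26) (nat_lit 4) (nat_lit 467) (nat_lit 419) (nat_lit 314))) (XT.nd (nat_lit 78) (nat_lit 76) (nat_lit 0) (XT.lf (nat_lit 0) (nat_lit 68228121400) (nat_lit 76) (nat_lit 84163964014) (nat_lit 76) (nat_lit 29727724905) (nat_lit 25) (nat_lit 4) (nat_lit 26) (nat_lit 5) (nat_lit 26) (nat_lit 4) (nat_lit 468) (nat_lit 419) (nat_lit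 313)) (XT.lf (nat_lit 0) (nat_lit 19671288053) (nat_lit 152) (nat_lit 13521115433) (nat_lit 76) (nat_lit 159221093846) (nat_lit 24) (nat_lit 5) (nat_lit 26) (nat_lit 5) (nat_lit 25) (nat_lit 4) (nat_lit 469) (nat_lit 419) (nat_lit 312))))))))
noncomputable def xc141 : XT := (XT.nd (nat_lit 1950) (nat_lit 456) (nat_lit 0) (XT.nd (nat_lit 936) (nat_lit 456) (nat_lit 0) (XT.nd (nat_lit 468) (nat_lit 380) (nat_lit 0) (XT.nd (nat_lit 234) (nat_lit 228) (nat_lit 0) (XT.nd (nat_lit 78) (nat_lit 76) (nat_lit 0) (XT.lf (nat_lit 0) (nat_lit 74403816726) (nat_lit 152) (nat_lit 104828246512) (nat_lit 0) (nat_lit 23997831107) (nat_lit 23) (nat_lit 5) (nat_lit 25) (nat_lit 4) (nat_lit 23) (nat_lit 4) (nat_lit 470) (nat_lit 419) (nat_lit 311)) (XT.nd (nat_lit 78) (nat_lit 0) (nat_lit 0) (XT.lf (nat_lit 0) (nat_lit 4514824902) (nat_lit 76) (nat_lit 130347928348) (nat_lit 76) (nat_lit 79941025474) (nat_lit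 22) (nat_lit 4) (nat_lit 23) (nat_lit 5) (nat_lit 23) (nat_lit 4) (nat_lit 471) (nat_lit 419) (nat_lit 310)) (XT.lf (nat_lit 0) (nat_lit 128562685449) (nat_lit 76) (nat_lit 74459758736) (nat_lit 76) (nat_lit 24052006554) (nat_lit 22) (nat_lit 4) (nat_lit 23) (nat_lit 5) (nat_lit 23) (nat_lit 4) (nat_lit 472) (nat_lit 419) (nat_lit 309)))) (XT.nd (nat_lit 78) (nat_lit 76) (nat_lit 0) (XT.lf (nat_lit 0) (nat_lit 22453482368) (nat_lit 76) (nat_lit 12576335394) (nat_lit 152) (nat_lit 205184064770) (nat_lit 20) (nat_lit 5) (nat_lit 21) (nat_lit 5) (nat_lit 22) (nat_lit 4) (nat_lit 473) (nat_lit 419) (nat_lit 308)) (XT.nd (nat_lit 78) (nat_lit 76) (nat_lit 0) (XT.lf (nat_lit 0) (nat_lit 101605065402) (nat_lit 152) (nat_lit 97494302035) (nat_lit 0) (nat_lit 54929818435) (nat_lit 20) (nat_lit 5) (nat_lit 22) (nat_lit 4) (nat_lit 20) (nat_lit 4) (nat_lit 474) (nat_lit 419) (nat_lit 307)) (XT.lf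 (nat_lit 0) (nat_lit 33750966780) (nat_lit 76) (nat_lit 140891849642) (nat_lit 76) (nat_lit 94215978407) (nat_lit 19) (nat_lit 4) (nat_lit 20) (nat_lit 5) (nat_lit 20) (nat_lit 4) (nat_lit 475) (nat_lit 419) (nat_lit 306))))) (XT.nd (nat_lit 234) (nat_lit 228) (nat_lit 0) (XT.nd (nat_lit 78) (nat_lit 152) (nat_lit 0) (XT.lf (nat_lit 0) (nat_lit 181036721979) (nat_lit 76) (nat_lit 75150696661) (nat_lit 76) (nat_lit 28474247401) (nat_lit 19) (nat_lit 4) (nat_lit 20) (nat_lit 5) (nat_lit 20) (nat_lit 4) (nat_lit 476) (nat_lit 419) (nat_lit 305)) (XT.nd (nat_lit 78) (nat_lit 0) (nat_lit 0) (XT.lf (nat_lit 0) (nat_lit 39317059504) (nat_lit 76) (nat_lit 2026230867) (nat_lit 152) (nat_lit 260228148348) (nat_lit 17) (nat_lit 5) (nat_lit 18) (nat_lit 5) (nat_lit 19) (nat_lit 4) (nat_lit 477) (nat_lit 419) (nat_lit 304)) (XT.lf (nat_lit 0) (nat_lit 119963629699) (nat_lit 152) (nat_lit 122686995689)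 (nat_lit 0) (nat_lit 76743740780) (nat_lit 17) (nat_lit 5) (nat_lit 19) (nat_lit 4) (nat_lit 17) (nat_lit 4) (nat_lit 478) (nat_lit 419) (nat_lit 303)))) (XT.nd (nat_lit 78) (nat_lit 152) (nat_lit 0) (XT.lf (nat_lit 0) (nat_lit 29463765717) (nat_lit 76) (nat_lit 176169453048) (nat_lit 76) (nat_lit 132949139263) (nat_lit 16) (nat_lit 4) (nat_lit 17) (nat_lit 5) (nat_lit 17) (nat_lit 4) (nat_lit 479) (nat_lit 419) (nat_lit 302)) (XT.nd (nat_lit 78) (nat_lit 152) (nat_lit 0) (XT.lf (nat_lit 0) (nat_lit 200760708920) (nat_lit 76) (nat_lit 100748577308) (nat_lit 76) (nat_lit 57527870129) (nat_lit 16) (nat_lit 4) (nat_lit 17) (nat_lit 5) (nat_lit 17) (nat_lit 4) (nat_lit 480) (nat_lit 419) (nat_lit 301)) (XT.lf (nat_lit 0) (nat_lit 4268089901) (nat_lit 76) (nat_lit 18563237663) (nat_lit 152) (nat_lit 358242882620) (nat_lit 14) (nat_lit 5) (nat_lit 15) (nat_lit 5) (nat_lit 16) (nat_lit 4) (nat_lit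 481) (nat_lit 419) (nat_lit 300)))))) (XT.nd (nat_lit 468) (nat_lit 228) (nat_lit 0) (XT.nd (nat_lit 234) (nat_lit 152) (nat_lit 0) (XT.nd (nat_lit 78) (nat_lit 76) (nat_lit 0) (XT.lf (nat_lit 0) (nat_lit 112637975018) (nat_lit 152) (nat_lit 219008425686) (nat_lit 0) (nat_lit 72618152143) (nat_lit 14) (nat_lit 5) (nat_lit 16) (nat_lit 4) (nat_lit 14) (nat_lit 4) (nat_lit 482) (nat_lit 419) (nat_lit 299)) (XT.nd (nat_lit 78) (nat_lit 76) (nat_lit 0) (XT.lf (nat_lit 0) (nat_lit 210109939106) (nat_lit 152) (nat_lit 49071893972) (nat_lit 0) (nat_lit 170089827075) (nat_lit 14) (nat_lit 5) (nat_lit 16) (nat_lit 4) (nat_lit 14) (nat_lit 4) (nat_lit 483) (nat_lit 419) (nat_lit 298)) (XT.lf (nat_lit 0) (nat_lit 141537217309) (nat_lit 76) (nat_lit 177245141327) (nat_lit 76) (nat_lit 137224761557) (nat_lit 13) (nat_lit 4) (nat_lit 14) (nat_lit 5) (nat_lit 14) (nat_lit 4) (nat_lit 484) (nat_lit 419)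 (nat_lit 297)))) (XT.nd (nat_lit 78) (nat_lit 152) (nat_lit 0) (XT.lf (nat_lit 0) (nat_lit 350183277796) (nat_lit 76) (nat_lit 87305764635) (nat_lit 76) (nat_lit 47285136961) (nat_lit 13) (nat_lit 4) (nat_lit 14) (nat_lit 5) (nat_lit 14) (nat_lit 4) (nat_lit 485) (nat_lit 419) (nat_lit 296)) (XT.nd (nat_lit 78) (nat_lit 0) (nat_lit 0) (XT.lf (nat_lit 0) (nat_lit 49141174433) (nat_lit 152) (nat_lit 454377877022) (nat_lit 0) (nat_lit 12084825159) (nat_lit 11) (nat_lit 5) (nat_lit 13) (nat_lit 4) (nat_lit 11) (nat_lit 4) (nat_lit 486) (nat_lit 419) (nat_lit 295)) (XT.lf (nat_lit 0) (nat_lit 156769006376) (nat_lit 152) (nat_lit 271836864814) (nat_lit 0) (nat_lit 119712460306) (nat_lit 11) (nat_lit 5) (nat_lit 13) (nat_lit 4) (nat_lit 11) (nat_lit 4) (nat_lit 487) (nat_lit 419) (nat_lit 294))))) (XT.nd (nat_lit 234) (nat_lit 152) (nat_lit 0) (XT.nd (nat_lit 78) (nat_lit 76) (nat_lit 0) (XT.lf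 (nat_lit 0) (nat_lit 273005974170) (nat_lit 152) (nat_lit 74694809983) (nat_lit 0) (nat_lit 235949245883) (nat_lit 11) (nat_lit 5) (nat_lit 13) (nat_lit 4) (nat_lit 11) (nat_lit 4) (nat_lit 488) (nat_lit 419) (nat_lit 293)) (XT.nd (nat_lit 78) (nat_lit 0) (nat_lit 0) (XT.lf (nat_lit 0) (nat_lit 145494774567) (nat_lit 76) (nat_lit 256545267737) (nat_lit 76) (nat_lit 219488370730) (nat_lit 10) (nat_lit 4) (nat_lit 11) (nat_lit 5) (nat_lit 11) (nat_lit 4) (nat_lit 489) (nat_lit 419) (nat_lit 292)) (XT.lf (nat_lit 0) (nat_lit 387545465831) (nat_lit 76) (nat_lit 155892674848) (nat_lit 76) (nat_lit 118835621619) (nat_lit 10) (nat_lit 4) (nat_lit 11) (nat_lit 5) (nat_lit 11) (nat_lit 4) (nat_lit 490) (nat_lit 419) (nat_lit 291)))) (XT.nd (nat_lit 156) (nat_lit 0) (nat_lit 0) (XT.nd (nat_lit 78) (nat_lit 152) (nat_lit 0) (XT.lf (nat_lit 0) (nat_lit 648958341952) (nat_lit 76) (nat_lit 47188834152)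 (nat_lit 76) (nat_lit 10131636272) (nat_lit 10) (nat_lit 4) (nat_lit 11) (nat_lit 5) (nat_lit 11) (nat_lit 4) (nat_lit 491) (nat_lit 419) (nat_lit 290)) (XT.lf (nat_lit 0) (nat_lit 108200174762) (nat_lit 152) (nat_lit 571006074486) (nat_lit 0) (nat_lit 73887830489) (nat_lit 8) (nat_lit 5) (nat_lit 10) (nat_lit 4) (nat_lit 8) (nat_lit 4) (nat_lit 492) (nat_lit 419) (nat_lit 289))) (XT.nd (nat_lit 78) (nat_lit 0) (nat_lit 0) (XT.lf (nat_lit 0) (nat_lit 238283929793) (nat_lit 152) (nat_lit 361151493608) (nat_lit 0) (nat_lit 203971470692) (nat_lit 8) (nat_lit 5) (nat_lit 10) (nat_lit 4) (nat_lit 8) (nat_lit 4) (nat_lit 493) (nat_lit 419) (nat_lit 288)) (XT.lf (nat_lit 0) (nat_lit 378773585012) (nat_lit 152) (nat_lit 134510193020) (nat_lit 0) (nat_lit 344461019588) (nat_lit 8) (nat_lit 5) (nat_lit 10) (nat_lit 4) (nat_lit 8) (nat_lit 4) (nat_lit 494) (nat_lit 419) (nat_lit 287))))))) (XT.nd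 (nat_lit 936) (nat_lit 152) (nat_lit 0) (XT.nd (nat_lit 468) (nat_lit 76) (nat_lit 0) (XT.nd (nat_lit 234) (nat_lit 152) (nat_lit 0) (XT.nd (nat_lit 78) (nat_lit 0) (nat_lit 0) (XT.lf (nat_lit 0) (nat_lit 116067029738) (nat_lit 76) (nat_lit 417226056826) (nat_lit 76) (nat_lit 382913392956) (nat_lit 7) (nat_lit 4) (nat_lit 8) (nat_lit 5) (nat_lit 8) (nat_lit 4) (nat_lit 495) (nat_lit 419) (nat_lit 286)) (XT.nd (nat_lit 78) (nat_lit 0) (nat_lit 0) (XT.lf (nat_lit 0) (nat_lit 394338658006) (nat_lit 76) (nat_lit 309512515489) (nat_lit 76) (nat_lit 275199760464) (nat_lit 7) (nat_lit 4) (nat_lit 8) (nat_lit 5) (nat_lit 8) (nat_lit 4) (nat_lit 496) (nat_lit 419) (nat_lit 285)) (XT.lf (nat_lit 0) (nat_lit 694870640446) (nat_lit 76) (nat_lit 193182598602) (nat_lit 76) (nat_lit 158869759175) (nat_lit 7) (nat_lit 4) (nat_lit 8) (nat_lit 5) (nat_lit 8) (nat_lit 4) (nat_lit 497) (nat_lit 419) (nat_lit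 284)))) (XT.nd (nat_lit 78) (nat_lit 152) (nat_lit 0) (XT.lf (nat_lit 0) (nat_lit 1019443907324) (nat_lit 76) (nat_lit 67546943695) (nat_lit 76) (nat_lit 33234026118) (nat_lit 7) (nat_lit 4) (nat_lit 8) (nat_lit 5) (nat_lit 8) (nat_lit 4) (nat_lit 498) (nat_lit 419) (nat_lit 283)) (XT.nd (nat_lit 78) (nat_lit 0) (nat_lit 0) (XT.lf (nat_lit 0) (nat_lit 103396561554) (nat_lit 152) (nat_lit 1023686424248) (nat_lit 0) (nat_lit 71625274575) (nat_lit 5) (nat_lit 5) (nat_lit 7) (nat_lit 4) (nat_lit 5) (nat_lit 4) (nat_lit 499) (nat_lit 419) (nat_lit 282)) (XT.lf (nat_lit 0) (nat_lit 253743076895) (nat_lit 152) (nat_lit 807319973287) (nat_lit 0) (nat_lit 221971727877) (nat_lit 5) (nat_lit 5) (nat_lit 7) (nat_lit 4) (nat_lit 5) (nat_lit 4) (nat_lit 500) (nat_lit 419) (nat_lit 281))))) (XT.nd (nat_lit 234) (nat_lit 76) (nat_lit 0) (XT.nd (nat_lit 78) (nat_lit 0) (nat_lit 0) (XT.lf (nat_lit 0) (nat_lit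 416116769652) (nat_lit 152) (nat_lit 573645327820) (nat_lit 0) (nat_lit 384345363192) (nat_lit 5) (nat_lit 5) (nat_lit 7) (nat_lit 4) (nat_lit 5) (nat_lit 4) (nat_lit 501) (nat_lit 419) (nat_lit 280)) (XT.nd (nat_lit 78) (nat_lit 0) (nat_lit 0) (XT.lf (nat_lit 0) (nat_lit 591479854303) (nat_lit 152) (nat_lit 321277749206) (nat_lit 0) (nat_lit 559708394655) (nat_lit 5) (nat_lit 5) (nat_lit 7) (nat_lit 4) (nat_lit 5) (nat_lit 4) (nat_lit 502) (nat_lit 419) (nat_lit 279)) (XT.lf (nat_lit 0) (nat_lit 780871519495) (nat_lit 152) (nat_lit 48721725868) (nat_lit 0) (nat_lit 749100010600) (nat_lit 5) (nat_lit 5) (nat_lit 7) (nat_lit 4) (nat_lit 5) (nat_lit 4) (nat_lit 503) (nat_lit 419) (nat_lit 278)))) (XT.nd (nat_lit 78) (nat_lit 0) (nat_lit 0) (XT.lf (nat_lit 0) (nat_lit 258572744925) (nat_lit 76) (nat_lit 733060022018) (nat_lit 76) (nat_lit 701288467523) (nat_lit 4) (nat_lit 4) (nat_lit 5) (nat_lit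 5) (nat_lit 5) (nat_lit 4) (nat_lit 504) (nat_lit 419) (nat_lit 277)) (XT.nd (nat_lit 78) (nat_lit 0) (nat_lit 0) (XT.lf (nat_lit 0) (nat_lit 593220753306) (nat_lit 76) (nat_lit 627365878622) (nat_lit 76) (nat_lit 595594281904) (nat_lit 4) (nat_lit 4) (nat_lit 5) (nat_lit 5) (nat_lit 5) (nat_lit 4) (nat_lit 505) (nat_lit 419) (nat_lit 276)) (XT.lf (nat_lit 0) (nat_lit 954639798840) (nat_lit 76) (nat_lit 513216617838) (nat_lit 76) (nat_lit 481444982026) (nat_lit 4) (nat_lit 4) (nat_lit 5) (nat_lit 5) (nat_lit 5) (nat_lit 4) (nat_lit 506) (nat_lit 419) (nat_lit 275)))))) (XT.nd (nat_lit 468) (nat_lit 0) (nat_lit 0) (XT.nd (nat_lit 234) (nat_lit 152) (nat_lit 0) (XT.nd (nat_lit 78) (nat_lit 0) (nat_lit 0) (XT.lf (nat_lit 0) (nat_lit 1344971624021) (nat_lit 76) (nat_lit 389935799602) (nat_lit 76) (nat_lit 358164127591) (nat_lit 4) (nat_lit 4) (nat_lit 5) (nat_lit 5) (nat_lit 5) (nat_lit 4)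 (nat_lit 507) (nat_lit 419) (nat_lit 274)) (XT.nd (nat_lit 78) (nat_lit 0) (nat_lit 0) (XT.lf (nat_lit 0) (nat_lit 1766529306330) (nat_lit 76) (nat_lit 256792870918) (nat_lit 76) (nat_lit 225021165390) (nat_lit 4) (nat_lit 4) (nat_lit 5) (nat_lit 5) (nat_lit 5) (nat_lit 4) (nat_lit 508) (nat_lit 419) (nat_lit 273)) (XT.lf (nat_lit 0) (nat_lit 2221810965366) (nat_lit 76) (nat_lit 112998836652) (nat_lit 76) (nat_lit 81227100090) (nat_lit 4) (nat_lit 4) (nat_lit 5) (nat_lit 5) (nat_lit 5) (nat_lit 4) (nat_lit 509) (nat_lit 419) (nat_lit 272)))) (XT.nd (nat_lit 78) (nat_lit 0) (nat_lit 0) (XT.lf (nat_lit 0) (nat_lit 74404729724) (nat_lit 152) (nat_lit 2477289112708) (nat_lit 0) (nat_lit 44986428522) (nat_lit 2) (nat_lit 5) (nat_lit 4) (nat_lit 4) (nat_lit 2) (nat_lit 4) (nat_lit 510) (nat_lit 419) (nat_lit 271)) (XT.nd (nat_lit 78) (nat_lit 0) (nat_lit 0) (XT.lf (nat_lit 0) (nat_lit 246481889870)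 (nat_lit 152) (nat_lit 2327390219250) (nat_lit 0) (nat_lit 217063564033) (nat_lit 2) (nat_lit 5) (nat_lit 4) (nat_lit 4) (nat_lit 2) (nat_lit 4) (nat_lit 511) (nat_lit 419) (nat_lit 270)) (XT.lf (nat_lit 0) (nat_lit 432324951107) (nat_lit 152) (nat_lit 2165499975702) (nat_lit 0) (nat_lit 402906602458) (nat_lit 2) (nat_lit 5) (nat_lit 4) (nat_lit 4) (nat_lit 2) (nat_lit 4) (nat_lit 512) (nat_lit 419) (nat_lit 269))))) (XT.nd (nat_lit 234) (nat_lit 0) (nat_lit 0) (XT.nd (nat_lit 78) (nat_lit 0) (nat_lit 0) (XT.lf (nat_lit 0) (nat_lit 633035205648) (nat_lit 152) (nat_lit 1990659032473) (nat_lit 0) (nat_lit 603616835878) (nat_lit 2) (nat_lit 5) (nat_lit 4) (nat_lit 4) (nat_lit 2) (nat_lit 4) (nat_lit 513) (nat_lit 419) (nat_lit 268)) (XT.nd (nat_lit 78) (nat_lit 0) (nat_lit 0) (XT.lf (nat_lit 0) (nat_lit 849802047595) (nat_lit 152) (nat_lit 1801831295084) (nat_lit 0) (nat_lit 820383658268)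 (nat_lit 2) (nat_lit 5) (nat_lit 4) (nat_lit 4) (nat_lit 2) (nat_lit 4) (nat_lit 514) (nat_lit 419) (nat_lit 267)) (XT.lf (nat_lit 0) (nat_lit 1083910021196) (nat_lit 152) (nat_lit 1597897784351) (nat_lit 0) (nat_lit 1054491613761) (nat_lit 2) (nat_lit 5) (nat_lit 4) (nat_lit 4) (nat_lit 2) (nat_lit 4) (nat_lit 515) (nat_lit 419) (nat_lit 266)))) (XT.nd (nat_lit 156) (nat_lit 0) (nat_lit 0) (XT.nd (nat_lit 78) (nat_lit 0) (nat_lit 0) (XT.lf (nat_lit 0) (nat_lit 1336746432962) (nat_lit 152) (nat_lit 1377650005395) (nat_lit 0) (nat_lit 1307328008759) (nat_lit 2) (nat_lit 5) (nat_lit 4) (nat_lit 4) (nat_lit 2) (nat_lit 4) (nat_lit 516) (nat_lit 419) (nat_lit 265)) (XT.lf (nat_lit 0) (nat_lit 1609809572740) (nat_lit 152) (nat_lit 1139782786194) (nat_lit 0) (nat_lit 1580391133012) (nat_lit 2) (nat_lit 5) (nat_lit 4) (nat_lit 4) (nat_lit 2) (nat_lit 4) (nat_lit 517) (nat_lit 419) (nat_lit 264)))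 (XT.nd (nat_lit 78) (nat_lit 0) (nat_lit 0) (XT.lf (nat_lit 0) (nat_lit 1904717592469) (nat_lit 152) (nat_lit 882886543225) (nat_lit 0) (nat_lit 1875299138366) (nat_lit 2) (nat_lit 5) (nat_lit 4) (nat_lit 4) (nat_lit 2) (nat_lit 4) (nat_lit 518) (nat_lit 419) (nat_lit 263)) (XT.lf (nat_lit 0) (nat_lit 2223218095229) (nat_lit 152) (nat_lit 605438928382) (nat_lit 0) (nat_lit 2193799627816) (nat_lit 2) (nat_lit 5) (nat_lit 4) (nat_lit 4) (nat_lit 2) (nat_lit 4) (nat_lit 519) (nat_lit 419) (nat_lit 262))))))))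
noncomputable def xc142 : XT := (XT.nd (nat_lit 55536) (nat_lit 0) (nat_lit 2736) (XT.nd (nat_lit 936) (nat_lit 0) (nat_lit 0) (XT.nd (nat_lit 468) (nat_lit 0) (nat_lit 0) (XT.nd (nat_lit 234) (nat_lit 0) (nat_lit 0) (XT.nd (nat_lit 78) (nat_lit 76) (nat_lit 0) (XT.lf (nat_lit 0) (nat_lit 2567198491408) (nat_lit 152) (nat_lit 305795807651) (nat_lit 0) (nat_lit 2537780011670) (nat_lit 2) (nat_lit 5) (nat_lit 4) (nat_lit 4) (nat_lit 2) (nat_lit 4) (nat_lit 520) (nat_lit 419) (nat_lit 261)) (XT.nd (nat_lit 78) (nat_lit 0) (nat_lit 0) (XT.lf (nat_lit 0) (nat_lit 18756771583) (nat_lit 76) (nat_lit 2920391512575) (nat_lit 76) (nat_lit 2890973021427) (nat_lit 1) (nat_lit 4) (nat_lit 2) (nat_lit 5) (nat_lit 2) (nat_lit 4) (nat_lit 521) (nat_lit 419) (nat_lit 260)) (XT.lf (nat_lit 0) (nat_lit 386664161974) (nat_lit 76) (nat_lit 2962550765212) (nat_lit 76) (nat_lit 2933132263497) (nat_lit 1) (nat_lit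 4) (nat_lit 2) (nat_lit 5) (nat_lit 2) (nat_lit 4) (nat_lit 522) (nat_lit 419) (nat_lit 259)))) (XT.nd (nat_lit 78) (nat_lit 0) (nat_lit 0) (XT.lf (nat_lit 0) (nat_lit 784003890148) (nat_lit 76) (nat_lit 3008082888874) (nat_lit 76) (nat_lit 2978664377376) (nat_lit 1) (nat_lit 4) (nat_lit 2) (nat_lit 5) (nat_lit 2) (nat_lit 4) (nat_lit 523) (nat_lit 419) (nat_lit 258)) (XT.nd (nat_lit 78) (nat_lit 0) (nat_lit 0) (XT.lf (nat_lit 0) (nat_lit 1213130561903) (nat_lit 76) (nat_lit 3057257703555) (nat_lit 76) (nat_lit 3027839182999) (nat_lit 1) (nat_lit 4) (nat_lit 2) (nat_lit 5) (nat_lit 2) (nat_lit 4) (nat_lit 524) (nat_lit 419) (nat_lit 257)) (XT.lf (nat_lit 0) (nat_lit 1676587150107) (nat_lit 76) (nat_lit 3110366615563) (nat_lit 76) (nat_lit 3080948086619) (nat_lit 1) (nat_lit 4) (nat_lit 2) (nat_lit 5) (nat_lit 2) (nat_lit 4) (nat_lit 525) (nat_lit 419) (nat_lit 256))))) (XT.nd (nat_lit 234)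 (nat_lit 0) (nat_lit 0) (XT.nd (nat_lit 78) (nat_lit 0) (nat_lit 0) (XT.lf (nat_lit 0) (nat_lit 2177120064173) (nat_lit 76) (nat_lit 3167724344378) (nat_lit 76) (nat_lit 3138305807668) (nat_lit 1) (nat_lit 4) (nat_lit 2) (nat_lit 5) (nat_lit 2) (nat_lit 4) (nat_lit 526) (nat_lit 419) (nat_lit 255)) (XT.nd (nat_lit 78) (nat_lit 0) (nat_lit 0) (XT.lf (nat_lit 0) (nat_lit 2717695425073) (nat_lit 76) (nat_lit 3229670787651) (nat_lit 76) (nat_lit 3200252243750) (nat_lit 1) (nat_lit 4) (nat_lit 2) (nat_lit 5) (nat_lit 2) (nat_lit 4) (nat_lit 527) (nat_lit 419) (nat_lit 254)) (XT.lf (nat_lit 0) (nat_lit 3301516642352) (nat_lit 76) (nat_lit 3296573035417) (nat_lit 76) (nat_lit 3267154484857) (nat_lit 1) (nat_lit 4) (nat_lit 2) (nat_lit 5) (nat_lit 2) (nat_lit 4) (nat_lit 528) (nat_lit 419) (nat_lit 253)))) (XT.nd (nat_lit 78) (nat_lit 0) (nat_lit 0) (XT.lf (nat_lit 0) (nat_lit 3932043397299) (nat_lit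 76) (nat_lit 3368827545439) (nat_lit 76) (nat_lit 3339408988714) (nat_lit 1) (nat_lit 4) (nat_lit 2) (nat_lit 5) (nat_lit 2) (nat_lit 4) (nat_lit 529) (nat_lit 419) (nat_lit 252)) (XT.nd (nat_lit 78) (nat_lit 0) (nat_lit 0) (XT.lf (nat_lit 0) (nat_lit 4613012144757) (nat_lit 76) (nat_lit 3446862492593) (nat_lit 76) (nat_lit 3417443930160) (nat_lit 1) (nat_lit 4) (nat_lit 2) (nat_lit 5) (nat_lit 2) (nat_lit 4) (nat_lit 530) (nat_lit 419) (nat_lit 251)) (XT.lf (nat_lit 0) (nat_lit 5348458255082) (nat_lit 76) (nat_lit 3531140306195) (nat_lit 76) (nat_lit 3501721738476) (nat_lit 1) (nat_lit 4) (nat_lit 2) (nat_lit 5) (nat_lit 2) (nat_lit 4) (nat_lit 531) (nat_lit 419) (nat_lit 250)))))) (XT.nd (nat_lit 54054) (nat_lit 0) (nat_lit 5092) (XT.nd (nat_lit 53820) (nat_lit 0) (nat_lit 6080) (XT.nd (nat_lit 78) (nat_lit 0) (nat_lit 0) (XT.lf (nat_lit 0) (nat_lit 6142739927446) (nat_lit 76) (nat_lit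 3622160410325) (nat_lit 76) (nat_lit 3592741837712) (nat_lit 1) (nat_lit 4) (nat_lit 2) (nat_lit 5) (nat_lit 2) (nat_lit 4) (nat_lit 532) (nat_lit 419) (nat_lit 249)) (XT.nd (nat_lit 53664) (nat_lit 0) (nat_lit 6080) (XT.lf (nat_lit 0) (nat_lit 7000564016204) (nat_lit 76) (nat_lit 3720462183379) (nat_lit 76) (nat_lit 3691043606234) (nat_lit 1) (nat_lit 4) (nat_lit 2) (nat_lit 5) (nat_lit 2) (nat_lit 4) (nat_lit 533) (nat_lit 419) (nat_lit 248)) (XT.lf (nat_lit 0) (nat_lit 8418713788) (nat_lit 532) (nat_lit 552913172) (nat_lit 532) (nat_lit 552913172) (nat_lit 81) (nat_lit 3) (nat_lit 88) (nat_lit 3) (nat_lit 88) (nat_lit 5) (nat_lit 420) (nat_lit 420) (nat_lit 360)))) (XT.nd (nat_lit 78) (nat_lit 0) (nat_lit 76) (XT.lf (nat_lit 76) (nat_lit 8782194619) (nat_lit 0) (nat_lit 9112156590) (nat_lit 532) (nat_lit 1885972098) (nat_lit 82) (nat_lit 5) (nat_lit 81) (nat_lit 3) (nat_lit 88) (nat_lit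 5) (nat_lit 421) (nat_lit 420) (nat_lit 359)) (XT.nd (nat_lit 78) (nat_lit 0) (nat_lit 0) (XT.lf (nat_lit 0) (nat_lit 19059799980) (nat_lit 456) (nat_lit 1065899974) (nat_lit 532) (nat_lit 442452745) (nat_lit 82) (nat_lit 5) (nat_lit 88) (nat_lit 5) (nat_lit 89) (nat_lit 5) (nat_lit 422) (nat_lit 420) (nat_lit 358)) (XT.lf (nat_lit 76) (nat_lit 9909396251) (nat_lit 0) (nat_lit 10868088174) (nat_lit 532) (nat_lit 604808301) (nat_lit 83) (nat_lit 5) (nat_lit 82) (nat_lit 5) (nat_lit 89) (nat_lit 5) (nat_lit 423) (nat_lit 420) (nat_lit 357))))) (XT.nd (nat_lit 234) (nat_lit 532) (nat_lit 0) (XT.nd (nat_lit 78) (nat_lit 0) (nat_lit 76) (XT.lf (nat_lit 0) (nat_lit 366902695) (nat_lit 532) (nat_lit 456667960) (nat_lit 608) (nat_lit 21436127680) (nat_lit 75) (nat_lit 5) (nat_lit 82) (nat_lit 5) (nat_lit 83) (nat_lit 5) (nat_lit 424) (nat_lit 420) (nat_lit 356)) (XT.nd (nat_lit 78) (nat_lit 0)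 (nat_lit 0) (XT.lf (nat_lit 0) (nat_lit 1907447948) (nat_lit 532) (nat_lit 11417202247) (nat_lit 608) (nat_lit 9839491022) (nat_lit 76) (nat_lit 5) (nat_lit 83) (nat_lit 5) (nat_lit 84) (nat_lit 5) (nat_lit 425) (nat_lit 420) (nat_lit 355)) (XT.lf (nat_lit 76) (nat_lit 821045969) (nat_lit 0) (nat_lit 2790729548) (nat_lit 608) (nat_lit 20525924050) (nat_lit 77) (nat_lit 5) (nat_lit 76) (nat_lit 5) (nat_lit 84) (nat_lit 5) (nat_lit 426) (nat_lit 420) (nat_lit 354)))) (XT.nd (nat_lit 156) (nat_lit 228) (nat_lit 0) (XT.nd (nat_lit 78) (nat_lit 456) (nat_lit 0) (XT.lf (nat_lit 0) (nat_lit 5966580195) (nat_lit 532) (nat_lit 10703060664) (nat_lit 76) (nat_lit 8478374159) (nat_lit 77) (nat_lit 5) (nat_lit 84) (nat_lit 5) (nat_lit 78) (nat_lit 5) (nat_lit 427) (nat_lit 420) (nat_lit 353)) (XT.lf (nat_lit 0) (nat_lit 2985408390) (nat_lit 456) (nat_lit 5656947334) (nat_lit 532) (nat_lit 17586195750)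 (nat_lit 71) (nat_lit 5) (nat_lit 77) (nat_lit 5) (nat_lit 78) (nat_lit 5) (nat_lit 428) (nat_lit 420) (nat_lit 352))) (XT.nd (nat_lit 78) (nat_lit 228) (nat_lit 0) (XT.lf (nat_lit 0) (nat_lit 11971344636) (nat_lit 532) (nat_lit 9163751461) (nat_lit 76) (nat_lit 6225305130) (nat_lit 71) (nat_lit 5) (nat_lit 78) (nat_lit 5) (nat_lit 72) (nat_lit 5) (nat_lit 429) (nat_lit 420) (nat_lit 351)) (XT.lf (nat_lit 0) (nat_lit 6194092832) (nat_lit 228) (nat_lit 9658198061) (nat_lit 304) (nat_lit 12707659316) (nat_lit 68) (nat_lit 5) (nat_lit 71) (nat_lit 5) (nat_lit 72) (nat_lit 5) (nat_lit 430) (nat_lit 420) (nat_lit 350))))))) (XT.nd (nat_lit 936) (nat_lit 988) (nat_lit 0) (XT.nd (nat_lit 468) (nat_lit 684) (nat_lit 0) (XT.nd (nat_lit 234) (nat_lit 456) (nat_lit 0) (XT.nd (nat_lit 78) (nat_lit 228) (nat_lit 0) (XT.lf (nat_lit 0) (nat_lit 20356819452) (nat_lit 304) (nat_lit 6617341166) (nat_lit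 76) (nat_lit 2856256096) (nat_lit 68) (nat_lit 5) (nat_lit 72) (nat_lit 5) (nat_lit 69) (nat_lit 5) (nat_lit 431) (nat_lit 420) (nat_lit 349)) (XT.nd (nat_lit 78) (nat_lit 0) (nat_lit 0) (XT.lf (nat_lit 0) (nat_lit 10663136572) (nat_lit 228) (nat_lit 15056833006) (nat_lit 304) (nat_lit 5442692193) (nat_lit 65) (nat_lit 5) (nat_lit 68) (nat_lit 5) (nat_lit 69) (nat_lit 5) (nat_lit 432) (nat_lit 420) (nat_lit 348)) (XT.lf (nat_lit 0) (nat_lit 29692180908) (nat_lit 228) (nat_lit 1992293996) (nat_lit 304) (nat_lit 903229105) (nat_lit 65) (nat_lit 5) (nat_lit 68) (nat_lit 5) (nat_lit 69) (nat_lit 5) (nat_lit 433) (nat_lit 420) (nat_lit 347)))) (XT.nd (nat_lit 78) (nat_lit 228) (nat_lit 0) (XT.lf (nat_lit 0) (nat_lit 4500873444) (nat_lit 228) (nat_lit 17537867677) (nat_lit 76) (nat_lit 12024191385) (nat_lit 62) (nat_lit 5) (nat_lit 65) (nat_lit 5) (nat_lit 63) (nat_lit 5) (nat_lit 434) (nat_lit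 420) (nat_lit 346)) (XT.nd (nat_lit 78) (nat_lit 0) (nat_lit 0) (XT.lf (nat_lit 0) (nat_lit 2028097631) (nat_lit 228) (nat_lit 8434292706) (nat_lit 304) (nat_lit 25178002840) (nat_lit 59) (nat_lit 5) (nat_lit 62) (nat_lit 5) (nat_lit 63) (nat_lit 5) (nat_lit 435) (nat_lit 420) (nat_lit 345)) (XT.lf (nat_lit 0) (nat_lit 17535737017) (nat_lit 304) (nat_lit 13322429610) (nat_lit 76) (nat_lit 6435092745) (nat_lit 59) (nat_lit 5) (nat_lit 63) (nat_lit 5) (nat_lit 60) (nat_lit 5) (nat_lit 436) (nat_lit 420) (nat_lit 344))))) (XT.nd (nat_lit 234) (nat_lit 304) (nat_lit 0) (XT.nd (nat_lit 78) (nat_lit 228) (nat_lit 0) (XT.lf (nat_lit 0) (nat_lit 8802147954) (nat_lit 152) (nat_lit 16796549113) (nat_lit 228) (nat_lit 13445759390) (nat_lit 57) (nat_lit 5) (nat_lit 59) (nat_lit 5) (nat_lit 60) (nat_lit 5) (nat_lit 437) (nat_lit 420) (nat_lit 343)) (XT.nd (nat_lit 78) (nat_lit 228) (nat_lit 0) (XT.lf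 (nat_lit 0) (nat_lit 33444872086) (nat_lit 152) (nat_lit 1219353862) (nat_lit 228) (nat_lit 6242921952) (nat_lit 57) (nat_lit 5) (nat_lit 59) (nat_lit 5) (nat_lit 60) (nat_lit 5) (nat_lit 438) (nat_lit 420) (nat_lit 342)) (XT.lf (nat_lit 0) (nat_lit 2273080842) (nat_lit 228) (nat_lit 25274955279) (nat_lit 76) (nat_lit 15302761389) (nat_lit 54) (nat_lit 5) (nat_lit 57) (nat_lit 5) (nat_lit 55) (nat_lit 5) (nat_lit 439) (nat_lit 420) (nat_lit 341)))) (XT.nd (nat_lit 78) (nat_lit 304) (nat_lit 0) (XT.lf (nat_lit 0) (nat_lit 11367889135) (nat_lit 228) (nat_lit 100653490) (nat_lit 76) (nat_lit 33449640657) (nat_lit 54) (nat_lit 5) (nat_lit 57) (nat_lit 5) (nat_lit 55) (nat_lit 5) (nat_lit 440) (nat_lit 420) (nat_lit 340)) (XT.nd (nat_lit 78) (nat_lit 152) (nat_lit 0) (XT.lf (nat_lit 0) (nat_lit 22029654656) (nat_lit 228) (nat_lit 18751239212) (nat_lit 76) (nat_lit 6302917090) (nat_lit 52) (nat_lit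 5) (nat_lit 55) (nat_lit 5) (nat_lit 53) (nat_lit 5) (nat_lit 441) (nat_lit 420) (nat_lit 339)) (XT.lf (nat_lit 0) (nat_lit 9807597612) (nat_lit 152) (nat_lit 24267759588) (nat_lit 228) (nat_lit 15304852771) (nat_lit 50) (nat_lit 5) (nat_lit 52) (nat_lit 5) (nat_lit 53) (nat_lit 5) (nat_lit 442) (nat_lit 420) (nat_lit 338)))))) (XT.nd (nat_lit 468) (nat_lit 532) (nat_lit 0) (XT.nd (nat_lit 234) (nat_lit 152) (nat_lit 0) (XT.nd (nat_lit 78) (nat_lit 304) (nat_lit 0) (XT.lf (nat_lit 0) (nat_lit 41708990067) (nat_lit 152) (nat_lit 5883041113) (nat_lit 228) (nat_lit 4227705232) (nat_lit 50) (nat_lit 5) (nat_lit 52) (nat_lit 5) (nat_lit 53) (nat_lit 5) (nat_lit 443) (nat_lit 420) (nat_lit 337)) (XT.nd (nat_lit 78) (nat_lit 152) (nat_lit 0) (XT.lf (nat_lit 0) (nat_lit 8243135947) (nat_lit 152) (nat_lit 32104600749) (nat_lit 76) (nat_lit 14020246472) (nat_lit 48) (nat_lit 5) (nat_lit 50) (nat_lit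 5) (nat_lit 49) (nat_lit 5) (nat_lit 444) (nat_lit 420) (nat_lit 336)) (XT.lf (nat_lit 0) (nat_lit 448828963) (nat_lit 152) (nat_lit 21476640717) (nat_lit 228) (nat_lit 35150457228) (nat_lit 46) (nat_lit 5) (nat_lit 48) (nat_lit 5) (nat_lit 49) (nat_lit 5) (nat_lit 445) (nat_lit 420) (nat_lit 335)))) (XT.nd (nat_lit 78) (nat_lit 152) (nat_lit 0) (XT.lf (nat_lit 0) (nat_lit 37424259623) (nat_lit 152) (nat_lit 151107044) (nat_lit 228) (nat_lit 22355301889) (nat_lit 46) (nat_lit 5) (nat_lit 48) (nat_lit 5) (nat_lit 49) (nat_lit 5) (nat_lit 446) (nat_lit 420) (nat_lit 334)) (XT.nd (nat_lit 78) (nat_lit 76) (nat_lit 0) (XT.lf (nat_lit 0) (nat_lit 14511823615) (nat_lit 76) (nat_lit 40860181438) (nat_lit 152) (nat_lit 7570205006) (nat_lit 45) (nat_lit 5) (nat_lit 46) (nat_lit 5) (nat_lit 47) (nat_lit 4) (nat_lit 447) (nat_lit 420) (nat_lit 333)) (XT.lf (nat_lit 0) (nat_lit 8608389707) (nat_lit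 152) (nat_lit 10603661010) (nat_lit 76) (nat_lit 46916005236) (nat_lit 44) (nat_lit 5) (nat_lit 46) (nat_lit 5) (nat_lit 45) (nat_lit 5) (nat_lit 448) (nat_lit 420) (nat_lit 332))))) (XT.nd (nat_lit 234) (nat_lit 304) (nat_lit 0) (XT.nd (nat_lit 78) (nat_lit 76) (nat_lit 0) (XT.lf (nat_lit 0) (nat_lit 26553791412) (nat_lit 228) (nat_lit 37990079795) (nat_lit 76) (nat_lit 4938647840) (nat_lit 42) (nat_lit 5) (nat_lit 45) (nat_lit 5) (nat_lit 43) (nat_lit 4) (nat_lit 449) (nat_lit 420) (nat_lit 331)) (XT.nd (nat_lit 78) (nat_lit 0) (nat_lit 0) (XT.lf (nat_lit 0) (nat_lit 4171972417) (nat_lit 76) (nat_lit 42655559039) (nat_lit 152) (nat_lit 26206391600) (nat_lit 41) (nat_lit 5) (nat_lit 42) (nat_lit 5) (nat_lit 43) (nat_lit 4) (nat_lit 450) (nat_lit 420) (nat_lit 330)) (XT.lf (nat_lit 0) (nat_lit 51860399660) (nat_lit 76) (nat_lit 17897521976) (nat_lit 152) (nat_lit 7028738011) (nat_lit 41)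 (nat_lit 5) (nat_lit 42) (nat_lit 5) (nat_lit 43) (nat_lit 4) (nat_lit 451) (nat_lit 420) (nat_lit 329)))) (XT.nd (nat_lit 156) (nat_lit 152) (nat_lit 0) (XT.nd (nat_lit 78) (nat_lit 0) (nat_lit 0) (XT.lf (nat_lit 0) (nat_lit 13792302664) (nat_lit 152) (nat_lit 57647528172) (nat_lit 76) (nat_lit 9309965431) (nat_lit 39) (nat_lit 5) (nat_lit 41) (nat_lit 5) (nat_lit 40) (nat_lit 4) (nat_lit 452) (nat_lit 420) (nat_lit 328)) (XT.lf (nat_lit 0) (nat_lit 37059674345) (nat_lit 152) (nat_lit 9256780698) (nat_lit 76) (nat_lit 38606093299) (nat_lit 39) (nat_lit 5) (nat_lit 41) (nat_lit 5) (nat_lit 40) (nat_lit 4) (nat_lit 453) (nat_lit 420) (nat_lit 327))) (XT.nd (nat_lit 78) (nat_lit 76) (nat_lit 0) (XT.lf (nat_lit 0) (nat_lit 45263140028) (nat_lit 76) (nat_lit 18010432111) (nat_lit 152) (nat_lit 26068737780) (nat_lit 38) (nat_lit 5) (nat_lit 39) (nat_lit 5) (nat_lit 40) (nat_lit 4) (nat_lit 454)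 (nat_lit 420) (nat_lit 326)) (XT.lf (nat_lit 0) (nat_lit 10800985302) (nat_lit 76) (nat_lit 81601696401) (nat_lit 76) (nat_lit 1647522952) (nat_lit 37) (nat_lit 4) (nat_lit 38) (nat_lit 5) (nat_lit 38) (nat_lit 4) (nat_lit 455) (nat_lit 420) (nat_lit 325))))))))
noncomputable def xc143 : XT := (XT.nd (nat_lit 1950) (nat_lit 912) (nat_lit 0) (XT.nd (nat_lit 936) (nat_lit 760) (nat_lit 0) (XT.nd (nat_lit 468) (nat_lit 456) (nat_lit 0) (XT.nd (nat_lit 234) (nat_lit 228) (nat_lit 0) (XT.nd (nat_lit 78) (nat_lit 76) (nat_lit 0) (XT.lf (nat_lit 0) (nat_lit 25191347040) (nat_lit 152) (nat_lit 27560130197) (nat_lit 76) (nat_lit 46199604616) (nat_lit 36) (nat_lit 5) (nat_lit 38) (nat_lit 5) (nat_lit 37) (nat_lit 4) (nat_lit 456) (nat_lit 420) (nat_lit 324)) (XT.nd (nat_lit 78) (nat_lit 0) (nat_lit 0) (XT.lf (nat_lit 0) (nat_lit 34248633748) (nat_lit 76) (nat_lit 20660227383) (nat_lit 152) (nat_lit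 49266101372) (nat_lit 35) (nat_lit 5) (nat_lit 36) (nat_lit 5) (nat_lit 37) (nat_lit 4) (nat_lit 457) (nat_lit 420) (nat_lit 323)) (XT.lf (nat_lit 0) (nat_lit 88110442998) (nat_lit 152) (nat_lit 7549178202) (nat_lit 0) (nat_lit 14068599239) (nat_lit 35) (nat_lit 5) (nat_lit 37) (nat_lit 4) (nat_lit 35) (nat_lit 4) (nat_lit 458) (nat_lit 420) (nat_lit 322)))) (XT.nd (nat_lit 78) (nat_lit 76) (nat_lit 0) (XT.lf (nat_lit 0) (nat_lit 9917344610) (nat_lit 152) (nat_lit 53416676651) (nat_lit 76) (nat_lit 52208879391) (nat_lit 33) (nat_lit 5) (nat_lit 35) (nat_lit 5) (nat_lit 34) (nat_lit 4) (nat_lit 459) (nat_lit 420) (nat_lit 321)) (XT.nd (nat_lit 78) (nat_lit 0) (nat_lit 0) (XT.lf (nat_lit 0) (nat_lit 16238692534) (nat_lit 76) (nat_lit 27168105603) (nat_lit 152) (nat_lit 78323081767) (nat_lit 32) (nat_lit 5) (nat_lit 33) (nat_lit 5) (nat_lit 34) (nat_lit 4) (nat_lit 460) (nat_lit 420) (nat_lit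 320)) (XT.lf (nat_lit 0) (nat_lit 81356984484) (nat_lit 152) (nat_lit 34120083807) (nat_lit 0) (nat_lit 12792223208) (nat_lit 32) (nat_lit 5) (nat_lit 34) (nat_lit 4) (nat_lit 32) (nat_lit 4) (nat_lit 461) (nat_lit 420) (nat_lit 319))))) (XT.nd (nat_lit 234) (nat_lit 228) (nat_lit 0) (XT.nd (nat_lit 78) (nat_lit 152) (nat_lit 0) (XT.lf (nat_lit 0) (nat_lit 44474723037) (nat_lit 76) (nat_lit 79641110622) (nat_lit 76) (nat_lit 11074210642) (nat_lit 31) (nat_lit 4) (nat_lit 32) (nat_lit 5) (nat_lit 32) (nat_lit 4) (nat_lit 462) (nat_lit 420) (nat_lit 318)) (XT.nd (nat_lit 78) (nat_lit 76) (nat_lit 0) (XT.lf (nat_lit 0) (nat_lit 27203230201) (nat_lit 152) (nat_lit 11986161443) (nat_lit 76) (nat_lit 103345543175) (nat_lit 30) (nat_lit 5) (nat_lit 32) (nat_lit 5) (nat_lit 31) (nat_lit 4) (nat_lit 463) (nat_lit 420) (nat_lit 317)) (XT.lf (nat_lit 0) (nat_lit 69947325317) (nat_lit 152) (nat_lit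 73880936086) (nat_lit 0) (nat_lit 6455923598) (nat_lit 29) (nat_lit 5) (nat_lit 31) (nat_lit 4) (nat_lit 29) (nat_lit 4) (nat_lit 464) (nat_lit 420) (nat_lit 316)))) (XT.nd (nat_lit 78) (nat_lit 152) (nat_lit 0) (XT.lf (nat_lit 0) (nat_lit 13565745061) (nat_lit 76) (nat_lit 104223182784) (nat_lit 76) (nat_lit 40730209053) (nat_lit 28) (nat_lit 4) (nat_lit 29) (nat_lit 5) (nat_lit 29) (nat_lit 4) (nat_lit 465) (nat_lit 420) (nat_lit 315)) (XT.nd (nat_lit 78) (nat_lit 76) (nat_lit 0) (XT.lf (nat_lit 0) (nat_lit 4012768013) (nat_lit 152) (nat_lit 55147871828) (nat_lit 76) (nat_lit 108082703265) (nat_lit 27) (nat_lit 5) (nat_lit 29) (nat_lit 5) (nat_lit 28) (nat_lit 4) (nat_lit 466) (nat_lit 420) (nat_lit 314)) (XT.lf (nat_lit 0) (nat_lit 42927130247) (nat_lit 76) (nat_lit 8237729026) (nat_lit 152) (nat_lit 125333579184) (nat_lit 26) (nat_lit 5) (nat_lit 27) (nat_lit 5) (nat_lit 28) (nat_lit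 4) (nat_lit 467) (nat_lit 420) (nat_lit 313)))))) (XT.nd (nat_lit 468) (nat_lit 456) (nat_lit 0) (XT.nd (nat_lit 234) (nat_lit 152) (nat_lit 0) (XT.nd (nat_lit 78) (nat_lit 152) (nat_lit 0) (XT.lf (nat_lit 0) (nat_lit 104758455615) (nat_lit 152) (nat_lit 35557024872) (nat_lit 0) (nat_lit 45964913989) (nat_lit 26) (nat_lit 5) (nat_lit 28) (nat_lit 4) (nat_lit 26) (nat_lit 4) (nat_lit 468) (nat_lit 420) (nat_lit 312)) (XT.nd (nat_lit 78) (nat_lit 76) (nat_lit 0) (XT.lf (nat_lit 0) (nat_lit 73770637047) (nat_lit 76) (nat_lit 90854996974) (nat_lit 76) (nat_lit 32060385463) (nat_lit 25) (nat_lit 4) (nat_lit 26) (nat_lit 5) (nat_lit 26) (nat_lit 4) (nat_lit 469) (nat_lit 420) (nat_lit 311)) (XT.lf (nat_lit 0) (nat_lit 21285063752) (nat_lit 152) (nat_lit 14522669539) (nat_lit 76) (nat_lit 171995637056) (nat_lit 24) (nat_lit 5) (nat_lit 26) (nat_lit 5) (nat_lit 25) (nat_lit 4) (nat_lit 470) (nat_lit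 420) (nat_lit 310)))) (XT.nd (nat_lit 78) (nat_lit 76) (nat_lit 0) (XT.lf (nat_lit 0) (nat_lit 80396045759) (nat_lit 152) (nat_lit 113134221258) (nat_lit 0) (nat_lit 25954824093) (nat_lit 23) (nat_lit 5) (nat_lit 25) (nat_lit 4) (nat_lit 23) (nat_lit 4) (nat_lit 471) (nat_lit 420) (nat_lit 309)) (XT.nd (nat_lit 78) (nat_lit 0) (nat_lit 0) (XT.lf (nat_lit 0) (nat_lit 4954263339) (nat_lit 76) (nat_lit 140736358528) (nat_lit 76) (nat_lit 86294350465) (nat_lit 22) (nat_lit 4) (nat_lit 23) (nat_lit 5) (nat_lit 23) (nat_lit 4) (nat_lit 472) (nat_lit 420) (nat_lit 308)) (XT.lf (nat_lit 0) (nat_lit 138920156253) (nat_lit 76) (nat_lit 80380054168) (nat_lit 76) (nat_lit 25937317960) (nat_lit 22) (nat_lit 4) (nat_lit 23) (nat_lit 5) (nat_lit 23) (nat_lit 4) (nat_lit 473) (nat_lit 420) (nat_lit 307))))) (XT.nd (nat_lit 234) (nat_lit 228) (nat_lit 0) (XT.nd (nat_lit 78) (nat_lit 76) (nat_lit 0) (XT.lf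 (nat_lit 0) (nat_lit 24322277474) (nat_lit 76) (nat_lit 13545841703) (nat_lit 152) (nat_lit 221560000025) (nat_lit 20) (nat_lit 5) (nat_lit 21) (nat_lit 5) (nat_lit 22) (nat_lit 4) (nat_lit 474) (nat_lit 420) (nat_lit 306)) (XT.nd (nat_lit 78) (nat_lit 76) (nat_lit 0) (XT.lf (nat_lit 0) (nat_lit 109767541225) (nat_lit 152) (nat_lit 105224855267) (nat_lit 0) (nat_lit 59356397999) (nat_lit 20) (nat_lit 5) (nat_lit 22) (nat_lit 4) (nat_lit 20) (nat_lit 4) (nat_lit 475) (nat_lit 420) (nat_lit 305)) (XT.lf (nat_lit 0) (nat_lit 36518288447) (nat_lit 76) (nat_lit 152129117359) (nat_lit 76) (nat_lit 101717438924) (nat_lit 19) (nat_lit 4) (nat_lit 20) (nat_lit 5) (nat_lit 20) (nat_lit 4) (nat_lit 476) (nat_lit 420) (nat_lit 304)))) (XT.nd (nat_lit 156) (nat_lit 76) (nat_lit 0) (XT.nd (nat_lit 78) (nat_lit 152) (nat_lit 0) (XT.lf (nat_lit 0) (nat_lit 195581923001) (nat_lit 76) (nat_lit 81131196604)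 (nat_lit 76) (nat_lit 30719022605) (nat_lit 19) (nat_lit 4) (nat_lit 20) (nat_lit 5) (nat_lit 20) (nat_lit 4) (nat_lit 477) (nat_lit 420) (nat_lit 303)) (XT.lf (nat_lit 0) (nat_lit 42524728737) (nat_lit 76) (nat_lit 2156695104) (nat_lit 152) (nat_lit 281013275912) (nat_lit 17) (nat_lit 5) (nat_lit 18) (nat_lit 5) (nat_lit 19) (nat_lit 4) (nat_lit 478) (nat_lit 420) (nat_lit 302))) (XT.nd (nat_lit 78) (nat_lit 76) (nat_lit 0) (XT.lf (nat_lit 0) (nat_lit 129589822893) (nat_lit 152) (nat_lit 132442698186) (nat_lit 0) (nat_lit 82911065746) (nat_lit 17) (nat_lit 5) (nat_lit 19) (nat_lit 4) (nat_lit 17) (nat_lit 4) (nat_lit 479) (nat_lit 420) (nat_lit 301)) (XT.lf (nat_lit 0) (nat_lit 31878623952) (nat_lit 76) (nat_lit 190233588426) (nat_lit 76) (nat_lit 143554467024) (nat_lit 16) (nat_lit 4) (nat_lit 17) (nat_lit 5) (nat_lit 17) (nat_lit 4) (nat_lit 480) (nat_lit 420) (nat_lit 300))))))) (XT.nd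 (nat_lit 1014) (nat_lit 304) (nat_lit 0) (XT.nd (nat_lit 468) (nat_lit 380) (nat_lit 0) (XT.nd (nat_lit 234) (nat_lit 76) (nat_lit 0) (XT.nd (nat_lit 78) (nat_lit 152) (nat_lit 0) (XT.lf (nat_lit 0) (nat_lit 216875044317) (nat_lit 76) (nat_lit 108781221950) (nat_lit 76) (nat_lit 62101763276) (nat_lit 16) (nat_lit 4) (nat_lit 17) (nat_lit 5) (nat_lit 17) (nat_lit 4) (nat_lit 481) (nat_lit 420) (nat_lit 299)) (XT.nd (nat_lit 78) (nat_lit 0) (nat_lit 0) (XT.lf (nat_lit 0) (nat_lit 4663043821) (nat_lit 76) (nat_lit 20021001747) (nat_lit 152) (nat_lit 386874004183) (nat_lit 14) (nat_lit 5) (nat_lit 15) (nat_lit 5) (nat_lit 16) (nat_lit 4) (nat_lit 482) (nat_lit 420) (nat_lit 298)) (XT.lf (nat_lit 0) (nat_lit 121673891023) (nat_lit 152) (nat_lit 236478222397) (nat_lit 0) (nat_lit 78451613135) (nat_lit 14) (nat_lit 5) (nat_lit 16) (nat_lit 4) (nat_lit 14) (nat_lit 4) (nat_lit 483) (nat_lit 420)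 (nat_lit 297)))) (XT.nd (nat_lit 78) (nat_lit 76) (nat_lit 0) (XT.lf (nat_lit 0) (nat_lit 226941769423) (nat_lit 152) (nat_lit 52950536838) (nat_lit 0) (nat_lit 183719243630) (nat_lit 14) (nat_lit 5) (nat_lit 16) (nat_lit 4) (nat_lit 14) (nat_lit 4) (nat_lit 484) (nat_lit 420) (nat_lit 296)) (XT.nd (nat_lit 78) (nat_lit 0) (nat_lit 0) (XT.lf (nat_lit 0) (nat_lit 152906110721) (nat_lit 76) (nat_lit 191401269765) (nat_lit 76) (nat_lit 148178514429) (nat_lit 13) (nat_lit 4) (nat_lit 14) (nat_lit 5) (nat_lit 14) (nat_lit 4) (nat_lit 485) (nat_lit 420) (nat_lit 295)) (XT.lf (nat_lit 0) (nat_lit 378240454860) (nat_lit 76) (nat_lit 94268482410) (nat_lit 76) (nat_lit 51045514536) (nat_lit 13) (nat_lit 4) (nat_lit 14) (nat_lit 5) (nat_lit 14) (nat_lit 4) (nat_lit 486) (nat_lit 420) (nat_lit 294))))) (XT.nd (nat_lit 234) (nat_lit 228) (nat_lit 0) (XT.nd (nat_lit 78) (nat_lit 0) (nat_lit 0) (XT.lf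 (nat_lit 0) (nat_lit 53093747602) (nat_lit 152) (nat_lit 490684437780) (nat_lit 0) (nat_lit 13072298834) (nat_lit 11) (nat_lit 5) (nat_lit 13) (nat_lit 4) (nat_lit 11) (nat_lit 4) (nat_lit 487) (nat_lit 420) (nat_lit 293)) (XT.nd (nat_lit 78) (nat_lit 0) (nat_lit 0) (XT.lf (nat_lit 0) (nat_lit 169330229862) (nat_lit 152) (nat_lit 293543379366) (nat_lit 0) (nat_lit 129308612374) (nat_lit 11) (nat_lit 5) (nat_lit 13) (nat_lit 4) (nat_lit 11) (nat_lit 4) (nat_lit 488) (nat_lit 420) (nat_lit 292)) (XT.lf (nat_lit 0) (nat_lit 294864695600) (nat_lit 152) (nat_lit 80632955306) (nat_lit 0) (nat_lit 254842921890) (nat_lit 11) (nat_lit 5) (nat_lit 13) (nat_lit 4) (nat_lit 11) (nat_lit 4) (nat_lit 489) (nat_lit 420) (nat_lit 291)))) (XT.nd (nat_lit 156) (nat_lit 152) (nat_lit 0) (XT.nd (nat_lit 78) (nat_lit 0) (nat_lit 0) (XT.lf (nat_lit 0) (nat_lit 157170848173) (nat_lit 76) (nat_lit 277050167267)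 (nat_lit 76) (nat_lit 237028248906) (nat_lit 10) (nat_lit 4) (nat_lit 11) (nat_lit 5) (nat_lit 11) (nat_lit 4) (nat_lit 490) (nat_lit 420) (nat_lit 290)) (XT.lf (nat_lit 0) (nat_lit 418582891653) (nat_lit 76) (nat_lit 168346753753) (nat_lit 76) (nat_lit 128324701457) (nat_lit 10) (nat_lit 4) (nat_lit 11) (nat_lit 5) (nat_lit 11) (nat_lit 4) (nat_lit 491) (nat_lit 420) (nat_lit 289))) (XT.nd (nat_lit 78) (nat_lit 152) (nat_lit 0) (XT.lf (nat_lit 0) (nat_lit 700906295008) (nat_lit 76) (nat_lit 50947889881) (nat_lit 76) (nat_lit 10925713571) (nat_lit 10) (nat_lit 4) (nat_lit 11) (nat_lit 5) (nat_lit 11) (nat_lit 4) (nat_lit 492) (nat_lit 420) (nat_lit 288)) (XT.lf (nat_lit 0) (nat_lit 116871800623) (nat_lit 152) (nat_lit 616654432790) (nat_lit 0) (nat_lit 79814123642) (nat_lit 8) (nat_lit 5) (nat_lit 10) (nat_lit 4) (nat_lit 8) (nat_lit 4) (nat_lit 493) (nat_lit 420) (nat_lit 287)))))) (XT.nd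 (nat_lit 468) (nat_lit 228) (nat_lit 0) (XT.nd (nat_lit 234) (nat_lit 0) (nat_lit 0) (XT.nd (nat_lit 78) (nat_lit 76) (nat_lit 0) (XT.lf (nat_lit 0) (nat_lit 257361099620) (nat_lit 152) (nat_lit 390013865268) (nat_lit 0) (nat_lit 220303324194) (nat_lit 8) (nat_lit 5) (nat_lit 10) (nat_lit 4) (nat_lit 8) (nat_lit 4) (nat_lit 494) (nat_lit 420) (nat_lit 286)) (XT.nd (nat_lit 78) (nat_lit 76) (nat_lit 0) (XT.lf (nat_lit 0) (nat_lit 409088856483) (nat_lit 152) (nat_lit 145243464176) (nat_lit 0) (nat_lit 372030989902) (nat_lit 8) (nat_lit 5) (nat_lit 10) (nat_lit 4) (nat_lit 8) (nat_lit 4) (nat_lit 495) (nat_lit 420) (nat_lit 285)) (XT.lf (nat_lit 0) (nat_lit 125379239079) (nat_lit 76) (nat_lit 450590333293) (nat_lit 76) (nat_lit 413532382311) (nat_lit 7) (nat_lit 4) (nat_lit 8) (nat_lit 5) (nat_lit 8) (nat_lit 4) (nat_lit 496) (nat_lit 420) (nat_lit 284)))) (XT.nd (nat_lit 78) (nat_lit 0) (nat_lit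 0) (XT.lf (nat_lit 0) (nat_lit 425910608944) (nat_lit 76) (nat_lit 334260731469) (nat_lit 76) (nat_lit 297202702337) (nat_lit 7) (nat_lit 4) (nat_lit 8) (nat_lit 5) (nat_lit 8) (nat_lit 4) (nat_lit 497) (nat_lit 420) (nat_lit 283)) (XT.nd (nat_lit 78) (nat_lit 0) (nat_lit 0) (XT.lf (nat_lit 0) (nat_lit 750483308624) (nat_lit 76) (nat_lit 208625368288) (nat_lit 76) (nat_lit 171567266794) (nat_lit 7) (nat_lit 4) (nat_lit 8) (nat_lit 5) (nat_lit 8) (nat_lit 4) (nat_lit 498) (nat_lit 420) (nat_lit 282)) (XT.lf (nat_lit 0) (nat_lit 1101020731895) (nat_lit 76) (nat_lit 72939737892) (nat_lit 76) (nat_lit 35881569397) (nat_lit 7) (nat_lit 4) (nat_lit 8) (nat_lit 5) (nat_lit 8) (nat_lit 4) (nat_lit 499) (nat_lit 420) (nat_lit 281))))) (XT.nd (nat_lit 234) (nat_lit 76) (nat_lit 0) (XT.nd (nat_lit 78) (nat_lit 0) (nat_lit 0) (XT.lf (nat_lit 0) (nat_lit 111678896005) (nat_lit 152) (nat_lit 1105559456794)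 (nat_lit 0) (nat_lit 77365719586) (nat_lit 5) (nat_lit 5) (nat_lit 7) (nat_lit 4) (nat_lit 5) (nat_lit 4) (nat_lit 500) (nat_lit 420) (nat_lit 280)) (XT.nd (nat_lit 78) (nat_lit 0) (nat_lit 0) (XT.lf (nat_lit 0) (nat_lit 274052346682) (nat_lit 152) (nat_lit 871885310601) (nat_lit 0) (nat_lit 239739117075) (nat_lit 5) (nat_lit 5) (nat_lit 7) (nat_lit 4) (nat_lit 5) (nat_lit 4) (nat_lit 501) (nat_lit 420) (nat_lit 279)) (XT.lf (nat_lit 0) (nat_lit 449415207183) (nat_lit 152) (nat_lit 619518194278) (nat_lit 0) (nat_lit 415101928328) (nat_lit 5) (nat_lit 5) (nat_lit 7) (nat_lit 4) (nat_lit 5) (nat_lit 4) (nat_lit 502) (nat_lit 420) (nat_lit 278)))) (XT.nd (nat_lit 156) (nat_lit 76) (nat_lit 0) (XT.nd (nat_lit 78) (nat_lit 0) (nat_lit 0) (XT.lf (nat_lit 0) (nat_lit 638806664831) (nat_lit 152) (nat_lit 346962598987) (nat_lit 0) (nat_lit 604493340376) (nat_lit 5) (nat_lit 5) (nat_lit 7) (nat_lit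 4) (nat_lit 5) (nat_lit 4) (nat_lit 503) (nat_lit 420) (nat_lit 277)) (XT.lf (nat_lit 0) (nat_lit 843349039373) (nat_lit 152) (nat_lit 52603380460) (nat_lit 0) (nat_lit 809035672697) (nat_lit 5) (nat_lit 5) (nat_lit 7) (nat_lit 4) (nat_lit 5) (nat_lit 4) (nat_lit 504) (nat_lit 420) (nat_lit 276))) (XT.nd (nat_lit 78) (nat_lit 0) (nat_lit 0) (XT.lf (nat_lit 0) (nat_lit 279274240820) (nat_lit 76) (nat_lit 791696745160) (nat_lit 76) (nat_lit 757383339388) (nat_lit 4) (nat_lit 4) (nat_lit 5) (nat_lit 5) (nat_lit 5) (nat_lit 4) (nat_lit 505) (nat_lit 420) (nat_lit 275)) (XT.lf (nat_lit 0) (nat_lit 640692928663) (nat_lit 76) (nat_lit 677547668708) (nat_lit 76) (nat_lit 643234226738) (nat_lit 4) (nat_lit 4) (nat_lit 5) (nat_lit 5) (nat_lit 5) (nat_lit 4) (nat_lit 506) (nat_lit 420) (nat_lit 274))))))))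
noncomputable def xc144 : XT := (XT.nd (nat_lit 1950) (nat_lit 0) (nat_lit 0) (XT.nd (nat_lit 936) (nat_lit 76) (nat_lit 0) (XT.nd (nat_lit 468) (nat_lit 0) (nat_lit 0) (XT.nd (nat_lit 234) (nat_lit 152) (nat_lit 0) (XT.nd (nat_lit 78) (nat_lit 0) (nat_lit 0) (XT.lf (nat_lit 0) (nat_lit 1031024422649) (nat_lit 76) (nat_lit 554267021150) (nat_lit 76) (nat_lit 519953545663) (nat_lit 4) (nat_lit 4) (nat_lit 5) (nat_lit 5) (nat_lit 5) (nat_lit 4) (nat_lit 507) (nat_lit 420) (nat_lit 273)) (XT.nd (nat_lit 78) (nat_lit 0) (nat_lit 0) (XT.lf (nat_lit 0) (nat_lit 1452581798295) (nat_lit 76) (nat_lit 421124250501) (nat_lit 76) (nat_lit 386810743980) (nat_lit 4) (nat_lit 4) (nat_lit 5) (nat_lit 5) (nat_lit 5) (nat_lit 4) (nat_lit 508) (nat_lit 420) (nat_lit 272)) (XT.lf (nat_lit 0) (nat_lit 1907863173385) (nat_lit 76) (nat_lit 277330362564) (nat_lit 76) (nat_lit 243016827307) (nat_lit 4) (nat_lit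 4) (nat_lit 5) (nat_lit 5) (nat_lit 5) (nat_lit 4) (nat_lit 509) (nat_lit 420) (nat_lit 271)))) (XT.nd (nat_lit 78) (nat_lit 152) (nat_lit 0) (XT.lf (nat_lit 0) (nat_lit 2399566511622) (nat_lit 76) (nat_lit 122033245411) (nat_lit 76) (nat_lit 87719683547) (nat_lit 4) (nat_lit 4) (nat_lit 5) (nat_lit 5) (nat_lit 5) (nat_lit 4) (nat_lit 510) (nat_lit 420) (nat_lit 270)) (XT.nd (nat_lit 78) (nat_lit 0) (nat_lit 0) (XT.lf (nat_lit 0) (nat_lit 80362409289) (nat_lit 152) (nat_lit 2675461289285) (nat_lit 0) (nat_lit 48590569937) (nat_lit 2) (nat_lit 5) (nat_lit 4) (nat_lit 4) (nat_lit 2) (nat_lit 4) (nat_lit 511) (nat_lit 420) (nat_lit 269)) (XT.lf (nat_lit 0) (nat_lit 266205349567) (nat_lit 152) (nat_lit 2513571295643) (nat_lit 0) (nat_lit 234433489093) (nat_lit 2) (nat_lit 5) (nat_lit 4) (nat_lit 4) (nat_lit 2) (nat_lit 4) (nat_lit 512) (nat_lit 420) (nat_lit 268))))) (XT.nd (nat_lit 234) (nat_lit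 0) (nat_lit 0) (XT.nd (nat_lit 78) (nat_lit 0) (nat_lit 0) (XT.lf (nat_lit 0) (nat_lit 466915492109) (nat_lit 152) (nat_lit 2338730583807) (nat_lit 0) (nat_lit 435143612079) (nat_lit 2) (nat_lit 5) (nat_lit 4) (nat_lit 4) (nat_lit 2) (nat_lit 4) (nat_lit 513) (nat_lit 420) (nat_lit 267)) (XT.nd (nat_lit 78) (nat_lit 0) (nat_lit 0) (XT.lf (nat_lit 0) (nat_lit 683682230354) (nat_lit 152) (nat_lit 2149903060672) (nat_lit 0) (nat_lit 651910332215) (nat_lit 2) (nat_lit 5) (nat_lit 4) (nat_lit 4) (nat_lit 2) (nat_lit 4) (nat_lit 514) (nat_lit 420) (nat_lit 266)) (XT.lf (nat_lit 0) (nat_lit 917790107934) (nat_lit 152) (nat_lit 1945969748321) (nat_lit 0) (nat_lit 886018193028) (nat_lit 2) (nat_lit 5) (nat_lit 4) (nat_lit 4) (nat_lit 2) (nat_lit 4) (nat_lit 515) (nat_lit 420) (nat_lit 265)))) (XT.nd (nat_lit 78) (nat_lit 0) (nat_lit 0) (XT.lf (nat_lit 0) (nat_lit 1170626430791) (nat_lit 152) (nat_lit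 1725722153053) (nat_lit 0) (nat_lit 1138854500360) (nat_lit 2) (nat_lit 5) (nat_lit 4) (nat_lit 4) (nat_lit 2) (nat_lit 4) (nat_lit 516) (nat_lit 420) (nat_lit 264)) (XT.nd (nat_lit 78) (nat_lit 0) (nat_lit 0) (XT.lf (nat_lit 0) (nat_lit 1443689488246) (nat_lit 152) (nat_lit 1487855103933) (nat_lit 0) (nat_lit 1411917543440) (nat_lit 2) (nat_lit 5) (nat_lit 4) (nat_lit 4) (nat_lit 2) (nat_lit 4) (nat_lit 517) (nat_lit 420) (nat_lit 263)) (XT.lf (nat_lit 0) (nat_lit 1738597431751) (nat_lit 152) (nat_lit 1230959018446) (nat_lit 0) (nat_lit 1706825473635) (nat_lit 2) (nat_lit 5) (nat_lit 4) (nat_lit 4) (nat_lit 2) (nat_lit 4) (nat_lit 518) (nat_lit 420) (nat_lit 262)))))) (XT.nd (nat_lit 468) (nat_lit 0) (nat_lit 0) (XT.nd (nat_lit 234) (nat_lit 76) (nat_lit 0) (XT.nd (nat_lit 78) (nat_lit 0) (nat_lit 0) (XT.lf (nat_lit 0) (nat_lit 2057097863933) (nat_lit 152) (nat_lit 953511549421) (nat_lit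 0) (nat_lit 2025325893493) (nat_lit 2) (nat_lit 5) (nat_lit 4) (nat_lit 4) (nat_lit 2) (nat_lit 4) (nat_lit 519) (nat_lit 420) (nat_lit 261)) (XT.nd (nat_lit 78) (nat_lit 0) (nat_lit 0) (XT.lf (nat_lit 0) (nat_lit 2401078194761) (nat_lit 152) (nat_lit 653868563706) (nat_lit 0) (nat_lit 2369306212909) (nat_lit 2) (nat_lit 5) (nat_lit 4) (nat_lit 4) (nat_lit 2) (nat_lit 4) (nat_lit 520) (nat_lit 420) (nat_lit 260)) (XT.lf (nat_lit 0) (nat_lit 2772576826196) (nat_lit 152) (nat_lit 330254399165) (nat_lit 0) (nat_lit 2740804833778) (nat_lit 2) (nat_lit 5) (nat_lit 4) (nat_lit 4) (nat_lit 2) (nat_lit 4) (nat_lit 521) (nat_lit 420) (nat_lit 259)))) (XT.nd (nat_lit 78) (nat_lit 0) (nat_lit 0) (XT.lf (nat_lit 0) (nat_lit 20262257976) (nat_lit 76) (nat_lit 3154020281424) (nat_lit 76) (nat_lit 3122248279223) (nat_lit 1) (nat_lit 4) (nat_lit 2) (nat_lit 5) (nat_lit 2) (nat_lit 4) (nat_lit 522) (nat_lit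 420) (nat_lit 258)) (XT.nd (nat_lit 78) (nat_lit 0) (nat_lit 0) (XT.lf (nat_lit 0) (nat_lit 417601873326) (nat_lit 76) (nat_lit 3199552463319) (nat_lit 76) (nat_lit 3167780452060) (nat_lit 1) (nat_lit 4) (nat_lit 2) (nat_lit 5) (nat_lit 2) (nat_lit 4) (nat_lit 523) (nat_lit 420) (nat_lit 257)) (XT.lf (nat_lit 0) (nat_lit 846728440614) (nat_lit 76) (nat_lit 3248727331920) (nat_lit 76) (nat_lit 3216955312273) (nat_lit 1) (nat_lit 4) (nat_lit 2) (nat_lit 5) (nat_lit 2) (nat_lit 4) (nat_lit 524) (nat_lit 420) (nat_lit 256))))) (XT.nd (nat_lit 234) (nat_lit 0) (nat_lit 0) (XT.nd (nat_lit 78) (nat_lit 0) (nat_lit 0) (XT.lf (nat_lit 0) (nat_lit 1310184932090) (nat_lit 76) (nat_lit 3301836293854) (nat_lit 76) (nat_lit 3270064266441) (nat_lit 1) (nat_lit 4) (nat_lit 2) (nat_lit 5) (nat_lit 2) (nat_lit 4) (nat_lit 525) (nat_lit 420) (nat_lit 255)) (XT.nd (nat_lit 78) (nat_lit 0) (nat_lit 0) (XT.lf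 (nat_lit 0) (nat_lit 1810717756593) (nat_lit 76) (nat_lit 3359194068896) (nat_lit 76) (nat_lit 3327422034292) (nat_lit 1) (nat_lit 4) (nat_lit 2) (nat_lit 5) (nat_lit 2) (nat_lit 4) (nat_lit 526) (nat_lit 420) (nat_lit 254)) (XT.lf (nat_lit 0) (nat_lit 2351293034563) (nat_lit 76) (nat_lit 3421140554973) (nat_lit 76) (nat_lit 3389368513709) (nat_lit 1) (nat_lit 4) (nat_lit 2) (nat_lit 5) (nat_lit 2) (nat_lit 4) (nat_lit 527) (nat_lit 420) (nat_lit 253)))) (XT.nd (nat_lit 156) (nat_lit 0) (nat_lit 0) (XT.nd (nat_lit 78) (nat_lit 0) (nat_lit 0) (XT.lf (nat_lit 0) (nat_lit 2935114175057) (nat_lit 76) (nat_lit 3488042842371) (nat_lit 76) (nat_lit 3456270794943) (nat_lit 1) (nat_lit 4) (nat_lit 2) (nat_lit 5) (nat_lit 2) (nat_lit 4) (nat_lit 528) (nat_lit 420) (nat_lit 252)) (XT.lf (nat_lit 0) (nat_lit 3565640858905) (nat_lit 76) (nat_lit 3560297389090) (nat_lit 76) (nat_lit 3528525335954) (nat_lit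 1) (nat_lit 4) (nat_lit 2) (nat_lit 5) (nat_lit 2) (nat_lit 4) (nat_lit 529) (nat_lit 420) (nat_lit 251))) (XT.nd (nat_lit 78) (nat_lit 0) (nat_lit 0) (XT.lf (nat_lit 0) (nat_lit 4246609540532) (nat_lit 76) (nat_lit 3638332370223) (nat_lit 76) (nat_lit 3606560311801) (nat_lit 1) (nat_lit 4) (nat_lit 2) (nat_lit 5) (nat_lit 2) (nat_lit 4) (nat_lit 530) (nat_lit 420) (nat_lit 250)) (XT.lf (nat_lit 0) (nat_lit 4982055589902) (nat_lit 76) (nat_lit 3722610215286) (nat_lit 76) (nat_lit 3690838151970) (nat_lit 1) (nat_lit 4) (nat_lit 2) (nat_lit 5) (nat_lit 2) (nat_lit 4) (nat_lit 531) (nat_lit 420) (nat_lit 249))))))) (XT.nd (nat_lit 54678) (nat_lit 0) (nat_lit 3724) (XT.nd (nat_lit 54210) (nat_lit 0) (nat_lit 5092) (XT.nd (nat_lit 53976) (nat_lit 0) (nat_lit 5624) (XT.nd (nat_lit 53820) (nat_lit 0) (nat_lit 6080) (XT.lf (nat_lit 0) (nat_lit 5776337205826) (nat_lit 76) (nat_lit 3813630348548)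 (nat_lit 76) (nat_lit 3781858280700) (nat_lit 1) (nat_lit 4) (nat_lit 2) (nat_lit 5) (nat_lit 2) (nat_lit 4) (nat_lit 532) (nat_lit 420) (nat_lit 248)) (XT.nd (nat_lit 78) (nat_lit 0) (nat_lit 0) (XT.lf (nat_lit 0) (nat_lit 9260283666) (nat_lit 532) (nat_lit 506364458) (nat_lit 532) (nat_lit 506364458) (nat_lit 81) (nat_lit 3) (nat_lit 88) (nat_lit 3) (nat_lit 88) (nat_lit 5) (nat_lit 421) (nat_lit 421) (nat_lit 358)) (XT.lf (nat_lit 76) (nat_lit 9661737180) (nat_lit 0) (nat_lit 9979664066) (nat_lit 532) (nat_lit 1696024549) (nat_lit 82) (nat_lit 5) (nat_lit 81) (nat_lit 3) (nat_lit 88) (nat_lit 5) (nat_lit 422) (nat_lit 421) (nat_lit 357)))) (XT.nd (nat_lit 78) (nat_lit 532) (nat_lit 0) (XT.lf (nat_lit 0) (nat_lit 20873630433) (nat_lit 456) (nat_lit 960781104) (nat_lit 532) (nat_lit 355992604) (nat_lit 82) (nat_lit 5) (nat_lit 88) (nat_lit 5) (nat_lit 89) (nat_lit 5) (nat_lit 423) (nat_lit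 421) (nat_lit 356)) (XT.nd (nat_lit 78) (nat_lit 532) (nat_lit 0) (XT.lf (nat_lit 76) (nat_lit 10887718796) (nat_lit 0) (nat_lit 11824062973) (nat_lit 532) (nat_lit 359255140) (nat_lit 83) (nat_lit 5) (nat_lit 82) (nat_lit 5) (nat_lit 89) (nat_lit 5) (nat_lit 424) (nat_lit 421) (nat_lit 355)) (XT.lf (nat_lit 0) (nat_lit 654804786) (nat_lit 532) (nat_lit 307700592) (nat_lit 608) (nat_lit 23057223664) (nat_lit 75) (nat_lit 5) (nat_lit 82) (nat_lit 5) (nat_lit 83) (nat_lit 5) (nat_lit 425) (nat_lit 421) (nat_lit 354))))) (XT.nd (nat_lit 234) (nat_lit 608) (nat_lit 0) (XT.nd (nat_lit 78) (nat_lit 0) (nat_lit 0) (XT.lf (nat_lit 0) (nat_lit 2302276419) (nat_lit 532) (nat_lit 12128703743) (nat_lit 608) (nat_lit 10566857102) (nat_lit 76) (nat_lit 5) (nat_lit 83) (nat_lit 5) (nat_lit 84) (nat_lit 5) (nat_lit 426) (nat_lit 421) (nat_lit 353)) (XT.nd (nat_lit 78) (nat_lit 0) (nat_lit 76) (XT.lf (nat_lit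 76) (nat_lit 1083493579) (nat_lit 0) (nat_lit 3046245634) (nat_lit 608) (nat_lit 21920602144) (nat_lit 77) (nat_lit 5) (nat_lit 76) (nat_lit 5) (nat_lit 84) (nat_lit 5) (nat_lit 427) (nat_lit 421) (nat_lit 352)) (XT.lf (nat_lit 0) (nat_lit 6655245365) (nat_lit 532) (nat_lit 11359385233) (nat_lit 76) (nat_lit 9128269962) (nat_lit 77) (nat_lit 5) (nat_lit 84) (nat_lit 5) (nat_lit 78) (nat_lit 5) (nat_lit 428) (nat_lit 421) (nat_lit 351)))) (XT.nd (nat_lit 78) (nat_lit 228) (nat_lit 0) (XT.lf (nat_lit 0) (nat_lit 3419100073) (nat_lit 456) (nat_lit 6115014506) (nat_lit 532) (nat_lit 18776646420) (nat_lit 71) (nat_lit 5) (nat_lit 77) (nat_lit 5) (nat_lit 78) (nat_lit 5) (nat_lit 429) (nat_lit 421) (nat_lit 350)) (XT.nd (nat_lit 78) (nat_lit 228) (nat_lit 0) (XT.lf (nat_lit 0) (nat_lit 13114457621) (nat_lit 532) (nat_lit 9701419955) (nat_lit 76) (nat_lit 6718481685) (nat_lit 71) (nat_lit 5) (nat_lit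 78) (nat_lit 5) (nat_lit 72) (nat_lit 5) (nat_lit 430) (nat_lit 421) (nat_lit 349)) (XT.lf (nat_lit 0) (nat_lit 6880104246) (nat_lit 228) (nat_lit 10416622743) (nat_lit 304) (nat_lit 13533880464) (nat_lit 68) (nat_lit 5) (nat_lit 71) (nat_lit 5) (nat_lit 72) (nat_lit 5) (nat_lit 431) (nat_lit 421) (nat_lit 348)))))) (XT.nd (nat_lit 468) (nat_lit 684) (nat_lit 0) (XT.nd (nat_lit 234) (nat_lit 456) (nat_lit 0) (XT.nd (nat_lit 78) (nat_lit 228) (nat_lit 0) (XT.lf (nat_lit 0) (nat_lit 22148878975) (nat_lit 304) (nat_lit 6957579847) (nat_lit 76) (nat_lit 3097274420) (nat_lit 68) (nat_lit 5) (nat_lit 72) (nat_lit 5) (nat_lit 69) (nat_lit 5) (nat_lit 432) (nat_lit 421) (nat_lit 347)) (XT.nd (nat_lit 78) (nat_lit 0) (nat_lit 0) (XT.lf (nat_lit 0) (nat_lit 11700547538) (nat_lit 228) (nat_lit 16232855292) (nat_lit 304) (nat_lit 5709771981) (nat_lit 65) (nat_lit 5) (nat_lit 68) (nat_lit 5) (nat_lit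 69) (nat_lit 5) (nat_lit 433) (nat_lit 421) (nat_lit 346)) (XT.lf (nat_lit 0) (nat_lit 32238259121) (nat_lit 228) (nat_lit 2125266076) (nat_lit 304) (nat_lit 819621149) (nat_lit 65) (nat_lit 5) (nat_lit 68) (nat_lit 5) (nat_lit 69) (nat_lit 5) (nat_lit 434) (nat_lit 421) (nat_lit 345)))) (XT.nd (nat_lit 78) (nat_lit 228) (nat_lit 0) (XT.lf (nat_lit 0) (nat_lit 5003016378) (nat_lit 228) (nat_lit 18756345557) (nat_lit 76) (nat_lit 13017213092) (nat_lit 62) (nat_lit 5) (nat_lit 65) (nat_lit 5) (nat_lit 63) (nat_lit 5) (nat_lit 435) (nat_lit 421) (nat_lit 344)) (XT.nd (nat_lit 78) (nat_lit 0) (nat_lit 0) (XT.lf (nat_lit 0) (nat_lit 2370224785) (nat_lit 228) (nat_lit 9065032011) (nat_lit 304) (nat_lit 27045473526) (nat_lit 59) (nat_lit 5) (nat_lit 62) (nat_lit 5) (nat_lit 63) (nat_lit 5) (nat_lit 436) (nat_lit 421) (nat_lit 343)) (XT.lf (nat_lit 0) (nat_lit 19065386286) (nat_lit 304) (nat_lit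 14212561615) (nat_lit 76) (nat_lit 6988606505) (nat_lit 59) (nat_lit 5) (nat_lit 63) (nat_lit 5) (nat_lit 60) (nat_lit 5) (nat_lit 437) (nat_lit 421) (nat_lit 342))))) (XT.nd (nat_lit 234) (nat_lit 304) (nat_lit 0) (XT.nd (nat_lit 78) (nat_lit 228) (nat_lit 0) (XT.lf (nat_lit 0) (nat_lit 9677535006) (nat_lit 152) (nat_lit 18090573989) (nat_lit 228) (nat_lit 14390161860) (nat_lit 57) (nat_lit 5) (nat_lit 59) (nat_lit 5) (nat_lit 60) (nat_lit 5) (nat_lit 438) (nat_lit 421) (nat_lit 341)) (XT.nd (nat_lit 78) (nat_lit 228) (nat_lit 0) (XT.lf (nat_lit 0) (nat_lit 36278994460) (nat_lit 152) (nat_lit 1270884529) (nat_lit 228) (nat_lit 6620820262) (nat_lit 57) (nat_lit 5) (nat_lit 59) (nat_lit 5) (nat_lit 60) (nat_lit 5) (nat_lit 439) (nat_lit 421) (nat_lit 340)) (XT.lf (nat_lit 0) (nat_lit 2566885183) (nat_lit 228) (nat_lit 27128807136) (nat_lit 76) (nat_lit 16574195830) (nat_lit 54) (nat_lit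 5) (nat_lit 57) (nat_lit 5) (nat_lit 55) (nat_lit 5) (nat_lit 440) (nat_lit 421) (nat_lit 339)))) (XT.nd (nat_lit 156) (nat_lit 152) (nat_lit 0) (XT.nd (nat_lit 78) (nat_lit 0) (nat_lit 0) (XT.lf (nat_lit 0) (nat_lit 49457718) (nat_lit 152) (nat_lit 12332716705) (nat_lit 228) (nat_lit 36121059882) (nat_lit 52) (nat_lit 5) (nat_lit 54) (nat_lit 5) (nat_lit 55) (nat_lit 5) (nat_lit 441) (nat_lit 421) (nat_lit 338)) (XT.lf (nat_lit 0) (nat_lit 23892915708) (nat_lit 228) (nat_lit 20092858745) (nat_lit 76) (nat_lit 6856656114) (nat_lit 52) (nat_lit 5) (nat_lit 55) (nat_lit 5) (nat_lit 53) (nat_lit 5) (nat_lit 442) (nat_lit 421) (nat_lit 337))) (XT.nd (nat_lit 78) (nat_lit 0) (nat_lit 0) (XT.lf (nat_lit 0) (nat_lit 10746672883) (nat_lit 152) (nat_lit 26151843284) (nat_lit 228) (nat_lit 16424327047) (nat_lit 50) (nat_lit 5) (nat_lit 52) (nat_lit 5) (nat_lit 53) (nat_lit 5) (nat_lit 443) (nat_lit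 421) (nat_lit 336)) (XT.lf (nat_lit 0) (nat_lit 45188734701) (nat_lit 152) (nat_lit 6300594521) (nat_lit 228) (nat_lit 4468779108) (nat_lit 50) (nat_lit 5) (nat_lit 52) (nat_lit 5) (nat_lit 53) (nat_lit 5) (nat_lit 444) (nat_lit 421) (nat_lit 335))))))))
noncomputable def xc145 : XT := (XT.nd (nat_lit 1950) (nat_lit 1368) (nat_lit 0) (XT.nd (nat_lit 936) (nat_lit 836) (nat_lit 0) (XT.nd (nat_lit 468) (nat_lit 380) (nat_lit 0) (XT.nd (nat_lit 234) (nat_lit 304) (nat_lit 0) (XT.nd (nat_lit 78) (nat_lit 152) (nat_lit 0) (XT.lf (nat_lit 0) (nat_lit 8992829446) (nat_lit 152) (nat_lit 34523021792) (nat_lit 76) (nat_lit 15194340756) (nat_lit 48) (nat_lit 5) (nat_lit 50) (nat_lit 5) (nat_lit 49) (nat_lit 5) (nat_lit 445) (nat_lit 421) (nat_lit 334)) (XT.nd (nat_lit 78) (nat_lit 0) (nat_lit 0) (XT.lf (nat_lit 0) (nat_lit 630886170) (nat_lit 152) (nat_lit 23135694000) (nat_lit 228) (nat_lit 37868445410)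 (nat_lit 46) (nat_lit 5) (nat_lit 48) (nat_lit 5) (nat_lit 49) (nat_lit 5) (nat_lit 446) (nat_lit 421) (nat_lit 333)) (XT.lf (nat_lit 0) (nat_lit 40553525292) (nat_lit 152) (nat_lit 108493780) (nat_lit 228) (nat_lit 24056644191) (nat_lit 46) (nat_lit 5) (nat_lit 48) (nat_lit 5) (nat_lit 49) (nat_lit 5) (nat_lit 447) (nat_lit 421) (nat_lit 332)))) (XT.nd (nat_lit 78) (nat_lit 228) (nat_lit 0) (XT.lf (nat_lit 0) (nat_lit 15809681446) (nat_lit 76) (nat_lit 44071245869) (nat_lit 152) (nat_lit 8090318330) (nat_lit 45) (nat_lit 5) (nat_lit 46) (nat_lit 5) (nat_lit 47) (nat_lit 4) (nat_lit 448) (nat_lit 421) (nat_lit 331)) (XT.nd (nat_lit 78) (nat_lit 152) (nat_lit 0) (XT.lf (nat_lit 0) (nat_lit 9372270019) (nat_lit 152) (nat_lit 11321216104) (nat_lit 76) (nat_lit 50718790485) (nat_lit 44) (nat_lit 5) (nat_lit 46) (nat_lit 5) (nat_lit 45) (nat_lit 5) (nat_lit 449) (nat_lit 421) (nat_lit 330))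 (XT.lf (nat_lit 0) (nat_lit 28752113602) (nat_lit 228) (nat_lit 40897351569) (nat_lit 76) (nat_lit 5385727325) (nat_lit 42) (nat_lit 5) (nat_lit 45) (nat_lit 5) (nat_lit 43) (nat_lit 4) (nat_lit 450) (nat_lit 421) (nat_lit 329))))) (XT.nd (nat_lit 234) (nat_lit 152) (nat_lit 0) (XT.nd (nat_lit 78) (nat_lit 152) (nat_lit 0) (XT.lf (nat_lit 0) (nat_lit 4634324703) (nat_lit 76) (nat_lit 46011037967) (nat_lit 152) (nat_lit 28225537856) (nat_lit 41) (nat_lit 5) (nat_lit 42) (nat_lit 5) (nat_lit 43) (nat_lit 4) (nat_lit 451) (nat_lit 421) (nat_lit 328)) (XT.nd (nat_lit 78) (nat_lit 152) (nat_lit 0) (XT.lf (nat_lit 0) (nat_lit 56128300608) (nat_lit 76) (nat_lit 19276577627) (nat_lit 152) (nat_lit 7519402725) (nat_lit 41) (nat_lit 5) (nat_lit 42) (nat_lit 5) (nat_lit 43) (nat_lit 4) (nat_lit 452) (nat_lit 421) (nat_lit 327)) (XT.lf (nat_lit 0) (nat_lit 14962862890) (nat_lit 152) (nat_lit 62135793099)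 (nat_lit 76) (nat_lit 10105745074) (nat_lit 39) (nat_lit 5) (nat_lit 41) (nat_lit 5) (nat_lit 40) (nat_lit 4) (nat_lit 453) (nat_lit 421) (nat_lit 326)))) (XT.nd (nat_lit 78) (nat_lit 152) (nat_lit 0) (XT.lf (nat_lit 0) (nat_lit 40086648303) (nat_lit 152) (nat_lit 9882936740) (nat_lit 76) (nat_lit 41741786696) (nat_lit 39) (nat_lit 5) (nat_lit 41) (nat_lit 5) (nat_lit 40) (nat_lit 4) (nat_lit 454) (nat_lit 421) (nat_lit 325)) (XT.nd (nat_lit 78) (nat_lit 76) (nat_lit 0) (XT.lf (nat_lit 0) (nat_lit 48995681786) (nat_lit 76) (nat_lit 19400050078) (nat_lit 152) (nat_lit 28089136795) (nat_lit 38) (nat_lit 5) (nat_lit 39) (nat_lit 5) (nat_lit 40) (nat_lit 4) (nat_lit 455) (nat_lit 421) (nat_lit 324)) (XT.lf (nat_lit 0) (nat_lit 11777235434) (nat_lit 76) (nat_lit 88077308264) (nat_lit 76) (nat_lit 1714901703) (nat_lit 37) (nat_lit 4) (nat_lit 38) (nat_lit 5) (nat_lit 38) (nat_lit 4) (nat_lit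 456) (nat_lit 421) (nat_lit 323)))))) (XT.nd (nat_lit 468) (nat_lit 456) (nat_lit 0) (XT.nd (nat_lit 234) (nat_lit 228) (nat_lit 0) (XT.nd (nat_lit 78) (nat_lit 76) (nat_lit 0) (XT.lf (nat_lit 0) (nat_lit 27263321823) (nat_lit 152) (nat_lit 29658091022) (nat_lit 76) (nat_lit 49941218911) (nat_lit 36) (nat_lit 5) (nat_lit 38) (nat_lit 5) (nat_lit 37) (nat_lit 4) (nat_lit 457) (nat_lit 421) (nat_lit 322)) (XT.nd (nat_lit 78) (nat_lit 0) (nat_lit 0) (XT.lf (nat_lit 0) (nat_lit 37092668986) (nat_lit 76) (nat_lit 22263875177) (nat_lit 152) (nat_lit 53148014368) (nat_lit 35) (nat_lit 5) (nat_lit 36) (nat_lit 5) (nat_lit 37) (nat_lit 4) (nat_lit 458) (nat_lit 421) (nat_lit 321)) (XT.lf (nat_lit 0) (nat_lit 95211275373) (nat_lit 152) (nat_lit 8053702309) (nat_lit 0) (nat_lit 15237337821) (nat_lit 35) (nat_lit 5) (nat_lit 37) (nat_lit 4) (nat_lit 35) (nat_lit 4) (nat_lit 459) (nat_lit 421) (nat_lit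 320)))) (XT.nd (nat_lit 78) (nat_lit 76) (nat_lit 0) (XT.lf (nat_lit 0) (nat_lit 10762521311) (nat_lit 152) (nat_lit 57590387809) (nat_lit 76) (nat_lit 56429278041) (nat_lit 33) (nat_lit 5) (nat_lit 35) (nat_lit 5) (nat_lit 34) (nat_lit 4) (nat_lit 460) (nat_lit 421) (nat_lit 319)) (XT.nd (nat_lit 78) (nat_lit 0) (nat_lit 0) (XT.lf (nat_lit 0) (nat_lit 17634888811) (nat_lit 76) (nat_lit 29294741356) (nat_lit 152) (nat_lit 84534614841) (nat_lit 32) (nat_lit 5) (nat_lit 33) (nat_lit 5) (nat_lit 34) (nat_lit 4) (nat_lit 461) (nat_lit 421) (nat_lit 318)) (XT.lf (nat_lit 0) (nat_lit 87913148821) (nat_lit 152) (nat_lit 36757097626) (nat_lit 0) (nat_lit 13856777856) (nat_lit 32) (nat_lit 5) (nat_lit 34) (nat_lit 4) (nat_lit 32) (nat_lit 4) (nat_lit 462) (nat_lit 421) (nat_lit 317))))) (XT.nd (nat_lit 234) (nat_lit 228) (nat_lit 0) (XT.nd (nat_lit 78) (nat_lit 152) (nat_lit 0) (XT.lf (nat_lit 0)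 (nat_lit 48122949642) (nat_lit 76) (nat_lit 85968400434) (nat_lit 76) (nat_lit 11910195874) (nat_lit 31) (nat_lit 4) (nat_lit 32) (nat_lit 5) (nat_lit 32) (nat_lit 4) (nat_lit 463) (nat_lit 421) (nat_lit 316)) (XT.nd (nat_lit 78) (nat_lit 76) (nat_lit 0) (XT.lf (nat_lit 0) (nat_lit 29423426428) (nat_lit 152) (nat_lit 12859175359) (nat_lit 76) (nat_lit 111651611149) (nat_lit 30) (nat_lit 5) (nat_lit 32) (nat_lit 5) (nat_lit 31) (nat_lit 4) (nat_lit 464) (nat_lit 421) (nat_lit 315)) (XT.lf (nat_lit 0) (nat_lit 75586793862) (nat_lit 152) (nat_lit 79705275161) (nat_lit 0) (nat_lit 7011354656) (nat_lit 29) (nat_lit 5) (nat_lit 31) (nat_lit 4) (nat_lit 29) (nat_lit 4) (nat_lit 465) (nat_lit 421) (nat_lit 314)))) (XT.nd (nat_lit 156) (nat_lit 76) (nat_lit 0) (XT.nd (nat_lit 78) (nat_lit 76) (nat_lit 0) (XT.lf (nat_lit 0) (nat_lit 14734959824) (nat_lit 76) (nat_lit 112519548149) (nat_lit 76) (nat_lit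 43942761196) (nat_lit 28) (nat_lit 4) (nat_lit 29) (nat_lit 5) (nat_lit 29) (nat_lit 4) (nat_lit 466) (nat_lit 421) (nat_lit 313)) (XT.lf (nat_lit 0) (nat_lit 4374132278) (nat_lit 152) (nat_lit 59479839727) (nat_lit 76) (nat_lit 116765609916) (nat_lit 27) (nat_lit 5) (nat_lit 29) (nat_lit 5) (nat_lit 28) (nat_lit 4) (nat_lit 467) (nat_lit 421) (nat_lit 312))) (XT.nd (nat_lit 78) (nat_lit 0) (nat_lit 0) (XT.lf (nat_lit 0) (nat_lit 46439140695) (nat_lit 76) (nat_lit 8858133841) (nat_lit 152) (nat_lit 135317899758) (nat_lit 26) (nat_lit 5) (nat_lit 27) (nat_lit 5) (nat_lit 28) (nat_lit 4) (nat_lit 468) (nat_lit 421) (nat_lit 311)) (XT.lf (nat_lit 0) (nat_lit 113176312784) (nat_lit 152) (nat_lit 38327465924) (nat_lit 0) (nat_lit 49676071833) (nat_lit 26) (nat_lit 5) (nat_lit 28) (nat_lit 4) (nat_lit 26) (nat_lit 4) (nat_lit 469) (nat_lit 421) (nat_lit 310))))))) (XT.nd (nat_lit 936) (nat_lit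 608) (nat_lit 0) (XT.nd (nat_lit 468) (nat_lit 304) (nat_lit 0) (XT.nd (nat_lit 234) (nat_lit 228) (nat_lit 0) (XT.nd (nat_lit 78) (nat_lit 152) (nat_lit 0) (XT.lf (nat_lit 0) (nat_lit 79744532469) (nat_lit 76) (nat_lit 98087316347) (nat_lit 76) (nat_lit 34586158143) (nat_lit 25) (nat_lit 4) (nat_lit 26) (nat_lit 5) (nat_lit 26) (nat_lit 4) (nat_lit 470) (nat_lit 421) (nat_lit 309)) (XT.nd (nat_lit 78) (nat_lit 76) (nat_lit 0) (XT.lf (nat_lit 0) (nat_lit 23022224695) (nat_lit 152) (nat_lit 15615780146) (nat_lit 76) (nat_lit 185786885845) (nat_lit 24) (nat_lit 5) (nat_lit 26) (nat_lit 5) (nat_lit 25) (nat_lit 4) (nat_lit 471) (nat_lit 421) (nat_lit 308)) (XT.lf (nat_lit 0) (nat_lit 86861957553) (nat_lit 152) (nat_lit 122116127532) (nat_lit 0) (nat_lit 28063074302) (nat_lit 23) (nat_lit 5) (nat_lit 25) (nat_lit 4) (nat_lit 23) (nat_lit 4) (nat_lit 472) (nat_lit 421) (nat_lit 307)))) (XT.nd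 (nat_lit 78) (nat_lit 152) (nat_lit 0) (XT.lf (nat_lit 0) (nat_lit 5417693265) (nat_lit 76) (nat_lit 151961484556) (nat_lit 76) (nat_lit 93161927097) (nat_lit 22) (nat_lit 4) (nat_lit 23) (nat_lit 5) (nat_lit 23) (nat_lit 4) (nat_lit 473) (nat_lit 421) (nat_lit 306)) (XT.nd (nat_lit 78) (nat_lit 152) (nat_lit 0) (XT.lf (nat_lit 0) (nat_lit 150095888067) (nat_lit 76) (nat_lit 86779178266) (nat_lit 76) (nat_lit 27978996540) (nat_lit 22) (nat_lit 4) (nat_lit 23) (nat_lit 5) (nat_lit 23) (nat_lit 4) (nat_lit 474) (nat_lit 421) (nat_lit 305)) (XT.lf (nat_lit 0) (nat_lit 26330230897) (nat_lit 76) (nat_lit 14598129991) (nat_lit 152) (nat_lit 239251543918) (nat_lit 20) (nat_lit 5) (nat_lit 21) (nat_lit 5) (nat_lit 22) (nat_lit 4) (nat_lit 475) (nat_lit 421) (nat_lit 304))))) (XT.nd (nat_lit 234) (nat_lit 228) (nat_lit 0) (XT.nd (nat_lit 78) (nat_lit 76) (nat_lit 0) (XT.lf (nat_lit 0) (nat_lit 118578154563)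 (nat_lit 152) (nat_lit 113583695085) (nat_lit 0) (nat_lit 64132511081) (nat_lit 20) (nat_lit 5) (nat_lit 22) (nat_lit 4) (nat_lit 20) (nat_lit 4) (nat_lit 476) (nat_lit 421) (nat_lit 303)) (XT.nd (nat_lit 78) (nat_lit 0) (nat_lit 0) (XT.lf (nat_lit 0) (nat_lit 39497402692) (nat_lit 76) (nat_lit 164270228423) (nat_lit 76) (nat_lit 109824126086) (nat_lit 19) (nat_lit 4) (nat_lit 20) (nat_lit 5) (nat_lit 20) (nat_lit 4) (nat_lit 477) (nat_lit 421) (nat_lit 302)) (XT.lf (nat_lit 0) (nat_lit 211281857554) (nat_lit 76) (nat_lit 87594638327) (nat_lit 76) (nat_lit 33148111125) (nat_lit 19) (nat_lit 4) (nat_lit 20) (nat_lit 5) (nat_lit 20) (nat_lit 4) (nat_lit 478) (nat_lit 421) (nat_lit 301)))) (XT.nd (nat_lit 78) (nat_lit 76) (nat_lit 0) (XT.lf (nat_lit 0) (nat_lit 45980123078) (nat_lit 76) (nat_lit 2302109457) (nat_lit 152) (nat_lit 303465939234) (nat_lit 17) (nat_lit 5) (nat_lit 18) (nat_lit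 5) (nat_lit 19) (nat_lit 4) (nat_lit 479) (nat_lit 421) (nat_lit 300)) (XT.nd (nat_lit 78) (nat_lit 76) (nat_lit 0) (XT.lf (nat_lit 0) (nat_lit 139981959701) (nat_lit 152) (nat_lit 142987310578) (nat_lit 0) (nat_lit 89567807061) (nat_lit 17) (nat_lit 5) (nat_lit 19) (nat_lit 4) (nat_lit 17) (nat_lit 4) (nat_lit 480) (nat_lit 421) (nat_lit 299)) (XT.lf (nat_lit 0) (nat_lit 34478431167) (nat_lit 76) (nat_lit 205427051849) (nat_lit 76) (nat_lit 155012586920) (nat_lit 16) (nat_lit 4) (nat_lit 17) (nat_lit 5) (nat_lit 17) (nat_lit 4) (nat_lit 481) (nat_lit 421) (nat_lit 298)))))) (XT.nd (nat_lit 468) (nat_lit 380) (nat_lit 0) (XT.nd (nat_lit 234) (nat_lit 76) (nat_lit 0) (XT.nd (nat_lit 78) (nat_lit 152) (nat_lit 0) (XT.lf (nat_lit 0) (nat_lit 234270897213) (nat_lit 76) (nat_lit 117460364474) (nat_lit 76) (nat_lit 67045610388) (nat_lit 16) (nat_lit 4) (nat_lit 17) (nat_lit 5) (nat_lit 17) (nat_lit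 4) (nat_lit 482) (nat_lit 421) (nat_lit 297)) (XT.nd (nat_lit 78) (nat_lit 0) (nat_lit 0) (XT.lf (nat_lit 0) (nat_lit 5081960723) (nat_lit 76) (nat_lit 21599280885) (nat_lit 152) (nat_lit 417799654074) (nat_lit 14) (nat_lit 5) (nat_lit 15) (nat_lit 5) (nat_lit 16) (nat_lit 4) (nat_lit 483) (nat_lit 421) (nat_lit 296)) (XT.lf (nat_lit 0) (nat_lit 131429131183) (nat_lit 152) (nat_lit 255352861067) (nat_lit 0) (nat_lit 84748325879) (nat_lit 14) (nat_lit 5) (nat_lit 16) (nat_lit 4) (nat_lit 14) (nat_lit 4) (nat_lit 484) (nat_lit 421) (nat_lit 295)))) (XT.nd (nat_lit 78) (nat_lit 76) (nat_lit 0) (XT.lf (nat_lit 0) (nat_lit 245116859939) (nat_lit 152) (nat_lit 57146191710) (nat_lit 0) (nat_lit 198435842096) (nat_lit 14) (nat_lit 5) (nat_lit 16) (nat_lit 4) (nat_lit 14) (nat_lit 4) (nat_lit 485) (nat_lit 421) (nat_lit 294)) (XT.nd (nat_lit 78) (nat_lit 0) (nat_lit 0) (XT.lf (nat_lit 0) (nat_lit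 165177965171) (nat_lit 76) (nat_lit 206693238572) (nat_lit 76) (nat_lit 160012023934) (nat_lit 13) (nat_lit 4) (nat_lit 14) (nat_lit 5) (nat_lit 14) (nat_lit 4) (nat_lit 486) (nat_lit 421) (nat_lit 293)) (XT.lf (nat_lit 0) (nat_lit 408536140872) (nat_lit 76) (nat_lit 101791319545) (nat_lit 76) (nat_lit 55109922689) (nat_lit 13) (nat_lit 4) (nat_lit 14) (nat_lit 5) (nat_lit 14) (nat_lit 4) (nat_lit 487) (nat_lit 421) (nat_lit 292))))) (XT.nd (nat_lit 234) (nat_lit 228) (nat_lit 0) (XT.nd (nat_lit 78) (nat_lit 0) (nat_lit 0) (XT.lf (nat_lit 0) (nat_lit 57359490906) (nat_lit 152) (nat_lit 529901753327) (nat_lit 0) (nat_lit 14135819077) (nat_lit 11) (nat_lit 5) (nat_lit 13) (nat_lit 4) (nat_lit 11) (nat_lit 4) (nat_lit 488) (nat_lit 421) (nat_lit 291)) (XT.nd (nat_lit 78) (nat_lit 0) (nat_lit 0) (XT.lf (nat_lit 0) (nat_lit 182893540377) (nat_lit 152) (nat_lit 316992183534) (nat_lit 0) (nat_lit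 139669723897) (nat_lit 11) (nat_lit 5) (nat_lit 13) (nat_lit 4) (nat_lit 11) (nat_lit 4) (nat_lit 489) (nat_lit 421) (nat_lit 290)) (XT.lf (nat_lit 0) (nat_lit 318469512106) (nat_lit 152) (nat_lit 87051493415) (nat_lit 0) (nat_lit 275245561691) (nat_lit 11) (nat_lit 5) (nat_lit 13) (nat_lit 4) (nat_lit 11) (nat_lit 4) (nat_lit 490) (nat_lit 421) (nat_lit 289)))) (XT.nd (nat_lit 156) (nat_lit 152) (nat_lit 0) (XT.nd (nat_lit 78) (nat_lit 0) (nat_lit 0) (XT.lf (nat_lit 0) (nat_lit 169775801727) (nat_lit 76) (nat_lit 299198129646) (nat_lit 76) (nat_lit 255974055216) (nat_lit 10) (nat_lit 4) (nat_lit 11) (nat_lit 5) (nat_lit 11) (nat_lit 4) (nat_lit 491) (nat_lit 421) (nat_lit 288)) (XT.lf (nat_lit 0) (nat_lit 452098491227) (nat_lit 76) (nat_lit 181799632014) (nat_lit 76) (nat_lit 138575442756) (nat_lit 10) (nat_lit 4) (nat_lit 11) (nat_lit 5) (nat_lit 11) (nat_lit 4) (nat_lit 492) (nat_lit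 421) (nat_lit 287))) (XT.nd (nat_lit 78) (nat_lit 152) (nat_lit 0) (XT.lf (nat_lit 0) (nat_lit 757005621054) (nat_lit 76) (nat_lit 55009959924) (nat_lit 76) (nat_lit 11785664344) (nat_lit 10) (nat_lit 4) (nat_lit 11) (nat_lit 5) (nat_lit 11) (nat_lit 4) (nat_lit 493) (nat_lit 421) (nat_lit 286)) (XT.lf (nat_lit 0) (nat_lit 126234929342) (nat_lit 152) (nat_lit 665959243127) (nat_lit 0) (nat_lit 86212342281) (nat_lit 8) (nat_lit 5) (nat_lit 10) (nat_lit 4) (nat_lit 8) (nat_lit 4) (nat_lit 494) (nat_lit 421) (nat_lit 285))))))))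
noncomputable def xc146 : XT := (XT.nd (nat_lit 1950) (nat_lit 76) (nat_lit 0) (XT.nd (nat_lit 936) (nat_lit 152) (nat_lit 0) (XT.nd (nat_lit 468) (nat_lit 228) (nat_lit 0) (XT.nd (nat_lit 234) (nat_lit 0) (nat_lit 0) (XT.nd (nat_lit 78) (nat_lit 76) (nat_lit 0) (XT.lf (nat_lit 0) (nat_lit 277962380803) (nat_lit 152) (nat_lit 421189470521) (nat_lit 0) (nat_lit 237939709339) (nat_lit 8) (nat_lit 5) (nat_lit 10) (nat_lit 4) (nat_lit 8) (nat_lit 4) (nat_lit 495) (nat_lit 421) (nat_lit 284)) (XT.nd (nat_lit 78) (nat_lit 76) (nat_lit 0) (XT.lf (nat_lit 0) (nat_lit 441827440199) (nat_lit 152) (nat_lit 156839326524) (nat_lit 0) (nat_lit 401804690585) (nat_lit 8) (nat_lit 5) (nat_lit 10) (nat_lit 4) (nat_lit 8) (nat_lit 4) (nat_lit 496) (nat_lit 421) (nat_lit 283)) (XT.lf (nat_lit 0) (nat_lit 135432595149) (nat_lit 76) (nat_lit 486625721755) (nat_lit 76) (nat_lit 446602899780) (nat_lit 7) (nat_lit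 4) (nat_lit 8) (nat_lit 5) (nat_lit 8) (nat_lit 4) (nat_lit 497) (nat_lit 421) (nat_lit 282)))) (XT.nd (nat_lit 78) (nat_lit 0) (nat_lit 0) (XT.lf (nat_lit 0) (nat_lit 460004769644) (nat_lit 76) (nat_lit 360990628689) (nat_lit 76) (nat_lit 320967739713) (nat_lit 7) (nat_lit 4) (nat_lit 8) (nat_lit 5) (nat_lit 8) (nat_lit 4) (nat_lit 498) (nat_lit 421) (nat_lit 281)) (XT.nd (nat_lit 78) (nat_lit 0) (nat_lit 0) (XT.lf (nat_lit 0) (nat_lit 810541706633) (nat_lit 76) (nat_lit 225305248400) (nat_lit 76) (nat_lit 185282297386) (nat_lit 7) (nat_lit 4) (nat_lit 8) (nat_lit 5) (nat_lit 8) (nat_lit 4) (nat_lit 499) (nat_lit 421) (nat_lit 280)) (XT.lf (nat_lit 0) (nat_lit 1189120662037) (nat_lit 76) (nat_lit 78765519377) (nat_lit 76) (nat_lit 38742510920) (nat_lit 7) (nat_lit 4) (nat_lit 8) (nat_lit 5) (nat_lit 8) (nat_lit 4) (nat_lit 500) (nat_lit 421) (nat_lit 279))))) (XT.nd (nat_lit 234) (nat_lit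 76) (nat_lit 0) (XT.nd (nat_lit 78) (nat_lit 0) (nat_lit 0) (XT.lf (nat_lit 0) (nat_lit 120622303645) (nat_lit 152) (nat_lit 1193985453570) (nat_lit 0) (nat_lit 83563913233) (nat_lit 5) (nat_lit 5) (nat_lit 7) (nat_lit 4) (nat_lit 5) (nat_lit 4) (nat_lit 501) (nat_lit 421) (nat_lit 278)) (XT.nd (nat_lit 78) (nat_lit 0) (nat_lit 0) (XT.lf (nat_lit 0) (nat_lit 295984956601) (nat_lit 152) (nat_lit 941618765294) (nat_lit 0) (nat_lit 258926520590) (nat_lit 5) (nat_lit 5) (nat_lit 7) (nat_lit 4) (nat_lit 5) (nat_lit 4) (nat_lit 502) (nat_lit 421) (nat_lit 277)) (XT.lf (nat_lit 0) (nat_lit 485376222077) (nat_lit 152) (nat_lit 669063566343) (nat_lit 0) (nat_lit 448317743844) (nat_lit 5) (nat_lit 5) (nat_lit 7) (nat_lit 4) (nat_lit 5) (nat_lit 4) (nat_lit 503) (nat_lit 421) (nat_lit 276)))) (XT.nd (nat_lit 78) (nat_lit 76) (nat_lit 0) (XT.lf (nat_lit 0) (nat_lit 689918418683) (nat_lit 152) (nat_lit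 374704714798) (nat_lit 0) (nat_lit 652859901355) (nat_lit 5) (nat_lit 5) (nat_lit 7) (nat_lit 4) (nat_lit 5) (nat_lit 4) (nat_lit 504) (nat_lit 421) (nat_lit 275)) (XT.nd (nat_lit 78) (nat_lit 76) (nat_lit 0) (XT.lf (nat_lit 0) (nat_lit 910823648325) (nat_lit 152) (nat_lit 56797861908) (nat_lit 0) (nat_lit 873765094799) (nat_lit 5) (nat_lit 5) (nat_lit 7) (nat_lit 4) (nat_lit 5) (nat_lit 4) (nat_lit 505) (nat_lit 421) (nat_lit 274)) (XT.lf (nat_lit 0) (nat_lit 301629619986) (nat_lit 76) (nat_lit 855025558658) (nat_lit 76) (nat_lit 817966971615) (nat_lit 4) (nat_lit 4) (nat_lit 5) (nat_lit 5) (nat_lit 5) (nat_lit 4) (nat_lit 506) (nat_lit 421) (nat_lit 273)))))) (XT.nd (nat_lit 468) (nat_lit 0) (nat_lit 0) (XT.nd (nat_lit 234) (nat_lit 152) (nat_lit 0) (XT.nd (nat_lit 78) (nat_lit 0) (nat_lit 0) (XT.lf (nat_lit 0) (nat_lit 691960807309) (nat_lit 76) (nat_lit 731745069136) (nat_lit 76) (nat_lit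 694686451058) (nat_lit 4) (nat_lit 4) (nat_lit 5) (nat_lit 5) (nat_lit 5) (nat_lit 4) (nat_lit 507) (nat_lit 421) (nat_lit 272)) (XT.nd (nat_lit 78) (nat_lit 0) (nat_lit 0) (XT.lf (nat_lit 0) (nat_lit 1113517899010) (nat_lit 76) (nat_lit 598602444816) (nat_lit 76) (nat_lit 561543798002) (nat_lit 4) (nat_lit 4) (nat_lit 5) (nat_lit 5) (nat_lit 5) (nat_lit 4) (nat_lit 508) (nat_lit 421) (nat_lit 271)) (XT.lf (nat_lit 0) (nat_lit 1568799011186) (nat_lit 76) (nat_lit 454808692368) (nat_lit 76) (nat_lit 417750018948) (nat_lit 4) (nat_lit 4) (nat_lit 5) (nat_lit 5) (nat_lit 5) (nat_lit 4) (nat_lit 509) (nat_lit 421) (nat_lit 270)))) (XT.nd (nat_lit 78) (nat_lit 152) (nat_lit 0) (XT.lf (nat_lit 0) (nat_lit 2060502105984) (nat_lit 76) (nat_lit 299511700669) (nat_lit 76) (nat_lit 262453002612) (nat_lit 4) (nat_lit 4) (nat_lit 5) (nat_lit 5) (nat_lit 5) (nat_lit 4) (nat_lit 510) (nat_lit 421) (nat_lit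 269)) (XT.nd (nat_lit 78) (nat_lit 152) (nat_lit 0) (XT.lf (nat_lit 0) (nat_lit 2591540979523) (nat_lit 76) (nat_lit 131791191247) (nat_lit 76) (nat_lit 94732470379) (nat_lit 4) (nat_lit 4) (nat_lit 5) (nat_lit 5) (nat_lit 5) (nat_lit 4) (nat_lit 511) (nat_lit 421) (nat_lit 268)) (XT.lf (nat_lit 0) (nat_lit 86795946946) (nat_lit 152) (nat_lit 2889488802477) (nat_lit 0) (nat_lit 52482296956) (nat_lit 2) (nat_lit 5) (nat_lit 4) (nat_lit 4) (nat_lit 2) (nat_lit 4) (nat_lit 512) (nat_lit 421) (nat_lit 267))))) (XT.nd (nat_lit 234) (nat_lit 0) (nat_lit 0) (XT.nd (nat_lit 78) (nat_lit 0) (nat_lit 0) (XT.lf (nat_lit 0) (nat_lit 287505985786) (nat_lit 152) (nat_lit 2714648304895) (nat_lit 0) (nat_lit 253192317687) (nat_lit 2) (nat_lit 5) (nat_lit 4) (nat_lit 4) (nat_lit 2) (nat_lit 4) (nat_lit 513) (nat_lit 421) (nat_lit 266)) (XT.nd (nat_lit 78) (nat_lit 0) (nat_lit 0) (XT.lf (nat_lit 0) (nat_lit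 504272628009) (nat_lit 152) (nat_lit 2525820980142) (nat_lit 0) (nat_lit 469958943144) (nat_lit 2) (nat_lit 5) (nat_lit 4) (nat_lit 4) (nat_lit 2) (nat_lit 4) (nat_lit 514) (nat_lit 421) (nat_lit 265)) (XT.lf (nat_lit 0) (nat_lit 738380416681) (nat_lit 152) (nat_lit 2321887851479) (nat_lit 0) (nat_lit 704066716291) (nat_lit 2) (nat_lit 5) (nat_lit 4) (nat_lit 4) (nat_lit 2) (nat_lit 4) (nat_lit 515) (nat_lit 421) (nat_lit 264)))) (XT.nd (nat_lit 156) (nat_lit 0) (nat_lit 0) (XT.nd (nat_lit 78) (nat_lit 0) (nat_lit 0) (XT.lf (nat_lit 0) (nat_lit 991216657216) (nat_lit 152) (nat_lit 2101640426293) (nat_lit 0) (nat_lit 956902942451) (nat_lit 2) (nat_lit 5) (nat_lit 4) (nat_lit 4) (nat_lit 2) (nat_lit 4) (nat_lit 516) (nat_lit 421) (nat_lit 263)) (XT.lf (nat_lit 0) (nat_lit 1264279638446) (nat_lit 152) (nat_lit 1863773534655) (nat_lit 0) (nat_lit 1229965910371) (nat_lit 2) (nat_lit 5) (nat_lit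 4) (nat_lit 4) (nat_lit 2) (nat_lit 4) (nat_lit 517) (nat_lit 421) (nat_lit 262))) (XT.nd (nat_lit 78) (nat_lit 0) (nat_lit 0) (XT.lf (nat_lit 0) (nat_lit 1559187511373) (nat_lit 152) (nat_lit 1606877594985) (nat_lit 0) (nat_lit 1524873770973) (nat_lit 2) (nat_lit 5) (nat_lit 4) (nat_lit 4) (nat_lit 2) (nat_lit 4) (nat_lit 518) (nat_lit 421) (nat_lit 261)) (XT.lf (nat_lit 0) (nat_lit 1877687878204) (nat_lit 152) (nat_lit 1329430260976) (nat_lit 0) (nat_lit 1843374126394) (nat_lit 2) (nat_lit 5) (nat_lit 4) (nat_lit 4) (nat_lit 2) (nat_lit 4) (nat_lit 519) (nat_lit 421) (nat_lit 260))))))) (XT.nd (nat_lit 936) (nat_lit 0) (nat_lit 0) (XT.nd (nat_lit 468) (nat_lit 0) (nat_lit 0) (XT.nd (nat_lit 234) (nat_lit 76) (nat_lit 0) (XT.nd (nat_lit 78) (nat_lit 0) (nat_lit 0) (XT.lf (nat_lit 0) (nat_lit 2221668148523) (nat_lit 152) (nat_lit 1029787400276) (nat_lit 0) (nat_lit 2187354386146) (nat_lit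 2) (nat_lit 5) (nat_lit 4) (nat_lit 4) (nat_lit 2) (nat_lit 4) (nat_lit 520) (nat_lit 421) (nat_lit 259)) (XT.nd (nat_lit 78) (nat_lit 0) (nat_lit 0) (XT.lf (nat_lit 0) (nat_lit 2593166723930) (nat_lit 152) (nat_lit 706173351489) (nat_lit 0) (nat_lit 2558852951770) (nat_lit 2) (nat_lit 5) (nat_lit 4) (nat_lit 4) (nat_lit 2) (nat_lit 4) (nat_lit 521) (nat_lit 421) (nat_lit 258)) (XT.lf (nat_lit 0) (nat_lit 2994385077466) (nat_lit 152) (nat_lit 356670401734) (nat_lit 0) (nat_lit 2960071296247) (nat_lit 2) (nat_lit 5) (nat_lit 4) (nat_lit 4) (nat_lit 2) (nat_lit 4) (nat_lit 522) (nat_lit 421) (nat_lit 257)))) (XT.nd (nat_lit 78) (nat_lit 0) (nat_lit 0) (XT.lf (nat_lit 0) (nat_lit 21887477868) (nat_lit 76) (nat_lit 3406339715873) (nat_lit 76) (nat_lit 3372025926267) (nat_lit 1) (nat_lit 4) (nat_lit 2) (nat_lit 5) (nat_lit 2) (nat_lit 4) (nat_lit 523) (nat_lit 421) (nat_lit 256)) (XT.nd (nat_lit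 78) (nat_lit 0) (nat_lit 0) (XT.lf (nat_lit 0) (nat_lit 451013948427) (nat_lit 76) (nat_lit 3455514634400) (nat_lit 76) (nat_lit 3421200837027) (nat_lit 1) (nat_lit 4) (nat_lit 2) (nat_lit 5) (nat_lit 2) (nat_lit 4) (nat_lit 524) (nat_lit 421) (nat_lit 255)) (XT.lf (nat_lit 0) (nat_lit 914470350340) (nat_lit 76) (nat_lit 3508623642561) (nat_lit 76) (nat_lit 3474309837997) (nat_lit 1) (nat_lit 4) (nat_lit 2) (nat_lit 5) (nat_lit 2) (nat_lit 4) (nat_lit 525) (nat_lit 421) (nat_lit 254))))) (XT.nd (nat_lit 234) (nat_lit 0) (nat_lit 0) (XT.nd (nat_lit 78) (nat_lit 0) (nat_lit 0) (XT.lf (nat_lit 0) (nat_lit 1415003091914) (nat_lit 76) (nat_lit 3565981460407) (nat_lit 76) (nat_lit 3531667649184) (nat_lit 1) (nat_lit 4) (nat_lit 2) (nat_lit 5) (nat_lit 2) (nat_lit 4) (nat_lit 526) (nat_lit 421) (nat_lit 253)) (XT.nd (nat_lit 78) (nat_lit 0) (nat_lit 0) (XT.lf (nat_lit 0) (nat_lit 1955578293098)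 (nat_lit 76) (nat_lit 3627927986116) (nat_lit 76) (nat_lit 3593614168728) (nat_lit 1) (nat_lit 4) (nat_lit 2) (nat_lit 5) (nat_lit 2) (nat_lit 4) (nat_lit 527) (nat_lit 421) (nat_lit 252)) (XT.lf (nat_lit 0) (nat_lit 2539399362493) (nat_lit 76) (nat_lit 3694830310211) (nat_lit 76) (nat_lit 3660516487115) (nat_lit 1) (nat_lit 4) (nat_lit 2) (nat_lit 5) (nat_lit 2) (nat_lit 4) (nat_lit 528) (nat_lit 421) (nat_lit 251)))) (XT.nd (nat_lit 78) (nat_lit 0) (nat_lit 0) (XT.lf (nat_lit 0) (nat_lit 3169925980510) (nat_lit 76) (nat_lit 3767084890909) (nat_lit 76) (nat_lit 3732771062527) (nat_lit 1) (nat_lit 4) (nat_lit 2) (nat_lit 5) (nat_lit 2) (nat_lit 4) (nat_lit 529) (nat_lit 421) (nat_lit 250)) (XT.nd (nat_lit 78) (nat_lit 0) (nat_lit 0) (XT.lf (nat_lit 0) (nat_lit 3850894601182) (nat_lit 76) (nat_lit 3845119903503) (nat_lit 76) (nat_lit 3810806070227) (nat_lit 1) (nat_lit 4) (nat_lit 2) (nat_lit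 5) (nat_lit 2) (nat_lit 4) (nat_lit 530) (nat_lit 421) (nat_lit 249)) (XT.lf (nat_lit 0) (nat_lit 4586340594111) (nat_lit 76) (nat_lit 3929397777698) (nat_lit 76) (nat_lit 3895083939890) (nat_lit 1) (nat_lit 4) (nat_lit 2) (nat_lit 5) (nat_lit 2) (nat_lit 4) (nat_lit 531) (nat_lit 421) (nat_lit 248)))))) (XT.nd (nat_lit 54288) (nat_lit 0) (nat_lit 5092) (XT.nd (nat_lit 54054) (nat_lit 0) (nat_lit 5624) (XT.nd (nat_lit 53898) (nat_lit 0) (nat_lit 6080) (XT.lf (nat_lit 0) (nat_lit 5380622157776) (nat_lit 76) (nat_lit 4020417937933) (nat_lit 76) (nat_lit 3986104095929) (nat_lit 1) (nat_lit 4) (nat_lit 2) (nat_lit 5) (nat_lit 2) (nat_lit 4) (nat_lit 532) (nat_lit 421) (nat_lit 247)) (XT.nd (nat_lit 78) (nat_lit 0) (nat_lit 0) (XT.lf (nat_lit 0) (nat_lit 10145201674) (nat_lit 532) (nat_lit 469042880) (nat_lit 532) (nat_lit 469042880) (nat_lit 81) (nat_lit 3) (nat_lit 88) (nat_lit 3) (nat_lit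 88) (nat_lit 5) (nat_lit 422) (nat_lit 422) (nat_lit 356)) (XT.lf (nat_lit 76) (nat_lit 10586396826) (nat_lit 0) (nat_lit 10896808581) (nat_lit 532) (nat_lit 1539503738) (nat_lit 82) (nat_lit 5) (nat_lit 81) (nat_lit 3) (nat_lit 88) (nat_lit 5) (nat_lit 423) (nat_lit 422) (nat_lit 355)))) (XT.nd (nat_lit 78) (nat_lit 532) (nat_lit 0) (XT.lf (nat_lit 0) (nat_lit 22791331615) (nat_lit 456) (nat_lit 874414111) (nat_lit 532) (nat_lit 279999824) (nat_lit 82) (nat_lit 5) (nat_lit 88) (nat_lit 5) (nat_lit 89) (nat_lit 5) (nat_lit 424) (nat_lit 422) (nat_lit 354)) (XT.nd (nat_lit 78) (nat_lit 532) (nat_lit 0) (XT.lf (nat_lit 76) (nat_lit 11917833389) (nat_lit 0) (nat_lit 12844171605) (nat_lit 532) (nat_lit 135991242) (nat_lit 83) (nat_lit 5) (nat_lit 82) (nat_lit 5) (nat_lit 89) (nat_lit 5) (nat_lit 425) (nat_lit 422) (nat_lit 353)) (XT.lf (nat_lit 0) (nat_lit 928854014) (nat_lit 532) (nat_lit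 173279598) (nat_lit 608) (nat_lit 24821388122) (nat_lit 75) (nat_lit 5) (nat_lit 82) (nat_lit 5) (nat_lit 83) (nat_lit 5) (nat_lit 426) (nat_lit 422) (nat_lit 352))))) (XT.nd (nat_lit 234) (nat_lit 608) (nat_lit 0) (XT.nd (nat_lit 78) (nat_lit 0) (nat_lit 0) (XT.lf (nat_lit 0) (nat_lit 2694133974) (nat_lit 532) (nat_lit 12925925040) (nat_lit 608) (nat_lit 11360942638) (nat_lit 76) (nat_lit 5) (nat_lit 83) (nat_lit 5) (nat_lit 84) (nat_lit 5) (nat_lit 427) (nat_lit 422) (nat_lit 351)) (XT.nd (nat_lit 78) (nat_lit 0) (nat_lit 76) (XT.lf (nat_lit 76) (nat_lit 1338866423) (nat_lit 0) (nat_lit 3317601082) (nat_lit 608) (nat_lit 23462148267) (nat_lit 77) (nat_lit 5) (nat_lit 76) (nat_lit 5) (nat_lit 84) (nat_lit 5) (nat_lit 428) (nat_lit 422) (nat_lit 350)) (XT.lf (nat_lit 0) (nat_lit 7368853913) (nat_lit 532) (nat_lit 12096736631) (nat_lit 76) (nat_lit 9834205315) (nat_lit 77) (nat_lit 5) (nat_lit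 84) (nat_lit 5) (nat_lit 78) (nat_lit 5) (nat_lit 429) (nat_lit 422) (nat_lit 349)))) (XT.nd (nat_lit 156) (nat_lit 228) (nat_lit 0) (XT.nd (nat_lit 78) (nat_lit 0) (nat_lit 0) (XT.lf (nat_lit 0) (nat_lit 3859688273) (nat_lit 456) (nat_lit 6608940791) (nat_lit 532) (nat_lit 20093211441) (nat_lit 71) (nat_lit 5) (nat_lit 77) (nat_lit 5) (nat_lit 78) (nat_lit 5) (nat_lit 430) (nat_lit 422) (nat_lit 348)) (XT.lf (nat_lit 0) (nat_lit 14322569490) (nat_lit 532) (nat_lit 10309982434) (nat_lit 76) (nat_lit 7251803966) (nat_lit 71) (nat_lit 5) (nat_lit 78) (nat_lit 5) (nat_lit 72) (nat_lit 5) (nat_lit 431) (nat_lit 422) (nat_lit 347))) (XT.nd (nat_lit 78) (nat_lit 0) (nat_lit 0) (XT.lf (nat_lit 0) (nat_lit 7593821902) (nat_lit 228) (nat_lit 11237751633) (nat_lit 304) (nat_lit 14453360793) (nat_lit 68) (nat_lit 5) (nat_lit 71) (nat_lit 5) (nat_lit 72) (nat_lit 5) (nat_lit 432) (nat_lit 422) (nat_lit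 346)) (XT.lf (nat_lit 0) (nat_lit 24060976164) (nat_lit 304) (nat_lit 7352021787) (nat_lit 76) (nat_lit 3355788400) (nat_lit 68) (nat_lit 5) (nat_lit 72) (nat_lit 5) (nat_lit 69) (nat_lit 5) (nat_lit 433) (nat_lit 422) (nat_lit 345))))))))
noncomputable def xc147 : XT := (XT.nd (nat_lit 1950) (nat_lit 1520) (nat_lit 0) (XT.nd (nat_lit 936) (nat_lit 1064) (nat_lit 0) (XT.nd (nat_lit 468) (nat_lit 532) (nat_lit 0) (XT.nd (nat_lit 234) (nat_lit 380) (nat_lit 0) (XT.nd (nat_lit 78) (nat_lit 228) (nat_lit 0) (XT.lf (nat_lit 0) (nat_lit 12794650359) (nat_lit 228) (nat_lit 17507028678) (nat_lit 304) (nat_lit 6022233106) (nat_lit 65) (nat_lit 5) (nat_lit 68) (nat_lit 5) (nat_lit 69) (nat_lit 5) (nat_lit 434) (nat_lit 422) (nat_lit 344)) (XT.nd (nat_lit 78) (nat_lit 228) (nat_lit 0) (XT.lf (nat_lit 0) (nat_lit 34963670794) (nat_lit 228) (nat_lit 2272643809) (nat_lit 304) (nat_lit 751560624) (nat_lit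 65) (nat_lit 5) (nat_lit 68) (nat_lit 5) (nat_lit 69) (nat_lit 5) (nat_lit 435) (nat_lit 422) (nat_lit 343)) (XT.lf (nat_lit 0) (nat_lit 5525062438) (nat_lit 228) (nat_lit 20098630007) (nat_lit 76) (nat_lit 14085241712) (nat_lit 62) (nat_lit 5) (nat_lit 65) (nat_lit 5) (nat_lit 63) (nat_lit 5) (nat_lit 436) (nat_lit 422) (nat_lit 342)))) (XT.nd (nat_lit 78) (nat_lit 152) (nat_lit 0) (XT.lf (nat_lit 0) (nat_lit 2714060312) (nat_lit 228) (nat_lit 9752508138) (nat_lit 304) (nat_lit 29083280182) (nat_lit 59) (nat_lit 5) (nat_lit 62) (nat_lit 5) (nat_lit 63) (nat_lit 5) (nat_lit 437) (nat_lit 422) (nat_lit 341)) (XT.nd (nat_lit 78) (nat_lit 152) (nat_lit 0) (XT.lf (nat_lit 0) (nat_lit 20699319441) (nat_lit 304) (nat_lit 15198964380) (nat_lit 76) (nat_lit 7580879474) (nat_lit 59) (nat_lit 5) (nat_lit 63) (nat_lit 5) (nat_lit 60) (nat_lit 5) (nat_lit 438) (nat_lit 422) (nat_lit 340)) (XT.lf (nat_lit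 0) (nat_lit 10598527258) (nat_lit 152) (nat_lit 19495210980) (nat_lit 228) (nat_lit 15428841988) (nat_lit 57) (nat_lit 5) (nat_lit 59) (nat_lit 5) (nat_lit 60) (nat_lit 5) (nat_lit 439) (nat_lit 422) (nat_lit 339))))) (XT.nd (nat_lit 234) (nat_lit 152) (nat_lit 0) (XT.nd (nat_lit 78) (nat_lit 380) (nat_lit 0) (XT.lf (nat_lit 0) (nat_lit 39317230175) (nat_lit 152) (nat_lit 1333102580) (nat_lit 228) (nat_lit 7046288828) (nat_lit 57) (nat_lit 5) (nat_lit 59) (nat_lit 5) (nat_lit 60) (nat_lit 5) (nat_lit 440) (nat_lit 422) (nat_lit 338)) (XT.nd (nat_lit 78) (nat_lit 152) (nat_lit 0) (XT.lf (nat_lit 0) (nat_lit 2868221829) (nat_lit 228) (nat_lit 29154954843) (nat_lit 76) (nat_lit 17940609488) (nat_lit 54) (nat_lit 5) (nat_lit 57) (nat_lit 5) (nat_lit 55) (nat_lit 5) (nat_lit 441) (nat_lit 422) (nat_lit 337)) (XT.lf (nat_lit 0) (nat_lit 193921658) (nat_lit 152) (nat_lit 13271081693) (nat_lit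 228) (nat_lit 38911096176) (nat_lit 52) (nat_lit 5) (nat_lit 54) (nat_lit 5) (nat_lit 55) (nat_lit 5) (nat_lit 442) (nat_lit 422) (nat_lit 336)))) (XT.nd (nat_lit 78) (nat_lit 152) (nat_lit 0) (XT.lf (nat_lit 0) (nat_lit 25890844747) (nat_lit 228) (nat_lit 21564416727) (nat_lit 76) (nat_lit 7447631723) (nat_lit 52) (nat_lit 5) (nat_lit 55) (nat_lit 5) (nat_lit 53) (nat_lit 5) (nat_lit 443) (nat_lit 422) (nat_lit 335)) (XT.nd (nat_lit 78) (nat_lit 0) (nat_lit 0) (XT.lf (nat_lit 0) (nat_lit 11738837666) (nat_lit 152) (nat_lit 28194833449) (nat_lit 228) (nat_lit 17648326412) (nat_lit 50) (nat_lit 5) (nat_lit 52) (nat_lit 5) (nat_lit 53) (nat_lit 5) (nat_lit 444) (nat_lit 422) (nat_lit 334)) (XT.lf (nat_lit 0) (nat_lit 48926454729) (nat_lit 152) (nat_lit 6759126067) (nat_lit 228) (nat_lit 4742997363) (nat_lit 50) (nat_lit 5) (nat_lit 52) (nat_lit 5) (nat_lit 53) (nat_lit 5) (nat_lit 445) (nat_lit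 422) (nat_lit 333)))))) (XT.nd (nat_lit 468) (nat_lit 456) (nat_lit 0) (XT.nd (nat_lit 234) (nat_lit 304) (nat_lit 0) (XT.nd (nat_lit 78) (nat_lit 152) (nat_lit 0) (XT.lf (nat_lit 0) (nat_lit 9789624306) (nat_lit 152) (nat_lit 37156308136) (nat_lit 76) (nat_lit 16454876500) (nat_lit 48) (nat_lit 5) (nat_lit 50) (nat_lit 5) (nat_lit 49) (nat_lit 5) (nat_lit 446) (nat_lit 422) (nat_lit 332)) (XT.nd (nat_lit 78) (nat_lit 0) (nat_lit 0) (XT.lf (nat_lit 0) (nat_lit 806657896) (nat_lit 152) (nat_lit 24935899680) (nat_lit 228) (nat_lit 40817289701) (nat_lit 46) (nat_lit 5) (nat_lit 48) (nat_lit 5) (nat_lit 49) (nat_lit 5) (nat_lit 447) (nat_lit 422) (nat_lit 331)) (XT.lf (nat_lit 0) (nat_lit 43913826604) (nat_lit 152) (nat_lit 70275282) (nat_lit 228) (nat_lit 25906517077) (nat_lit 46) (nat_lit 5) (nat_lit 48) (nat_lit 5) (nat_lit 49) (nat_lit 5) (nat_lit 448) (nat_lit 422) (nat_lit 330)))) (XT.nd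 (nat_lit 78) (nat_lit 228) (nat_lit 0) (XT.lf (nat_lit 0) (nat_lit 17191835884) (nat_lit 76) (nat_lit 47547434149) (nat_lit 152) (nat_lit 8664238690) (nat_lit 45) (nat_lit 5) (nat_lit 46) (nat_lit 5) (nat_lit 47) (nat_lit 4) (nat_lit 449) (nat_lit 422) (nat_lit 329)) (XT.nd (nat_lit 78) (nat_lit 152) (nat_lit 0) (XT.lf (nat_lit 0) (nat_lit 10186531332) (nat_lit 152) (nat_lit 12114826813) (nat_lit 76) (nat_lit 54818736137) (nat_lit 44) (nat_lit 5) (nat_lit 46) (nat_lit 5) (nat_lit 45) (nat_lit 5) (nat_lit 450) (nat_lit 422) (nat_lit 328)) (XT.lf (nat_lit 0) (nat_lit 31115741947) (nat_lit 228) (nat_lit 44056027032) (nat_lit 76) (nat_lit 5861156547) (nat_lit 42) (nat_lit 5) (nat_lit 45) (nat_lit 5) (nat_lit 43) (nat_lit 4) (nat_lit 451) (nat_lit 422) (nat_lit 327))))) (XT.nd (nat_lit 234) (nat_lit 228) (nat_lit 0) (XT.nd (nat_lit 78) (nat_lit 152) (nat_lit 0) (XT.lf (nat_lit 0) (nat_lit 5115319731)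 (nat_lit 76) (nat_lit 49643082016) (nat_lit 152) (nat_lit 30417252804) (nat_lit 41) (nat_lit 5) (nat_lit 42) (nat_lit 5) (nat_lit 43) (nat_lit 4) (nat_lit 452) (nat_lit 422) (nat_lit 326)) (XT.nd (nat_lit 78) (nat_lit 152) (nat_lit 0) (XT.lf (nat_lit 0) (nat_lit 60720647112) (nat_lit 76) (nat_lit 20773482552) (nat_lit 152) (nat_lit 8059540054) (nat_lit 41) (nat_lit 5) (nat_lit 42) (nat_lit 5) (nat_lit 43) (nat_lit 4) (nat_lit 453) (nat_lit 422) (nat_lit 325)) (XT.lf (nat_lit 0) (nat_lit 16217484524) (nat_lit 152) (nat_lit 67000743201) (nat_lit 76) (nat_lit 10957913878) (nat_lit 39) (nat_lit 5) (nat_lit 41) (nat_lit 5) (nat_lit 40) (nat_lit 4) (nat_lit 454) (nat_lit 422) (nat_lit 324)))) (XT.nd (nat_lit 156) (nat_lit 152) (nat_lit 0) (XT.nd (nat_lit 78) (nat_lit 76) (nat_lit 0) (XT.lf (nat_lit 0) (nat_lit 43346906652) (nat_lit 152) (nat_lit 10575503767) (nat_lit 76) (nat_lit 45121601111)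 (nat_lit 39) (nat_lit 5) (nat_lit 41) (nat_lit 5) (nat_lit 40) (nat_lit 4) (nat_lit 455) (nat_lit 422) (nat_lit 323)) (XT.lf (nat_lit 0) (nat_lit 53010921510) (nat_lit 76) (nat_lit 20908144104) (nat_lit 152) (nat_lit 30280454976) (nat_lit 38) (nat_lit 5) (nat_lit 39) (nat_lit 5) (nat_lit 40) (nat_lit 4) (nat_lit 456) (nat_lit 422) (nat_lit 322))) (XT.nd (nat_lit 78) (nat_lit 76) (nat_lit 0) (XT.lf (nat_lit 0) (nat_lit 12815583085) (nat_lit 76) (nat_lit 95078462189) (nat_lit 76) (nat_lit 1796861428) (nat_lit 37) (nat_lit 4) (nat_lit 38) (nat_lit 5) (nat_lit 38) (nat_lit 4) (nat_lit 457) (nat_lit 422) (nat_lit 321)) (XT.lf (nat_lit 0) (nat_lit 29492970405) (nat_lit 152) (nat_lit 31939132002) (nat_lit 76) (nat_lit 53975650447) (nat_lit 36) (nat_lit 5) (nat_lit 38) (nat_lit 5) (nat_lit 37) (nat_lit 4) (nat_lit 458) (nat_lit 422) (nat_lit 320))))))) (XT.nd (nat_lit 936) (nat_lit 760) (nat_lit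 0) (XT.nd (nat_lit 468) (nat_lit 380) (nat_lit 0) (XT.nd (nat_lit 234) (nat_lit 152) (nat_lit 0) (XT.nd (nat_lit 78) (nat_lit 152) (nat_lit 0) (XT.lf (nat_lit 0) (nat_lit 40149369660) (nat_lit 76) (nat_lit 24002829501) (nat_lit 152) (nat_lit 57348950927) (nat_lit 35) (nat_lit 5) (nat_lit 36) (nat_lit 5) (nat_lit 37) (nat_lit 4) (nat_lit 459) (nat_lit 422) (nat_lit 319)) (XT.nd (nat_lit 78) (nat_lit 152) (nat_lit 0) (XT.lf (nat_lit 0) (nat_lit 102872756395) (nat_lit 152) (nat_lit 8612770314) (nat_lit 0) (nat_lit 16493405301) (nat_lit 35) (nat_lit 5) (nat_lit 37) (nat_lit 4) (nat_lit 35) (nat_lit 4) (nat_lit 460) (nat_lit 422) (nat_lit 318)) (XT.lf (nat_lit 0) (nat_lit 11667923849) (nat_lit 152) (nat_lit 62112208190) (nat_lit 76) (nat_lit 60981075958) (nat_lit 33) (nat_lit 5) (nat_lit 35) (nat_lit 5) (nat_lit 34) (nat_lit 4) (nat_lit 461) (nat_lit 422) (nat_lit 317)))) (XT.nd (nat_lit 78)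 (nat_lit 76) (nat_lit 0) (XT.lf (nat_lit 0) (nat_lit 19128928265) (nat_lit 76) (nat_lit 31598186323) (nat_lit 152) (nat_lit 91250818984) (nat_lit 32) (nat_lit 5) (nat_lit 33) (nat_lit 5) (nat_lit 34) (nat_lit 4) (nat_lit 462) (nat_lit 422) (nat_lit 316)) (XT.nd (nat_lit 78) (nat_lit 76) (nat_lit 0) (XT.lf (nat_lit 0) (nat_lit 94987014837) (nat_lit 152) (nat_lit 39618281960) (nat_lit 0) (nat_lit 15000622546) (nat_lit 32) (nat_lit 5) (nat_lit 34) (nat_lit 4) (nat_lit 32) (nat_lit 4) (nat_lit 463) (nat_lit 422) (nat_lit 315)) (XT.lf (nat_lit 0) (nat_lit 52050159381) (nat_lit 76) (nat_lit 92808150385) (nat_lit 76) (nat_lit 12820186083) (nat_lit 31) (nat_lit 4) (nat_lit 32) (nat_lit 5) (nat_lit 32) (nat_lit 4) (nat_lit 464) (nat_lit 422) (nat_lit 314))))) (XT.nd (nat_lit 234) (nat_lit 152) (nat_lit 0) (XT.nd (nat_lit 78) (nat_lit 152) (nat_lit 0) (XT.lf (nat_lit 0) (nat_lit 31814970134) (nat_lit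 152) (nat_lit 13814281988) (nat_lit 76) (nat_lit 120616682874) (nat_lit 30) (nat_lit 5) (nat_lit 32) (nat_lit 5) (nat_lit 31) (nat_lit 4) (nat_lit 465) (nat_lit 422) (nat_lit 313)) (XT.nd (nat_lit 78) (nat_lit 76) (nat_lit 0) (XT.lf (nat_lit 0) (nat_lit 81671188091) (nat_lit 152) (nat_lit 86007849598) (nat_lit 0) (nat_lit 7605662522) (nat_lit 29) (nat_lit 5) (nat_lit 31) (nat_lit 4) (nat_lit 29) (nat_lit 4) (nat_lit 466) (nat_lit 422) (nat_lit 312)) (XT.lf (nat_lit 0) (nat_lit 15985734627) (nat_lit 76) (nat_lit 121485541650) (nat_lit 76) (nat_lit 47418860605) (nat_lit 28) (nat_lit 4) (nat_lit 29) (nat_lit 5) (nat_lit 29) (nat_lit 4) (nat_lit 467) (nat_lit 422) (nat_lit 311)))) (XT.nd (nat_lit 78) (nat_lit 76) (nat_lit 0) (XT.lf (nat_lit 0) (nat_lit 4758650329) (nat_lit 152) (nat_lit 64169758243) (nat_lit 76) (nat_lit 126137971870) (nat_lit 27) (nat_lit 5) (nat_lit 29) (nat_lit 5) (nat_lit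 28) (nat_lit 4) (nat_lit 468) (nat_lit 422) (nat_lit 310)) (XT.nd (nat_lit 78) (nat_lit 0) (nat_lit 0) (XT.lf (nat_lit 0) (nat_lit 50221007229) (nat_lit 76) (nat_lit 9533679690) (nat_lit 152) (nat_lit 146107009927) (nat_lit 26) (nat_lit 5) (nat_lit 27) (nat_lit 5) (nat_lit 28) (nat_lit 4) (nat_lit 469) (nat_lit 422) (nat_lit 309)) (XT.lf (nat_lit 0) (nat_lit 122262294280) (nat_lit 152) (nat_lit 41330116441) (nat_lit 0) (nat_lit 53679276857) (nat_lit 26) (nat_lit 5) (nat_lit 28) (nat_lit 4) (nat_lit 26) (nat_lit 4) (nat_lit 470) (nat_lit 422) (nat_lit 308)))))) (XT.nd (nat_lit 468) (nat_lit 304) (nat_lit 0) (XT.nd (nat_lit 234) (nat_lit 228) (nat_lit 0) (XT.nd (nat_lit 78) (nat_lit 152) (nat_lit 0) (XT.lf (nat_lit 0) (nat_lit 86186033045) (nat_lit 76) (nat_lit 105903368540) (nat_lit 76) (nat_lit 37319564720) (nat_lit 25) (nat_lit 4) (nat_lit 26) (nat_lit 5) (nat_lit 26) (nat_lit 4) (nat_lit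 471) (nat_lit 422) (nat_lit 307)) (XT.nd (nat_lit 78) (nat_lit 76) (nat_lit 0) (XT.lf (nat_lit 0) (nat_lit 24893457268) (nat_lit 152) (nat_lit 16806140847) (nat_lit 76) (nat_lit 200676926754) (nat_lit 24) (nat_lit 5) (nat_lit 26) (nat_lit 5) (nat_lit 25) (nat_lit 4) (nat_lit 472) (nat_lit 422) (nat_lit 306)) (XT.lf (nat_lit 0) (nat_lit 93840259264) (nat_lit 152) (nat_lit 131826405880) (nat_lit 0) (nat_lit 30335438732) (nat_lit 23) (nat_lit 5) (nat_lit 25) (nat_lit 4) (nat_lit 23) (nat_lit 4) (nat_lit 473) (nat_lit 422) (nat_lit 305)))) (XT.nd (nat_lit 78) (nat_lit 152) (nat_lit 0) (XT.lf (nat_lit 0) (nat_lit 5908626609) (nat_lit 76) (nat_lit 164089440139) (nat_lit 76) (nat_lit 100584041582) (nat_lit 22) (nat_lit 4) (nat_lit 23) (nat_lit 5) (nat_lit 23) (nat_lit 4) (nat_lit 474) (nat_lit 422) (nat_lit 304)) (XT.nd (nat_lit 78) (nat_lit 152) (nat_lit 0) (XT.lf (nat_lit 0) (nat_lit 162156816411)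 (nat_lit 76) (nat_lit 93694694768) (nat_lit 76) (nat_lit 30188761002) (nat_lit 22) (nat_lit 4) (nat_lit 23) (nat_lit 5) (nat_lit 23) (nat_lit 4) (nat_lit 475) (nat_lit 422) (nat_lit 303)) (XT.lf (nat_lit 0) (nat_lit 28489951173) (nat_lit 76) (nat_lit 15739077914) (nat_lit 152) (nat_lit 258363155677) (nat_lit 20) (nat_lit 5) (nat_lit 21) (nat_lit 5) (nat_lit 22) (nat_lit 4) (nat_lit 476) (nat_lit 422) (nat_lit 302))))) (XT.nd (nat_lit 234) (nat_lit 228) (nat_lit 0) (XT.nd (nat_lit 78) (nat_lit 76) (nat_lit 0) (XT.lf (nat_lit 0) (nat_lit 128089449829) (nat_lit 152) (nat_lit 122619680299) (nat_lit 0) (nat_lit 69286775584) (nat_lit 20) (nat_lit 5) (nat_lit 22) (nat_lit 4) (nat_lit 20) (nat_lit 4) (nat_lit 477) (nat_lit 422) (nat_lit 301)) (XT.nd (nat_lit 78) (nat_lit 0) (nat_lit 0) (XT.lf (nat_lit 0) (nat_lit 42706621494) (nat_lit 76) (nat_lit 177386796692) (nat_lit 76) (nat_lit 118583729053)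 (nat_lit 19) (nat_lit 4) (nat_lit 20) (nat_lit 5) (nat_lit 20) (nat_lit 4) (nat_lit 478) (nat_lit 422) (nat_lit 300)) (XT.lf (nat_lit 0) (nat_lit 228230171515) (nat_lit 76) (nat_lit 94579014945) (nat_lit 76) (nat_lit 35775583052) (nat_lit 19) (nat_lit 4) (nat_lit 20) (nat_lit 5) (nat_lit 20) (nat_lit 4) (nat_lit 479) (nat_lit 422) (nat_lit 299)))) (XT.nd (nat_lit 156) (nat_lit 76) (nat_lit 0) (XT.nd (nat_lit 78) (nat_lit 0) (nat_lit 0) (XT.lf (nat_lit 0) (nat_lit 49704328572) (nat_lit 76) (nat_lit 2463026109) (nat_lit 152) (nat_lit 327718867021) (nat_lit 17) (nat_lit 5) (nat_lit 18) (nat_lit 5) (nat_lit 19) (nat_lit 4) (nat_lit 480) (nat_lit 422) (nat_lit 298)) (XT.lf (nat_lit 0) (nat_lit 151201907918) (nat_lit 152) (nat_lit 154382739644) (nat_lit 0) (nat_lit 96753684349) (nat_lit 17) (nat_lit 5) (nat_lit 19) (nat_lit 4) (nat_lit 17) (nat_lit 4) (nat_lit 481) (nat_lit 422) (nat_lit 297)))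 (XT.nd (nat_lit 78) (nat_lit 0) (nat_lit 0) (XT.lf (nat_lit 0) (nat_lit 37279158763) (nat_lit 76) (nat_lit 221839590782) (nat_lit 76) (nat_lit 167391099475) (nat_lit 16) (nat_lit 4) (nat_lit 17) (nat_lit 5) (nat_lit 17) (nat_lit 4) (nat_lit 482) (nat_lit 422) (nat_lit 296)) (XT.lf (nat_lit 0) (nat_lit 253051877418) (nat_lit 76) (nat_lit 126837170284) (nat_lit 76) (nat_lit 72388431072) (nat_lit 16) (nat_lit 4) (nat_lit 17) (nat_lit 5) (nat_lit 17) (nat_lit 4) (nat_lit 483) (nat_lit 422) (nat_lit 295))))))))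
noncomputable def xc148 : XT := (XT.nd (nat_lit 1950) (nat_lit 228) (nat_lit 0) (XT.nd (nat_lit 936) (nat_lit 304) (nat_lit 0) (XT.nd (nat_lit 468) (nat_lit 228) (nat_lit 0) (XT.nd (nat_lit 234) (nat_lit 228) (nat_lit 0) (XT.nd (nat_lit 78) (nat_lit 0) (nat_lit 0) (XT.lf (nat_lit 0) (nat_lit 5527846624) (nat_lit 76) (nat_lit 23307160769) (nat_lit 152) (nat_lit 451202818405) (nat_lit 14) (nat_lit 5) (nat_lit 15) (nat_lit 5) (nat_lit 16) (nat_lit 4) (nat_lit 484) (nat_lit 422) (nat_lit 294)) (XT.nd (nat_lit 78) (nat_lit 0) (nat_lit 0) (XT.lf (nat_lit 0) (nat_lit 141961747753) (nat_lit 152) (nat_lit 275743693586) (nat_lit 0) (nat_lit 91545839149) (nat_lit 14) (nat_lit 5) (nat_lit 16) (nat_lit 4) (nat_lit 14) (nat_lit 4) (nat_lit 485) (nat_lit 422) (nat_lit 293)) (XT.lf (nat_lit 0) (nat_lit 264743140285) (nat_lit 152) (nat_lit 61683260781) (nat_lit 0) (nat_lit 214327049463) (nat_lit 14) (nat_lit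 5) (nat_lit 16) (nat_lit 4) (nat_lit 14) (nat_lit 4) (nat_lit 486) (nat_lit 422) (nat_lit 292)))) (XT.nd (nat_lit 78) (nat_lit 152) (nat_lit 0) (XT.lf (nat_lit 0) (nat_lit 178425952036) (nat_lit 76) (nat_lit 223211437049) (nat_lit 76) (nat_lit 172795177507) (nat_lit 13) (nat_lit 4) (nat_lit 14) (nat_lit 5) (nat_lit 14) (nat_lit 4) (nat_lit 487) (nat_lit 422) (nat_lit 291)) (XT.nd (nat_lit 78) (nat_lit 152) (nat_lit 0) (XT.lf (nat_lit 0) (nat_lit 441250281819) (nat_lit 76) (nat_lit 109918643064) (nat_lit 76) (nat_lit 59502227299) (nat_lit 13) (nat_lit 4) (nat_lit 14) (nat_lit 5) (nat_lit 14) (nat_lit 4) (nat_lit 488) (nat_lit 422) (nat_lit 290)) (XT.lf (nat_lit 0) (nat_lit 61963891036) (nat_lit 152) (nat_lit 572261795277) (nat_lit 0) (nat_lit 15281890653) (nat_lit 11) (nat_lit 5) (nat_lit 13) (nat_lit 4) (nat_lit 11) (nat_lit 4) (nat_lit 489) (nat_lit 422) (nat_lit 289))))) (XT.nd (nat_lit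 234) (nat_lit 152) (nat_lit 0) (XT.nd (nat_lit 78) (nat_lit 76) (nat_lit 0) (XT.lf (nat_lit 0) (nat_lit 197539505883) (nat_lit 152) (nat_lit 342321837554) (nat_lit 0) (nat_lit 150857381485) (nat_lit 11) (nat_lit 5) (nat_lit 13) (nat_lit 4) (nat_lit 11) (nat_lit 4) (nat_lit 490) (nat_lit 422) (nat_lit 288)) (XT.nd (nat_lit 78) (nat_lit 76) (nat_lit 0) (XT.lf (nat_lit 0) (nat_lit 343960482589) (nat_lit 152) (nat_lit 93988093756) (nat_lit 0) (nat_lit 297278243363) (nat_lit 11) (nat_lit 5) (nat_lit 13) (nat_lit 4) (nat_lit 11) (nat_lit 4) (nat_lit 491) (nat_lit 422) (nat_lit 287)) (XT.lf (nat_lit 0) (nat_lit 183384688310) (nat_lit 76) (nat_lit 323120218869) (nat_lit 76) (nat_lit 276437873321) (nat_lit 10) (nat_lit 4) (nat_lit 11) (nat_lit 5) (nat_lit 11) (nat_lit 4) (nat_lit 492) (nat_lit 422) (nat_lit 286)))) (XT.nd (nat_lit 78) (nat_lit 152) (nat_lit 0) (XT.lf (nat_lit 0) (nat_lit 488291206122)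 (nat_lit 76) (nat_lit 196330860772) (nat_lit 76) (nat_lit 149648416777) (nat_lit 10) (nat_lit 4) (nat_lit 11) (nat_lit 5) (nat_lit 11) (nat_lit 4) (nat_lit 493) (nat_lit 422) (nat_lit 285)) (XT.nd (nat_lit 78) (nat_lit 152) (nat_lit 0) (XT.lf (nat_lit 0) (nat_lit 817589066662) (nat_lit 76) (nat_lit 59398958752) (nat_lit 76) (nat_lit 12716423602) (nat_lit 10) (nat_lit 4) (nat_lit 11) (nat_lit 5) (nat_lit 11) (nat_lit 4) (nat_lit 494) (nat_lit 422) (nat_lit 284)) (XT.lf (nat_lit 0) (nat_lit 136345198887) (nat_lit 152) (nat_lit 719212367792) (nat_lit 0) (nat_lit 93120551154) (nat_lit 8) (nat_lit 5) (nat_lit 10) (nat_lit 4) (nat_lit 8) (nat_lit 4) (nat_lit 495) (nat_lit 422) (nat_lit 283)))))) (XT.nd (nat_lit 468) (nat_lit 228) (nat_lit 0) (XT.nd (nat_lit 234) (nat_lit 0) (nat_lit 0) (XT.nd (nat_lit 78) (nat_lit 76) (nat_lit 0) (XT.lf (nat_lit 0) (nat_lit 300209996450) (nat_lit 152) (nat_lit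 454862762621) (nat_lit 0) (nat_lit 256985276356) (nat_lit 8) (nat_lit 5) (nat_lit 10) (nat_lit 4) (nat_lit 8) (nat_lit 4) (nat_lit 496) (nat_lit 422) (nat_lit 282)) (XT.nd (nat_lit 78) (nat_lit 76) (nat_lit 0) (XT.lf (nat_lit 0) (nat_lit 477183473547) (nat_lit 152) (nat_lit 169366226774) (nat_lit 0) (nat_lit 433958686452) (nat_lit 8) (nat_lit 5) (nat_lit 10) (nat_lit 4) (nat_lit 8) (nat_lit 4) (nat_lit 497) (nat_lit 422) (nat_lit 281)) (XT.lf (nat_lit 0) (nat_lit 146286936079) (nat_lit 76) (nat_lit 525545630145) (nat_lit 76) (nat_lit 482320781012) (nat_lit 7) (nat_lit 4) (nat_lit 8) (nat_lit 5) (nat_lit 8) (nat_lit 4) (nat_lit 498) (nat_lit 422) (nat_lit 280)))) (XT.nd (nat_lit 78) (nat_lit 0) (nat_lit 0) (XT.lf (nat_lit 0) (nat_lit 496823422807) (nat_lit 76) (nat_lit 389860481437) (nat_lit 76) (nat_lit 346635574862) (nat_lit 7) (nat_lit 4) (nat_lit 8) (nat_lit 5) (nat_lit 8) (nat_lit 4)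 (nat_lit 499) (nat_lit 422) (nat_lit 279)) (XT.nd (nat_lit 78) (nat_lit 0) (nat_lit 0) (XT.lf (nat_lit 0) (nat_lit 875401961303) (nat_lit 76) (nat_lit 243320966840) (nat_lit 76) (nat_lit 200096007077) (nat_lit 7) (nat_lit 4) (nat_lit 8) (nat_lit 5) (nat_lit 8) (nat_lit 4) (nat_lit 500) (nat_lit 422) (nat_lit 278)) (XT.lf (nat_lit 0) (nat_lit 1284265979945) (nat_lit 76) (nat_lit 85058704046) (nat_lit 76) (nat_lit 41833695035) (nat_lit 7) (nat_lit 4) (nat_lit 8) (nat_lit 5) (nat_lit 8) (nat_lit 4) (nat_lit 501) (nat_lit 422) (nat_lit 277))))) (XT.nd (nat_lit 234) (nat_lit 76) (nat_lit 0) (XT.nd (nat_lit 78) (nat_lit 0) (nat_lit 0) (XT.lf (nat_lit 0) (nat_lit 130279886255) (nat_lit 152) (nat_lit 1289488206378) (nat_lit 0) (nat_lit 90256687541) (nat_lit 5) (nat_lit 5) (nat_lit 7) (nat_lit 4) (nat_lit 5) (nat_lit 4) (nat_lit 502) (nat_lit 422) (nat_lit 276)) (XT.nd (nat_lit 78) (nat_lit 0) (nat_lit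 0) (XT.lf (nat_lit 0) (nat_lit 319670973794) (nat_lit 152) (nat_lit 1016933374409) (nat_lit 0) (nat_lit 279647735986) (nat_lit 5) (nat_lit 5) (nat_lit 7) (nat_lit 4) (nat_lit 5) (nat_lit 4) (nat_lit 503) (nat_lit 422) (nat_lit 275)) (XT.lf (nat_lit 0) (nat_lit 524213005644) (nat_lit 152) (nat_lit 722574862661) (nat_lit 0) (nat_lit 484189731637) (nat_lit 5) (nat_lit 5) (nat_lit 7) (nat_lit 4) (nat_lit 5) (nat_lit 4) (nat_lit 504) (nat_lit 422) (nat_lit 274)))) (XT.nd (nat_lit 156) (nat_lit 76) (nat_lit 0) (XT.nd (nat_lit 78) (nat_lit 0) (nat_lit 0) (XT.lf (nat_lit 0) (nat_lit 745118082734) (nat_lit 152) (nat_lit 404668324399) (nat_lit 0) (nat_lit 705094775210) (nat_lit 5) (nat_lit 5) (nat_lit 7) (nat_lit 4) (nat_lit 5) (nat_lit 4) (nat_lit 505) (nat_lit 422) (nat_lit 273)) (XT.lf (nat_lit 0) (nat_lit 983695272188) (nat_lit 152) (nat_lit 61329869024) (nat_lit 0) (nat_lit 943671933629) (nat_lit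 5) (nat_lit 5) (nat_lit 7) (nat_lit 4) (nat_lit 5) (nat_lit 4) (nat_lit 506) (nat_lit 422) (nat_lit 272))) (XT.nd (nat_lit 78) (nat_lit 0) (nat_lit 0) (XT.lf (nat_lit 0) (nat_lit 325771512134) (nat_lit 76) (nat_lit 923421665324) (nat_lit 76) (nat_lit 883398298030) (nat_lit 4) (nat_lit 4) (nat_lit 5) (nat_lit 5) (nat_lit 5) (nat_lit 4) (nat_lit 507) (nat_lit 422) (nat_lit 271)) (XT.lf (nat_lit 0) (nat_lit 747328340921) (nat_lit 76) (nat_lit 790279176494) (nat_lit 76) (nat_lit 750255782593) (nat_lit 4) (nat_lit 4) (nat_lit 5) (nat_lit 5) (nat_lit 5) (nat_lit 4) (nat_lit 508) (nat_lit 422) (nat_lit 270))))))) (XT.nd (nat_lit 936) (nat_lit 76) (nat_lit 0) (XT.nd (nat_lit 468) (nat_lit 0) (nat_lit 0) (XT.nd (nat_lit 234) (nat_lit 152) (nat_lit 0) (XT.nd (nat_lit 78) (nat_lit 0) (nat_lit 0) (XT.lf (nat_lit 0) (nat_lit 1202609209659) (nat_lit 76) (nat_lit 646485549500) (nat_lit 76) (nat_lit 606462130963)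 (nat_lit 4) (nat_lit 4) (nat_lit 5) (nat_lit 5) (nat_lit 5) (nat_lit 4) (nat_lit 509) (nat_lit 422) (nat_lit 269)) (XT.nd (nat_lit 78) (nat_lit 0) (nat_lit 0) (XT.lf (nat_lit 0) (nat_lit 1694312079052) (nat_lit 76) (nat_lit 491188673961) (nat_lit 76) (nat_lit 451165232612) (nat_lit 4) (nat_lit 4) (nat_lit 5) (nat_lit 5) (nat_lit 5) (nat_lit 4) (nat_lit 510) (nat_lit 422) (nat_lit 268)) (XT.lf (nat_lit 0) (nat_lit 2225350743881) (nat_lit 76) (nat_lit 323468272095) (nat_lit 76) (nat_lit 283444809625) (nat_lit 4) (nat_lit 4) (nat_lit 5) (nat_lit 5) (nat_lit 5) (nat_lit 4) (nat_lit 511) (nat_lit 422) (nat_lit 267)))) (XT.nd (nat_lit 78) (nat_lit 152) (nat_lit 0) (XT.lf (nat_lit 0) (nat_lit 2798872099938) (nat_lit 76) (nat_lit 142330445226) (nat_lit 76) (nat_lit 102306963199) (nat_lit 4) (nat_lit 4) (nat_lit 5) (nat_lit 5) (nat_lit 5) (nat_lit 4) (nat_lit 512) (nat_lit 422) (nat_lit 266)) (XT.nd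 (nat_lit 78) (nat_lit 0) (nat_lit 0) (XT.lf (nat_lit 0) (nat_lit 93743519233) (nat_lit 152) (nat_lit 3120639856306) (nat_lit 0) (nat_lit 56684722811) (nat_lit 2) (nat_lit 5) (nat_lit 4) (nat_lit 4) (nat_lit 2) (nat_lit 4) (nat_lit 513) (nat_lit 422) (nat_lit 265)) (XT.lf (nat_lit 0) (nat_lit 310510072548) (nat_lit 152) (nat_lit 2931812715241) (nat_lit 0) (nat_lit 273451260601) (nat_lit 2) (nat_lit 5) (nat_lit 4) (nat_lit 4) (nat_lit 2) (nat_lit 4) (nat_lit 514) (nat_lit 422) (nat_lit 264))))) (XT.nd (nat_lit 234) (nat_lit 0) (nat_lit 0) (XT.nd (nat_lit 78) (nat_lit 0) (nat_lit 0) (XT.lf (nat_lit 0) (nat_lit 544617778897) (nat_lit 152) (nat_lit 2727879756659) (nat_lit 0) (nat_lit 507558952576) (nat_lit 2) (nat_lit 5) (nat_lit 4) (nat_lit 4) (nat_lit 2) (nat_lit 4) (nat_lit 515) (nat_lit 422) (nat_lit 263)) (XT.nd (nat_lit 78) (nat_lit 0) (nat_lit 0) (XT.lf (nat_lit 0) (nat_lit 797453943207)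 (nat_lit 152) (nat_lit 2507632488955) (nat_lit 0) (nat_lit 760395103576) (nat_lit 2) (nat_lit 5) (nat_lit 4) (nat_lit 4) (nat_lit 2) (nat_lit 4) (nat_lit 516) (nat_lit 422) (nat_lit 262)) (XT.lf (nat_lit 0) (nat_lit 1070516853860) (nat_lit 152) (nat_lit 2269765743134) (nat_lit 0) (nat_lit 1033458001904) (nat_lit 2) (nat_lit 5) (nat_lit 4) (nat_lit 4) (nat_lit 2) (nat_lit 4) (nat_lit 517) (nat_lit 422) (nat_lit 261)))) (XT.nd (nat_lit 78) (nat_lit 0) (nat_lit 0) (XT.lf (nat_lit 0) (nat_lit 1365424661436) (nat_lit 152) (nat_lit 2012869938481) (nat_lit 0) (nat_lit 1328365798069) (nat_lit 2) (nat_lit 5) (nat_lit 4) (nat_lit 4) (nat_lit 2) (nat_lit 4) (nat_lit 518) (nat_lit 422) (nat_lit 260)) (XT.nd (nat_lit 78) (nat_lit 0) (nat_lit 0) (XT.lf (nat_lit 0) (nat_lit 1683924967758) (nat_lit 152) (nat_lit 1735422729486) (nat_lit 0) (nat_lit 1646866093825) (nat_lit 2) (nat_lit 5) (nat_lit 4) (nat_lit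 4) (nat_lit 2) (nat_lit 4) (nat_lit 519) (nat_lit 422) (nat_lit 259)) (XT.lf (nat_lit 0) (nat_lit 2027905182049) (nat_lit 152) (nat_lit 1435779984540) (nat_lit 0) (nat_lit 1990846298333) (nat_lit 2) (nat_lit 5) (nat_lit 4) (nat_lit 4) (nat_lit 2) (nat_lit 4) (nat_lit 520) (nat_lit 422) (nat_lit 258)))))) (XT.nd (nat_lit 468) (nat_lit 0) (nat_lit 0) (XT.nd (nat_lit 234) (nat_lit 76) (nat_lit 0) (XT.nd (nat_lit 78) (nat_lit 0) (nat_lit 0) (XT.lf (nat_lit 0) (nat_lit 2399403705579) (nat_lit 152) (nat_lit 1112166042934) (nat_lit 0) (nat_lit 2362344812804) (nat_lit 2) (nat_lit 5) (nat_lit 4) (nat_lit 4) (nat_lit 2) (nat_lit 4) (nat_lit 521) (nat_lit 422) (nat_lit 257)) (XT.nd (nat_lit 78) (nat_lit 0) (nat_lit 0) (XT.lf (nat_lit 0) (nat_lit 2800622011080) (nat_lit 152) (nat_lit 762663192419) (nat_lit 0) (nat_lit 2763563109917) (nat_lit 2) (nat_lit 5) (nat_lit 4) (nat_lit 4) (nat_lit 2) (nat_lit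 4) (nat_lit 522) (nat_lit 422) (nat_lit 256)) (XT.lf (nat_lit 0) (nat_lit 3233937688511) (nat_lit 152) (nat_lit 385200304994) (nat_lit 0) (nat_lit 3196878779582) (nat_lit 2) (nat_lit 5) (nat_lit 4) (nat_lit 4) (nat_lit 2) (nat_lit 4) (nat_lit 523) (nat_lit 422) (nat_lit 255)))) (XT.nd (nat_lit 78) (nat_lit 0) (nat_lit 0) (XT.lf (nat_lit 0) (nat_lit 23642110574) (nat_lit 76) (nat_lit 3678845017231) (nat_lit 76) (nat_lit 3641786101111) (nat_lit 1) (nat_lit 4) (nat_lit 2) (nat_lit 5) (nat_lit 2) (nat_lit 4) (nat_lit 524) (nat_lit 422) (nat_lit 254)) (XT.nd (nat_lit 78) (nat_lit 0) (nat_lit 0) (XT.lf (nat_lit 0) (nat_lit 487098429558) (nat_lit 76) (nat_lit 3731954068196) (nat_lit 76) (nat_lit 3694895145417) (nat_lit 1) (nat_lit 4) (nat_lit 2) (nat_lit 5) (nat_lit 2) (nat_lit 4) (nat_lit 525) (nat_lit 422) (nat_lit 253)) (XT.lf (nat_lit 0) (nat_lit 987631094345) (nat_lit 76) (nat_lit 3789311925674)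 (nat_lit 76) (nat_lit 3752252996730) (nat_lit 1) (nat_lit 4) (nat_lit 2) (nat_lit 5) (nat_lit 2) (nat_lit 4) (nat_lit 526) (nat_lit 422) (nat_lit 252))))) (XT.nd (nat_lit 234) (nat_lit 0) (nat_lit 0) (XT.nd (nat_lit 78) (nat_lit 0) (nat_lit 0) (XT.lf (nat_lit 0) (nat_lit 1528206224432) (nat_lit 76) (nat_lit 3851258488080) (nat_lit 76) (nat_lit 3814199553427) (nat_lit 1) (nat_lit 4) (nat_lit 2) (nat_lit 5) (nat_lit 2) (nat_lit 4) (nat_lit 527) (nat_lit 422) (nat_lit 251)) (XT.nd (nat_lit 78) (nat_lit 0) (nat_lit 0) (XT.lf (nat_lit 0) (nat_lit 2112027227995) (nat_lit 76) (nat_lit 3918160846154) (nat_lit 76) (nat_lit 3881101906216) (nat_lit 1) (nat_lit 4) (nat_lit 2) (nat_lit 5) (nat_lit 2) (nat_lit 4) (nat_lit 528) (nat_lit 422) (nat_lit 250)) (XT.lf (nat_lit 0) (nat_lit 2742553785057) (nat_lit 76) (nat_lit 3990415458313) (nat_lit 76) (nat_lit 3953356513481) (nat_lit 1) (nat_lit 4) (nat_lit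 2) (nat_lit 5) (nat_lit 2) (nat_lit 4) (nat_lit 529) (nat_lit 422) (nat_lit 249)))) (XT.nd (nat_lit 156) (nat_lit 0) (nat_lit 0) (XT.nd (nat_lit 78) (nat_lit 0) (nat_lit 0) (XT.lf (nat_lit 0) (nat_lit 3423522349288) (nat_lit 76) (nat_lit 4068450500039) (nat_lit 76) (nat_lit 4031391550675) (nat_lit 1) (nat_lit 4) (nat_lit 2) (nat_lit 5) (nat_lit 2) (nat_lit 4) (nat_lit 530) (nat_lit 422) (nat_lit 248)) (XT.lf (nat_lit 0) (nat_lit 4158968289958) (nat_lit 76) (nat_lit 4152728401207) (nat_lit 76) (nat_lit 4115669447647) (nat_lit 1) (nat_lit 4) (nat_lit 2) (nat_lit 5) (nat_lit 2) (nat_lit 4) (nat_lit 531) (nat_lit 422) (nat_lit 247))) (XT.nd (nat_lit 53976) (nat_lit 0) (nat_lit 6080) (XT.lf (nat_lit 0) (nat_lit 4953249805235) (nat_lit 76) (nat_lit 4243748586417) (nat_lit 76) (nat_lit 4206689628972) (nat_lit 1) (nat_lit 4) (nat_lit 2) (nat_lit 5) (nat_lit 2) (nat_lit 4) (nat_lit 532) (nat_lit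 422) (nat_lit 246)) (XT.lf (nat_lit 0) (nat_lit 11080356315) (nat_lit 532) (nat_lit 439839001) (nat_lit 532) (nat_lit 439839001) (nat_lit 81) (nat_lit 3) (nat_lit 88) (nat_lit 3) (nat_lit 88) (nat_lit 5) (nat_lit 423) (nat_lit 423) (nat_lit 354))))))))
noncomputable def xc149 : XT := (XT.nd (nat_lit 1950) (nat_lit 1672) (nat_lit 0) (XT.nd (nat_lit 936) (nat_lit 1444) (nat_lit 0) (XT.nd (nat_lit 468) (nat_lit 760) (nat_lit 0) (XT.nd (nat_lit 234) (nat_lit 0) (nat_lit 0) (XT.nd (nat_lit 78) (nat_lit 456) (nat_lit 0) (XT.lf (nat_lit 76) (nat_lit 11563384594) (nat_lit 0) (nat_lit 11870380591) (nat_lit 532) (nat_lit 1412147255) (nat_lit 82) (nat_lit 5) (nat_lit 81) (nat_lit 3) (nat_lit 88) (nat_lit 5) (nat_lit 424) (nat_lit 423) (nat_lit 353)) (XT.nd (nat_lit 78) (nat_lit 532) (nat_lit 0) (XT.lf (nat_lit 0) (nat_lit 24827095918) (nat_lit 456) (nat_lit 804424269) (nat_lit 532) (nat_lit 212831747)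 (nat_lit 82) (nat_lit 5) (nat_lit 88) (nat_lit 5) (nat_lit 89) (nat_lit 5) (nat_lit 425) (nat_lit 423) (nat_lit 352)) (XT.lf (nat_lit 0) (nat_lit 65721744) (nat_lit 532) (nat_lit 13867787116) (nat_lit 608) (nat_lit 12940141478) (nat_lit 75) (nat_lit 5) (nat_lit 82) (nat_lit 5) (nat_lit 83) (nat_lit 5) (nat_lit 426) (nat_lit 423) (nat_lit 351)))) (XT.nd (nat_lit 78) (nat_lit 0) (nat_lit 76) (XT.lf (nat_lit 0) (nat_lit 1193204212) (nat_lit 532) (nat_lit 50793337) (nat_lit 608) (nat_lit 26738157613) (nat_lit 75) (nat_lit 5) (nat_lit 82) (nat_lit 5) (nat_lit 83) (nat_lit 5) (nat_lit 427) (nat_lit 423) (nat_lit 350)) (XT.nd (nat_lit 78) (nat_lit 0) (nat_lit 0) (XT.lf (nat_lit 0) (nat_lit 3087712910) (nat_lit 532) (nat_lit 13811615124) (nat_lit 608) (nat_lit 12225868261) (nat_lit 76) (nat_lit 5) (nat_lit 83) (nat_lit 5) (nat_lit 84) (nat_lit 5) (nat_lit 428) (nat_lit 423) (nat_lit 349)) (XT.lf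 (nat_lit 76) (nat_lit 1590603101) (nat_lit 0) (nat_lit 3606719558) (nat_lit 608) (nat_lit 25157276808) (nat_lit 77) (nat_lit 5) (nat_lit 76) (nat_lit 5) (nat_lit 84) (nat_lit 5) (nat_lit 429) (nat_lit 423) (nat_lit 348))))) (XT.nd (nat_lit 234) (nat_lit 456) (nat_lit 0) (XT.nd (nat_lit 78) (nat_lit 456) (nat_lit 0) (XT.lf (nat_lit 0) (nat_lit 8113702520) (nat_lit 532) (nat_lit 12917528185) (nat_lit 76) (nat_lit 10600085908) (nat_lit 77) (nat_lit 5) (nat_lit 84) (nat_lit 5) (nat_lit 78) (nat_lit 5) (nat_lit 430) (nat_lit 423) (nat_lit 347)) (XT.nd (nat_lit 78) (nat_lit 0) (nat_lit 0) (XT.lf (nat_lit 0) (nat_lit 4311690525) (nat_lit 456) (nat_lit 7141707087) (nat_lit 532) (nat_lit 21541574828) (nat_lit 71) (nat_lit 5) (nat_lit 77) (nat_lit 5) (nat_lit 78) (nat_lit 5) (nat_lit 431) (nat_lit 423) (nat_lit 346)) (XT.lf (nat_lit 0) (nat_lit 15604653564) (nat_lit 532) (nat_lit 10991132951) (nat_lit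 76) (nat_lit 7828384965) (nat_lit 71) (nat_lit 5) (nat_lit 78) (nat_lit 5) (nat_lit 72) (nat_lit 5) (nat_lit 432) (nat_lit 423) (nat_lit 345)))) (XT.nd (nat_lit 78) (nat_lit 228) (nat_lit 0) (XT.lf (nat_lit 0) (nat_lit 8341339072) (nat_lit 228) (nat_lit 12126311434) (nat_lit 304) (nat_lit 15469686149) (nat_lit 68) (nat_lit 5) (nat_lit 71) (nat_lit 5) (nat_lit 72) (nat_lit 5) (nat_lit 433) (nat_lit 423) (nat_lit 344)) (XT.nd (nat_lit 78) (nat_lit 228) (nat_lit 0) (XT.lf (nat_lit 0) (nat_lit 26106041904) (nat_lit 304) (nat_lit 7801153653) (nat_lit 76) (nat_lit 3633452455) (nat_lit 68) (nat_lit 5) (nat_lit 72) (nat_lit 5) (nat_lit 69) (nat_lit 5) (nat_lit 434) (nat_lit 423) (nat_lit 343)) (XT.lf (nat_lit 0) (nat_lit 13953732521) (nat_lit 228) (nat_lit 18886624720) (nat_lit 304) (nat_lit 6380280073) (nat_lit 65) (nat_lit 5) (nat_lit 68) (nat_lit 5) (nat_lit 69) (nat_lit 5) (nat_lit 435) (nat_lit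 423) (nat_lit 342)))))) (XT.nd (nat_lit 468) (nat_lit 836) (nat_lit 0) (XT.nd (nat_lit 234) (nat_lit 152) (nat_lit 0) (XT.nd (nat_lit 78) (nat_lit 456) (nat_lit 0) (XT.lf (nat_lit 0) (nat_lit 37886236803) (nat_lit 228) (nat_lit 2435042117) (nat_lit 304) (nat_lit 697119102) (nat_lit 65) (nat_lit 5) (nat_lit 68) (nat_lit 5) (nat_lit 69) (nat_lit 5) (nat_lit 436) (nat_lit 423) (nat_lit 341)) (XT.nd (nat_lit 78) (nat_lit 228) (nat_lit 0) (XT.lf (nat_lit 0) (nat_lit 6071495373) (nat_lit 228) (nat_lit 21570869521) (nat_lit 76) (nat_lit 15234910478) (nat_lit 62) (nat_lit 5) (nat_lit 65) (nat_lit 5) (nat_lit 63) (nat_lit 5) (nat_lit 437) (nat_lit 423) (nat_lit 340)) (XT.lf (nat_lit 0) (nat_lit 3063401824) (nat_lit 228) (nat_lit 10500364453) (nat_lit 304) (nat_lit 31302062603) (nat_lit 59) (nat_lit 5) (nat_lit 62) (nat_lit 5) (nat_lit 63) (nat_lit 5) (nat_lit 438) (nat_lit 423) (nat_lit 339))))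 (XT.nd (nat_lit 78) (nat_lit 152) (nat_lit 0) (XT.lf (nat_lit 0) (nat_lit 22448459657) (nat_lit 304) (nat_lit 16285764449) (nat_lit 76) (nat_lit 8215800148) (nat_lit 59) (nat_lit 5) (nat_lit 63) (nat_lit 5) (nat_lit 60) (nat_lit 5) (nat_lit 439) (nat_lit 423) (nat_lit 338)) (XT.nd (nat_lit 78) (nat_lit 0) (nat_lit 0) (XT.lf (nat_lit 0) (nat_lit 11572257733) (nat_lit 152) (nat_lit 21018297571) (nat_lit 228) (nat_lit 16566670592) (nat_lit 57) (nat_lit 5) (nat_lit 59) (nat_lit 5) (nat_lit 60) (nat_lit 5) (nat_lit 440) (nat_lit 423) (nat_lit 337)) (XT.lf (nat_lit 0) (nat_lit 42579134788) (nat_lit 152) (nat_lit 1405926446) (nat_lit 228) (nat_lit 7520659753) (nat_lit 57) (nat_lit 5) (nat_lit 59) (nat_lit 5) (nat_lit 60) (nat_lit 5) (nat_lit 441) (nat_lit 423) (nat_lit 336))))) (XT.nd (nat_lit 234) (nat_lit 456) (nat_lit 0) (XT.nd (nat_lit 78) (nat_lit 152) (nat_lit 0) (XT.lf (nat_lit 0) (nat_lit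 3179971955) (nat_lit 228) (nat_lit 31363759955) (nat_lit 76) (nat_lit 19410561601) (nat_lit 54) (nat_lit 5) (nat_lit 57) (nat_lit 5) (nat_lit 55) (nat_lit 5) (nat_lit 442) (nat_lit 423) (nat_lit 335)) (XT.nd (nat_lit 78) (nat_lit 0) (nat_lit 0) (XT.lf (nat_lit 0) (nat_lit 329897773) (nat_lit 152) (nat_lit 14291399617) (nat_lit 228) (nat_lit 41938551346) (nat_lit 52) (nat_lit 5) (nat_lit 54) (nat_lit 5) (nat_lit 55) (nat_lit 5) (nat_lit 443) (nat_lit 423) (nat_lit 334)) (XT.lf (nat_lit 0) (nat_lit 28036268519) (nat_lit 228) (nat_lit 23173082825) (nat_lit 76) (nat_lit 8079830396) (nat_lit 52) (nat_lit 5) (nat_lit 55) (nat_lit 5) (nat_lit 53) (nat_lit 5) (nat_lit 444) (nat_lit 423) (nat_lit 333)))) (XT.nd (nat_lit 156) (nat_lit 304) (nat_lit 0) (XT.nd (nat_lit 78) (nat_lit 0) (nat_lit 0) (XT.lf (nat_lit 0) (nat_lit 12791482876) (nat_lit 152) (nat_lit 30408275665) (nat_lit 228) (nat_lit 18983077642)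 (nat_lit 50) (nat_lit 5) (nat_lit 52) (nat_lit 5) (nat_lit 53) (nat_lit 5) (nat_lit 445) (nat_lit 423) (nat_lit 332)) (XT.lf (nat_lit 0) (nat_lit 52945699067) (nat_lit 152) (nat_lit 7260833504) (nat_lit 228) (nat_lit 5051034484) (nat_lit 50) (nat_lit 5) (nat_lit 52) (nat_lit 5) (nat_lit 53) (nat_lit 5) (nat_lit 446) (nat_lit 423) (nat_lit 331))) (XT.nd (nat_lit 78) (nat_lit 152) (nat_lit 0) (XT.lf (nat_lit 0) (nat_lit 10639125273) (nat_lit 152) (nat_lit 40018597252) (nat_lit 76) (nat_lit 17809836992) (nat_lit 48) (nat_lit 5) (nat_lit 50) (nat_lit 5) (nat_lit 49) (nat_lit 5) (nat_lit 447) (nat_lit 423) (nat_lit 330)) (XT.lf (nat_lit 0) (nat_lit 978615796) (nat_lit 152) (nat_lit 26887347580) (nat_lit 228) (nat_lit 44013544498) (nat_lit 46) (nat_lit 5) (nat_lit 48) (nat_lit 5) (nat_lit 49) (nat_lit 5) (nat_lit 448) (nat_lit 423) (nat_lit 329))))))) (XT.nd (nat_lit 936) (nat_lit 836) (nat_lit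 0) (XT.nd (nat_lit 468) (nat_lit 456) (nat_lit 0) (XT.nd (nat_lit 234) (nat_lit 228) (nat_lit 0) (XT.nd (nat_lit 78) (nat_lit 152) (nat_lit 0) (XT.lf (nat_lit 0) (nat_lit 47526400573) (nat_lit 152) (nat_lit 35689828) (nat_lit 228) (nat_lit 27915030685) (nat_lit 46) (nat_lit 5) (nat_lit 48) (nat_lit 5) (nat_lit 49) (nat_lit 5) (nat_lit 449) (nat_lit 423) (nat_lit 328)) (XT.nd (nat_lit 78) (nat_lit 76) (nat_lit 0) (XT.lf (nat_lit 0) (nat_lit 18667817119) (nat_lit 76) (nat_lit 51308780845) (nat_lit 152) (nat_lit 9294530472) (nat_lit 45) (nat_lit 5) (nat_lit 46) (nat_lit 5) (nat_lit 47) (nat_lit 4) (nat_lit 450) (nat_lit 423) (nat_lit 327)) (XT.lf (nat_lit 0) (nat_lit 11056734798) (nat_lit 152) (nat_lit 12987916782) (nat_lit 76) (nat_lit 59240622556) (nat_lit 44) (nat_lit 5) (nat_lit 46) (nat_lit 5) (nat_lit 45) (nat_lit 5) (nat_lit 451) (nat_lit 423) (nat_lit 326)))) (XT.nd (nat_lit 78) (nat_lit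 76) (nat_lit 0) (XT.lf (nat_lit 0) (nat_lit 33659407387) (nat_lit 228) (nat_lit 47483533317) (nat_lit 76) (nat_lit 6368261552) (nat_lit 42) (nat_lit 5) (nat_lit 45) (nat_lit 5) (nat_lit 43) (nat_lit 4) (nat_lit 452) (nat_lit 423) (nat_lit 325)) (XT.nd (nat_lit 78) (nat_lit 0) (nat_lit 0) (XT.lf (nat_lit 0) (nat_lit 5619066101) (nat_lit 76) (nat_lit 53572657018) (nat_lit 152) (nat_lit 32793767391) (nat_lit 41) (nat_lit 5) (nat_lit 42) (nat_lit 5) (nat_lit 43) (nat_lit 4) (nat_lit 453) (nat_lit 423) (nat_lit 324)) (XT.lf (nat_lit 0) (nat_lit 65665818132) (nat_lit 76) (nat_lit 22396591193) (nat_lit 152) (nat_lit 8651649890) (nat_lit 41) (nat_lit 5) (nat_lit 42) (nat_lit 5) (nat_lit 43) (nat_lit 4) (nat_lit 454) (nat_lit 423) (nat_lit 323))))) (XT.nd (nat_lit 234) (nat_lit 228) (nat_lit 0) (XT.nd (nat_lit 78) (nat_lit 76) (nat_lit 0) (XT.lf (nat_lit 0) (nat_lit 17564259660) (nat_lit 152) (nat_lit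 72269999034) (nat_lit 76) (nat_lit 11872020580) (nat_lit 39) (nat_lit 5) (nat_lit 41) (nat_lit 5) (nat_lit 40) (nat_lit 4) (nat_lit 455) (nat_lit 423) (nat_lit 322)) (XT.nd (nat_lit 78) (nat_lit 76) (nat_lit 0) (XT.lf (nat_lit 0) (nat_lit 46860378049) (nat_lit 152) (nat_lit 11337466639) (nat_lit 76) (nat_lit 48766026971) (nat_lit 39) (nat_lit 5) (nat_lit 41) (nat_lit 5) (nat_lit 40) (nat_lit 4) (nat_lit 456) (nat_lit 423) (nat_lit 321)) (XT.lf (nat_lit 0) (nat_lit 57333744117) (nat_lit 76) (nat_lit 22543149901) (nat_lit 152) (nat_lit 32655040925) (nat_lit 38) (nat_lit 5) (nat_lit 39) (nat_lit 5) (nat_lit 40) (nat_lit 4) (nat_lit 457) (nat_lit 423) (nat_lit 320)))) (XT.nd (nat_lit 78) (nat_lit 152) (nat_lit 0) (XT.lf (nat_lit 0) (nat_lit 13923278992) (nat_lit 76) (nat_lit 102646132567) (nat_lit 76) (nat_lit 1893257451) (nat_lit 37) (nat_lit 4) (nat_lit 38) (nat_lit 5) (nat_lit 38) (nat_lit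 4) (nat_lit 458) (nat_lit 423) (nat_lit 319)) (XT.nd (nat_lit 78) (nat_lit 76) (nat_lit 0) (XT.lf (nat_lit 0) (nat_lit 31894059989) (nat_lit 152) (nat_lit 34415724923) (nat_lit 76) (nat_lit 58327253601) (nat_lit 36) (nat_lit 5) (nat_lit 38) (nat_lit 5) (nat_lit 37) (nat_lit 4) (nat_lit 459) (nat_lit 423) (nat_lit 318)) (XT.lf (nat_lit 0) (nat_lit 43437868577) (nat_lit 76) (nat_lit 25886914152) (nat_lit 152) (nat_lit 61893224520) (nat_lit 35) (nat_lit 5) (nat_lit 36) (nat_lit 5) (nat_lit 37) (nat_lit 4) (nat_lit 460) (nat_lit 423) (nat_lit 317)))))) (XT.nd (nat_lit 468) (nat_lit 456) (nat_lit 0) (XT.nd (nat_lit 234) (nat_lit 152) (nat_lit 0) (XT.nd (nat_lit 78) (nat_lit 228) (nat_lit 0) (XT.lf (nat_lit 0) (nat_lit 111140796207) (nat_lit 152) (nat_lit 9228722512) (nat_lit 0) (nat_lit 17844668239) (nat_lit 35) (nat_lit 5) (nat_lit 37) (nat_lit 4) (nat_lit 35) (nat_lit 4) (nat_lit 461) (nat_lit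 423) (nat_lit 316)) (XT.nd (nat_lit 78) (nat_lit 76) (nat_lit 0) (XT.lf (nat_lit 0) (nat_lit 12639424315) (nat_lit 152) (nat_lit 67007958985) (nat_lit 76) (nat_lit 65891674238) (nat_lit 33) (nat_lit 5) (nat_lit 35) (nat_lit 5) (nat_lit 34) (nat_lit 4) (nat_lit 462) (nat_lit 423) (nat_lit 315)) (XT.lf (nat_lit 0) (nat_lit 20730614567) (nat_lit 76) (nat_lit 34091632500) (nat_lit 152) (nat_lit 98510962483) (nat_lit 32) (nat_lit 5) (nat_lit 33) (nat_lit 5) (nat_lit 34) (nat_lit 4) (nat_lit 463) (nat_lit 423) (nat_lit 314)))) (XT.nd (nat_lit 78) (nat_lit 152) (nat_lit 0) (XT.lf (nat_lit 0) (nat_lit 102620967546) (nat_lit 152) (nat_lit 42719685982) (nat_lit 0) (nat_lit 16230938521) (nat_lit 32) (nat_lit 5) (nat_lit 34) (nat_lit 4) (nat_lit 32) (nat_lit 4) (nat_lit 464) (nat_lit 423) (nat_lit 313)) (XT.nd (nat_lit 78) (nat_lit 76) (nat_lit 0) (XT.lf (nat_lit 0) (nat_lit 56280507666) (nat_lit 76)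 (nat_lit 100200461809) (nat_lit 76) (nat_lit 13809085039) (nat_lit 31) (nat_lit 4) (nat_lit 32) (nat_lit 5) (nat_lit 32) (nat_lit 4) (nat_lit 465) (nat_lit 423) (nat_lit 312)) (XT.lf (nat_lit 0) (nat_lit 34392463348) (nat_lit 152) (nat_lit 14856300919) (nat_lit 76) (nat_lit 130294260673) (nat_lit 30) (nat_lit 5) (nat_lit 32) (nat_lit 5) (nat_lit 31) (nat_lit 4) (nat_lit 466) (nat_lit 423) (nat_lit 311))))) (XT.nd (nat_lit 234) (nat_lit 228) (nat_lit 0) (XT.nd (nat_lit 78) (nat_lit 152) (nat_lit 0) (XT.lf (nat_lit 0) (nat_lit 88236991095) (nat_lit 152) (nat_lit 92825165173) (nat_lit 0) (nat_lit 8242750206) (nat_lit 29) (nat_lit 5) (nat_lit 31) (nat_lit 4) (nat_lit 29) (nat_lit 4) (nat_lit 467) (nat_lit 423) (nat_lit 310)) (XT.nd (nat_lit 78) (nat_lit 76) (nat_lit 0) (XT.lf (nat_lit 0) (nat_lit 17326302945) (nat_lit 76) (nat_lit 131173889139) (nat_lit 76) (nat_lit 51178657617) (nat_lit 28)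 (nat_lit 4) (nat_lit 29) (nat_lit 5) (nat_lit 29) (nat_lit 4) (nat_lit 468) (nat_lit 423) (nat_lit 309)) (XT.lf (nat_lit 0) (nat_lit 5168995535) (nat_lit 152) (nat_lit 69244638061) (nat_lit 76) (nat_lit 136255684139) (nat_lit 27) (nat_lit 5) (nat_lit 29) (nat_lit 5) (nat_lit 28) (nat_lit 4) (nat_lit 469) (nat_lit 423) (nat_lit 308)))) (XT.nd (nat_lit 156) (nat_lit 152) (nat_lit 0) (XT.nd (nat_lit 78) (nat_lit 0) (nat_lit 0) (XT.lf (nat_lit 0) (nat_lit 54295902551) (nat_lit 76) (nat_lit 10267991984) (nat_lit 152) (nat_lit 157764430622) (nat_lit 26) (nat_lit 5) (nat_lit 27) (nat_lit 5) (nat_lit 28) (nat_lit 4) (nat_lit 470) (nat_lit 423) (nat_lit 307)) (XT.lf (nat_lit 0) (nat_lit 132070606761) (nat_lit 152) (nat_lit 44582044655) (nat_lit 0) (nat_lit 57998584093) (nat_lit 26) (nat_lit 5) (nat_lit 28) (nat_lit 4) (nat_lit 26) (nat_lit 4) (nat_lit 471) (nat_lit 423) (nat_lit 306))) (XT.nd (nat_lit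 78) (nat_lit 76) (nat_lit 0) (XT.lf (nat_lit 0) (nat_lit 93134017521) (nat_lit 76) (nat_lit 114349117863) (nat_lit 76) (nat_lit 40276420986) (nat_lit 25) (nat_lit 4) (nat_lit 26) (nat_lit 5) (nat_lit 26) (nat_lit 4) (nat_lit 472) (nat_lit 423) (nat_lit 305)) (XT.lf (nat_lit 0) (nat_lit 26910186419) (nat_lit 152) (nat_lit 18100133391) (nat_lit 76) (nat_lit 216754306238) (nat_lit 24) (nat_lit 5) (nat_lit 26) (nat_lit 5) (nat_lit 25) (nat_lit 4) (nat_lit 473) (nat_lit 423) (nat_lit 304))))))))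
noncomputable def xc150 : XT := (XT.nd (nat_lit 1950) (nat_lit 456) (nat_lit 0) (XT.nd (nat_lit 936) (nat_lit 456) (nat_lit 0) (XT.nd (nat_lit 468) (nat_lit 380) (nat_lit 0) (XT.nd (nat_lit 234) (nat_lit 228) (nat_lit 0) (XT.nd (nat_lit 78) (nat_lit 76) (nat_lit 0) (XT.lf (nat_lit 0) (nat_lit 101372638705) (nat_lit 152) (nat_lit 142321925197) (nat_lit 0) (nat_lit 32785695029) (nat_lit 23) (nat_lit 5) (nat_lit 25) (nat_lit 4) (nat_lit 23) (nat_lit 4) (nat_lit 474) (nat_lit 423) (nat_lit 303)) (XT.nd (nat_lit 78) (nat_lit 0) (nat_lit 0) (XT.lf (nat_lit 0) (nat_lit 6430629051) (nat_lit 76) (nat_lit 177191764091) (nat_lit 76) (nat_lit 108604324852) (nat_lit 22) (nat_lit 4) (nat_lit 23) (nat_lit 5) (nat_lit 23) (nat_lit 4) (nat_lit 475) (nat_lit 423) (nat_lit 302)) (XT.lf (nat_lit 0) (nat_lit 175175021274) (nat_lit 76) (nat_lit 101167278442) (nat_lit 76) (nat_lit 32579380348) (nat_lit 22) (nat_lit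 4) (nat_lit 23) (nat_lit 5) (nat_lit 23) (nat_lit 4) (nat_lit 476) (nat_lit 423) (nat_lit 301)))) (XT.nd (nat_lit 78) (nat_lit 76) (nat_lit 0) (XT.lf (nat_lit 0) (nat_lit 30814844973) (nat_lit 76) (nat_lit 16975139610) (nat_lit 152) (nat_lit 279007763898) (nat_lit 20) (nat_lit 5) (nat_lit 21) (nat_lit 5) (nat_lit 22) (nat_lit 4) (nat_lit 477) (nat_lit 423) (nat_lit 300)) (XT.nd (nat_lit 78) (nat_lit 76) (nat_lit 0) (XT.lf (nat_lit 0) (nat_lit 138358076066) (nat_lit 152) (nat_lit 132385778734) (nat_lit 0) (nat_lit 74850005368) (nat_lit 20) (nat_lit 5) (nat_lit 22) (nat_lit 4) (nat_lit 20) (nat_lit 4) (nat_lit 478) (nat_lit 423) (nat_lit 299)) (XT.lf (nat_lit 0) (nat_lit 46165526544) (nat_lit 76) (nat_lit 191556264087) (nat_lit 76) (nat_lit 128047856116) (nat_lit 19) (nat_lit 4) (nat_lit 20) (nat_lit 5) (nat_lit 20) (nat_lit 4) (nat_lit 479) (nat_lit 423) (nat_lit 298))))) (XT.nd (nat_lit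 234) (nat_lit 228) (nat_lit 0) (XT.nd (nat_lit 78) (nat_lit 152) (nat_lit 0) (XT.lf (nat_lit 0) (nat_lit 246527821654) (nat_lit 76) (nat_lit 102125450640) (nat_lit 76) (nat_lit 38616730380) (nat_lit 19) (nat_lit 4) (nat_lit 20) (nat_lit 5) (nat_lit 20) (nat_lit 4) (nat_lit 480) (nat_lit 423) (nat_lit 297)) (XT.nd (nat_lit 78) (nat_lit 0) (nat_lit 0) (XT.lf (nat_lit 0) (nat_lit 53719937244) (nat_lit 76) (nat_lit 2640133265) (nat_lit 152) (nat_lit 353915502452) (nat_lit 17) (nat_lit 5) (nat_lit 18) (nat_lit 5) (nat_lit 19) (nat_lit 4) (nat_lit 481) (nat_lit 423) (nat_lit 296)) (XT.lf (nat_lit 0) (nat_lit 163316400264) (nat_lit 152) (nat_lit 166696016754) (nat_lit 0) (nat_lit 104511514010) (nat_lit 17) (nat_lit 5) (nat_lit 19) (nat_lit 4) (nat_lit 17) (nat_lit 4) (nat_lit 482) (nat_lit 423) (nat_lit 295)))) (XT.nd (nat_lit 78) (nat_lit 152) (nat_lit 0) (XT.lf (nat_lit 0) (nat_lit 40297888157)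 (nat_lit 76) (nat_lit 239568217908) (nat_lit 76) (nat_lit 180763102112) (nat_lit 16) (nat_lit 4) (nat_lit 17) (nat_lit 5) (nat_lit 17) (nat_lit 4) (nat_lit 483) (nat_lit 423) (nat_lit 294)) (XT.nd (nat_lit 78) (nat_lit 152) (nat_lit 0) (XT.lf (nat_lit 0) (nat_lit 273329728253) (nat_lit 76) (nat_lit 136966977114) (nat_lit 76) (nat_lit 78161648780) (nat_lit 16) (nat_lit 4) (nat_lit 17) (nat_lit 5) (nat_lit 17) (nat_lit 4) (nat_lit 484) (nat_lit 423) (nat_lit 293)) (XT.lf (nat_lit 0) (nat_lit 6003792669) (nat_lit 76) (nat_lit 25154533195) (nat_lit 152) (nat_lit 487281204377) (nat_lit 14) (nat_lit 5) (nat_lit 15) (nat_lit 5) (nat_lit 16) (nat_lit 4) (nat_lit 485) (nat_lit 423) (nat_lit 292)))))) (XT.nd (nat_lit 468) (nat_lit 228) (nat_lit 0) (XT.nd (nat_lit 234) (nat_lit 152) (nat_lit 0) (XT.nd (nat_lit 78) (nat_lit 76) (nat_lit 0) (XT.lf (nat_lit 0) (nat_lit 153334364936) (nat_lit 152) (nat_lit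 297771127717) (nat_lit 0) (nat_lit 98884635910) (nat_lit 14) (nat_lit 5) (nat_lit 16) (nat_lit 4) (nat_lit 14) (nat_lit 4) (nat_lit 486) (nat_lit 423) (nat_lit 291)) (XT.nd (nat_lit 78) (nat_lit 76) (nat_lit 0) (XT.lf (nat_lit 0) (nat_lit 285937107584) (nat_lit 152) (nat_lit 66588235202) (nat_lit 0) (nat_lit 231487222336) (nat_lit 14) (nat_lit 5) (nat_lit 16) (nat_lit 4) (nat_lit 14) (nat_lit 4) (nat_lit 487) (nat_lit 423) (nat_lit 290)) (XT.lf (nat_lit 0) (nat_lit 192728963085) (nat_lit 76) (nat_lit 241053553823) (nat_lit 76) (nat_lit 186603523925) (nat_lit 13) (nat_lit 4) (nat_lit 14) (nat_lit 5) (nat_lit 14) (nat_lit 4) (nat_lit 488) (nat_lit 423) (nat_lit 289)))) (XT.nd (nat_lit 78) (nat_lit 152) (nat_lit 0) (XT.lf (nat_lit 0) (nat_lit 476577095925) (nat_lit 76) (nat_lit 118698432481) (nat_lit 76) (nat_lit 64248268647) (nat_lit 13) (nat_lit 4) (nat_lit 14) (nat_lit 5) (nat_lit 14) (nat_lit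 4) (nat_lit 489) (nat_lit 423) (nat_lit 288)) (XT.nd (nat_lit 78) (nat_lit 0) (nat_lit 0) (XT.lf (nat_lit 0) (nat_lit 66934411834) (nat_lit 152) (nat_lit 618015219767) (nat_lit 0) (nat_lit 16517478641) (nat_lit 11) (nat_lit 5) (nat_lit 13) (nat_lit 4) (nat_lit 11) (nat_lit 4) (nat_lit 490) (nat_lit 423) (nat_lit 287)) (XT.lf (nat_lit 0) (nat_lit 213355082571) (nat_lit 152) (nat_lit 369682103881) (nat_lit 0) (nat_lit 162938043056) (nat_lit 11) (nat_lit 5) (nat_lit 13) (nat_lit 4) (nat_lit 11) (nat_lit 4) (nat_lit 491) (nat_lit 423) (nat_lit 286))))) (XT.nd (nat_lit 234) (nat_lit 152) (nat_lit 0) (XT.nd (nat_lit 78) (nat_lit 76) (nat_lit 0) (XT.lf (nat_lit 0) (nat_lit 371488817693) (nat_lit 152) (nat_lit 101483548036) (nat_lit 0) (nat_lit 321071679732) (nat_lit 11) (nat_lit 5) (nat_lit 13) (nat_lit 4) (nat_lit 11) (nat_lit 4) (nat_lit 492) (nat_lit 423) (nat_lit 285)) (XT.nd (nat_lit 78)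 (nat_lit 0) (nat_lit 0) (XT.lf (nat_lit 0) (nat_lit 198078459299) (nat_lit 76) (nat_lit 348958038413) (nat_lit 76) (nat_lit 298540809297) (nat_lit 10) (nat_lit 4) (nat_lit 11) (nat_lit 5) (nat_lit 11) (nat_lit 4) (nat_lit 493) (nat_lit 423) (nat_lit 284)) (XT.lf (nat_lit 0) (nat_lit 527375795134) (nat_lit 76) (nat_lit 212026405591) (nat_lit 76) (nat_lit 161609092073) (nat_lit 10) (nat_lit 4) (nat_lit 11) (nat_lit 5) (nat_lit 11) (nat_lit 4) (nat_lit 494) (nat_lit 423) (nat_lit 283)))) (XT.nd (nat_lit 156) (nat_lit 0) (nat_lit 0) (XT.nd (nat_lit 78) (nat_lit 152) (nat_lit 0) (XT.lf (nat_lit 0) (nat_lit 883015907293) (nat_lit 76) (nat_lit 64140760597) (nat_lit 76) (nat_lit 13723368930) (nat_lit 10) (nat_lit 4) (nat_lit 11) (nat_lit 5) (nat_lit 11) (nat_lit 4) (nat_lit 495) (nat_lit 423) (nat_lit 282)) (XT.lf (nat_lit 0) (nat_lit 147262652930) (nat_lit 152) (nat_lit 776729111343) (nat_lit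 0) (nat_lit 100579815866) (nat_lit 8) (nat_lit 5) (nat_lit 10) (nat_lit 4) (nat_lit 8) (nat_lit 4) (nat_lit 496) (nat_lit 423) (nat_lit 281))) (XT.nd (nat_lit 78) (nat_lit 0) (nat_lit 0) (XT.lf (nat_lit 0) (nat_lit 324235905547) (nat_lit 152) (nat_lit 491233037452) (nat_lit 0) (nat_lit 277553006446) (nat_lit 8) (nat_lit 5) (nat_lit 10) (nat_lit 4) (nat_lit 8) (nat_lit 4) (nat_lit 497) (nat_lit 423) (nat_lit 280)) (XT.lf (nat_lit 0) (nat_lit 515366586043) (nat_lit 152) (nat_lit 182898167344) (nat_lit 0) (nat_lit 468683629499) (nat_lit 8) (nat_lit 5) (nat_lit 10) (nat_lit 4) (nat_lit 8) (nat_lit 4) (nat_lit 498) (nat_lit 423) (nat_lit 279))))))) (XT.nd (nat_lit 936) (nat_lit 152) (nat_lit 0) (XT.nd (nat_lit 468) (nat_lit 76) (nat_lit 0) (XT.nd (nat_lit 234) (nat_lit 152) (nat_lit 0) (XT.nd (nat_lit 78) (nat_lit 0) (nat_lit 0) (XT.lf (nat_lit 0) (nat_lit 158006809106) (nat_lit 76) (nat_lit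 567580579124) (nat_lit 76) (nat_lit 520897569393) (nat_lit 7) (nat_lit 4) (nat_lit 8) (nat_lit 5) (nat_lit 8) (nat_lit 4) (nat_lit 499) (nat_lit 423) (nat_lit 278)) (XT.nd (nat_lit 78) (nat_lit 0) (nat_lit 0) (XT.lf (nat_lit 0) (nat_lit 536584961576) (nat_lit 76) (nat_lit 421041263071) (nat_lit 76) (nat_lit 374358204091) (nat_lit 7) (nat_lit 4) (nat_lit 8) (nat_lit 5) (nat_lit 8) (nat_lit 4) (nat_lit 500) (nat_lit 423) (nat_lit 277)) (XT.lf (nat_lit 0) (nat_lit 945448622786) (nat_lit 76) (nat_lit 262779184112) (nat_lit 76) (nat_lit 216096079533) (nat_lit 7) (nat_lit 4) (nat_lit 8) (nat_lit 5) (nat_lit 8) (nat_lit 4) (nat_lit 501) (nat_lit 423) (nat_lit 276)))) (XT.nd (nat_lit 78) (nat_lit 152) (nat_lit 0) (XT.lf (nat_lit 0) (nat_lit 1387020688506) (nat_lit 76) (nat_lit 91856492892) (nat_lit 76) (nat_lit 45173346090) (nat_lit 7) (nat_lit 4) (nat_lit 8) (nat_lit 5) (nat_lit 8) (nat_lit 4)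 (nat_lit 502) (nat_lit 423) (nat_lit 275)) (XT.nd (nat_lit 78) (nat_lit 0) (nat_lit 0) (XT.lf (nat_lit 0) (nat_lit 140708962956) (nat_lit 152) (nat_lit 1392633473899) (nat_lit 0) (nat_lit 97483790831) (nat_lit 5) (nat_lit 5) (nat_lit 7) (nat_lit 4) (nat_lit 5) (nat_lit 4) (nat_lit 503) (nat_lit 423) (nat_lit 274)) (XT.lf (nat_lit 0) (nat_lit 345250842255) (nat_lit 152) (nat_lit 1098275276779) (nat_lit 0) (nat_lit 302025636611) (nat_lit 5) (nat_lit 5) (nat_lit 7) (nat_lit 4) (nat_lit 5) (nat_lit 4) (nat_lit 504) (nat_lit 423) (nat_lit 273))))) (XT.nd (nat_lit 234) (nat_lit 76) (nat_lit 0) (XT.nd (nat_lit 78) (nat_lit 0) (nat_lit 0) (XT.lf (nat_lit 0) (nat_lit 566155778093) (nat_lit 152) (nat_lit 780369029838) (nat_lit 0) (nat_lit 522930541415) (nat_lit 5) (nat_lit 5) (nat_lit 7) (nat_lit 4) (nat_lit 5) (nat_lit 4) (nat_lit 505) (nat_lit 423) (nat_lit 272)) (XT.nd (nat_lit 78) (nat_lit 0)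 (nat_lit 0) (XT.lf (nat_lit 0) (nat_lit 804732836758) (nat_lit 152) (nat_lit 437030844206) (nat_lit 0) (nat_lit 761507571344) (nat_lit 5) (nat_lit 5) (nat_lit 7) (nat_lit 4) (nat_lit 5) (nat_lit 4) (nat_lit 506) (nat_lit 423) (nat_lit 271)) (XT.lf (nat_lit 0) (nat_lit 1062395808226) (nat_lit 152) (nat_lit 66226123228) (nat_lit 0) (nat_lit 1019170516206) (nat_lit 5) (nat_lit 5) (nat_lit 7) (nat_lit 4) (nat_lit 5) (nat_lit 4) (nat_lit 507) (nat_lit 423) (nat_lit 270)))) (XT.nd (nat_lit 78) (nat_lit 0) (nat_lit 0) (XT.lf (nat_lit 0) (nat_lit 351843111833) (nat_lit 76) (nat_lit 997290307649) (nat_lit 76) (nat_lit 954064990993) (nat_lit 4) (nat_lit 4) (nat_lit 5) (nat_lit 5) (nat_lit 5) (nat_lit 4) (nat_lit 508) (nat_lit 423) (nat_lit 269)) (XT.nd (nat_lit 78) (nat_lit 0) (nat_lit 0) (XT.lf (nat_lit 0) (nat_lit 807123755165) (nat_lit 76) (nat_lit 853496796816) (nat_lit 76) (nat_lit 810271457348)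 (nat_lit 4) (nat_lit 4) (nat_lit 5) (nat_lit 5) (nat_lit 5) (nat_lit 4) (nat_lit 509) (nat_lit 423) (nat_lit 268)) (XT.lf (nat_lit 0) (nat_lit 1298826415849) (nat_lit 76) (nat_lit 698200028833) (nat_lit 76) (nat_lit 654974668244) (nat_lit 4) (nat_lit 4) (nat_lit 5) (nat_lit 5) (nat_lit 5) (nat_lit 4) (nat_lit 510) (nat_lit 423) (nat_lit 267)))))) (XT.nd (nat_lit 468) (nat_lit 0) (nat_lit 0) (XT.nd (nat_lit 234) (nat_lit 152) (nat_lit 0) (XT.nd (nat_lit 78) (nat_lit 0) (nat_lit 0) (XT.lf (nat_lit 0) (nat_lit 1829864887429) (nat_lit 76) (nat_lit 530479726557) (nat_lit 76) (nat_lit 487254346410) (nat_lit 4) (nat_lit 4) (nat_lit 5) (nat_lit 5) (nat_lit 5) (nat_lit 4) (nat_lit 511) (nat_lit 423) (nat_lit 266)) (XT.nd (nat_lit 78) (nat_lit 0) (nat_lit 0) (XT.lf (nat_lit 0) (nat_lit 2403386064551) (nat_lit 76) (nat_lit 349341991899) (nat_lit 76) (nat_lit 306116593644) (nat_lit 4) (nat_lit 4) (nat_lit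 5) (nat_lit 5) (nat_lit 5) (nat_lit 4) (nat_lit 512) (nat_lit 423) (nat_lit 265)) (XT.lf (nat_lit 0) (nat_lit 3022788591229) (nat_lit 76) (nat_lit 153713416062) (nat_lit 76) (nat_lit 110488001041) (nat_lit 4) (nat_lit 4) (nat_lit 5) (nat_lit 5) (nat_lit 5) (nat_lit 4) (nat_lit 513) (nat_lit 423) (nat_lit 264)))) (XT.nd (nat_lit 78) (nat_lit 0) (nat_lit 0) (XT.lf (nat_lit 0) (nat_lit 101246341419) (nat_lit 152) (nat_lit 3370284142916) (nat_lit 0) (nat_lit 61222794616) (nat_lit 2) (nat_lit 5) (nat_lit 4) (nat_lit 4) (nat_lit 2) (nat_lit 4) (nat_lit 514) (nat_lit 423) (nat_lit 263)) (XT.nd (nat_lit 78) (nat_lit 0) (nat_lit 0) (XT.lf (nat_lit 0) (nat_lit 335353971543) (nat_lit 152) (nat_lit 3166351341817) (nat_lit 0) (nat_lit 295330411431) (nat_lit 2) (nat_lit 5) (nat_lit 4) (nat_lit 4) (nat_lit 2) (nat_lit 4) (nat_lit 515) (nat_lit 423) (nat_lit 262)) (XT.lf (nat_lit 0) (nat_lit 588190065275)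 (nat_lit 152) (nat_lit 2946104219930) (nat_lit 0) (nat_lit 548166492839) (nat_lit 2) (nat_lit 5) (nat_lit 4) (nat_lit 4) (nat_lit 2) (nat_lit 4) (nat_lit 516) (nat_lit 423) (nat_lit 261))))) (XT.nd (nat_lit 234) (nat_lit 0) (nat_lit 0) (XT.nd (nat_lit 78) (nat_lit 0) (nat_lit 0) (XT.lf (nat_lit 0) (nat_lit 861252910578) (nat_lit 152) (nat_lit 2708237609125) (nat_lit 0) (nat_lit 821229326730) (nat_lit 2) (nat_lit 5) (nat_lit 4) (nat_lit 4) (nat_lit 2) (nat_lit 4) (nat_lit 517) (nat_lit 423) (nat_lit 260)) (XT.nd (nat_lit 78) (nat_lit 0) (nat_lit 0) (XT.lf (nat_lit 0) (nat_lit 1156160657644) (nat_lit 152) (nat_lit 2451341929486) (nat_lit 0) (nat_lit 1116137063230) (nat_lit 2) (nat_lit 5) (nat_lit 4) (nat_lit 4) (nat_lit 2) (nat_lit 4) (nat_lit 518) (nat_lit 423) (nat_lit 259)) (XT.lf (nat_lit 0) (nat_lit 1474660907939) (nat_lit 152) (nat_lit 2173894836246) (nat_lit 0) (nat_lit 1434637303742)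 (nat_lit 2) (nat_lit 5) (nat_lit 4) (nat_lit 4) (nat_lit 2) (nat_lit 4) (nat_lit 519) (nat_lit 423) (nat_lit 258)))) (XT.nd (nat_lit 156) (nat_lit 0) (nat_lit 0) (XT.nd (nat_lit 78) (nat_lit 0) (nat_lit 0) (XT.lf (nat_lit 0) (nat_lit 1818641070353) (nat_lit 152) (nat_lit 1874252198480) (nat_lit 0) (nat_lit 1778617457097) (nat_lit 2) (nat_lit 5) (nat_lit 4) (nat_lit 4) (nat_lit 2) (nat_lit 4) (nat_lit 520) (nat_lit 423) (nat_lit 257)) (XT.lf (nat_lit 0) (nat_lit 2190139545849) (nat_lit 152) (nat_lit 1550638356115) (nat_lit 0) (nat_lit 2150115924205) (nat_lit 2) (nat_lit 5) (nat_lit 4) (nat_lit 4) (nat_lit 2) (nat_lit 4) (nat_lit 521) (nat_lit 423) (nat_lit 256))) (XT.nd (nat_lit 78) (nat_lit 0) (nat_lit 0) (XT.lf (nat_lit 0) (nat_lit 2591357806874) (nat_lit 152) (nat_lit 1201135597490) (nat_lit 0) (nat_lit 2551334177464) (nat_lit 2) (nat_lit 5) (nat_lit 4) (nat_lit 4) (nat_lit 2) (nat_lit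 4) (nat_lit 522) (nat_lit 423) (nat_lit 255)) (XT.lf (nat_lit 0) (nat_lit 3024673443122) (nat_lit 152) (nat_lit 823672795147) (nat_lit 0) (nat_lit 2984649806521) (nat_lit 2) (nat_lit 5) (nat_lit 4) (nat_lit 4) (nat_lit 2) (nat_lit 4) (nat_lit 523) (nat_lit 423) (nat_lit 254))))))))
noncomputable def xc151 : XT := (XT.nd (nat_lit 55926) (nat_lit 0) (nat_lit 2356) (XT.nd (nat_lit 54912) (nat_lit 0) (nat_lit 4408) (XT.nd (nat_lit 468) (nat_lit 0) (nat_lit 0) (XT.nd (nat_lit 234) (nat_lit 0) (nat_lit 0) (XT.nd (nat_lit 78) (nat_lit 76) (nat_lit 0) (XT.lf (nat_lit 0) (nat_lit 3492654250958) (nat_lit 152) (nat_lit 416013132481) (nat_lit 0) (nat_lit 3452630607698) (nat_lit 2) (nat_lit 5) (nat_lit 4) (nat_lit 4) (nat_lit 2) (nat_lit 4) (nat_lit 524) (nat_lit 423) (nat_lit 253)) (XT.nd (nat_lit 78) (nat_lit 0) (nat_lit 0) (XT.lf (nat_lit 0) (nat_lit 25536595398) (nat_lit 76) (nat_lit 3973151010317)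 (nat_lit 76) (nat_lit 3933127360893) (nat_lit 1) (nat_lit 4) (nat_lit 2) (nat_lit 5) (nat_lit 2) (nat_lit 4) (nat_lit 525) (nat_lit 423) (nat_lit 252)) (XT.lf (nat_lit 0) (nat_lit 526069189087) (nat_lit 76) (nat_lit 4030508904492) (nat_lit 76) (nat_lit 3990485249359) (nat_lit 1) (nat_lit 4) (nat_lit 2) (nat_lit 5) (nat_lit 2) (nat_lit 4) (nat_lit 526) (nat_lit 423) (nat_lit 251)))) (XT.nd (nat_lit 78) (nat_lit 0) (nat_lit 0) (XT.lf (nat_lit 0) (nat_lit 1066644253342) (nat_lit 76) (nat_lit 4092455500877) (nat_lit 76) (nat_lit 4052431840458) (nat_lit 1) (nat_lit 4) (nat_lit 2) (nat_lit 5) (nat_lit 2) (nat_lit 4) (nat_lit 527) (nat_lit 423) (nat_lit 250)) (XT.nd (nat_lit 78) (nat_lit 0) (nat_lit 0) (XT.lf (nat_lit 0) (nat_lit 1650465195950) (nat_lit 76) (nat_lit 4159357890412) (nat_lit 76) (nat_lit 4119334225099) (nat_lit 1) (nat_lit 4) (nat_lit 2) (nat_lit 5) (nat_lit 2) (nat_lit 4) (nat_lit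 528) (nat_lit 423) (nat_lit 249)) (XT.lf (nat_lit 0) (nat_lit 2280991696572) (nat_lit 76) (nat_lit 4231612531703) (nat_lit 76) (nat_lit 4191588861859) (nat_lit 1) (nat_lit 4) (nat_lit 2) (nat_lit 5) (nat_lit 2) (nat_lit 4) (nat_lit 529) (nat_lit 423) (nat_lit 248))))) (XT.nd (nat_lit 54210) (nat_lit 0) (nat_lit 6080) (XT.nd (nat_lit 78) (nat_lit 0) (nat_lit 0) (XT.lf (nat_lit 0) (nat_lit 2961960208544) (nat_lit 76) (nat_lit 4309647600402) (nat_lit 76) (nat_lit 4269623926361) (nat_lit 1) (nat_lit 4) (nat_lit 2) (nat_lit 5) (nat_lit 2) (nat_lit 4) (nat_lit 530) (nat_lit 423) (nat_lit 247)) (XT.nd (nat_lit 78) (nat_lit 0) (nat_lit 0) (XT.lf (nat_lit 0) (nat_lit 3697406100826) (nat_lit 76) (nat_lit 4393925526545) (nat_lit 76) (nat_lit 4353901848620) (nat_lit 1) (nat_lit 4) (nat_lit 2) (nat_lit 5) (nat_lit 2) (nat_lit 4) (nat_lit 531) (nat_lit 423) (nat_lit 246)) (XT.lf (nat_lit 0) (nat_lit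 4491687571298) (nat_lit 76) (nat_lit 4484945734880) (nat_lit 76) (nat_lit 4444922053358) (nat_lit 1) (nat_lit 4) (nat_lit 2) (nat_lit 5) (nat_lit 2) (nat_lit 4) (nat_lit 532) (nat_lit 423) (nat_lit 245)))) (XT.nd (nat_lit 78) (nat_lit 0) (nat_lit 0) (XT.lf (nat_lit 0) (nat_lit 12072699178) (nat_lit 532) (nat_lit 417818208) (nat_lit 532) (nat_lit 417818208) (nat_lit 81) (nat_lit 3) (nat_lit 88) (nat_lit 3) (nat_lit 88) (nat_lit 5) (nat_lit 424) (nat_lit 424) (nat_lit 352)) (XT.nd (nat_lit 78) (nat_lit 0) (nat_lit 76) (XT.lf (nat_lit 76) (nat_lit 12599974585) (nat_lit 0) (nat_lit 12907311555) (nat_lit 532) (nat_lit 1310341273) (nat_lit 82) (nat_lit 5) (nat_lit 81) (nat_lit 3) (nat_lit 88) (nat_lit 5) (nat_lit 425) (nat_lit 424) (nat_lit 351)) (XT.lf (nat_lit 0) (nat_lit 26995411888) (nat_lit 456) (nat_lit 748799669) (nat_lit 532) (nat_lit 153068109) (nat_lit 82) (nat_lit 5) (nat_lit 88) (nat_lit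 5) (nat_lit 89) (nat_lit 5) (nat_lit 426) (nat_lit 424) (nat_lit 350)))))) (XT.nd (nat_lit 468) (nat_lit 912) (nat_lit 0) (XT.nd (nat_lit 234) (nat_lit 304) (nat_lit 0) (XT.nd (nat_lit 78) (nat_lit 0) (nat_lit 0) (XT.lf (nat_lit 0) (nat_lit 246944184) (nat_lit 532) (nat_lit 14850961355) (nat_lit 608) (nat_lit 13911518019) (nat_lit 75) (nat_lit 5) (nat_lit 82) (nat_lit 5) (nat_lit 83) (nat_lit 5) (nat_lit 427) (nat_lit 424) (nat_lit 349)) (XT.nd (nat_lit 78) (nat_lit 0) (nat_lit 76) (XT.lf (nat_lit 76) (nat_lit 65307093) (nat_lit 0) (nat_lit 1387854371) (nat_lit 608) (nat_lit 28754367490) (nat_lit 76) (nat_lit 5) (nat_lit 75) (nat_lit 5) (nat_lit 83) (nat_lit 5) (nat_lit 428) (nat_lit 424) (nat_lit 348)) (XT.lf (nat_lit 0) (nat_lit 3487377592) (nat_lit 532) (nat_lit 14789329040) (nat_lit 608) (nat_lit 13166257862) (nat_lit 76) (nat_lit 5) (nat_lit 83) (nat_lit 5) (nat_lit 84) (nat_lit 5)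 (nat_lit 429) (nat_lit 424) (nat_lit 347)))) (XT.nd (nat_lit 78) (nat_lit 380) (nat_lit 0) (XT.lf (nat_lit 76) (nat_lit 1841846002) (nat_lit 0) (nat_lit 3915584959) (nat_lit 608) (nat_lit 27013957614) (nat_lit 77) (nat_lit 5) (nat_lit 76) (nat_lit 5) (nat_lit 84) (nat_lit 5) (nat_lit 430) (nat_lit 424) (nat_lit 346)) (XT.nd (nat_lit 78) (nat_lit 456) (nat_lit 0) (XT.lf (nat_lit 0) (nat_lit 8895977986) (nat_lit 532) (nat_lit 13824946749) (nat_lit 76) (nat_lit 11430212266) (nat_lit 77) (nat_lit 5) (nat_lit 84) (nat_lit 5) (nat_lit 78) (nat_lit 5) (nat_lit 431) (nat_lit 424) (nat_lit 345)) (XT.lf (nat_lit 0) (nat_lit 4779419997) (nat_lit 456) (nat_lit 7716516761) (nat_lit 532) (nat_lit 23128503756) (nat_lit 71) (nat_lit 5) (nat_lit 77) (nat_lit 5) (nat_lit 78) (nat_lit 5) (nat_lit 432) (nat_lit 424) (nat_lit 344))))) (XT.nd (nat_lit 234) (nat_lit 684) (nat_lit 0) (XT.nd (nat_lit 78) (nat_lit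 228) (nat_lit 0) (XT.lf (nat_lit 0) (nat_lit 16969862710) (nat_lit 532) (nat_lit 11747268514) (nat_lit 76) (nat_lit 8451600791) (nat_lit 71) (nat_lit 5) (nat_lit 78) (nat_lit 5) (nat_lit 72) (nat_lit 5) (nat_lit 433) (nat_lit 424) (nat_lit 343)) (XT.nd (nat_lit 78) (nat_lit 0) (nat_lit 0) (XT.lf (nat_lit 0) (nat_lit 9128683421) (nat_lit 228) (nat_lit 13087448302) (nat_lit 304) (nat_lit 16587282039) (nat_lit 68) (nat_lit 5) (nat_lit 71) (nat_lit 5) (nat_lit 72) (nat_lit 5) (nat_lit 434) (nat_lit 424) (nat_lit 342)) (XT.lf (nat_lit 0) (nat_lit 28297566792) (nat_lit 304) (nat_lit 8306050235) (nat_lit 76) (nat_lit 3932017011) (nat_lit 68) (nat_lit 5) (nat_lit 72) (nat_lit 5) (nat_lit 69) (nat_lit 5) (nat_lit 435) (nat_lit 424) (nat_lit 341)))) (XT.nd (nat_lit 156) (nat_lit 456) (nat_lit 0) (XT.nd (nat_lit 78) (nat_lit 0) (nat_lit 0) (XT.lf (nat_lit 0) (nat_lit 15186209220) (nat_lit 228) (nat_lit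 20379579515) (nat_lit 304) (nat_lit 6784622504) (nat_lit 65) (nat_lit 5) (nat_lit 68) (nat_lit 5) (nat_lit 69) (nat_lit 5) (nat_lit 436) (nat_lit 424) (nat_lit 340)) (XT.lf (nat_lit 0) (nat_lit 41024708060) (nat_lit 228) (nat_lit 2613201799) (nat_lit 304) (nat_lit 654666431) (nat_lit 65) (nat_lit 5) (nat_lit 68) (nat_lit 5) (nat_lit 69) (nat_lit 5) (nat_lit 437) (nat_lit 424) (nat_lit 339))) (XT.nd (nat_lit 78) (nat_lit 228) (nat_lit 0) (XT.lf (nat_lit 0) (nat_lit 6646745129) (nat_lit 228) (nat_lit 23180240311) (nat_lit 76) (nat_lit 16473293018) (nat_lit 62) (nat_lit 5) (nat_lit 65) (nat_lit 5) (nat_lit 63) (nat_lit 5) (nat_lit 438) (nat_lit 424) (nat_lit 338)) (XT.lf (nat_lit 0) (nat_lit 3421828469) (nat_lit 228) (nat_lit 11312663555) (nat_lit 304) (nat_lit 33713737904) (nat_lit 59) (nat_lit 5) (nat_lit 62) (nat_lit 5) (nat_lit 63) (nat_lit 5) (nat_lit 439) (nat_lit 424) (nat_lit 337)))))))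 (XT.nd (nat_lit 1014) (nat_lit 912) (nat_lit 0) (XT.nd (nat_lit 468) (nat_lit 608) (nat_lit 0) (XT.nd (nat_lit 234) (nat_lit 380) (nat_lit 0) (XT.nd (nat_lit 78) (nat_lit 152) (nat_lit 0) (XT.lf (nat_lit 0) (nat_lit 24324235829) (nat_lit 304) (nat_lit 17477928518) (nat_lit 76) (nat_lit 8897455720) (nat_lit 59) (nat_lit 5) (nat_lit 63) (nat_lit 5) (nat_lit 60) (nat_lit 5) (nat_lit 440) (nat_lit 424) (nat_lit 336)) (XT.nd (nat_lit 78) (nat_lit 0) (nat_lit 0) (XT.lf (nat_lit 0) (nat_lit 12605932980) (nat_lit 152) (nat_lit 22668442543) (nat_lit 228) (nat_lit 17809289258) (nat_lit 57) (nat_lit 5) (nat_lit 59) (nat_lit 5) (nat_lit 60) (nat_lit 5) (nat_lit 441) (nat_lit 424) (nat_lit 335)) (XT.lf (nat_lit 0) (nat_lit 46085368005) (nat_lit 152) (nat_lit 1489401641) (nat_lit 228) (nat_lit 8045724587) (nat_lit 57) (nat_lit 5) (nat_lit 59) (nat_lit 5) (nat_lit 60) (nat_lit 5) (nat_lit 442) (nat_lit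 424) (nat_lit 334)))) (XT.nd (nat_lit 78) (nat_lit 152) (nat_lit 0) (XT.lf (nat_lit 0) (nat_lit 3504922164) (nat_lit 228) (nat_lit 33766901153) (nat_lit 76) (nat_lit 20993159061) (nat_lit 54) (nat_lit 5) (nat_lit 57) (nat_lit 5) (nat_lit 55) (nat_lit 5) (nat_lit 443) (nat_lit 424) (nat_lit 333)) (XT.nd (nat_lit 78) (nat_lit 0) (nat_lit 0) (XT.lf (nat_lit 0) (nat_lit 459566672) (nat_lit 152) (nat_lit 15399244670) (nat_lit 228) (nat_lit 45220390834) (nat_lit 52) (nat_lit 5) (nat_lit 54) (nat_lit 5) (nat_lit 55) (nat_lit 5) (nat_lit 444) (nat_lit 424) (nat_lit 332)) (XT.lf (nat_lit 0) (nat_lit 30342746982) (nat_lit 228) (nat_lit 24927060418) (nat_lit 76) (nat_lit 8757413789) (nat_lit 52) (nat_lit 5) (nat_lit 55) (nat_lit 5) (nat_lit 53) (nat_lit 5) (nat_lit 445) (nat_lit 424) (nat_lit 331))))) (XT.nd (nat_lit 234) (nat_lit 304) (nat_lit 0) (XT.nd (nat_lit 78) (nat_lit 152) (nat_lit 0) (XT.lf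 (nat_lit 0) (nat_lit 13912142209) (nat_lit 152) (nat_lit 32804805638) (nat_lit 228) (nat_lit 20435610271) (nat_lit 50) (nat_lit 5) (nat_lit 52) (nat_lit 5) (nat_lit 53) (nat_lit 5) (nat_lit 446) (nat_lit 424) (nat_lit 330)) (XT.nd (nat_lit 78) (nat_lit 152) (nat_lit 0) (XT.lf (nat_lit 0) (nat_lit 57271485273) (nat_lit 152) (nat_lit 7808244554) (nat_lit 228) (nat_lit 5393900963) (nat_lit 50) (nat_lit 5) (nat_lit 52) (nat_lit 5) (nat_lit 53) (nat_lit 5) (nat_lit 447) (nat_lit 424) (nat_lit 329)) (XT.lf (nat_lit 0) (nat_lit 11547123455) (nat_lit 152) (nat_lit 43125592976) (nat_lit 76) (nat_lit 19267691830) (nat_lit 48) (nat_lit 5) (nat_lit 50) (nat_lit 5) (nat_lit 49) (nat_lit 5) (nat_lit 448) (nat_lit 424) (nat_lit 328)))) (XT.nd (nat_lit 156) (nat_lit 152) (nat_lit 0) (XT.nd (nat_lit 78) (nat_lit 0) (nat_lit 0) (XT.lf (nat_lit 0) (nat_lit 1149004911) (nat_lit 152) (nat_lit 29001106242) (nat_lit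 228) (nat_lit 47475361615) (nat_lit 46) (nat_lit 5) (nat_lit 48) (nat_lit 5) (nat_lit 49) (nat_lit 5) (nat_lit 449) (nat_lit 424) (nat_lit 327)) (XT.lf (nat_lit 0) (nat_lit 51413790259) (nat_lit 152) (nat_lit 4073584) (nat_lit 228) (nat_lit 30093356804) (nat_lit 46) (nat_lit 5) (nat_lit 48) (nat_lit 5) (nat_lit 49) (nat_lit 5) (nat_lit 450) (nat_lit 424) (nat_lit 326))) (XT.nd (nat_lit 78) (nat_lit 76) (nat_lit 0) (XT.lf (nat_lit 0) (nat_lit 20247520236) (nat_lit 76) (nat_lit 55377090963) (nat_lit 152) (nat_lit 9984211468) (nat_lit 45) (nat_lit 5) (nat_lit 46) (nat_lit 5) (nat_lit 47) (nat_lit 4) (nat_lit 451) (nat_lit 424) (nat_lit 325)) (XT.lf (nat_lit 0) (nat_lit 11988668094) (nat_lit 152) (nat_lit 13944563142) (nat_lit 76) (nat_lit 64011068801) (nat_lit 44) (nat_lit 5) (nat_lit 46) (nat_lit 5) (nat_lit 45) (nat_lit 5) (nat_lit 452) (nat_lit 424) (nat_lit 324)))))) (XT.nd (nat_lit 468)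 (nat_lit 456) (nat_lit 0) (XT.nd (nat_lit 234) (nat_lit 228) (nat_lit 0) (XT.nd (nat_lit 78) (nat_lit 76) (nat_lit 0) (XT.lf (nat_lit 0) (nat_lit 36398804426) (nat_lit 228) (nat_lit 51199074799) (nat_lit 76) (nat_lit 6910483518) (nat_lit 42) (nat_lit 5) (nat_lit 45) (nat_lit 5) (nat_lit 43) (nat_lit 4) (nat_lit 453) (nat_lit 424) (nat_lit 323)) (XT.nd (nat_lit 78) (nat_lit 0) (nat_lit 0) (XT.lf (nat_lit 0) (nat_lit 6149627732) (nat_lit 76) (nat_lit 57822571465) (nat_lit 152) (nat_lit 35368515663) (nat_lit 41) (nat_lit 5) (nat_lit 42) (nat_lit 5) (nat_lit 43) (nat_lit 4) (nat_lit 454) (nat_lit 424) (nat_lit 322)) (XT.lf (nat_lit 0) (nat_lit 70994117234) (nat_lit 76) (nat_lit 24155079494) (nat_lit 152) (nat_lit 9298640105) (nat_lit 41) (nat_lit 5) (nat_lit 42) (nat_lit 5) (nat_lit 43) (nat_lit 4) (nat_lit 455) (nat_lit 424) (nat_lit 321)))) (XT.nd (nat_lit 78) (nat_lit 76) (nat_lit 0) (XT.lf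 (nat_lit 0) (nat_lit 19011732716) (nat_lit 152) (nat_lit 77973749485) (nat_lit 76) (nat_lit 12853909791) (nat_lit 39) (nat_lit 5) (nat_lit 41) (nat_lit 5) (nat_lit 40) (nat_lit 4) (nat_lit 456) (nat_lit 424) (nat_lit 320)) (XT.nd (nat_lit 78) (nat_lit 76) (nat_lit 0) (XT.lf (nat_lit 0) (nat_lit 50648404851) (nat_lit 152) (nat_lit 12172381127) (nat_lit 76) (nat_lit 52697056874) (nat_lit 39) (nat_lit 5) (nat_lit 41) (nat_lit 5) (nat_lit 40) (nat_lit 4) (nat_lit 457) (nat_lit 424) (nat_lit 319)) (XT.lf (nat_lit 0) (nat_lit 61990701608) (nat_lit 76) (nat_lit 24314326746) (nat_lit 152) (nat_lit 35226420152) (nat_lit 38) (nat_lit 5) (nat_lit 39) (nat_lit 5) (nat_lit 40) (nat_lit 4) (nat_lit 458) (nat_lit 424) (nat_lit 318))))) (XT.nd (nat_lit 234) (nat_lit 228) (nat_lit 0) (XT.nd (nat_lit 78) (nat_lit 152) (nat_lit 0) (XT.lf (nat_lit 0) (nat_lit 15107828263) (nat_lit 76) (nat_lit 110824724237)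 (nat_lit 76) (nat_lit 2004120576) (nat_lit 37) (nat_lit 4) (nat_lit 38) (nat_lit 5) (nat_lit 38) (nat_lit 4) (nat_lit 459) (nat_lit 424) (nat_lit 317)) (XT.nd (nat_lit 78) (nat_lit 76) (nat_lit 0) (XT.lf (nat_lit 0) (nat_lit 34481294623) (nat_lit 152) (nat_lit 37101649550) (nat_lit 76) (nat_lit 63022198565) (nat_lit 36) (nat_lit 5) (nat_lit 38) (nat_lit 5) (nat_lit 37) (nat_lit 4) (nat_lit 460) (nat_lit 424) (nat_lit 316)) (XT.lf (nat_lit 0) (nat_lit 46978526788) (nat_lit 76) (nat_lit 27926881594) (nat_lit 152) (nat_lit 66807266088) (nat_lit 35) (nat_lit 5) (nat_lit 36) (nat_lit 5) (nat_lit 37) (nat_lit 4) (nat_lit 461) (nat_lit 424) (nat_lit 315)))) (XT.nd (nat_lit 156) (nat_lit 76) (nat_lit 0) (XT.nd (nat_lit 78) (nat_lit 152) (nat_lit 0) (XT.lf (nat_lit 0) (nat_lit 120064826793) (nat_lit 152) (nat_lit 9904375056) (nat_lit 0) (nat_lit 19299496939) (nat_lit 35) (nat_lit 5) (nat_lit 37)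 (nat_lit 4) (nat_lit 35) (nat_lit 4) (nat_lit 462) (nat_lit 424) (nat_lit 314)) (XT.lf (nat_lit 0) (nat_lit 13683214198) (nat_lit 152) (nat_lit 72305816331) (nat_lit 76) (nat_lit 71190539215) (nat_lit 33) (nat_lit 5) (nat_lit 35) (nat_lit 5) (nat_lit 34) (nat_lit 4) (nat_lit 463) (nat_lit 424) (nat_lit 313))) (XT.nd (nat_lit 78) (nat_lit 0) (nat_lit 0) (XT.lf (nat_lit 0) (nat_lit 22450253754) (nat_lit 76) (nat_lit 36789463161) (nat_lit 152) (nat_lit 106357612784) (nat_lit 32) (nat_lit 5) (nat_lit 33) (nat_lit 5) (nat_lit 34) (nat_lit 4) (nat_lit 464) (nat_lit 424) (nat_lit 312)) (XT.lf (nat_lit 0) (nat_lit 110860644539) (nat_lit 152) (nat_lit 46078911636) (nat_lit 0) (nat_lit 17555361967) (nat_lit 32) (nat_lit 5) (nat_lit 34) (nat_lit 4) (nat_lit 32) (nat_lit 4) (nat_lit 465) (nat_lit 424) (nat_lit 311))))))))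
noncomputable def xc152 : XT := (XT.nd (nat_lit 1950) (nat_lit 836) (nat_lit 0) (XT.nd (nat_lit 936) (nat_lit 684) (nat_lit 0) (XT.nd (nat_lit 468) (nat_lit 304) (nat_lit 0) (XT.nd (nat_lit 234) (nat_lit 228) (nat_lit 0) (XT.nd (nat_lit 78) (nat_lit 152) (nat_lit 0) (XT.lf (nat_lit 0) (nat_lit 60839820308) (nat_lit 76) (nat_lit 108188771897) (nat_lit 76) (nat_lit 14882333849) (nat_lit 31) (nat_lit 4) (nat_lit 32) (nat_lit 5) (nat_lit 32) (nat_lit 4) (nat_lit 466) (nat_lit 424) (nat_lit 310)) (XT.nd (nat_lit 78) (nat_lit 76) (nat_lit 0) (XT.lf (nat_lit 0) (nat_lit 37171548690) (nat_lit 152) (nat_lit 15990686656) (nat_lit 76) (nat_lit 140742015492) (nat_lit 30) (nat_lit 5) (nat_lit 32) (nat_lit 5) (nat_lit 31) (nat_lit 4) (nat_lit 467) (nat_lit 424) (nat_lit 309)) (XT.lf (nat_lit 0) (nat_lit 95323477779) (nat_lit 152) (nat_lit 100196898214) (nat_lit 0) (nat_lit 8926719848) (nat_lit 29) (nat_lit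 5) (nat_lit 31) (nat_lit 4) (nat_lit 29) (nat_lit 4) (nat_lit 468) (nat_lit 424) (nat_lit 308)))) (XT.nd (nat_lit 78) (nat_lit 152) (nat_lit 0) (XT.lf (nat_lit 0) (nat_lit 18765313171) (nat_lit 76) (nat_lit 141641655001) (nat_lit 76) (nat_lit 55244047760) (nat_lit 28) (nat_lit 4) (nat_lit 29) (nat_lit 5) (nat_lit 29) (nat_lit 4) (nat_lit 469) (nat_lit 424) (nat_lit 307)) (XT.nd (nat_lit 78) (nat_lit 76) (nat_lit 0) (XT.lf (nat_lit 0) (nat_lit 5607938000) (nat_lit 152) (nat_lit 74733882596) (nat_lit 76) (nat_lit 147179007972) (nat_lit 27) (nat_lit 5) (nat_lit 29) (nat_lit 5) (nat_lit 28) (nat_lit 4) (nat_lit 470) (nat_lit 424) (nat_lit 306)) (XT.lf (nat_lit 0) (nat_lit 58688627177) (nat_lit 76) (nat_lit 11065098284) (nat_lit 152) (nat_lit 170358887457) (nat_lit 26) (nat_lit 5) (nat_lit 27) (nat_lit 5) (nat_lit 28) (nat_lit 4) (nat_lit 471) (nat_lit 424) (nat_lit 305))))) (XT.nd (nat_lit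 234) (nat_lit 152) (nat_lit 0) (XT.nd (nat_lit 78) (nat_lit 152) (nat_lit 0) (XT.lf (nat_lit 0) (nat_lit 142659685462) (nat_lit 152) (nat_lit 48101899464) (nat_lit 0) (nat_lit 62659874359) (nat_lit 26) (nat_lit 5) (nat_lit 28) (nat_lit 4) (nat_lit 26) (nat_lit 4) (nat_lit 472) (nat_lit 424) (nat_lit 304)) (XT.nd (nat_lit 78) (nat_lit 76) (nat_lit 0) (XT.lf (nat_lit 0) (nat_lit 100630265186) (nat_lit 76) (nat_lit 123474310530) (nat_lit 76) (nat_lit 43473921401) (nat_lit 25) (nat_lit 4) (nat_lit 26) (nat_lit 5) (nat_lit 26) (nat_lit 4) (nat_lit 473) (nat_lit 424) (nat_lit 303)) (XT.lf (nat_lit 0) (nat_lit 29084651341) (nat_lit 152) (nat_lit 19504849546) (nat_lit 76) (nat_lit 234114562727) (nat_lit 24) (nat_lit 5) (nat_lit 26) (nat_lit 5) (nat_lit 25) (nat_lit 4) (nat_lit 474) (nat_lit 424) (nat_lit 302)))) (XT.nd (nat_lit 78) (nat_lit 76) (nat_lit 0) (XT.lf (nat_lit 0) (nat_lit 109504019331)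 (nat_lit 152) (nat_lit 153664303739) (nat_lit 0) (nat_lit 35428630534) (nat_lit 23) (nat_lit 5) (nat_lit 25) (nat_lit 4) (nat_lit 23) (nat_lit 4) (nat_lit 475) (nat_lit 424) (nat_lit 301)) (XT.nd (nat_lit 78) (nat_lit 0) (nat_lit 0) (XT.lf (nat_lit 0) (nat_lit 6987356737) (nat_lit 76) (nat_lit 191345816416) (nat_lit 76) (nat_lit 117270002753) (nat_lit 22) (nat_lit 4) (nat_lit 23) (nat_lit 5) (nat_lit 23) (nat_lit 4) (nat_lit 476) (nat_lit 424) (nat_lit 300)) (XT.lf (nat_lit 0) (nat_lit 189228168681) (nat_lit 76) (nat_lit 109240948863) (nat_lit 76) (nat_lit 35164741806) (nat_lit 22) (nat_lit 4) (nat_lit 23) (nat_lit 5) (nat_lit 23) (nat_lit 4) (nat_lit 477) (nat_lit 424) (nat_lit 299)))))) (XT.nd (nat_lit 468) (nat_lit 304) (nat_lit 0) (XT.nd (nat_lit 234) (nat_lit 152) (nat_lit 0) (XT.nd (nat_lit 78) (nat_lit 76) (nat_lit 0) (XT.lf (nat_lit 0) (nat_lit 33319210988) (nat_lit 76) (nat_lit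 18313376655) (nat_lit 152) (nat_lit 301307428020) (nat_lit 20) (nat_lit 5) (nat_lit 21) (nat_lit 5) (nat_lit 22) (nat_lit 4) (nat_lit 478) (nat_lit 424) (nat_lit 298)) (XT.nd (nat_lit 78) (nat_lit 76) (nat_lit 0) (XT.lf (nat_lit 0) (nat_lit 149445129432) (nat_lit 152) (nat_lit 142939367380) (nat_lit 0) (nat_lit 80855399261) (nat_lit 20) (nat_lit 5) (nat_lit 22) (nat_lit 4) (nat_lit 20) (nat_lit 4) (nat_lit 479) (nat_lit 424) (nat_lit 297)) (XT.lf (nat_lit 0) (nat_lit 49895098684) (nat_lit 76) (nat_lit 206862352713) (nat_lit 76) (nat_lit 138272333386) (nat_lit 19) (nat_lit 4) (nat_lit 20) (nat_lit 5) (nat_lit 20) (nat_lit 4) (nat_lit 480) (nat_lit 424) (nat_lit 296)))) (XT.nd (nat_lit 78) (nat_lit 152) (nat_lit 0) (XT.lf (nat_lit 0) (nat_lit 266283686291) (nat_lit 76) (nat_lit 110278438079) (nat_lit 76) (nat_lit 41688151015) (nat_lit 19) (nat_lit 4) (nat_lit 20) (nat_lit 5) (nat_lit 20)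 (nat_lit 4) (nat_lit 481) (nat_lit 424) (nat_lit 295)) (XT.nd (nat_lit 78) (nat_lit 0) (nat_lit 0) (XT.lf (nat_lit 0) (nat_lit 58051193391) (nat_lit 76) (nat_lit 2834252936) (nat_lit 152) (nat_lit 382210846618) (nat_lit 17) (nat_lit 5) (nat_lit 18) (nat_lit 5) (nat_lit 19) (nat_lit 4) (nat_lit 482) (nat_lit 424) (nat_lit 294)) (XT.lf (nat_lit 0) (nat_lit 176397435632) (nat_lit 152) (nat_lit 179999683295) (nat_lit 0) (nat_lit 112887468492) (nat_lit 17) (nat_lit 5) (nat_lit 19) (nat_lit 4) (nat_lit 17) (nat_lit 4) (nat_lit 483) (nat_lit 424) (nat_lit 293))))) (XT.nd (nat_lit 234) (nat_lit 76) (nat_lit 0) (XT.nd (nat_lit 78) (nat_lit 152) (nat_lit 0) (XT.lf (nat_lit 0) (nat_lit 43552923507) (nat_lit 76) (nat_lit 258717780162) (nat_lit 76) (nat_lit 195207616227) (nat_lit 16) (nat_lit 4) (nat_lit 17) (nat_lit 5) (nat_lit 17) (nat_lit 4) (nat_lit 484) (nat_lit 424) (nat_lit 292)) (XT.nd (nat_lit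 78) (nat_lit 152) (nat_lit 0) (XT.lf (nat_lit 0) (nat_lit 295224999382) (nat_lit 76) (nat_lit 147909617525) (nat_lit 76) (nat_lit 84399271372) (nat_lit 16) (nat_lit 4) (nat_lit 17) (nat_lit 5) (nat_lit 17) (nat_lit 4) (nat_lit 485) (nat_lit 424) (nat_lit 291)) (XT.lf (nat_lit 0) (nat_lit 6513004103) (nat_lit 76) (nat_lit 27152149250) (nat_lit 152) (nat_lit 526248406230) (nat_lit 14) (nat_lit 5) (nat_lit 15) (nat_lit 5) (nat_lit 16) (nat_lit 4) (nat_lit 486) (nat_lit 424) (nat_lit 290)))) (XT.nd (nat_lit 156) (nat_lit 76) (nat_lit 0) (XT.nd (nat_lit 78) (nat_lit 0) (nat_lit 0) (XT.lf (nat_lit 0) (nat_lit 165614554942) (nat_lit 152) (nat_lit 321565330488) (nat_lit 0) (nat_lit 106808378001) (nat_lit 14) (nat_lit 5) (nat_lit 16) (nat_lit 4) (nat_lit 14) (nat_lit 4) (nat_lit 487) (nat_lit 424) (nat_lit 289)) (XT.lf (nat_lit 0) (nat_lit 308824521386) (nat_lit 152) (nat_lit 71889842680) (nat_lit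 0) (nat_lit 250018210510) (nat_lit 14) (nat_lit 5) (nat_lit 16) (nat_lit 4) (nat_lit 14) (nat_lit 4) (nat_lit 488) (nat_lit 424) (nat_lit 288))) (XT.nd (nat_lit 78) (nat_lit 0) (nat_lit 0) (XT.lf (nat_lit 0) (nat_lit 208172087133) (nat_lit 76) (nat_lit 260325151066) (nat_lit 76) (nat_lit 201518716176) (nat_lit 13) (nat_lit 4) (nat_lit 14) (nat_lit 5) (nat_lit 14) (nat_lit 4) (nat_lit 489) (nat_lit 424) (nat_lit 287)) (XT.lf (nat_lit 0) (nat_lit 514726233045) (nat_lit 76) (nat_lit 128182559799) (nat_lit 76) (nat_lit 69376010081) (nat_lit 13) (nat_lit 4) (nat_lit 14) (nat_lit 5) (nat_lit 14) (nat_lit 4) (nat_lit 490) (nat_lit 424) (nat_lit 286))))))) (XT.nd (nat_lit 936) (nat_lit 380) (nat_lit 0) (XT.nd (nat_lit 468) (nat_lit 228) (nat_lit 0) (XT.nd (nat_lit 234) (nat_lit 76) (nat_lit 0) (XT.nd (nat_lit 78) (nat_lit 0) (nat_lit 0) (XT.lf (nat_lit 0) (nat_lit 72300661278) (nat_lit 152) (nat_lit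 667432844128) (nat_lit 0) (nat_lit 17850053833) (nat_lit 11) (nat_lit 5) (nat_lit 13) (nat_lit 4) (nat_lit 11) (nat_lit 4) (nat_lit 491) (nat_lit 424) (nat_lit 285)) (XT.nd (nat_lit 78) (nat_lit 0) (nat_lit 0) (XT.lf (nat_lit 0) (nat_lit 230434134081) (nat_lit 152) (nat_lit 399234826617) (nat_lit 0) (nat_lit 175983435482) (nat_lit 11) (nat_lit 5) (nat_lit 13) (nat_lit 4) (nat_lit 11) (nat_lit 4) (nat_lit 492) (nat_lit 424) (nat_lit 284)) (XT.lf (nat_lit 0) (nat_lit 401217779502) (nat_lit 152) (nat_lit 109582004495) (nat_lit 0) (nat_lit 346766996501) (nat_lit 11) (nat_lit 5) (nat_lit 13) (nat_lit 4) (nat_lit 11) (nat_lit 4) (nat_lit 493) (nat_lit 424) (nat_lit 283)))) (XT.nd (nat_lit 78) (nat_lit 0) (nat_lit 0) (XT.lf (nat_lit 0) (nat_lit 213944451340) (nat_lit 76) (nat_lit 376864566632) (nat_lit 76) (nat_lit 322413705480) (nat_lit 10) (nat_lit 4) (nat_lit 11) (nat_lit 5) (nat_lit 11) (nat_lit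 4) (nat_lit 494) (nat_lit 424) (nat_lit 282)) (XT.nd (nat_lit 78) (nat_lit 0) (nat_lit 0) (XT.lf (nat_lit 0) (nat_lit 569584113650) (nat_lit 76) (nat_lit 228979152432) (nat_lit 76) (nat_lit 174528218920) (nat_lit 10) (nat_lit 4) (nat_lit 11) (nat_lit 5) (nat_lit 11) (nat_lit 4) (nat_lit 495) (nat_lit 424) (nat_lit 281)) (XT.lf (nat_lit 0) (nat_lit 953674082567) (nat_lit 76) (nat_lit 69263349588) (nat_lit 76) (nat_lit 14812349075) (nat_lit 10) (nat_lit 4) (nat_lit 11) (nat_lit 5) (nat_lit 11) (nat_lit 4) (nat_lit 496) (nat_lit 424) (nat_lit 280))))) (XT.nd (nat_lit 234) (nat_lit 76) (nat_lit 0) (XT.nd (nat_lit 78) (nat_lit 0) (nat_lit 0) (XT.lf (nat_lit 0) (nat_lit 159052099777) (nat_lit 152) (nat_lit 838850082678) (nat_lit 0) (nat_lit 108634449266) (nat_lit 8) (nat_lit 5) (nat_lit 10) (nat_lit 4) (nat_lit 8) (nat_lit 4) (nat_lit 497) (nat_lit 424) (nat_lit 279)) (XT.nd (nat_lit 78) (nat_lit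 0) (nat_lit 0) (XT.lf (nat_lit 0) (nat_lit 350182587817) (nat_lit 152) (nat_lit 530515608622) (nat_lit 0) (nat_lit 299764884119) (nat_lit 8) (nat_lit 5) (nat_lit 10) (nat_lit 4) (nat_lit 8) (nat_lit 4) (nat_lit 498) (nat_lit 424) (nat_lit 278)) (XT.lf (nat_lit 0) (nat_lit 556603144247) (nat_lit 152) (nat_lit 197515139411) (nat_lit 0) (nat_lit 506185391301) (nat_lit 8) (nat_lit 5) (nat_lit 10) (nat_lit 4) (nat_lit 8) (nat_lit 4) (nat_lit 499) (nat_lit 424) (nat_lit 277)))) (XT.nd (nat_lit 78) (nat_lit 0) (nat_lit 0) (XT.lf (nat_lit 0) (nat_lit 170661858412) (nat_lit 76) (nat_lit 612979565379) (nat_lit 76) (nat_lit 562561766833) (nat_lit 7) (nat_lit 4) (nat_lit 8) (nat_lit 5) (nat_lit 8) (nat_lit 4) (nat_lit 500) (nat_lit 424) (nat_lit 276)) (XT.nd (nat_lit 78) (nat_lit 0) (nat_lit 0) (XT.lf (nat_lit 0) (nat_lit 579525188667) (nat_lit 76) (nat_lit 454717656639) (nat_lit 76) (nat_lit 404299815871)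 (nat_lit 7) (nat_lit 4) (nat_lit 8) (nat_lit 5) (nat_lit 8) (nat_lit 4) (nat_lit 501) (nat_lit 424) (nat_lit 275)) (XT.lf (nat_lit 0) (nat_lit 1021096947947) (nat_lit 76) (nat_lit 283795123029) (nat_lit 76) (nat_lit 233377243167) (nat_lit 7) (nat_lit 4) (nat_lit 8) (nat_lit 5) (nat_lit 8) (nat_lit 4) (nat_lit 502) (nat_lit 424) (nat_lit 274)))))) (XT.nd (nat_lit 468) (nat_lit 228) (nat_lit 0) (XT.nd (nat_lit 234) (nat_lit 0) (nat_lit 0) (XT.nd (nat_lit 78) (nat_lit 152) (nat_lit 0) (XT.lf (nat_lit 0) (nat_lit 1497993857788) (nat_lit 76) (nat_lit 99199090275) (nat_lit 76) (nat_lit 48781174214) (nat_lit 7) (nat_lit 4) (nat_lit 8) (nat_lit 5) (nat_lit 8) (nat_lit 4) (nat_lit 503) (nat_lit 424) (nat_lit 273)) (XT.nd (nat_lit 78) (nat_lit 0) (nat_lit 0) (XT.lf (nat_lit 0) (nat_lit 151971411990) (nat_lit 152) (nat_lit 1504032329975) (nat_lit 0) (nat_lit 105288125344) (nat_lit 5) (nat_lit 5) (nat_lit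 7) (nat_lit 4) (nat_lit 5) (nat_lit 4) (nat_lit 504) (nat_lit 424) (nat_lit 272)) (XT.lf (nat_lit 0) (nat_lit 372876217040) (nat_lit 152) (nat_lit 1186126352777) (nat_lit 0) (nat_lit 326192901658) (nat_lit 5) (nat_lit 5) (nat_lit 7) (nat_lit 4) (nat_lit 5) (nat_lit 4) (nat_lit 505) (nat_lit 424) (nat_lit 271)))) (XT.nd (nat_lit 78) (nat_lit 0) (nat_lit 0) (XT.lf (nat_lit 0) (nat_lit 611453154604) (nat_lit 152) (nat_lit 842788416906) (nat_lit 0) (nat_lit 564769812615) (nat_lit 5) (nat_lit 5) (nat_lit 7) (nat_lit 4) (nat_lit 5) (nat_lit 4) (nat_lit 506) (nat_lit 424) (nat_lit 270)) (XT.nd (nat_lit 78) (nat_lit 0) (nat_lit 0) (XT.lf (nat_lit 0) (nat_lit 869116013942) (nat_lit 152) (nat_lit 471983927188) (nat_lit 0) (nat_lit 822432647317) (nat_lit 5) (nat_lit 5) (nat_lit 7) (nat_lit 4) (nat_lit 5) (nat_lit 4) (nat_lit 507) (nat_lit 424) (nat_lit 269)) (XT.lf (nat_lit 0) (nat_lit 1147391686073)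 (nat_lit 152) (nat_lit 71515523683) (nat_lit 0) (nat_lit 1100708296637) (nat_lit 5) (nat_lit 5) (nat_lit 7) (nat_lit 4) (nat_lit 5) (nat_lit 4) (nat_lit 508) (nat_lit 424) (nat_lit 268))))) (XT.nd (nat_lit 234) (nat_lit 152) (nat_lit 0) (XT.nd (nat_lit 78) (nat_lit 0) (nat_lit 0) (XT.lf (nat_lit 0) (nat_lit 379999030198) (nat_lit 76) (nat_lit 1077069167634) (nat_lit 76) (nat_lit 1030385757076) (nat_lit 4) (nat_lit 4) (nat_lit 5) (nat_lit 5) (nat_lit 5) (nat_lit 4) (nat_lit 509) (nat_lit 424) (nat_lit 267)) (XT.nd (nat_lit 78) (nat_lit 0) (nat_lit 0) (XT.lf (nat_lit 0) (nat_lit 871701497632) (nat_lit 76) (nat_lit 921772499240) (nat_lit 76) (nat_lit 875089069125) (nat_lit 4) (nat_lit 4) (nat_lit 5) (nat_lit 5) (nat_lit 5) (nat_lit 4) (nat_lit 510) (nat_lit 424) (nat_lit 266)) (XT.lf (nat_lit 0) (nat_lit 1402739790277) (nat_lit 76) (nat_lit 754052289176) (nat_lit 76) (nat_lit 707368840953)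 (nat_lit 4) (nat_lit 4) (nat_lit 5) (nat_lit 5) (nat_lit 5) (nat_lit 4) (nat_lit 511) (nat_lit 424) (nat_lit 265)))) (XT.nd (nat_lit 156) (nat_lit 152) (nat_lit 0) (XT.nd (nat_lit 78) (nat_lit 0) (nat_lit 0) (XT.lf (nat_lit 0) (nat_lit 1976260801720) (nat_lit 76) (nat_lit 572914639900) (nat_lit 76) (nat_lit 526231174909) (nat_lit 4) (nat_lit 4) (nat_lit 5) (nat_lit 5) (nat_lit 5) (nat_lit 4) (nat_lit 512) (nat_lit 424) (nat_lit 264)) (XT.lf (nat_lit 0) (nat_lit 2595663174990) (nat_lit 76) (nat_lit 377286143120) (nat_lit 76) (nat_lit 330602662605) (nat_lit 4) (nat_lit 4) (nat_lit 5) (nat_lit 5) (nat_lit 5) (nat_lit 4) (nat_lit 513) (nat_lit 424) (nat_lit 263))) (XT.nd (nat_lit 78) (nat_lit 152) (nat_lit 0) (XT.lf (nat_lit 0) (nat_lit 3264617442671) (nat_lit 76) (nat_lit 166007518855) (nat_lit 76) (nat_lit 119324023965) (nat_lit 4) (nat_lit 4) (nat_lit 5) (nat_lit 5) (nat_lit 5) (nat_lit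 4) (nat_lit 514) (nat_lit 424) (nat_lit 262)) (XT.lf (nat_lit 0) (nat_lit 109348912799) (nat_lit 152) (nat_lit 3639900957087) (nat_lit 0) (nat_lit 66123442243) (nat_lit 2) (nat_lit 5) (nat_lit 4) (nat_lit 4) (nat_lit 2) (nat_lit 4) (nat_lit 515) (nat_lit 424) (nat_lit 261))))))))
noncomputable def xc153 : XT := (XT.nd (nat_lit 56004) (nat_lit 0) (nat_lit 2888) (XT.nd (nat_lit 936) (nat_lit 0) (nat_lit 0) (XT.nd (nat_lit 468) (nat_lit 76) (nat_lit 0) (XT.nd (nat_lit 234) (nat_lit 0) (nat_lit 0) (XT.nd (nat_lit 78) (nat_lit 0) (nat_lit 0) (XT.lf (nat_lit 0) (nat_lit 362184941180) (nat_lit 152) (nat_lit 3419653970216) (nat_lit 0) (nat_lit 318959459213) (nat_lit 2) (nat_lit 5) (nat_lit 4) (nat_lit 4) (nat_lit 2) (nat_lit 4) (nat_lit 516) (nat_lit 424) (nat_lit 260)) (XT.nd (nat_lit 78) (nat_lit 0) (nat_lit 0) (XT.lf (nat_lit 0) (nat_lit 635247725973) (nat_lit 152) (nat_lit 3181787484426) (nat_lit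 0) (nat_lit 592022233440) (nat_lit 2) (nat_lit 5) (nat_lit 4) (nat_lit 4) (nat_lit 2) (nat_lit 4) (nat_lit 517) (nat_lit 424) (nat_lit 259)) (XT.lf (nat_lit 0) (nat_lit 930155417012) (nat_lit 152) (nat_lit 2924891920542) (nat_lit 0) (nat_lit 886929914696) (nat_lit 2) (nat_lit 5) (nat_lit 4) (nat_lit 4) (nat_lit 2) (nat_lit 4) (nat_lit 518) (nat_lit 424) (nat_lit 258)))) (XT.nd (nat_lit 78) (nat_lit 0) (nat_lit 0) (XT.lf (nat_lit 0) (nat_lit 1248655615430) (nat_lit 152) (nat_lit 2647444934481) (nat_lit 0) (nat_lit 1205430104055) (nat_lit 2) (nat_lit 5) (nat_lit 4) (nat_lit 4) (nat_lit 2) (nat_lit 4) (nat_lit 519) (nat_lit 424) (nat_lit 257)) (XT.nd (nat_lit 78) (nat_lit 0) (nat_lit 0) (XT.lf (nat_lit 0) (nat_lit 1592635729810) (nat_lit 152) (nat_lit 2347802395956) (nat_lit 0) (nat_lit 1549410210047) (nat_lit 2) (nat_lit 5) (nat_lit 4) (nat_lit 4) (nat_lit 2) (nat_lit 4) (nat_lit 520) (nat_lit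 424) (nat_lit 256)) (XT.lf (nat_lit 0) (nat_lit 1964134160829) (nat_lit 152) (nat_lit 2024188645480) (nat_lit 0) (nat_lit 1920908633300) (nat_lit 2) (nat_lit 5) (nat_lit 4) (nat_lit 4) (nat_lit 2) (nat_lit 4) (nat_lit 521) (nat_lit 424) (nat_lit 255))))) (XT.nd (nat_lit 234) (nat_lit 76) (nat_lit 0) (XT.nd (nat_lit 78) (nat_lit 0) (nat_lit 0) (XT.lf (nat_lit 0) (nat_lit 2365352380672) (nat_lit 152) (nat_lit 1674685971938) (nat_lit 0) (nat_lit 2322126845952) (nat_lit 2) (nat_lit 5) (nat_lit 4) (nat_lit 4) (nat_lit 2) (nat_lit 4) (nat_lit 522) (nat_lit 424) (nat_lit 254)) (XT.nd (nat_lit 78) (nat_lit 0) (nat_lit 0) (XT.lf (nat_lit 0) (nat_lit 2798667978790) (nat_lit 152) (nat_lit 1297223248376) (nat_lit 0) (nat_lit 2755442437411) (nat_lit 2) (nat_lit 5) (nat_lit 4) (nat_lit 4) (nat_lit 2) (nat_lit 4) (nat_lit 523) (nat_lit 424) (nat_lit 253)) (XT.lf (nat_lit 0) (nat_lit 3266648751318) (nat_lit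 152) (nat_lit 889563658655) (nat_lit 0) (nat_lit 3223423203775) (nat_lit 2) (nat_lit 5) (nat_lit 4) (nat_lit 4) (nat_lit 2) (nat_lit 4) (nat_lit 524) (nat_lit 424) (nat_lit 252)))) (XT.nd (nat_lit 78) (nat_lit 76) (nat_lit 0) (XT.lf (nat_lit 0) (nat_lit 3772067917651) (nat_lit 152) (nat_lit 449291442242) (nat_lit 0) (nat_lit 3728842364399) (nat_lit 2) (nat_lit 5) (nat_lit 4) (nat_lit 4) (nat_lit 2) (nat_lit 4) (nat_lit 525) (nat_lit 424) (nat_lit 251)) (XT.nd (nat_lit 78) (nat_lit 0) (nat_lit 0) (XT.lf (nat_lit 0) (nat_lit 27582194479) (nat_lit 76) (nat_lit 4291001712291) (nat_lit 76) (nat_lit 4247776153753) (nat_lit 1) (nat_lit 4) (nat_lit 2) (nat_lit 5) (nat_lit 2) (nat_lit 4) (nat_lit 526) (nat_lit 424) (nat_lit 250)) (XT.lf (nat_lit 0) (nat_lit 568157197778) (nat_lit 76) (nat_lit 4352948340137) (nat_lit 76) (nat_lit 4309722776705) (nat_lit 1) (nat_lit 4) (nat_lit 2) (nat_lit 5) (nat_lit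 2) (nat_lit 4) (nat_lit 527) (nat_lit 424) (nat_lit 249)))))) (XT.nd (nat_lit 54522) (nat_lit 0) (nat_lit 5624) (XT.nd (nat_lit 234) (nat_lit 0) (nat_lit 0) (XT.nd (nat_lit 78) (nat_lit 0) (nat_lit 0) (XT.lf (nat_lit 0) (nat_lit 1151978083946) (nat_lit 76) (nat_lit 4419850758804) (nat_lit 76) (nat_lit 4376625190840) (nat_lit 1) (nat_lit 4) (nat_lit 2) (nat_lit 5) (nat_lit 2) (nat_lit 4) (nat_lit 528) (nat_lit 424) (nat_lit 248)) (XT.nd (nat_lit 78) (nat_lit 0) (nat_lit 0) (XT.lf (nat_lit 0) (nat_lit 1782504532308) (nat_lit 76) (nat_lit 4492105427068) (nat_lit 76) (nat_lit 4448879854909) (nat_lit 1) (nat_lit 4) (nat_lit 2) (nat_lit 5) (nat_lit 2) (nat_lit 4) (nat_lit 529) (nat_lit 424) (nat_lit 247)) (XT.lf (nat_lit 0) (nat_lit 2463472995892) (nat_lit 76) (nat_lit 4570140520742) (nat_lit 76) (nat_lit 4526914944698) (nat_lit 1) (nat_lit 4) (nat_lit 2) (nat_lit 5) (nat_lit 2) (nat_lit 4) (nat_lit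 530) (nat_lit 424) (nat_lit 246)))) (XT.nd (nat_lit 78) (nat_lit 0) (nat_lit 0) (XT.lf (nat_lit 0) (nat_lit 3198918843370) (nat_lit 76) (nat_lit 4654418470011) (nat_lit 76) (nat_lit 4611192890369) (nat_lit 1) (nat_lit 4) (nat_lit 2) (nat_lit 5) (nat_lit 2) (nat_lit 4) (nat_lit 531) (nat_lit 424) (nat_lit 245)) (XT.nd (nat_lit 54132) (nat_lit 0) (nat_lit 6080) (XT.lf (nat_lit 0) (nat_lit 3993200272358) (nat_lit 76) (nat_lit 4745438699758) (nat_lit 76) (nat_lit 4702213116786) (nat_lit 1) (nat_lit 4) (nat_lit 2) (nat_lit 5) (nat_lit 2) (nat_lit 4) (nat_lit 532) (nat_lit 424) (nat_lit 244)) (XT.lf (nat_lit 0) (nat_lit 13129319603) (nat_lit 532) (nat_lit 402197100) (nat_lit 532) (nat_lit 402197100) (nat_lit 81) (nat_lit 3) (nat_lit 88) (nat_lit 3) (nat_lit 88) (nat_lit 5) (nat_lit 425) (nat_lit 425) (nat_lit 350))))) (XT.nd (nat_lit 234) (nat_lit 0) (nat_lit 0) (XT.nd (nat_lit 78) (nat_lit 456)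 (nat_lit 0) (XT.lf (nat_lit 76) (nat_lit 13703582310) (nat_lit 0) (nat_lit 14014742602) (nat_lit 532) (nat_lit 1231031261) (nat_lit 82) (nat_lit 5) (nat_lit 81) (nat_lit 3) (nat_lit 88) (nat_lit 5) (nat_lit 426) (nat_lit 425) (nat_lit 349)) (XT.nd (nat_lit 78) (nat_lit 532) (nat_lit 0) (XT.lf (nat_lit 0) (nat_lit 29311207645) (nat_lit 456) (nat_lit 705841382) (nat_lit 532) (nat_lit 99478357) (nat_lit 82) (nat_lit 5) (nat_lit 88) (nat_lit 5) (nat_lit 89) (nat_lit 5) (nat_lit 427) (nat_lit 425) (nat_lit 348)) (XT.lf (nat_lit 0) (nat_lit 417561087) (nat_lit 532) (nat_lit 15930800325) (nat_lit 608) (nat_lit 14969711428) (nat_lit 75) (nat_lit 5) (nat_lit 82) (nat_lit 5) (nat_lit 83) (nat_lit 5) (nat_lit 428) (nat_lit 425) (nat_lit 347)))) (XT.nd (nat_lit 156) (nat_lit 0) (nat_lit 76) (XT.nd (nat_lit 78) (nat_lit 0) (nat_lit 76) (XT.lf (nat_lit 76) (nat_lit 176029398) (nat_lit 0) (nat_lit 1535608659)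 (nat_lit 608) (nat_lit 30901082271) (nat_lit 76) (nat_lit 5) (nat_lit 75) (nat_lit 5) (nat_lit 83) (nat_lit 5) (nat_lit 429) (nat_lit 425) (nat_lit 346)) (XT.lf (nat_lit 0) (nat_lit 3897238555) (nat_lit 532) (nat_lit 15863408753) (nat_lit 608) (nat_lit 14187254085) (nat_lit 76) (nat_lit 5) (nat_lit 83) (nat_lit 5) (nat_lit 84) (nat_lit 5) (nat_lit 430) (nat_lit 425) (nat_lit 345))) (XT.nd (nat_lit 78) (nat_lit 0) (nat_lit 76) (XT.lf (nat_lit 76) (nat_lit 2095499113) (nat_lit 0) (nat_lit 4246259600) (nat_lit 608) (nat_lit 29041413954) (nat_lit 77) (nat_lit 5) (nat_lit 76) (nat_lit 5) (nat_lit 84) (nat_lit 5) (nat_lit 431) (nat_lit 425) (nat_lit 344)) (XT.lf (nat_lit 0) (nat_lit 9721835979) (nat_lit 532) (nat_lit 14822931780) (nat_lit 76) (nat_lit 12329299588) (nat_lit 77) (nat_lit 5) (nat_lit 84) (nat_lit 5) (nat_lit 78) (nat_lit 5) (nat_lit 432) (nat_lit 425) (nat_lit 343))))))) (XT.nd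 (nat_lit 936) (nat_lit 1140) (nat_lit 0) (XT.nd (nat_lit 468) (nat_lit 836) (nat_lit 0) (XT.nd (nat_lit 234) (nat_lit 228) (nat_lit 0) (XT.nd (nat_lit 78) (nat_lit 228) (nat_lit 0) (XT.lf (nat_lit 0) (nat_lit 5267049858) (nat_lit 456) (nat_lit 8336815732) (nat_lit 532) (nat_lit 24861845563) (nat_lit 71) (nat_lit 5) (nat_lit 77) (nat_lit 5) (nat_lit 78) (nat_lit 5) (nat_lit 433) (nat_lit 425) (nat_lit 342)) (XT.nd (nat_lit 78) (nat_lit 228) (nat_lit 0) (XT.lf (nat_lit 0) (nat_lit 18427620503) (nat_lit 532) (nat_lit 12581464370) (nat_lit 76) (nat_lit 9125109710) (nat_lit 71) (nat_lit 5) (nat_lit 78) (nat_lit 5) (nat_lit 72) (nat_lit 5) (nat_lit 434) (nat_lit 425) (nat_lit 341)) (XT.lf (nat_lit 0) (nat_lit 9961890666) (nat_lit 228) (nat_lit 14126755512) (nat_lit 304) (nat_lit 17811401946) (nat_lit 68) (nat_lit 5) (nat_lit 71) (nat_lit 5) (nat_lit 72) (nat_lit 5) (nat_lit 435) (nat_lit 425)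 (nat_lit 340)))) (XT.nd (nat_lit 78) (nat_lit 228) (nat_lit 0) (XT.lf (nat_lit 0) (nat_lit 30649713644) (nat_lit 304) (nat_lit 8868343145) (nat_lit 76) (nat_lit 4253341370) (nat_lit 68) (nat_lit 5) (nat_lit 72) (nat_lit 5) (nat_lit 69) (nat_lit 5) (nat_lit 436) (nat_lit 425) (nat_lit 339)) (XT.nd (nat_lit 78) (nat_lit 0) (nat_lit 0) (XT.lf (nat_lit 0) (nat_lit 16500709951) (nat_lit 228) (nat_lit 21994535055) (nat_lit 304) (nat_lit 7236445825) (nat_lit 65) (nat_lit 5) (nat_lit 68) (nat_lit 5) (nat_lit 69) (nat_lit 5) (nat_lit 437) (nat_lit 425) (nat_lit 338)) (XT.lf (nat_lit 0) (nat_lit 44398910624) (nat_lit 228) (nat_lit 2807988664) (nat_lit 304) (nat_lit 622830042) (nat_lit 65) (nat_lit 5) (nat_lit 68) (nat_lit 5) (nat_lit 69) (nat_lit 5) (nat_lit 438) (nat_lit 425) (nat_lit 337))))) (XT.nd (nat_lit 234) (nat_lit 380) (nat_lit 0) (XT.nd (nat_lit 78) (nat_lit 228) (nat_lit 0) (XT.lf (nat_lit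 0) (nat_lit 7255242393) (nat_lit 228) (nat_lit 24934952085) (nat_lit 76) (nat_lit 17807951472) (nat_lit 62) (nat_lit 5) (nat_lit 65) (nat_lit 5) (nat_lit 63) (nat_lit 5) (nat_lit 439) (nat_lit 425) (nat_lit 336)) (XT.nd (nat_lit 78) (nat_lit 0) (nat_lit 0) (XT.lf (nat_lit 0) (nat_lit 3792757959) (nat_lit 228) (nat_lit 12193902587) (nat_lit 304) (nat_lit 36331541920) (nat_lit 59) (nat_lit 5) (nat_lit 62) (nat_lit 5) (nat_lit 63) (nat_lit 5) (nat_lit 440) (nat_lit 425) (nat_lit 335)) (XT.lf (nat_lit 0) (nat_lit 26338675553) (nat_lit 304) (nat_lit 18781257890) (nat_lit 76) (nat_lit 9630164009) (nat_lit 59) (nat_lit 5) (nat_lit 63) (nat_lit 5) (nat_lit 60) (nat_lit 5) (nat_lit 441) (nat_lit 425) (nat_lit 334)))) (XT.nd (nat_lit 78) (nat_lit 228) (nat_lit 0) (XT.lf (nat_lit 0) (nat_lit 13706909872) (nat_lit 152) (nat_lit 24455067094) (nat_lit 228) (nat_lit 19163117633) (nat_lit 57) (nat_lit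 5) (nat_lit 59) (nat_lit 5) (nat_lit 60) (nat_lit 5) (nat_lit 442) (nat_lit 425) (nat_lit 333)) (XT.nd (nat_lit 78) (nat_lit 228) (nat_lit 0) (XT.lf (nat_lit 0) (nat_lit 49857847680) (nat_lit 152) (nat_lit 1583691873) (nat_lit 228) (nat_lit 8623720735) (nat_lit 57) (nat_lit 5) (nat_lit 59) (nat_lit 5) (nat_lit 60) (nat_lit 5) (nat_lit 443) (nat_lit 425) (nat_lit 332)) (XT.lf (nat_lit 0) (nat_lit 3845803293) (nat_lit 228) (nat_lit 36377409969) (nat_lit 76) (nat_lit 22698119787) (nat_lit 54) (nat_lit 5) (nat_lit 57) (nat_lit 5) (nat_lit 55) (nat_lit 5) (nat_lit 444) (nat_lit 425) (nat_lit 331)))))) (XT.nd (nat_lit 468) (nat_lit 532) (nat_lit 0) (XT.nd (nat_lit 234) (nat_lit 304) (nat_lit 0) (XT.nd (nat_lit 78) (nat_lit 152) (nat_lit 0) (XT.lf (nat_lit 0) (nat_lit 584875453) (nat_lit 152) (nat_lit 16600777080) (nat_lit 228) (nat_lit 48775226645) (nat_lit 52) (nat_lit 5) (nat_lit 54) (nat_lit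 5) (nat_lit 55) (nat_lit 5) (nat_lit 445) (nat_lit 425) (nat_lit 330)) (XT.nd (nat_lit 78) (nat_lit 152) (nat_lit 0) (XT.lf (nat_lit 0) (nat_lit 32824673756) (nat_lit 228) (nat_lit 26835603652) (nat_lit 76) (nat_lit 9484753258) (nat_lit 52) (nat_lit 5) (nat_lit 55) (nat_lit 5) (nat_lit 53) (nat_lit 5) (nat_lit 446) (nat_lit 425) (nat_lit 329)) (XT.lf (nat_lit 0) (nat_lit 15108567550) (nat_lit 152) (nat_lit 35398212653) (nat_lit 228) (nat_lit 22013777352) (nat_lit 50) (nat_lit 5) (nat_lit 52) (nat_lit 5) (nat_lit 53) (nat_lit 5) (nat_lit 447) (nat_lit 425) (nat_lit 328)))) (XT.nd (nat_lit 78) (nat_lit 304) (nat_lit 0) (XT.lf (nat_lit 0) (nat_lit 61930476284) (nat_lit 152) (nat_lit 8404221307) (nat_lit 228) (nat_lit 5772929946) (nat_lit 50) (nat_lit 5) (nat_lit 52) (nat_lit 5) (nat_lit 53) (nat_lit 5) (nat_lit 448) (nat_lit 425) (nat_lit 327)) (XT.nd (nat_lit 78) (nat_lit 152) (nat_lit 0)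 (XT.lf (nat_lit 0) (nat_lit 12519648612) (nat_lit 152) (nat_lit 46494628707) (nat_lit 76) (nat_lit 20837457552) (nat_lit 48) (nat_lit 5) (nat_lit 50) (nat_lit 5) (nat_lit 49) (nat_lit 5) (nat_lit 449) (nat_lit 425) (nat_lit 326)) (XT.lf (nat_lit 0) (nat_lit 1319886083) (nat_lit 152) (nat_lit 31289276751) (nat_lit 228) (nat_lit 51222579122) (nat_lit 46) (nat_lit 5) (nat_lit 48) (nat_lit 5) (nat_lit 49) (nat_lit 5) (nat_lit 450) (nat_lit 425) (nat_lit 325))))) (XT.nd (nat_lit 234) (nat_lit 380) (nat_lit 0) (XT.nd (nat_lit 78) (nat_lit 152) (nat_lit 0) (XT.lf (nat_lit 0) (nat_lit 55575456048) (nat_lit 228) (nat_lit 32429228470) (nat_lit 76) (nat_lit 23895907) (nat_lit 46) (nat_lit 5) (nat_lit 49) (nat_lit 5) (nat_lit 47) (nat_lit 4) (nat_lit 451) (nat_lit 425) (nat_lit 324)) (XT.nd (nat_lit 78) (nat_lit 76) (nat_lit 0) (XT.lf (nat_lit 0) (nat_lit 21941291117) (nat_lit 76) (nat_lit 59776057666)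 (nat_lit 152) (nat_lit 10736753734) (nat_lit 45) (nat_lit 5) (nat_lit 46) (nat_lit 5) (nat_lit 47) (nat_lit 4) (nat_lit 452) (nat_lit 425) (nat_lit 323)) (XT.lf (nat_lit 0) (nat_lit 12988394698) (nat_lit 152) (nat_lit 14989494636) (nat_lit 76) (nat_lit 69158700225) (nat_lit 44) (nat_lit 5) (nat_lit 46) (nat_lit 5) (nat_lit 45) (nat_lit 5) (nat_lit 453) (nat_lit 425) (nat_lit 322)))) (XT.nd (nat_lit 156) (nat_lit 152) (nat_lit 0) (XT.nd (nat_lit 78) (nat_lit 76) (nat_lit 0) (XT.lf (nat_lit 0) (nat_lit 39350698877) (nat_lit 228) (nat_lit 55223720618) (nat_lit 76) (nat_lit 7491409514) (nat_lit 42) (nat_lit 5) (nat_lit 45) (nat_lit 5) (nat_lit 43) (nat_lit 4) (nat_lit 454) (nat_lit 425) (nat_lit 321)) (XT.lf (nat_lit 0) (nat_lit 6711073554) (nat_lit 76) (nat_lit 62417600336) (nat_lit 152) (nat_lit 38156198974) (nat_lit 41) (nat_lit 5) (nat_lit 42) (nat_lit 5) (nat_lit 43) (nat_lit 4) (nat_lit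 455) (nat_lit 425) (nat_lit 320))) (XT.nd (nat_lit 78) (nat_lit 152) (nat_lit 0) (XT.lf (nat_lit 0) (nat_lit 76737975876) (nat_lit 76) (nat_lit 26058988774) (nat_lit 152) (nat_lit 10003829516) (nat_lit 41) (nat_lit 5) (nat_lit 42) (nat_lit 5) (nat_lit 43) (nat_lit 4) (nat_lit 456) (nat_lit 425) (nat_lit 319)) (XT.lf (nat_lit 0) (nat_lit 20568964442) (nat_lit 152) (nat_lit 84144906070) (nat_lit 76) (nat_lit 13909766783) (nat_lit 39) (nat_lit 5) (nat_lit 41) (nat_lit 5) (nat_lit 40) (nat_lit 4) (nat_lit 457) (nat_lit 425) (nat_lit 318))))))))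
noncomputable def xc154 : XT := (XT.nd (nat_lit 1950) (nat_lit 1064) (nat_lit 0) (XT.nd (nat_lit 936) (nat_lit 760) (nat_lit 0) (XT.nd (nat_lit 468) (nat_lit 456) (nat_lit 0) (XT.nd (nat_lit 234) (nat_lit 152) (nat_lit 0) (XT.nd (nat_lit 78) (nat_lit 152) (nat_lit 0) (XT.lf (nat_lit 0) (nat_lit 54733881970) (nat_lit 152) (nat_lit 13084372197) (nat_lit 76) (nat_lit 56938325321) (nat_lit 39) (nat_lit 5) (nat_lit 41) (nat_lit 5) (nat_lit 40) (nat_lit 4) (nat_lit 458) (nat_lit 425) (nat_lit 317)) (XT.nd (nat_lit 78) (nat_lit 76) (nat_lit 0) (XT.lf (nat_lit 0) (nat_lit 67010192614) (nat_lit 76) (nat_lit 26231802150) (nat_lit 152) (nat_lit 38009362256) (nat_lit 38) (nat_lit 5) (nat_lit 39) (nat_lit 5) (nat_lit 40) (nat_lit 4) (nat_lit 459) (nat_lit 425) (nat_lit 316)) (XT.lf (nat_lit 0) (nat_lit 16377057191) (nat_lit 76) (nat_lit 119662325175) (nat_lit 76) (nat_lit 2129644433) (nat_lit 37) (nat_lit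 4) (nat_lit 38) (nat_lit 5) (nat_lit 38) (nat_lit 4) (nat_lit 460) (nat_lit 425) (nat_lit 315)))) (XT.nd (nat_lit 78) (nat_lit 76) (nat_lit 0) (XT.lf (nat_lit 0) (nat_lit 37270413620) (nat_lit 152) (nat_lit 40012054004) (nat_lit 76) (nat_lit 68088635523) (nat_lit 36) (nat_lit 5) (nat_lit 38) (nat_lit 5) (nat_lit 37) (nat_lit 4) (nat_lit 461) (nat_lit 425) (nat_lit 314)) (XT.nd (nat_lit 78) (nat_lit 0) (nat_lit 0) (XT.lf (nat_lit 0) (nat_lit 50793074985) (nat_lit 76) (nat_lit 30134466886) (nat_lit 152) (nat_lit 72119768849) (nat_lit 35) (nat_lit 5) (nat_lit 36) (nat_lit 5) (nat_lit 37) (nat_lit 4) (nat_lit 462) (nat_lit 425) (nat_lit 313)) (XT.lf (nat_lit 0) (nat_lit 129698105263) (nat_lit 152) (nat_lit 10643016850) (nat_lit 0) (nat_lit 20866823671) (nat_lit 35) (nat_lit 5) (nat_lit 37) (nat_lit 4) (nat_lit 35) (nat_lit 4) (nat_lit 463) (nat_lit 425) (nat_lit 312))))) (XT.nd (nat_lit 234)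 (nat_lit 228) (nat_lit 0) (XT.nd (nat_lit 78) (nat_lit 76) (nat_lit 0) (XT.lf (nat_lit 0) (nat_lit 14805851391) (nat_lit 152) (nat_lit 78036458445) (nat_lit 76) (nat_lit 76909385781) (nat_lit 33) (nat_lit 5) (nat_lit 35) (nat_lit 5) (nat_lit 34) (nat_lit 4) (nat_lit 464) (nat_lit 425) (nat_lit 311)) (XT.nd (nat_lit 78) (nat_lit 0) (nat_lit 0) (XT.lf (nat_lit 0) (nat_lit 24298734635) (nat_lit 76) (nat_lit 39707328772) (nat_lit 152) (nat_lit 114836877930) (nat_lit 32) (nat_lit 5) (nat_lit 33) (nat_lit 5) (nat_lit 34) (nat_lit 4) (nat_lit 465) (nat_lit 425) (nat_lit 310)) (XT.lf (nat_lit 0) (nat_lit 119755215915) (nat_lit 152) (nat_lit 49715199512) (nat_lit 0) (nat_lit 18982037463) (nat_lit 32) (nat_lit 5) (nat_lit 34) (nat_lit 4) (nat_lit 32) (nat_lit 4) (nat_lit 466) (nat_lit 425) (nat_lit 309)))) (XT.nd (nat_lit 78) (nat_lit 152) (nat_lit 0) (XT.lf (nat_lit 0) (nat_lit 65755764531) (nat_lit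 76) (nat_lit 116820102337) (nat_lit 76) (nat_lit 16045933252) (nat_lit 31) (nat_lit 4) (nat_lit 32) (nat_lit 5) (nat_lit 32) (nat_lit 4) (nat_lit 467) (nat_lit 425) (nat_lit 308)) (XT.nd (nat_lit 78) (nat_lit 76) (nat_lit 0) (XT.lf (nat_lit 0) (nat_lit 40169010817) (nat_lit 152) (nat_lit 17223543838) (nat_lit 76) (nat_lit 152022136304) (nat_lit 30) (nat_lit 5) (nat_lit 32) (nat_lit 5) (nat_lit 31) (nat_lit 4) (nat_lit 468) (nat_lit 425) (nat_lit 307)) (XT.lf (nat_lit 0) (nat_lit 102972956308) (nat_lit 152) (nat_lit 108166113572) (nat_lit 0) (nat_lit 9661904782) (nat_lit 29) (nat_lit 5) (nat_lit 31) (nat_lit 4) (nat_lit 29) (nat_lit 4) (nat_lit 469) (nat_lit 425) (nat_lit 306)))))) (XT.nd (nat_lit 468) (nat_lit 380) (nat_lit 0) (XT.nd (nat_lit 234) (nat_lit 152) (nat_lit 0) (XT.nd (nat_lit 78) (nat_lit 152) (nat_lit 0) (XT.lf (nat_lit 0) (nat_lit 20311896585) (nat_lit 76) (nat_lit 152950572046)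 (nat_lit 76) (nat_lit 59638792375) (nat_lit 28) (nat_lit 4) (nat_lit 29) (nat_lit 5) (nat_lit 29) (nat_lit 4) (nat_lit 470) (nat_lit 425) (nat_lit 305)) (XT.nd (nat_lit 78) (nat_lit 76) (nat_lit 0) (XT.lf (nat_lit 0) (nat_lit 6078369012) (nat_lit 152) (nat_lit 80669446333) (nat_lit 76) (nat_lit 158972935178) (nat_lit 27) (nat_lit 5) (nat_lit 29) (nat_lit 5) (nat_lit 28) (nat_lit 4) (nat_lit 471) (nat_lit 425) (nat_lit 304)) (XT.lf (nat_lit 0) (nat_lit 63425771896) (nat_lit 76) (nat_lit 11929444470) (nat_lit 152) (nat_lit 183964709551) (nat_lit 26) (nat_lit 5) (nat_lit 27) (nat_lit 5) (nat_lit 28) (nat_lit 4) (nat_lit 472) (nat_lit 425) (nat_lit 303)))) (XT.nd (nat_lit 78) (nat_lit 152) (nat_lit 0) (XT.lf (nat_lit 0) (nat_lit 154092547885) (nat_lit 152) (nat_lit 51910006185) (nat_lit 0) (nat_lit 67691014392) (nat_lit 26) (nat_lit 5) (nat_lit 28) (nat_lit 4) (nat_lit 26) (nat_lit 4) (nat_lit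 473) (nat_lit 425) (nat_lit 302)) (XT.nd (nat_lit 78) (nat_lit 76) (nat_lit 0) (XT.lf (nat_lit 0) (nat_lit 108719717834) (nat_lit 76) (nat_lit 133332762263) (nat_lit 76) (nat_lit 46930733206) (nat_lit 25) (nat_lit 4) (nat_lit 26) (nat_lit 5) (nat_lit 26) (nat_lit 4) (nat_lit 474) (nat_lit 425) (nat_lit 301)) (XT.lf (nat_lit 0) (nat_lit 31429984841) (nat_lit 152) (nat_lit 21028119440) (nat_lit 76) (nat_lit 252860799066) (nat_lit 24) (nat_lit 5) (nat_lit 26) (nat_lit 5) (nat_lit 25) (nat_lit 4) (nat_lit 475) (nat_lit 425) (nat_lit 300))))) (XT.nd (nat_lit 234) (nat_lit 228) (nat_lit 0) (XT.nd (nat_lit 78) (nat_lit 76) (nat_lit 0) (XT.lf (nat_lit 0) (nat_lit 118282833273) (nat_lit 152) (nat_lit 165920260560) (nat_lit 0) (nat_lit 38280136257) (nat_lit 23) (nat_lit 5) (nat_lit 25) (nat_lit 4) (nat_lit 23) (nat_lit 4) (nat_lit 476) (nat_lit 425) (nat_lit 299)) (XT.nd (nat_lit 78) (nat_lit 0)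 (nat_lit 0) (XT.lf (nat_lit 0) (nat_lit 7582591298) (nat_lit 76) (nat_lit 206635230012) (nat_lit 76) (nat_lit 126632168742) (nat_lit 22) (nat_lit 4) (nat_lit 23) (nat_lit 5) (nat_lit 23) (nat_lit 4) (nat_lit 477) (nat_lit 425) (nat_lit 298)) (XT.lf (nat_lit 0) (nat_lit 204399983307) (nat_lit 76) (nat_lit 117963325035) (nat_lit 76) (nat_lit 37959926492) (nat_lit 22) (nat_lit 4) (nat_lit 23) (nat_lit 5) (nat_lit 23) (nat_lit 4) (nat_lit 478) (nat_lit 425) (nat_lit 297)))) (XT.nd (nat_lit 156) (nat_lit 76) (nat_lit 0) (XT.nd (nat_lit 78) (nat_lit 0) (nat_lit 0) (XT.lf (nat_lit 0) (nat_lit 36018337045) (nat_lit 76) (nat_lit 19761493664) (nat_lit 152) (nat_lit 325394055021) (nat_lit 20) (nat_lit 5) (nat_lit 21) (nat_lit 5) (nat_lit 22) (nat_lit 4) (nat_lit 479) (nat_lit 425) (nat_lit 296)) (XT.lf (nat_lit 0) (nat_lit 161416521062) (nat_lit 152) (nat_lit 154342560620) (nat_lit 0) (nat_lit 87338743295)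 (nat_lit 20) (nat_lit 5) (nat_lit 22) (nat_lit 4) (nat_lit 20) (nat_lit 4) (nat_lit 480) (nat_lit 425) (nat_lit 295))) (XT.nd (nat_lit 78) (nat_lit 0) (nat_lit 0) (XT.lf (nat_lit 0) (nat_lit 53917853712) (nat_lit 76) (nat_lit 223395555178) (nat_lit 76) (nat_lit 149317529506) (nat_lit 19) (nat_lit 4) (nat_lit 20) (nat_lit 5) (nat_lit 20) (nat_lit 4) (nat_lit 481) (nat_lit 425) (nat_lit 294)) (XT.lf (nat_lit 0) (nat_lit 287615221132) (nat_lit 76) (nat_lit 119086096689) (nat_lit 76) (nat_lit 45007841475) (nat_lit 19) (nat_lit 4) (nat_lit 20) (nat_lit 5) (nat_lit 20) (nat_lit 4) (nat_lit 482) (nat_lit 425) (nat_lit 293))))))) (XT.nd (nat_lit 936) (nat_lit 456) (nat_lit 0) (XT.nd (nat_lit 468) (nat_lit 228) (nat_lit 0) (XT.nd (nat_lit 234) (nat_lit 152) (nat_lit 0) (XT.nd (nat_lit 78) (nat_lit 76) (nat_lit 0) (XT.lf (nat_lit 0) (nat_lit 62724147888) (nat_lit 76) (nat_lit 3046340400) (nat_lit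 152) (nat_lit 412772371386) (nat_lit 17) (nat_lit 5) (nat_lit 18) (nat_lit 5) (nat_lit 19) (nat_lit 4) (nat_lit 483) (nat_lit 425) (nat_lit 292)) (XT.nd (nat_lit 78) (nat_lit 76) (nat_lit 0) (XT.lf (nat_lit 0) (nat_lit 190522710719) (nat_lit 152) (nat_lit 194372210428) (nat_lit 0) (nat_lit 121931354656) (nat_lit 17) (nat_lit 5) (nat_lit 19) (nat_lit 4) (nat_lit 17) (nat_lit 4) (nat_lit 484) (nat_lit 425) (nat_lit 291)) (XT.lf (nat_lit 0) (nat_lit 47063910044) (nat_lit 76) (nat_lit 279401575021) (nat_lit 76) (nat_lit 210810050238) (nat_lit 16) (nat_lit 4) (nat_lit 17) (nat_lit 5) (nat_lit 17) (nat_lit 4) (nat_lit 485) (nat_lit 425) (nat_lit 290)))) (XT.nd (nat_lit 78) (nat_lit 152) (nat_lit 0) (XT.lf (nat_lit 0) (nat_lit 318867770310) (nat_lit 76) (nat_lit 159729768822) (nat_lit 76) (nat_lit 91138087817) (nat_lit 16) (nat_lit 4) (nat_lit 17) (nat_lit 5) (nat_lit 17) (nat_lit 4) (nat_lit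 486) (nat_lit 425) (nat_lit 289)) (XT.nd (nat_lit 78) (nat_lit 0) (nat_lit 0) (XT.lf (nat_lit 0) (nat_lit 7058828400) (nat_lit 76) (nat_lit 29311678357) (nat_lit 152) (nat_lit 568335166163) (nat_lit 14) (nat_lit 5) (nat_lit 15) (nat_lit 5) (nat_lit 16) (nat_lit 4) (nat_lit 487) (nat_lit 425) (nat_lit 288)) (XT.lf (nat_lit 0) (nat_lit 178875242666) (nat_lit 152) (nat_lit 347266990873) (nat_lit 0) (nat_lit 115364168971) (nat_lit 14) (nat_lit 5) (nat_lit 16) (nat_lit 4) (nat_lit 14) (nat_lit 4) (nat_lit 488) (nat_lit 425) (nat_lit 287))))) (XT.nd (nat_lit 234) (nat_lit 152) (nat_lit 0) (XT.nd (nat_lit 78) (nat_lit 76) (nat_lit 0) (XT.lf (nat_lit 0) (nat_lit 333541152846) (nat_lit 152) (nat_lit 77619209674) (nat_lit 0) (nat_lit 270029964323) (nat_lit 14) (nat_lit 5) (nat_lit 16) (nat_lit 4) (nat_lit 14) (nat_lit 4) (nat_lit 489) (nat_lit 425) (nat_lit 286)) (XT.nd (nat_lit 78) (nat_lit 0) (nat_lit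 0) (XT.lf (nat_lit 0) (nat_lit 224847122108) (nat_lit 76) (nat_lit 281140286040) (nat_lit 76) (nat_lit 217628991194) (nat_lit 13) (nat_lit 4) (nat_lit 14) (nat_lit 5) (nat_lit 14) (nat_lit 4) (nat_lit 490) (nat_lit 425) (nat_lit 285)) (XT.lf (nat_lit 0) (nat_lit 555924024285) (nat_lit 76) (nat_lit 138427093183) (nat_lit 76) (nat_lit 74915699891) (nat_lit 13) (nat_lit 4) (nat_lit 14) (nat_lit 5) (nat_lit 14) (nat_lit 4) (nat_lit 491) (nat_lit 425) (nat_lit 284)))) (XT.nd (nat_lit 78) (nat_lit 0) (nat_lit 0) (XT.lf (nat_lit 0) (nat_lit 78094570573) (nat_lit 152) (nat_lit 720807244275) (nat_lit 0) (nat_lit 19287640530) (nat_lit 11) (nat_lit 5) (nat_lit 13) (nat_lit 4) (nat_lit 11) (nat_lit 4) (nat_lit 492) (nat_lit 425) (nat_lit 283)) (XT.nd (nat_lit 78) (nat_lit 0) (nat_lit 0) (XT.lf (nat_lit 0) (nat_lit 248877991098) (nat_lit 152) (nat_lit 431154883687) (nat_lit 0) (nat_lit 190070982905)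 (nat_lit 11) (nat_lit 5) (nat_lit 13) (nat_lit 4) (nat_lit 11) (nat_lit 4) (nat_lit 493) (nat_lit 425) (nat_lit 282)) (XT.lf (nat_lit 0) (nat_lit 433323652131) (nat_lit 152) (nat_lit 118331223134) (nat_lit 0) (nat_lit 374516571577) (nat_lit 11) (nat_lit 5) (nat_lit 13) (nat_lit 4) (nat_lit 11) (nat_lit 4) (nat_lit 494) (nat_lit 425) (nat_lit 281)))))) (XT.nd (nat_lit 468) (nat_lit 228) (nat_lit 0) (XT.nd (nat_lit 234) (nat_lit 152) (nat_lit 0) (XT.nd (nat_lit 78) (nat_lit 0) (nat_lit 0) (XT.lf (nat_lit 0) (nat_lit 231076910138) (nat_lit 76) (nat_lit 407005060105) (nat_lit 76) (nat_lit 348197912549) (nat_lit 10) (nat_lit 4) (nat_lit 11) (nat_lit 5) (nat_lit 11) (nat_lit 4) (nat_lit 495) (nat_lit 425) (nat_lit 280)) (XT.nd (nat_lit 78) (nat_lit 0) (nat_lit 0) (XT.lf (nat_lit 0) (nat_lit 615166493381) (nat_lit 76) (nat_lit 247289455129) (nat_lit 76) (nat_lit 188482245536) (nat_lit 10) (nat_lit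 4) (nat_lit 11) (nat_lit 5) (nat_lit 11) (nat_lit 4) (nat_lit 496) (nat_lit 425) (nat_lit 279)) (XT.lf (nat_lit 0) (nat_lit 1029982500505) (nat_lit 76) (nat_lit 74796982835) (nat_lit 76) (nat_lit 15989715799) (nat_lit 10) (nat_lit 4) (nat_lit 11) (nat_lit 5) (nat_lit 11) (nat_lit 4) (nat_lit 497) (nat_lit 425) (nat_lit 278)))) (XT.nd (nat_lit 78) (nat_lit 0) (nat_lit 0) (XT.lf (nat_lit 0) (nat_lit 171783499080) (nat_lit 152) (nat_lit 905943207972) (nat_lit 0) (nat_lit 117332276651) (nat_lit 8) (nat_lit 5) (nat_lit 10) (nat_lit 4) (nat_lit 8) (nat_lit 4) (nat_lit 498) (nat_lit 425) (nat_lit 277)) (XT.nd (nat_lit 78) (nat_lit 0) (nat_lit 0) (XT.lf (nat_lit 0) (nat_lit 378203890510) (nat_lit 152) (nat_lit 572943078312) (nat_lit 0) (nat_lit 323752622481) (nat_lit 8) (nat_lit 5) (nat_lit 10) (nat_lit 4) (nat_lit 8) (nat_lit 4) (nat_lit 499) (nat_lit 425) (nat_lit 276)) (XT.lf (nat_lit 0) (nat_lit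 601137595479) (nat_lit 152) (nat_lit 213303592230) (nat_lit 0) (nat_lit 546686285228) (nat_lit 8) (nat_lit 5) (nat_lit 10) (nat_lit 4) (nat_lit 8) (nat_lit 4) (nat_lit 500) (nat_lit 425) (nat_lit 275))))) (XT.nd (nat_lit 234) (nat_lit 152) (nat_lit 0) (XT.nd (nat_lit 78) (nat_lit 0) (nat_lit 0) (XT.lf (nat_lit 0) (nat_lit 184327242424) (nat_lit 76) (nat_lit 662011534797) (nat_lit 76) (nat_lit 607560185451) (nat_lit 7) (nat_lit 4) (nat_lit 8) (nat_lit 5) (nat_lit 8) (nat_lit 4) (nat_lit 501) (nat_lit 425) (nat_lit 274)) (XT.nd (nat_lit 78) (nat_lit 0) (nat_lit 0) (XT.lf (nat_lit 0) (nat_lit 625898717962) (nat_lit 76) (nat_lit 491089147122) (nat_lit 76) (nat_lit 436637761578) (nat_lit 7) (nat_lit 4) (nat_lit 8) (nat_lit 5) (nat_lit 8) (nat_lit 4) (nat_lit 502) (nat_lit 425) (nat_lit 273)) (XT.lf (nat_lit 0) (nat_lit 1102795365081) (nat_lit 76) (nat_lit 306493249493) (nat_lit 76) (nat_lit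 252041830432) (nat_lit 7) (nat_lit 4) (nat_lit 8) (nat_lit 5) (nat_lit 8) (nat_lit 4) (nat_lit 503) (nat_lit 425) (nat_lit 272)))) (XT.nd (nat_lit 156) (nat_lit 0) (nat_lit 0) (XT.nd (nat_lit 78) (nat_lit 152) (nat_lit 0) (XT.lf (nat_lit 0) (nat_lit 1617843237983) (nat_lit 76) (nat_lit 107129940295) (nat_lit 76) (nat_lit 52678490199) (nat_lit 7) (nat_lit 4) (nat_lit 8) (nat_lit 5) (nat_lit 8) (nat_lit 4) (nat_lit 504) (nat_lit 425) (nat_lit 271)) (XT.lf (nat_lit 0) (nat_lit 164134039213) (nat_lit 152) (nat_lit 1624344781054) (nat_lit 0) (nat_lit 113716003258) (nat_lit 5) (nat_lit 5) (nat_lit 7) (nat_lit 4) (nat_lit 5) (nat_lit 4) (nat_lit 505) (nat_lit 425) (nat_lit 270))) (XT.nd (nat_lit 78) (nat_lit 0) (nat_lit 0) (XT.lf (nat_lit 0) (nat_lit 402710864647) (nat_lit 152) (nat_lit 1281007076445) (nat_lit 0) (nat_lit 352292804056) (nat_lit 5) (nat_lit 5) (nat_lit 7) (nat_lit 4) (nat_lit 5)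 (nat_lit 4) (nat_lit 506) (nat_lit 425) (nat_lit 269)) (XT.lf (nat_lit 0) (nat_lit 660373620161) (nat_lit 152) (nat_lit 910202800857) (nat_lit 0) (nat_lit 609955536758) (nat_lit 5) (nat_lit 5) (nat_lit 7) (nat_lit 4) (nat_lit 5) (nat_lit 4) (nat_lit 507) (nat_lit 425) (nat_lit 268))))))))
noncomputable def xc155 : XT := (XT.nd (nat_lit 56082) (nat_lit 0) (nat_lit 3572) (XT.nd (nat_lit 936) (nat_lit 76) (nat_lit 0) (XT.nd (nat_lit 468) (nat_lit 152) (nat_lit 0) (XT.nd (nat_lit 234) (nat_lit 0) (nat_lit 0) (XT.nd (nat_lit 78) (nat_lit 76) (nat_lit 0) (XT.lf (nat_lit 0) (nat_lit 938649196158) (nat_lit 152) (nat_lit 509734595621) (nat_lit 0) (nat_lit 888231091634) (nat_lit 5) (nat_lit 5) (nat_lit 7) (nat_lit 4) (nat_lit 5) (nat_lit 4) (nat_lit 508) (nat_lit 425) (nat_lit 267)) (XT.nd (nat_lit 78) (nat_lit 76) (nat_lit 0) (XT.lf (nat_lit 0) (nat_lit 1239186633090) (nat_lit 152) (nat_lit 77229315816)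 (nat_lit 0) (nat_lit 1188768509009) (nat_lit 5) (nat_lit 5) (nat_lit 7) (nat_lit 4) (nat_lit 5) (nat_lit 4) (nat_lit 509) (nat_lit 425) (nat_lit 266)) (XT.lf (nat_lit 0) (nat_lit 410406213774) (nat_lit 76) (nat_lit 1163230959081) (nat_lit 76) (nat_lit 1112812816892) (nat_lit 4) (nat_lit 4) (nat_lit 5) (nat_lit 5) (nat_lit 5) (nat_lit 4) (nat_lit 510) (nat_lit 425) (nat_lit 265)))) (XT.nd (nat_lit 78) (nat_lit 0) (nat_lit 0) (XT.lf (nat_lit 0) (nat_lit 941444340739) (nat_lit 76) (nat_lit 995510834398) (nat_lit 76) (nat_lit 945092675442) (nat_lit 4) (nat_lit 4) (nat_lit 5) (nat_lit 5) (nat_lit 5) (nat_lit 4) (nat_lit 511) (nat_lit 425) (nat_lit 264)) (XT.nd (nat_lit 78) (nat_lit 0) (nat_lit 0) (XT.lf (nat_lit 0) (nat_lit 1514965198774) (nat_lit 76) (nat_lit 814373264179) (nat_lit 76) (nat_lit 763955089698) (nat_lit 4) (nat_lit 4) (nat_lit 5) (nat_lit 5) (nat_lit 5) (nat_lit 4) (nat_lit 512)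 (nat_lit 425) (nat_lit 263)) (XT.lf (nat_lit 0) (nat_lit 2134367430001) (nat_lit 76) (nat_lit 618744840600) (nat_lit 76) (nat_lit 568326651744) (nat_lit 4) (nat_lit 4) (nat_lit 5) (nat_lit 5) (nat_lit 5) (nat_lit 4) (nat_lit 513) (nat_lit 425) (nat_lit 262))))) (XT.nd (nat_lit 234) (nat_lit 0) (nat_lit 0) (XT.nd (nat_lit 78) (nat_lit 152) (nat_lit 0) (XT.lf (nat_lit 0) (nat_lit 2803321566159) (nat_lit 76) (nat_lit 407466284114) (nat_lit 76) (nat_lit 357048081948) (nat_lit 4) (nat_lit 4) (nat_lit 5) (nat_lit 5) (nat_lit 5) (nat_lit 4) (nat_lit 514) (nat_lit 425) (nat_lit 261)) (XT.nd (nat_lit 78) (nat_lit 152) (nat_lit 0) (XT.lf (nat_lit 0) (nat_lit 3525791779908) (nat_lit 76) (nat_lit 179285573646) (nat_lit 76) (nat_lit 128867359156) (nat_lit 4) (nat_lit 4) (nat_lit 5) (nat_lit 5) (nat_lit 5) (nat_lit 4) (nat_lit 515) (nat_lit 425) (nat_lit 260)) (XT.lf (nat_lit 0) (nat_lit 118099281298)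 (nat_lit 152) (nat_lit 3931087960556) (nat_lit 0) (nat_lit 71415738796) (nat_lit 2) (nat_lit 5) (nat_lit 4) (nat_lit 4) (nat_lit 2) (nat_lit 4) (nat_lit 516) (nat_lit 425) (nat_lit 259)))) (XT.nd (nat_lit 78) (nat_lit 0) (nat_lit 0) (XT.lf (nat_lit 0) (nat_lit 391162010063) (nat_lit 152) (nat_lit 3693221590520) (nat_lit 0) (nat_lit 344478457778) (nat_lit 2) (nat_lit 5) (nat_lit 4) (nat_lit 4) (nat_lit 2) (nat_lit 4) (nat_lit 517) (nat_lit 425) (nat_lit 258)) (XT.nd (nat_lit 78) (nat_lit 0) (nat_lit 0) (XT.lf (nat_lit 0) (nat_lit 686069649225) (nat_lit 152) (nat_lit 3436326133816) (nat_lit 0) (nat_lit 639386087882) (nat_lit 2) (nat_lit 5) (nat_lit 4) (nat_lit 4) (nat_lit 2) (nat_lit 4) (nat_lit 518) (nat_lit 425) (nat_lit 257)) (XT.lf (nat_lit 0) (nat_lit 1004569799609) (nat_lit 152) (nat_lit 3158879246996) (nat_lit 0) (nat_lit 957886229877) (nat_lit 2) (nat_lit 5) (nat_lit 4) (nat_lit 4)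 (nat_lit 2) (nat_lit 4) (nat_lit 519) (nat_lit 425) (nat_lit 256)))))) (XT.nd (nat_lit 468) (nat_lit 76) (nat_lit 0) (XT.nd (nat_lit 234) (nat_lit 0) (nat_lit 0) (XT.nd (nat_lit 78) (nat_lit 0) (nat_lit 0) (XT.lf (nat_lit 0) (nat_lit 1348549869512) (nat_lit 152) (nat_lit 2859236800361) (nat_lit 0) (nat_lit 1301866292014) (nat_lit 2) (nat_lit 5) (nat_lit 4) (nat_lit 4) (nat_lit 2) (nat_lit 4) (nat_lit 520) (nat_lit 425) (nat_lit 255)) (XT.nd (nat_lit 78) (nat_lit 0) (nat_lit 0) (XT.lf (nat_lit 0) (nat_lit 1720048259350) (nat_lit 152) (nat_lit 2535623134967) (nat_lit 0) (nat_lit 1673364674661) (nat_lit 2) (nat_lit 5) (nat_lit 4) (nat_lit 4) (nat_lit 2) (nat_lit 4) (nat_lit 521) (nat_lit 425) (nat_lit 254)) (XT.lf (nat_lit 0) (nat_lit 2121266441062) (nat_lit 152) (nat_lit 2186120540206) (nat_lit 0) (nat_lit 2074582849714) (nat_lit 2) (nat_lit 5) (nat_lit 4) (nat_lit 4) (nat_lit 2) (nat_lit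 4) (nat_lit 522) (nat_lit 425) (nat_lit 253)))) (XT.nd (nat_lit 78) (nat_lit 0) (nat_lit 0) (XT.lf (nat_lit 0) (nat_lit 2554582003872) (nat_lit 152) (nat_lit 1808657889589) (nat_lit 0) (nat_lit 2507898406360) (nat_lit 2) (nat_lit 5) (nat_lit 4) (nat_lit 4) (nat_lit 2) (nat_lit 4) (nat_lit 523) (nat_lit 425) (nat_lit 252)) (XT.nd (nat_lit 78) (nat_lit 0) (nat_lit 0) (XT.lf (nat_lit 0) (nat_lit 3022562743710) (nat_lit 152) (nat_lit 1400998367409) (nat_lit 0) (nat_lit 2975879140489) (nat_lit 2) (nat_lit 5) (nat_lit 4) (nat_lit 4) (nat_lit 2) (nat_lit 4) (nat_lit 524) (nat_lit 425) (nat_lit 251)) (XT.lf (nat_lit 0) (nat_lit 3527981879773) (nat_lit 152) (nat_lit 960726213535) (nat_lit 0) (nat_lit 3481298271266) (nat_lit 2) (nat_lit 5) (nat_lit 4) (nat_lit 4) (nat_lit 2) (nat_lit 4) (nat_lit 525) (nat_lit 425) (nat_lit 250))))) (XT.nd (nat_lit 234) (nat_lit 0) (nat_lit 0) (XT.nd (nat_lit 78)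 (nat_lit 76) (nat_lit 0) (XT.lf (nat_lit 0) (nat_lit 4073834488424) (nat_lit 152) (nat_lit 485232407796) (nat_lit 0) (nat_lit 4027150875023) (nat_lit 2) (nat_lit 5) (nat_lit 4) (nat_lit 4) (nat_lit 2) (nat_lit 4) (nat_lit 526) (nat_lit 425) (nat_lit 249)) (XT.nd (nat_lit 78) (nat_lit 0) (nat_lit 0) (XT.lf (nat_lit 0) (nat_lit 29791060374) (nat_lit 76) (nat_lit 4634280667132) (nat_lit 76) (nat_lit 4587597049200) (nat_lit 1) (nat_lit 4) (nat_lit 2) (nat_lit 5) (nat_lit 2) (nat_lit 4) (nat_lit 527) (nat_lit 425) (nat_lit 248)) (XT.lf (nat_lit 0) (nat_lit 613611894283) (nat_lit 76) (nat_lit 4701183112772) (nat_lit 76) (nat_lit 4654499490643) (nat_lit 1) (nat_lit 4) (nat_lit 2) (nat_lit 5) (nat_lit 2) (nat_lit 4) (nat_lit 528) (nat_lit 425) (nat_lit 247)))) (XT.nd (nat_lit 156) (nat_lit 0) (nat_lit 0) (XT.nd (nat_lit 78) (nat_lit 0) (nat_lit 0) (XT.lf (nat_lit 0) (nat_lit 1244138294257) (nat_lit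 76) (nat_lit 4773437806011) (nat_lit 76) (nat_lit 4726754179998) (nat_lit 1) (nat_lit 4) (nat_lit 2) (nat_lit 5) (nat_lit 2) (nat_lit 4) (nat_lit 529) (nat_lit 425) (nat_lit 246)) (XT.lf (nat_lit 0) (nat_lit 1925106713036) (nat_lit 76) (nat_lit 4851472922810) (nat_lit 76) (nat_lit 4804789293200) (nat_lit 1) (nat_lit 4) (nat_lit 2) (nat_lit 5) (nat_lit 2) (nat_lit 4) (nat_lit 530) (nat_lit 425) (nat_lit 245))) (XT.nd (nat_lit 78) (nat_lit 0) (nat_lit 0) (XT.lf (nat_lit 0) (nat_lit 2660552519030) (nat_lit 76) (nat_lit 4935750893491) (nat_lit 76) (nat_lit 4889067260550) (nat_lit 1) (nat_lit 4) (nat_lit 2) (nat_lit 5) (nat_lit 2) (nat_lit 4) (nat_lit 531) (nat_lit 425) (nat_lit 244)) (XT.lf (nat_lit 0) (nat_lit 3454833909605) (nat_lit 76) (nat_lit 5026771143065) (nat_lit 76) (nat_lit 4980087507040) (nat_lit 1) (nat_lit 4) (nat_lit 2) (nat_lit 5) (nat_lit 2) (nat_lit 4) (nat_lit 532) (nat_lit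 425) (nat_lit 243))))))) (XT.nd (nat_lit 936) (nat_lit 1520) (nat_lit 0) (XT.nd (nat_lit 468) (nat_lit 532) (nat_lit 0) (XT.nd (nat_lit 234) (nat_lit 456) (nat_lit 0) (XT.nd (nat_lit 78) (nat_lit 0) (nat_lit 0) (XT.lf (nat_lit 0) (nat_lit 14257515387) (nat_lit 532) (nat_lit 392323344) (nat_lit 532) (nat_lit 392323344) (nat_lit 81) (nat_lit 3) (nat_lit 88) (nat_lit 3) (nat_lit 88) (nat_lit 5) (nat_lit 426) (nat_lit 426) (nat_lit 348)) (XT.nd (nat_lit 78) (nat_lit 0) (nat_lit 76) (XT.lf (nat_lit 76) (nat_lit 14881838853) (nat_lit 0) (nat_lit 15200090497) (nat_lit 532) (nat_lit 1171645695) (nat_lit 82) (nat_lit 5) (nat_lit 81) (nat_lit 3) (nat_lit 88) (nat_lit 5) (nat_lit 427) (nat_lit 426) (nat_lit 347)) (XT.lf (nat_lit 0) (nat_lit 31789988692) (nat_lit 456) (nat_lit 674120882) (nat_lit 532) (nat_lit 50993553) (nat_lit 82) (nat_lit 5) (nat_lit 88) (nat_lit 5) (nat_lit 89) (nat_lit 5) (nat_lit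 428) (nat_lit 426) (nat_lit 346)))) (XT.nd (nat_lit 78) (nat_lit 0) (nat_lit 0) (XT.lf (nat_lit 0) (nat_lit 580305282) (nat_lit 532) (nat_lit 17112467765) (nat_lit 608) (nat_lit 16120367876) (nat_lit 75) (nat_lit 5) (nat_lit 82) (nat_lit 5) (nat_lit 83) (nat_lit 5) (nat_lit 429) (nat_lit 426) (nat_lit 345)) (XT.nd (nat_lit 78) (nat_lit 0) (nat_lit 76) (XT.lf (nat_lit 76) (nat_lit 280559055) (nat_lit 0) (nat_lit 1689943925) (nat_lit 608) (nat_lit 33241451931) (nat_lit 76) (nat_lit 5) (nat_lit 75) (nat_lit 5) (nat_lit 83) (nat_lit 5) (nat_lit 430) (nat_lit 426) (nat_lit 344)) (XT.lf (nat_lit 0) (nat_lit 4321218219) (nat_lit 532) (nat_lit 17038974414) (nat_lit 608) (nat_lit 15294538591) (nat_lit 76) (nat_lit 5) (nat_lit 83) (nat_lit 5) (nat_lit 84) (nat_lit 5) (nat_lit 431) (nat_lit 426) (nat_lit 343))))) (XT.nd (nat_lit 234) (nat_lit 228) (nat_lit 0) (XT.nd (nat_lit 78) (nat_lit 380) (nat_lit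 0) (XT.lf (nat_lit 76) (nat_lit 2354278814) (nat_lit 0) (nat_lit 4600901935) (nat_lit 608) (nat_lit 31250134933) (nat_lit 77) (nat_lit 5) (nat_lit 76) (nat_lit 5) (nat_lit 84) (nat_lit 5) (nat_lit 432) (nat_lit 426) (nat_lit 342)) (XT.nd (nat_lit 78) (nat_lit 456) (nat_lit 0) (XT.lf (nat_lit 0) (nat_lit 10597473592) (nat_lit 532) (nat_lit 15916164549) (nat_lit 76) (nat_lit 13302500843) (nat_lit 77) (nat_lit 5) (nat_lit 84) (nat_lit 5) (nat_lit 78) (nat_lit 5) (nat_lit 433) (nat_lit 426) (nat_lit 341)) (XT.lf (nat_lit 0) (nat_lit 5778671271) (nat_lit 456) (nat_lit 9006313829) (nat_lit 532) (nat_lit 26750537299) (nat_lit 71) (nat_lit 5) (nat_lit 77) (nat_lit 5) (nat_lit 78) (nat_lit 5) (nat_lit 434) (nat_lit 426) (nat_lit 340)))) (XT.nd (nat_lit 78) (nat_lit 228) (nat_lit 0) (XT.lf (nat_lit 0) (nat_lit 19987708723) (nat_lit 532) (nat_lit 13497458864) (nat_lit 76) (nat_lit 9852872991) (nat_lit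 71) (nat_lit 5) (nat_lit 78) (nat_lit 5) (nat_lit 72) (nat_lit 5) (nat_lit 435) (nat_lit 426) (nat_lit 339)) (XT.nd (nat_lit 78) (nat_lit 0) (nat_lit 0) (XT.lf (nat_lit 0) (nat_lit 10847072862) (nat_lit 228) (nat_lit 15250304171) (nat_lit 304) (nat_lit 19148125953) (nat_lit 68) (nat_lit 5) (nat_lit 71) (nat_lit 5) (nat_lit 72) (nat_lit 5) (nat_lit 436) (nat_lit 426) (nat_lit 338)) (XT.lf (nat_lit 0) (nat_lit 33177429340) (nat_lit 304) (nat_lit 9490198191) (nat_lit 76) (nat_lit 4599406859) (nat_lit 68) (nat_lit 5) (nat_lit 72) (nat_lit 5) (nat_lit 69) (nat_lit 5) (nat_lit 437) (nat_lit 426) (nat_lit 337)))))) (XT.nd (nat_lit 468) (nat_lit 684) (nat_lit 0) (XT.nd (nat_lit 234) (nat_lit 380) (nat_lit 0) (XT.nd (nat_lit 78) (nat_lit 228) (nat_lit 0) (XT.lf (nat_lit 0) (nat_lit 17906161117) (nat_lit 228) (nat_lit 23740885564) (nat_lit 304) (nat_lit 7737389543) (nat_lit 65) (nat_lit 5) (nat_lit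 68) (nat_lit 5) (nat_lit 69) (nat_lit 5) (nat_lit 438) (nat_lit 426) (nat_lit 336)) (XT.nd (nat_lit 78) (nat_lit 228) (nat_lit 0) (XT.lf (nat_lit 0) (nat_lit 48029892335) (nat_lit 228) (nat_lit 3020394150) (nat_lit 304) (nat_lit 600460198) (nat_lit 65) (nat_lit 5) (nat_lit 68) (nat_lit 5) (nat_lit 69) (nat_lit 5) (nat_lit 439) (nat_lit 426) (nat_lit 335)) (XT.lf (nat_lit 0) (nat_lit 7901469100) (nat_lit 228) (nat_lit 26844265183) (nat_lit 76) (nat_lit 19246986606) (nat_lit 62) (nat_lit 5) (nat_lit 65) (nat_lit 5) (nat_lit 63) (nat_lit 5) (nat_lit 440) (nat_lit 426) (nat_lit 334)))) (XT.nd (nat_lit 78) (nat_lit 152) (nat_lit 0) (XT.lf (nat_lit 0) (nat_lit 4179497536) (nat_lit 228) (nat_lit 13149032376) (nat_lit 304) (nat_lit 39170082578) (nat_lit 59) (nat_lit 5) (nat_lit 62) (nat_lit 5) (nat_lit 63) (nat_lit 5) (nat_lit 441) (nat_lit 426) (nat_lit 333)) (XT.nd (nat_lit 78) (nat_lit 152)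 (nat_lit 0) (XT.lf (nat_lit 0) (nat_lit 28504498042) (nat_lit 304) (nat_lit 20202392859) (nat_lit 76) (nat_lit 10418505655) (nat_lit 59) (nat_lit 5) (nat_lit 63) (nat_lit 5) (nat_lit 60) (nat_lit 5) (nat_lit 442) (nat_lit 426) (nat_lit 332)) (XT.lf (nat_lit 0) (nat_lit 14882768435) (nat_lit 152) (nat_lit 26388452184) (nat_lit 228) (nat_lit 20635369063) (nat_lit 57) (nat_lit 5) (nat_lit 59) (nat_lit 5) (nat_lit 60) (nat_lit 5) (nat_lit 443) (nat_lit 426) (nat_lit 331))))) (XT.nd (nat_lit 234) (nat_lit 304) (nat_lit 0) (XT.nd (nat_lit 78) (nat_lit 380) (nat_lit 0) (XT.lf (nat_lit 0) (nat_lit 53919906766) (nat_lit 152) (nat_lit 1689072150) (nat_lit 228) (nat_lit 9257323966) (nat_lit 57) (nat_lit 5) (nat_lit 59) (nat_lit 5) (nat_lit 60) (nat_lit 5) (nat_lit 444) (nat_lit 426) (nat_lit 330)) (XT.nd (nat_lit 78) (nat_lit 152) (nat_lit 0) (XT.lf (nat_lit 0) (nat_lit 4205325714) (nat_lit 228) (nat_lit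 39209719298) (nat_lit 76) (nat_lit 24535838369) (nat_lit 54) (nat_lit 5) (nat_lit 57) (nat_lit 5) (nat_lit 55) (nat_lit 5) (nat_lit 445) (nat_lit 426) (nat_lit 329)) (XT.lf (nat_lit 0) (nat_lit 707577223) (nat_lit 152) (nat_lit 17902770004) (nat_lit 228) (nat_lit 52623407795) (nat_lit 52) (nat_lit 5) (nat_lit 54) (nat_lit 5) (nat_lit 55) (nat_lit 5) (nat_lit 446) (nat_lit 426) (nat_lit 328)))) (XT.nd (nat_lit 156) (nat_lit 152) (nat_lit 0) (XT.nd (nat_lit 78) (nat_lit 152) (nat_lit 0) (XT.lf (nat_lit 0) (nat_lit 35497378636) (nat_lit 228) (nat_lit 28909045224) (nat_lit 76) (nat_lit 10266464216) (nat_lit 52) (nat_lit 5) (nat_lit 55) (nat_lit 5) (nat_lit 53) (nat_lit 5) (nat_lit 447) (nat_lit 426) (nat_lit 327)) (XT.lf (nat_lit 0) (nat_lit 16388801277) (nat_lit 152) (nat_lit 38203511507) (nat_lit 228) (nat_lit 23726284084) (nat_lit 50) (nat_lit 5) (nat_lit 52) (nat_lit 5) (nat_lit 53) (nat_lit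 5) (nat_lit 448) (nat_lit 426) (nat_lit 326))) (XT.nd (nat_lit 78) (nat_lit 152) (nat_lit 0) (XT.lf (nat_lit 0) (nat_lit 66951162834) (nat_lit 152) (nat_lit 9051968125) (nat_lit 228) (nat_lit 6189768549) (nat_lit 50) (nat_lit 5) (nat_lit 52) (nat_lit 5) (nat_lit 53) (nat_lit 5) (nat_lit 449) (nat_lit 426) (nat_lit 325)) (XT.lf (nat_lit 0) (nat_lit 13563020297) (nat_lit 152) (nat_lit 50144744521) (nat_lit 76) (nat_lit 22528760033) (nat_lit 48) (nat_lit 5) (nat_lit 50) (nat_lit 5) (nat_lit 49) (nat_lit 5) (nat_lit 450) (nat_lit 426) (nat_lit 324))))))))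
noncomputable def xc156 : XT := (XT.nd (nat_lit 1950) (nat_lit 1292) (nat_lit 0) (XT.nd (nat_lit 936) (nat_lit 836) (nat_lit 0) (XT.nd (nat_lit 468) (nat_lit 380) (nat_lit 0) (XT.nd (nat_lit 234) (nat_lit 304) (nat_lit 0) (XT.nd (nat_lit 78) (nat_lit 76) (nat_lit 0) (XT.lf (nat_lit 0) (nat_lit 1493173111) (nat_lit 152) (nat_lit 33765054358) (nat_lit 228) (nat_lit 55276822847) (nat_lit 46) (nat_lit 5) (nat_lit 48) (nat_lit 5) (nat_lit 49) (nat_lit 5) (nat_lit 451) (nat_lit 426) (nat_lit 323)) (XT.nd (nat_lit 78) (nat_lit 76) (nat_lit 0) (XT.lf (nat_lit 0) (nat_lit 60059445982) (nat_lit 228) (nat_lit 34958502841) (nat_lit 76) (nat_lit 49877624) (nat_lit 46) (nat_lit 5) (nat_lit 49) (nat_lit 5) (nat_lit 47) (nat_lit 4) (nat_lit 452) (nat_lit 426) (nat_lit 322)) (XT.lf (nat_lit 0) (nat_lit 23760011126) (nat_lit 76) (nat_lit 64531392817) (nat_lit 152) (nat_lit 11556089565) (nat_lit 45) (nat_lit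 5) (nat_lit 46) (nat_lit 5) (nat_lit 47) (nat_lit 4) (nat_lit 453) (nat_lit 426) (nat_lit 321)))) (XT.nd (nat_lit 78) (nat_lit 228) (nat_lit 0) (XT.lf (nat_lit 0) (nat_lit 14062302655) (nat_lit 152) (nat_lit 16128097315) (nat_lit 76) (nat_lit 74714326558) (nat_lit 44) (nat_lit 5) (nat_lit 46) (nat_lit 5) (nat_lit 45) (nat_lit 5) (nat_lit 454) (nat_lit 426) (nat_lit 320)) (XT.nd (nat_lit 78) (nat_lit 76) (nat_lit 0) (XT.lf (nat_lit 0) (nat_lit 42533039849) (nat_lit 228) (nat_lit 59580507016) (nat_lit 76) (nat_lit 8114802619) (nat_lit 42) (nat_lit 5) (nat_lit 45) (nat_lit 5) (nat_lit 43) (nat_lit 4) (nat_lit 455) (nat_lit 426) (nat_lit 319)) (XT.lf (nat_lit 0) (nat_lit 7307523571) (nat_lit 76) (nat_lit 67384622177) (nat_lit 152) (nat_lit 41172859895) (nat_lit 41) (nat_lit 5) (nat_lit 42) (nat_lit 5) (nat_lit 43) (nat_lit 4) (nat_lit 456) (nat_lit 426) (nat_lit 318))))) (XT.nd (nat_lit 234)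 (nat_lit 228) (nat_lit 0) (XT.nd (nat_lit 78) (nat_lit 152) (nat_lit 0) (XT.lf (nat_lit 0) (nat_lit 82932165920) (nat_lit 76) (nat_lit 28119276222) (nat_lit 152) (nat_lit 10770955323) (nat_lit 41) (nat_lit 5) (nat_lit 42) (nat_lit 5) (nat_lit 43) (nat_lit 4) (nat_lit 457) (nat_lit 426) (nat_lit 317)) (XT.nd (nat_lit 78) (nat_lit 0) (nat_lit 0) (XT.lf (nat_lit 0) (nat_lit 22245597089) (nat_lit 152) (nat_lit 90819276871) (nat_lit 76) (nat_lit 15046162846) (nat_lit 39) (nat_lit 5) (nat_lit 41) (nat_lit 5) (nat_lit 40) (nat_lit 4) (nat_lit 458) (nat_lit 426) (nat_lit 316)) (XT.lf (nat_lit 0) (nat_lit 59141403168) (nat_lit 152) (nat_lit 14078138930) (nat_lit 76) (nat_lit 61515256828) (nat_lit 39) (nat_lit 5) (nat_lit 41) (nat_lit 5) (nat_lit 40) (nat_lit 4) (nat_lit 459) (nat_lit 426) (nat_lit 315)))) (XT.nd (nat_lit 78) (nat_lit 152) (nat_lit 0) (XT.lf (nat_lit 0) (nat_lit 72422649723) (nat_lit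 76) (nat_lit 28306623125) (nat_lit 152) (nat_lit 41019957337) (nat_lit 38) (nat_lit 5) (nat_lit 39) (nat_lit 5) (nat_lit 40) (nat_lit 4) (nat_lit 460) (nat_lit 426) (nat_lit 314)) (XT.nd (nat_lit 78) (nat_lit 76) (nat_lit 0) (XT.lf (nat_lit 0) (nat_lit 17739178786) (nat_lit 76) (nat_lit 129210982483) (nat_lit 76) (nat_lit 2270175634) (nat_lit 37) (nat_lit 4) (nat_lit 38) (nat_lit 5) (nat_lit 38) (nat_lit 4) (nat_lit 461) (nat_lit 426) (nat_lit 313)) (XT.lf (nat_lit 0) (nat_lit 40278294504) (nat_lit 152) (nat_lit 43163526290) (nat_lit 76) (nat_lit 73556869260) (nat_lit 36) (nat_lit 5) (nat_lit 38) (nat_lit 5) (nat_lit 37) (nat_lit 4) (nat_lit 462) (nat_lit 426) (nat_lit 312)))))) (XT.nd (nat_lit 468) (nat_lit 456) (nat_lit 0) (XT.nd (nat_lit 234) (nat_lit 152) (nat_lit 0) (XT.nd (nat_lit 78) (nat_lit 152) (nat_lit 0) (XT.lf (nat_lit 0) (nat_lit 54904760055) (nat_lit 76) (nat_lit 32522448829)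 (nat_lit 152) (nat_lit 77861848190) (nat_lit 35) (nat_lit 5) (nat_lit 36) (nat_lit 5) (nat_lit 37) (nat_lit 4) (nat_lit 463) (nat_lit 426) (nat_lit 311)) (XT.nd (nat_lit 78) (nat_lit 152) (nat_lit 0) (XT.lf (nat_lit 0) (nat_lit 140098038327) (nat_lit 152) (nat_lit 11448412065) (nat_lit 0) (nat_lit 22556202981) (nat_lit 35) (nat_lit 5) (nat_lit 37) (nat_lit 4) (nat_lit 35) (nat_lit 4) (nat_lit 464) (nat_lit 426) (nat_lit 310)) (XT.lf (nat_lit 0) (nat_lit 16014307891) (nat_lit 152) (nat_lit 84233230407) (nat_lit 76) (nat_lit 83082372779) (nat_lit 33) (nat_lit 5) (nat_lit 35) (nat_lit 5) (nat_lit 34) (nat_lit 4) (nat_lit 465) (nat_lit 426) (nat_lit 309)))) (XT.nd (nat_lit 78) (nat_lit 76) (nat_lit 0) (XT.lf (nat_lit 0) (nat_lit 26287609898) (nat_lit 76) (nat_lit 42862231737) (nat_lit 152) (nat_lit 123998670520) (nat_lit 32) (nat_lit 5) (nat_lit 33) (nat_lit 5) (nat_lit 34) (nat_lit 4) (nat_lit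 466) (nat_lit 426) (nat_lit 308)) (XT.nd (nat_lit 78) (nat_lit 76) (nat_lit 0) (XT.lf (nat_lit 0) (nat_lit 129357683782) (nat_lit 152) (nat_lit 53649527051) (nat_lit 0) (nat_lit 20519673282) (nat_lit 32) (nat_lit 5) (nat_lit 34) (nat_lit 4) (nat_lit 32) (nat_lit 4) (nat_lit 467) (nat_lit 426) (nat_lit 307)) (XT.lf (nat_lit 0) (nat_lit 71058028332) (nat_lit 76) (nat_lit 126145330456) (nat_lit 76) (nat_lit 17306470648) (nat_lit 31) (nat_lit 4) (nat_lit 32) (nat_lit 5) (nat_lit 32) (nat_lit 4) (nat_lit 468) (nat_lit 426) (nat_lit 306))))) (XT.nd (nat_lit 234) (nat_lit 228) (nat_lit 0) (XT.nd (nat_lit 78) (nat_lit 152) (nat_lit 0) (XT.lf (nat_lit 0) (nat_lit 43402883391) (nat_lit 152) (nat_lit 18561648752) (nat_lit 76) (nat_lit 164201705196) (nat_lit 30) (nat_lit 5) (nat_lit 32) (nat_lit 5) (nat_lit 31) (nat_lit 4) (nat_lit 469) (nat_lit 426) (nat_lit 305)) (XT.nd (nat_lit 78) (nat_lit 76)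 (nat_lit 0) (XT.lf (nat_lit 0) (nat_lit 111231026271) (nat_lit 152) (nat_lit 116779505111) (nat_lit 0) (nat_lit 10452901872) (nat_lit 29) (nat_lit 5) (nat_lit 31) (nat_lit 4) (nat_lit 29) (nat_lit 4) (nat_lit 470) (nat_lit 426) (nat_lit 304)) (XT.lf (nat_lit 0) (nat_lit 21975735795) (nat_lit 76) (nat_lit 165167400256) (nat_lit 76) (nat_lit 64388651589) (nat_lit 28) (nat_lit 4) (nat_lit 29) (nat_lit 5) (nat_lit 29) (nat_lit 4) (nat_lit 471) (nat_lit 426) (nat_lit 303)))) (XT.nd (nat_lit 156) (nat_lit 76) (nat_lit 0) (XT.nd (nat_lit 78) (nat_lit 76) (nat_lit 0) (XT.lf (nat_lit 0) (nat_lit 6583325067) (nat_lit 152) (nat_lit 87086010552) (nat_lit 76) (nat_lit 171707579465) (nat_lit 27) (nat_lit 5) (nat_lit 29) (nat_lit 5) (nat_lit 28) (nat_lit 4) (nat_lit 472) (nat_lit 426) (nat_lit 302)) (XT.lf (nat_lit 0) (nat_lit 68535888642) (nat_lit 76) (nat_lit 12865914503) (nat_lit 152) (nat_lit 198662262771)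 (nat_lit 26) (nat_lit 5) (nat_lit 27) (nat_lit 5) (nat_lit 28) (nat_lit 4) (nat_lit 473) (nat_lit 426) (nat_lit 301))) (XT.nd (nat_lit 78) (nat_lit 76) (nat_lit 0) (XT.lf (nat_lit 0) (nat_lit 166437173583) (nat_lit 152) (nat_lit 56028474345) (nat_lit 0) (nat_lit 73122027783) (nat_lit 26) (nat_lit 5) (nat_lit 28) (nat_lit 4) (nat_lit 26) (nat_lit 4) (nat_lit 474) (nat_lit 426) (nat_lit 300)) (XT.lf (nat_lit 0) (nat_lit 117450758423) (nat_lit 76) (nat_lit 143982671045) (nat_lit 76) (nat_lit 50667100379) (nat_lit 25) (nat_lit 4) (nat_lit 26) (nat_lit 5) (nat_lit 26) (nat_lit 4) (nat_lit 475) (nat_lit 426) (nat_lit 299))))))) (XT.nd (nat_lit 936) (nat_lit 608) (nat_lit 0) (XT.nd (nat_lit 468) (nat_lit 304) (nat_lit 0) (XT.nd (nat_lit 234) (nat_lit 152) (nat_lit 0) (XT.nd (nat_lit 78) (nat_lit 152) (nat_lit 0) (XT.lf (nat_lit 0) (nat_lit 33960297031) (nat_lit 152) (nat_lit 22678546234) (nat_lit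 76) (nat_lit 273104298898) (nat_lit 24) (nat_lit 5) (nat_lit 26) (nat_lit 5) (nat_lit 25) (nat_lit 4) (nat_lit 476) (nat_lit 426) (nat_lit 298)) (XT.nd (nat_lit 78) (nat_lit 76) (nat_lit 0) (XT.lf (nat_lit 0) (nat_lit 127761314183) (nat_lit 152) (nat_lit 179161999136) (nat_lit 0) (nat_lit 41357306485) (nat_lit 23) (nat_lit 5) (nat_lit 25) (nat_lit 4) (nat_lit 23) (nat_lit 4) (nat_lit 477) (nat_lit 426) (nat_lit 297)) (XT.lf (nat_lit 0) (nat_lit 8220273725) (nat_lit 76) (nat_lit 223150400508) (nat_lit 76) (nat_lit 136746080520) (nat_lit 22) (nat_lit 4) (nat_lit 23) (nat_lit 5) (nat_lit 23) (nat_lit 4) (nat_lit 478) (nat_lit 426) (nat_lit 296)))) (XT.nd (nat_lit 78) (nat_lit 152) (nat_lit 0) (XT.lf (nat_lit 0) (nat_lit 220780755234) (nat_lit 76) (nat_lit 127385902236) (nat_lit 76) (nat_lit 40981293092) (nat_lit 22) (nat_lit 4) (nat_lit 23) (nat_lit 5) (nat_lit 23) (nat_lit 4) (nat_lit 479)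 (nat_lit 426) (nat_lit 295)) (XT.nd (nat_lit 78) (nat_lit 0) (nat_lit 0) (XT.lf (nat_lit 0) (nat_lit 38928601315) (nat_lit 76) (nat_lit 21327878586) (nat_lit 152) (nat_lit 351410175409) (nat_lit 20) (nat_lit 5) (nat_lit 21) (nat_lit 5) (nat_lit 22) (nat_lit 4) (nat_lit 480) (nat_lit 426) (nat_lit 294)) (XT.lf (nat_lit 0) (nat_lit 174343372647) (nat_lit 152) (nat_lit 166662568222) (nat_lit 0) (nat_lit 94338627474) (nat_lit 20) (nat_lit 5) (nat_lit 22) (nat_lit 4) (nat_lit 20) (nat_lit 4) (nat_lit 481) (nat_lit 426) (nat_lit 293))))) (XT.nd (nat_lit 234) (nat_lit 76) (nat_lit 0) (XT.nd (nat_lit 78) (nat_lit 152) (nat_lit 0) (XT.lf (nat_lit 0) (nat_lit 58257985656) (nat_lit 76) (nat_lit 241253665855) (nat_lit 76) (nat_lit 161248708143) (nat_lit 19) (nat_lit 4) (nat_lit 20) (nat_lit 5) (nat_lit 20) (nat_lit 4) (nat_lit 482) (nat_lit 426) (nat_lit 292)) (XT.nd (nat_lit 78) (nat_lit 152) (nat_lit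 0) (XT.lf (nat_lit 0) (nat_lit 310649164421) (nat_lit 76) (nat_lit 128600453185) (nat_lit 76) (nat_lit 48595298678) (nat_lit 19) (nat_lit 4) (nat_lit 20) (nat_lit 5) (nat_lit 20) (nat_lit 4) (nat_lit 483) (nat_lit 426) (nat_lit 291)) (XT.lf (nat_lit 0) (nat_lit 67766821682) (nat_lit 76) (nat_lit 3277485243) (nat_lit 152) (nat_lit 445781006980) (nat_lit 17) (nat_lit 5) (nat_lit 18) (nat_lit 5) (nat_lit 19) (nat_lit 4) (nat_lit 484) (nat_lit 426) (nat_lit 290)))) (XT.nd (nat_lit 78) (nat_lit 76) (nat_lit 0) (XT.lf (nat_lit 0) (nat_lit 205776084706) (nat_lit 152) (nat_lit 209898455430) (nat_lit 0) (nat_lit 131696912998) (nat_lit 17) (nat_lit 5) (nat_lit 19) (nat_lit 4) (nat_lit 17) (nat_lit 4) (nat_lit 485) (nat_lit 426) (nat_lit 289)) (XT.nd (nat_lit 78) (nat_lit 0) (nat_lit 0) (XT.lf (nat_lit 0) (nat_lit 50851958938) (nat_lit 76) (nat_lit 301742017592) (nat_lit 76) (nat_lit 227662701234)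 (nat_lit 16) (nat_lit 4) (nat_lit 17) (nat_lit 5) (nat_lit 17) (nat_lit 4) (nat_lit 486) (nat_lit 426) (nat_lit 288)) (XT.lf (nat_lit 0) (nat_lit 344398429056) (nat_lit 76) (nat_lit 172497332336) (nat_lit 76) (nat_lit 98417882043) (nat_lit 16) (nat_lit 4) (nat_lit 17) (nat_lit 5) (nat_lit 17) (nat_lit 4) (nat_lit 487) (nat_lit 426) (nat_lit 287)))))) (XT.nd (nat_lit 468) (nat_lit 228) (nat_lit 0) (XT.nd (nat_lit 234) (nat_lit 228) (nat_lit 0) (XT.nd (nat_lit 78) (nat_lit 0) (nat_lit 0) (XT.lf (nat_lit 0) (nat_lit 7644782930) (nat_lit 76) (nat_lit 31645773434) (nat_lit 152) (nat_lit 613790737544) (nat_lit 14) (nat_lit 5) (nat_lit 15) (nat_lit 5) (nat_lit 16) (nat_lit 4) (nat_lit 488) (nat_lit 426) (nat_lit 286)) (XT.nd (nat_lit 78) (nat_lit 0) (nat_lit 0) (XT.lf (nat_lit 0) (nat_lit 193195141477) (nat_lit 152) (nat_lit 375028146050) (nat_lit 0) (nat_lit 124602836721) (nat_lit 14) (nat_lit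 5) (nat_lit 16) (nat_lit 4) (nat_lit 14) (nat_lit 4) (nat_lit 489) (nat_lit 426) (nat_lit 285)) (XT.lf (nat_lit 0) (nat_lit 360233592664) (nat_lit 152) (nat_lit 83810038954) (nat_lit 0) (nat_lit 291641189462) (nat_lit 14) (nat_lit 5) (nat_lit 16) (nat_lit 4) (nat_lit 14) (nat_lit 4) (nat_lit 490) (nat_lit 426) (nat_lit 284)))) (XT.nd (nat_lit 78) (nat_lit 152) (nat_lit 0) (XT.lf (nat_lit 0) (nat_lit 242853125763) (nat_lit 76) (nat_lit 303622183553) (nat_lit 76) (nat_lit 235029689197) (nat_lit 13) (nat_lit 4) (nat_lit 14) (nat_lit 5) (nat_lit 14) (nat_lit 4) (nat_lit 491) (nat_lit 426) (nat_lit 283)) (XT.nd (nat_lit 78) (nat_lit 152) (nat_lit 0) (XT.lf (nat_lit 0) (nat_lit 600414829456) (nat_lit 76) (nat_lit 149492626036) (nat_lit 76) (nat_lit 80900047278) (nat_lit 13) (nat_lit 4) (nat_lit 14) (nat_lit 5) (nat_lit 14) (nat_lit 4) (nat_lit 492) (nat_lit 426) (nat_lit 282)) (XT.lf (nat_lit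 0) (nat_lit 84350586488) (nat_lit 152) (nat_lit 778454482096) (nat_lit 0) (nat_lit 20838867128) (nat_lit 11) (nat_lit 5) (nat_lit 13) (nat_lit 4) (nat_lit 11) (nat_lit 4) (nat_lit 493) (nat_lit 426) (nat_lit 281))))) (XT.nd (nat_lit 234) (nat_lit 152) (nat_lit 0) (XT.nd (nat_lit 78) (nat_lit 76) (nat_lit 0) (XT.lf (nat_lit 0) (nat_lit 268796054709) (nat_lit 152) (nat_lit 465631217233) (nat_lit 0) (nat_lit 205284268348) (nat_lit 11) (nat_lit 5) (nat_lit 13) (nat_lit 4) (nat_lit 11) (nat_lit 4) (nat_lit 494) (nat_lit 426) (nat_lit 280)) (XT.nd (nat_lit 78) (nat_lit 76) (nat_lit 0) (XT.lf (nat_lit 0) (nat_lit 467996789045) (nat_lit 152) (nat_lit 127782853253) (nat_lit 0) (nat_lit 404484940646) (nat_lit 11) (nat_lit 5) (nat_lit 13) (nat_lit 4) (nat_lit 11) (nat_lit 4) (nat_lit 495) (nat_lit 426) (nat_lit 279)) (XT.lf (nat_lit 0) (nat_lit 249577554282) (nat_lit 76) (nat_lit 439558030193) (nat_lit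 76) (nat_lit 376046124352) (nat_lit 10) (nat_lit 4) (nat_lit 11) (nat_lit 5) (nat_lit 11) (nat_lit 4) (nat_lit 496) (nat_lit 426) (nat_lit 278)))) (XT.nd (nat_lit 156) (nat_lit 152) (nat_lit 0) (XT.nd (nat_lit 78) (nat_lit 0) (nat_lit 0) (XT.lf (nat_lit 0) (nat_lit 664393230752) (nat_lit 76) (nat_lit 267065727539) (nat_lit 76) (nat_lit 203553768510) (nat_lit 10) (nat_lit 4) (nat_lit 11) (nat_lit 5) (nat_lit 11) (nat_lit 4) (nat_lit 497) (nat_lit 426) (nat_lit 277)) (XT.lf (nat_lit 0) (nat_lit 1112393524527) (nat_lit 76) (nat_lit 80774367388) (nat_lit 76) (nat_lit 17262359111) (nat_lit 10) (nat_lit 4) (nat_lit 11) (nat_lit 5) (nat_lit 11) (nat_lit 4) (nat_lit 498) (nat_lit 426) (nat_lit 276))) (XT.nd (nat_lit 78) (nat_lit 0) (nat_lit 0) (XT.lf (nat_lit 0) (nat_lit 185532378698) (nat_lit 152) (nat_lit 978405906276) (nat_lit 0) (nat_lit 126724921405) (nat_lit 8) (nat_lit 5) (nat_lit 10) (nat_lit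 4) (nat_lit 8) (nat_lit 4) (nat_lit 499) (nat_lit 426) (nat_lit 275)) (XT.lf (nat_lit 0) (nat_lit 408465942207) (nat_lit 152) (nat_lit 618766711305) (nat_lit 0) (nat_lit 349658445819) (nat_lit 8) (nat_lit 5) (nat_lit 10) (nat_lit 4) (nat_lit 8) (nat_lit 4) (nat_lit 500) (nat_lit 426) (nat_lit 274))))))))
noncomputable def xc157 : XT := (XT.nd (nat_lit 1950) (nat_lit 76) (nat_lit 0) (XT.nd (nat_lit 936) (nat_lit 152) (nat_lit 0) (XT.nd (nat_lit 468) (nat_lit 76) (nat_lit 0) (XT.nd (nat_lit 234) (nat_lit 152) (nat_lit 0) (XT.nd (nat_lit 78) (nat_lit 76) (nat_lit 0) (XT.lf (nat_lit 0) (nat_lit 649233918354) (nat_lit 152) (nat_lit 230356941393) (nat_lit 0) (nat_lit 590426385767) (nat_lit 8) (nat_lit 5) (nat_lit 10) (nat_lit 4) (nat_lit 8) (nat_lit 4) (nat_lit 501) (nat_lit 426) (nat_lit 273)) (XT.nd (nat_lit 78) (nat_lit 0) (nat_lit 0) (XT.lf (nat_lit 0) (nat_lit 199084083116) (nat_lit 76)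 (nat_lit 714966974203) (nat_lit 76) (nat_lit 656159408099) (nat_lit 7) (nat_lit 4) (nat_lit 8) (nat_lit 5) (nat_lit 8) (nat_lit 4) (nat_lit 502) (nat_lit 426) (nat_lit 272)) (XT.lf (nat_lit 0) (nat_lit 675980486972) (nat_lit 76) (nat_lit 530371201690) (nat_lit 76) (nat_lit 471563604552) (nat_lit 7) (nat_lit 4) (nat_lit 8) (nat_lit 5) (nat_lit 8) (nat_lit 4) (nat_lit 503) (nat_lit 426) (nat_lit 271)))) (XT.nd (nat_lit 78) (nat_lit 152) (nat_lit 0) (XT.lf (nat_lit 0) (nat_lit 1191028134632) (nat_lit 76) (nat_lit 331008008340) (nat_lit 76) (nat_lit 272200382466) (nat_lit 7) (nat_lit 4) (nat_lit 8) (nat_lit 5) (nat_lit 8) (nat_lit 4) (nat_lit 504) (nat_lit 426) (nat_lit 270)) (XT.nd (nat_lit 78) (nat_lit 152) (nat_lit 0) (XT.lf (nat_lit 0) (nat_lit 1747279160304) (nat_lit 76) (nat_lit 115695982636) (nat_lit 76) (nat_lit 56888330155) (nat_lit 7) (nat_lit 4) (nat_lit 8) (nat_lit 5) (nat_lit 8)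 (nat_lit 4) (nat_lit 505) (nat_lit 426) (nat_lit 269)) (XT.lf (nat_lit 0) (nat_lit 177268975539) (nat_lit 152) (nat_lit 1754283674137) (nat_lit 0) (nat_lit 122817422653) (nat_lit 5) (nat_lit 5) (nat_lit 7) (nat_lit 4) (nat_lit 5) (nat_lit 4) (nat_lit 506) (nat_lit 426) (nat_lit 268))))) (XT.nd (nat_lit 234) (nat_lit 76) (nat_lit 0) (XT.nd (nat_lit 78) (nat_lit 0) (nat_lit 0) (XT.lf (nat_lit 0) (nat_lit 434931634919) (nat_lit 152) (nat_lit 1383479596817) (nat_lit 0) (nat_lit 380480060912) (nat_lit 5) (nat_lit 5) (nat_lit 7) (nat_lit 4) (nat_lit 5) (nat_lit 4) (nat_lit 507) (nat_lit 426) (nat_lit 267)) (XT.nd (nat_lit 78) (nat_lit 0) (nat_lit 0) (XT.lf (nat_lit 0) (nat_lit 713207121904) (nat_lit 152) (nat_lit 983011575163) (nat_lit 0) (nat_lit 658755528340) (nat_lit 5) (nat_lit 5) (nat_lit 7) (nat_lit 4) (nat_lit 5) (nat_lit 4) (nat_lit 508) (nat_lit 426) (nat_lit 266)) (XT.lf (nat_lit 0)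 (nat_lit 1013744476416) (nat_lit 152) (nat_lit 550506465342) (nat_lit 0) (nat_lit 959292864744) (nat_lit 5) (nat_lit 5) (nat_lit 7) (nat_lit 4) (nat_lit 5) (nat_lit 4) (nat_lit 509) (nat_lit 426) (nat_lit 265)))) (XT.nd (nat_lit 78) (nat_lit 76) (nat_lit 0) (XT.lf (nat_lit 0) (nat_lit 1338324660556) (nat_lit 152) (nat_lit 83401274112) (nat_lit 0) (nat_lit 1283873032117) (nat_lit 5) (nat_lit 5) (nat_lit 7) (nat_lit 4) (nat_lit 5) (nat_lit 4) (nat_lit 510) (nat_lit 426) (nat_lit 264)) (XT.nd (nat_lit 78) (nat_lit 0) (nat_lit 0) (XT.lf (nat_lit 0) (nat_lit 443244936150) (nat_lit 76) (nat_lit 1256286227676) (nat_lit 76) (nat_lit 1201834583712) (nat_lit 4) (nat_lit 4) (nat_lit 5) (nat_lit 5) (nat_lit 5) (nat_lit 4) (nat_lit 511) (nat_lit 426) (nat_lit 263)) (XT.lf (nat_lit 0) (nat_lit 1016765652141) (nat_lit 76) (nat_lit 1075148730658) (nat_lit 76) (nat_lit 1020697072318) (nat_lit 4) (nat_lit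 4) (nat_lit 5) (nat_lit 5) (nat_lit 5) (nat_lit 4) (nat_lit 512) (nat_lit 426) (nat_lit 262)))))) (XT.nd (nat_lit 468) (nat_lit 0) (nat_lit 0) (XT.nd (nat_lit 234) (nat_lit 152) (nat_lit 0) (XT.nd (nat_lit 78) (nat_lit 0) (nat_lit 0) (XT.lf (nat_lit 0) (nat_lit 1636167751846) (nat_lit 76) (nat_lit 879520374858) (nat_lit 76) (nat_lit 825068703208) (nat_lit 4) (nat_lit 4) (nat_lit 5) (nat_lit 5) (nat_lit 5) (nat_lit 4) (nat_lit 513) (nat_lit 426) (nat_lit 261)) (XT.nd (nat_lit 78) (nat_lit 0) (nat_lit 0) (XT.lf (nat_lit 0) (nat_lit 2305121766224) (nat_lit 76) (nat_lit 668241881130) (nat_lit 76) (nat_lit 613790197156) (nat_lit 4) (nat_lit 4) (nat_lit 5) (nat_lit 5) (nat_lit 5) (nat_lit 4) (nat_lit 514) (nat_lit 426) (nat_lit 260)) (XT.lf (nat_lit 0) (nat_lit 3027591867215) (nat_lit 76) (nat_lit 440061228771) (nat_lit 76) (nat_lit 385609533386) (nat_lit 4) (nat_lit 4) (nat_lit 5) (nat_lit 5)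 (nat_lit 5) (nat_lit 4) (nat_lit 515) (nat_lit 426) (nat_lit 259)))) (XT.nd (nat_lit 78) (nat_lit 152) (nat_lit 0) (XT.lf (nat_lit 0) (nat_lit 3807859359118) (nat_lit 76) (nat_lit 193626236138) (nat_lit 76) (nat_lit 139174530186) (nat_lit 4) (nat_lit 4) (nat_lit 5) (nat_lit 5) (nat_lit 5) (nat_lit 4) (nat_lit 516) (nat_lit 426) (nat_lit 258)) (XT.nd (nat_lit 78) (nat_lit 0) (nat_lit 0) (XT.lf (nat_lit 0) (nat_lit 127549328976) (nat_lit 152) (nat_lit 4245570648036) (nat_lit 0) (nat_lit 77131073666) (nat_lit 2) (nat_lit 5) (nat_lit 4) (nat_lit 4) (nat_lit 2) (nat_lit 4) (nat_lit 517) (nat_lit 426) (nat_lit 257)) (XT.lf (nat_lit 0) (nat_lit 422456920104) (nat_lit 152) (nat_lit 3988675290573) (nat_lit 0) (nat_lit 372038656406) (nat_lit 2) (nat_lit 5) (nat_lit 4) (nat_lit 4) (nat_lit 2) (nat_lit 4) (nat_lit 518) (nat_lit 426) (nat_lit 256))))) (XT.nd (nat_lit 234) (nat_lit 0) (nat_lit 0) (XT.nd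 (nat_lit 78) (nat_lit 0) (nat_lit 0) (XT.lf (nat_lit 0) (nat_lit 740957026011) (nat_lit 152) (nat_lit 3711228495642) (nat_lit 0) (nat_lit 690538754547) (nat_lit 2) (nat_lit 5) (nat_lit 4) (nat_lit 4) (nat_lit 2) (nat_lit 4) (nat_lit 519) (nat_lit 426) (nat_lit 255)) (XT.nd (nat_lit 78) (nat_lit 0) (nat_lit 0) (XT.lf (nat_lit 0) (nat_lit 1084937054733) (nat_lit 152) (nat_lit 3411586134090) (nat_lit 0) (nat_lit 1034518776078) (nat_lit 2) (nat_lit 5) (nat_lit 4) (nat_lit 4) (nat_lit 2) (nat_lit 4) (nat_lit 520) (nat_lit 426) (nat_lit 254)) (XT.lf (nat_lit 0) (nat_lit 1456435406439) (nat_lit 152) (nat_lit 3087972547477) (nat_lit 0) (nat_lit 1406017121126) (nat_lit 2) (nat_lit 5) (nat_lit 4) (nat_lit 4) (nat_lit 2) (nat_lit 4) (nat_lit 521) (nat_lit 426) (nat_lit 253)))) (XT.nd (nat_lit 156) (nat_lit 0) (nat_lit 0) (XT.nd (nat_lit 78) (nat_lit 0) (nat_lit 0) (XT.lf (nat_lit 0) (nat_lit 1857653552844)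 (nat_lit 152) (nat_lit 2738470025661) (nat_lit 0) (nat_lit 1807235261366) (nat_lit 2) (nat_lit 5) (nat_lit 4) (nat_lit 4) (nat_lit 2) (nat_lit 4) (nat_lit 522) (nat_lit 426) (nat_lit 252)) (XT.lf (nat_lit 0) (nat_lit 2290969082964) (nat_lit 152) (nat_lit 2361007442585) (nat_lit 0) (nat_lit 2240550785777) (nat_lit 2) (nat_lit 5) (nat_lit 4) (nat_lit 4) (nat_lit 2) (nat_lit 4) (nat_lit 523) (nat_lit 426) (nat_lit 251))) (XT.nd (nat_lit 78) (nat_lit 0) (nat_lit 0) (XT.lf (nat_lit 0) (nat_lit 2758949792531) (nat_lit 152) (nat_lit 1953347982944) (nat_lit 0) (nat_lit 2708531490059) (nat_lit 2) (nat_lit 5) (nat_lit 4) (nat_lit 4) (nat_lit 2) (nat_lit 4) (nat_lit 524) (nat_lit 426) (nat_lit 250)) (XT.lf (nat_lit 0) (nat_lit 3264368900567) (nat_lit 152) (nat_lit 1513075886976) (nat_lit 0) (nat_lit 3213950593200) (nat_lit 2) (nat_lit 5) (nat_lit 4) (nat_lit 4) (nat_lit 2) (nat_lit 4) (nat_lit 525)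 (nat_lit 426) (nat_lit 249))))))) (XT.nd (nat_lit 55146) (nat_lit 0) (nat_lit 4256) (XT.nd (nat_lit 468) (nat_lit 0) (nat_lit 0) (XT.nd (nat_lit 234) (nat_lit 0) (nat_lit 0) (XT.nd (nat_lit 78) (nat_lit 76) (nat_lit 0) (XT.lf (nat_lit 0) (nat_lit 3810221483266) (nat_lit 152) (nat_lit 1037582134853) (nat_lit 0) (nat_lit 3759803171368) (nat_lit 2) (nat_lit 5) (nat_lit 4) (nat_lit 4) (nat_lit 2) (nat_lit 4) (nat_lit 526) (nat_lit 426) (nat_lit 248)) (XT.nd (nat_lit 78) (nat_lit 76) (nat_lit 0) (XT.lf (nat_lit 0) (nat_lit 4399742222601) (nat_lit 152) (nat_lit 524048985822) (nat_lit 0) (nat_lit 4349323906507) (nat_lit 2) (nat_lit 5) (nat_lit 4) (nat_lit 4) (nat_lit 2) (nat_lit 4) (nat_lit 527) (nat_lit 426) (nat_lit 247)) (XT.lf (nat_lit 0) (nat_lit 32176308798) (nat_lit 76) (nat_lit 5005022107005) (nat_lit 76) (nat_lit 4954603787026) (nat_lit 1) (nat_lit 4) (nat_lit 2) (nat_lit 5) (nat_lit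 2) (nat_lit 4) (nat_lit 528) (nat_lit 426) (nat_lit 246)))) (XT.nd (nat_lit 78) (nat_lit 0) (nat_lit 0) (XT.lf (nat_lit 0) (nat_lit 662702663969) (nat_lit 76) (nat_lit 5077276823370) (nat_lit 76) (nat_lit 5026858499794) (nat_lit 1) (nat_lit 4) (nat_lit 2) (nat_lit 5) (nat_lit 2) (nat_lit 4) (nat_lit 529) (nat_lit 426) (nat_lit 245)) (XT.nd (nat_lit 78) (nat_lit 0) (nat_lit 0) (XT.lf (nat_lit 0) (nat_lit 1343671041263) (nat_lit 76) (nat_lit 5155311961582) (nat_lit 76) (nat_lit 5104893634674) (nat_lit 1) (nat_lit 4) (nat_lit 2) (nat_lit 5) (nat_lit 2) (nat_lit 4) (nat_lit 530) (nat_lit 426) (nat_lit 244)) (XT.lf (nat_lit 0) (nat_lit 2079116808844) (nat_lit 76) (nat_lit 5239589952089) (nat_lit 76) (nat_lit 5189171622097) (nat_lit 1) (nat_lit 4) (nat_lit 2) (nat_lit 5) (nat_lit 2) (nat_lit 4) (nat_lit 531) (nat_lit 426) (nat_lit 243))))) (XT.nd (nat_lit 54444) (nat_lit 0) (nat_lit 5624) (XT.nd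 (nat_lit 54288) (nat_lit 0) (nat_lit 6080) (XT.lf (nat_lit 0) (nat_lit 2873398163853) (nat_lit 76) (nat_lit 5330610220020) (nat_lit 76) (nat_lit 5280191887173) (nat_lit 1) (nat_lit 4) (nat_lit 2) (nat_lit 5) (nat_lit 2) (nat_lit 4) (nat_lit 532) (nat_lit 426) (nat_lit 242)) (XT.nd (nat_lit 78) (nat_lit 0) (nat_lit 0) (XT.lf (nat_lit 0) (nat_lit 15464860629) (nat_lit 532) (nat_lit 387658523) (nat_lit 532) (nat_lit 387658523) (nat_lit 81) (nat_lit 3) (nat_lit 88) (nat_lit 3) (nat_lit 88) (nat_lit 5) (nat_lit 427) (nat_lit 427) (nat_lit 346)) (XT.lf (nat_lit 76) (nat_lit 16142661989) (nat_lit 0) (nat_lit 16471111871) (nat_lit 532) (nat_lit 1130030928) (nat_lit 82) (nat_lit 5) (nat_lit 81) (nat_lit 3) (nat_lit 88) (nat_lit 5) (nat_lit 428) (nat_lit 427) (nat_lit 345)))) (XT.nd (nat_lit 78) (nat_lit 532) (nat_lit 0) (XT.lf (nat_lit 0) (nat_lit 34447972112) (nat_lit 456) (nat_lit 652443720) (nat_lit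 532) (nat_lit 6682200) (nat_lit 82) (nat_lit 5) (nat_lit 88) (nat_lit 5) (nat_lit 89) (nat_lit 5) (nat_lit 429) (nat_lit 427) (nat_lit 344)) (XT.nd (nat_lit 78) (nat_lit 0) (nat_lit 0) (XT.lf (nat_lit 0) (nat_lit 737617315) (nat_lit 532) (nat_lit 18401907071) (nat_lit 608) (nat_lit 17369770568) (nat_lit 75) (nat_lit 5) (nat_lit 82) (nat_lit 5) (nat_lit 83) (nat_lit 5) (nat_lit 430) (nat_lit 427) (nat_lit 343)) (XT.lf (nat_lit 76) (nat_lit 380547765) (nat_lit 0) (nat_lit 1852134101) (nat_lit 608) (nat_lit 35787842055) (nat_lit 76) (nat_lit 5) (nat_lit 75) (nat_lit 5) (nat_lit 83) (nat_lit 5) (nat_lit 431) (nat_lit 427) (nat_lit 342)))))) (XT.nd (nat_lit 468) (nat_lit 836) (nat_lit 0) (XT.nd (nat_lit 234) (nat_lit 608) (nat_lit 0) (XT.nd (nat_lit 78) (nat_lit 0) (nat_lit 0) (XT.lf (nat_lit 0) (nat_lit 4763109589) (nat_lit 532) (nat_lit 18321925153) (nat_lit 608) (nat_lit 16494356975) (nat_lit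 76) (nat_lit 5) (nat_lit 83) (nat_lit 5) (nat_lit 84) (nat_lit 5) (nat_lit 432) (nat_lit 427) (nat_lit 341)) (XT.nd (nat_lit 78) (nat_lit 0) (nat_lit 76) (XT.lf (nat_lit 76) (nat_lit 2620758783) (nat_lit 0) (nat_lit 4981784075) (nat_lit 608) (nat_lit 33651901440) (nat_lit 77) (nat_lit 5) (nat_lit 76) (nat_lit 5) (nat_lit 84) (nat_lit 5) (nat_lit 433) (nat_lit 427) (nat_lit 340)) (XT.lf (nat_lit 0) (nat_lit 11529197007) (nat_lit 532) (nat_lit 17110066617) (nat_lit 76) (nat_lit 14355433153) (nat_lit 77) (nat_lit 5) (nat_lit 84) (nat_lit 5) (nat_lit 78) (nat_lit 5) (nat_lit 434) (nat_lit 427) (nat_lit 339)))) (XT.nd (nat_lit 78) (nat_lit 228) (nat_lit 0) (XT.lf (nat_lit 0) (nat_lit 6318346167) (nat_lit 456) (nat_lit 9729007582) (nat_lit 532) (nat_lit 28804626999) (nat_lit 71) (nat_lit 5) (nat_lit 77) (nat_lit 5) (nat_lit 78) (nat_lit 5) (nat_lit 435) (nat_lit 427) (nat_lit 338)) (XT.nd (nat_lit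 78) (nat_lit 228) (nat_lit 0) (XT.lf (nat_lit 0) (nat_lit 21660352462) (nat_lit 532) (nat_lit 14499646987) (nat_lit 76) (nat_lit 10639177681) (nat_lit 71) (nat_lit 5) (nat_lit 78) (nat_lit 5) (nat_lit 72) (nat_lit 5) (nat_lit 436) (nat_lit 427) (nat_lit 337)) (XT.lf (nat_lit 0) (nat_lit 11790482503) (nat_lit 228) (nat_lit 16464677114) (nat_lit 304) (nat_lit 20604368907) (nat_lit 68) (nat_lit 5) (nat_lit 71) (nat_lit 5) (nat_lit 72) (nat_lit 5) (nat_lit 437) (nat_lit 427) (nat_lit 336))))) (XT.nd (nat_lit 234) (nat_lit 608) (nat_lit 0) (XT.nd (nat_lit 78) (nat_lit 228) (nat_lit 0) (XT.lf (nat_lit 0) (nat_lit 35896557333) (nat_lit 304) (nat_lit 10174300530) (nat_lit 76) (nat_lit 4972330413) (nat_lit 68) (nat_lit 5) (nat_lit 72) (nat_lit 5) (nat_lit 69) (nat_lit 5) (nat_lit 438) (nat_lit 427) (nat_lit 335)) (XT.nd (nat_lit 78) (nat_lit 0) (nat_lit 0) (XT.lf (nat_lit 0) (nat_lit 19411865914)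 (nat_lit 228) (nat_lit 25628828995) (nat_lit 304) (nat_lit 8289532328) (nat_lit 65) (nat_lit 5) (nat_lit 68) (nat_lit 5) (nat_lit 69) (nat_lit 5) (nat_lit 439) (nat_lit 427) (nat_lit 334)) (XT.lf (nat_lit 0) (nat_lit 51940072525) (nat_lit 228) (nat_lit 3251537336) (nat_lit 304) (nat_lit 586600367) (nat_lit 65) (nat_lit 5) (nat_lit 68) (nat_lit 5) (nat_lit 69) (nat_lit 5) (nat_lit 440) (nat_lit 427) (nat_lit 333)))) (XT.nd (nat_lit 156) (nat_lit 152) (nat_lit 0) (XT.nd (nat_lit 78) (nat_lit 228) (nat_lit 0) (XT.lf (nat_lit 0) (nat_lit 8590005795) (nat_lit 228) (nat_lit 28918518444) (nat_lit 76) (nat_lit 20799090370) (nat_lit 62) (nat_lit 5) (nat_lit 65) (nat_lit 5) (nat_lit 63) (nat_lit 5) (nat_lit 441) (nat_lit 427) (nat_lit 332)) (XT.lf (nat_lit 0) (nat_lit 4585289901) (nat_lit 228) (nat_lit 14183480328) (nat_lit 304) (nat_lit 42245404980) (nat_lit 59) (nat_lit 5) (nat_lit 62) (nat_lit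 5) (nat_lit 63) (nat_lit 5) (nat_lit 442) (nat_lit 427) (nat_lit 331))) (XT.nd (nat_lit 78) (nat_lit 152) (nat_lit 0) (XT.lf (nat_lit 0) (nat_lit 30835208061) (nat_lit 304) (nat_lit 21748826346) (nat_lit 76) (nat_lit 11267356927) (nat_lit 59) (nat_lit 5) (nat_lit 63) (nat_lit 5) (nat_lit 60) (nat_lit 5) (nat_lit 443) (nat_lit 427) (nat_lit 330)) (XT.lf (nat_lit 0) (nat_lit 16141381828) (nat_lit 152) (nat_lit 28479792181) (nat_lit 228) (nat_lit 22234074118) (nat_lit 57) (nat_lit 5) (nat_lit 59) (nat_lit 5) (nat_lit 60) (nat_lit 5) (nat_lit 444) (nat_lit 427) (nat_lit 329))))))))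
noncomputable def xc158 : XT := (XT.nd (nat_lit 1950) (nat_lit 1520) (nat_lit 0) (XT.nd (nat_lit 936) (nat_lit 836) (nat_lit 0) (XT.nd (nat_lit 468) (nat_lit 608) (nat_lit 0) (XT.nd (nat_lit 234) (nat_lit 152) (nat_lit 0) (XT.nd (nat_lit 78) (nat_lit 380) (nat_lit 0) (XT.lf (nat_lit 0) (nat_lit 58296454787) (nat_lit 152) (nat_lit 1805923684) (nat_lit 228) (nat_lit 9949646486) (nat_lit 57) (nat_lit 5) (nat_lit 59) (nat_lit 5) (nat_lit 60) (nat_lit 5) (nat_lit 445) (nat_lit 427) (nat_lit 328)) (XT.nd (nat_lit 78) (nat_lit 152) (nat_lit 0) (XT.lf (nat_lit 0) (nat_lit 4586211784) (nat_lit 228) (nat_lit 42279724322) (nat_lit 76) (nat_lit 26517454581) (nat_lit 54) (nat_lit 5) (nat_lit 57) (nat_lit 5) (nat_lit 55) (nat_lit 5) (nat_lit 446) (nat_lit 427) (nat_lit 327)) (XT.lf (nat_lit 0) (nat_lit 829265478) (nat_lit 152) (nat_lit 19312641431) (nat_lit 228) (nat_lit 56787123884) (nat_lit 52) (nat_lit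 5) (nat_lit 54) (nat_lit 5) (nat_lit 55) (nat_lit 5) (nat_lit 447) (nat_lit 427) (nat_lit 326)))) (XT.nd (nat_lit 78) (nat_lit 152) (nat_lit 0) (XT.lf (nat_lit 0) (nat_lit 38377233210) (nat_lit 228) (nat_lit 31158834410) (nat_lit 76) (nat_lit 11107440730) (nat_lit 52) (nat_lit 5) (nat_lit 55) (nat_lit 5) (nat_lit 53) (nat_lit 5) (nat_lit 448) (nat_lit 427) (nat_lit 325)) (XT.nd (nat_lit 78) (nat_lit 0) (nat_lit 0) (XT.lf (nat_lit 0) (nat_lit 17761246533) (nat_lit 152) (nat_lit 41237023087) (nat_lit 228) (nat_lit 25582724039) (nat_lit 50) (nat_lit 5) (nat_lit 52) (nat_lit 5) (nat_lit 53) (nat_lit 5) (nat_lit 449) (nat_lit 427) (nat_lit 324)) (XT.lf (nat_lit 0) (nat_lit 72364053226) (nat_lit 152) (nat_lit 9755042853) (nat_lit 228) (nat_lit 6646373393) (nat_lit 50) (nat_lit 5) (nat_lit 52) (nat_lit 5) (nat_lit 53) (nat_lit 5) (nat_lit 450) (nat_lit 427) (nat_lit 323))))) (XT.nd (nat_lit 234)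 (nat_lit 304) (nat_lit 0) (XT.nd (nat_lit 78) (nat_lit 152) (nat_lit 0) (XT.lf (nat_lit 0) (nat_lit 14683898508) (nat_lit 152) (nat_lit 54096778059) (nat_lit 76) (nat_lit 24351899208) (nat_lit 48) (nat_lit 5) (nat_lit 50) (nat_lit 5) (nat_lit 49) (nat_lit 5) (nat_lit 451) (nat_lit 427) (nat_lit 322)) (XT.nd (nat_lit 78) (nat_lit 0) (nat_lit 0) (XT.lf (nat_lit 0) (nat_lit 1670665489) (nat_lit 152) (nat_lit 36442798030) (nat_lit 228) (nat_lit 59661620762) (nat_lit 46) (nat_lit 5) (nat_lit 48) (nat_lit 5) (nat_lit 49) (nat_lit 5) (nat_lit 452) (nat_lit 427) (nat_lit 321)) (XT.lf (nat_lit 0) (nat_lit 64896740626) (nat_lit 228) (nat_lit 37699401254) (nat_lit 76) (nat_lit 74504018) (nat_lit 46) (nat_lit 5) (nat_lit 49) (nat_lit 5) (nat_lit 47) (nat_lit 4) (nat_lit 453) (nat_lit 427) (nat_lit 320)))) (XT.nd (nat_lit 78) (nat_lit 228) (nat_lit 0) (XT.lf (nat_lit 0) (nat_lit 25715181632) (nat_lit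 76) (nat_lit 69670970889) (nat_lit 152) (nat_lit 12446622282) (nat_lit 45) (nat_lit 5) (nat_lit 46) (nat_lit 5) (nat_lit 47) (nat_lit 4) (nat_lit 454) (nat_lit 427) (nat_lit 319)) (XT.nd (nat_lit 78) (nat_lit 152) (nat_lit 0) (XT.lf (nat_lit 0) (nat_lit 15217153450) (nat_lit 152) (nat_lit 17366427326) (nat_lit 76) (nat_lit 80711131731) (nat_lit 44) (nat_lit 5) (nat_lit 46) (nat_lit 5) (nat_lit 45) (nat_lit 5) (nat_lit 455) (nat_lit 427) (nat_lit 318)) (XT.lf (nat_lit 0) (nat_lit 45965076951) (nat_lit 228) (nat_lit 64294554528) (nat_lit 76) (nat_lit 8784631843) (nat_lit 42) (nat_lit 5) (nat_lit 45) (nat_lit 5) (nat_lit 43) (nat_lit 4) (nat_lit 456) (nat_lit 427) (nat_lit 317)))))) (XT.nd (nat_lit 468) (nat_lit 456) (nat_lit 0) (XT.nd (nat_lit 234) (nat_lit 152) (nat_lit 0) (XT.nd (nat_lit 78) (nat_lit 152) (nat_lit 0) (XT.lf (nat_lit 0) (nat_lit 7943192099) (nat_lit 76) (nat_lit 72752770050)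 (nat_lit 152) (nat_lit 44435965951) (nat_lit 41) (nat_lit 5) (nat_lit 42) (nat_lit 5) (nat_lit 43) (nat_lit 4) (nat_lit 457) (nat_lit 427) (nat_lit 316)) (XT.nd (nat_lit 78) (nat_lit 152) (nat_lit 0) (XT.lf (nat_lit 0) (nat_lit 89614023121) (nat_lit 76) (nat_lit 30347872116) (nat_lit 152) (nat_lit 11604184773) (nat_lit 41) (nat_lit 5) (nat_lit 42) (nat_lit 5) (nat_lit 43) (nat_lit 4) (nat_lit 458) (nat_lit 427) (nat_lit 315)) (XT.lf (nat_lit 0) (nat_lit 24051921375) (nat_lit 152) (nat_lit 98035760648) (nat_lit 76) (nat_lit 16270101689) (nat_lit 39) (nat_lit 5) (nat_lit 41) (nat_lit 5) (nat_lit 40) (nat_lit 4) (nat_lit 459) (nat_lit 427) (nat_lit 314)))) (XT.nd (nat_lit 78) (nat_lit 152) (nat_lit 0) (XT.lf (nat_lit 0) (nat_lit 63897415902) (nat_lit 152) (nat_lit 15158965626) (nat_lit 76) (nat_lit 66455223499) (nat_lit 39) (nat_lit 5) (nat_lit 41) (nat_lit 5) (nat_lit 40) (nat_lit 4) (nat_lit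 460) (nat_lit 427) (nat_lit 313)) (XT.nd (nat_lit 78) (nat_lit 76) (nat_lit 0) (XT.lf (nat_lit 0) (nat_lit 78260736134) (nat_lit 76) (nat_lit 30550814158) (nat_lit 152) (nat_lit 44275701816) (nat_lit 38) (nat_lit 5) (nat_lit 39) (nat_lit 5) (nat_lit 40) (nat_lit 4) (nat_lit 461) (nat_lit 427) (nat_lit 312)) (XT.lf (nat_lit 0) (nat_lit 19202857858) (nat_lit 76) (nat_lit 139527003139) (nat_lit 76) (nat_lit 2426206392) (nat_lit 37) (nat_lit 4) (nat_lit 38) (nat_lit 5) (nat_lit 38) (nat_lit 4) (nat_lit 462) (nat_lit 427) (nat_lit 311))))) (XT.nd (nat_lit 234) (nat_lit 304) (nat_lit 0) (XT.nd (nat_lit 78) (nat_lit 76) (nat_lit 0) (XT.lf (nat_lit 0) (nat_lit 43523061318) (nat_lit 152) (nat_lit 46574176950) (nat_lit 76) (nat_lit 79459545426) (nat_lit 36) (nat_lit 5) (nat_lit 38) (nat_lit 5) (nat_lit 37) (nat_lit 4) (nat_lit 463) (nat_lit 427) (nat_lit 310)) (XT.nd (nat_lit 78) (nat_lit 0) (nat_lit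 0) (XT.lf (nat_lit 0) (nat_lit 59338498089) (nat_lit 76) (nat_lit 35104718495) (nat_lit 152) (nat_lit 84067217371) (nat_lit 35) (nat_lit 5) (nat_lit 36) (nat_lit 5) (nat_lit 37) (nat_lit 4) (nat_lit 464) (nat_lit 427) (nat_lit 309)) (XT.lf (nat_lit 0) (nat_lit 151326530091) (nat_lit 152) (nat_lit 12324807892) (nat_lit 0) (nat_lit 24377874645) (nat_lit 35) (nat_lit 5) (nat_lit 37) (nat_lit 4) (nat_lit 35) (nat_lit 4) (nat_lit 465) (nat_lit 427) (nat_lit 308)))) (XT.nd (nat_lit 156) (nat_lit 76) (nat_lit 0) (XT.nd (nat_lit 78) (nat_lit 76) (nat_lit 0) (XT.lf (nat_lit 0) (nat_lit 17316018699) (nat_lit 152) (nat_lit 90932327186) (nat_lit 76) (nat_lit 89746311825) (nat_lit 33) (nat_lit 5) (nat_lit 35) (nat_lit 5) (nat_lit 34) (nat_lit 4) (nat_lit 466) (nat_lit 427) (nat_lit 307)) (XT.lf (nat_lit 0) (nat_lit 28429178783) (nat_lit 76) (nat_lit 46272620311) (nat_lit 152) (nat_lit 133896995536)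 (nat_lit 32) (nat_lit 5) (nat_lit 33) (nat_lit 5) (nat_lit 34) (nat_lit 4) (nat_lit 467) (nat_lit 427) (nat_lit 306))) (XT.nd (nat_lit 78) (nat_lit 76) (nat_lit 0) (XT.lf (nat_lit 0) (nat_lit 139725203314) (nat_lit 152) (nat_lit 57904719306) (nat_lit 0) (nat_lit 22177599015) (nat_lit 32) (nat_lit 5) (nat_lit 34) (nat_lit 4) (nat_lit 32) (nat_lit 4) (nat_lit 468) (nat_lit 427) (nat_lit 305)) (XT.lf (nat_lit 0) (nat_lit 76778509624) (nat_lit 76) (nat_lit 136219484269) (nat_lit 76) (nat_lit 18671151825) (nat_lit 31) (nat_lit 4) (nat_lit 32) (nat_lit 5) (nat_lit 32) (nat_lit 4) (nat_lit 469) (nat_lit 427) (nat_lit 304))))))) (XT.nd (nat_lit 936) (nat_lit 684) (nat_lit 0) (XT.nd (nat_lit 468) (nat_lit 456) (nat_lit 0) (XT.nd (nat_lit 234) (nat_lit 152) (nat_lit 0) (XT.nd (nat_lit 78) (nat_lit 152) (nat_lit 0) (XT.lf (nat_lit 0) (nat_lit 46892562371) (nat_lit 152) (nat_lit 20012476920) (nat_lit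 76) (nat_lit 177353100517) (nat_lit 30) (nat_lit 5) (nat_lit 32) (nat_lit 5) (nat_lit 31) (nat_lit 4) (nat_lit 470) (nat_lit 427) (nat_lit 303)) (XT.nd (nat_lit 78) (nat_lit 76) (nat_lit 0) (XT.lf (nat_lit 0) (nat_lit 120146855302) (nat_lit 152) (nat_lit 126087659804) (nat_lit 0) (nat_lit 11304604450) (nat_lit 29) (nat_lit 5) (nat_lit 31) (nat_lit 4) (nat_lit 29) (nat_lit 4) (nat_lit 471) (nat_lit 427) (nat_lit 302)) (XT.lf (nat_lit 0) (nat_lit 23767134407) (nat_lit 76) (nat_lit 178364316321) (nat_lit 76) (nat_lit 69521530260) (nat_lit 28) (nat_lit 4) (nat_lit 29) (nat_lit 5) (nat_lit 29) (nat_lit 4) (nat_lit 472) (nat_lit 427) (nat_lit 301)))) (XT.nd (nat_lit 78) (nat_lit 76) (nat_lit 0) (XT.lf (nat_lit 0) (nat_lit 7126011762) (nat_lit 152) (nat_lit 94021177158) (nat_lit 76) (nat_lit 185458597235) (nat_lit 27) (nat_lit 5) (nat_lit 29) (nat_lit 5) (nat_lit 28) (nat_lit 4) (nat_lit 473)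 (nat_lit 427) (nat_lit 300)) (XT.nd (nat_lit 78) (nat_lit 0) (nat_lit 0) (XT.lf (nat_lit 0) (nat_lit 74049671080) (nat_lit 76) (nat_lit 13879853708) (nat_lit 152) (nat_lit 214538419766) (nat_lit 26) (nat_lit 5) (nat_lit 27) (nat_lit 5) (nat_lit 28) (nat_lit 4) (nat_lit 474) (nat_lit 427) (nat_lit 299)) (XT.lf (nat_lit 0) (nat_lit 179766912444) (nat_lit 152) (nat_lit 60481317848) (nat_lit 0) (nat_lit 78985277865) (nat_lit 26) (nat_lit 5) (nat_lit 28) (nat_lit 4) (nat_lit 26) (nat_lit 4) (nat_lit 475) (nat_lit 427) (nat_lit 298))))) (XT.nd (nat_lit 234) (nat_lit 228) (nat_lit 0) (XT.nd (nat_lit 78) (nat_lit 152) (nat_lit 0) (XT.lf (nat_lit 0) (nat_lit 126875508365) (nat_lit 76) (nat_lit 155486956711) (nat_lit 76) (nat_lit 54704957877) (nat_lit 25) (nat_lit 4) (nat_lit 26) (nat_lit 5) (nat_lit 26) (nat_lit 4) (nat_lit 476) (nat_lit 427) (nat_lit 297)) (XT.nd (nat_lit 78) (nat_lit 76) (nat_lit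 0) (XT.lf (nat_lit 0) (nat_lit 36690763972) (nat_lit 152) (nat_lit 24465547043) (nat_lit 76) (nat_lit 294965190740) (nat_lit 24) (nat_lit 5) (nat_lit 26) (nat_lit 5) (nat_lit 25) (nat_lit 4) (nat_lit 477) (nat_lit 427) (nat_lit 296)) (XT.lf (nat_lit 0) (nat_lit 137995811781) (nat_lit 152) (nat_lit 193467625161) (nat_lit 0) (nat_lit 44678544748) (nat_lit 23) (nat_lit 5) (nat_lit 25) (nat_lit 4) (nat_lit 23) (nat_lit 4) (nat_lit 478) (nat_lit 427) (nat_lit 295)))) (XT.nd (nat_lit 78) (nat_lit 152) (nat_lit 0) (XT.lf (nat_lit 0) (nat_lit 8904537532) (nat_lit 76) (nat_lit 240989016992) (nat_lit 76) (nat_lit 147671482222) (nat_lit 22) (nat_lit 4) (nat_lit 23) (nat_lit 5) (nat_lit 23) (nat_lit 4) (nat_lit 479) (nat_lit 427) (nat_lit 294)) (XT.nd (nat_lit 78) (nat_lit 152) (nat_lit 0) (XT.lf (nat_lit 0) (nat_lit 238467884087) (nat_lit 76) (nat_lit 137564352603) (nat_lit 76) (nat_lit 44246569928)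 (nat_lit 22) (nat_lit 4) (nat_lit 23) (nat_lit 5) (nat_lit 23) (nat_lit 4) (nat_lit 480) (nat_lit 427) (nat_lit 293)) (XT.lf (nat_lit 0) (nat_lit 42067578469) (nat_lit 76) (nat_lit 23021647821) (nat_lit 152) (nat_lit 379509782983) (nat_lit 20) (nat_lit 5) (nat_lit 21) (nat_lit 5) (nat_lit 22) (nat_lit 4) (nat_lit 481) (nat_lit 427) (nat_lit 292)))))) (XT.nd (nat_lit 468) (nat_lit 380) (nat_lit 0) (XT.nd (nat_lit 234) (nat_lit 228) (nat_lit 0) (XT.nd (nat_lit 78) (nat_lit 76) (nat_lit 0) (XT.lf (nat_lit 0) (nat_lit 188302442167) (nat_lit 152) (nat_lit 179972084956) (nat_lit 0) (nat_lit 101896678505) (nat_lit 20) (nat_lit 5) (nat_lit 22) (nat_lit 4) (nat_lit 20) (nat_lit 4) (nat_lit 482) (nat_lit 427) (nat_lit 291)) (XT.nd (nat_lit 78) (nat_lit 0) (nat_lit 0) (XT.lf (nat_lit 0) (nat_lit 62941518581) (nat_lit 76) (nat_lit 260542356124) (nat_lit 76) (nat_lit 174136410244) (nat_lit 19) (nat_lit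 4) (nat_lit 20) (nat_lit 5) (nat_lit 20) (nat_lit 4) (nat_lit 483) (nat_lit 427) (nat_lit 290)) (XT.lf (nat_lit 0) (nat_lit 335522295791) (nat_lit 76) (nat_lit 138877745923) (nat_lit 76) (nat_lit 52471631322) (nat_lit 19) (nat_lit 4) (nat_lit 20) (nat_lit 5) (nat_lit 20) (nat_lit 4) (nat_lit 484) (nat_lit 427) (nat_lit 289)))) (XT.nd (nat_lit 78) (nat_lit 76) (nat_lit 0) (XT.lf (nat_lit 0) (nat_lit 73209379662) (nat_lit 76) (nat_lit 3528913839) (nat_lit 152) (nat_lit 481432210004) (nat_lit 17) (nat_lit 5) (nat_lit 18) (nat_lit 5) (nat_lit 19) (nat_lit 4) (nat_lit 485) (nat_lit 427) (nat_lit 288)) (XT.nd (nat_lit 78) (nat_lit 76) (nat_lit 0) (XT.lf (nat_lit 0) (nat_lit 222248079859) (nat_lit 152) (nat_lit 226670157110) (nat_lit 0) (nat_lit 142242139606) (nat_lit 17) (nat_lit 5) (nat_lit 19) (nat_lit 4) (nat_lit 17) (nat_lit 4) (nat_lit 486) (nat_lit 427) (nat_lit 287)) (XT.lf (nat_lit 0)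 (nat_lit 54939779654) (nat_lit 76) (nat_lit 325871362341) (nat_lit 76) (nat_lit 245865298074) (nat_lit 16) (nat_lit 4) (nat_lit 17) (nat_lit 5) (nat_lit 17) (nat_lit 4) (nat_lit 487) (nat_lit 427) (nat_lit 286))))) (XT.nd (nat_lit 234) (nat_lit 228) (nat_lit 0) (XT.nd (nat_lit 78) (nat_lit 152) (nat_lit 0) (XT.lf (nat_lit 0) (nat_lit 371968510788) (nat_lit 76) (nat_lit 186287844239) (nat_lit 76) (nat_lit 106281665144) (nat_lit 16) (nat_lit 4) (nat_lit 17) (nat_lit 5) (nat_lit 17) (nat_lit 4) (nat_lit 488) (nat_lit 427) (nat_lit 285)) (XT.nd (nat_lit 78) (nat_lit 0) (nat_lit 0) (XT.lf (nat_lit 0) (nat_lit 8274582521) (nat_lit 76) (nat_lit 34168142449) (nat_lit 152) (nat_lit 662884358420) (nat_lit 14) (nat_lit 5) (nat_lit 15) (nat_lit 5) (nat_lit 16) (nat_lit 4) (nat_lit 489) (nat_lit 427) (nat_lit 284)) (XT.lf (nat_lit 0) (nat_lit 208659222786) (nat_lit 152) (nat_lit 405013075980) (nat_lit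 0) (nat_lit 134579237727) (nat_lit 14) (nat_lit 5) (nat_lit 16) (nat_lit 4) (nat_lit 14) (nat_lit 4) (nat_lit 490) (nat_lit 427) (nat_lit 283)))) (XT.nd (nat_lit 156) (nat_lit 152) (nat_lit 0) (XT.nd (nat_lit 78) (nat_lit 76) (nat_lit 0) (XT.lf (nat_lit 0) (nat_lit 389060122661) (nat_lit 152) (nat_lit 90498803410) (nat_lit 0) (nat_lit 314980053200) (nat_lit 14) (nat_lit 5) (nat_lit 16) (nat_lit 4) (nat_lit 14) (nat_lit 4) (nat_lit 491) (nat_lit 427) (nat_lit 282)) (XT.lf (nat_lit 0) (nat_lit 262297008443) (nat_lit 76) (nat_lit 327903963236) (nat_lit 76) (nat_lit 253823815625) (nat_lit 13) (nat_lit 4) (nat_lit 14) (nat_lit 5) (nat_lit 14) (nat_lit 4) (nat_lit 492) (nat_lit 427) (nat_lit 281))) (XT.nd (nat_lit 78) (nat_lit 152) (nat_lit 0) (XT.lf (nat_lit 0) (nat_lit 648462490460) (nat_lit 76) (nat_lit 161444633340) (nat_lit 76) (nat_lit 87364413368) (nat_lit 13) (nat_lit 4) (nat_lit 14)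 (nat_lit 5) (nat_lit 14) (nat_lit 4) (nat_lit 493) (nat_lit 427) (nat_lit 280)) (XT.lf (nat_lit 0) (nat_lit 91105878151) (nat_lit 152) (nat_lit 840715972933) (nat_lit 0) (nat_lit 22513019842) (nat_lit 11) (nat_lit 5) (nat_lit 13) (nat_lit 4) (nat_lit 11) (nat_lit 4) (nat_lit 494) (nat_lit 427) (nat_lit 279))))))))
noncomputable def xc159 : XT := (XT.nd (nat_lit 1950) (nat_lit 76) (nat_lit 0) (XT.nd (nat_lit 936) (nat_lit 380) (nat_lit 0) (XT.nd (nat_lit 468) (nat_lit 76) (nat_lit 0) (XT.nd (nat_lit 234) (nat_lit 152) (nat_lit 0) (XT.nd (nat_lit 78) (nat_lit 76) (nat_lit 0) (XT.lf (nat_lit 0) (nat_lit 290306447181) (nat_lit 152) (nat_lit 502867948194) (nat_lit 0) (nat_lit 221713531430) (nat_lit 11) (nat_lit 5) (nat_lit 13) (nat_lit 4) (nat_lit 11) (nat_lit 4) (nat_lit 495) (nat_lit 427) (nat_lit 278)) (XT.nd (nat_lit 78) (nat_lit 76) (nat_lit 0) (XT.lf (nat_lit 0) (nat_lit 505442743368)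 (nat_lit 152) (nat_lit 137992734831) (nat_lit 0) (nat_lit 436849774429) (nat_lit 11) (nat_lit 5) (nat_lit 13) (nat_lit 4) (nat_lit 11) (nat_lit 4) (nat_lit 496) (nat_lit 427) (nat_lit 277)) (XT.lf (nat_lit 0) (nat_lit 269556182606) (nat_lit 76) (nat_lit 474716298535) (nat_lit 76) (nat_lit 406123280348) (nat_lit 10) (nat_lit 4) (nat_lit 11) (nat_lit 5) (nat_lit 11) (nat_lit 4) (nat_lit 497) (nat_lit 427) (nat_lit 276)))) (XT.nd (nat_lit 78) (nat_lit 152) (nat_lit 0) (XT.lf (nat_lit 0) (nat_lit 717556192900) (nat_lit 76) (nat_lit 288425083822) (nat_lit 76) (nat_lit 219832020036) (nat_lit 10) (nat_lit 4) (nat_lit 11) (nat_lit 5) (nat_lit 11) (nat_lit 4) (nat_lit 498) (nat_lit 427) (nat_lit 275)) (XT.nd (nat_lit 78) (nat_lit 152) (nat_lit 0) (XT.lf (nat_lit 0) (nat_lit 1201395658052) (nat_lit 76) (nat_lit 87230852038) (nat_lit 76) (nat_lit 18637746029) (nat_lit 10) (nat_lit 4) (nat_lit 11)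 (nat_lit 5) (nat_lit 11) (nat_lit 4) (nat_lit 499) (nat_lit 427) (nat_lit 274)) (XT.lf (nat_lit 0) (nat_lit 200380284231) (nat_lit 152) (nat_lit 1056667440563) (nat_lit 0) (nat_lit 136868112839) (nat_lit 8) (nat_lit 5) (nat_lit 10) (nat_lit 4) (nat_lit 8) (nat_lit 4) (nat_lit 500) (nat_lit 427) (nat_lit 273))))) (XT.nd (nat_lit 234) (nat_lit 0) (nat_lit 0) (XT.nd (nat_lit 78) (nat_lit 76) (nat_lit 0) (XT.lf (nat_lit 0) (nat_lit 441148139099) (nat_lit 152) (nat_lit 668257920232) (nat_lit 0) (nat_lit 377635934190) (nat_lit 8) (nat_lit 5) (nat_lit 10) (nat_lit 4) (nat_lit 8) (nat_lit 4) (nat_lit 501) (nat_lit 427) (nat_lit 272)) (XT.nd (nat_lit 78) (nat_lit 76) (nat_lit 0) (XT.lf (nat_lit 0) (nat_lit 701177188781) (nat_lit 152) (nat_lit 248776118948) (nat_lit 0) (nat_lit 637664952837) (nat_lit 8) (nat_lit 5) (nat_lit 10) (nat_lit 4) (nat_lit 8) (nat_lit 4) (nat_lit 502) (nat_lit 427) (nat_lit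 271)) (XT.lf (nat_lit 0) (nat_lit 215019950109) (nat_lit 76) (nat_lit 772159631026) (nat_lit 76) (nat_lit 708647366347) (nat_lit 7) (nat_lit 4) (nat_lit 8) (nat_lit 5) (nat_lit 8) (nat_lit 4) (nat_lit 503) (nat_lit 427) (nat_lit 270)))) (XT.nd (nat_lit 78) (nat_lit 0) (nat_lit 0) (XT.lf (nat_lit 0) (nat_lit 730067389212) (nat_lit 76) (nat_lit 572796544942) (nat_lit 76) (nat_lit 509284253656) (nat_lit 7) (nat_lit 4) (nat_lit 8) (nat_lit 5) (nat_lit 8) (nat_lit 4) (nat_lit 504) (nat_lit 427) (nat_lit 269)) (XT.nd (nat_lit 78) (nat_lit 0) (nat_lit 0) (XT.lf (nat_lit 0) (nat_lit 1286318221775) (nat_lit 76) (nat_lit 357484618560) (nat_lit 76) (nat_lit 293972302638) (nat_lit 7) (nat_lit 4) (nat_lit 8) (nat_lit 5) (nat_lit 8) (nat_lit 4) (nat_lit 505) (nat_lit 427) (nat_lit 268)) (XT.lf (nat_lit 0) (nat_lit 1887068749029) (nat_lit 76) (nat_lit 124947929352) (nat_lit 76) (nat_lit 61435590618) (nat_lit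 7) (nat_lit 4) (nat_lit 8) (nat_lit 5) (nat_lit 8) (nat_lit 4) (nat_lit 506) (nat_lit 427) (nat_lit 267)))))) (XT.nd (nat_lit 468) (nat_lit 152) (nat_lit 0) (XT.nd (nat_lit 234) (nat_lit 76) (nat_lit 0) (XT.nd (nat_lit 78) (nat_lit 0) (nat_lit 0) (XT.lf (nat_lit 0) (nat_lit 191454105712) (nat_lit 152) (nat_lit 1894618918306) (nat_lit 0) (nat_lit 132646365106) (nat_lit 5) (nat_lit 5) (nat_lit 7) (nat_lit 4) (nat_lit 5) (nat_lit 4) (nat_lit 507) (nat_lit 427) (nat_lit 266)) (XT.nd (nat_lit 78) (nat_lit 0) (nat_lit 0) (XT.lf (nat_lit 0) (nat_lit 469729510278) (nat_lit 152) (nat_lit 1494151066635) (nat_lit 0) (nat_lit 410921751563) (nat_lit 5) (nat_lit 5) (nat_lit 7) (nat_lit 4) (nat_lit 5) (nat_lit 4) (nat_lit 508) (nat_lit 427) (nat_lit 265)) (XT.lf (nat_lit 0) (nat_lit 770266788476) (nat_lit 152) (nat_lit 1061646114206) (nat_lit 0) (nat_lit 711459012994) (nat_lit 5) (nat_lit 5) (nat_lit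 7) (nat_lit 4) (nat_lit 5) (nat_lit 4) (nat_lit 509) (nat_lit 427) (nat_lit 264)))) (XT.nd (nat_lit 78) (nat_lit 76) (nat_lit 0) (XT.lf (nat_lit 0) (nat_lit 1094846901955) (nat_lit 152) (nat_lit 594541068709) (nat_lit 0) (nat_lit 1036039110949) (nat_lit 5) (nat_lit 5) (nat_lit 7) (nat_lit 4) (nat_lit 5) (nat_lit 4) (nat_lit 510) (nat_lit 427) (nat_lit 263)) (XT.nd (nat_lit 78) (nat_lit 76) (nat_lit 0) (XT.lf (nat_lit 0) (nat_lit 1445393288425) (nat_lit 152) (nat_lit 90067900243) (nat_lit 0) (nat_lit 1386585483043) (nat_lit 5) (nat_lit 5) (nat_lit 7) (nat_lit 4) (nat_lit 5) (nat_lit 4) (nat_lit 511) (nat_lit 427) (nat_lit 262)) (XT.lf (nat_lit 0) (nat_lit 478709868212) (nat_lit 76) (nat_lit 1356786375435) (nat_lit 76) (nat_lit 1297978556743) (nat_lit 4) (nat_lit 4) (nat_lit 5) (nat_lit 5) (nat_lit 5) (nat_lit 4) (nat_lit 512) (nat_lit 427) (nat_lit 261))))) (XT.nd (nat_lit 234) (nat_lit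 152) (nat_lit 0) (XT.nd (nat_lit 78) (nat_lit 0) (nat_lit 0) (XT.lf (nat_lit 0) (nat_lit 1098111846137) (nat_lit 76) (nat_lit 1161158082393) (nat_lit 76) (nat_lit 1102350251377) (nat_lit 4) (nat_lit 4) (nat_lit 5) (nat_lit 5) (nat_lit 5) (nat_lit 4) (nat_lit 513) (nat_lit 427) (nat_lit 260)) (XT.nd (nat_lit 78) (nat_lit 0) (nat_lit 0) (XT.lf (nat_lit 0) (nat_lit 1767065747756) (nat_lit 76) (nat_lit 949879646774) (nat_lit 76) (nat_lit 891071804347) (nat_lit 4) (nat_lit 4) (nat_lit 5) (nat_lit 5) (nat_lit 5) (nat_lit 4) (nat_lit 514) (nat_lit 427) (nat_lit 259)) (XT.lf (nat_lit 0) (nat_lit 2489535744340) (nat_lit 76) (nat_lit 721699048220) (nat_lit 76) (nat_lit 662891195227) (nat_lit 4) (nat_lit 4) (nat_lit 5) (nat_lit 5) (nat_lit 5) (nat_lit 4) (nat_lit 515) (nat_lit 427) (nat_lit 258)))) (XT.nd (nat_lit 156) (nat_lit 152) (nat_lit 0) (XT.nd (nat_lit 78) (nat_lit 0) (nat_lit 0) (XT.lf (nat_lit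 0) (nat_lit 3269803139571) (nat_lit 76) (nat_lit 475264105406) (nat_lit 76) (nat_lit 416456242629) (nat_lit 4) (nat_lit 4) (nat_lit 5) (nat_lit 5) (nat_lit 5) (nat_lit 4) (nat_lit 516) (nat_lit 427) (nat_lit 257)) (XT.lf (nat_lit 0) (nat_lit 4112491740236) (nat_lit 76) (nat_lit 209114463115) (nat_lit 76) (nat_lit 150306591280) (nat_lit 4) (nat_lit 4) (nat_lit 5) (nat_lit 5) (nat_lit 5) (nat_lit 4) (nat_lit 517) (nat_lit 427) (nat_lit 256))) (XT.nd (nat_lit 78) (nat_lit 0) (nat_lit 0) (XT.lf (nat_lit 0) (nat_lit 137755080142) (nat_lit 152) (nat_lit 4585212571000) (nat_lit 0) (nat_lit 83303339195) (nat_lit 2) (nat_lit 5) (nat_lit 4) (nat_lit 4) (nat_lit 2) (nat_lit 4) (nat_lit 518) (nat_lit 427) (nat_lit 255)) (XT.lf (nat_lit 0) (nat_lit 456255144868) (nat_lit 152) (nat_lit 4307765861153) (nat_lit 0) (nat_lit 401803396729) (nat_lit 2) (nat_lit 5) (nat_lit 4) (nat_lit 4) (nat_lit 2) (nat_lit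 4) (nat_lit 519) (nat_lit 427) (nat_lit 254))))))) (XT.nd (nat_lit 55302) (nat_lit 0) (nat_lit 4864) (XT.nd (nat_lit 468) (nat_lit 76) (nat_lit 0) (XT.nd (nat_lit 234) (nat_lit 0) (nat_lit 0) (XT.nd (nat_lit 78) (nat_lit 0) (nat_lit 0) (XT.lf (nat_lit 0) (nat_lit 800235135458) (nat_lit 152) (nat_lit 4008123578381) (nat_lit 0) (nat_lit 745783380661) (nat_lit 2) (nat_lit 5) (nat_lit 4) (nat_lit 4) (nat_lit 2) (nat_lit 4) (nat_lit 520) (nat_lit 427) (nat_lit 253)) (XT.nd (nat_lit 78) (nat_lit 0) (nat_lit 0) (XT.lf (nat_lit 0) (nat_lit 1171733451858) (nat_lit 152) (nat_lit 3684510064713) (nat_lit 0) (nat_lit 1117281690896) (nat_lit 2) (nat_lit 5) (nat_lit 4) (nat_lit 4) (nat_lit 2) (nat_lit 4) (nat_lit 521) (nat_lit 427) (nat_lit 252)) (XT.lf (nat_lit 0) (nat_lit 1572951565571) (nat_lit 152) (nat_lit 3335007610438) (nat_lit 0) (nat_lit 1518499798901) (nat_lit 2) (nat_lit 5) (nat_lit 4) (nat_lit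 4) (nat_lit 2) (nat_lit 4) (nat_lit 522) (nat_lit 427) (nat_lit 251)))) (XT.nd (nat_lit 78) (nat_lit 0) (nat_lit 0) (XT.lf (nat_lit 0) (nat_lit 2006267065421) (nat_lit 152) (nat_lit 2957545089901) (nat_lit 0) (nat_lit 1951815293465) (nat_lit 2) (nat_lit 5) (nat_lit 4) (nat_lit 4) (nat_lit 2) (nat_lit 4) (nat_lit 523) (nat_lit 427) (nat_lit 250)) (XT.nd (nat_lit 78) (nat_lit 0) (nat_lit 0) (XT.lf (nat_lit 0) (nat_lit 2474247746961) (nat_lit 152) (nat_lit 2549885688166) (nat_lit 0) (nat_lit 2419795970111) (nat_lit 2) (nat_lit 5) (nat_lit 4) (nat_lit 4) (nat_lit 2) (nat_lit 4) (nat_lit 524) (nat_lit 427) (nat_lit 249)) (XT.lf (nat_lit 0) (nat_lit 2979666829045) (nat_lit 152) (nat_lit 2109613645815) (nat_lit 0) (nat_lit 2925215047663) (nat_lit 2) (nat_lit 5) (nat_lit 4) (nat_lit 4) (nat_lit 2) (nat_lit 4) (nat_lit 525) (nat_lit 427) (nat_lit 248))))) (XT.nd (nat_lit 234) (nat_lit 76) (nat_lit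 0) (XT.nd (nat_lit 78) (nat_lit 0) (nat_lit 0) (XT.lf (nat_lit 0) (nat_lit 3525519387715) (nat_lit 152) (nat_lit 1634119943337) (nat_lit 0) (nat_lit 3471067602138) (nat_lit 2) (nat_lit 5) (nat_lit 4) (nat_lit 4) (nat_lit 2) (nat_lit 4) (nat_lit 526) (nat_lit 427) (nat_lit 247)) (XT.nd (nat_lit 78) (nat_lit 0) (nat_lit 0) (XT.lf (nat_lit 0) (nat_lit 4115040104801) (nat_lit 152) (nat_lit 1120586840274) (nat_lit 0) (nat_lit 4060588315338) (nat_lit 2) (nat_lit 5) (nat_lit 4) (nat_lit 4) (nat_lit 2) (nat_lit 4) (nat_lit 527) (nat_lit 427) (nat_lit 246)) (XT.lf (nat_lit 0) (nat_lit 4751722436403) (nat_lit 152) (nat_lit 565971177496) (nat_lit 0) (nat_lit 4697270643342) (nat_lit 2) (nat_lit 5) (nat_lit 4) (nat_lit 4) (nat_lit 2) (nat_lit 4) (nat_lit 528) (nat_lit 427) (nat_lit 245)))) (XT.nd (nat_lit 156) (nat_lit 0) (nat_lit 0) (XT.nd (nat_lit 78) (nat_lit 0) (nat_lit 0) (XT.lf (nat_lit 0) (nat_lit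 34752096968) (nat_lit 76) (nat_lit 5405423006655) (nat_lit 76) (nat_lit 5350971210264) (nat_lit 1) (nat_lit 4) (nat_lit 2) (nat_lit 5) (nat_lit 2) (nat_lit 4) (nat_lit 529) (nat_lit 427) (nat_lit 244)) (XT.lf (nat_lit 0) (nat_lit 715720435851) (nat_lit 76) (nat_lit 5483458164693) (nat_lit 76) (nat_lit 5429006365218) (nat_lit 1) (nat_lit 4) (nat_lit 2) (nat_lit 5) (nat_lit 2) (nat_lit 4) (nat_lit 530) (nat_lit 427) (nat_lit 243))) (XT.nd (nat_lit 78) (nat_lit 0) (nat_lit 0) (XT.lf (nat_lit 0) (nat_lit 1451166167865) (nat_lit 76) (nat_lit 5567736173558) (nat_lit 76) (nat_lit 5513284371227) (nat_lit 1) (nat_lit 4) (nat_lit 2) (nat_lit 5) (nat_lit 2) (nat_lit 4) (nat_lit 531) (nat_lit 427) (nat_lit 242)) (XT.lf (nat_lit 0) (nat_lit 2245447489941) (nat_lit 76) (nat_lit 5658756458487) (nat_lit 76) (nat_lit 5604304653512) (nat_lit 1) (nat_lit 4) (nat_lit 2) (nat_lit 5) (nat_lit 2) (nat_lit 4)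 (nat_lit 532) (nat_lit 427) (nat_lit 241)))))) (XT.nd (nat_lit 468) (nat_lit 760) (nat_lit 0) (XT.nd (nat_lit 234) (nat_lit 456) (nat_lit 0) (XT.nd (nat_lit 78) (nat_lit 0) (nat_lit 0) (XT.lf (nat_lit 0) (nat_lit 16759271712) (nat_lit 532) (nat_lit 387763549) (nat_lit 532) (nat_lit 387763549) (nat_lit 81) (nat_lit 3) (nat_lit 88) (nat_lit 3) (nat_lit 88) (nat_lit 5) (nat_lit 428) (nat_lit 428) (nat_lit 344)) (XT.nd (nat_lit 78) (nat_lit 0) (nat_lit 0) (XT.lf (nat_lit 76) (nat_lit 17494325314) (nat_lit 0) (nat_lit 17835966573) (nat_lit 532) (nat_lit 1104395660) (nat_lit 82) (nat_lit 5) (nat_lit 81) (nat_lit 3) (nat_lit 88) (nat_lit 5) (nat_lit 429) (nat_lit 428) (nat_lit 343)) (XT.lf (nat_lit 76) (nat_lit 37267011353) (nat_lit 0) (nat_lit 36075194) (nat_lit 532) (nat_lit 604610960) (nat_lit 82) (nat_lit 5) (nat_lit 81) (nat_lit 3) (nat_lit 88) (nat_lit 5) (nat_lit 430) (nat_lit 428) (nat_lit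 342)))) (XT.nd (nat_lit 78) (nat_lit 0) (nat_lit 0) (XT.lf (nat_lit 0) (nat_lit 891694952) (nat_lit 532) (nat_lit 19805851376) (nat_lit 608) (nat_lit 18724864270) (nat_lit 75) (nat_lit 5) (nat_lit 82) (nat_lit 5) (nat_lit 83) (nat_lit 5) (nat_lit 431) (nat_lit 428) (nat_lit 341)) (XT.nd (nat_lit 78) (nat_lit 0) (nat_lit 76) (XT.lf (nat_lit 76) (nat_lit 477473056) (nat_lit 0) (nat_lit 2023448400) (nat_lit 608) (nat_lit 38554053549) (nat_lit 76) (nat_lit 5) (nat_lit 75) (nat_lit 5) (nat_lit 83) (nat_lit 5) (nat_lit 432) (nat_lit 428) (nat_lit 340)) (XT.lf (nat_lit 0) (nat_lit 5226629131) (nat_lit 532) (nat_lit 19718948701) (nat_lit 608) (nat_lit 17793548278) (nat_lit 76) (nat_lit 5) (nat_lit 83) (nat_lit 5) (nat_lit 84) (nat_lit 5) (nat_lit 433) (nat_lit 428) (nat_lit 339))))) (XT.nd (nat_lit 234) (nat_lit 456) (nat_lit 0) (XT.nd (nat_lit 78) (nat_lit 380) (nat_lit 0) (XT.lf (nat_lit 76)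 (nat_lit 2897409939) (nat_lit 0) (nat_lit 5391309298) (nat_lit 608) (nat_lit 36259824914) (nat_lit 77) (nat_lit 5) (nat_lit 76) (nat_lit 5) (nat_lit 84) (nat_lit 5) (nat_lit 434) (nat_lit 428) (nat_lit 338)) (XT.nd (nat_lit 78) (nat_lit 456) (nat_lit 0) (XT.lf (nat_lit 0) (nat_lit 12523485380) (nat_lit 532) (nat_lit 18410806879) (nat_lit 76) (nat_lit 15494207519) (nat_lit 77) (nat_lit 5) (nat_lit 84) (nat_lit 5) (nat_lit 78) (nat_lit 5) (nat_lit 435) (nat_lit 428) (nat_lit 337)) (XT.lf (nat_lit 0) (nat_lit 6890155763) (nat_lit 456) (nat_lit 10509204600) (nat_lit 532) (nat_lit 31035306072) (nat_lit 71) (nat_lit 5) (nat_lit 77) (nat_lit 5) (nat_lit 78) (nat_lit 5) (nat_lit 436) (nat_lit 428) (nat_lit 336)))) (XT.nd (nat_lit 156) (nat_lit 228) (nat_lit 0) (XT.nd (nat_lit 78) (nat_lit 228) (nat_lit 0) (XT.lf (nat_lit 0) (nat_lit 23456303980) (nat_lit 532) (nat_lit 15593081892) (nat_lit 76)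 (nat_lit 11488661390) (nat_lit 71) (nat_lit 5) (nat_lit 78) (nat_lit 5) (nat_lit 72) (nat_lit 5) (nat_lit 437) (nat_lit 428) (nat_lit 335)) (XT.lf (nat_lit 0) (nat_lit 12798573480) (nat_lit 228) (nat_lit 17777006126) (nat_lit 304) (nat_lit 22187897498) (nat_lit 68) (nat_lit 5) (nat_lit 71) (nat_lit 5) (nat_lit 72) (nat_lit 5) (nat_lit 438) (nat_lit 428) (nat_lit 334))) (XT.nd (nat_lit 78) (nat_lit 228) (nat_lit 0) (XT.lf (nat_lit 0) (nat_lit 38823952055) (nat_lit 304) (nat_lit 10923846839) (nat_lit 76) (nat_lit 5374378681) (nat_lit 68) (nat_lit 5) (nat_lit 72) (nat_lit 5) (nat_lit 69) (nat_lit 5) (nat_lit 439) (nat_lit 428) (nat_lit 333)) (XT.lf (nat_lit 0) (nat_lit 21027582598) (nat_lit 228) (nat_lit 27669423883) (nat_lit 304) (nat_lit 8895383205) (nat_lit 65) (nat_lit 5) (nat_lit 68) (nat_lit 5) (nat_lit 69) (nat_lit 5) (nat_lit 440) (nat_lit 428) (nat_lit 332))))))))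
noncomputable def xc160 : XT := (XT.nd (nat_lit 1950) (nat_lit 1596) (nat_lit 0) (XT.nd (nat_lit 936) (nat_lit 988) (nat_lit 0) (XT.nd (nat_lit 468) (nat_lit 684) (nat_lit 0) (XT.nd (nat_lit 234) (nat_lit 152) (nat_lit 0) (XT.nd (nat_lit 78) (nat_lit 456) (nat_lit 0) (XT.lf (nat_lit 0) (nat_lit 56153396301) (nat_lit 228) (nat_lit 3502668257) (nat_lit 304) (nat_lit 580461999) (nat_lit 65) (nat_lit 5) (nat_lit 68) (nat_lit 5) (nat_lit 69) (nat_lit 5) (nat_lit 441) (nat_lit 428) (nat_lit 331)) (XT.nd (nat_lit 78) (nat_lit 228) (nat_lit 0) (XT.lf (nat_lit 0) (nat_lit 9325576600) (nat_lit 228) (nat_lit 31169167313) (nat_lit 76) (nat_lit 22473601306) (nat_lit 62) (nat_lit 5) (nat_lit 65) (nat_lit 5) (nat_lit 63) (nat_lit 5) (nat_lit 442) (nat_lit 428) (nat_lit 330)) (XT.lf (nat_lit 0) (nat_lit 5013355001) (nat_lit 228) (nat_lit 15303177068) (nat_lit 304) (nat_lit 45575068067) (nat_lit 59) (nat_lit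 5) (nat_lit 62) (nat_lit 5) (nat_lit 63) (nat_lit 5) (nat_lit 443) (nat_lit 428) (nat_lit 329)))) (XT.nd (nat_lit 78) (nat_lit 152) (nat_lit 0) (XT.lf (nat_lit 0) (nat_lit 33345191866) (nat_lit 304) (nat_lit 23428926262) (nat_lit 76) (nat_lit 12181923483) (nat_lit 59) (nat_lit 5) (nat_lit 63) (nat_lit 5) (nat_lit 60) (nat_lit 5) (nat_lit 444) (nat_lit 428) (nat_lit 328)) (XT.nd (nat_lit 78) (nat_lit 0) (nat_lit 0) (XT.lf (nat_lit 0) (nat_lit 17490984485) (nat_lit 152) (nat_lit 30741254964) (nat_lit 228) (nat_lit 23968111717) (nat_lit 57) (nat_lit 5) (nat_lit 59) (nat_lit 5) (nat_lit 60) (nat_lit 5) (nat_lit 445) (nat_lit 428) (nat_lit 327)) (XT.lf (nat_lit 0) (nat_lit 63014145346) (nat_lit 152) (nat_lit 1934730364) (nat_lit 228) (nat_lit 10704240121) (nat_lit 57) (nat_lit 5) (nat_lit 59) (nat_lit 5) (nat_lit 60) (nat_lit 5) (nat_lit 446) (nat_lit 428) (nat_lit 326))))) (XT.nd (nat_lit 234)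 (nat_lit 304) (nat_lit 0) (XT.nd (nat_lit 78) (nat_lit 152) (nat_lit 0) (XT.lf (nat_lit 0) (nat_lit 4991226021) (nat_lit 228) (nat_lit 45604855593) (nat_lit 76) (nat_lit 28654925315) (nat_lit 54) (nat_lit 5) (nat_lit 57) (nat_lit 5) (nat_lit 55) (nat_lit 5) (nat_lit 447) (nat_lit 428) (nat_lit 325)) (XT.nd (nat_lit 78) (nat_lit 0) (nat_lit 0) (XT.lf (nat_lit 0) (nat_lit 951404108) (nat_lit 152) (nat_lit 20838491074) (nat_lit 228) (nat_lit 61290522005) (nat_lit 52) (nat_lit 5) (nat_lit 54) (nat_lit 5) (nat_lit 55) (nat_lit 5) (nat_lit 448) (nat_lit 428) (nat_lit 324)) (XT.lf (nat_lit 0) (nat_lit 41481760532) (nat_lit 228) (nat_lit 33597585032) (nat_lit 76) (nat_lit 12012890736) (nat_lit 52) (nat_lit 5) (nat_lit 55) (nat_lit 5) (nat_lit 53) (nat_lit 5) (nat_lit 449) (nat_lit 428) (nat_lit 323)))) (XT.nd (nat_lit 78) (nat_lit 152) (nat_lit 0) (XT.lf (nat_lit 0) (nat_lit 19234736409) (nat_lit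 152) (nat_lit 44516463895) (nat_lit 228) (nat_lit 27593622851) (nat_lit 50) (nat_lit 5) (nat_lit 52) (nat_lit 5) (nat_lit 53) (nat_lit 5) (nat_lit 450) (nat_lit 428) (nat_lit 322)) (XT.nd (nat_lit 78) (nat_lit 152) (nat_lit 0) (XT.lf (nat_lit 0) (nat_lit 78201872070) (nat_lit 152) (nat_lit 10517371245) (nat_lit 228) (nat_lit 7145010013) (nat_lit 50) (nat_lit 5) (nat_lit 52) (nat_lit 5) (nat_lit 53) (nat_lit 5) (nat_lit 451) (nat_lit 428) (nat_lit 321)) (XT.lf (nat_lit 0) (nat_lit 15889334486) (nat_lit 152) (nat_lit 58373469186) (nat_lit 76) (nat_lit 26317916690) (nat_lit 48) (nat_lit 5) (nat_lit 50) (nat_lit 5) (nat_lit 49) (nat_lit 5) (nat_lit 452) (nat_lit 428) (nat_lit 320)))))) (XT.nd (nat_lit 468) (nat_lit 456) (nat_lit 0) (XT.nd (nat_lit 234) (nat_lit 304) (nat_lit 0) (XT.nd (nat_lit 78) (nat_lit 76) (nat_lit 0) (XT.lf (nat_lit 0) (nat_lit 1854077412) (nat_lit 152) (nat_lit 39338108124)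 (nat_lit 228) (nat_lit 64402530608) (nat_lit 46) (nat_lit 5) (nat_lit 48) (nat_lit 5) (nat_lit 49) (nat_lit 5) (nat_lit 453) (nat_lit 428) (nat_lit 319)) (XT.nd (nat_lit 78) (nat_lit 76) (nat_lit 0) (XT.lf (nat_lit 0) (nat_lit 70116376795) (nat_lit 228) (nat_lit 40667529441) (nat_lit 76) (nat_lit 98156541) (nat_lit 46) (nat_lit 5) (nat_lit 49) (nat_lit 5) (nat_lit 47) (nat_lit 4) (nat_lit 454) (nat_lit 428) (nat_lit 318)) (XT.lf (nat_lit 0) (nat_lit 27819009345) (nat_lit 76) (nat_lit 75224986906) (nat_lit 152) (nat_lit 13413241599) (nat_lit 45) (nat_lit 5) (nat_lit 46) (nat_lit 5) (nat_lit 47) (nat_lit 4) (nat_lit 455) (nat_lit 428) (nat_lit 317)))) (XT.nd (nat_lit 78) (nat_lit 228) (nat_lit 0) (XT.lf (nat_lit 0) (nat_lit 16460131506) (nat_lit 152) (nat_lit 18711230390) (nat_lit 76) (nat_lit 87184876736) (nat_lit 44) (nat_lit 5) (nat_lit 46) (nat_lit 5) (nat_lit 45) (nat_lit 5) (nat_lit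 456) (nat_lit 428) (nat_lit 316)) (XT.nd (nat_lit 78) (nat_lit 76) (nat_lit 0) (XT.lf (nat_lit 0) (nat_lit 49667483651) (nat_lit 228) (nat_lit 69393200296) (nat_lit 76) (nat_lit 9505102162) (nat_lit 42) (nat_lit 5) (nat_lit 45) (nat_lit 5) (nat_lit 43) (nat_lit 4) (nat_lit 457) (nat_lit 428) (nat_lit 315)) (XT.lf (nat_lit 0) (nat_lit 8622428882) (nat_lit 76) (nat_lit 78553597020) (nat_lit 152) (nat_lit 47964503434) (nat_lit 41) (nat_lit 5) (nat_lit 42) (nat_lit 5) (nat_lit 43) (nat_lit 4) (nat_lit 458) (nat_lit 428) (nat_lit 314))))) (XT.nd (nat_lit 234) (nat_lit 304) (nat_lit 0) (XT.nd (nat_lit 78) (nat_lit 152) (nat_lit 0) (XT.lf (nat_lit 0) (nat_lit 96823683319) (nat_lit 76) (nat_lit 32757743890) (nat_lit 152) (nat_lit 12508130857) (nat_lit 41) (nat_lit 5) (nat_lit 42) (nat_lit 5) (nat_lit 43) (nat_lit 4) (nat_lit 459) (nat_lit 428) (nat_lit 313)) (XT.nd (nat_lit 78) (nat_lit 0) (nat_lit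 0) (XT.lf (nat_lit 0) (nat_lit 25998945900) (nat_lit 152) (nat_lit 105836561853) (nat_lit 76) (nat_lit 17589067348) (nat_lit 39) (nat_lit 5) (nat_lit 41) (nat_lit 5) (nat_lit 40) (nat_lit 4) (nat_lit 460) (nat_lit 428) (nat_lit 312)) (XT.lf (nat_lit 0) (nat_lit 69030385854) (nat_lit 152) (nat_lit 16332738759) (nat_lit 76) (nat_lit 71787713161) (nat_lit 39) (nat_lit 5) (nat_lit 41) (nat_lit 5) (nat_lit 40) (nat_lit 4) (nat_lit 461) (nat_lit 428) (nat_lit 311)))) (XT.nd (nat_lit 156) (nat_lit 152) (nat_lit 0) (XT.nd (nat_lit 78) (nat_lit 76) (nat_lit 0) (XT.lf (nat_lit 0) (nat_lit 84559553215) (nat_lit 76) (nat_lit 32977442033) (nat_lit 152) (nat_lit 47795593945) (nat_lit 38) (nat_lit 5) (nat_lit 39) (nat_lit 5) (nat_lit 40) (nat_lit 4) (nat_lit 462) (nat_lit 428) (nat_lit 310)) (XT.lf (nat_lit 0) (nat_lit 20777276447) (nat_lit 76) (nat_lit 150671281065) (nat_lit 76) (nat_lit 2598369352)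 (nat_lit 37) (nat_lit 4) (nat_lit 38) (nat_lit 5) (nat_lit 38) (nat_lit 4) (nat_lit 463) (nat_lit 428) (nat_lit 309))) (XT.nd (nat_lit 78) (nat_lit 76) (nat_lit 0) (XT.lf (nat_lit 0) (nat_lit 47024199136) (nat_lit 152) (nat_lit 50263732983) (nat_lit 76) (nat_lit 85831849719) (nat_lit 36) (nat_lit 5) (nat_lit 38) (nat_lit 5) (nat_lit 37) (nat_lit 4) (nat_lit 464) (nat_lit 428) (nat_lit 308)) (XT.lf (nat_lit 0) (nat_lit 64121035094) (nat_lit 76) (nat_lit 37896355370) (nat_lit 152) (nat_lit 90772379848) (nat_lit 35) (nat_lit 5) (nat_lit 36) (nat_lit 5) (nat_lit 37) (nat_lit 4) (nat_lit 465) (nat_lit 428) (nat_lit 307))))))) (XT.nd (nat_lit 936) (nat_lit 836) (nat_lit 0) (XT.nd (nat_lit 468) (nat_lit 380) (nat_lit 0) (XT.nd (nat_lit 234) (nat_lit 152) (nat_lit 0) (XT.nd (nat_lit 78) (nat_lit 228) (nat_lit 0) (XT.lf (nat_lit 0) (nat_lit 163450355430) (nat_lit 152) (nat_lit 13276947240) (nat_lit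 0) (nat_lit 26342829775) (nat_lit 35) (nat_lit 5) (nat_lit 37) (nat_lit 4) (nat_lit 35) (nat_lit 4) (nat_lit 466) (nat_lit 428) (nat_lit 306)) (XT.nd (nat_lit 78) (nat_lit 76) (nat_lit 0) (XT.lf (nat_lit 0) (nat_lit 18718932376) (nat_lit 152) (nat_lit 98172995619) (nat_lit 76) (nat_lit 96940890935) (nat_lit 33) (nat_lit 5) (nat_lit 35) (nat_lit 5) (nat_lit 34) (nat_lit 4) (nat_lit 467) (nat_lit 428) (nat_lit 305)) (XT.lf (nat_lit 0) (nat_lit 30736572150) (nat_lit 76) (nat_lit 49958492037) (nat_lit 152) (nat_lit 144590263560) (nat_lit 32) (nat_lit 5) (nat_lit 33) (nat_lit 5) (nat_lit 34) (nat_lit 4) (nat_lit 468) (nat_lit 428) (nat_lit 304)))) (XT.nd (nat_lit 78) (nat_lit 152) (nat_lit 0) (XT.lf (nat_lit 0) (nat_lit 150919427424) (nat_lit 152) (nat_lit 62505572580) (nat_lit 0) (nat_lit 23965826030) (nat_lit 32) (nat_lit 5) (nat_lit 34) (nat_lit 4) (nat_lit 32) (nat_lit 4) (nat_lit 469) (nat_lit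 428) (nat_lit 303)) (XT.nd (nat_lit 78) (nat_lit 76) (nat_lit 0) (XT.lf (nat_lit 0) (nat_lit 82951516582) (nat_lit 76) (nat_lit 147102063053) (nat_lit 76) (nat_lit 20147837391) (nat_lit 31) (nat_lit 4) (nat_lit 32) (nat_lit 5) (nat_lit 32) (nat_lit 4) (nat_lit 470) (nat_lit 428) (nat_lit 302)) (XT.lf (nat_lit 0) (nat_lit 50658926474) (nat_lit 152) (nat_lit 21584236620) (nat_lit 76) (nat_lit 191554430611) (nat_lit 30) (nat_lit 5) (nat_lit 32) (nat_lit 5) (nat_lit 31) (nat_lit 4) (nat_lit 471) (nat_lit 428) (nat_lit 301))))) (XT.nd (nat_lit 234) (nat_lit 152) (nat_lit 0) (XT.nd (nat_lit 78) (nat_lit 152) (nat_lit 0) (XT.lf (nat_lit 0) (nat_lit 129773475923) (nat_lit 152) (nat_lit 136145346700) (nat_lit 0) (nat_lit 12222236204) (nat_lit 29) (nat_lit 5) (nat_lit 31) (nat_lit 4) (nat_lit 29) (nat_lit 4) (nat_lit 472) (nat_lit 428) (nat_lit 300)) (XT.nd (nat_lit 78) (nat_lit 76) (nat_lit 0) (XT.lf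 (nat_lit 0) (nat_lit 25697088620) (nat_lit 76) (nat_lit 192619336151) (nat_lit 76) (nat_lit 75067637578) (nat_lit 28) (nat_lit 4) (nat_lit 29) (nat_lit 5) (nat_lit 29) (nat_lit 4) (nat_lit 473) (nat_lit 428) (nat_lit 299)) (XT.lf (nat_lit 0) (nat_lit 7709827863) (nat_lit 152) (nat_lit 101515681483) (nat_lit 76) (nat_lit 200307640478) (nat_lit 27) (nat_lit 5) (nat_lit 29) (nat_lit 5) (nat_lit 28) (nat_lit 4) (nat_lit 474) (nat_lit 428) (nat_lit 298)))) (XT.nd (nat_lit 78) (nat_lit 76) (nat_lit 0) (XT.lf (nat_lit 0) (nat_lit 80000146263) (nat_lit 76) (nat_lit 14977095610) (nat_lit 152) (nat_lit 231687069456) (nat_lit 26) (nat_lit 5) (nat_lit 27) (nat_lit 5) (nat_lit 28) (nat_lit 4) (nat_lit 475) (nat_lit 428) (nat_lit 297)) (XT.nd (nat_lit 78) (nat_lit 76) (nat_lit 0) (XT.lf (nat_lit 0) (nat_lit 194160924026) (nat_lit 152) (nat_lit 65294587985) (nat_lit 0) (nat_lit 85315663760) (nat_lit 26)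 (nat_lit 5) (nat_lit 28) (nat_lit 4) (nat_lit 26) (nat_lit 4) (nat_lit 476) (nat_lit 428) (nat_lit 296)) (XT.lf (nat_lit 0) (nat_lit 137050145457) (nat_lit 76) (nat_lit 167913629282) (nat_lit 76) (nat_lit 59068056727) (nat_lit 25) (nat_lit 4) (nat_lit 26) (nat_lit 5) (nat_lit 26) (nat_lit 4) (nat_lit 477) (nat_lit 428) (nat_lit 295)))))) (XT.nd (nat_lit 468) (nat_lit 456) (nat_lit 0) (XT.nd (nat_lit 234) (nat_lit 152) (nat_lit 0) (XT.nd (nat_lit 78) (nat_lit 152) (nat_lit 0) (XT.lf (nat_lit 0) (nat_lit 39637721915) (nat_lit 152) (nat_lit 26399400127) (nat_lit 76) (nat_lit 318573163828) (nat_lit 24) (nat_lit 5) (nat_lit 26) (nat_lit 5) (nat_lit 25) (nat_lit 4) (nat_lit 478) (nat_lit 428) (nat_lit 294)) (XT.nd (nat_lit 78) (nat_lit 76) (nat_lit 0) (XT.lf (nat_lit 0) (nat_lit 149047130069) (nat_lit 152) (nat_lit 208921600755) (nat_lit 0) (nat_lit 48263676875) (nat_lit 23) (nat_lit 5) (nat_lit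 25) (nat_lit 4) (nat_lit 23) (nat_lit 4) (nat_lit 479) (nat_lit 428) (nat_lit 293)) (XT.lf (nat_lit 0) (nat_lit 9639741677) (nat_lit 76) (nat_lit 260256636674) (nat_lit 76) (nat_lit 159472953938) (nat_lit 22) (nat_lit 4) (nat_lit 23) (nat_lit 5) (nat_lit 23) (nat_lit 4) (nat_lit 480) (nat_lit 428) (nat_lit 292)))) (XT.nd (nat_lit 78) (nat_lit 152) (nat_lit 0) (XT.lf (nat_lit 0) (nat_lit 257566464020) (nat_lit 76) (nat_lit 148558851110) (nat_lit 76) (nat_lit 47774955835) (nat_lit 22) (nat_lit 4) (nat_lit 23) (nat_lit 5) (nat_lit 23) (nat_lit 4) (nat_lit 481) (nat_lit 428) (nat_lit 291)) (XT.nd (nat_lit 78) (nat_lit 0) (nat_lit 0) (XT.lf (nat_lit 0) (nat_lit 45454151627) (nat_lit 76) (nat_lit 24852696304) (nat_lit 152) (nat_lit 409859243212) (nat_lit 20) (nat_lit 5) (nat_lit 21) (nat_lit 5) (nat_lit 22) (nat_lit 4) (nat_lit 482) (nat_lit 428) (nat_lit 290)) (XT.lf (nat_lit 0) (nat_lit 203376582421)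 (nat_lit 152) (nat_lit 194349713958) (nat_lit 0) (nat_lit 110057809933) (nat_lit 20) (nat_lit 5) (nat_lit 22) (nat_lit 4) (nat_lit 20) (nat_lit 4) (nat_lit 483) (nat_lit 428) (nat_lit 289))))) (XT.nd (nat_lit 234) (nat_lit 228) (nat_lit 0) (XT.nd (nat_lit 78) (nat_lit 152) (nat_lit 0) (XT.lf (nat_lit 0) (nat_lit 67996468045) (nat_lit 76) (nat_lit 281375796913) (nat_lit 76) (nat_lit 188056868202) (nat_lit 19) (nat_lit 4) (nat_lit 20) (nat_lit 5) (nat_lit 20) (nat_lit 4) (nat_lit 484) (nat_lit 428) (nat_lit 288)) (XT.nd (nat_lit 78) (nat_lit 152) (nat_lit 0) (XT.lf (nat_lit 0) (nat_lit 362382253507) (nat_lit 76) (nat_lit 149978754762) (nat_lit 76) (nat_lit 56659681401) (nat_lit 19) (nat_lit 4) (nat_lit 20) (nat_lit 5) (nat_lit 20) (nat_lit 4) (nat_lit 485) (nat_lit 428) (nat_lit 287)) (XT.lf (nat_lit 0) (nat_lit 79084316117) (nat_lit 76) (nat_lit 3801993216) (nat_lit 152) (nat_lit 519937118136)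 (nat_lit 17) (nat_lit 5) (nat_lit 18) (nat_lit 5) (nat_lit 19) (nat_lit 4) (nat_lit 486) (nat_lit 428) (nat_lit 286)))) (XT.nd (nat_lit 156) (nat_lit 152) (nat_lit 0) (XT.nd (nat_lit 78) (nat_lit 76) (nat_lit 0) (XT.lf (nat_lit 0) (nat_lit 240036421083) (nat_lit 152) (nat_lit 244786473079) (nat_lit 0) (nat_lit 153629632832) (nat_lit 17) (nat_lit 5) (nat_lit 19) (nat_lit 4) (nat_lit 17) (nat_lit 4) (nat_lit 487) (nat_lit 428) (nat_lit 285)) (XT.lf (nat_lit 0) (nat_lit 59351820737) (nat_lit 76) (nat_lit 351932483658) (nat_lit 76) (nat_lit 265525589084) (nat_lit 16) (nat_lit 4) (nat_lit 17) (nat_lit 5) (nat_lit 17) (nat_lit 4) (nat_lit 488) (nat_lit 428) (nat_lit 284))) (XT.nd (nat_lit 78) (nat_lit 152) (nat_lit 0) (XT.lf (nat_lit 0) (nat_lit 401741601569) (nat_lit 76) (nat_lit 201182920232) (nat_lit 76) (nat_lit 114775927212) (nat_lit 16) (nat_lit 4) (nat_lit 17) (nat_lit 5) (nat_lit 17)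 (nat_lit 4) (nat_lit 489) (nat_lit 428) (nat_lit 283)) (XT.lf (nat_lit 0) (nat_lit 8952167227) (nat_lit 76) (nat_lit 36893626715) (nat_lit 152) (nat_lit 715906843953) (nat_lit 14) (nat_lit 5) (nat_lit 15) (nat_lit 5) (nat_lit 16) (nat_lit 4) (nat_lit 490) (nat_lit 428) (nat_lit 282))))))))
noncomputable def xc161 : XT := (XT.nd (nat_lit 1950) (nat_lit 228) (nat_lit 0) (XT.nd (nat_lit 936) (nat_lit 304) (nat_lit 0) (XT.nd (nat_lit 468) (nat_lit 228) (nat_lit 0) (XT.nd (nat_lit 234) (nat_lit 152) (nat_lit 0) (XT.nd (nat_lit 78) (nat_lit 76) (nat_lit 0) (XT.lf (nat_lit 0) (nat_lit 225359222261) (nat_lit 152) (nat_lit 437399271447) (nat_lit 0) (nat_lit 145352584691) (nat_lit 14) (nat_lit 5) (nat_lit 16) (nat_lit 4) (nat_lit 14) (nat_lit 4) (nat_lit 491) (nat_lit 428) (nat_lit 281)) (XT.nd (nat_lit 78) (nat_lit 76) (nat_lit 0) (XT.lf (nat_lit 0) (nat_lit 420191656226) (nat_lit 152) (nat_lit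 97724957116) (nat_lit 0) (nat_lit 340184946295) (nat_lit 14) (nat_lit 5) (nat_lit 16) (nat_lit 4) (nat_lit 14) (nat_lit 4) (nat_lit 492) (nat_lit 428) (nat_lit 280)) (XT.lf (nat_lit 0) (nat_lit 283294171569) (nat_lit 76) (nat_lit 354129425869) (nat_lit 76) (nat_lit 274122648937) (nat_lit 13) (nat_lit 4) (nat_lit 14) (nat_lit 5) (nat_lit 14) (nat_lit 4) (nat_lit 493) (nat_lit 428) (nat_lit 279)))) (XT.nd (nat_lit 78) (nat_lit 152) (nat_lit 0) (XT.lf (nat_lit 0) (nat_lit 700351899373) (nat_lit 76) (nat_lit 174353857317) (nat_lit 76) (nat_lit 94347018347) (nat_lit 13) (nat_lit 4) (nat_lit 14) (nat_lit 5) (nat_lit 14) (nat_lit 4) (nat_lit 494) (nat_lit 428) (nat_lit 278)) (XT.nd (nat_lit 78) (nat_lit 0) (nat_lit 0) (XT.lf (nat_lit 0) (nat_lit 98400559602) (nat_lit 152) (nat_lit 907960504084) (nat_lit 0) (nat_lit 24320099961) (nat_lit 11) (nat_lit 5) (nat_lit 13) (nat_lit 4) (nat_lit 11) (nat_lit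 4) (nat_lit 495) (nat_lit 428) (nat_lit 277)) (XT.lf (nat_lit 0) (nat_lit 313536714067) (nat_lit 152) (nat_lit 543085581566) (nat_lit 0) (nat_lit 239456205177) (nat_lit 11) (nat_lit 5) (nat_lit 13) (nat_lit 4) (nat_lit 11) (nat_lit 4) (nat_lit 496) (nat_lit 428) (nat_lit 276))))) (XT.nd (nat_lit 234) (nat_lit 152) (nat_lit 0) (XT.nd (nat_lit 78) (nat_lit 76) (nat_lit 0) (XT.lf (nat_lit 0) (nat_lit 545883487940) (nat_lit 152) (nat_lit 149021225391) (nat_lit 0) (nat_lit 471802933451) (nat_lit 11) (nat_lit 5) (nat_lit 13) (nat_lit 4) (nat_lit 11) (nat_lit 4) (nat_lit 497) (nat_lit 428) (nat_lit 275)) (XT.nd (nat_lit 78) (nat_lit 0) (nat_lit 0) (XT.lf (nat_lit 0) (nat_lit 291131328777) (nat_lit 76) (nat_lit 512688137676) (nat_lit 76) (nat_lit 438607540965) (nat_lit 10) (nat_lit 4) (nat_lit 11) (nat_lit 5) (nat_lit 11) (nat_lit 4) (nat_lit 498) (nat_lit 428) (nat_lit 274)) (XT.lf (nat_lit 0)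 (nat_lit 774970550889) (nat_lit 76) (nat_lit 311494030583) (nat_lit 76) (nat_lit 237413394777) (nat_lit 10) (nat_lit 4) (nat_lit 11) (nat_lit 5) (nat_lit 11) (nat_lit 4) (nat_lit 499) (nat_lit 428) (nat_lit 273)))) (XT.nd (nat_lit 78) (nat_lit 152) (nat_lit 0) (XT.lf (nat_lit 0) (nat_lit 1297516442693) (nat_lit 76) (nat_lit 94204635066) (nat_lit 76) (nat_lit 20123963062) (nat_lit 10) (nat_lit 4) (nat_lit 11) (nat_lit 5) (nat_lit 11) (nat_lit 4) (nat_lit 500) (nat_lit 428) (nat_lit 272)) (XT.nd (nat_lit 78) (nat_lit 0) (nat_lit 0) (XT.lf (nat_lit 0) (nat_lit 216415263928) (nat_lit 152) (nat_lit 1141191458052) (nat_lit 0) (nat_lit 147822018075) (nat_lit 8) (nat_lit 5) (nat_lit 10) (nat_lit 4) (nat_lit 8) (nat_lit 4) (nat_lit 501) (nat_lit 428) (nat_lit 271)) (XT.lf (nat_lit 0) (nat_lit 476444209633) (nat_lit 152) (nat_lit 721709870743) (nat_lit 0) (nat_lit 407850935044) (nat_lit 8) (nat_lit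 5) (nat_lit 10) (nat_lit 4) (nat_lit 8) (nat_lit 4) (nat_lit 502) (nat_lit 428) (nat_lit 270)))))) (XT.nd (nat_lit 468) (nat_lit 76) (nat_lit 0) (XT.nd (nat_lit 234) (nat_lit 152) (nat_lit 0) (XT.nd (nat_lit 78) (nat_lit 76) (nat_lit 0) (XT.lf (nat_lit 0) (nat_lit 757275270741) (nat_lit 152) (nat_lit 268670168550) (nat_lit 0) (nat_lit 688681969545) (nat_lit 8) (nat_lit 5) (nat_lit 10) (nat_lit 4) (nat_lit 8) (nat_lit 4) (nat_lit 503) (nat_lit 428) (nat_lit 269)) (XT.nd (nat_lit 78) (nat_lit 0) (nat_lit 0) (XT.lf (nat_lit 0) (nat_lit 232229382491) (nat_lit 76) (nat_lit 833928371061) (nat_lit 76) (nat_lit 765335045229) (nat_lit 7) (nat_lit 4) (nat_lit 8) (nat_lit 5) (nat_lit 8) (nat_lit 4) (nat_lit 504) (nat_lit 428) (nat_lit 268)) (XT.lf (nat_lit 0) (nat_lit 788480036249) (nat_lit 76) (nat_lit 618616536643) (nat_lit 76) (nat_lit 550023187999) (nat_lit 7) (nat_lit 4) (nat_lit 8) (nat_lit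 5) (nat_lit 8) (nat_lit 4) (nat_lit 505) (nat_lit 428) (nat_lit 267)))) (XT.nd (nat_lit 78) (nat_lit 152) (nat_lit 0) (XT.lf (nat_lit 0) (nat_lit 1389230397943) (nat_lit 76) (nat_lit 386079932587) (nat_lit 76) (nat_lit 317486562821) (nat_lit 7) (nat_lit 4) (nat_lit 8) (nat_lit 5) (nat_lit 8) (nat_lit 4) (nat_lit 506) (nat_lit 428) (nat_lit 266)) (XT.nd (nat_lit 78) (nat_lit 152) (nat_lit 0) (XT.lf (nat_lit 0) (nat_lit 2038040469716) (nat_lit 76) (nat_lit 134940564202) (nat_lit 76) (nat_lit 66347174880) (nat_lit 7) (nat_lit 4) (nat_lit 8) (nat_lit 5) (nat_lit 8) (nat_lit 4) (nat_lit 507) (nat_lit 428) (nat_lit 265)) (XT.lf (nat_lit 0) (nat_lit 206773530989) (nat_lit 152) (nat_lit 2046182044800) (nat_lit 0) (nat_lit 143261116702) (nat_lit 5) (nat_lit 5) (nat_lit 7) (nat_lit 4) (nat_lit 5) (nat_lit 4) (nat_lit 508) (nat_lit 428) (nat_lit 264))))) (XT.nd (nat_lit 234) (nat_lit 76) (nat_lit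 0) (XT.nd (nat_lit 78) (nat_lit 0) (nat_lit 0) (XT.lf (nat_lit 0) (nat_lit 507310738526) (nat_lit 152) (nat_lit 1613677238105) (nat_lit 0) (nat_lit 443798308714) (nat_lit 5) (nat_lit 5) (nat_lit 7) (nat_lit 4) (nat_lit 5) (nat_lit 4) (nat_lit 509) (nat_lit 428) (nat_lit 263)) (XT.nd (nat_lit 78) (nat_lit 0) (nat_lit 0) (XT.lf (nat_lit 0) (nat_lit 831890786578) (nat_lit 152) (nat_lit 1146572327545) (nat_lit 0) (nat_lit 768378342391) (nat_lit 5) (nat_lit 5) (nat_lit 7) (nat_lit 4) (nat_lit 5) (nat_lit 4) (nat_lit 510) (nat_lit 428) (nat_lit 262)) (XT.lf (nat_lit 0) (nat_lit 1182437112467) (nat_lit 152) (nat_lit 642099284023) (nat_lit 0) (nat_lit 1118924654970) (nat_lit 5) (nat_lit 5) (nat_lit 7) (nat_lit 4) (nat_lit 5) (nat_lit 4) (nat_lit 511) (nat_lit 428) (nat_lit 261)))) (XT.nd (nat_lit 156) (nat_lit 0) (nat_lit 0) (XT.nd (nat_lit 78) (nat_lit 76) (nat_lit 0) (XT.lf (nat_lit 0) (nat_lit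 1561027027754) (nat_lit 152) (nat_lit 97268637649) (nat_lit 0) (nat_lit 1497514557932) (nat_lit 5) (nat_lit 5) (nat_lit 7) (nat_lit 4) (nat_lit 5) (nat_lit 4) (nat_lit 512) (nat_lit 428) (nat_lit 260)) (XT.lf (nat_lit 0) (nat_lit 517011233432) (nat_lit 76) (nat_lit 1465326927398) (nat_lit 76) (nat_lit 1401814446165) (nat_lit 4) (nat_lit 4) (nat_lit 5) (nat_lit 5) (nat_lit 5) (nat_lit 4) (nat_lit 513) (nat_lit 428) (nat_lit 259))) (XT.nd (nat_lit 78) (nat_lit 0) (nat_lit 0) (XT.lf (nat_lit 0) (nat_lit 1185965030645) (nat_lit 76) (nat_lit 1254048545584) (nat_lit 76) (nat_lit 1190536053785) (nat_lit 4) (nat_lit 4) (nat_lit 5) (nat_lit 5) (nat_lit 5) (nat_lit 4) (nat_lit 514) (nat_lit 428) (nat_lit 258)) (XT.lf (nat_lit 0) (nat_lit 1908434930556) (nat_lit 76) (nat_lit 1025867996850) (nat_lit 76) (nat_lit 962355495267) (nat_lit 4) (nat_lit 4) (nat_lit 5) (nat_lit 5) (nat_lit 5) (nat_lit 4) (nat_lit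 515) (nat_lit 428) (nat_lit 257))))))) (XT.nd (nat_lit 936) (nat_lit 76) (nat_lit 0) (XT.nd (nat_lit 468) (nat_lit 0) (nat_lit 0) (XT.nd (nat_lit 234) (nat_lit 152) (nat_lit 0) (XT.nd (nat_lit 78) (nat_lit 0) (nat_lit 0) (XT.lf (nat_lit 0) (nat_lit 2688702236275) (nat_lit 76) (nat_lit 779433100164) (nat_lit 76) (nat_lit 715920589523) (nat_lit 4) (nat_lit 4) (nat_lit 5) (nat_lit 5) (nat_lit 5) (nat_lit 4) (nat_lit 516) (nat_lit 428) (nat_lit 256)) (XT.nd (nat_lit 78) (nat_lit 0) (nat_lit 0) (XT.lf (nat_lit 0) (nat_lit 3531390754059) (nat_lit 76) (nat_lit 513283500585) (nat_lit 76) (nat_lit 449770981557) (nat_lit 4) (nat_lit 4) (nat_lit 5) (nat_lit 5) (nat_lit 5) (nat_lit 4) (nat_lit 517) (nat_lit 428) (nat_lit 255)) (XT.lf (nat_lit 0) (nat_lit 4441494193642) (nat_lit 76) (nat_lit 225842015300) (nat_lit 76) (nat_lit 162329488505) (nat_lit 4) (nat_lit 4) (nat_lit 5) (nat_lit 5) (nat_lit 5)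 (nat_lit 4) (nat_lit 518) (nat_lit 428) (nat_lit 254)))) (XT.nd (nat_lit 78) (nat_lit 0) (nat_lit 0) (XT.lf (nat_lit 0) (nat_lit 148777033920) (nat_lit 152) (nat_lit 4952026379768) (nat_lit 0) (nat_lit 89969132081) (nat_lit 2) (nat_lit 5) (nat_lit 4) (nat_lit 4) (nat_lit 2) (nat_lit 4) (nat_lit 519) (nat_lit 428) (nat_lit 253)) (XT.nd (nat_lit 78) (nat_lit 0) (nat_lit 0) (XT.lf (nat_lit 0) (nat_lit 492756989203) (nat_lit 152) (nat_lit 4652384169941) (nat_lit 0) (nat_lit 433949081199) (nat_lit 2) (nat_lit 5) (nat_lit 4) (nat_lit 4) (nat_lit 2) (nat_lit 4) (nat_lit 520) (nat_lit 428) (nat_lit 252)) (XT.lf (nat_lit 0) (nat_lit 864255272912) (nat_lit 152) (nat_lit 4328770723814) (nat_lit 0) (nat_lit 805447359199) (nat_lit 2) (nat_lit 5) (nat_lit 4) (nat_lit 4) (nat_lit 2) (nat_lit 4) (nat_lit 521) (nat_lit 428) (nat_lit 251))))) (XT.nd (nat_lit 234) (nat_lit 0) (nat_lit 0) (XT.nd (nat_lit 78)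 (nat_lit 0) (nat_lit 0) (XT.lf (nat_lit 0) (nat_lit 1265473356356) (nat_lit 152) (nat_lit 3979268332078) (nat_lit 0) (nat_lit 1206665437357) (nat_lit 2) (nat_lit 5) (nat_lit 4) (nat_lit 4) (nat_lit 2) (nat_lit 4) (nat_lit 522) (nat_lit 428) (nat_lit 250)) (XT.nd (nat_lit 78) (nat_lit 0) (nat_lit 0) (XT.lf (nat_lit 0) (nat_lit 1698788828177) (nat_lit 152) (nat_lit 3601805869447) (nat_lit 0) (nat_lit 1639980904285) (nat_lit 2) (nat_lit 5) (nat_lit 4) (nat_lit 4) (nat_lit 2) (nat_lit 4) (nat_lit 523) (nat_lit 428) (nat_lit 249)) (XT.lf (nat_lit 0) (nat_lit 2166769483766) (nat_lit 152) (nat_lit 3194146521329) (nat_lit 0) (nat_lit 2107961555342) (nat_lit 2) (nat_lit 5) (nat_lit 4) (nat_lit 4) (nat_lit 2) (nat_lit 4) (nat_lit 524) (nat_lit 428) (nat_lit 248)))) (XT.nd (nat_lit 78) (nat_lit 0) (nat_lit 0) (XT.lf (nat_lit 0) (nat_lit 2672188541821) (nat_lit 152) (nat_lit 2753874528622) (nat_lit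 0) (nat_lit 2613380609201) (nat_lit 2) (nat_lit 5) (nat_lit 4) (nat_lit 4) (nat_lit 2) (nat_lit 4) (nat_lit 525) (nat_lit 428) (nat_lit 247)) (XT.nd (nat_lit 78) (nat_lit 0) (nat_lit 0) (XT.lf (nat_lit 0) (nat_lit 3218041078242) (nat_lit 152) (nat_lit 2278380872112) (nat_lit 0) (nat_lit 3159233141737) (nat_lit 2) (nat_lit 5) (nat_lit 4) (nat_lit 4) (nat_lit 2) (nat_lit 4) (nat_lit 526) (nat_lit 428) (nat_lit 246)) (XT.lf (nat_lit 0) (nat_lit 3807561774726) (nat_lit 152) (nat_lit 1764847811611) (nat_lit 0) (nat_lit 3748753834624) (nat_lit 2) (nat_lit 5) (nat_lit 4) (nat_lit 4) (nat_lit 2) (nat_lit 4) (nat_lit 527) (nat_lit 428) (nat_lit 245)))))) (XT.nd (nat_lit 54834) (nat_lit 0) (nat_lit 5624) (XT.nd (nat_lit 234) (nat_lit 0) (nat_lit 0) (XT.nd (nat_lit 78) (nat_lit 76) (nat_lit 0) (XT.lf (nat_lit 0) (nat_lit 4444244087253) (nat_lit 152) (nat_lit 1210232188243) (nat_lit 0) (nat_lit 4385436143820)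 (nat_lit 2) (nat_lit 5) (nat_lit 4) (nat_lit 4) (nat_lit 2) (nat_lit 4) (nat_lit 528) (nat_lit 428) (nat_lit 244)) (XT.nd (nat_lit 78) (nat_lit 76) (nat_lit 0) (XT.lf (nat_lit 0) (nat_lit 5131860948045) (nat_lit 152) (nat_lit 611247390906) (nat_lit 0) (nat_lit 5073053001528) (nat_lit 2) (nat_lit 5) (nat_lit 4) (nat_lit 4) (nat_lit 2) (nat_lit 4) (nat_lit 529) (nat_lit 428) (nat_lit 243)) (XT.lf (nat_lit 0) (nat_lit 37533708027) (nat_lit 76) (nat_lit 5837856102237) (nat_lit 76) (nat_lit 5779048152864) (nat_lit 1) (nat_lit 4) (nat_lit 2) (nat_lit 5) (nat_lit 2) (nat_lit 4) (nat_lit 530) (nat_lit 428) (nat_lit 242)))) (XT.nd (nat_lit 78) (nat_lit 0) (nat_lit 0) (XT.lf (nat_lit 0) (nat_lit 772979407109) (nat_lit 76) (nat_lit 5922134128100) (nat_lit 76) (nat_lit 5863326176083) (nat_lit 1) (nat_lit 4) (nat_lit 2) (nat_lit 5) (nat_lit 2) (nat_lit 4) (nat_lit 531) (nat_lit 428) (nat_lit 241)) (XT.nd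 (nat_lit 54444) (nat_lit 0) (nat_lit 6080) (XT.lf (nat_lit 0) (nat_lit 1567260698692) (nat_lit 76) (nat_lit 6013154428767) (nat_lit 76) (nat_lit 5954346474302) (nat_lit 1) (nat_lit 4) (nat_lit 2) (nat_lit 5) (nat_lit 2) (nat_lit 4) (nat_lit 532) (nat_lit 428) (nat_lit 240)) (XT.lf (nat_lit 0) (nat_lit 18149072290) (nat_lit 532) (nat_lit 392286300) (nat_lit 532) (nat_lit 392286300) (nat_lit 81) (nat_lit 3) (nat_lit 88) (nat_lit 3) (nat_lit 88) (nat_lit 5) (nat_lit 429) (nat_lit 429) (nat_lit 342))))) (XT.nd (nat_lit 234) (nat_lit 0) (nat_lit 0) (XT.nd (nat_lit 78) (nat_lit 456) (nat_lit 0) (XT.lf (nat_lit 76) (nat_lit 18945526317) (nat_lit 0) (nat_lit 19303280930) (nat_lit 532) (nat_lit 1093263652) (nat_lit 82) (nat_lit 5) (nat_lit 81) (nat_lit 3) (nat_lit 88) (nat_lit 5) (nat_lit 430) (nat_lit 429) (nat_lit 341)) (XT.nd (nat_lit 78) (nat_lit 456) (nat_lit 0) (XT.lf (nat_lit 76) (nat_lit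 40296200944) (nat_lit 0) (nat_lit 76402905) (nat_lit 532) (nat_lit 560865336) (nat_lit 82) (nat_lit 5) (nat_lit 81) (nat_lit 3) (nat_lit 88) (nat_lit 5) (nat_lit 431) (nat_lit 429) (nat_lit 340)) (XT.lf (nat_lit 0) (nat_lit 1044536252) (nat_lit 532) (nat_lit 21331841896) (nat_lit 608) (nat_lit 20193285558) (nat_lit 75) (nat_lit 5) (nat_lit 82) (nat_lit 5) (nat_lit 83) (nat_lit 5) (nat_lit 432) (nat_lit 429) (nat_lit 339)))) (XT.nd (nat_lit 156) (nat_lit 0) (nat_lit 76) (XT.nd (nat_lit 78) (nat_lit 0) (nat_lit 76) (XT.lf (nat_lit 76) (nat_lit 572668045) (nat_lit 0) (nat_lit 2205166154) (nat_lit 608) (nat_lit 41555373829) (nat_lit 76) (nat_lit 5) (nat_lit 75) (nat_lit 5) (nat_lit 83) (nat_lit 5) (nat_lit 433) (nat_lit 429) (nat_lit 338)) (XT.lf (nat_lit 0) (nat_lit 5715464859) (nat_lit 532) (nat_lit 21237539301) (nat_lit 608) (nat_lit 19199579074) (nat_lit 76) (nat_lit 5) (nat_lit 83) (nat_lit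 5) (nat_lit 84) (nat_lit 5) (nat_lit 434) (nat_lit 429) (nat_lit 337))) (XT.nd (nat_lit 78) (nat_lit 0) (nat_lit 76) (XT.lf (nat_lit 76) (nat_lit 3186636251) (nat_lit 0) (nat_lit 5832029764) (nat_lit 608) (nat_lit 39088398422) (nat_lit 77) (nat_lit 5) (nat_lit 76) (nat_lit 5) (nat_lit 84) (nat_lit 5) (nat_lit 435) (nat_lit 429) (nat_lit 336)) (XT.lf (nat_lit 0) (nat_lit 13587051979) (nat_lit 532) (nat_lit 19825316604) (nat_lit 76) (nat_lit 16725461983) (nat_lit 77) (nat_lit 5) (nat_lit 84) (nat_lit 5) (nat_lit 78) (nat_lit 5) (nat_lit 436) (nat_lit 429) (nat_lit 335))))))))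
noncomputable def xc162 : XT := (XT.nd (nat_lit 1950) (nat_lit 1520) (nat_lit 0) (XT.nd (nat_lit 936) (nat_lit 1140) (nat_lit 0) (XT.nd (nat_lit 468) (nat_lit 836) (nat_lit 0) (XT.nd (nat_lit 234) (nat_lit 228) (nat_lit 0) (XT.nd (nat_lit 78) (nat_lit 228) (nat_lit 0) (XT.lf (nat_lit 0) (nat_lit 7498245711) (nat_lit 456) (nat_lit 11351549689) (nat_lit 532) (nat_lit 33454952329) (nat_lit 71) (nat_lit 5) (nat_lit 77) (nat_lit 5) (nat_lit 78) (nat_lit 5) (nat_lit 437) (nat_lit 429) (nat_lit 334)) (XT.nd (nat_lit 78) (nat_lit 228) (nat_lit 0) (XT.lf (nat_lit 0) (nat_lit 25386926371) (nat_lit 532) (nat_lit 16783483815) (nat_lit 76) (nat_lit 12406339258) (nat_lit 71) (nat_lit 5) (nat_lit 78) (nat_lit 5) (nat_lit 72) (nat_lit 5) (nat_lit 438) (nat_lit 429) (nat_lit 333)) (XT.lf (nat_lit 0) (nat_lit 13878059819) (nat_lit 228) (nat_lit 19195012676) (nat_lit 304) (nat_lit 23907355805) (nat_lit 68)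 (nat_lit 5) (nat_lit 71) (nat_lit 5) (nat_lit 72) (nat_lit 5) (nat_lit 439) (nat_lit 429) (nat_lit 332)))) (XT.nd (nat_lit 78) (nat_lit 228) (nat_lit 0) (XT.lf (nat_lit 0) (nat_lit 41977596388) (nat_lit 304) (nat_lit 11742543909) (nat_lit 76) (nat_lit 5807982813) (nat_lit 68) (nat_lit 5) (nat_lit 72) (nat_lit 5) (nat_lit 69) (nat_lit 5) (nat_lit 440) (nat_lit 429) (nat_lit 331)) (XT.nd (nat_lit 78) (nat_lit 0) (nat_lit 0) (XT.lf (nat_lit 0) (nat_lit 22763602144) (nat_lit 228) (nat_lit 29874651806) (nat_lit 304) (nat_lit 9557878308) (nat_lit 65) (nat_lit 5) (nat_lit 68) (nat_lit 5) (nat_lit 69) (nat_lit 5) (nat_lit 441) (nat_lit 429) (nat_lit 330)) (XT.lf (nat_lit 0) (nat_lit 60695494799) (nat_lit 228) (nat_lit 3775172470) (nat_lit 304) (nat_lit 581403076) (nat_lit 65) (nat_lit 5) (nat_lit 68) (nat_lit 5) (nat_lit 69) (nat_lit 5) (nat_lit 442) (nat_lit 429) (nat_lit 329))))) (XT.nd (nat_lit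 234) (nat_lit 380) (nat_lit 0) (XT.nd (nat_lit 78) (nat_lit 228) (nat_lit 0) (XT.lf (nat_lit 0) (nat_lit 10113092499) (nat_lit 228) (nat_lit 33608831864) (nat_lit 76) (nat_lit 24280563233) (nat_lit 62) (nat_lit 5) (nat_lit 65) (nat_lit 5) (nat_lit 63) (nat_lit 5) (nat_lit 443) (nat_lit 429) (nat_lit 328)) (XT.nd (nat_lit 78) (nat_lit 0) (nat_lit 0) (XT.lf (nat_lit 0) (nat_lit 5466928467) (nat_lit 228) (nat_lit 16514586853) (nat_lit 304) (nat_lit 49178232883) (nat_lit 59) (nat_lit 5) (nat_lit 62) (nat_lit 5) (nat_lit 63) (nat_lit 5) (nat_lit 444) (nat_lit 429) (nat_lit 327)) (XT.lf (nat_lit 0) (nat_lit 36049816097) (nat_lit 304) (nat_lit 25251966193) (nat_lit 76) (nat_lit 13167775373) (nat_lit 59) (nat_lit 5) (nat_lit 63) (nat_lit 5) (nat_lit 60) (nat_lit 5) (nat_lit 445) (nat_lit 429) (nat_lit 326)))) (XT.nd (nat_lit 78) (nat_lit 228) (nat_lit 0) (XT.lf (nat_lit 0) (nat_lit 18940239333)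 (nat_lit 152) (nat_lit 33186048681) (nat_lit 228) (nat_lit 25847247613) (nat_lit 57) (nat_lit 5) (nat_lit 59) (nat_lit 5) (nat_lit 60) (nat_lit 5) (nat_lit 446) (nat_lit 429) (nat_lit 325)) (XT.nd (nat_lit 78) (nat_lit 228) (nat_lit 0) (XT.lf (nat_lit 0) (nat_lit 68101551131) (nat_lit 152) (nat_lit 2076076682) (nat_lit 228) (nat_lit 11525104292) (nat_lit 57) (nat_lit 5) (nat_lit 59) (nat_lit 5) (nat_lit 60) (nat_lit 5) (nat_lit 447) (nat_lit 429) (nat_lit 324)) (XT.lf (nat_lit 0) (nat_lit 5423203539) (nat_lit 228) (nat_lit 49204164245) (nat_lit 76) (nat_lit 30961100519) (nat_lit 54) (nat_lit 5) (nat_lit 57) (nat_lit 5) (nat_lit 55) (nat_lit 5) (nat_lit 448) (nat_lit 429) (nat_lit 323)))))) (XT.nd (nat_lit 468) (nat_lit 532) (nat_lit 0) (XT.nd (nat_lit 234) (nat_lit 304) (nat_lit 0) (XT.nd (nat_lit 78) (nat_lit 152) (nat_lit 0) (XT.lf (nat_lit 0) (nat_lit 1075353706) (nat_lit 152) (nat_lit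 22489142315) (nat_lit 228) (nat_lit 66159837335) (nat_lit 52) (nat_lit 5) (nat_lit 54) (nat_lit 5) (nat_lit 55) (nat_lit 5) (nat_lit 449) (nat_lit 429) (nat_lit 322)) (XT.nd (nat_lit 78) (nat_lit 152) (nat_lit 0) (XT.lf (nat_lit 0) (nat_lit 44829749819) (nat_lit 228) (nat_lit 36239133149) (nat_lit 76) (nat_lit 12988372224) (nat_lit 52) (nat_lit 5) (nat_lit 55) (nat_lit 5) (nat_lit 53) (nat_lit 5) (nat_lit 450) (nat_lit 429) (nat_lit 321)) (XT.lf (nat_lit 0) (nat_lit 20818602902) (nat_lit 152) (nat_lit 48061044862) (nat_lit 228) (nat_lit 29770489299) (nat_lit 50) (nat_lit 5) (nat_lit 52) (nat_lit 5) (nat_lit 53) (nat_lit 5) (nat_lit 451) (nat_lit 429) (nat_lit 320)))) (XT.nd (nat_lit 78) (nat_lit 304) (nat_lit 0) (XT.lf (nat_lit 0) (nat_lit 84499769595) (nat_lit 152) (nat_lit 11343264514) (nat_lit 228) (nat_lit 7688255832) (nat_lit 50) (nat_lit 5) (nat_lit 52) (nat_lit 5) (nat_lit 53) (nat_lit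 5) (nat_lit 452) (nat_lit 429) (nat_lit 319)) (XT.nd (nat_lit 78) (nat_lit 152) (nat_lit 0) (XT.lf (nat_lit 0) (nat_lit 17186822206) (nat_lit 152) (nat_lit 62999578616) (nat_lit 76) (nat_lit 28438666851) (nat_lit 48) (nat_lit 5) (nat_lit 50) (nat_lit 5) (nat_lit 49) (nat_lit 5) (nat_lit 453) (nat_lit 429) (nat_lit 318)) (XT.lf (nat_lit 0) (nat_lit 2045063657) (nat_lit 152) (nat_lit 42467912477) (nat_lit 228) (nat_lit 69527281226) (nat_lit 46) (nat_lit 5) (nat_lit 48) (nat_lit 5) (nat_lit 49) (nat_lit 5) (nat_lit 454) (nat_lit 429) (nat_lit 317))))) (XT.nd (nat_lit 234) (nat_lit 380) (nat_lit 0) (XT.nd (nat_lit 78) (nat_lit 152) (nat_lit 0) (XT.lf (nat_lit 0) (nat_lit 75749604050) (nat_lit 228) (nat_lit 43879930498) (nat_lit 76) (nat_lit 121177275) (nat_lit 46) (nat_lit 5) (nat_lit 49) (nat_lit 5) (nat_lit 47) (nat_lit 4) (nat_lit 455) (nat_lit 429) (nat_lit 316)) (XT.nd (nat_lit 78) (nat_lit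 76) (nat_lit 0) (XT.lf (nat_lit 0) (nat_lit 30084493384) (nat_lit 76) (nat_lit 81226129159) (nat_lit 152) (nat_lit 14461343394) (nat_lit 45) (nat_lit 5) (nat_lit 46) (nat_lit 5) (nat_lit 47) (nat_lit 4) (nat_lit 456) (nat_lit 429) (nat_lit 315)) (XT.lf (nat_lit 0) (nat_lit 17798894856) (nat_lit 152) (nat_lit 20169967707) (nat_lit 76) (nat_lit 94174116863) (nat_lit 44) (nat_lit 5) (nat_lit 46) (nat_lit 5) (nat_lit 45) (nat_lit 5) (nat_lit 457) (nat_lit 429) (nat_lit 314)))) (XT.nd (nat_lit 156) (nat_lit 152) (nat_lit 0) (XT.nd (nat_lit 78) (nat_lit 76) (nat_lit 0) (XT.lf (nat_lit 0) (nat_lit 53662487748) (nat_lit 228) (nat_lit 74906145865) (nat_lit 76) (nat_lit 10280685037) (nat_lit 42) (nat_lit 5) (nat_lit 45) (nat_lit 5) (nat_lit 43) (nat_lit 4) (nat_lit 458) (nat_lit 429) (nat_lit 313)) (XT.lf (nat_lit 0) (nat_lit 9349758699) (nat_lit 76) (nat_lit 84821257009) (nat_lit 152) (nat_lit 51779081582)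 (nat_lit 41) (nat_lit 5) (nat_lit 42) (nat_lit 5) (nat_lit 43) (nat_lit 4) (nat_lit 459) (nat_lit 429) (nat_lit 312))) (XT.nd (nat_lit 78) (nat_lit 152) (nat_lit 0) (XT.lf (nat_lit 0) (nat_lit 104604333083) (nat_lit 76) (nat_lit 35362967316) (nat_lit 152) (nat_lit 13487871949) (nat_lit 41) (nat_lit 5) (nat_lit 42) (nat_lit 5) (nat_lit 43) (nat_lit 4) (nat_lit 460) (nat_lit 429) (nat_lit 311)) (XT.lf (nat_lit 0) (nat_lit 28098469609) (nat_lit 152) (nat_lit 114267427433) (nat_lit 76) (nat_lit 19011074015) (nat_lit 39) (nat_lit 5) (nat_lit 41) (nat_lit 5) (nat_lit 40) (nat_lit 4) (nat_lit 461) (nat_lit 429) (nat_lit 310))))))) (XT.nd (nat_lit 936) (nat_lit 760) (nat_lit 0) (XT.nd (nat_lit 468) (nat_lit 456) (nat_lit 0) (XT.nd (nat_lit 234) (nat_lit 152) (nat_lit 0) (XT.nd (nat_lit 78) (nat_lit 152) (nat_lit 0) (XT.lf (nat_lit 0) (nat_lit 74570972313) (nat_lit 152) (nat_lit 17605969556) (nat_lit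 76) (nat_lit 77544509176) (nat_lit 39) (nat_lit 5) (nat_lit 41) (nat_lit 5) (nat_lit 40) (nat_lit 4) (nat_lit 462) (nat_lit 429) (nat_lit 309)) (XT.nd (nat_lit 78) (nat_lit 76) (nat_lit 0) (XT.lf (nat_lit 0) (nat_lit 91356860503) (nat_lit 76) (nat_lit 35600687758) (nat_lit 152) (nat_lit 51600239389) (nat_lit 38) (nat_lit 5) (nat_lit 39) (nat_lit 5) (nat_lit 40) (nat_lit 4) (nat_lit 463) (nat_lit 429) (nat_lit 308)) (XT.lf (nat_lit 0) (nat_lit 22472200298) (nat_lit 76) (nat_lit 162709652339) (nat_lit 76) (nat_lit 2787434416) (nat_lit 37) (nat_lit 4) (nat_lit 38) (nat_lit 5) (nat_lit 38) (nat_lit 4) (nat_lit 464) (nat_lit 429) (nat_lit 307)))) (XT.nd (nat_lit 78) (nat_lit 76) (nat_lit 0) (XT.lf (nat_lit 0) (nat_lit 50802675630) (nat_lit 152) (nat_lit 54253643245) (nat_lit 76) (nat_lit 92711721307) (nat_lit 36) (nat_lit 5) (nat_lit 38) (nat_lit 5) (nat_lit 37) (nat_lit 4) (nat_lit 465) (nat_lit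 429) (nat_lit 306)) (XT.nd (nat_lit 78) (nat_lit 0) (nat_lit 0) (XT.lf (nat_lit 0) (nat_lit 69281116699) (nat_lit 76) (nat_lit 40913711430) (nat_lit 152) (nat_lit 98016839206) (nat_lit 35) (nat_lit 5) (nat_lit 36) (nat_lit 5) (nat_lit 37) (nat_lit 4) (nat_lit 466) (nat_lit 429) (nat_lit 305)) (XT.lf (nat_lit 0) (nat_lit 176541561274) (nat_lit 152) (nat_lit 14310086144) (nat_lit 0) (nat_lit 28462880608) (nat_lit 35) (nat_lit 5) (nat_lit 37) (nat_lit 4) (nat_lit 35) (nat_lit 4) (nat_lit 467) (nat_lit 429) (nat_lit 304))))) (XT.nd (nat_lit 234) (nat_lit 228) (nat_lit 0) (XT.nd (nat_lit 78) (nat_lit 76) (nat_lit 0) (XT.lf (nat_lit 0) (nat_lit 20231563720) (nat_lit 152) (nat_lit 105997756272) (nat_lit 76) (nat_lit 104708914407) (nat_lit 33) (nat_lit 5) (nat_lit 35) (nat_lit 5) (nat_lit 34) (nat_lit 4) (nat_lit 468) (nat_lit 429) (nat_lit 303)) (XT.nd (nat_lit 78) (nat_lit 0) (nat_lit 0) (XT.lf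 (nat_lit 0) (nat_lit 33223840742) (nat_lit 76) (nat_lit 53941507220) (nat_lit 152) (nat_lit 156141631061) (nat_lit 32) (nat_lit 5) (nat_lit 33) (nat_lit 5) (nat_lit 34) (nat_lit 4) (nat_lit 469) (nat_lit 429) (nat_lit 302)) (XT.lf (nat_lit 0) (nat_lit 163006877233) (nat_lit 152) (nat_lit 67478991405) (nat_lit 0) (nat_lit 25895111226) (nat_lit 32) (nat_lit 5) (nat_lit 34) (nat_lit 4) (nat_lit 32) (nat_lit 4) (nat_lit 470) (nat_lit 429) (nat_lit 301)))) (XT.nd (nat_lit 78) (nat_lit 152) (nat_lit 0) (XT.lf (nat_lit 0) (nat_lit 89613980662) (nat_lit 76) (nat_lit 158857385197) (nat_lit 76) (nat_lit 21745083981) (nat_lit 31) (nat_lit 4) (nat_lit 32) (nat_lit 5) (nat_lit 32) (nat_lit 4) (nat_lit 471) (nat_lit 429) (nat_lit 300)) (XT.nd (nat_lit 78) (nat_lit 76) (nat_lit 0) (XT.lf (nat_lit 0) (nat_lit 54724465620) (nat_lit 152) (nat_lit 23285908288) (nat_lit 76) (nat_lit 206890000811) (nat_lit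 30) (nat_lit 5) (nat_lit 32) (nat_lit 5) (nat_lit 31) (nat_lit 4) (nat_lit 472) (nat_lit 429) (nat_lit 299)) (XT.lf (nat_lit 0) (nat_lit 140168104508) (nat_lit 152) (nat_lit 147011832214) (nat_lit 0) (nat_lit 13211386327) (nat_lit 29) (nat_lit 5) (nat_lit 31) (nat_lit 4) (nat_lit 29) (nat_lit 4) (nat_lit 473) (nat_lit 429) (nat_lit 298)))))) (XT.nd (nat_lit 468) (nat_lit 380) (nat_lit 0) (XT.nd (nat_lit 234) (nat_lit 152) (nat_lit 0) (XT.nd (nat_lit 78) (nat_lit 152) (nat_lit 0) (XT.lf (nat_lit 0) (nat_lit 27777361420) (nat_lit 76) (nat_lit 208016772724) (nat_lit 76) (nat_lit 81059661150) (nat_lit 28) (nat_lit 4) (nat_lit 29) (nat_lit 5) (nat_lit 29) (nat_lit 4) (nat_lit 474) (nat_lit 429) (nat_lit 297)) (XT.nd (nat_lit 78) (nat_lit 76) (nat_lit 0) (XT.lf (nat_lit 0) (nat_lit 8338389778) (nat_lit 152) (nat_lit 109613625090) (nat_lit 76) (nat_lit 216342844535) (nat_lit 27) (nat_lit 5) (nat_lit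 29) (nat_lit 5) (nat_lit 28) (nat_lit 4) (nat_lit 475) (nat_lit 429) (nat_lit 296)) (XT.lf (nat_lit 0) (nat_lit 86422878727) (nat_lit 76) (nat_lit 16163992344) (nat_lit 152) (nat_lit 250209668851) (nat_lit 26) (nat_lit 5) (nat_lit 27) (nat_lit 5) (nat_lit 28) (nat_lit 4) (nat_lit 476) (nat_lit 429) (nat_lit 295)))) (XT.nd (nat_lit 78) (nat_lit 152) (nat_lit 0) (XT.lf (nat_lit 0) (nat_lit 209704650646) (nat_lit 152) (nat_lit 70496519829) (nat_lit 0) (nat_lit 92150830840) (nat_lit 26) (nat_lit 5) (nat_lit 28) (nat_lit 4) (nat_lit 26) (nat_lit 4) (nat_lit 477) (nat_lit 429) (nat_lit 294)) (XT.nd (nat_lit 78) (nat_lit 76) (nat_lit 0) (XT.lf (nat_lit 0) (nat_lit 148035244562) (nat_lit 76) (nat_lit 181336188104) (nat_lit 76) (nat_lit 63782100561) (nat_lit 25) (nat_lit 4) (nat_lit 26) (nat_lit 5) (nat_lit 26) (nat_lit 4) (nat_lit 478) (nat_lit 429) (nat_lit 293)) (XT.lf (nat_lit 0) (nat_lit 42818767811)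 (nat_lit 152) (nat_lit 28491298399) (nat_lit 76) (nat_lit 344068240038) (nat_lit 24) (nat_lit 5) (nat_lit 26) (nat_lit 5) (nat_lit 25) (nat_lit 4) (nat_lit 479) (nat_lit 429) (nat_lit 292))))) (XT.nd (nat_lit 234) (nat_lit 228) (nat_lit 0) (XT.nd (nat_lit 78) (nat_lit 76) (nat_lit 0) (XT.lf (nat_lit 0) (nat_lit 160980891341) (nat_lit 152) (nat_lit 225615237578) (nat_lit 0) (nat_lit 52134071905) (nat_lit 23) (nat_lit 5) (nat_lit 25) (nat_lit 4) (nat_lit 23) (nat_lit 4) (nat_lit 480) (nat_lit 429) (nat_lit 291)) (XT.nd (nat_lit 78) (nat_lit 0) (nat_lit 0) (XT.lf (nat_lit 0) (nat_lit 10430503610) (nat_lit 76) (nat_lit 281067306773) (nat_lit 76) (nat_lit 172220290542) (nat_lit 22) (nat_lit 4) (nat_lit 23) (nat_lit 5) (nat_lit 23) (nat_lit 4) (nat_lit 481) (nat_lit 429) (nat_lit 290)) (XT.lf (nat_lit 0) (nat_lit 278189913177) (nat_lit 76) (nat_lit 160434428796) (nat_lit 76) (nat_lit 51587230348)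 (nat_lit 22) (nat_lit 4) (nat_lit 23) (nat_lit 5) (nat_lit 23) (nat_lit 4) (nat_lit 482) (nat_lit 429) (nat_lit 289)))) (XT.nd (nat_lit 156) (nat_lit 76) (nat_lit 0) (XT.nd (nat_lit 78) (nat_lit 0) (nat_lit 0) (XT.lf (nat_lit 0) (nat_lit 49108630945) (nat_lit 76) (nat_lit 26831752763) (nat_lit 152) (nat_lit 442638275528) (nat_lit 20) (nat_lit 5) (nat_lit 21) (nat_lit 5) (nat_lit 22) (nat_lit 4) (nat_lit 483) (nat_lit 429) (nat_lit 288)) (XT.lf (nat_lit 0) (nat_lit 219655235147) (nat_lit 152) (nat_lit 209880426161) (nat_lit 0) (nat_lit 118870491267) (nat_lit 20) (nat_lit 5) (nat_lit 22) (nat_lit 4) (nat_lit 20) (nat_lit 4) (nat_lit 484) (nat_lit 429) (nat_lit 287))) (XT.nd (nat_lit 78) (nat_lit 0) (nat_lit 0) (XT.lf (nat_lit 0) (nat_lit 73453013316) (nat_lit 76) (nat_lit 303877332116) (nat_lit 76) (nat_lit 203092454300) (nat_lit 19) (nat_lit 4) (nat_lit 20) (nat_lit 5) (nat_lit 20) (nat_lit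 4) (nat_lit 485) (nat_lit 429) (nat_lit 286)) (XT.lf (nat_lit 0) (nat_lit 391388415109) (nat_lit 76) (nat_lit 161969158337) (nat_lit 76) (nat_lit 61184156507) (nat_lit 19) (nat_lit 4) (nat_lit 20) (nat_lit 5) (nat_lit 20) (nat_lit 4) (nat_lit 486) (nat_lit 429) (nat_lit 285))))))))
noncomputable def xc163 : XT := (XT.nd (nat_lit 1950) (nat_lit 304) (nat_lit 0) (XT.nd (nat_lit 936) (nat_lit 456) (nat_lit 0) (XT.nd (nat_lit 468) (nat_lit 228) (nat_lit 0) (XT.nd (nat_lit 234) (nat_lit 152) (nat_lit 0) (XT.nd (nat_lit 78) (nat_lit 76) (nat_lit 0) (XT.lf (nat_lit 0) (nat_lit 85426653040) (nat_lit 76) (nat_lit 4098236237) (nat_lit 152) (nat_lit 561523798262) (nat_lit 17) (nat_lit 5) (nat_lit 18) (nat_lit 5) (nat_lit 19) (nat_lit 4) (nat_lit 487) (nat_lit 429) (nat_lit 284)) (XT.nd (nat_lit 78) (nat_lit 76) (nat_lit 0) (XT.lf (nat_lit 0) (nat_lit 259246617722) (nat_lit 152) (nat_lit 264354561879)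 (nat_lit 0) (nat_lit 165926966814) (nat_lit 17) (nat_lit 5) (nat_lit 19) (nat_lit 4) (nat_lit 17) (nat_lit 4) (nat_lit 488) (nat_lit 429) (nat_lit 283)) (XT.lf (nat_lit 0) (nat_lit 64114420024) (nat_lit 76) (nat_lit 380079719807) (nat_lit 76) (nat_lit 286759977745) (nat_lit 16) (nat_lit 4) (nat_lit 17) (nat_lit 5) (nat_lit 17) (nat_lit 4) (nat_lit 489) (nat_lit 429) (nat_lit 282)))) (XT.nd (nat_lit 78) (nat_lit 152) (nat_lit 0) (XT.lf (nat_lit 0) (nat_lit 433894312683) (nat_lit 76) (nat_lit 217270736681) (nat_lit 76) (nat_lit 123950910217) (nat_lit 16) (nat_lit 4) (nat_lit 17) (nat_lit 5) (nat_lit 17) (nat_lit 4) (nat_lit 490) (nat_lit 429) (nat_lit 281)) (XT.nd (nat_lit 78) (nat_lit 0) (nat_lit 0) (XT.lf (nat_lit 0) (nat_lit 9681730612) (nat_lit 76) (nat_lit 39838286323) (nat_lit 152) (nat_lit 773172307158) (nat_lit 14) (nat_lit 5) (nat_lit 15) (nat_lit 5) (nat_lit 16) (nat_lit 4) (nat_lit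 491) (nat_lit 429) (nat_lit 280)) (XT.lf (nat_lit 0) (nat_lit 243394185738) (nat_lit 152) (nat_lit 472378481157) (nat_lit 0) (nat_lit 156986799650) (nat_lit 14) (nat_lit 5) (nat_lit 16) (nat_lit 4) (nat_lit 14) (nat_lit 4) (nat_lit 492) (nat_lit 429) (nat_lit 279))))) (XT.nd (nat_lit 234) (nat_lit 152) (nat_lit 0) (XT.nd (nat_lit 78) (nat_lit 76) (nat_lit 0) (XT.lf (nat_lit 0) (nat_lit 453812753258) (nat_lit 152) (nat_lit 105531164791) (nat_lit 0) (nat_lit 367405305132) (nat_lit 14) (nat_lit 5) (nat_lit 16) (nat_lit 4) (nat_lit 14) (nat_lit 4) (nat_lit 493) (nat_lit 429) (nat_lit 278)) (XT.nd (nat_lit 78) (nat_lit 0) (nat_lit 0) (XT.lf (nat_lit 0) (nat_lit 305969195736) (nat_lit 76) (nat_lit 382453903374) (nat_lit 76) (nat_lit 296046397805) (nat_lit 13) (nat_lit 4) (nat_lit 14) (nat_lit 5) (nat_lit 14) (nat_lit 4) (nat_lit 494) (nat_lit 429) (nat_lit 277)) (XT.lf (nat_lit 0) (nat_lit 756390690620)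 (nat_lit 76) (nat_lit 188296724639) (nat_lit 76) (nat_lit 101889165882) (nat_lit 13) (nat_lit 4) (nat_lit 14) (nat_lit 5) (nat_lit 14) (nat_lit 4) (nat_lit 495) (nat_lit 429) (nat_lit 276)))) (XT.nd (nat_lit 78) (nat_lit 0) (nat_lit 0) (XT.lf (nat_lit 0) (nat_lit 106277929473) (nat_lit 152) (nat_lit 980586416185) (nat_lit 0) (nat_lit 26270885025) (nat_lit 11) (nat_lit 5) (nat_lit 13) (nat_lit 4) (nat_lit 11) (nat_lit 4) (nat_lit 496) (nat_lit 429) (nat_lit 275)) (XT.nd (nat_lit 78) (nat_lit 0) (nat_lit 0) (XT.lf (nat_lit 0) (nat_lit 338624581843) (nat_lit 152) (nat_lit 586522309363) (nat_lit 0) (nat_lit 258617495172) (nat_lit 11) (nat_lit 5) (nat_lit 13) (nat_lit 4) (nat_lit 11) (nat_lit 4) (nat_lit 497) (nat_lit 429) (nat_lit 274)) (XT.lf (nat_lit 0) (nat_lit 589558732393) (nat_lit 152) (nat_lit 160933554230) (nat_lit 0) (nat_lit 509551606628) (nat_lit 11) (nat_lit 5) (nat_lit 13) (nat_lit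 4) (nat_lit 11) (nat_lit 4) (nat_lit 498) (nat_lit 429) (nat_lit 273)))))) (XT.nd (nat_lit 468) (nat_lit 228) (nat_lit 0) (XT.nd (nat_lit 234) (nat_lit 152) (nat_lit 0) (XT.nd (nat_lit 78) (nat_lit 0) (nat_lit 0) (XT.lf (nat_lit 0) (nat_lit 314430967077) (nat_lit 76) (nat_lit 553698503556) (nat_lit 76) (nat_lit 473691341592) (nat_lit 10) (nat_lit 4) (nat_lit 11) (nat_lit 5) (nat_lit 11) (nat_lit 4) (nat_lit 499) (nat_lit 429) (nat_lit 272)) (XT.nd (nat_lit 78) (nat_lit 0) (nat_lit 0) (XT.lf (nat_lit 0) (nat_lit 836976650514) (nat_lit 76) (nat_lit 336409214942) (nat_lit 76) (nat_lit 256402019461) (nat_lit 10) (nat_lit 4) (nat_lit 11) (nat_lit 5) (nat_lit 11) (nat_lit 4) (nat_lit 500) (nat_lit 429) (nat_lit 271)) (XT.lf (nat_lit 0) (nat_lit 1401325587325) (nat_lit 76) (nat_lit 101736989124) (nat_lit 76) (nat_lit 21729762609) (nat_lit 10) (nat_lit 4) (nat_lit 11) (nat_lit 5) (nat_lit 11) (nat_lit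 4) (nat_lit 501) (nat_lit 429) (nat_lit 270)))) (XT.nd (nat_lit 78) (nat_lit 0) (nat_lit 0) (XT.lf (nat_lit 0) (nat_lit 233732391900) (nat_lit 152) (nat_lit 1232478734782) (nat_lit 0) (nat_lit 159651600001) (nat_lit 8) (nat_lit 5) (nat_lit 10) (nat_lit 4) (nat_lit 8) (nat_lit 4) (nat_lit 502) (nat_lit 429) (nat_lit 269)) (XT.nd (nat_lit 78) (nat_lit 0) (nat_lit 0) (XT.lf (nat_lit 0) (nat_lit 514563363864) (nat_lit 152) (nat_lit 779439216037) (nat_lit 0) (nat_lit 440482547329) (nat_lit 8) (nat_lit 5) (nat_lit 10) (nat_lit 4) (nat_lit 8) (nat_lit 4) (nat_lit 503) (nat_lit 429) (nat_lit 268)) (XT.lf (nat_lit 0) (nat_lit 817860641901) (nat_lit 152) (nat_lit 290156889103) (nat_lit 0) (nat_lit 743779802555) (nat_lit 8) (nat_lit 5) (nat_lit 10) (nat_lit 4) (nat_lit 8) (nat_lit 4) (nat_lit 504) (nat_lit 429) (nat_lit 267))))) (XT.nd (nat_lit 234) (nat_lit 152) (nat_lit 0) (XT.nd (nat_lit 78) (nat_lit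 0) (nat_lit 0) (XT.lf (nat_lit 0) (nat_lit 250814451516) (nat_lit 76) (nat_lit 900639185288) (nat_lit 76) (nat_lit 826558324820) (nat_lit 7) (nat_lit 4) (nat_lit 8) (nat_lit 5) (nat_lit 8) (nat_lit 4) (nat_lit 505) (nat_lit 429) (nat_lit 266)) (XT.nd (nat_lit 78) (nat_lit 0) (nat_lit 0) (XT.lf (nat_lit 0) (nat_lit 851564659914) (nat_lit 76) (nat_lit 668102660076) (nat_lit 76) (nat_lit 594021780051) (nat_lit 7) (nat_lit 4) (nat_lit 8) (nat_lit 5) (nat_lit 8) (nat_lit 4) (nat_lit 506) (nat_lit 429) (nat_lit 265)) (XT.lf (nat_lit 0) (nat_lit 1500374589746) (nat_lit 76) (nat_lit 416963364695) (nat_lit 76) (nat_lit 342882466562) (nat_lit 7) (nat_lit 4) (nat_lit 8) (nat_lit 5) (nat_lit 8) (nat_lit 4) (nat_lit 507) (nat_lit 429) (nat_lit 264)))) (XT.nd (nat_lit 156) (nat_lit 0) (nat_lit 0) (XT.nd (nat_lit 78) (nat_lit 152) (nat_lit 0) (XT.lf (nat_lit 0) (nat_lit 2201089040597) (nat_lit 76) (nat_lit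 145733066284) (nat_lit 76) (nat_lit 71652151384) (nat_lit 7) (nat_lit 4) (nat_lit 8) (nat_lit 5) (nat_lit 8) (nat_lit 4) (nat_lit 508) (nat_lit 429) (nat_lit 263)) (XT.lf (nat_lit 0) (nat_lit 223318068492) (nat_lit 152) (nat_lit 2209871132587) (nat_lit 0) (nat_lit 154724614395) (nat_lit 5) (nat_lit 5) (nat_lit 7) (nat_lit 4) (nat_lit 5) (nat_lit 4) (nat_lit 509) (nat_lit 429) (nat_lit 262))) (XT.nd (nat_lit 78) (nat_lit 0) (nat_lit 0) (XT.lf (nat_lit 0) (nat_lit 547898055963) (nat_lit 152) (nat_lit 1742766346970) (nat_lit 0) (nat_lit 479304588556) (nat_lit 5) (nat_lit 5) (nat_lit 7) (nat_lit 4) (nat_lit 5) (nat_lit 4) (nat_lit 510) (nat_lit 429) (nat_lit 261)) (XT.lf (nat_lit 0) (nat_lit 898444325759) (nat_lit 152) (nat_lit 1238293419135) (nat_lit 0) (nat_lit 829850846028) (nat_lit 5) (nat_lit 5) (nat_lit 7) (nat_lit 4) (nat_lit 5) (nat_lit 4) (nat_lit 511) (nat_lit 429) (nat_lit 260)))))))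 (XT.nd (nat_lit 936) (nat_lit 76) (nat_lit 0) (XT.nd (nat_lit 468) (nat_lit 152) (nat_lit 0) (XT.nd (nat_lit 234) (nat_lit 0) (nat_lit 0) (XT.nd (nat_lit 78) (nat_lit 76) (nat_lit 0) (XT.lf (nat_lit 0) (nat_lit 1277034189108) (nat_lit 152) (nat_lit 693462879880) (nat_lit 0) (nat_lit 1208440697965) (nat_lit 5) (nat_lit 5) (nat_lit 7) (nat_lit 4) (nat_lit 5) (nat_lit 4) (nat_lit 512) (nat_lit 429) (nat_lit 259)) (XT.nd (nat_lit 78) (nat_lit 76) (nat_lit 0) (XT.lf (nat_lit 0) (nat_lit 1685911141496) (nat_lit 152) (nat_lit 105046103786) (nat_lit 0) (nat_lit 1617317639787) (nat_lit 5) (nat_lit 5) (nat_lit 7) (nat_lit 4) (nat_lit 5) (nat_lit 4) (nat_lit 513) (nat_lit 429) (nat_lit 258)) (XT.lf (nat_lit 0) (nat_lit 558376055085) (nat_lit 76) (nat_lit 1582551059923) (nat_lit 76) (nat_lit 1513957548431) (nat_lit 4) (nat_lit 4) (nat_lit 5) (nat_lit 5) (nat_lit 5) (nat_lit 4) (nat_lit 514) (nat_lit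 429) (nat_lit 257)))) (XT.nd (nat_lit 78) (nat_lit 0) (nat_lit 0) (XT.lf (nat_lit 0) (nat_lit 1280845865484) (nat_lit 76) (nat_lit 1354370557317) (nat_lit 76) (nat_lit 1285777036766) (nat_lit 4) (nat_lit 4) (nat_lit 5) (nat_lit 5) (nat_lit 5) (nat_lit 4) (nat_lit 515) (nat_lit 429) (nat_lit 256)) (XT.nd (nat_lit 78) (nat_lit 0) (nat_lit 0) (XT.lf (nat_lit 0) (nat_lit 2061113088322) (nat_lit 76) (nat_lit 1107935703344) (nat_lit 76) (nat_lit 1039342174406) (nat_lit 4) (nat_lit 4) (nat_lit 5) (nat_lit 5) (nat_lit 5) (nat_lit 4) (nat_lit 516) (nat_lit 429) (nat_lit 255)) (XT.lf (nat_lit 0) (nat_lit 2903801529364) (nat_lit 76) (nat_lit 841786143313) (nat_lit 76) (nat_lit 773192606608) (nat_lit 4) (nat_lit 4) (nat_lit 5) (nat_lit 5) (nat_lit 5) (nat_lit 4) (nat_lit 517) (nat_lit 429) (nat_lit 254))))) (XT.nd (nat_lit 234) (nat_lit 0) (nat_lit 0) (XT.nd (nat_lit 78) (nat_lit 152) (nat_lit 0) (XT.lf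 (nat_lit 0) (nat_lit 3813904897890) (nat_lit 76) (nat_lit 554344694647) (nat_lit 76) (nat_lit 485751150751) (nat_lit 4) (nat_lit 4) (nat_lit 5) (nat_lit 5) (nat_lit 5) (nat_lit 4) (nat_lit 518) (nat_lit 429) (nat_lit 253)) (XT.nd (nat_lit 78) (nat_lit 152) (nat_lit 0) (XT.lf (nat_lit 0) (nat_lit 4796816399047) (nat_lit 76) (nat_lit 243908000612) (nat_lit 76) (nat_lit 175314450057) (nat_lit 4) (nat_lit 4) (nat_lit 5) (nat_lit 5) (nat_lit 5) (nat_lit 4) (nat_lit 519) (nat_lit 429) (nat_lit 252)) (XT.lf (nat_lit 0) (nat_lit 160680523250) (nat_lit 152) (nat_lit 5348185749312) (nat_lit 0) (nat_lit 97167970732) (nat_lit 2) (nat_lit 5) (nat_lit 4) (nat_lit 4) (nat_lit 2) (nat_lit 4) (nat_lit 520) (nat_lit 429) (nat_lit 251)))) (XT.nd (nat_lit 78) (nat_lit 0) (nat_lit 0) (XT.lf (nat_lit 0) (nat_lit 532178776689) (nat_lit 152) (nat_lit 5024572365724) (nat_lit 0) (nat_lit 468666218885) (nat_lit 2)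 (nat_lit 5) (nat_lit 4) (nat_lit 4) (nat_lit 2) (nat_lit 4) (nat_lit 521) (nat_lit 429) (nat_lit 250)) (XT.nd (nat_lit 78) (nat_lit 0) (nat_lit 0) (XT.lf (nat_lit 0) (nat_lit 933396832105) (nat_lit 152) (nat_lit 4675070031893) (nat_lit 0) (nat_lit 869884269407) (nat_lit 2) (nat_lit 5) (nat_lit 4) (nat_lit 4) (nat_lit 2) (nat_lit 4) (nat_lit 522) (nat_lit 429) (nat_lit 249)) (XT.lf (nat_lit 0) (nat_lit 1366712277975) (nat_lit 152) (nat_lit 4297607622879) (nat_lit 0) (nat_lit 1303199710746) (nat_lit 2) (nat_lit 5) (nat_lit 4) (nat_lit 4) (nat_lit 2) (nat_lit 4) (nat_lit 523) (nat_lit 429) (nat_lit 248)))))) (XT.nd (nat_lit 468) (nat_lit 76) (nat_lit 0) (XT.nd (nat_lit 234) (nat_lit 0) (nat_lit 0) (XT.nd (nat_lit 78) (nat_lit 0) (nat_lit 0) (XT.lf (nat_lit 0) (nat_lit 1834692909535) (nat_lit 152) (nat_lit 3889948324406) (nat_lit 0) (nat_lit 1771180338109) (nat_lit 2) (nat_lit 5) (nat_lit 4)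 (nat_lit 4) (nat_lit 2) (nat_lit 4) (nat_lit 524) (nat_lit 429) (nat_lit 247)) (XT.nd (nat_lit 78) (nat_lit 0) (nat_lit 0) (XT.lf (nat_lit 0) (nat_lit 2340111945340) (nat_lit 152) (nat_lit 3449676377667) (nat_lit 0) (nat_lit 2276599370030) (nat_lit 2) (nat_lit 5) (nat_lit 4) (nat_lit 4) (nat_lit 2) (nat_lit 4) (nat_lit 525) (nat_lit 429) (nat_lit 246)) (XT.lf (nat_lit 0) (nat_lit 2885964461160) (nat_lit 152) (nat_lit 2974182763720) (nat_lit 0) (nat_lit 2822451882253) (nat_lit 2) (nat_lit 5) (nat_lit 4) (nat_lit 4) (nat_lit 2) (nat_lit 4) (nat_lit 526) (nat_lit 429) (nat_lit 245)))) (XT.nd (nat_lit 78) (nat_lit 0) (nat_lit 0) (XT.lf (nat_lit 0) (nat_lit 3475485138570) (nat_lit 152) (nat_lit 2460649742629) (nat_lit 0) (nat_lit 3411972556331) (nat_lit 2) (nat_lit 5) (nat_lit 4) (nat_lit 4) (nat_lit 2) (nat_lit 4) (nat_lit 527) (nat_lit 429) (nat_lit 244)) (XT.nd (nat_lit 78) (nat_lit 0) (nat_lit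 0) (XT.lf (nat_lit 0) (nat_lit 4112167433434) (nat_lit 152) (nat_lit 1906034155751) (nat_lit 0) (nat_lit 4048654848111) (nat_lit 2) (nat_lit 5) (nat_lit 4) (nat_lit 4) (nat_lit 2) (nat_lit 4) (nat_lit 528) (nat_lit 429) (nat_lit 243)) (XT.lf (nat_lit 0) (nat_lit 4799784277872) (nat_lit 152) (nat_lit 1307049392202) (nat_lit 0) (nat_lit 4736271689694) (nat_lit 2) (nat_lit 5) (nat_lit 4) (nat_lit 4) (nat_lit 2) (nat_lit 4) (nat_lit 529) (nat_lit 429) (nat_lit 242))))) (XT.nd (nat_lit 54756) (nat_lit 0) (nat_lit 5624) (XT.nd (nat_lit 78) (nat_lit 76) (nat_lit 0) (XT.lf (nat_lit 0) (nat_lit 5542410438369) (nat_lit 152) (nat_lit 660145912641) (nat_lit 0) (nat_lit 5478897847546) (nat_lit 2) (nat_lit 5) (nat_lit 4) (nat_lit 4) (nat_lit 2) (nat_lit 4) (nat_lit 530) (nat_lit 429) (nat_lit 241)) (XT.nd (nat_lit 54600) (nat_lit 0) (nat_lit 6080) (XT.lf (nat_lit 0) (nat_lit 40537642067) (nat_lit 76)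 (nat_lit 6304883951741) (nat_lit 76) (nat_lit 6241371358471) (nat_lit 1) (nat_lit 4) (nat_lit 2) (nat_lit 5) (nat_lit 2) (nat_lit 4) (nat_lit 531) (nat_lit 429) (nat_lit 240)) (XT.lf (nat_lit 0) (nat_lit 19643058122) (nat_lit 532) (nat_lit 400951155) (nat_lit 532) (nat_lit 400951155) (nat_lit 81) (nat_lit 3) (nat_lit 88) (nat_lit 3) (nat_lit 88) (nat_lit 5) (nat_lit 430) (nat_lit 430) (nat_lit 340)))) (XT.nd (nat_lit 156) (nat_lit 456) (nat_lit 0) (XT.nd (nat_lit 78) (nat_lit 0) (nat_lit 0) (XT.lf (nat_lit 76) (nat_lit 20505454240) (nat_lit 0) (nat_lit 20882211641) (nat_lit 532) (nat_lit 1095433539) (nat_lit 82) (nat_lit 5) (nat_lit 81) (nat_lit 3) (nat_lit 88) (nat_lit 5) (nat_lit 431) (nat_lit 430) (nat_lit 339)) (XT.lf (nat_lit 76) (nat_lit 43560902407) (nat_lit 0) (nat_lit 114615357) (nat_lit 532) (nat_lit 526761225) (nat_lit 82) (nat_lit 5) (nat_lit 81) (nat_lit 3) (nat_lit 88) (nat_lit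 5) (nat_lit 432) (nat_lit 430) (nat_lit 338))) (XT.nd (nat_lit 78) (nat_lit 0) (nat_lit 0) (XT.lf (nat_lit 0) (nat_lit 1197977156) (nat_lit 532) (nat_lit 22988254140) (nat_lit 608) (nat_lit 21783398735) (nat_lit 75) (nat_lit 5) (nat_lit 82) (nat_lit 5) (nat_lit 83) (nat_lit 5) (nat_lit 433) (nat_lit 430) (nat_lit 337)) (XT.lf (nat_lit 76) (nat_lit 667347354) (nat_lit 0) (nat_lit 2398590662) (nat_lit 608) (nat_lit 44808641181) (nat_lit 76) (nat_lit 5) (nat_lit 75) (nat_lit 5) (nat_lit 83) (nat_lit 5) (nat_lit 434) (nat_lit 430) (nat_lit 336))))))))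
noncomputable def xc164 : XT := (XT.nd (nat_lit 1950) (nat_lit 1672) (nat_lit 0) (XT.nd (nat_lit 936) (nat_lit 1292) (nat_lit 0) (XT.nd (nat_lit 468) (nat_lit 684) (nat_lit 0) (XT.nd (nat_lit 234) (nat_lit 608) (nat_lit 0) (XT.nd (nat_lit 78) (nat_lit 0) (nat_lit 0) (XT.lf (nat_lit 0) (nat_lit 6233320529) (nat_lit 532) (nat_lit 22886023502) (nat_lit 608) (nat_lit 20720582210) (nat_lit 76) (nat_lit 5) (nat_lit 83) (nat_lit 5) (nat_lit 84) (nat_lit 5) (nat_lit 435) (nat_lit 430) (nat_lit 335)) (XT.nd (nat_lit 78) (nat_lit 0) (nat_lit 76) (XT.lf (nat_lit 76) (nat_lit 3490807134) (nat_lit 0) (nat_lit 6306664609) (nat_lit 608) (nat_lit 42153559730) (nat_lit 77) (nat_lit 5) (nat_lit 76) (nat_lit 5) (nat_lit 84) (nat_lit 5) (nat_lit 436) (nat_lit 430) (nat_lit 334)) (XT.lf (nat_lit 0) (nat_lit 14726903455) (nat_lit 532) (nat_lit 21361312075) (nat_lit 76) (nat_lit 18056398343) (nat_lit 77) (nat_lit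 5) (nat_lit 84) (nat_lit 5) (nat_lit 78) (nat_lit 5) (nat_lit 437) (nat_lit 430) (nat_lit 333)))) (XT.nd (nat_lit 78) (nat_lit 228) (nat_lit 0) (XT.lf (nat_lit 0) (nat_lit 8146868647) (nat_lit 456) (nat_lit 12261052883) (nat_lit 532) (nat_lit 36077183367) (nat_lit 71) (nat_lit 5) (nat_lit 77) (nat_lit 5) (nat_lit 78) (nat_lit 5) (nat_lit 438) (nat_lit 430) (nat_lit 332)) (XT.nd (nat_lit 78) (nat_lit 228) (nat_lit 0) (XT.lf (nat_lit 0) (nat_lit 27464278006) (nat_lit 532) (nat_lit 18077255947) (nat_lit 76) (nat_lit 13397633228) (nat_lit 71) (nat_lit 5) (nat_lit 78) (nat_lit 5) (nat_lit 72) (nat_lit 5) (nat_lit 439) (nat_lit 430) (nat_lit 331)) (XT.lf (nat_lit 0) (nat_lit 15035973037) (nat_lit 228) (nat_lit 20727052355) (nat_lit 304) (nat_lit 25772298957) (nat_lit 68) (nat_lit 5) (nat_lit 71) (nat_lit 5) (nat_lit 72) (nat_lit 5) (nat_lit 440) (nat_lit 430) (nat_lit 330))))) (XT.nd (nat_lit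 234) (nat_lit 456) (nat_lit 0) (XT.nd (nat_lit 78) (nat_lit 228) (nat_lit 0) (XT.lf (nat_lit 0) (nat_lit 45376723310) (nat_lit 304) (nat_lit 12634613165) (nat_lit 76) (nat_lit 6275754014) (nat_lit 68) (nat_lit 5) (nat_lit 72) (nat_lit 5) (nat_lit 69) (nat_lit 5) (nat_lit 441) (nat_lit 430) (nat_lit 329)) (XT.nd (nat_lit 78) (nat_lit 0) (nat_lit 0) (XT.lf (nat_lit 0) (nat_lit 24630826237) (nat_lit 228) (nat_lit 32257485759) (nat_lit 304) (nat_lit 10280382756) (nat_lit 65) (nat_lit 5) (nat_lit 68) (nat_lit 5) (nat_lit 69) (nat_lit 5) (nat_lit 442) (nat_lit 430) (nat_lit 328)) (XT.lf (nat_lit 0) (nat_lit 65593852829) (nat_lit 228) (nat_lit 4070576830) (nat_lit 304) (nat_lit 588909936) (nat_lit 65) (nat_lit 5) (nat_lit 68) (nat_lit 5) (nat_lit 69) (nat_lit 5) (nat_lit 443) (nat_lit 430) (nat_lit 327)))) (XT.nd (nat_lit 78) (nat_lit 228) (nat_lit 0) (XT.lf (nat_lit 0) (nat_lit 10957693545) (nat_lit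 228) (nat_lit 36251354571) (nat_lit 76) (nat_lit 26230787632) (nat_lit 62) (nat_lit 5) (nat_lit 65) (nat_lit 5) (nat_lit 63) (nat_lit 5) (nat_lit 444) (nat_lit 430) (nat_lit 326)) (XT.nd (nat_lit 78) (nat_lit 0) (nat_lit 0) (XT.lf (nat_lit 0) (nat_lit 5949297376) (nat_lit 228) (nat_lit 17824741815) (nat_lit 304) (nat_lit 53075762578) (nat_lit 59) (nat_lit 5) (nat_lit 62) (nat_lit 5) (nat_lit 63) (nat_lit 5) (nat_lit 445) (nat_lit 430) (nat_lit 325)) (XT.lf (nat_lit 0) (nat_lit 38965530536) (nat_lit 304) (nat_lit 27228164153) (nat_lit 76) (nat_lit 14230883627) (nat_lit 59) (nat_lit 5) (nat_lit 63) (nat_lit 5) (nat_lit 60) (nat_lit 5) (nat_lit 446) (nat_lit 430) (nat_lit 324)))))) (XT.nd (nat_lit 468) (nat_lit 608) (nat_lit 0) (XT.nd (nat_lit 234) (nat_lit 304) (nat_lit 0) (XT.nd (nat_lit 78) (nat_lit 228) (nat_lit 0) (XT.lf (nat_lit 0) (nat_lit 20498304921) (nat_lit 152) (nat_lit 35828495436)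 (nat_lit 228) (nat_lit 27882180165) (nat_lit 57) (nat_lit 5) (nat_lit 59) (nat_lit 5) (nat_lit 60) (nat_lit 5) (nat_lit 447) (nat_lit 430) (nat_lit 323)) (XT.nd (nat_lit 78) (nat_lit 228) (nat_lit 0) (XT.lf (nat_lit 0) (nat_lit 73589347852) (nat_lit 152) (nat_lit 2230646947) (nat_lit 228) (nat_lit 12416698508) (nat_lit 57) (nat_lit 5) (nat_lit 59) (nat_lit 5) (nat_lit 60) (nat_lit 5) (nat_lit 448) (nat_lit 430) (nat_lit 322)) (XT.lf (nat_lit 0) (nat_lit 5885077171) (nat_lit 228) (nat_lit 53098419370) (nat_lit 76) (nat_lit 33449803701) (nat_lit 54) (nat_lit 5) (nat_lit 57) (nat_lit 5) (nat_lit 55) (nat_lit 5) (nat_lit 449) (nat_lit 430) (nat_lit 321)))) (XT.nd (nat_lit 78) (nat_lit 152) (nat_lit 0) (XT.lf (nat_lit 0) (nat_lit 1202394750) (nat_lit 152) (nat_lit 24274189300) (nat_lit 228) (nat_lit 71423537875) (nat_lit 52) (nat_lit 5) (nat_lit 54) (nat_lit 5) (nat_lit 55) (nat_lit 5) (nat_lit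 450) (nat_lit 430) (nat_lit 320)) (XT.nd (nat_lit 78) (nat_lit 152) (nat_lit 0) (XT.lf (nat_lit 0) (nat_lit 48441377099) (nat_lit 228) (nat_lit 39098604434) (nat_lit 76) (nat_lit 14039830744) (nat_lit 52) (nat_lit 5) (nat_lit 55) (nat_lit 5) (nat_lit 53) (nat_lit 5) (nat_lit 451) (nat_lit 430) (nat_lit 319)) (XT.lf (nat_lit 0) (nat_lit 22522746467) (nat_lit 152) (nat_lit 51891579905) (nat_lit 228) (nat_lit 32125873829) (nat_lit 50) (nat_lit 5) (nat_lit 52) (nat_lit 5) (nat_lit 53) (nat_lit 5) (nat_lit 452) (nat_lit 430) (nat_lit 318))))) (XT.nd (nat_lit 234) (nat_lit 304) (nat_lit 0) (XT.nd (nat_lit 78) (nat_lit 304) (nat_lit 0) (XT.lf (nat_lit 0) (nat_lit 91295543137) (nat_lit 152) (nat_lit 12237439984) (nat_lit 228) (nat_lit 8279006471) (nat_lit 50) (nat_lit 5) (nat_lit 52) (nat_lit 5) (nat_lit 53) (nat_lit 5) (nat_lit 453) (nat_lit 430) (nat_lit 317)) (XT.nd (nat_lit 78) (nat_lit 152)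 (nat_lit 0) (XT.lf (nat_lit 0) (nat_lit 18584351112) (nat_lit 152) (nat_lit 68002020809) (nat_lit 76) (nat_lit 30726891909) (nat_lit 48) (nat_lit 5) (nat_lit 50) (nat_lit 5) (nat_lit 49) (nat_lit 5) (nat_lit 454) (nat_lit 430) (nat_lit 316)) (XT.lf (nat_lit 0) (nat_lit 2245242868) (nat_lit 152) (nat_lit 45850561270) (nat_lit 228) (nat_lit 75065928204) (nat_lit 46) (nat_lit 5) (nat_lit 48) (nat_lit 5) (nat_lit 49) (nat_lit 5) (nat_lit 455) (nat_lit 430) (nat_lit 315)))) (XT.nd (nat_lit 156) (nat_lit 228) (nat_lit 0) (XT.nd (nat_lit 78) (nat_lit 76) (nat_lit 0) (XT.lf (nat_lit 0) (nat_lit 81830077442) (nat_lit 228) (nat_lit 47355172933) (nat_lit 76) (nat_lit 143875753) (nat_lit 46) (nat_lit 5) (nat_lit 49) (nat_lit 5) (nat_lit 47) (nat_lit 4) (nat_lit 456) (nat_lit 430) (nat_lit 314)) (XT.lf (nat_lit 0) (nat_lit 32525514935) (nat_lit 76) (nat_lit 87709767590) (nat_lit 152) (nat_lit 15596853804)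 (nat_lit 45) (nat_lit 5) (nat_lit 46) (nat_lit 5) (nat_lit 47) (nat_lit 4) (nat_lit 457) (nat_lit 430) (nat_lit 313))) (XT.nd (nat_lit 78) (nat_lit 152) (nat_lit 0) (XT.lf (nat_lit 0) (nat_lit 19241627458) (nat_lit 152) (nat_lit 21750848120) (nat_lit 76) (nat_lit 101720434748) (nat_lit 44) (nat_lit 5) (nat_lit 46) (nat_lit 5) (nat_lit 45) (nat_lit 5) (nat_lit 458) (nat_lit 430) (nat_lit 312)) (XT.lf (nat_lit 0) (nat_lit 57974009920) (nat_lit 228) (nat_lit 80865621026) (nat_lit 76) (nat_lit 11116149701) (nat_lit 42) (nat_lit 5) (nat_lit 45) (nat_lit 5) (nat_lit 43) (nat_lit 4) (nat_lit 459) (nat_lit 430) (nat_lit 311))))))) (XT.nd (nat_lit 936) (nat_lit 912) (nat_lit 0) (XT.nd (nat_lit 468) (nat_lit 380) (nat_lit 0) (XT.nd (nat_lit 234) (nat_lit 152) (nat_lit 0) (XT.nd (nat_lit 78) (nat_lit 152) (nat_lit 0) (XT.lf (nat_lit 0) (nat_lit 10129920042) (nat_lit 76) (nat_lit 91592701935) (nat_lit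 152) (nat_lit 55902047574) (nat_lit 41) (nat_lit 5) (nat_lit 42) (nat_lit 5) (nat_lit 43) (nat_lit 4) (nat_lit 460) (nat_lit 430) (nat_lit 310)) (XT.nd (nat_lit 78) (nat_lit 152) (nat_lit 0) (XT.lf (nat_lit 0) (nat_lit 113002476625) (nat_lit 76) (nat_lit 38178805039) (nat_lit 152) (nat_lit 14548975284) (nat_lit 41) (nat_lit 5) (nat_lit 42) (nat_lit 5) (nat_lit 43) (nat_lit 4) (nat_lit 461) (nat_lit 430) (nat_lit 309)) (XT.lf (nat_lit 0) (nat_lit 30363157910) (nat_lit 152) (nat_lit 123377906532) (nat_lit 76) (nat_lit 20544718234) (nat_lit 39) (nat_lit 5) (nat_lit 41) (nat_lit 5) (nat_lit 40) (nat_lit 4) (nat_lit 462) (nat_lit 430) (nat_lit 308)))) (XT.nd (nat_lit 78) (nat_lit 152) (nat_lit 0) (XT.lf (nat_lit 0) (nat_lit 80552215591) (nat_lit 152) (nat_lit 18985822031) (nat_lit 76) (nat_lit 83759883149) (nat_lit 39) (nat_lit 5) (nat_lit 41) (nat_lit 5) (nat_lit 40) (nat_lit 4) (nat_lit 463)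 (nat_lit 430) (nat_lit 307)) (XT.nd (nat_lit 78) (nat_lit 76) (nat_lit 0) (XT.lf (nat_lit 0) (nat_lit 98693309746) (nat_lit 76) (nat_lit 38435925874) (nat_lit 152) (nat_lit 55711967327) (nat_lit 38) (nat_lit 5) (nat_lit 39) (nat_lit 5) (nat_lit 40) (nat_lit 4) (nat_lit 464) (nat_lit 430) (nat_lit 306)) (XT.lf (nat_lit 0) (nat_lit 24298047083) (nat_lit 76) (nat_lit 175713280484) (nat_lit 76) (nat_lit 2994307355) (nat_lit 37) (nat_lit 4) (nat_lit 38) (nat_lit 5) (nat_lit 38) (nat_lit 4) (nat_lit 465) (nat_lit 430) (nat_lit 305))))) (XT.nd (nat_lit 234) (nat_lit 228) (nat_lit 0) (XT.nd (nat_lit 78) (nat_lit 76) (nat_lit 0) (XT.lf (nat_lit 0) (nat_lit 54881070547) (nat_lit 152) (nat_lit 58567195698) (nat_lit 76) (nat_lit 100140081860) (nat_lit 36) (nat_lit 5) (nat_lit 38) (nat_lit 5) (nat_lit 37) (nat_lit 4) (nat_lit 466) (nat_lit 430) (nat_lit 304)) (XT.nd (nat_lit 78) (nat_lit 0) (nat_lit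 0) (XT.lf (nat_lit 0) (nat_lit 74849668105) (nat_lit 76) (nat_lit 44174503500) (nat_lit 152) (nat_lit 105843327778) (nat_lit 35) (nat_lit 5) (nat_lit 36) (nat_lit 5) (nat_lit 37) (nat_lit 4) (nat_lit 467) (nat_lit 430) (nat_lit 303)) (XT.lf (nat_lit 0) (nat_lit 190677898359) (nat_lit 152) (nat_lit 15430015743) (nat_lit 0) (nat_lit 30750734488) (nat_lit 35) (nat_lit 5) (nat_lit 37) (nat_lit 4) (nat_lit 35) (nat_lit 4) (nat_lit 468) (nat_lit 430) (nat_lit 302)))) (XT.nd (nat_lit 78) (nat_lit 76) (nat_lit 0) (XT.lf (nat_lit 0) (nat_lit 21863048998) (nat_lit 152) (nat_lit 114452646221) (nat_lit 76) (nat_lit 113096560514) (nat_lit 33) (nat_lit 5) (nat_lit 35) (nat_lit 5) (nat_lit 34) (nat_lit 4) (nat_lit 469) (nat_lit 430) (nat_lit 301)) (XT.nd (nat_lit 78) (nat_lit 0) (nat_lit 0) (XT.lf (nat_lit 0) (nat_lit 35906047401) (nat_lit 76) (nat_lit 58245112966) (nat_lit 152) (nat_lit 168619369653)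 (nat_lit 32) (nat_lit 5) (nat_lit 33) (nat_lit 5) (nat_lit 34) (nat_lit 4) (nat_lit 470) (nat_lit 430) (nat_lit 300)) (XT.lf (nat_lit 0) (nat_lit 176059340661) (nat_lit 152) (nat_lit 72854139438) (nat_lit 0) (nat_lit 27977024576) (nat_lit 32) (nat_lit 5) (nat_lit 34) (nat_lit 4) (nat_lit 32) (nat_lit 4) (nat_lit 471) (nat_lit 430) (nat_lit 299)))))) (XT.nd (nat_lit 468) (nat_lit 456) (nat_lit 0) (XT.nd (nat_lit 234) (nat_lit 228) (nat_lit 0) (XT.nd (nat_lit 78) (nat_lit 152) (nat_lit 0) (XT.lf (nat_lit 0) (nat_lit 96805683780) (nat_lit 76) (nat_lit 171554965296) (nat_lit 76) (nat_lit 23472190356) (nat_lit 31) (nat_lit 4) (nat_lit 32) (nat_lit 5) (nat_lit 32) (nat_lit 4) (nat_lit 472) (nat_lit 430) (nat_lit 298)) (XT.nd (nat_lit 78) (nat_lit 76) (nat_lit 0) (XT.lf (nat_lit 0) (nat_lit 59113418264) (nat_lit 152) (nat_lit 25127289815) (nat_lit 76) (nat_lit 223450816574) (nat_lit 30) (nat_lit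 5) (nat_lit 32) (nat_lit 5) (nat_lit 31) (nat_lit 4) (nat_lit 473) (nat_lit 430) (nat_lit 297)) (XT.lf (nat_lit 0) (nat_lit 151392484376) (nat_lit 152) (nat_lit 158751223388) (nat_lit 0) (nat_lit 14278046227) (nat_lit 29) (nat_lit 5) (nat_lit 31) (nat_lit 4) (nat_lit 29) (nat_lit 4) (nat_lit 474) (nat_lit 430) (nat_lit 296)))) (XT.nd (nat_lit 78) (nat_lit 152) (nat_lit 0) (XT.lf (nat_lit 0) (nat_lit 30020560031) (nat_lit 76) (nat_lit 224647731896) (nat_lit 76) (nat_lit 87532956475) (nat_lit 28) (nat_lit 4) (nat_lit 29) (nat_lit 5) (nat_lit 29) (nat_lit 4) (nat_lit 475) (nat_lit 430) (nat_lit 295)) (XT.nd (nat_lit 78) (nat_lit 76) (nat_lit 0) (XT.lf (nat_lit 0) (nat_lit 9015556712) (nat_lit 152) (nat_lit 118362729747) (nat_lit 76) (nat_lit 233659353733) (nat_lit 27) (nat_lit 5) (nat_lit 29) (nat_lit 5) (nat_lit 28) (nat_lit 4) (nat_lit 476) (nat_lit 430) (nat_lit 294)) (XT.lf (nat_lit 0)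 (nat_lit 93356188416) (nat_lit 76) (nat_lit 17447448738) (nat_lit 152) (nat_lit 270215840369) (nat_lit 26) (nat_lit 5) (nat_lit 27) (nat_lit 5) (nat_lit 28) (nat_lit 4) (nat_lit 477) (nat_lit 430) (nat_lit 293))))) (XT.nd (nat_lit 234) (nat_lit 304) (nat_lit 0) (XT.nd (nat_lit 78) (nat_lit 152) (nat_lit 0) (XT.lf (nat_lit 0) (nat_lit 226490327136) (nat_lit 152) (nat_lit 76117692722) (nat_lit 0) (nat_lit 99531396947) (nat_lit 26) (nat_lit 5) (nat_lit 28) (nat_lit 4) (nat_lit 26) (nat_lit 4) (nat_lit 478) (nat_lit 430) (nat_lit 292)) (XT.nd (nat_lit 78) (nat_lit 76) (nat_lit 0) (XT.lf (nat_lit 0) (nat_lit 159896143233) (nat_lit 76) (nat_lit 195834054071) (nat_lit 76) (nat_lit 68874894340) (nat_lit 25) (nat_lit 4) (nat_lit 26) (nat_lit 5) (nat_lit 26) (nat_lit 4) (nat_lit 479) (nat_lit 430) (nat_lit 291)) (XT.lf (nat_lit 0) (nat_lit 46252866753) (nat_lit 152) (nat_lit 30753409423) (nat_lit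 76) (nat_lit 371601606566) (nat_lit 24) (nat_lit 5) (nat_lit 26) (nat_lit 5) (nat_lit 25) (nat_lit 4) (nat_lit 480) (nat_lit 430) (nat_lit 290)))) (XT.nd (nat_lit 156) (nat_lit 152) (nat_lit 0) (XT.nd (nat_lit 78) (nat_lit 76) (nat_lit 0) (XT.lf (nat_lit 0) (nat_lit 173867928205) (nat_lit 152) (nat_lit 243647231586) (nat_lit 0) (nat_lit 56312771663) (nat_lit 23) (nat_lit 5) (nat_lit 25) (nat_lit 4) (nat_lit 23) (nat_lit 4) (nat_lit 481) (nat_lit 430) (nat_lit 289)) (XT.lf (nat_lit 0) (nat_lit 11281732820) (nat_lit 76) (nat_lit 303544237238) (nat_lit 76) (nat_lit 185988911976) (nat_lit 22) (nat_lit 4) (nat_lit 23) (nat_lit 5) (nat_lit 23) (nat_lit 4) (nat_lit 482) (nat_lit 430) (nat_lit 288))) (XT.nd (nat_lit 78) (nat_lit 152) (nat_lit 0) (XT.lf (nat_lit 0) (nat_lit 300460651529) (nat_lit 76) (nat_lit 173261355252) (nat_lit 76) (nat_lit 55705873767) (nat_lit 22) (nat_lit 4) (nat_lit 23)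 (nat_lit 5) (nat_lit 23) (nat_lit 4) (nat_lit 483) (nat_lit 430) (nat_lit 287)) (XT.lf (nat_lit 0) (nat_lit 53052879709) (nat_lit 76) (nat_lit 28970440407) (nat_lit 152) (nat_lit 478041015261) (nat_lit 20) (nat_lit 5) (nat_lit 21) (nat_lit 5) (nat_lit 22) (nat_lit 4) (nat_lit 484) (nat_lit 430) (nat_lit 286))))))))
noncomputable def xc165 : XT := (XT.nd (nat_lit 1950) (nat_lit 380) (nat_lit 0) (XT.nd (nat_lit 936) (nat_lit 456) (nat_lit 0) (XT.nd (nat_lit 468) (nat_lit 228) (nat_lit 0) (XT.nd (nat_lit 234) (nat_lit 228) (nat_lit 0) (XT.nd (nat_lit 78) (nat_lit 76) (nat_lit 0) (XT.lf (nat_lit 0) (nat_lit 237234963743) (nat_lit 152) (nat_lit 226656058373) (nat_lit 0) (nat_lit 128387037752) (nat_lit 20) (nat_lit 5) (nat_lit 22) (nat_lit 4) (nat_lit 20) (nat_lit 4) (nat_lit 485) (nat_lit 430) (nat_lit 285)) (XT.nd (nat_lit 78) (nat_lit 0) (nat_lit 0) (XT.lf (nat_lit 0) (nat_lit 79343681530)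 (nat_lit 76) (nat_lit 328180206827) (nat_lit 76) (nat_lit 219332166009) (nat_lit 19) (nat_lit 4) (nat_lit 20) (nat_lit 5) (nat_lit 20) (nat_lit 4) (nat_lit 486) (nat_lit 430) (nat_lit 284)) (XT.lf (nat_lit 0) (nat_lit 422712846789) (nat_lit 76) (nat_lit 174919920766) (nat_lit 76) (nat_lit 66071773625) (nat_lit 19) (nat_lit 4) (nat_lit 20) (nat_lit 5) (nat_lit 20) (nat_lit 4) (nat_lit 487) (nat_lit 430) (nat_lit 283)))) (XT.nd (nat_lit 78) (nat_lit 76) (nat_lit 0) (XT.lf (nat_lit 0) (nat_lit 92274152596) (nat_lit 76) (nat_lit 4419308069) (nat_lit 152) (nat_lit 606438595363) (nat_lit 17) (nat_lit 5) (nat_lit 18) (nat_lit 5) (nat_lit 19) (nat_lit 4) (nat_lit 488) (nat_lit 430) (nat_lit 282)) (XT.nd (nat_lit 78) (nat_lit 76) (nat_lit 0) (XT.lf (nat_lit 0) (nat_lit 279992591097) (nat_lit 152) (nat_lit 285490213312) (nat_lit 0) (nat_lit 179207094114) (nat_lit 17) (nat_lit 5) (nat_lit 19) (nat_lit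 4) (nat_lit 17) (nat_lit 4) (nat_lit 489) (nat_lit 430) (nat_lit 281)) (XT.lf (nat_lit 0) (nat_lit 69255965282) (nat_lit 76) (nat_lit 410479785197) (nat_lit 76) (nat_lit 309694210064) (nat_lit 16) (nat_lit 4) (nat_lit 17) (nat_lit 5) (nat_lit 17) (nat_lit 4) (nat_lit 490) (nat_lit 430) (nat_lit 280))))) (XT.nd (nat_lit 234) (nat_lit 76) (nat_lit 0) (XT.nd (nat_lit 78) (nat_lit 152) (nat_lit 0) (XT.lf (nat_lit 0) (nat_lit 468617331454) (nat_lit 76) (nat_lit 234646550991) (nat_lit 76) (nat_lit 133860903497) (nat_lit 16) (nat_lit 4) (nat_lit 17) (nat_lit 5) (nat_lit 17) (nat_lit 4) (nat_lit 491) (nat_lit 430) (nat_lit 279)) (XT.nd (nat_lit 78) (nat_lit 0) (nat_lit 0) (XT.lf (nat_lit 0) (nat_lit 10467748833) (nat_lit 76) (nat_lit 43019493151) (nat_lit 152) (nat_lit 835020018075) (nat_lit 14) (nat_lit 5) (nat_lit 15) (nat_lit 5) (nat_lit 16) (nat_lit 4) (nat_lit 492) (nat_lit 430) (nat_lit 278))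 (XT.lf (nat_lit 0) (nat_lit 262871058128) (nat_lit 152) (nat_lit 510157844007) (nat_lit 0) (nat_lit 169550894672) (nat_lit 14) (nat_lit 5) (nat_lit 16) (nat_lit 4) (nat_lit 14) (nat_lit 4) (nat_lit 493) (nat_lit 430) (nat_lit 277)))) (XT.nd (nat_lit 78) (nat_lit 76) (nat_lit 0) (XT.lf (nat_lit 0) (nat_lit 490122715677) (nat_lit 152) (nat_lit 113963550898) (nat_lit 0) (nat_lit 396802499033) (nat_lit 14) (nat_lit 5) (nat_lit 16) (nat_lit 4) (nat_lit 14) (nat_lit 4) (nat_lit 494) (nat_lit 430) (nat_lit 276)) (XT.nd (nat_lit 78) (nat_lit 0) (nat_lit 0) (XT.lf (nat_lit 0) (nat_lit 330456582596) (nat_lit 76) (nat_lit 413045177437) (nat_lit 76) (nat_lit 319724911545) (nat_lit 13) (nat_lit 4) (nat_lit 14) (nat_lit 5) (nat_lit 14) (nat_lit 4) (nat_lit 495) (nat_lit 430) (nat_lit 275)) (XT.lf (nat_lit 0) (nat_lit 816911067353) (nat_lit 76) (nat_lit 203355797603) (nat_lit 76) (nat_lit 110035486111)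 (nat_lit 13) (nat_lit 4) (nat_lit 14) (nat_lit 5) (nat_lit 14) (nat_lit 4) (nat_lit 496) (nat_lit 430) (nat_lit 274)))))) (XT.nd (nat_lit 468) (nat_lit 228) (nat_lit 0) (XT.nd (nat_lit 234) (nat_lit 76) (nat_lit 0) (XT.nd (nat_lit 78) (nat_lit 0) (nat_lit 0) (XT.lf (nat_lit 0) (nat_lit 114784729248) (nat_lit 152) (nat_lit 1059023960288) (nat_lit 0) (nat_lit 28376994328) (nat_lit 11) (nat_lit 5) (nat_lit 13) (nat_lit 4) (nat_lit 11) (nat_lit 4) (nat_lit 497) (nat_lit 430) (nat_lit 273)) (XT.nd (nat_lit 78) (nat_lit 0) (nat_lit 0) (XT.lf (nat_lit 0) (nat_lit 365718775628) (nat_lit 152) (nat_lit 633435418934) (nat_lit 0) (nat_lit 279311004509) (nat_lit 11) (nat_lit 5) (nat_lit 13) (nat_lit 4) (nat_lit 11) (nat_lit 4) (nat_lit 498) (nat_lit 430) (nat_lit 272)) (XT.lf (nat_lit 0) (nat_lit 636727345094) (nat_lit 152) (nat_lit 173800205997) (nat_lit 0) (nat_lit 550319540458) (nat_lit 11) (nat_lit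 5) (nat_lit 13) (nat_lit 4) (nat_lit 11) (nat_lit 4) (nat_lit 499) (nat_lit 430) (nat_lit 271)))) (XT.nd (nat_lit 78) (nat_lit 0) (nat_lit 0) (XT.lf (nat_lit 0) (nat_lit 339593273659) (nat_lit 76) (nat_lit 597990367092) (nat_lit 76) (nat_lit 511582531422) (nat_lit 10) (nat_lit 4) (nat_lit 11) (nat_lit 5) (nat_lit 11) (nat_lit 4) (nat_lit 500) (nat_lit 430) (nat_lit 270)) (XT.nd (nat_lit 78) (nat_lit 0) (nat_lit 0) (XT.lf (nat_lit 0) (nat_lit 903942031829) (nat_lit 76) (nat_lit 363318232926) (nat_lit 76) (nat_lit 276910368520) (nat_lit 10) (nat_lit 4) (nat_lit 11) (nat_lit 5) (nat_lit 11) (nat_lit 4) (nat_lit 501) (nat_lit 430) (nat_lit 269)) (XT.lf (nat_lit 0) (nat_lit 1513438346602) (nat_lit 76) (nat_lit 109872504540) (nat_lit 76) (nat_lit 23464613526) (nat_lit 10) (nat_lit 4) (nat_lit 11) (nat_lit 5) (nat_lit 11) (nat_lit 4) (nat_lit 502) (nat_lit 430) (nat_lit 268))))) (XT.nd (nat_lit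 234) (nat_lit 76) (nat_lit 0) (XT.nd (nat_lit 78) (nat_lit 0) (nat_lit 0) (XT.lf (nat_lit 0) (nat_lit 252434332752) (nat_lit 152) (nat_lit 1331070140633) (nat_lit 0) (nat_lit 172427003447) (nat_lit 8) (nat_lit 5) (nat_lit 10) (nat_lit 4) (nat_lit 8) (nat_lit 4) (nat_lit 503) (nat_lit 430) (nat_lit 267)) (XT.nd (nat_lit 78) (nat_lit 0) (nat_lit 0) (XT.lf (nat_lit 0) (nat_lit 555731534363) (nat_lit 152) (nat_lit 841787970977) (nat_lit 0) (nat_lit 475724183936) (nat_lit 8) (nat_lit 5) (nat_lit 10) (nat_lit 4) (nat_lit 8) (nat_lit 4) (nat_lit 504) (nat_lit 430) (nat_lit 266)) (XT.lf (nat_lit 0) (nat_lit 883292364910) (nat_lit 152) (nat_lit 313363530654) (nat_lit 0) (nat_lit 803284994926) (nat_lit 8) (nat_lit 5) (nat_lit 10) (nat_lit 4) (nat_lit 8) (nat_lit 4) (nat_lit 505) (nat_lit 430) (nat_lit 265)))) (XT.nd (nat_lit 156) (nat_lit 0) (nat_lit 0) (XT.nd (nat_lit 78) (nat_lit 0) (nat_lit 0)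 (XT.lf (nat_lit 0) (nat_lit 270885367605) (nat_lit 76) (nat_lit 972687357612) (nat_lit 76) (nat_lit 892679969520) (nat_lit 7) (nat_lit 4) (nat_lit 8) (nat_lit 5) (nat_lit 8) (nat_lit 4) (nat_lit 506) (nat_lit 430) (nat_lit 264)) (XT.lf (nat_lit 0) (nat_lit 919695166010) (nat_lit 76) (nat_lit 721548129828) (nat_lit 76) (nat_lit 641540724969) (nat_lit 7) (nat_lit 4) (nat_lit 8) (nat_lit 5) (nat_lit 8) (nat_lit 4) (nat_lit 507) (nat_lit 430) (nat_lit 263))) (XT.nd (nat_lit 78) (nat_lit 0) (nat_lit 0) (XT.lf (nat_lit 0) (nat_lit 1620409495170) (nat_lit 76) (nat_lit 450317894005) (nat_lit 76) (nat_lit 370310473622) (nat_lit 7) (nat_lit 4) (nat_lit 8) (nat_lit 5) (nat_lit 8) (nat_lit 4) (nat_lit 508) (nat_lit 430) (nat_lit 262)) (XT.lf (nat_lit 0) (nat_lit 2377180736293) (nat_lit 76) (nat_lit 157389359859) (nat_lit 76) (nat_lit 77381925101) (nat_lit 7) (nat_lit 4) (nat_lit 8) (nat_lit 5) (nat_lit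 8) (nat_lit 4) (nat_lit 509) (nat_lit 430) (nat_lit 261))))))) (XT.nd (nat_lit 936) (nat_lit 0) (nat_lit 0) (XT.nd (nat_lit 468) (nat_lit 152) (nat_lit 0) (XT.nd (nat_lit 234) (nat_lit 76) (nat_lit 0) (XT.nd (nat_lit 78) (nat_lit 0) (nat_lit 0) (XT.lf (nat_lit 0) (nat_lit 241185790226) (nat_lit 152) (nat_lit 2386656128580) (nat_lit 0) (nat_lit 167104819792) (nat_lit 5) (nat_lit 5) (nat_lit 7) (nat_lit 4) (nat_lit 5) (nat_lit 4) (nat_lit 510) (nat_lit 430) (nat_lit 260)) (XT.nd (nat_lit 78) (nat_lit 0) (nat_lit 0) (XT.lf (nat_lit 0) (nat_lit 591732008084) (nat_lit 152) (nat_lit 1882183307863) (nat_lit 0) (nat_lit 517651026238) (nat_lit 5) (nat_lit 5) (nat_lit 7) (nat_lit 4) (nat_lit 5) (nat_lit 4) (nat_lit 511) (nat_lit 430) (nat_lit 259)) (XT.lf (nat_lit 0) (nat_lit 970321823342) (nat_lit 152) (nat_lit 1337352867792) (nat_lit 0) (nat_lit 896240830930) (nat_lit 5) (nat_lit 5) (nat_lit 7)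 (nat_lit 4) (nat_lit 5) (nat_lit 4) (nat_lit 512) (nat_lit 430) (nat_lit 258)))) (XT.nd (nat_lit 78) (nat_lit 76) (nat_lit 0) (XT.lf (nat_lit 0) (nat_lit 1379198731201) (nat_lit 152) (nat_lit 748936183535) (nat_lit 0) (nat_lit 1305117729006) (nat_lit 5) (nat_lit 5) (nat_lit 7) (nat_lit 4) (nat_lit 5) (nat_lit 4) (nat_lit 513) (nat_lit 430) (nat_lit 257)) (XT.nd (nat_lit 78) (nat_lit 76) (nat_lit 0) (XT.lf (nat_lit 0) (nat_lit 1820785705931) (nat_lit 152) (nat_lit 113446341408) (nat_lit 0) (nat_lit 1746704694677) (nat_lit 5) (nat_lit 5) (nat_lit 7) (nat_lit 4) (nat_lit 5) (nat_lit 4) (nat_lit 514) (nat_lit 430) (nat_lit 256)) (XT.lf (nat_lit 0) (nat_lit 603049502814) (nat_lit 76) (nat_lit 1709153411464) (nat_lit 76) (nat_lit 1635072391822) (nat_lit 4) (nat_lit 4) (nat_lit 5) (nat_lit 5) (nat_lit 5) (nat_lit 4) (nat_lit 515) (nat_lit 430) (nat_lit 255))))) (XT.nd (nat_lit 234) (nat_lit 152)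 (nat_lit 0) (XT.nd (nat_lit 78) (nat_lit 0) (nat_lit 0) (XT.lf (nat_lit 0) (nat_lit 1383316648910) (nat_lit 76) (nat_lit 1462718597039) (nat_lit 76) (nat_lit 1388637569631) (nat_lit 4) (nat_lit 4) (nat_lit 5) (nat_lit 5) (nat_lit 5) (nat_lit 4) (nat_lit 516) (nat_lit 430) (nat_lit 254)) (XT.nd (nat_lit 78) (nat_lit 0) (nat_lit 0) (XT.lf (nat_lit 0) (nat_lit 2226005018895) (nat_lit 76) (nat_lit 1196569073626) (nat_lit 76) (nat_lit 1122488039028) (nat_lit 4) (nat_lit 4) (nat_lit 5) (nat_lit 5) (nat_lit 5) (nat_lit 4) (nat_lit 517) (nat_lit 430) (nat_lit 253)) (XT.lf (nat_lit 0) (nat_lit 3136108321627) (nat_lit 76) (nat_lit 909127658866) (nat_lit 76) (nat_lit 835046617609) (nat_lit 4) (nat_lit 4) (nat_lit 5) (nat_lit 5) (nat_lit 5) (nat_lit 4) (nat_lit 518) (nat_lit 430) (nat_lit 252)))) (XT.nd (nat_lit 78) (nat_lit 152) (nat_lit 0) (XT.lf (nat_lit 0) (nat_lit 4119019761864) (nat_lit 76) (nat_lit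 598690996225) (nat_lit 76) (nat_lit 524609948803) (nat_lit 4) (nat_lit 4) (nat_lit 5) (nat_lit 5) (nat_lit 5) (nat_lit 4) (nat_lit 519) (nat_lit 430) (nat_lit 251)) (XT.nd (nat_lit 78) (nat_lit 152) (nat_lit 0) (XT.lf (nat_lit 0) (nat_lit 5180563999991) (nat_lit 76) (nat_lit 263419461037) (nat_lit 76) (nat_lit 189338407907) (nat_lit 4) (nat_lit 4) (nat_lit 5) (nat_lit 5) (nat_lit 5) (nat_lit 4) (nat_lit 520) (nat_lit 430) (nat_lit 250)) (XT.lf (nat_lit 0) (nat_lit 173536102471) (nat_lit 152) (nat_lit 5776038259431) (nat_lit 0) (nat_lit 104942529863) (nat_lit 2) (nat_lit 5) (nat_lit 4) (nat_lit 4) (nat_lit 2) (nat_lit 4) (nat_lit 521) (nat_lit 430) (nat_lit 249)))))) (XT.nd (nat_lit 468) (nat_lit 0) (nat_lit 0) (XT.nd (nat_lit 234) (nat_lit 0) (nat_lit 0) (XT.nd (nat_lit 78) (nat_lit 0) (nat_lit 0) (XT.lf (nat_lit 0) (nat_lit 574754131935) (nat_lit 152) (nat_lit 5426535979217) (nat_lit 0)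 (nat_lit 506160554796) (nat_lit 2) (nat_lit 5) (nat_lit 4) (nat_lit 4) (nat_lit 2) (nat_lit 4) (nat_lit 522) (nat_lit 430) (nat_lit 248)) (XT.nd (nat_lit 78) (nat_lit 0) (nat_lit 0) (XT.lf (nat_lit 0) (nat_lit 1008069553777) (nat_lit 152) (nat_lit 5049073619848) (nat_lit 0) (nat_lit 939475972441) (nat_lit 2) (nat_lit 5) (nat_lit 4) (nat_lit 4) (nat_lit 2) (nat_lit 4) (nat_lit 523) (nat_lit 430) (nat_lit 247)) (XT.lf (nat_lit 0) (nat_lit 1476050163087) (nat_lit 152) (nat_lit 4641414367342) (nat_lit 0) (nat_lit 1407456577866) (nat_lit 2) (nat_lit 5) (nat_lit 4) (nat_lit 4) (nat_lit 2) (nat_lit 4) (nat_lit 524) (nat_lit 430) (nat_lit 246)))) (XT.nd (nat_lit 78) (nat_lit 0) (nat_lit 0) (XT.lf (nat_lit 0) (nat_lit 1981469178291) (nat_lit 152) (nat_lit 4201142463166) (nat_lit 0) (nat_lit 1912875589474) (nat_lit 2) (nat_lit 5) (nat_lit 4) (nat_lit 4) (nat_lit 2) (nat_lit 4) (nat_lit 525) (nat_lit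 430) (nat_lit 245)) (XT.nd (nat_lit 78) (nat_lit 0) (nat_lit 0) (XT.lf (nat_lit 0) (nat_lit 2527321675036) (nat_lit 152) (nat_lit 3725648888628) (nat_lit 0) (nat_lit 2458728082888) (nat_lit 2) (nat_lit 5) (nat_lit 4) (nat_lit 4) (nat_lit 2) (nat_lit 4) (nat_lit 526) (nat_lit 430) (nat_lit 244)) (XT.lf (nat_lit 0) (nat_lit 3116842334783) (nat_lit 152) (nat_lit 3212115904028) (nat_lit 0) (nat_lit 3048248739550) (nat_lit 2) (nat_lit 5) (nat_lit 4) (nat_lit 4) (nat_lit 2) (nat_lit 4) (nat_lit 527) (nat_lit 430) (nat_lit 243))))) (XT.nd (nat_lit 234) (nat_lit 0) (nat_lit 0) (XT.nd (nat_lit 78) (nat_lit 0) (nat_lit 0) (XT.lf (nat_lit 0) (nat_lit 3753524613294) (nat_lit 152) (nat_lit 2657500350938) (nat_lit 0) (nat_lit 3684931015206) (nat_lit 2) (nat_lit 5) (nat_lit 4) (nat_lit 4) (nat_lit 2) (nat_lit 4) (nat_lit 528) (nat_lit 430) (nat_lit 242)) (XT.nd (nat_lit 78) (nat_lit 0) (nat_lit 0) (XT.lf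 (nat_lit 0) (nat_lit 4441141442589) (nat_lit 152) (nat_lit 2058515618674) (nat_lit 0) (nat_lit 4372547841857) (nat_lit 2) (nat_lit 5) (nat_lit 4) (nat_lit 4) (nat_lit 2) (nat_lit 4) (nat_lit 529) (nat_lit 430) (nat_lit 241)) (XT.lf (nat_lit 0) (nat_lit 5183767589065) (nat_lit 152) (nat_lit 1411612168080) (nat_lit 0) (nat_lit 5115173985884) (nat_lit 2) (nat_lit 5) (nat_lit 4) (nat_lit 4) (nat_lit 2) (nat_lit 4) (nat_lit 530) (nat_lit 430) (nat_lit 240)))) (XT.nd (nat_lit 54756) (nat_lit 0) (nat_lit 6004) (XT.nd (nat_lit 54678) (nat_lit 0) (nat_lit 6004) (XT.lf (nat_lit 0) (nat_lit 5985803800256) (nat_lit 152) (nat_lit 712956497228) (nat_lit 0) (nat_lit 5917210194808) (nat_lit 2) (nat_lit 5) (nat_lit 4) (nat_lit 4) (nat_lit 2) (nat_lit 4) (nat_lit 531) (nat_lit 430) (nat_lit 239)) (XT.lf (nat_lit 0) (nat_lit 21250562484) (nat_lit 532) (nat_lit 413550182) (nat_lit 532) (nat_lit 413550182)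 (nat_lit 81) (nat_lit 3) (nat_lit 88) (nat_lit 3) (nat_lit 88) (nat_lit 5) (nat_lit 431) (nat_lit 431) (nat_lit 338))) (XT.nd (nat_lit 78) (nat_lit 0) (nat_lit 0) (XT.lf (nat_lit 76) (nat_lit 22183858530) (nat_lit 0) (nat_lit 22582510998) (nat_lit 532) (nat_lit 1109944762) (nat_lit 82) (nat_lit 5) (nat_lit 81) (nat_lit 3) (nat_lit 88) (nat_lit 5) (nat_lit 432) (nat_lit 431) (nat_lit 337)) (XT.lf (nat_lit 76) (nat_lit 47080930109) (nat_lit 0) (nat_lit 151305349) (nat_lit 532) (nat_lit 501195215) (nat_lit 82) (nat_lit 5) (nat_lit 81) (nat_lit 3) (nat_lit 88) (nat_lit 5) (nat_lit 433) (nat_lit 431) (nat_lit 336))))))))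
noncomputable def xc166 : XT := (XT.nd (nat_lit 1950) (nat_lit 1748) (nat_lit 0) (XT.nd (nat_lit 936) (nat_lit 1292) (nat_lit 0) (XT.nd (nat_lit 468) (nat_lit 684) (nat_lit 0) (XT.nd (nat_lit 234) (nat_lit 304) (nat_lit 0) (XT.nd (nat_lit 78) (nat_lit 0) (nat_lit 0) (XT.lf (nat_lit 0) (nat_lit 1353724454) (nat_lit 532) (nat_lit 24784331697) (nat_lit 608) (nat_lit 23504337379) (nat_lit 75) (nat_lit 5) (nat_lit 82) (nat_lit 5) (nat_lit 83) (nat_lit 5) (nat_lit 434) (nat_lit 431) (nat_lit 335)) (XT.nd (nat_lit 78) (nat_lit 0) (nat_lit 76) (XT.lf (nat_lit 76) (nat_lit 762629745) (nat_lit 0) (nat_lit 2605062291) (nat_lit 608) (nat_lit 48332322055) (nat_lit 76) (nat_lit 5) (nat_lit 75) (nat_lit 5) (nat_lit 83) (nat_lit 5) (nat_lit 435) (nat_lit 431) (nat_lit 334)) (XT.lf (nat_lit 0) (nat_lit 6783956749) (nat_lit 532) (nat_lit 24673593530) (nat_lit 608) (nat_lit 22365400262) (nat_lit 76) (nat_lit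 5) (nat_lit 83) (nat_lit 5) (nat_lit 84) (nat_lit 5) (nat_lit 436) (nat_lit 431) (nat_lit 333)))) (XT.nd (nat_lit 78) (nat_lit 380) (nat_lit 0) (XT.lf (nat_lit 76) (nat_lit 3812287053) (nat_lit 0) (nat_lit 6818118614) (nat_lit 608) (nat_lit 45472766176) (nat_lit 77) (nat_lit 5) (nat_lit 76) (nat_lit 5) (nat_lit 84) (nat_lit 5) (nat_lit 437) (nat_lit 431) (nat_lit 332)) (XT.nd (nat_lit 78) (nat_lit 456) (nat_lit 0) (XT.lf (nat_lit 0) (nat_lit 15950398083) (nat_lit 532) (nat_lit 23027324503) (nat_lit 76) (nat_lit 19494822591) (nat_lit 77) (nat_lit 5) (nat_lit 84) (nat_lit 5) (nat_lit 78) (nat_lit 5) (nat_lit 438) (nat_lit 431) (nat_lit 331)) (XT.lf (nat_lit 0) (nat_lit 8840424790) (nat_lit 456) (nat_lit 13243119572) (nat_lit 532) (nat_lit 38916920152) (nat_lit 71) (nat_lit 5) (nat_lit 77) (nat_lit 5) (nat_lit 78) (nat_lit 5) (nat_lit 439) (nat_lit 431) (nat_lit 330))))) (XT.nd (nat_lit 234)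 (nat_lit 456) (nat_lit 0) (XT.nd (nat_lit 78) (nat_lit 228) (nat_lit 0) (XT.lf (nat_lit 0) (nat_lit 29701198645) (nat_lit 532) (nat_lit 19481506918) (nat_lit 76) (nat_lit 14468403788) (nat_lit 71) (nat_lit 5) (nat_lit 78) (nat_lit 5) (nat_lit 72) (nat_lit 5) (nat_lit 440) (nat_lit 431) (nat_lit 329)) (XT.nd (nat_lit 78) (nat_lit 0) (nat_lit 0) (XT.lf (nat_lit 0) (nat_lit 16279718878) (nat_lit 228) (nat_lit 22382163273) (nat_lit 304) (nat_lit 27793234698) (nat_lit 68) (nat_lit 5) (nat_lit 71) (nat_lit 5) (nat_lit 72) (nat_lit 5) (nat_lit 441) (nat_lit 431) (nat_lit 328)) (XT.lf (nat_lit 0) (nat_lit 49041942803) (nat_lit 304) (nat_lit 13604800723) (nat_lit 76) (nat_lit 6780500015) (nat_lit 68) (nat_lit 5) (nat_lit 72) (nat_lit 5) (nat_lit 69) (nat_lit 5) (nat_lit 442) (nat_lit 431) (nat_lit 327)))) (XT.nd (nat_lit 78) (nat_lit 228) (nat_lit 0) (XT.lf (nat_lit 0) (nat_lit 26640846452) (nat_lit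 228) (nat_lit 34831964770) (nat_lit 304) (nat_lit 11066697278) (nat_lit 65) (nat_lit 5) (nat_lit 68) (nat_lit 5) (nat_lit 69) (nat_lit 5) (nat_lit 443) (nat_lit 431) (nat_lit 326)) (XT.nd (nat_lit 78) (nat_lit 228) (nat_lit 0) (XT.lf (nat_lit 0) (nat_lit 70877985237) (nat_lit 228) (nat_lit 4390556450) (nat_lit 304) (nat_lit 602581899) (nat_lit 65) (nat_lit 5) (nat_lit 68) (nat_lit 5) (nat_lit 69) (nat_lit 5) (nat_lit 444) (nat_lit 431) (nat_lit 325)) (XT.lf (nat_lit 0) (nat_lit 11864790548) (nat_lit 228) (nat_lit 39111867736) (nat_lit 76) (nat_lit 28335920173) (nat_lit 62) (nat_lit 5) (nat_lit 65) (nat_lit 5) (nat_lit 63) (nat_lit 5) (nat_lit 445) (nat_lit 431) (nat_lit 324)))))) (XT.nd (nat_lit 468) (nat_lit 532) (nat_lit 0) (XT.nd (nat_lit 234) (nat_lit 380) (nat_lit 0) (XT.nd (nat_lit 78) (nat_lit 152) (nat_lit 0) (XT.lf (nat_lit 0) (nat_lit 6463833956) (nat_lit 228) (nat_lit 19241280157)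 (nat_lit 304) (nat_lit 57290334442) (nat_lit 59) (nat_lit 5) (nat_lit 62) (nat_lit 5) (nat_lit 63) (nat_lit 5) (nat_lit 446) (nat_lit 431) (nat_lit 323)) (XT.nd (nat_lit 78) (nat_lit 152) (nat_lit 0) (XT.lf (nat_lit 0) (nat_lit 42109975612) (nat_lit 304) (nat_lit 29368729240) (nat_lit 76) (nat_lit 15377658694) (nat_lit 59) (nat_lit 5) (nat_lit 63) (nat_lit 5) (nat_lit 60) (nat_lit 5) (nat_lit 447) (nat_lit 431) (nat_lit 322)) (XT.lf (nat_lit 0) (nat_lit 22174903232) (nat_lit 152) (nat_lit 38684112228) (nat_lit 228) (nat_lit 30084593349) (nat_lit 57) (nat_lit 5) (nat_lit 59) (nat_lit 5) (nat_lit 60) (nat_lit 5) (nat_lit 448) (nat_lit 431) (nat_lit 321)))) (XT.nd (nat_lit 78) (nat_lit 380) (nat_lit 0) (XT.lf (nat_lit 0) (nat_lit 79510508567) (nat_lit 152) (nat_lit 2399225700) (nat_lit 228) (nat_lit 13383959177) (nat_lit 57) (nat_lit 5) (nat_lit 59) (nat_lit 5) (nat_lit 60) (nat_lit 5) (nat_lit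 449) (nat_lit 431) (nat_lit 320)) (XT.nd (nat_lit 78) (nat_lit 152) (nat_lit 0) (XT.lf (nat_lit 0) (nat_lit 6379903706) (nat_lit 228) (nat_lit 57310217805) (nat_lit 76) (nat_lit 36135917575) (nat_lit 54) (nat_lit 5) (nat_lit 57) (nat_lit 5) (nat_lit 55) (nat_lit 5) (nat_lit 450) (nat_lit 431) (nat_lit 319)) (XT.lf (nat_lit 0) (nat_lit 1333748152) (nat_lit 152) (nat_lit 26204049340) (nat_lit 228) (nat_lit 77112483966) (nat_lit 52) (nat_lit 5) (nat_lit 54) (nat_lit 5) (nat_lit 55) (nat_lit 5) (nat_lit 451) (nat_lit 431) (nat_lit 318))))) (XT.nd (nat_lit 234) (nat_lit 380) (nat_lit 0) (XT.nd (nat_lit 78) (nat_lit 152) (nat_lit 0) (XT.lf (nat_lit 0) (nat_lit 52338332752) (nat_lit 228) (nat_lit 42192491273) (nat_lit 76) (nat_lit 15173638553) (nat_lit 52) (nat_lit 5) (nat_lit 55) (nat_lit 5) (nat_lit 53) (nat_lit 5) (nat_lit 452) (nat_lit 431) (nat_lit 317)) (XT.nd (nat_lit 78) (nat_lit 0) (nat_lit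 0) (XT.lf (nat_lit 0) (nat_lit 24357706901) (nat_lit 152) (nat_lit 56030604731) (nat_lit 228) (nat_lit 34673434637) (nat_lit 50) (nat_lit 5) (nat_lit 52) (nat_lit 5) (nat_lit 53) (nat_lit 5) (nat_lit 453) (nat_lit 431) (nat_lit 316)) (XT.lf (nat_lit 0) (nat_lit 98629872438) (nat_lit 152) (nat_lit 13205044844) (nat_lit 228) (nat_lit 8920485231) (nat_lit 50) (nat_lit 5) (nat_lit 52) (nat_lit 5) (nat_lit 53) (nat_lit 5) (nat_lit 454) (nat_lit 431) (nat_lit 315)))) (XT.nd (nat_lit 156) (nat_lit 76) (nat_lit 0) (XT.nd (nat_lit 78) (nat_lit 152) (nat_lit 0) (XT.lf (nat_lit 0) (nat_lit 20090460594) (nat_lit 152) (nat_lit 73410011610) (nat_lit 76) (nat_lit 33196301586) (nat_lit 48) (nat_lit 5) (nat_lit 50) (nat_lit 5) (nat_lit 49) (nat_lit 5) (nat_lit 455) (nat_lit 431) (nat_lit 314)) (XT.lf (nat_lit 0) (nat_lit 2456218709) (nat_lit 152) (nat_lit 49505931098) (nat_lit 228) (nat_lit 81051024546)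 (nat_lit 46) (nat_lit 5) (nat_lit 48) (nat_lit 5) (nat_lit 49) (nat_lit 5) (nat_lit 456) (nat_lit 431) (nat_lit 313))) (XT.nd (nat_lit 78) (nat_lit 76) (nat_lit 0) (XT.lf (nat_lit 0) (nat_lit 88394063428) (nat_lit 228) (nat_lit 51113449589) (nat_lit 76) (nat_lit 166534901) (nat_lit 46) (nat_lit 5) (nat_lit 49) (nat_lit 5) (nat_lit 47) (nat_lit 4) (nat_lit 457) (nat_lit 431) (nat_lit 312)) (XT.lf (nat_lit 0) (nat_lit 35156930341) (nat_lit 76) (nat_lit 94714158820) (nat_lit 152) (nat_lit 16826257576) (nat_lit 45) (nat_lit 5) (nat_lit 46) (nat_lit 5) (nat_lit 47) (nat_lit 4) (nat_lit 458) (nat_lit 431) (nat_lit 311))))))) (XT.nd (nat_lit 936) (nat_lit 836) (nat_lit 0) (XT.nd (nat_lit 468) (nat_lit 456) (nat_lit 0) (XT.nd (nat_lit 234) (nat_lit 152) (nat_lit 0) (XT.nd (nat_lit 78) (nat_lit 228) (nat_lit 0) (XT.lf (nat_lit 0) (nat_lit 20797093640) (nat_lit 152) (nat_lit 23462866411) (nat_lit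 76) (nat_lit 109868690700) (nat_lit 44) (nat_lit 5) (nat_lit 46) (nat_lit 5) (nat_lit 45) (nat_lit 5) (nat_lit 459) (nat_lit 431) (nat_lit 310)) (XT.nd (nat_lit 78) (nat_lit 76) (nat_lit 0) (XT.lf (nat_lit 0) (nat_lit 62627811331) (nat_lit 228) (nat_lit 87306564374) (nat_lit 76) (nat_lit 12016595536) (nat_lit 42) (nat_lit 5) (nat_lit 45) (nat_lit 5) (nat_lit 43) (nat_lit 4) (nat_lit 460) (nat_lit 431) (nat_lit 309)) (XT.lf (nat_lit 0) (nat_lit 10967903364) (nat_lit 76) (nat_lit 98907896180) (nat_lit 152) (nat_lit 60357612843) (nat_lit 41) (nat_lit 5) (nat_lit 42) (nat_lit 5) (nat_lit 43) (nat_lit 4) (nat_lit 461) (nat_lit 431) (nat_lit 308)))) (XT.nd (nat_lit 78) (nat_lit 152) (nat_lit 0) (XT.lf (nat_lit 0) (nat_lit 122068220790) (nat_lit 76) (nat_lit 41221792860) (nat_lit 152) (nat_lit 15697524290) (nat_lit 41) (nat_lit 5) (nat_lit 42) (nat_lit 5) (nat_lit 43) (nat_lit 4) (nat_lit 462)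 (nat_lit 431) (nat_lit 307)) (XT.nd (nat_lit 78) (nat_lit 0) (nat_lit 0) (XT.lf (nat_lit 0) (nat_lit 32806623036) (nat_lit 152) (nat_lit 133221634342) (nat_lit 76) (nat_lit 22199233877) (nat_lit 39) (nat_lit 5) (nat_lit 41) (nat_lit 5) (nat_lit 40) (nat_lit 4) (nat_lit 463) (nat_lit 431) (nat_lit 306)) (XT.lf (nat_lit 0) (nat_lit 87009737739) (nat_lit 152) (nat_lit 20480146394) (nat_lit 76) (nat_lit 90470801749) (nat_lit 39) (nat_lit 5) (nat_lit 41) (nat_lit 5) (nat_lit 40) (nat_lit 4) (nat_lit 464) (nat_lit 431) (nat_lit 305))))) (XT.nd (nat_lit 234) (nat_lit 228) (nat_lit 0) (XT.nd (nat_lit 78) (nat_lit 152) (nat_lit 0) (XT.lf (nat_lit 0) (nat_lit 106612694625) (nat_lit 76) (nat_lit 41499811514) (nat_lit 152) (nat_lit 60154957623) (nat_lit 38) (nat_lit 5) (nat_lit 39) (nat_lit 5) (nat_lit 40) (nat_lit 4) (nat_lit 465) (nat_lit 431) (nat_lit 304)) (XT.nd (nat_lit 78) (nat_lit 76) (nat_lit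 0) (XT.lf (nat_lit 0) (nat_lit 26265957003) (nat_lit 76) (nat_lit 189759074025) (nat_lit 76) (nat_lit 3220030086) (nat_lit 37) (nat_lit 4) (nat_lit 38) (nat_lit 5) (nat_lit 38) (nat_lit 4) (nat_lit 466) (nat_lit 431) (nat_lit 303)) (XT.lf (nat_lit 0) (nat_lit 59283713999) (nat_lit 152) (nat_lit 63229646966) (nat_lit 76) (nat_lit 108161081661) (nat_lit 36) (nat_lit 5) (nat_lit 38) (nat_lit 5) (nat_lit 37) (nat_lit 4) (nat_lit 467) (nat_lit 431) (nat_lit 302)))) (XT.nd (nat_lit 78) (nat_lit 152) (nat_lit 0) (XT.lf (nat_lit 0) (nat_lit 80859985577) (nat_lit 76) (nat_lit 47697914360) (nat_lit 152) (nat_lit 114298055176) (nat_lit 35) (nat_lit 5) (nat_lit 36) (nat_lit 5) (nat_lit 37) (nat_lit 4) (nat_lit 468) (nat_lit 431) (nat_lit 301)) (XT.nd (nat_lit 78) (nat_lit 152) (nat_lit 0) (XT.lf (nat_lit 0) (nat_lit 205943286077) (nat_lit 152) (nat_lit 16643088733) (nat_lit 0) (nat_lit 33220072595)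 (nat_lit 35) (nat_lit 5) (nat_lit 37) (nat_lit 4) (nat_lit 35) (nat_lit 4) (nat_lit 469) (nat_lit 431) (nat_lit 300)) (XT.lf (nat_lit 0) (nat_lit 23623204183) (nat_lit 152) (nat_lit 123587483988) (nat_lit 76) (nat_lit 122153658601) (nat_lit 33) (nat_lit 5) (nat_lit 35) (nat_lit 5) (nat_lit 34) (nat_lit 4) (nat_lit 470) (nat_lit 431) (nat_lit 299)))))) (XT.nd (nat_lit 468) (nat_lit 456) (nat_lit 0) (XT.nd (nat_lit 234) (nat_lit 228) (nat_lit 0) (XT.nd (nat_lit 78) (nat_lit 76) (nat_lit 0) (XT.lf (nat_lit 0) (nat_lit 38799364011) (nat_lit 76) (nat_lit 62894678423) (nat_lit 152) (nat_lit 182097266368) (nat_lit 32) (nat_lit 5) (nat_lit 33) (nat_lit 5) (nat_lit 34) (nat_lit 4) (nat_lit 471) (nat_lit 431) (nat_lit 298)) (XT.nd (nat_lit 78) (nat_lit 76) (nat_lit 0) (XT.lf (nat_lit 0) (nat_lit 190154301606) (nat_lit 152) (nat_lit 78662604955) (nat_lit 0) (nat_lit 30224020949) (nat_lit 32) (nat_lit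 5) (nat_lit 34) (nat_lit 4) (nat_lit 32) (nat_lit 4) (nat_lit 472) (nat_lit 431) (nat_lit 297)) (XT.lf (nat_lit 0) (nat_lit 104569501192) (nat_lit 76) (nat_lit 185269922605) (nat_lit 76) (nat_lit 25339248554) (nat_lit 31) (nat_lit 4) (nat_lit 32) (nat_lit 5) (nat_lit 32) (nat_lit 4) (nat_lit 473) (nat_lit 431) (nat_lit 296)))) (XT.nd (nat_lit 78) (nat_lit 152) (nat_lit 0) (XT.lf (nat_lit 0) (nat_lit 63851918504) (nat_lit 152) (nat_lit 27119047815) (nat_lit 76) (nat_lit 241335125812) (nat_lit 30) (nat_lit 5) (nat_lit 32) (nat_lit 5) (nat_lit 31) (nat_lit 4) (nat_lit 474) (nat_lit 431) (nat_lit 295)) (XT.nd (nat_lit 78) (nat_lit 76) (nat_lit 0) (XT.lf (nat_lit 0) (nat_lit 163513255133) (nat_lit 152) (nat_lit 171432840975) (nat_lit 0) (nat_lit 15428648116) (nat_lit 29) (nat_lit 5) (nat_lit 31) (nat_lit 4) (nat_lit 29) (nat_lit 4) (nat_lit 475) (nat_lit 431) (nat_lit 294)) (XT.lf (nat_lit 0)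 (nat_lit 32440217262) (nat_lit 76) (nat_lit 242610649002) (nat_lit 76) (nat_lit 94525752829) (nat_lit 28) (nat_lit 4) (nat_lit 29) (nat_lit 5) (nat_lit 29) (nat_lit 4) (nat_lit 476) (nat_lit 431) (nat_lit 293))))) (XT.nd (nat_lit 234) (nat_lit 304) (nat_lit 0) (XT.nd (nat_lit 78) (nat_lit 76) (nat_lit 0) (XT.lf (nat_lit 0) (nat_lit 9745456730) (nat_lit 152) (nat_lit 127814613911) (nat_lit 76) (nat_lit 252359888069) (nat_lit 27) (nat_lit 5) (nat_lit 29) (nat_lit 5) (nat_lit 28) (nat_lit 4) (nat_lit 477) (nat_lit 431) (nat_lit 292)) (XT.nd (nat_lit 78) (nat_lit 0) (nat_lit 0) (XT.lf (nat_lit 0) (nat_lit 100841383928) (nat_lit 76) (nat_lit 18834960179) (nat_lit 152) (nat_lit 291824018100) (nat_lit 26) (nat_lit 5) (nat_lit 27) (nat_lit 5) (nat_lit 28) (nat_lit 4) (nat_lit 478) (nat_lit 431) (nat_lit 291)) (XT.lf (nat_lit 0) (nat_lit 244617530364) (nat_lit 152) (nat_lit 82191205626) (nat_lit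 0) (nat_lit 107501195774) (nat_lit 26) (nat_lit 5) (nat_lit 28) (nat_lit 4) (nat_lit 26) (nat_lit 4) (nat_lit 479) (nat_lit 431) (nat_lit 290)))) (XT.nd (nat_lit 156) (nat_lit 152) (nat_lit 0) (XT.nd (nat_lit 78) (nat_lit 76) (nat_lit 0) (XT.lf (nat_lit 0) (nat_lit 172703334610) (nat_lit 76) (nat_lit 211493037415) (nat_lit 76) (nat_lit 74376506030) (nat_lit 25) (nat_lit 4) (nat_lit 26) (nat_lit 5) (nat_lit 26) (nat_lit 4) (nat_lit 480) (nat_lit 431) (nat_lit 289)) (XT.lf (nat_lit 0) (nat_lit 49960467077) (nat_lit 152) (nat_lit 33198942081) (nat_lit 76) (nat_lit 401336514348) (nat_lit 24) (nat_lit 5) (nat_lit 26) (nat_lit 5) (nat_lit 25) (nat_lit 4) (nat_lit 481) (nat_lit 431) (nat_lit 288))) (XT.nd (nat_lit 78) (nat_lit 76) (nat_lit 0) (XT.lf (nat_lit 0) (nat_lit 187784706046) (nat_lit 152) (nat_lit 263124242454) (nat_lit 0) (nat_lit 60824629821) (nat_lit 23) (nat_lit 5) (nat_lit 25) (nat_lit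 4) (nat_lit 23) (nat_lit 4) (nat_lit 482) (nat_lit 431) (nat_lit 287)) (XT.lf (nat_lit 0) (nat_lit 12198665240) (nat_lit 76) (nat_lit 327820528209) (nat_lit 76) (nat_lit 200860307334) (nat_lit 22) (nat_lit 4) (nat_lit 23) (nat_lit 5) (nat_lit 23) (nat_lit 4) (nat_lit 483) (nat_lit 431) (nat_lit 286))))))))
noncomputable def xc167 : XT := (XT.nd (nat_lit 1950) (nat_lit 380) (nat_lit 0) (XT.nd (nat_lit 936) (nat_lit 532) (nat_lit 0) (XT.nd (nat_lit 468) (nat_lit 228) (nat_lit 0) (XT.nd (nat_lit 234) (nat_lit 228) (nat_lit 0) (XT.nd (nat_lit 78) (nat_lit 152) (nat_lit 0) (XT.lf (nat_lit 0) (nat_lit 324510831239) (nat_lit 76) (nat_lit 187115552553) (nat_lit 76) (nat_lit 60155197742) (nat_lit 22) (nat_lit 4) (nat_lit 23) (nat_lit 5) (nat_lit 23) (nat_lit 4) (nat_lit 484) (nat_lit 431) (nat_lit 285)) (XT.nd (nat_lit 78) (nat_lit 0) (nat_lit 0) (XT.lf (nat_lit 0) (nat_lit 57310448811) (nat_lit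 76) (nat_lit 31281343321) (nat_lit 152) (nat_lit 516277161443) (nat_lit 20) (nat_lit 5) (nat_lit 21) (nat_lit 5) (nat_lit 22) (nat_lit 4) (nat_lit 485) (nat_lit 431) (nat_lit 284)) (XT.lf (nat_lit 0) (nat_lit 256220027804) (nat_lit 152) (nat_lit 244775852817) (nat_lit 0) (nat_lit 138663922570) (nat_lit 20) (nat_lit 5) (nat_lit 22) (nat_lit 4) (nat_lit 20) (nat_lit 4) (nat_lit 486) (nat_lit 431) (nat_lit 283)))) (XT.nd (nat_lit 78) (nat_lit 152) (nat_lit 0) (XT.lf (nat_lit 0) (nat_lit 85703545008) (nat_lit 76) (nat_lit 354428354634) (nat_lit 76) (nat_lit 236872150953) (nat_lit 19) (nat_lit 4) (nat_lit 20) (nat_lit 5) (nat_lit 20) (nat_lit 4) (nat_lit 487) (nat_lit 431) (nat_lit 282)) (XT.nd (nat_lit 78) (nat_lit 152) (nat_lit 0) (XT.lf (nat_lit 0) (nat_lit 456541327269) (nat_lit 76) (nat_lit 188907710039) (nat_lit 76) (nat_lit 71351415204) (nat_lit 19) (nat_lit 4) (nat_lit 20) (nat_lit 5)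 (nat_lit 20) (nat_lit 4) (nat_lit 488) (nat_lit 431) (nat_lit 281)) (XT.lf (nat_lit 0) (nat_lit 99667545120) (nat_lit 76) (nat_lit 4767033897) (nat_lit 152) (nat_lit 654947590091) (nat_lit 17) (nat_lit 5) (nat_lit 18) (nat_lit 5) (nat_lit 19) (nat_lit 4) (nat_lit 489) (nat_lit 431) (nat_lit 280))))) (XT.nd (nat_lit 234) (nat_lit 152) (nat_lit 0) (XT.nd (nat_lit 78) (nat_lit 76) (nat_lit 0) (XT.lf (nat_lit 0) (nat_lit 302397351572) (nat_lit 152) (nat_lit 308318530586) (nat_lit 0) (nat_lit 193548779917) (nat_lit 17) (nat_lit 5) (nat_lit 19) (nat_lit 4) (nat_lit 17) (nat_lit 4) (nat_lit 490) (nat_lit 431) (nat_lit 279)) (XT.nd (nat_lit 78) (nat_lit 0) (nat_lit 0) (XT.lf (nat_lit 0) (nat_lit 74807066352) (nat_lit 76) (nat_lit 443312756324) (nat_lit 76) (nat_lit 334464117668) (nat_lit 16) (nat_lit 4) (nat_lit 17) (nat_lit 5) (nat_lit 17) (nat_lit 4) (nat_lit 491) (nat_lit 431) (nat_lit 278))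 (XT.lf (nat_lit 0) (nat_lit 506116554866) (nat_lit 76) (nat_lit 253413264247) (nat_lit 76) (nat_lit 144564563553) (nat_lit 16) (nat_lit 4) (nat_lit 17) (nat_lit 5) (nat_lit 17) (nat_lit 4) (nat_lit 492) (nat_lit 431) (nat_lit 277)))) (XT.nd (nat_lit 78) (nat_lit 0) (nat_lit 0) (XT.lf (nat_lit 0) (nat_lit 11315010795) (nat_lit 76) (nat_lit 46456031960) (nat_lit 152) (nat_lit 901816412341) (nat_lit 14) (nat_lit 5) (nat_lit 15) (nat_lit 5) (nat_lit 16) (nat_lit 4) (nat_lit 493) (nat_lit 431) (nat_lit 276)) (XT.nd (nat_lit 78) (nat_lit 0) (nat_lit 0) (XT.lf (nat_lit 0) (nat_lit 283905318851) (nat_lit 152) (nat_lit 550961113123) (nat_lit 0) (nat_lit 183119382440) (nat_lit 14) (nat_lit 5) (nat_lit 16) (nat_lit 4) (nat_lit 14) (nat_lit 4) (nat_lit 494) (nat_lit 431) (nat_lit 275)) (XT.lf (nat_lit 0) (nat_lit 529336770036) (nat_lit 152) (nat_lit 123071969780) (nat_lit 0) (nat_lit 428550788024)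 (nat_lit 14) (nat_lit 5) (nat_lit 16) (nat_lit 4) (nat_lit 14) (nat_lit 4) (nat_lit 495) (nat_lit 431) (nat_lit 274)))))) (XT.nd (nat_lit 468) (nat_lit 228) (nat_lit 0) (XT.nd (nat_lit 234) (nat_lit 76) (nat_lit 0) (XT.nd (nat_lit 78) (nat_lit 152) (nat_lit 0) (XT.lf (nat_lit 0) (nat_lit 356901555021) (nat_lit 76) (nat_lit 446084472181) (nat_lit 76) (nat_lit 345298447948) (nat_lit 13) (nat_lit 4) (nat_lit 14) (nat_lit 5) (nat_lit 14) (nat_lit 4) (nat_lit 496) (nat_lit 431) (nat_lit 273)) (XT.nd (nat_lit 78) (nat_lit 152) (nat_lit 0) (XT.lf (nat_lit 0) (nat_lit 882271772942) (nat_lit 76) (nat_lit 219620261920) (nat_lit 76) (nat_lit 118834198593) (nat_lit 13) (nat_lit 4) (nat_lit 14) (nat_lit 5) (nat_lit 14) (nat_lit 4) (nat_lit 497) (nat_lit 431) (nat_lit 272)) (XT.lf (nat_lit 0) (nat_lit 123971421698) (nat_lit 152) (nat_lit 1143737844538) (nat_lit 0) (nat_lit 30650959173) (nat_lit 11) (nat_lit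 5) (nat_lit 13) (nat_lit 4) (nat_lit 11) (nat_lit 4) (nat_lit 498) (nat_lit 431) (nat_lit 271)))) (XT.nd (nat_lit 78) (nat_lit 76) (nat_lit 0) (XT.lf (nat_lit 0) (nat_lit 394979901854) (nat_lit 152) (nat_lit 684102814882) (nat_lit 0) (nat_lit 301659408295) (nat_lit 11) (nat_lit 5) (nat_lit 13) (nat_lit 4) (nat_lit 11) (nat_lit 4) (nat_lit 499) (nat_lit 431) (nat_lit 270)) (XT.nd (nat_lit 78) (nat_lit 76) (nat_lit 0) (XT.lf (nat_lit 0) (nat_lit 687668888419) (nat_lit 152) (nat_lit 187697335840) (nat_lit 0) (nat_lit 594348366125) (nat_lit 11) (nat_lit 5) (nat_lit 13) (nat_lit 4) (nat_lit 11) (nat_lit 4) (nat_lit 500) (nat_lit 431) (nat_lit 269)) (XT.lf (nat_lit 0) (nat_lit 366767447843) (nat_lit 76) (nat_lit 645826152746) (nat_lit 76) (nat_lit 552505603844) (nat_lit 10) (nat_lit 4) (nat_lit 11) (nat_lit 5) (nat_lit 11) (nat_lit 4) (nat_lit 501) (nat_lit 431) (nat_lit 268))))) (XT.nd (nat_lit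 234) (nat_lit 76) (nat_lit 0) (XT.nd (nat_lit 78) (nat_lit 152) (nat_lit 0) (XT.lf (nat_lit 0) (nat_lit 976263609459) (nat_lit 76) (nat_lit 392380502936) (nat_lit 76) (nat_lit 299059929398) (nat_lit 10) (nat_lit 4) (nat_lit 11) (nat_lit 5) (nat_lit 11) (nat_lit 4) (nat_lit 502) (nat_lit 431) (nat_lit 267)) (XT.nd (nat_lit 78) (nat_lit 152) (nat_lit 0) (XT.lf (nat_lit 0) (nat_lit 1634519169038) (nat_lit 76) (nat_lit 118659352473) (nat_lit 76) (nat_lit 25338756124) (nat_lit 10) (nat_lit 4) (nat_lit 11) (nat_lit 5) (nat_lit 11) (nat_lit 4) (nat_lit 503) (nat_lit 431) (nat_lit 266)) (XT.lf (nat_lit 0) (nat_lit 272631951030) (nat_lit 152) (nat_lit 1437549842307) (nat_lit 0) (nat_lit 186223971890) (nat_lit 8) (nat_lit 5) (nat_lit 10) (nat_lit 4) (nat_lit 8) (nat_lit 4) (nat_lit 504) (nat_lit 431) (nat_lit 265)))) (XT.nd (nat_lit 156) (nat_lit 76) (nat_lit 0) (XT.nd (nat_lit 78) (nat_lit 0) (nat_lit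 0) (XT.lf (nat_lit 0) (nat_lit 600192716053) (nat_lit 152) (nat_lit 909125536825) (nat_lit 0) (nat_lit 513784718806) (nat_lit 8) (nat_lit 5) (nat_lit 10) (nat_lit 4) (nat_lit 8) (nat_lit 4) (nat_lit 505) (nat_lit 431) (nat_lit 264)) (XT.lf (nat_lit 0) (nat_lit 953958216086) (nat_lit 152) (nat_lit 338427546597) (nat_lit 0) (nat_lit 867550202071) (nat_lit 8) (nat_lit 5) (nat_lit 10) (nat_lit 4) (nat_lit 8) (nat_lit 4) (nat_lit 506) (nat_lit 431) (nat_lit 263))) (XT.nd (nat_lit 78) (nat_lit 0) (nat_lit 0) (XT.lf (nat_lit 0) (nat_lit 292561135257) (nat_lit 76) (nat_lit 1050499806356) (nat_lit 76) (nat_lit 964091776817) (nat_lit 7) (nat_lit 4) (nat_lit 8) (nat_lit 5) (nat_lit 8) (nat_lit 4) (nat_lit 507) (nat_lit 431) (nat_lit 262)) (XT.lf (nat_lit 0) (nat_lit 993275351739) (nat_lit 76) (nat_lit 779269628487) (nat_lit 76) (nat_lit 692861584572) (nat_lit 7) (nat_lit 4) (nat_lit 8) (nat_lit 5)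 (nat_lit 8) (nat_lit 4) (nat_lit 508) (nat_lit 431) (nat_lit 261))))))) (XT.nd (nat_lit 1014) (nat_lit 152) (nat_lit 0) (XT.nd (nat_lit 468) (nat_lit 76) (nat_lit 0) (XT.nd (nat_lit 234) (nat_lit 0) (nat_lit 0) (XT.nd (nat_lit 78) (nat_lit 152) (nat_lit 0) (XT.lf (nat_lit 0) (nat_lit 1750046488531) (nat_lit 76) (nat_lit 486341148001) (nat_lit 76) (nat_lit 399933090776) (nat_lit 7) (nat_lit 4) (nat_lit 8) (nat_lit 5) (nat_lit 8) (nat_lit 4) (nat_lit 509) (nat_lit 431) (nat_lit 260)) (XT.nd (nat_lit 78) (nat_lit 152) (nat_lit 0) (XT.lf (nat_lit 0) (nat_lit 2567359115333) (nat_lit 76) (nat_lit 169978492421) (nat_lit 76) (nat_lit 83570422872) (nat_lit 7) (nat_lit 4) (nat_lit 8) (nat_lit 5) (nat_lit 8) (nat_lit 4) (nat_lit 510) (nat_lit 431) (nat_lit 259)) (XT.lf (nat_lit 0) (nat_lit 260482604966) (nat_lit 152) (nat_lit 2577584593992) (nat_lit 0) (nat_lit 180475122595) (nat_lit 5) (nat_lit 5)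 (nat_lit 7) (nat_lit 4) (nat_lit 5) (nat_lit 4) (nat_lit 511) (nat_lit 431) (nat_lit 258)))) (XT.nd (nat_lit 78) (nat_lit 0) (nat_lit 0) (XT.lf (nat_lit 0) (nat_lit 639072375695) (nat_lit 152) (nat_lit 2032754245757) (nat_lit 0) (nat_lit 559064883541) (nat_lit 5) (nat_lit 5) (nat_lit 7) (nat_lit 4) (nat_lit 5) (nat_lit 4) (nat_lit 512) (nat_lit 431) (nat_lit 257)) (XT.nd (nat_lit 78) (nat_lit 0) (nat_lit 0) (XT.lf (nat_lit 0) (nat_lit 1047949242324) (nat_lit 152) (nat_lit 1444337646534) (nat_lit 0) (nat_lit 967941741112) (nat_lit 5) (nat_lit 5) (nat_lit 7) (nat_lit 4) (nat_lit 5) (nat_lit 4) (nat_lit 513) (nat_lit 431) (nat_lit 256)) (XT.lf (nat_lit 0) (nat_lit 1489536178878) (nat_lit 152) (nat_lit 808847883142) (nat_lit 0) (nat_lit 1409528669278) (nat_lit 5) (nat_lit 5) (nat_lit 7) (nat_lit 4) (nat_lit 5) (nat_lit 4) (nat_lit 514) (nat_lit 431) (nat_lit 255))))) (XT.nd (nat_lit 234) (nat_lit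 0) (nat_lit 0) (XT.nd (nat_lit 78) (nat_lit 76) (nat_lit 0) (XT.lf (nat_lit 0) (nat_lit 1966449996832) (nat_lit 152) (nat_lit 122519090318) (nat_lit 0) (nat_lit 1886442479465) (nat_lit 5) (nat_lit 5) (nat_lit 7) (nat_lit 4) (nat_lit 5) (nat_lit 4) (nat_lit 515) (nat_lit 431) (nat_lit 254)) (XT.nd (nat_lit 78) (nat_lit 0) (nat_lit 0) (XT.lf (nat_lit 0) (nat_lit 651296346546) (nat_lit 76) (nat_lit 1845884198395) (nat_lit 76) (nat_lit 1765876673838) (nat_lit 4) (nat_lit 4) (nat_lit 5) (nat_lit 5) (nat_lit 5) (nat_lit 4) (nat_lit 516) (nat_lit 431) (nat_lit 253)) (XT.lf (nat_lit 0) (nat_lit 1493984650737) (nat_lit 76) (nat_lit 1579734708889) (nat_lit 76) (nat_lit 1499727177673) (nat_lit 4) (nat_lit 4) (nat_lit 5) (nat_lit 5) (nat_lit 5) (nat_lit 4) (nat_lit 517) (nat_lit 431) (nat_lit 252)))) (XT.nd (nat_lit 156) (nat_lit 0) (nat_lit 0) (XT.nd (nat_lit 78) (nat_lit 0) (nat_lit 0) (XT.lf (nat_lit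 0) (nat_lit 2404087892549) (nat_lit 76) (nat_lit 1292293325523) (nat_lit 76) (nat_lit 1212285788142) (nat_lit 4) (nat_lit 4) (nat_lit 5) (nat_lit 5) (nat_lit 5) (nat_lit 4) (nat_lit 518) (nat_lit 431) (nat_lit 251)) (XT.lf (nat_lit 0) (nat_lit 3386999276378) (nat_lit 76) (nat_lit 981856691952) (nat_lit 76) (nat_lit 901849148862) (nat_lit 4) (nat_lit 4) (nat_lit 5) (nat_lit 5) (nat_lit 5) (nat_lit 4) (nat_lit 519) (nat_lit 431) (nat_lit 250))) (XT.nd (nat_lit 78) (nat_lit 0) (nat_lit 0) (XT.lf (nat_lit 0) (nat_lit 4448543462276) (nat_lit 76) (nat_lit 646585183680) (nat_lit 76) (nat_lit 566577635305) (nat_lit 4) (nat_lit 4) (nat_lit 5) (nat_lit 5) (nat_lit 5) (nat_lit 4) (nat_lit 520) (nat_lit 431) (nat_lit 249)) (XT.lf (nat_lit 0) (nat_lit 5595011082457) (nat_lit 76) (nat_lit 284492006584) (nat_lit 76) (nat_lit 204484453314) (nat_lit 4) (nat_lit 4) (nat_lit 5) (nat_lit 5) (nat_lit 5) (nat_lit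 4) (nat_lit 521) (nat_lit 431) (nat_lit 248)))))) (XT.nd (nat_lit 468) (nat_lit 0) (nat_lit 0) (XT.nd (nat_lit 234) (nat_lit 0) (nat_lit 0) (XT.nd (nat_lit 78) (nat_lit 0) (nat_lit 0) (XT.lf (nat_lit 0) (nat_lit 187419965771) (nat_lit 152) (nat_lit 6238119305588) (nat_lit 0) (nat_lit 113338893733) (nat_lit 2) (nat_lit 5) (nat_lit 4) (nat_lit 4) (nat_lit 2) (nat_lit 4) (nat_lit 522) (nat_lit 431) (nat_lit 247)) (XT.nd (nat_lit 78) (nat_lit 0) (nat_lit 0) (XT.lf (nat_lit 0) (nat_lit 620735365363) (nat_lit 152) (nat_lit 5860656992187) (nat_lit 0) (nat_lit 546654289440) (nat_lit 2) (nat_lit 5) (nat_lit 4) (nat_lit 4) (nat_lit 2) (nat_lit 4) (nat_lit 523) (nat_lit 431) (nat_lit 246)) (XT.lf (nat_lit 0) (nat_lit 1088715954072) (nat_lit 152) (nat_lit 5452997782243) (nat_lit 0) (nat_lit 1014634874552) (nat_lit 2) (nat_lit 5) (nat_lit 4) (nat_lit 4) (nat_lit 2) (nat_lit 4) (nat_lit 524) (nat_lit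 431) (nat_lit 245)))) (XT.nd (nat_lit 78) (nat_lit 0) (nat_lit 0) (XT.lf (nat_lit 0) (nat_lit 1594134950202) (nat_lit 152) (nat_lit 5012725917477) (nat_lit 0) (nat_lit 1520053867351) (nat_lit 2) (nat_lit 5) (nat_lit 4) (nat_lit 4) (nat_lit 2) (nat_lit 4) (nat_lit 525) (nat_lit 431) (nat_lit 244)) (XT.nd (nat_lit 78) (nat_lit 0) (nat_lit 0) (XT.lf (nat_lit 0) (nat_lit 2139987429285) (nat_lit 152) (nat_lit 4537232379430) (nat_lit 0) (nat_lit 2065906343349) (nat_lit 2) (nat_lit 5) (nat_lit 4) (nat_lit 4) (nat_lit 2) (nat_lit 4) (nat_lit 526) (nat_lit 431) (nat_lit 243)) (XT.lf (nat_lit 0) (nat_lit 2729508072678) (nat_lit 152) (nat_lit 4023699428618) (nat_lit 0) (nat_lit 2655426983887) (nat_lit 2) (nat_lit 5) (nat_lit 4) (nat_lit 4) (nat_lit 2) (nat_lit 4) (nat_lit 527) (nat_lit 431) (nat_lit 242))))) (XT.nd (nat_lit 234) (nat_lit 0) (nat_lit 0) (XT.nd (nat_lit 78) (nat_lit 0) (nat_lit 0) (XT.lf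 (nat_lit 0) (nat_lit 3366190336046) (nat_lit 152) (nat_lit 3469083906812) (nat_lit 0) (nat_lit 3292109244611) (nat_lit 2) (nat_lit 5) (nat_lit 4) (nat_lit 4) (nat_lit 2) (nat_lit 4) (nat_lit 528) (nat_lit 431) (nat_lit 241)) (XT.nd (nat_lit 78) (nat_lit 0) (nat_lit 0) (XT.lf (nat_lit 0) (nat_lit 4053807151321) (nat_lit 152) (nat_lit 2870099203515) (nat_lit 0) (nat_lit 3979726057437) (nat_lit 2) (nat_lit 5) (nat_lit 4) (nat_lit 4) (nat_lit 2) (nat_lit 4) (nat_lit 529) (nat_lit 431) (nat_lit 240)) (XT.lf (nat_lit 0) (nat_lit 4796433284814) (nat_lit 152) (nat_lit 2223195779743) (nat_lit 0) (nat_lit 4722352188664) (nat_lit 2) (nat_lit 5) (nat_lit 4) (nat_lit 4) (nat_lit 2) (nat_lit 4) (nat_lit 530) (nat_lit 431) (nat_lit 239)))) (XT.nd (nat_lit 54834) (nat_lit 0) (nat_lit 6004) (XT.nd (nat_lit 54756) (nat_lit 0) (nat_lit 6004) (XT.lf (nat_lit 0) (nat_lit 5598469483985) (nat_lit 152) (nat_lit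 1524540133726) (nat_lit 0) (nat_lit 5524388385735) (nat_lit 2) (nat_lit 5) (nat_lit 4) (nat_lit 4) (nat_lit 2) (nat_lit 4) (nat_lit 531) (nat_lit 431) (nat_lit 238)) (XT.lf (nat_lit 0) (nat_lit 22981522874) (nat_lit 532) (nat_lit 429935752) (nat_lit 532) (nat_lit 429935752) (nat_lit 81) (nat_lit 3) (nat_lit 88) (nat_lit 3) (nat_lit 88) (nat_lit 5) (nat_lit 432) (nat_lit 432) (nat_lit 336))) (XT.nd (nat_lit 78) (nat_lit 0) (nat_lit 0) (XT.lf (nat_lit 76) (nat_lit 23991118611) (nat_lit 0) (nat_lit 24414594066) (nat_lit 532) (nat_lit 1136048761) (nat_lit 82) (nat_lit 5) (nat_lit 81) (nat_lit 3) (nat_lit 88) (nat_lit 5) (nat_lit 433) (nat_lit 432) (nat_lit 335)) (XT.lf (nat_lit 76) (nat_lit 50877544701) (nat_lit 0) (nat_lit 187004396) (nat_lit 532) (nat_lit 483243071) (nat_lit 82) (nat_lit 5) (nat_lit 81) (nat_lit 3) (nat_lit 88) (nat_lit 5) (nat_lit 434) (nat_lit 432) (nat_lit 334))))))))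
noncomputable def xc168 : XT := (XT.nd (nat_lit 1950) (nat_lit 1748) (nat_lit 0) (XT.nd (nat_lit 936) (nat_lit 1292) (nat_lit 0) (XT.nd (nat_lit 468) (nat_lit 684) (nat_lit 0) (XT.nd (nat_lit 234) (nat_lit 304) (nat_lit 0) (XT.nd (nat_lit 78) (nat_lit 0) (nat_lit 0) (XT.lf (nat_lit 0) (nat_lit 1513384829) (nat_lit 532) (nat_lit 26730227431) (nat_lit 608) (nat_lit 25366051606) (nat_lit 75) (nat_lit 5) (nat_lit 82) (nat_lit 5) (nat_lit 83) (nat_lit 5) (nat_lit 435) (nat_lit 432) (nat_lit 333)) (XT.nd (nat_lit 78) (nat_lit 0) (nat_lit 76) (XT.lf (nat_lit 76) (nat_lit 859557994) (nat_lit 0) (nat_lit 2825971026) (nat_lit 608) (nat_lit 52146601217) (nat_lit 76) (nat_lit 5) (nat_lit 75) (nat_lit 5) (nat_lit 83) (nat_lit 5) (nat_lit 436) (nat_lit 432) (nat_lit 332)) (XT.lf (nat_lit 0) (nat_lit 7371229683) (nat_lit 532) (nat_lit 26610348081) (nat_lit 608) (nat_lit 24143633892) (nat_lit 76) (nat_lit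 5) (nat_lit 83) (nat_lit 5) (nat_lit 84) (nat_lit 5) (nat_lit 437) (nat_lit 432) (nat_lit 331)))) (XT.nd (nat_lit 78) (nat_lit 380) (nat_lit 0) (XT.lf (nat_lit 76) (nat_lit 4153462875) (nat_lit 0) (nat_lit 7369501605) (nat_lit 608) (nat_lit 49065081356) (nat_lit 77) (nat_lit 5) (nat_lit 76) (nat_lit 5) (nat_lit 84) (nat_lit 5) (nat_lit 438) (nat_lit 432) (nat_lit 330)) (XT.nd (nat_lit 78) (nat_lit 456) (nat_lit 0) (XT.lf (nat_lit 0) (nat_lit 17265303687) (nat_lit 532) (nat_lit 24832737025) (nat_lit 76) (nat_lit 21049189247) (nat_lit 77) (nat_lit 5) (nat_lit 84) (nat_lit 5) (nat_lit 78) (nat_lit 5) (nat_lit 439) (nat_lit 432) (nat_lit 329)) (XT.lf (nat_lit 0) (nat_lit 9583501239) (nat_lit 456) (nat_lit 14303582904) (nat_lit 532) (nat_lit 41990460763) (nat_lit 71) (nat_lit 5) (nat_lit 77) (nat_lit 5) (nat_lit 78) (nat_lit 5) (nat_lit 440) (nat_lit 432) (nat_lit 328))))) (XT.nd (nat_lit 234)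 (nat_lit 456) (nat_lit 0) (XT.nd (nat_lit 78) (nat_lit 228) (nat_lit 0) (XT.lf (nat_lit 0) (nat_lit 32111398103) (nat_lit 532) (nat_lit 21004079679) (nat_lit 76) (nat_lit 15624984374) (nat_lit 71) (nat_lit 5) (nat_lit 78) (nat_lit 5) (nat_lit 72) (nat_lit 5) (nat_lit 441) (nat_lit 432) (nat_lit 327)) (XT.nd (nat_lit 78) (nat_lit 0) (nat_lit 0) (XT.lf (nat_lit 0) (nat_lit 17617134110) (nat_lit 228) (nat_lit 24170118647) (nat_lit 304) (nat_lit 29981672746) (nat_lit 68) (nat_lit 5) (nat_lit 71) (nat_lit 5) (nat_lit 72) (nat_lit 5) (nat_lit 442) (nat_lit 432) (nat_lit 326)) (XT.lf (nat_lit 0) (nat_lit 52995375070) (nat_lit 304) (nat_lit 14658392689) (nat_lit 76) (nat_lit 7325242553) (nat_lit 68) (nat_lit 5) (nat_lit 72) (nat_lit 5) (nat_lit 69) (nat_lit 5) (nat_lit 443) (nat_lit 432) (nat_lit 325)))) (XT.nd (nat_lit 78) (nat_lit 228) (nat_lit 0) (XT.lf (nat_lit 0) (nat_lit 28806025447) (nat_lit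 228) (nat_lit 37613275167) (nat_lit 304) (nat_lit 11921069327) (nat_lit 65) (nat_lit 5) (nat_lit 68) (nat_lit 5) (nat_lit 69) (nat_lit 5) (nat_lit 444) (nat_lit 432) (nat_lit 324)) (XT.nd (nat_lit 78) (nat_lit 228) (nat_lit 0) (XT.lf (nat_lit 0) (nat_lit 76579623388) (nat_lit 228) (nat_lit 4736942832) (nat_lit 304) (nat_lit 622118328) (nat_lit 65) (nat_lit 5) (nat_lit 68) (nat_lit 5) (nat_lit 69) (nat_lit 5) (nat_lit 445) (nat_lit 432) (nat_lit 323)) (XT.lf (nat_lit 0) (nat_lit 12840106783) (nat_lit 228) (nat_lit 42206870652) (nat_lit 76) (nat_lit 30608511834) (nat_lit 62) (nat_lit 5) (nat_lit 65) (nat_lit 5) (nat_lit 63) (nat_lit 5) (nat_lit 446) (nat_lit 432) (nat_lit 322)))))) (XT.nd (nat_lit 468) (nat_lit 532) (nat_lit 0) (XT.nd (nat_lit 234) (nat_lit 380) (nat_lit 0) (XT.nd (nat_lit 78) (nat_lit 152) (nat_lit 0) (XT.lf (nat_lit 0) (nat_lit 7014027770) (nat_lit 228) (nat_lit 20772488431)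 (nat_lit 304) (nat_lit 61846564334) (nat_lit 59) (nat_lit 5) (nat_lit 62) (nat_lit 5) (nat_lit 63) (nat_lit 5) (nat_lit 447) (nat_lit 432) (nat_lit 321)) (XT.nd (nat_lit 78) (nat_lit 152) (nat_lit 0) (XT.lf (nat_lit 0) (nat_lit 45502095534) (nat_lit 304) (nat_lit 31685916155) (nat_lit 76) (nat_lit 16614991053) (nat_lit 59) (nat_lit 5) (nat_lit 63) (nat_lit 5) (nat_lit 60) (nat_lit 5) (nat_lit 448) (nat_lit 432) (nat_lit 320)) (XT.lf (nat_lit 0) (nat_lit 23980388904) (nat_lit 152) (nat_lit 41769699537) (nat_lit 228) (nat_lit 32467217102) (nat_lit 57) (nat_lit 5) (nat_lit 59) (nat_lit 5) (nat_lit 60) (nat_lit 5) (nat_lit 449) (nat_lit 432) (nat_lit 319)))) (XT.nd (nat_lit 78) (nat_lit 380) (nat_lit 0) (XT.lf (nat_lit 0) (nat_lit 85900509820) (nat_lit 152) (nat_lit 2582699248) (nat_lit 228) (nat_lit 14432320620) (nat_lit 57) (nat_lit 5) (nat_lit 59) (nat_lit 5) (nat_lit 60) (nat_lit 5) (nat_lit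 450) (nat_lit 432) (nat_lit 318)) (XT.nd (nat_lit 78) (nat_lit 152) (nat_lit 0) (XT.lf (nat_lit 0) (nat_lit 6910889591) (nat_lit 228) (nat_lit 61864106632) (nat_lit 76) (nat_lit 39035475461) (nat_lit 54) (nat_lit 5) (nat_lit 57) (nat_lit 5) (nat_lit 55) (nat_lit 5) (nat_lit 451) (nat_lit 432) (nat_lit 317)) (XT.lf (nat_lit 0) (nat_lit 1470593598) (nat_lit 152) (nat_lit 28290020833) (nat_lit 228) (nat_lit 83260103277) (nat_lit 52) (nat_lit 5) (nat_lit 54) (nat_lit 5) (nat_lit 55) (nat_lit 5) (nat_lit 452) (nat_lit 432) (nat_lit 316))))) (XT.nd (nat_lit 234) (nat_lit 380) (nat_lit 0) (XT.nd (nat_lit 78) (nat_lit 152) (nat_lit 0) (XT.lf (nat_lit 0) (nat_lit 56543956887) (nat_lit 228) (nat_lit 45538739756) (nat_lit 76) (nat_lit 16396635733) (nat_lit 52) (nat_lit 5) (nat_lit 55) (nat_lit 5) (nat_lit 53) (nat_lit 5) (nat_lit 453) (nat_lit 432) (nat_lit 315)) (XT.nd (nat_lit 78) (nat_lit 0) (nat_lit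 0) (XT.lf (nat_lit 0) (nat_lit 26334736277) (nat_lit 152) (nat_lit 60502506500) (nat_lit 228) (nat_lit 37428011483) (nat_lit 50) (nat_lit 5) (nat_lit 52) (nat_lit 5) (nat_lit 53) (nat_lit 5) (nat_lit 454) (nat_lit 432) (nat_lit 314)) (XT.lf (nat_lit 0) (nat_lit 106546570402) (nat_lit 152) (nat_lit 14251683052) (nat_lit 228) (nat_lit 9616255601) (nat_lit 50) (nat_lit 5) (nat_lit 52) (nat_lit 5) (nat_lit 53) (nat_lit 5) (nat_lit 455) (nat_lit 432) (nat_lit 313)))) (XT.nd (nat_lit 156) (nat_lit 76) (nat_lit 0) (XT.nd (nat_lit 78) (nat_lit 152) (nat_lit 0) (XT.lf (nat_lit 0) (nat_lit 21714296715) (nat_lit 152) (nat_lit 79255231209) (nat_lit 76) (nat_lit 35861657911) (nat_lit 48) (nat_lit 5) (nat_lit 50) (nat_lit 5) (nat_lit 49) (nat_lit 5) (nat_lit 456) (nat_lit 432) (nat_lit 312)) (XT.lf (nat_lit 0) (nat_lit 2679599275) (nat_lit 152) (nat_lit 53455538753) (nat_lit 228) (nat_lit 87517807200)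 (nat_lit 46) (nat_lit 5) (nat_lit 48) (nat_lit 5) (nat_lit 49) (nat_lit 5) (nat_lit 457) (nat_lit 432) (nat_lit 311))) (XT.nd (nat_lit 78) (nat_lit 76) (nat_lit 0) (XT.lf (nat_lit 0) (nat_lit 95480660339) (nat_lit 228) (nat_lit 55176687784) (nat_lit 76) (nat_lit 189416239) (nat_lit 46) (nat_lit 5) (nat_lit 49) (nat_lit 5) (nat_lit 47) (nat_lit 4) (nat_lit 458) (nat_lit 432) (nat_lit 310)) (XT.lf (nat_lit 0) (nat_lit 37994668421) (nat_lit 76) (nat_lit 102280668945) (nat_lit 152) (nat_lit 18156630703) (nat_lit 45) (nat_lit 5) (nat_lit 46) (nat_lit 5) (nat_lit 47) (nat_lit 4) (nat_lit 459) (nat_lit 432) (nat_lit 309))))))) (XT.nd (nat_lit 936) (nat_lit 836) (nat_lit 0) (XT.nd (nat_lit 468) (nat_lit 456) (nat_lit 0) (XT.nd (nat_lit 234) (nat_lit 152) (nat_lit 0) (XT.nd (nat_lit 78) (nat_lit 228) (nat_lit 0) (XT.lf (nat_lit 0) (nat_lit 22474695137) (nat_lit 152) (nat_lit 25315847750) (nat_lit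 76) (nat_lit 118667291900) (nat_lit 44) (nat_lit 5) (nat_lit 46) (nat_lit 5) (nat_lit 45) (nat_lit 5) (nat_lit 460) (nat_lit 432) (nat_lit 308)) (XT.nd (nat_lit 78) (nat_lit 76) (nat_lit 0) (XT.lf (nat_lit 0) (nat_lit 67651651307) (nat_lit 228) (nat_lit 94266821405) (nat_lit 76) (nat_lit 12987485815) (nat_lit 42) (nat_lit 5) (nat_lit 45) (nat_lit 5) (nat_lit 43) (nat_lit 4) (nat_lit 461) (nat_lit 432) (nat_lit 307)) (XT.lf (nat_lit 0) (nat_lit 11868989369) (nat_lit 76) (nat_lit 106810049558) (nat_lit 152) (nat_lit 65171991299) (nat_lit 41) (nat_lit 5) (nat_lit 42) (nat_lit 5) (nat_lit 43) (nat_lit 4) (nat_lit 462) (nat_lit 432) (nat_lit 306)))) (XT.nd (nat_lit 78) (nat_lit 152) (nat_lit 0) (XT.lf (nat_lit 0) (nat_lit 131855580061) (nat_lit 76) (nat_lit 44509834143) (nat_lit 152) (nat_lit 16940149779) (nat_lit 41) (nat_lit 5) (nat_lit 42) (nat_lit 5) (nat_lit 43) (nat_lit 4) (nat_lit 463)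 (nat_lit 432) (nat_lit 305)) (XT.nd (nat_lit 78) (nat_lit 0) (nat_lit 0) (XT.lf (nat_lit 0) (nat_lit 35443509268) (nat_lit 152) (nat_lit 143856641571) (nat_lit 76) (nat_lit 23984550317) (nat_lit 39) (nat_lit 5) (nat_lit 41) (nat_lit 5) (nat_lit 40) (nat_lit 4) (nat_lit 464) (nat_lit 432) (nat_lit 304)) (XT.lf (nat_lit 0) (nat_lit 93981957860) (nat_lit 152) (nat_lit 22097517810) (nat_lit 76) (nat_lit 97717148972) (nat_lit 39) (nat_lit 5) (nat_lit 41) (nat_lit 5) (nat_lit 40) (nat_lit 4) (nat_lit 465) (nat_lit 432) (nat_lit 303))))) (XT.nd (nat_lit 234) (nat_lit 228) (nat_lit 0) (XT.nd (nat_lit 78) (nat_lit 152) (nat_lit 0) (XT.lf (nat_lit 0) (nat_lit 115162217824) (nat_lit 76) (nat_lit 44810375628) (nat_lit 152) (nat_lit 64955379705) (nat_lit 38) (nat_lit 5) (nat_lit 39) (nat_lit 5) (nat_lit 40) (nat_lit 4) (nat_lit 466) (nat_lit 432) (nat_lit 302)) (XT.nd (nat_lit 78) (nat_lit 76) (nat_lit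 0) (XT.lf (nat_lit 0) (nat_lit 28387866410) (nat_lit 76) (nat_lit 204930138684) (nat_lit 76) (nat_lit 3465782478) (nat_lit 37) (nat_lit 4) (nat_lit 38) (nat_lit 5) (nat_lit 38) (nat_lit 4) (nat_lit 467) (nat_lit 432) (nat_lit 301)) (XT.lf (nat_lit 0) (nat_lit 64036834479) (nat_lit 152) (nat_lit 68268364755) (nat_lit 76) (nat_lit 116822364328) (nat_lit 36) (nat_lit 5) (nat_lit 38) (nat_lit 5) (nat_lit 37) (nat_lit 4) (nat_lit 468) (nat_lit 432) (nat_lit 300)))) (XT.nd (nat_lit 78) (nat_lit 152) (nat_lit 0) (XT.lf (nat_lit 0) (nat_lit 87347940823) (nat_lit 76) (nat_lit 51504703081) (nat_lit 152) (nat_lit 123430978101) (nat_lit 35) (nat_lit 5) (nat_lit 36) (nat_lit 5) (nat_lit 37) (nat_lit 4) (nat_lit 469) (nat_lit 432) (nat_lit 299)) (XT.nd (nat_lit 78) (nat_lit 152) (nat_lit 0) (XT.lf (nat_lit 0) (nat_lit 222428313306) (nat_lit 152) (nat_lit 17956250278) (nat_lit 0) (nat_lit 35885633947)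 (nat_lit 35) (nat_lit 5) (nat_lit 37) (nat_lit 4) (nat_lit 35) (nat_lit 4) (nat_lit 470) (nat_lit 432) (nat_lit 298)) (XT.lf (nat_lit 0) (nat_lit 25522586637) (nat_lit 152) (nat_lit 133456158007) (nat_lit 76) (nat_lit 131933987337) (nat_lit 33) (nat_lit 5) (nat_lit 35) (nat_lit 5) (nat_lit 34) (nat_lit 4) (nat_lit 471) (nat_lit 432) (nat_lit 297)))))) (XT.nd (nat_lit 468) (nat_lit 456) (nat_lit 0) (XT.nd (nat_lit 234) (nat_lit 228) (nat_lit 0) (XT.nd (nat_lit 78) (nat_lit 76) (nat_lit 0) (XT.lf (nat_lit 0) (nat_lit 41921173916) (nat_lit 76) (nat_lit 67917641946) (nat_lit 152) (nat_lit 196655057231) (nat_lit 32) (nat_lit 5) (nat_lit 33) (nat_lit 5) (nat_lit 34) (nat_lit 4) (nat_lit 472) (nat_lit 432) (nat_lit 296)) (XT.nd (nat_lit 78) (nat_lit 76) (nat_lit 0) (XT.lf (nat_lit 0) (nat_lit 205375402329) (nat_lit 152) (nat_lit 84938581770) (nat_lit 0) (nat_lit 32649516705) (nat_lit 32) (nat_lit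 5) (nat_lit 34) (nat_lit 4) (nat_lit 32) (nat_lit 4) (nat_lit 473) (nat_lit 432) (nat_lit 295)) (XT.lf (nat_lit 0) (nat_lit 112951661691) (nat_lit 76) (nat_lit 200083423208) (nat_lit 76) (nat_lit 27357200312) (nat_lit 31) (nat_lit 4) (nat_lit 32) (nat_lit 5) (nat_lit 32) (nat_lit 4) (nat_lit 474) (nat_lit 432) (nat_lit 294)))) (XT.nd (nat_lit 78) (nat_lit 152) (nat_lit 0) (XT.lf (nat_lit 0) (nat_lit 68968153928) (nat_lit 152) (nat_lit 29272775014) (nat_lit 76) (nat_lit 260649003703) (nat_lit 30) (nat_lit 5) (nat_lit 32) (nat_lit 5) (nat_lit 31) (nat_lit 4) (nat_lit 475) (nat_lit 432) (nat_lit 293)) (XT.nd (nat_lit 78) (nat_lit 76) (nat_lit 0) (XT.lf (nat_lit 0) (nat_lit 176602350528) (nat_lit 152) (nat_lit 185131624388) (nat_lit 0) (nat_lit 16670105767) (nat_lit 29) (nat_lit 5) (nat_lit 31) (nat_lit 4) (nat_lit 29) (nat_lit 4) (nat_lit 476) (nat_lit 432) (nat_lit 292)) (XT.lf (nat_lit 0)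 (nat_lit 35050877397) (nat_lit 76) (nat_lit 262011869367) (nat_lit 76) (nat_lit 102079376701) (nat_lit 28) (nat_lit 4) (nat_lit 29) (nat_lit 5) (nat_lit 29) (nat_lit 4) (nat_lit 477) (nat_lit 432) (nat_lit 291))))) (XT.nd (nat_lit 234) (nat_lit 304) (nat_lit 0) (XT.nd (nat_lit 78) (nat_lit 76) (nat_lit 0) (XT.lf (nat_lit 0) (nat_lit 10532513948) (nat_lit 152) (nat_lit 138025093195) (nat_lit 76) (nat_lit 272555354388) (nat_lit 27) (nat_lit 5) (nat_lit 29) (nat_lit 5) (nat_lit 28) (nat_lit 4) (nat_lit 478) (nat_lit 432) (nat_lit 290)) (XT.nd (nat_lit 78) (nat_lit 0) (nat_lit 0) (XT.lf (nat_lit 0) (nat_lit 108923012577) (nat_lit 76) (nat_lit 20334654405) (nat_lit 152) (nat_lit 315162146769) (nat_lit 26) (nat_lit 5) (nat_lit 27) (nat_lit 5) (nat_lit 28) (nat_lit 4) (nat_lit 479) (nat_lit 432) (nat_lit 289)) (XT.lf (nat_lit 0) (nat_lit 264193771834) (nat_lit 152) (nat_lit 88752868233) (nat_lit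 0) (nat_lit 116107538924) (nat_lit 26) (nat_lit 5) (nat_lit 28) (nat_lit 4) (nat_lit 26) (nat_lit 4) (nat_lit 480) (nat_lit 432) (nat_lit 288)))) (XT.nd (nat_lit 156) (nat_lit 152) (nat_lit 0) (XT.nd (nat_lit 78) (nat_lit 76) (nat_lit 0) (XT.lf (nat_lit 0) (nat_lit 186532890062) (nat_lit 76) (nat_lit 228405843764) (nat_lit 76) (nat_lit 80319442135) (nat_lit 25) (nat_lit 4) (nat_lit 26) (nat_lit 5) (nat_lit 26) (nat_lit 4) (nat_lit 481) (nat_lit 432) (nat_lit 287)) (XT.lf (nat_lit 0) (nat_lit 53963623875) (nat_lit 152) (nat_lit 35842220191) (nat_lit 76) (nat_lit 433449247615) (nat_lit 24) (nat_lit 5) (nat_lit 26) (nat_lit 5) (nat_lit 25) (nat_lit 4) (nat_lit 482) (nat_lit 432) (nat_lit 286))) (XT.nd (nat_lit 78) (nat_lit 76) (nat_lit 0) (XT.lf (nat_lit 0) (nat_lit 202813778470) (nat_lit 152) (nat_lit 284161520963) (nat_lit 0) (nat_lit 65696461338) (nat_lit 23) (nat_lit 5) (nat_lit 25) (nat_lit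 4) (nat_lit 23) (nat_lit 4) (nat_lit 483) (nat_lit 432) (nat_lit 285)) (XT.lf (nat_lit 0) (nat_lit 13186898818) (nat_lit 76) (nat_lit 354039956468) (nat_lit 76) (nat_lit 216922515322) (nat_lit 22) (nat_lit 4) (nat_lit 23) (nat_lit 5) (nat_lit 23) (nat_lit 4) (nat_lit 484) (nat_lit 432) (nat_lit 284))))))))
noncomputable def xc169 : XT := (XT.nd (nat_lit 1950) (nat_lit 380) (nat_lit 0) (XT.nd (nat_lit 936) (nat_lit 532) (nat_lit 0) (XT.nd (nat_lit 468) (nat_lit 228) (nat_lit 0) (XT.nd (nat_lit 234) (nat_lit 228) (nat_lit 0) (XT.nd (nat_lit 78) (nat_lit 152) (nat_lit 0) (XT.lf (nat_lit 0) (nat_lit 350483123996) (nat_lit 76) (nat_lit 202079043055) (nat_lit 76) (nat_lit 64961487082) (nat_lit 22) (nat_lit 4) (nat_lit 23) (nat_lit 5) (nat_lit 23) (nat_lit 4) (nat_lit 485) (nat_lit 432) (nat_lit 283)) (XT.nd (nat_lit 78) (nat_lit 0) (nat_lit 0) (XT.lf (nat_lit 0) (nat_lit 61906720522) (nat_lit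 76) (nat_lit 33778078909) (nat_lit 152) (nat_lit 557573217213) (nat_lit 20) (nat_lit 5) (nat_lit 21) (nat_lit 5) (nat_lit 22) (nat_lit 4) (nat_lit 486) (nat_lit 432) (nat_lit 282)) (XT.lf (nat_lit 0) (nat_lit 276723002938) (nat_lit 152) (nat_lit 264347041218) (nat_lit 0) (nat_lit 149762113362) (nat_lit 20) (nat_lit 5) (nat_lit 22) (nat_lit 4) (nat_lit 20) (nat_lit 4) (nat_lit 487) (nat_lit 432) (nat_lit 281)))) (XT.nd (nat_lit 78) (nat_lit 152) (nat_lit 0) (XT.lf (nat_lit 0) (nat_lit 92570432994) (nat_lit 76) (nat_lit 382777248572) (nat_lit 76) (nat_lit 255816274593) (nat_lit 19) (nat_lit 4) (nat_lit 20) (nat_lit 5) (nat_lit 20) (nat_lit 4) (nat_lit 488) (nat_lit 432) (nat_lit 280)) (XT.nd (nat_lit 78) (nat_lit 152) (nat_lit 0) (XT.lf (nat_lit 0) (nat_lit 493074452326) (nat_lit 76) (nat_lit 204015350515) (nat_lit 76) (nat_lit 77054298386) (nat_lit 19) (nat_lit 4) (nat_lit 20) (nat_lit 5)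 (nat_lit 20) (nat_lit 4) (nat_lit 489) (nat_lit 432) (nat_lit 279)) (XT.lf (nat_lit 0) (nat_lit 107650774103) (nat_lit 76) (nat_lit 5143407912) (nat_lit 152) (nat_lit 707338173617) (nat_lit 17) (nat_lit 5) (nat_lit 18) (nat_lit 5) (nat_lit 19) (nat_lit 4) (nat_lit 490) (nat_lit 432) (nat_lit 278))))) (XT.nd (nat_lit 234) (nat_lit 152) (nat_lit 0) (XT.nd (nat_lit 78) (nat_lit 76) (nat_lit 0) (XT.lf (nat_lit 0) (nat_lit 326593729193) (nat_lit 152) (nat_lit 332974668218) (nat_lit 0) (nat_lit 209037070406) (nat_lit 17) (nat_lit 5) (nat_lit 19) (nat_lit 4) (nat_lit 17) (nat_lit 4) (nat_lit 491) (nat_lit 432) (nat_lit 277)) (XT.nd (nat_lit 78) (nat_lit 0) (nat_lit 0) (XT.lf (nat_lit 0) (nat_lit 80800739897) (nat_lit 76) (nat_lit 478773137179) (nat_lit 76) (nat_lit 361216420949) (nat_lit 16) (nat_lit 4) (nat_lit 17) (nat_lit 5) (nat_lit 17) (nat_lit 4) (nat_lit 492) (nat_lit 432) (nat_lit 276))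 (XT.lf (nat_lit 0) (nat_lit 546614312808) (nat_lit 76) (nat_lit 273682029414) (nat_lit 76) (nat_lit 156125259996) (nat_lit 16) (nat_lit 4) (nat_lit 17) (nat_lit 5) (nat_lit 17) (nat_lit 4) (nat_lit 493) (nat_lit 432) (nat_lit 275)))) (XT.nd (nat_lit 78) (nat_lit 0) (nat_lit 0) (XT.lf (nat_lit 0) (nat_lit 12228649634) (nat_lit 76) (nat_lit 50168210125) (nat_lit 152) (nat_lit 973957261011) (nat_lit 14) (nat_lit 5) (nat_lit 15) (nat_lit 5) (nat_lit 16) (nat_lit 4) (nat_lit 494) (nat_lit 432) (nat_lit 274)) (XT.nd (nat_lit 78) (nat_lit 0) (nat_lit 0) (XT.lf (nat_lit 0) (nat_lit 306621667604) (nat_lit 152) (nat_lit 595029978849) (nat_lit 0) (nat_lit 197772719210) (nat_lit 14) (nat_lit 5) (nat_lit 16) (nat_lit 4) (nat_lit 14) (nat_lit 4) (nat_lit 495) (nat_lit 432) (nat_lit 273)) (XT.lf (nat_lit 0) (nat_lit 571687344272) (nat_lit 152) (nat_lit 132910298359) (nat_lit 0) (nat_lit 462838356784)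 (nat_lit 14) (nat_lit 5) (nat_lit 16) (nat_lit 4) (nat_lit 14) (nat_lit 4) (nat_lit 496) (nat_lit 432) (nat_lit 272)))))) (XT.nd (nat_lit 468) (nat_lit 228) (nat_lit 0) (XT.nd (nat_lit 234) (nat_lit 76) (nat_lit 0) (XT.nd (nat_lit 78) (nat_lit 152) (nat_lit 0) (XT.lf (nat_lit 0) (nat_lit 385460920350) (nat_lit 76) (nat_lit 481767526723) (nat_lit 76) (nat_lit 372918503036) (nat_lit 13) (nat_lit 4) (nat_lit 14) (nat_lit 5) (nat_lit 14) (nat_lit 4) (nat_lit 497) (nat_lit 432) (nat_lit 271)) (XT.nd (nat_lit 78) (nat_lit 152) (nat_lit 0) (XT.lf (nat_lit 0) (nat_lit 952860219340) (nat_lit 76) (nat_lit 237186453955) (nat_lit 76) (nat_lit 128337396751) (nat_lit 13) (nat_lit 4) (nat_lit 14) (nat_lit 5) (nat_lit 14) (nat_lit 4) (nat_lit 498) (nat_lit 432) (nat_lit 270)) (XT.lf (nat_lit 0) (nat_lit 133892491151) (nat_lit 152) (nat_lit 1235229985465) (nat_lit 0) (nat_lit 33106298338) (nat_lit 11) (nat_lit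 5) (nat_lit 13) (nat_lit 4) (nat_lit 11) (nat_lit 4) (nat_lit 499) (nat_lit 432) (nat_lit 269)))) (XT.nd (nat_lit 78) (nat_lit 76) (nat_lit 0) (XT.lf (nat_lit 0) (nat_lit 426581401149) (nat_lit 152) (nat_lit 738824663558) (nat_lit 0) (nat_lit 325795181728) (nat_lit 11) (nat_lit 5) (nat_lit 13) (nat_lit 4) (nat_lit 11) (nat_lit 4) (nat_lit 500) (nat_lit 432) (nat_lit 268)) (XT.nd (nat_lit 78) (nat_lit 76) (nat_lit 0) (XT.lf (nat_lit 0) (nat_lit 742685276480) (nat_lit 152) (nat_lit 202707218527) (nat_lit 0) (nat_lit 641899032423) (nat_lit 11) (nat_lit 5) (nat_lit 13) (nat_lit 4) (nat_lit 11) (nat_lit 4) (nat_lit 501) (nat_lit 432) (nat_lit 267)) (XT.lf (nat_lit 0) (nat_lit 396114598378) (nat_lit 76) (nat_lit 697489292536) (nat_lit 76) (nat_lit 596703025668) (nat_lit 10) (nat_lit 4) (nat_lit 11) (nat_lit 5) (nat_lit 11) (nat_lit 4) (nat_lit 502) (nat_lit 432) (nat_lit 266))))) (XT.nd (nat_lit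 234) (nat_lit 76) (nat_lit 0) (XT.nd (nat_lit 78) (nat_lit 152) (nat_lit 0) (XT.lf (nat_lit 0) (nat_lit 1054370026649) (nat_lit 76) (nat_lit 423768209440) (nat_lit 76) (nat_lit 322981921450) (nat_lit 10) (nat_lit 4) (nat_lit 11) (nat_lit 5) (nat_lit 11) (nat_lit 4) (nat_lit 503) (nat_lit 432) (nat_lit 265)) (XT.nd (nat_lit 78) (nat_lit 152) (nat_lit 0) (XT.lf (nat_lit 0) (nat_lit 1765285636295) (nat_lit 76) (nat_lit 128149569439) (nat_lit 76) (nat_lit 27363261892) (nat_lit 10) (nat_lit 4) (nat_lit 11) (nat_lit 5) (nat_lit 11) (nat_lit 4) (nat_lit 504) (nat_lit 432) (nat_lit 264)) (XT.lf (nat_lit 0) (nat_lit 294444969095) (nat_lit 152) (nat_lit 1552548763182) (nat_lit 0) (nat_lit 201124297192) (nat_lit 8) (nat_lit 5) (nat_lit 10) (nat_lit 4) (nat_lit 8) (nat_lit 4) (nat_lit 505) (nat_lit 432) (nat_lit 263)))) (XT.nd (nat_lit 156) (nat_lit 76) (nat_lit 0) (XT.nd (nat_lit 78) (nat_lit 0) (nat_lit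 0) (XT.lf (nat_lit 0) (nat_lit 648210412952) (nat_lit 152) (nat_lit 981850888558) (nat_lit 0) (nat_lit 554889725524) (nat_lit 8) (nat_lit 5) (nat_lit 10) (nat_lit 4) (nat_lit 8) (nat_lit 4) (nat_lit 506) (nat_lit 432) (nat_lit 262)) (XT.lf (nat_lit 0) (nat_lit 1030276984126) (nat_lit 152) (nat_lit 365497406609) (nat_lit 0) (nat_lit 936956282324) (nat_lit 8) (nat_lit 5) (nat_lit 10) (nat_lit 4) (nat_lit 8) (nat_lit 4) (nat_lit 507) (nat_lit 432) (nat_lit 261))) (XT.nd (nat_lit 78) (nat_lit 0) (nat_lit 0) (XT.lf (nat_lit 0) (nat_lit 315970259826) (nat_lit 76) (nat_lit 1134537613340) (nat_lit 76) (nat_lit 1041216898227) (nat_lit 7) (nat_lit 4) (nat_lit 8) (nat_lit 5) (nat_lit 8) (nat_lit 4) (nat_lit 508) (nat_lit 432) (nat_lit 260)) (XT.lf (nat_lit 0) (nat_lit 1072741300016) (nat_lit 76) (nat_lit 841609182539) (nat_lit 76) (nat_lit 748288455102) (nat_lit 7) (nat_lit 4) (nat_lit 8) (nat_lit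 5) (nat_lit 8) (nat_lit 4) (nat_lit 509) (nat_lit 432) (nat_lit 259))))))) (XT.nd (nat_lit 936) (nat_lit 152) (nat_lit 0) (XT.nd (nat_lit 468) (nat_lit 76) (nat_lit 0) (XT.nd (nat_lit 234) (nat_lit 0) (nat_lit 0) (XT.nd (nat_lit 78) (nat_lit 152) (nat_lit 0) (XT.lf (nat_lit 0) (nat_lit 1890053837371) (nat_lit 76) (nat_lit 525246572964) (nat_lit 76) (nat_lit 431925834116) (nat_lit 7) (nat_lit 4) (nat_lit 8) (nat_lit 5) (nat_lit 8) (nat_lit 4) (nat_lit 510) (nat_lit 432) (nat_lit 258)) (XT.nd (nat_lit 78) (nat_lit 152) (nat_lit 0) (XT.lf (nat_lit 0) (nat_lit 2772751205446) (nat_lit 76) (nat_lit 183575043226) (nat_lit 76) (nat_lit 90254293811) (nat_lit 7) (nat_lit 4) (nat_lit 8) (nat_lit 5) (nat_lit 8) (nat_lit 4) (nat_lit 511) (nat_lit 432) (nat_lit 257)) (XT.lf (nat_lit 0) (nat_lit 281322886478) (nat_lit 152) (nat_lit 2783787910830) (nat_lit 0) (nat_lit 194914776110) (nat_lit 5) (nat_lit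 5) (nat_lit 7) (nat_lit 4) (nat_lit 5) (nat_lit 4) (nat_lit 512) (nat_lit 432) (nat_lit 256)))) (XT.nd (nat_lit 78) (nat_lit 0) (nat_lit 0) (XT.lf (nat_lit 0) (nat_lit 690199714932) (nat_lit 152) (nat_lit 2195371390342) (nat_lit 0) (nat_lit 603791596176) (nat_lit 5) (nat_lit 5) (nat_lit 7) (nat_lit 4) (nat_lit 5) (nat_lit 4) (nat_lit 513) (nat_lit 432) (nat_lit 255)) (XT.nd (nat_lit 78) (nat_lit 0) (nat_lit 0) (XT.lf (nat_lit 0) (nat_lit 1131786616137) (nat_lit 152) (nat_lit 1559881699854) (nat_lit 0) (nat_lit 1045378489615) (nat_lit 5) (nat_lit 5) (nat_lit 7) (nat_lit 4) (nat_lit 5) (nat_lit 4) (nat_lit 514) (nat_lit 432) (nat_lit 254)) (XT.lf (nat_lit 0) (nat_lit 1608700401361) (nat_lit 152) (nat_lit 873552974532) (nat_lit 0) (nat_lit 1522292267648) (nat_lit 5) (nat_lit 5) (nat_lit 7) (nat_lit 4) (nat_lit 5) (nat_lit 4) (nat_lit 515) (nat_lit 432) (nat_lit 253))))) (XT.nd (nat_lit 234)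 (nat_lit 0) (nat_lit 0) (XT.nd (nat_lit 78) (nat_lit 76) (nat_lit 0) (XT.lf (nat_lit 0) (nat_lit 2123767226368) (nat_lit 152) (nat_lit 132318081190) (nat_lit 0) (nat_lit 2037359085996) (nat_lit 5) (nat_lit 5) (nat_lit 7) (nat_lit 4) (nat_lit 5) (nat_lit 4) (nat_lit 516) (nat_lit 432) (nat_lit 252)) (XT.nd (nat_lit 78) (nat_lit 0) (nat_lit 0) (XT.lf (nat_lit 0) (nat_lit 703402526412) (nat_lit 76) (nat_lit 1993553660274) (nat_lit 76) (nat_lit 1907145513737) (nat_lit 4) (nat_lit 4) (nat_lit 5) (nat_lit 5) (nat_lit 5) (nat_lit 4) (nat_lit 517) (nat_lit 432) (nat_lit 251)) (XT.lf (nat_lit 0) (nat_lit 1613505711816) (nat_lit 76) (nat_lit 1706112305977) (nat_lit 76) (nat_lit 1619704153732) (nat_lit 4) (nat_lit 4) (nat_lit 5) (nat_lit 5) (nat_lit 5) (nat_lit 4) (nat_lit 518) (nat_lit 432) (nat_lit 250)))) (XT.nd (nat_lit 78) (nat_lit 0) (nat_lit 0) (XT.lf (nat_lit 0) (nat_lit 2596417043416) (nat_lit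 76) (nat_lit 1395675699322) (nat_lit 76) (nat_lit 1309267541791) (nat_lit 4) (nat_lit 4) (nat_lit 5) (nat_lit 5) (nat_lit 5) (nat_lit 4) (nat_lit 519) (nat_lit 432) (nat_lit 249)) (XT.nd (nat_lit 78) (nat_lit 0) (nat_lit 0) (XT.lf (nat_lit 0) (nat_lit 3657961180954) (nat_lit 76) (nat_lit 1060404215972) (nat_lit 76) (nat_lit 973996053546) (nat_lit 4) (nat_lit 4) (nat_lit 5) (nat_lit 5) (nat_lit 5) (nat_lit 4) (nat_lit 520) (nat_lit 432) (nat_lit 248)) (XT.lf (nat_lit 0) (nat_lit 4804428756357) (nat_lit 76) (nat_lit 698311061951) (nat_lit 76) (nat_lit 611902894995) (nat_lit 4) (nat_lit 4) (nat_lit 5) (nat_lit 5) (nat_lit 5) (nat_lit 4) (nat_lit 521) (nat_lit 432) (nat_lit 247)))))) (XT.nd (nat_lit 468) (nat_lit 0) (nat_lit 0) (XT.nd (nat_lit 234) (nat_lit 0) (nat_lit 0) (XT.nd (nat_lit 78) (nat_lit 152) (nat_lit 0) (XT.lf (nat_lit 0) (nat_lit 6042613651552) (nat_lit 76) (nat_lit 307250500052)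 (nat_lit 76) (nat_lit 220842328900) (nat_lit 4) (nat_lit 4) (nat_lit 5) (nat_lit 5) (nat_lit 5) (nat_lit 4) (nat_lit 522) (nat_lit 432) (nat_lit 246)) (XT.nd (nat_lit 78) (nat_lit 0) (nat_lit 0) (XT.lf (nat_lit 0) (nat_lit 202414399027) (nat_lit 152) (nat_lit 6737167122843) (nat_lit 0) (nat_lit 122406829548) (nat_lit 2) (nat_lit 5) (nat_lit 4) (nat_lit 4) (nat_lit 2) (nat_lit 4) (nat_lit 523) (nat_lit 432) (nat_lit 245)) (XT.lf (nat_lit 0) (nat_lit 670394968661) (nat_lit 152) (nat_lit 6329507952309) (nat_lit 0) (nat_lit 590387395851) (nat_lit 2) (nat_lit 5) (nat_lit 4) (nat_lit 4) (nat_lit 2) (nat_lit 4) (nat_lit 524) (nat_lit 432) (nat_lit 244)))) (XT.nd (nat_lit 78) (nat_lit 0) (nat_lit 0) (XT.lf (nat_lit 0) (nat_lit 1175813947128) (nat_lit 152) (nat_lit 5889236124034) (nat_lit 0) (nat_lit 1095806371234) (nat_lit 2) (nat_lit 5) (nat_lit 4) (nat_lit 4) (nat_lit 2) (nat_lit 4) (nat_lit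 525) (nat_lit 432) (nat_lit 243)) (XT.nd (nat_lit 78) (nat_lit 0) (nat_lit 0) (XT.lf (nat_lit 0) (nat_lit 1721666409857) (nat_lit 152) (nat_lit 5413742619774) (nat_lit 0) (nat_lit 1641658831107) (nat_lit 2) (nat_lit 5) (nat_lit 4) (nat_lit 4) (nat_lit 2) (nat_lit 4) (nat_lit 526) (nat_lit 432) (nat_lit 242)) (XT.lf (nat_lit 0) (nat_lit 2311187038108) (nat_lit 152) (nat_lit 4900209700247) (nat_lit 0) (nat_lit 2231179456714) (nat_lit 2) (nat_lit 5) (nat_lit 4) (nat_lit 4) (nat_lit 2) (nat_lit 4) (nat_lit 527) (nat_lit 432) (nat_lit 241))))) (XT.nd (nat_lit 234) (nat_lit 0) (nat_lit 0) (XT.nd (nat_lit 78) (nat_lit 0) (nat_lit 0) (XT.lf (nat_lit 0) (nat_lit 2947869287455) (nat_lit 152) (nat_lit 4345594207409) (nat_lit 0) (nat_lit 2867861703613) (nat_lit 2) (nat_lit 5) (nat_lit 4) (nat_lit 4) (nat_lit 2) (nat_lit 4) (nat_lit 528) (nat_lit 432) (nat_lit 240)) (XT.nd (nat_lit 78) (nat_lit 0) (nat_lit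 0) (XT.lf (nat_lit 0) (nat_lit 3635486089748) (nat_lit 152) (nat_lit 3746609530933) (nat_lit 0) (nat_lit 3555478503638) (nat_lit 2) (nat_lit 5) (nat_lit 4) (nat_lit 4) (nat_lit 2) (nat_lit 4) (nat_lit 529) (nat_lit 432) (nat_lit 239)) (XT.lf (nat_lit 0) (nat_lit 4378112211221) (nat_lit 152) (nat_lit 3099706131996) (nat_lit 0) (nat_lit 4298104623012) (nat_lit 2) (nat_lit 5) (nat_lit 4) (nat_lit 4) (nat_lit 2) (nat_lit 4) (nat_lit 530) (nat_lit 432) (nat_lit 238)))) (XT.nd (nat_lit 54912) (nat_lit 0) (nat_lit 6004) (XT.nd (nat_lit 54834) (nat_lit 0) (nat_lit 6004) (XT.lf (nat_lit 0) (nat_lit 5180148399261) (nat_lit 152) (nat_lit 2401050508974) (nat_lit 0) (nat_lit 5100140809109) (nat_lit 2) (nat_lit 5) (nat_lit 4) (nat_lit 4) (nat_lit 2) (nat_lit 4) (nat_lit 531) (nat_lit 432) (nat_lit 237)) (XT.lf (nat_lit 0) (nat_lit 24846549670) (nat_lit 532) (nat_lit 450014387) (nat_lit 532) (nat_lit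 450014387) (nat_lit 81) (nat_lit 3) (nat_lit 88) (nat_lit 3) (nat_lit 88) (nat_lit 5) (nat_lit 433) (nat_lit 433) (nat_lit 334))) (XT.nd (nat_lit 78) (nat_lit 0) (nat_lit 0) (XT.lf (nat_lit 76) (nat_lit 25938315677) (nat_lit 0) (nat_lit 26389608461) (nat_lit 532) (nat_lit 1173184735) (nat_lit 82) (nat_lit 5) (nat_lit 81) (nat_lit 3) (nat_lit 88) (nat_lit 5) (nat_lit 434) (nat_lit 433) (nat_lit 333)) (XT.lf (nat_lit 76) (nat_lit 54973588627) (nat_lit 0) (nat_lit 222193331) (nat_lit 532) (nat_lit 472135918) (nat_lit 82) (nat_lit 5) (nat_lit 81) (nat_lit 3) (nat_lit 88) (nat_lit 5) (nat_lit 435) (nat_lit 433) (nat_lit 332))))))))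
noncomputable def xc170 : XT := (XT.nd (nat_lit 1950) (nat_lit 1748) (nat_lit 0) (XT.nd (nat_lit 936) (nat_lit 1292) (nat_lit 0) (XT.nd (nat_lit 468) (nat_lit 684) (nat_lit 0) (XT.nd (nat_lit 234) (nat_lit 304) (nat_lit 0) (XT.nd (nat_lit 78) (nat_lit 0) (nat_lit 0) (XT.lf (nat_lit 0) (nat_lit 1678490611) (nat_lit 532) (nat_lit 28837052004) (nat_lit 608) (nat_lit 27379361144) (nat_lit 75) (nat_lit 5) (nat_lit 82) (nat_lit 5) (nat_lit 83) (nat_lit 5) (nat_lit 436) (nat_lit 433) (nat_lit 331)) (XT.nd (nat_lit 78) (nat_lit 0) (nat_lit 76) (XT.lf (nat_lit 76) (nat_lit 959116417) (nat_lit 0) (nat_lit 3062768659) (nat_lit 608) (nat_lit 56273484834) (nat_lit 76) (nat_lit 5) (nat_lit 75) (nat_lit 5) (nat_lit 83) (nat_lit 5) (nat_lit 437) (nat_lit 433) (nat_lit 330)) (XT.lf (nat_lit 0) (nat_lit 7999127984) (nat_lit 532) (nat_lit 28707340424) (nat_lit 608) (nat_lit 26065695255) (nat_lit 76) (nat_lit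 5) (nat_lit 83) (nat_lit 5) (nat_lit 84) (nat_lit 5) (nat_lit 438) (nat_lit 433) (nat_lit 329)))) (XT.nd (nat_lit 78) (nat_lit 380) (nat_lit 0) (XT.lf (nat_lit 76) (nat_lit 4516769447) (nat_lit 0) (nat_lit 7964148755) (nat_lit 608) (nat_lit 52951273706) (nat_lit 77) (nat_lit 5) (nat_lit 76) (nat_lit 5) (nat_lit 84) (nat_lit 5) (nat_lit 439) (nat_lit 433) (nat_lit 328)) (XT.nd (nat_lit 78) (nat_lit 456) (nat_lit 0) (XT.lf (nat_lit 0) (nat_lit 18679855964) (nat_lit 532) (nat_lit 26787828690) (nat_lit 76) (nat_lit 22728649805) (nat_lit 77) (nat_lit 5) (nat_lit 84) (nat_lit 5) (nat_lit 78) (nat_lit 5) (nat_lit 440) (nat_lit 433) (nat_lit 327)) (XT.lf (nat_lit 0) (nat_lit 10380910475) (nat_lit 456) (nat_lit 15448738679) (nat_lit 532) (nat_lit 45315564392) (nat_lit 71) (nat_lit 5) (nat_lit 77) (nat_lit 5) (nat_lit 78) (nat_lit 5) (nat_lit 441) (nat_lit 433) (nat_lit 326))))) (XT.nd (nat_lit 234)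 (nat_lit 456) (nat_lit 0) (XT.nd (nat_lit 78) (nat_lit 228) (nat_lit 0) (XT.lf (nat_lit 0) (nat_lit 34709548262) (nat_lit 532) (nat_lit 22653586616) (nat_lit 76) (nat_lit 16874218620) (nat_lit 71) (nat_lit 5) (nat_lit 78) (nat_lit 5) (nat_lit 72) (nat_lit 5) (nat_lit 442) (nat_lit 433) (nat_lit 325)) (XT.nd (nat_lit 78) (nat_lit 0) (nat_lit 0) (XT.lf (nat_lit 0) (nat_lit 19056544037) (nat_lit 228) (nat_lit 26101483894) (nat_lit 304) (nat_lit 32350181937) (nat_lit 68) (nat_lit 5) (nat_lit 71) (nat_lit 5) (nat_lit 72) (nat_lit 5) (nat_lit 443) (nat_lit 433) (nat_lit 324)) (XT.lf (nat_lit 0) (nat_lit 57260791120) (nat_lit 304) (nat_lit 15801235494) (nat_lit 76) (nat_lit 7913236012) (nat_lit 68) (nat_lit 5) (nat_lit 72) (nat_lit 5) (nat_lit 69) (nat_lit 5) (nat_lit 444) (nat_lit 433) (nat_lit 323)))) (XT.nd (nat_lit 78) (nat_lit 228) (nat_lit 0) (XT.lf (nat_lit 0) (nat_lit 31139580939) (nat_lit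 228) (nat_lit 40617838909) (nat_lit 304) (nat_lit 12848208462) (nat_lit 65) (nat_lit 5) (nat_lit 68) (nat_lit 5) (nat_lit 69) (nat_lit 5) (nat_lit 445) (nat_lit 433) (nat_lit 322)) (XT.nd (nat_lit 78) (nat_lit 228) (nat_lit 0) (XT.lf (nat_lit 0) (nat_lit 82732913126) (nat_lit 228) (nat_lit 5111733192) (nat_lit 304) (nat_lit 647307784) (nat_lit 65) (nat_lit 5) (nat_lit 68) (nat_lit 5) (nat_lit 69) (nat_lit 5) (nat_lit 446) (nat_lit 433) (nat_lit 321)) (XT.lf (nat_lit 0) (nat_lit 13889720153) (nat_lit 228) (nat_lit 45554316650) (nat_lit 76) (nat_lit 33062095085) (nat_lit 62) (nat_lit 5) (nat_lit 65) (nat_lit 5) (nat_lit 63) (nat_lit 5) (nat_lit 447) (nat_lit 433) (nat_lit 320)))))) (XT.nd (nat_lit 468) (nat_lit 532) (nat_lit 0) (XT.nd (nat_lit 234) (nat_lit 380) (nat_lit 0) (XT.nd (nat_lit 78) (nat_lit 152) (nat_lit 0) (XT.lf (nat_lit 0) (nat_lit 7603516845) (nat_lit 228) (nat_lit 22427348086)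 (nat_lit 304) (nat_lit 66771144021) (nat_lit 59) (nat_lit 5) (nat_lit 62) (nat_lit 5) (nat_lit 63) (nat_lit 5) (nat_lit 448) (nat_lit 433) (nat_lit 319)) (XT.nd (nat_lit 78) (nat_lit 152) (nat_lit 0) (XT.lf (nat_lit 0) (nat_lit 49162257924) (nat_lit 304) (nat_lit 34193087609) (nat_lit 76) (nat_lit 17950294302) (nat_lit 59) (nat_lit 5) (nat_lit 63) (nat_lit 5) (nat_lit 60) (nat_lit 5) (nat_lit 449) (nat_lit 433) (nat_lit 318)) (XT.lf (nat_lit 0) (nat_lit 25925820543) (nat_lit 152) (nat_lit 45103437992) (nat_lit 228) (nat_lit 35043895126) (nat_lit 57) (nat_lit 5) (nat_lit 59) (nat_lit 5) (nat_lit 60) (nat_lit 5) (nat_lit 450) (nat_lit 433) (nat_lit 317)))) (XT.nd (nat_lit 78) (nat_lit 380) (nat_lit 0) (XT.lf (nat_lit 0) (nat_lit 92797551093) (nat_lit 152) (nat_lit 2782058236) (nat_lit 228) (nat_lit 15567740210) (nat_lit 57) (nat_lit 5) (nat_lit 59) (nat_lit 5) (nat_lit 60) (nat_lit 5) (nat_lit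 451) (nat_lit 433) (nat_lit 316)) (XT.nd (nat_lit 78) (nat_lit 152) (nat_lit 0) (XT.lf (nat_lit 0) (nat_lit 7481416441) (nat_lit 228) (nat_lit 66786718876) (nat_lit 76) (nat_lit 42165759041) (nat_lit 54) (nat_lit 5) (nat_lit 57) (nat_lit 5) (nat_lit 55) (nat_lit 5) (nat_lit 452) (nat_lit 433) (nat_lit 315)) (XT.lf (nat_lit 0) (nat_lit 1614086074) (nat_lit 152) (nat_lit 30544346938) (nat_lit 228) (nat_lit 89902582144) (nat_lit 52) (nat_lit 5) (nat_lit 54) (nat_lit 5) (nat_lit 55) (nat_lit 5) (nat_lit 453) (nat_lit 433) (nat_lit 314))))) (XT.nd (nat_lit 234) (nat_lit 380) (nat_lit 0) (XT.nd (nat_lit 78) (nat_lit 152) (nat_lit 0) (XT.lf (nat_lit 0) (nat_lit 61083383516) (nat_lit 228) (nat_lit 49156846808) (nat_lit 76) (nat_lit 17716173601) (nat_lit 52) (nat_lit 5) (nat_lit 55) (nat_lit 5) (nat_lit 53) (nat_lit 5) (nat_lit 454) (nat_lit 433) (nat_lit 313)) (XT.nd (nat_lit 78) (nat_lit 0) (nat_lit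 0) (XT.lf (nat_lit 0) (nat_lit 28465874596) (nat_lit 152) (nat_lit 65333665002) (nat_lit 228) (nat_lit 40405707542) (nat_lit 50) (nat_lit 5) (nat_lit 52) (nat_lit 5) (nat_lit 53) (nat_lit 5) (nat_lit 455) (nat_lit 433) (nat_lit 312)) (XT.lf (nat_lit 0) (nat_lit 115092851050) (nat_lit 152) (nat_lit 15383445457) (nat_lit 228) (nat_lit 10370236734) (nat_lit 50) (nat_lit 5) (nat_lit 52) (nat_lit 5) (nat_lit 53) (nat_lit 5) (nat_lit 456) (nat_lit 433) (nat_lit 311)))) (XT.nd (nat_lit 156) (nat_lit 76) (nat_lit 0) (XT.nd (nat_lit 78) (nat_lit 152) (nat_lit 0) (XT.lf (nat_lit 0) (nat_lit 23465671654) (nat_lit 152) (nat_lit 85572003160) (nat_lit 76) (nat_lit 38738865748) (nat_lit 48) (nat_lit 5) (nat_lit 50) (nat_lit 5) (nat_lit 49) (nat_lit 5) (nat_lit 457) (nat_lit 433) (nat_lit 310)) (XT.lf (nat_lit 0) (nat_lit 2917015116) (nat_lit 152) (nat_lit 57722665296) (nat_lit 228) (nat_lit 94504400406)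 (nat_lit 46) (nat_lit 5) (nat_lit 48) (nat_lit 5) (nat_lit 49) (nat_lit 5) (nat_lit 458) (nat_lit 433) (nat_lit 309))) (XT.nd (nat_lit 78) (nat_lit 76) (nat_lit 0) (XT.lf (nat_lit 0) (nat_lit 103132034837) (nat_lit 228) (nat_lit 59568671081) (nat_lit 76) (nat_lit 212764450) (nat_lit 46) (nat_lit 5) (nat_lit 49) (nat_lit 5) (nat_lit 47) (nat_lit 4) (nat_lit 459) (nat_lit 433) (nat_lit 308)) (XT.lf (nat_lit 0) (nat_lit 41055832817) (nat_lit 76) (nat_lit 110454015311) (nat_lit 152) (nat_lit 19595677381) (nat_lit 45) (nat_lit 5) (nat_lit 46) (nat_lit 5) (nat_lit 47) (nat_lit 4) (nat_lit 460) (nat_lit 433) (nat_lit 307))))))) (XT.nd (nat_lit 936) (nat_lit 836) (nat_lit 0) (XT.nd (nat_lit 468) (nat_lit 456) (nat_lit 0) (XT.nd (nat_lit 234) (nat_lit 152) (nat_lit 0) (XT.nd (nat_lit 78) (nat_lit 228) (nat_lit 0) (XT.lf (nat_lit 0) (nat_lit 24284531179) (nat_lit 152) (nat_lit 27320498307) (nat_lit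 76) (nat_lit 128168482131) (nat_lit 44) (nat_lit 5) (nat_lit 46) (nat_lit 5) (nat_lit 45) (nat_lit 5) (nat_lit 461) (nat_lit 433) (nat_lit 306)) (XT.nd (nat_lit 78) (nat_lit 76) (nat_lit 0) (XT.lf (nat_lit 0) (nat_lit 73075456140) (nat_lit 228) (nat_lit 101787361117) (nat_lit 76) (nat_lit 14034683099) (nat_lit 42) (nat_lit 5) (nat_lit 45) (nat_lit 5) (nat_lit 43) (nat_lit 4) (nat_lit 462) (nat_lit 433) (nat_lit 305)) (XT.lf (nat_lit 0) (nat_lit 12838787785) (nat_lit 76) (nat_lit 115345870054) (nat_lit 152) (nat_lit 70373550183) (nat_lit 41) (nat_lit 5) (nat_lit 42) (nat_lit 5) (nat_lit 43) (nat_lit 4) (nat_lit 463) (nat_lit 433) (nat_lit 304)))) (XT.nd (nat_lit 78) (nat_lit 152) (nat_lit 0) (XT.lf (nat_lit 0) (nat_lit 142422803565) (nat_lit 76) (nat_lit 48062302848) (nat_lit 152) (nat_lit 18284065076) (nat_lit 41) (nat_lit 5) (nat_lit 42) (nat_lit 5) (nat_lit 43) (nat_lit 4) (nat_lit 464)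 (nat_lit 433) (nat_lit 303)) (XT.nd (nat_lit 78) (nat_lit 0) (nat_lit 0) (XT.lf (nat_lit 0) (nat_lit 38289583622) (nat_lit 152) (nat_lit 155345691142) (nat_lit 76) (nat_lit 25911354235) (nat_lit 39) (nat_lit 5) (nat_lit 41) (nat_lit 5) (nat_lit 40) (nat_lit 4) (nat_lit 465) (nat_lit 433) (nat_lit 302)) (XT.lf (nat_lit 0) (nat_lit 101510323389) (nat_lit 152) (nat_lit 23847280574) (nat_lit 76) (nat_lit 105541965235) (nat_lit 39) (nat_lit 5) (nat_lit 41) (nat_lit 5) (nat_lit 40) (nat_lit 4) (nat_lit 466) (nat_lit 433) (nat_lit 301))))) (XT.nd (nat_lit 234) (nat_lit 228) (nat_lit 0) (XT.nd (nat_lit 78) (nat_lit 152) (nat_lit 0) (XT.lf (nat_lit 0) (nat_lit 124392777236) (nat_lit 76) (nat_lit 48387128854) (nat_lit 152) (nat_lit 70141543853) (nat_lit 38) (nat_lit 5) (nat_lit 39) (nat_lit 5) (nat_lit 40) (nat_lit 4) (nat_lit 467) (nat_lit 433) (nat_lit 300)) (XT.nd (nat_lit 78) (nat_lit 76) (nat_lit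 0) (XT.lf (nat_lit 0) (nat_lit 30676585064) (nat_lit 76) (nat_lit 221316266802) (nat_lit 76) (nat_lit 3732885598) (nat_lit 37) (nat_lit 4) (nat_lit 38) (nat_lit 5) (nat_lit 38) (nat_lit 4) (nat_lit 468) (nat_lit 433) (nat_lit 299)) (XT.lf (nat_lit 0) (nat_lit 69168717589) (nat_lit 152) (nat_lit 73712983826) (nat_lit 76) (nat_lit 126175351807) (nat_lit 36) (nat_lit 5) (nat_lit 38) (nat_lit 5) (nat_lit 37) (nat_lit 4) (nat_lit 469) (nat_lit 433) (nat_lit 298)))) (XT.nd (nat_lit 78) (nat_lit 152) (nat_lit 0) (XT.lf (nat_lit 0) (nat_lit 94352199613) (nat_lit 76) (nat_lit 55617325189) (nat_lit 152) (nat_lit 133296092933) (nat_lit 35) (nat_lit 5) (nat_lit 36) (nat_lit 5) (nat_lit 37) (nat_lit 4) (nat_lit 470) (nat_lit 433) (nat_lit 297)) (XT.nd (nat_lit 78) (nat_lit 152) (nat_lit 0) (XT.lf (nat_lit 0) (nat_lit 240230778253) (nat_lit 152) (nat_lit 19377073386) (nat_lit 0) (nat_lit 38763305261)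 (nat_lit 35) (nat_lit 5) (nat_lit 37) (nat_lit 4) (nat_lit 35) (nat_lit 4) (nat_lit 471) (nat_lit 433) (nat_lit 296)) (XT.lf (nat_lit 0) (nat_lit 27572560680) (nat_lit 152) (nat_lit 144116940171) (nat_lit 76) (nat_lit 142495595940) (nat_lit 33) (nat_lit 5) (nat_lit 35) (nat_lit 5) (nat_lit 34) (nat_lit 4) (nat_lit 472) (nat_lit 433) (nat_lit 295)))))) (XT.nd (nat_lit 468) (nat_lit 456) (nat_lit 0) (XT.nd (nat_lit 234) (nat_lit 228) (nat_lit 0) (XT.nd (nat_lit 78) (nat_lit 76) (nat_lit 0) (XT.lf (nat_lit 0) (nat_lit 45290180573) (nat_lit 76) (nat_lit 73343670971) (nat_lit 152) (nat_lit 212378896612) (nat_lit 32) (nat_lit 5) (nat_lit 33) (nat_lit 5) (nat_lit 34) (nat_lit 4) (nat_lit 473) (nat_lit 433) (nat_lit 294)) (XT.nd (nat_lit 78) (nat_lit 76) (nat_lit 0) (XT.lf (nat_lit 0) (nat_lit 221812941883) (nat_lit 152) (nat_lit 91719066474) (nat_lit 0) (nat_lit 35267971594) (nat_lit 32) (nat_lit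 5) (nat_lit 34) (nat_lit 4) (nat_lit 32) (nat_lit 4) (nat_lit 474) (nat_lit 433) (nat_lit 293)) (XT.lf (nat_lit 0) (nat_lit 122002026796) (nat_lit 76) (nat_lit 216083158446) (nat_lit 76) (nat_lit 29537899000) (nat_lit 31) (nat_lit 4) (nat_lit 32) (nat_lit 5) (nat_lit 32) (nat_lit 4) (nat_lit 475) (nat_lit 433) (nat_lit 292)))) (XT.nd (nat_lit 78) (nat_lit 152) (nat_lit 0) (XT.lf (nat_lit 0) (nat_lit 74492535206) (nat_lit 152) (nat_lit 31601053954) (nat_lit 76) (nat_lit 281506983520) (nat_lit 30) (nat_lit 5) (nat_lit 32) (nat_lit 5) (nat_lit 31) (nat_lit 4) (nat_lit 476) (nat_lit 433) (nat_lit 291)) (XT.nd (nat_lit 78) (nat_lit 76) (nat_lit 0) (XT.lf (nat_lit 0) (nat_lit 190737427275) (nat_lit 152) (nat_lit 199928570778) (nat_lit 0) (nat_lit 18009857748) (nat_lit 29) (nat_lit 5) (nat_lit 31) (nat_lit 4) (nat_lit 29) (nat_lit 4) (nat_lit 477) (nat_lit 433) (nat_lit 290)) (XT.lf (nat_lit 0)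 (nat_lit 37868187262) (nat_lit 76) (nat_lit 282966276088) (nat_lit 76) (nat_lit 110238494023) (nat_lit 28) (nat_lit 4) (nat_lit 29) (nat_lit 5) (nat_lit 29) (nat_lit 4) (nat_lit 478) (nat_lit 433) (nat_lit 289))))) (XT.nd (nat_lit 234) (nat_lit 304) (nat_lit 0) (XT.nd (nat_lit 78) (nat_lit 76) (nat_lit 0) (XT.lf (nat_lit 0) (nat_lit 11381477100) (nat_lit 152) (nat_lit 149054506490) (nat_lit 76) (nat_lit 294365505709) (nat_lit 27) (nat_lit 5) (nat_lit 29) (nat_lit 5) (nat_lit 28) (nat_lit 4) (nat_lit 479) (nat_lit 433) (nat_lit 288)) (XT.nd (nat_lit 78) (nat_lit 0) (nat_lit 0) (XT.lf (nat_lit 0) (nat_lit 117649128904) (nat_lit 76) (nat_lit 21955337433) (nat_lit 152) (nat_lit 340368437458) (nat_lit 26) (nat_lit 5) (nat_lit 27) (nat_lit 5) (nat_lit 28) (nat_lit 4) (nat_lit 480) (nat_lit 433) (nat_lit 287)) (XT.lf (nat_lit 0) (nat_lit 285335136955) (nat_lit 152) (nat_lit 95841408870) (nat_lit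 0) (nat_lit 125401498253) (nat_lit 26) (nat_lit 5) (nat_lit 28) (nat_lit 4) (nat_lit 26) (nat_lit 4) (nat_lit 481) (nat_lit 433) (nat_lit 286)))) (XT.nd (nat_lit 156) (nat_lit 152) (nat_lit 0) (XT.nd (nat_lit 78) (nat_lit 76) (nat_lit 0) (XT.lf (nat_lit 0) (nat_lit 201466914170) (nat_lit 76) (nat_lit 246672621413) (nat_lit 76) (nat_lit 86738838060) (nat_lit 25) (nat_lit 4) (nat_lit 26) (nat_lit 5) (nat_lit 26) (nat_lit 4) (nat_lit 482) (nat_lit 433) (nat_lit 285)) (XT.lf (nat_lit 0) (nat_lit 58286131678) (nat_lit 152) (nat_lit 38698763395) (nat_lit 76) (nat_lit 468130170380) (nat_lit 24) (nat_lit 5) (nat_lit 26) (nat_lit 5) (nat_lit 25) (nat_lit 4) (nat_lit 483) (nat_lit 433) (nat_lit 284))) (XT.nd (nat_lit 78) (nat_lit 76) (nat_lit 0) (XT.lf (nat_lit 0) (nat_lit 219044278501) (nat_lit 152) (nat_lit 306883587970) (nat_lit 0) (nat_lit 70957203222) (nat_lit 23) (nat_lit 5) (nat_lit 25) (nat_lit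 4) (nat_lit 23) (nat_lit 4) (nat_lit 484) (nat_lit 433) (nat_lit 283)) (XT.lf (nat_lit 0) (nat_lit 14252430592) (nat_lit 76) (nat_lit 382357825483) (nat_lit 76) (nat_lit 234270643881) (nat_lit 22) (nat_lit 4) (nat_lit 23) (nat_lit 5) (nat_lit 23) (nat_lit 4) (nat_lit 485) (nat_lit 433) (nat_lit 282))))))))
noncomputable def xc171 : XT := (XT.nd (nat_lit 1950) (nat_lit 380) (nat_lit 0) (XT.nd (nat_lit 936) (nat_lit 532) (nat_lit 0) (XT.nd (nat_lit 468) (nat_lit 228) (nat_lit 0) (XT.nd (nat_lit 234) (nat_lit 228) (nat_lit 0) (XT.nd (nat_lit 78) (nat_lit 152) (nat_lit 0) (XT.lf (nat_lit 0) (nat_lit 378531570090) (nat_lit 76) (nat_lit 218240433628) (nat_lit 76) (nat_lit 70153153579) (nat_lit 22) (nat_lit 4) (nat_lit 23) (nat_lit 5) (nat_lit 23) (nat_lit 4) (nat_lit 486) (nat_lit 433) (nat_lit 281)) (XT.nd (nat_lit 78) (nat_lit 0) (nat_lit 0) (XT.lf (nat_lit 0) (nat_lit 66869062525) (nat_lit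 76) (nat_lit 36475376767) (nat_lit 152) (nat_lit 602173830124) (nat_lit 20) (nat_lit 5) (nat_lit 21) (nat_lit 5) (nat_lit 22) (nat_lit 4) (nat_lit 487) (nat_lit 433) (nat_lit 280)) (XT.lf (nat_lit 0) (nat_lit 298865449577) (nat_lit 152) (nat_lit 285485476820) (nat_lit 0) (nat_lit 161747435128) (nat_lit 20) (nat_lit 5) (nat_lit 22) (nat_lit 4) (nat_lit 20) (nat_lit 4) (nat_lit 488) (nat_lit 433) (nat_lit 279)))) (XT.nd (nat_lit 78) (nat_lit 152) (nat_lit 0) (XT.lf (nat_lit 0) (nat_lit 99985159185) (nat_lit 76) (nat_lit 413394820747) (nat_lit 76) (nat_lit 276276733937) (nat_lit 19) (nat_lit 4) (nat_lit 20) (nat_lit 5) (nat_lit 20) (nat_lit 4) (nat_lit 489) (nat_lit 433) (nat_lit 278)) (XT.nd (nat_lit 78) (nat_lit 152) (nat_lit 0) (XT.lf (nat_lit 0) (nat_lit 532528826615) (nat_lit 76) (nat_lit 220332312157) (nat_lit 76) (nat_lit 83214158346) (nat_lit 19) (nat_lit 4) (nat_lit 20) (nat_lit 5)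 (nat_lit 20) (nat_lit 4) (nat_lit 490) (nat_lit 433) (nat_lit 277)) (XT.lf (nat_lit 0) (nat_lit 116271259706) (nat_lit 76) (nat_lit 5550603541) (nat_lit 152) (nat_lit 763920749043) (nat_lit 17) (nat_lit 5) (nat_lit 18) (nat_lit 5) (nat_lit 19) (nat_lit 4) (nat_lit 491) (nat_lit 433) (nat_lit 276))))) (XT.nd (nat_lit 234) (nat_lit 152) (nat_lit 0) (XT.nd (nat_lit 78) (nat_lit 76) (nat_lit 0) (XT.lf (nat_lit 0) (nat_lit 352725162281) (nat_lit 152) (nat_lit 359604630003) (nat_lit 0) (nat_lit 225763798122) (nat_lit 17) (nat_lit 5) (nat_lit 19) (nat_lit 4) (nat_lit 17) (nat_lit 4) (nat_lit 492) (nat_lit 433) (nat_lit 275)) (XT.nd (nat_lit 78) (nat_lit 0) (nat_lit 0) (XT.lf (nat_lit 0) (nat_lit 87272607934) (nat_lit 76) (nat_lit 517071010400) (nat_lit 76) (nat_lit 390109596993) (nat_lit 16) (nat_lit 4) (nat_lit 17) (nat_lit 5) (nat_lit 17) (nat_lit 4) (nat_lit 493) (nat_lit 433) (nat_lit 274))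 (XT.lf (nat_lit 0) (nat_lit 590350688245) (nat_lit 76) (nat_lit 295572908662) (nat_lit 76) (nat_lit 168611449656) (nat_lit 16) (nat_lit 4) (nat_lit 17) (nat_lit 5) (nat_lit 17) (nat_lit 4) (nat_lit 494) (nat_lit 433) (nat_lit 273)))) (XT.nd (nat_lit 78) (nat_lit 0) (nat_lit 0) (XT.lf (nat_lit 0) (nat_lit 13214175809) (nat_lit 76) (nat_lit 54177976612) (nat_lit 152) (nat_lit 1051870014459) (nat_lit 14) (nat_lit 5) (nat_lit 15) (nat_lit 5) (nat_lit 16) (nat_lit 4) (nat_lit 495) (nat_lit 433) (nat_lit 272)) (XT.nd (nat_lit 78) (nat_lit 0) (nat_lit 0) (XT.lf (nat_lit 0) (nat_lit 331154764562) (nat_lit 152) (nat_lit 642625498451) (nat_lit 0) (nat_lit 213597782782) (nat_lit 14) (nat_lit 5) (nat_lit 16) (nat_lit 4) (nat_lit 14) (nat_lit 4) (nat_lit 496) (nat_lit 433) (nat_lit 271)) (XT.lf (nat_lit 0) (nat_lit 617425446212) (nat_lit 152) (nat_lit 143536753055) (nat_lit 0) (nat_lit 499868430914)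 (nat_lit 14) (nat_lit 5) (nat_lit 16) (nat_lit 4) (nat_lit 14) (nat_lit 4) (nat_lit 497) (nat_lit 433) (nat_lit 270)))))) (XT.nd (nat_lit 468) (nat_lit 228) (nat_lit 0) (XT.nd (nat_lit 234) (nat_lit 76) (nat_lit 0) (XT.nd (nat_lit 78) (nat_lit 152) (nat_lit 0) (XT.lf (nat_lit 0) (nat_lit 416304001906) (nat_lit 76) (nat_lit 520305753936) (nat_lit 76) (nat_lit 402748707604) (nat_lit 13) (nat_lit 4) (nat_lit 14) (nat_lit 5) (nat_lit 14) (nat_lit 4) (nat_lit 498) (nat_lit 433) (nat_lit 269)) (XT.nd (nat_lit 78) (nat_lit 152) (nat_lit 0) (XT.lf (nat_lit 0) (nat_lit 1029094784969) (nat_lit 76) (nat_lit 256158430526) (nat_lit 76) (nat_lit 138601355458) (nat_lit 13) (nat_lit 4) (nat_lit 14) (nat_lit 5) (nat_lit 14) (nat_lit 4) (nat_lit 499) (nat_lit 433) (nat_lit 268)) (XT.lf (nat_lit 0) (nat_lit 144606767431) (nat_lit 152) (nat_lit 1334042480122) (nat_lit 0) (nat_lit 35757599213) (nat_lit 11)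 (nat_lit 5) (nat_lit 13) (nat_lit 4) (nat_lit 11) (nat_lit 4) (nat_lit 500) (nat_lit 433) (nat_lit 267)))) (XT.nd (nat_lit 78) (nat_lit 76) (nat_lit 0) (XT.lf (nat_lit 0) (nat_lit 460710577118) (nat_lit 152) (nat_lit 797925169809) (nat_lit 0) (nat_lit 351861386089) (nat_lit 11) (nat_lit 5) (nat_lit 13) (nat_lit 4) (nat_lit 11) (nat_lit 4) (nat_lit 501) (nat_lit 433) (nat_lit 266)) (XT.nd (nat_lit 78) (nat_lit 76) (nat_lit 0) (XT.lf (nat_lit 0) (nat_lit 802102565152) (nat_lit 152) (nat_lit 218918734126) (nat_lit 0) (nat_lit 693253353001) (nat_lit 11) (nat_lit 5) (nat_lit 13) (nat_lit 4) (nat_lit 11) (nat_lit 4) (nat_lit 502) (nat_lit 433) (nat_lit 265)) (XT.lf (nat_lit 0) (nat_lit 427808699982) (nat_lit 76) (nat_lit 753285904707) (nat_lit 76) (nat_lit 644436672999) (nat_lit 10) (nat_lit 4) (nat_lit 11) (nat_lit 5) (nat_lit 11) (nat_lit 4) (nat_lit 503) (nat_lit 433) (nat_lit 264))))) (XT.nd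 (nat_lit 234) (nat_lit 76) (nat_lit 0) (XT.nd (nat_lit 78) (nat_lit 152) (nat_lit 0) (XT.lf (nat_lit 0) (nat_lit 1138724197053) (nat_lit 76) (nat_lit 457667322461) (nat_lit 76) (nat_lit 348818072646) (nat_lit 10) (nat_lit 4) (nat_lit 11) (nat_lit 5) (nat_lit 11) (nat_lit 4) (nat_lit 504) (nat_lit 433) (nat_lit 263)) (XT.nd (nat_lit 78) (nat_lit 152) (nat_lit 0) (XT.lf (nat_lit 0) (nat_lit 1906512717080) (nat_lit 76) (nat_lit 138399364870) (nat_lit 76) (nat_lit 29550098288) (nat_lit 10) (nat_lit 4) (nat_lit 11) (nat_lit 5) (nat_lit 11) (nat_lit 4) (nat_lit 505) (nat_lit 433) (nat_lit 262)) (XT.lf (nat_lit 0) (nat_lit 318002677376) (nat_lit 152) (nat_lit 1676748320521) (nat_lit 0) (nat_lit 217216305054) (nat_lit 8) (nat_lit 5) (nat_lit 10) (nat_lit 4) (nat_lit 8) (nat_lit 4) (nat_lit 506) (nat_lit 433) (nat_lit 261)))) (XT.nd (nat_lit 156) (nat_lit 76) (nat_lit 0) (XT.nd (nat_lit 78) (nat_lit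 0) (nat_lit 0) (XT.lf (nat_lit 0) (nat_lit 700069200389) (nat_lit 152) (nat_lit 1060394937684) (nat_lit 0) (nat_lit 599282814757) (nat_lit 8) (nat_lit 5) (nat_lit 10) (nat_lit 4) (nat_lit 8) (nat_lit 4) (nat_lit 507) (nat_lit 433) (nat_lit 260)) (XT.lf (nat_lit 0) (nat_lit 1112700952487) (nat_lit 152) (nat_lit 394733475102) (nat_lit 0) (nat_lit 1011914554531) (nat_lit 8) (nat_lit 5) (nat_lit 10) (nat_lit 4) (nat_lit 8) (nat_lit 4) (nat_lit 508) (nat_lit 433) (nat_lit 259))) (XT.nd (nat_lit 78) (nat_lit 0) (nat_lit 0) (XT.lf (nat_lit 0) (nat_lit 341251510369) (nat_lit 76) (nat_lit 1225298755531) (nat_lit 76) (nat_lit 1124512346163) (nat_lit 7) (nat_lit 4) (nat_lit 8) (nat_lit 5) (nat_lit 8) (nat_lit 4) (nat_lit 509) (nat_lit 433) (nat_lit 258)) (XT.lf (nat_lit 0) (nat_lit 1158563964903) (nat_lit 76) (nat_lit 908936188553) (nat_lit 76) (nat_lit 808149768619) (nat_lit 7) (nat_lit 4) (nat_lit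 8) (nat_lit 5) (nat_lit 8) (nat_lit 4) (nat_lit 510) (nat_lit 433) (nat_lit 257))))))) (XT.nd (nat_lit 936) (nat_lit 152) (nat_lit 0) (XT.nd (nat_lit 468) (nat_lit 76) (nat_lit 0) (XT.nd (nat_lit 234) (nat_lit 0) (nat_lit 0) (XT.nd (nat_lit 78) (nat_lit 152) (nat_lit 0) (XT.lf (nat_lit 0) (nat_lit 2041261256292) (nat_lit 76) (nat_lit 567264698256) (nat_lit 76) (nat_lit 466478268539) (nat_lit 7) (nat_lit 4) (nat_lit 8) (nat_lit 5) (nat_lit 8) (nat_lit 4) (nat_lit 511) (nat_lit 433) (nat_lit 256)) (XT.nd (nat_lit 78) (nat_lit 152) (nat_lit 0) (XT.lf (nat_lit 0) (nat_lit 2994574183300) (nat_lit 76) (nat_lit 198259564697) (nat_lit 76) (nat_lit 97473125921) (nat_lit 7) (nat_lit 4) (nat_lit 8) (nat_lit 5) (nat_lit 8) (nat_lit 4) (nat_lit 512) (nat_lit 433) (nat_lit 255)) (XT.lf (nat_lit 0) (nat_lit 303830151823) (nat_lit 152) (nat_lit 3006487985293) (nat_lit 0) (nat_lit 210509367413) (nat_lit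 5) (nat_lit 5) (nat_lit 7) (nat_lit 4) (nat_lit 5) (nat_lit 4) (nat_lit 513) (nat_lit 433) (nat_lit 254)))) (XT.nd (nat_lit 78) (nat_lit 0) (nat_lit 0) (XT.lf (nat_lit 0) (nat_lit 745417020299) (nat_lit 152) (nat_lit 2370998362308) (nat_lit 0) (nat_lit 652096228698) (nat_lit 5) (nat_lit 5) (nat_lit 7) (nat_lit 4) (nat_lit 5) (nat_lit 4) (nat_lit 514) (nat_lit 433) (nat_lit 253)) (XT.nd (nat_lit 78) (nat_lit 0) (nat_lit 0) (XT.lf (nat_lit 0) (nat_lit 1222330775218) (nat_lit 152) (nat_lit 1684669699488) (nat_lit 0) (nat_lit 1129009976958) (nat_lit 5) (nat_lit 5) (nat_lit 7) (nat_lit 4) (nat_lit 5) (nat_lit 4) (nat_lit 515) (nat_lit 433) (nat_lit 252)) (XT.lf (nat_lit 0) (nat_lit 1737397572164) (nat_lit 152) (nat_lit 943434864019) (nat_lit 0) (nat_lit 1644076767739) (nat_lit 5) (nat_lit 5) (nat_lit 7) (nat_lit 4) (nat_lit 5) (nat_lit 4) (nat_lit 516) (nat_lit 433) (nat_lit 251))))) (XT.nd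 (nat_lit 234) (nat_lit 0) (nat_lit 0) (XT.nd (nat_lit 78) (nat_lit 76) (nat_lit 0) (XT.lf (nat_lit 0) (nat_lit 2293669658824) (nat_lit 152) (nat_lit 142901353170) (nat_lit 0) (nat_lit 2200348848690) (nat_lit 5) (nat_lit 5) (nat_lit 7) (nat_lit 4) (nat_lit 5) (nat_lit 4) (nat_lit 517) (nat_lit 433) (nat_lit 250)) (XT.nd (nat_lit 78) (nat_lit 0) (nat_lit 0) (XT.lf (nat_lit 0) (nat_lit 759676847989) (nat_lit 76) (nat_lit 2153036860852) (nat_lit 76) (nat_lit 2059716045433) (nat_lit 4) (nat_lit 4) (nat_lit 5) (nat_lit 5) (nat_lit 5) (nat_lit 4) (nat_lit 518) (nat_lit 433) (nat_lit 249)) (XT.lf (nat_lit 0) (nat_lit 1742588131228) (nat_lit 76) (nat_lit 1842600279119) (nat_lit 76) (nat_lit 1749279458806) (nat_lit 4) (nat_lit 4) (nat_lit 5) (nat_lit 5) (nat_lit 5) (nat_lit 4) (nat_lit 519) (nat_lit 433) (nat_lit 248)))) (XT.nd (nat_lit 78) (nat_lit 0) (nat_lit 0) (XT.lf (nat_lit 0) (nat_lit 2804132223988)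 (nat_lit 76) (nat_lit 1507328818845) (nat_lit 76) (nat_lit 1414007994000) (nat_lit 4) (nat_lit 4) (nat_lit 5) (nat_lit 5) (nat_lit 5) (nat_lit 4) (nat_lit 520) (nat_lit 433) (nat_lit 247)) (XT.nd (nat_lit 78) (nat_lit 0) (nat_lit 0) (XT.lf (nat_lit 0) (nat_lit 3950599757929) (nat_lit 76) (nat_lit 1145235686191) (nat_lit 76) (nat_lit 1051914857150) (nat_lit 4) (nat_lit 4) (nat_lit 5) (nat_lit 5) (nat_lit 5) (nat_lit 4) (nat_lit 521) (nat_lit 433) (nat_lit 246)) (XT.lf (nat_lit 0) (nat_lit 5188784614734) (nat_lit 76) (nat_lit 754175144076) (nat_lit 76) (nat_lit 660854311150) (nat_lit 4) (nat_lit 4) (nat_lit 5) (nat_lit 5) (nat_lit 5) (nat_lit 4) (nat_lit 522) (nat_lit 433) (nat_lit 245)))))) (XT.nd (nat_lit 468) (nat_lit 0) (nat_lit 0) (XT.nd (nat_lit 234) (nat_lit 0) (nat_lit 0) (XT.nd (nat_lit 78) (nat_lit 152) (nat_lit 0) (XT.lf (nat_lit 0) (nat_lit 6526024186147) (nat_lit 76) (nat_lit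 331829796694) (nat_lit 76) (nat_lit 238508960171) (nat_lit 4) (nat_lit 4) (nat_lit 5) (nat_lit 5) (nat_lit 5) (nat_lit 4) (nat_lit 523) (nat_lit 433) (nat_lit 244)) (XT.nd (nat_lit 78) (nat_lit 0) (nat_lit 0) (XT.lf (nat_lit 0) (nat_lit 218608267679) (nat_lit 152) (nat_lit 7276139011881) (nat_lit 0) (nat_lit 132200082629) (nat_lit 2) (nat_lit 5) (nat_lit 4) (nat_lit 4) (nat_lit 2) (nat_lit 4) (nat_lit 524) (nat_lit 433) (nat_lit 243)) (XT.lf (nat_lit 0) (nat_lit 724027229792) (nat_lit 152) (nat_lit 6835867217393) (nat_lit 0) (nat_lit 637619041887) (nat_lit 2) (nat_lit 5) (nat_lit 4) (nat_lit 4) (nat_lit 2) (nat_lit 4) (nat_lit 525) (nat_lit 433) (nat_lit 242)))) (XT.nd (nat_lit 78) (nat_lit 0) (nat_lit 0) (XT.lf (nat_lit 0) (nat_lit 1269879677379) (nat_lit 152) (nat_lit 6360373744418) (nat_lit 0) (nat_lit 1183471486829) (nat_lit 2) (nat_lit 5) (nat_lit 4) (nat_lit 4) (nat_lit 2) (nat_lit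 4) (nat_lit 526) (nat_lit 433) (nat_lit 241)) (XT.nd (nat_lit 78) (nat_lit 0) (nat_lit 0) (XT.lf (nat_lit 0) (nat_lit 1859400291609) (nat_lit 152) (nat_lit 5846840853858) (nat_lit 0) (nat_lit 1772992098611) (nat_lit 2) (nat_lit 5) (nat_lit 4) (nat_lit 4) (nat_lit 2) (nat_lit 4) (nat_lit 527) (nat_lit 433) (nat_lit 240)) (XT.lf (nat_lit 0) (nat_lit 2496082527974) (nat_lit 152) (nat_lit 5292225387842) (nat_lit 0) (nat_lit 2409674332709) (nat_lit 2) (nat_lit 5) (nat_lit 4) (nat_lit 4) (nat_lit 2) (nat_lit 4) (nat_lit 528) (nat_lit 433) (nat_lit 239))))) (XT.nd (nat_lit 55068) (nat_lit 0) (nat_lit 5548) (XT.nd (nat_lit 78) (nat_lit 0) (nat_lit 0) (XT.lf (nat_lit 0) (nat_lit 3183699318246) (nat_lit 152) (nat_lit 4693240736202) (nat_lit 0) (nat_lit 3097291120882) (nat_lit 2) (nat_lit 5) (nat_lit 4) (nat_lit 4) (nat_lit 2) (nat_lit 4) (nat_lit 529) (nat_lit 433) (nat_lit 238)) (XT.nd (nat_lit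 78) (nat_lit 0) (nat_lit 0) (XT.lf (nat_lit 0) (nat_lit 3926325428589) (nat_lit 152) (nat_lit 4046337360260) (nat_lit 0) (nat_lit 3839917229281) (nat_lit 2) (nat_lit 5) (nat_lit 4) (nat_lit 4) (nat_lit 2) (nat_lit 4) (nat_lit 530) (nat_lit 433) (nat_lit 237)) (XT.lf (nat_lit 0) (nat_lit 4728361606323) (nat_lit 152) (nat_lit 3347681758530) (nat_lit 0) (nat_lit 4641953405216) (nat_lit 2) (nat_lit 5) (nat_lit 4) (nat_lit 4) (nat_lit 2) (nat_lit 4) (nat_lit 531) (nat_lit 433) (nat_lit 236)))) (XT.nd (nat_lit 156) (nat_lit 456) (nat_lit 0) (XT.nd (nat_lit 78) (nat_lit 0) (nat_lit 0) (XT.lf (nat_lit 0) (nat_lit 26856997379) (nat_lit 532) (nat_lit 473741683) (nat_lit 532) (nat_lit 473741683) (nat_lit 81) (nat_lit 3) (nat_lit 88) (nat_lit 3) (nat_lit 88) (nat_lit 5) (nat_lit 434) (nat_lit 434) (nat_lit 332)) (XT.lf (nat_lit 76) (nat_lit 28037307180) (nat_lit 0) (nat_lit 28519507308) (nat_lit 532)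 (nat_lit 1220959330) (nat_lit 82) (nat_lit 5) (nat_lit 81) (nat_lit 3) (nat_lit 88) (nat_lit 5) (nat_lit 435) (nat_lit 434) (nat_lit 331))) (XT.nd (nat_lit 78) (nat_lit 456) (nat_lit 0) (XT.lf (nat_lit 76) (nat_lit 59393629652) (nat_lit 0) (nat_lit 257311547) (nat_lit 532) (nat_lit 467239955) (nat_lit 82) (nat_lit 5) (nat_lit 81) (nat_lit 3) (nat_lit 88) (nat_lit 5) (nat_lit 436) (nat_lit 434) (nat_lit 330)) (XT.lf (nat_lit 0) (nat_lit 1850522771) (nat_lit 532) (nat_lit 31116929725) (nat_lit 608) (nat_lit 29556014398) (nat_lit 75) (nat_lit 5) (nat_lit 82) (nat_lit 5) (nat_lit 83) (nat_lit 5) (nat_lit 437) (nat_lit 434) (nat_lit 329))))))))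
noncomputable def xc172 : XT := (XT.nd (nat_lit 1950) (nat_lit 1672) (nat_lit 0) (XT.nd (nat_lit 936) (nat_lit 1140) (nat_lit 0) (XT.nd (nat_lit 468) (nat_lit 912) (nat_lit 0) (XT.nd (nat_lit 234) (nat_lit 304) (nat_lit 0) (XT.nd (nat_lit 78) (nat_lit 0) (nat_lit 76) (XT.lf (nat_lit 76) (nat_lit 1062246437) (nat_lit 0) (nat_lit 3316980782) (nat_lit 608) (nat_lit 60736916707) (nat_lit 76) (nat_lit 5) (nat_lit 75) (nat_lit 5) (nat_lit 83) (nat_lit 5) (nat_lit 438) (nat_lit 434) (nat_lit 328)) (XT.nd (nat_lit 78) (nat_lit 0) (nat_lit 0) (XT.lf (nat_lit 0) (nat_lit 8671808502) (nat_lit 532) (nat_lit 30976633844) (nat_lit 608) (nat_lit 28142866729) (nat_lit 76) (nat_lit 5) (nat_lit 83) (nat_lit 5) (nat_lit 84) (nat_lit 5) (nat_lit 439) (nat_lit 434) (nat_lit 327)) (XT.lf (nat_lit 76) (nat_lit 4904713833) (nat_lit 0) (nat_lit 8605641956) (nat_lit 608) (nat_lit 57153927250) (nat_lit 77) (nat_lit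 5) (nat_lit 76) (nat_lit 5) (nat_lit 84) (nat_lit 5) (nat_lit 440) (nat_lit 434) (nat_lit 326)))) (XT.nd (nat_lit 78) (nat_lit 456) (nat_lit 0) (XT.lf (nat_lit 0) (nat_lit 20202817813) (nat_lit 532) (nat_lit 28903825411) (nat_lit 76) (nat_lit 24543105557) (nat_lit 77) (nat_lit 5) (nat_lit 84) (nat_lit 5) (nat_lit 78) (nat_lit 5) (nat_lit 441) (nat_lit 434) (nat_lit 325)) (XT.nd (nat_lit 78) (nat_lit 0) (nat_lit 0) (XT.lf (nat_lit 0) (nat_lit 11237728595) (nat_lit 456) (nat_lit 16685382922) (nat_lit 532) (nat_lit 48911545800) (nat_lit 71) (nat_lit 5) (nat_lit 77) (nat_lit 5) (nat_lit 78) (nat_lit 5) (nat_lit 442) (nat_lit 434) (nat_lit 324)) (XT.lf (nat_lit 0) (nat_lit 37511379262) (nat_lit 532) (nat_lit 24439450845) (nat_lit 76) (nat_lit 18223500671) (nat_lit 71) (nat_lit 5) (nat_lit 78) (nat_lit 5) (nat_lit 72) (nat_lit 5) (nat_lit 443) (nat_lit 434) (nat_lit 323))))) (XT.nd (nat_lit 234)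 (nat_lit 456) (nat_lit 0) (XT.nd (nat_lit 78) (nat_lit 228) (nat_lit 0) (XT.lf (nat_lit 0) (nat_lit 20606821331) (nat_lit 228) (nat_lit 28187678527) (nat_lit 304) (nat_lit 34912455213) (nat_lit 68) (nat_lit 5) (nat_lit 71) (nat_lit 5) (nat_lit 72) (nat_lit 5) (nat_lit 444) (nat_lit 434) (nat_lit 322)) (XT.nd (nat_lit 78) (nat_lit 228) (nat_lit 0) (XT.lf (nat_lit 0) (nat_lit 61863761786) (nat_lit 304) (nat_lit 17039761107) (nat_lit 76) (nat_lit 8547987326) (nat_lit 68) (nat_lit 5) (nat_lit 72) (nat_lit 5) (nat_lit 69) (nat_lit 5) (nat_lit 445) (nat_lit 434) (nat_lit 321)) (XT.lf (nat_lit 0) (nat_lit 33655673217) (nat_lit 228) (nat_lit 43863409479) (nat_lit 304) (nat_lit 13853305871) (nat_lit 65) (nat_lit 5) (nat_lit 68) (nat_lit 5) (nat_lit 69) (nat_lit 5) (nat_lit 446) (nat_lit 434) (nat_lit 320)))) (XT.nd (nat_lit 78) (nat_lit 456) (nat_lit 0) (XT.lf (nat_lit 0) (nat_lit 89374625623) (nat_lit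 228) (nat_lit 5517100974) (nat_lit 304) (nat_lit 678019010) (nat_lit 65) (nat_lit 5) (nat_lit 68) (nat_lit 5) (nat_lit 69) (nat_lit 5) (nat_lit 447) (nat_lit 434) (nat_lit 319)) (XT.nd (nat_lit 78) (nat_lit 228) (nat_lit 0) (XT.lf (nat_lit 0) (nat_lit 15020106293) (nat_lit 228) (nat_lit 49173710289) (nat_lit 76) (nat_lit 35711265627) (nat_lit 62) (nat_lit 5) (nat_lit 65) (nat_lit 5) (nat_lit 63) (nat_lit 5) (nat_lit 448) (nat_lit 434) (nat_lit 318)) (XT.lf (nat_lit 0) (nat_lit 8236118197) (nat_lit 228) (nat_lit 24215586499) (nat_lit 304) (nat_lit 72092992042) (nat_lit 59) (nat_lit 5) (nat_lit 62) (nat_lit 5) (nat_lit 63) (nat_lit 5) (nat_lit 449) (nat_lit 434) (nat_lit 317)))))) (XT.nd (nat_lit 468) (nat_lit 608) (nat_lit 0) (XT.nd (nat_lit 234) (nat_lit 380) (nat_lit 0) (XT.nd (nat_lit 78) (nat_lit 152) (nat_lit 0) (XT.lf (nat_lit 0) (nat_lit 53112380831) (nat_lit 304) (nat_lit 36904784756)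 (nat_lit 76) (nat_lit 19391551011) (nat_lit 59) (nat_lit 5) (nat_lit 63) (nat_lit 5) (nat_lit 60) (nat_lit 5) (nat_lit 450) (nat_lit 434) (nat_lit 316)) (XT.nd (nat_lit 78) (nat_lit 0) (nat_lit 0) (XT.lf (nat_lit 0) (nat_lit 28023034785) (nat_lit 152) (nat_lit 48704993632) (nat_lit 228) (nat_lit 37829660386) (nat_lit 57) (nat_lit 5) (nat_lit 59) (nat_lit 5) (nat_lit 60) (nat_lit 5) (nat_lit 451) (nat_lit 434) (nat_lit 315)) (XT.lf (nat_lit 0) (nat_lit 100242789069) (nat_lit 152) (nat_lit 2998401228) (nat_lit 228) (nat_lit 16796727621) (nat_lit 57) (nat_lit 5) (nat_lit 59) (nat_lit 5) (nat_lit 60) (nat_lit 5) (nat_lit 452) (nat_lit 434) (nat_lit 314)))) (XT.nd (nat_lit 78) (nat_lit 152) (nat_lit 0) (XT.lf (nat_lit 0) (nat_lit 8095066658) (nat_lit 228) (nat_lit 72106922945) (nat_lit 76) (nat_lit 45545403116) (nat_lit 54) (nat_lit 5) (nat_lit 57) (nat_lit 5) (nat_lit 55) (nat_lit 5) (nat_lit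 453) (nat_lit 434) (nat_lit 313)) (XT.nd (nat_lit 78) (nat_lit 0) (nat_lit 0) (XT.lf (nat_lit 0) (nat_lit 1765370872) (nat_lit 152) (nat_lit 32980285330) (nat_lit 228) (nat_lit 97079074214) (nat_lit 52) (nat_lit 5) (nat_lit 54) (nat_lit 5) (nat_lit 55) (nat_lit 5) (nat_lit 454) (nat_lit 434) (nat_lit 312)) (XT.lf (nat_lit 0) (nat_lit 65983694525) (nat_lit 228) (nat_lit 53067967831) (nat_lit 76) (nat_lit 19140160741) (nat_lit 52) (nat_lit 5) (nat_lit 55) (nat_lit 5) (nat_lit 53) (nat_lit 5) (nat_lit 455) (nat_lit 434) (nat_lit 311))))) (XT.nd (nat_lit 234) (nat_lit 304) (nat_lit 0) (XT.nd (nat_lit 78) (nat_lit 152) (nat_lit 0) (XT.lf (nat_lit 0) (nat_lit 30764028837) (nat_lit 152) (nat_lit 70552606128) (nat_lit 228) (nat_lit 43623979595) (nat_lit 50) (nat_lit 5) (nat_lit 52) (nat_lit 5) (nat_lit 53) (nat_lit 5) (nat_lit 456) (nat_lit 434) (nat_lit 310)) (XT.nd (nat_lit 78) (nat_lit 152)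 (nat_lit 0) (XT.lf (nat_lit 0) (nat_lit 124319616424) (nat_lit 152) (nat_lit 16606943248) (nat_lit 228) (nat_lit 11186721830) (nat_lit 50) (nat_lit 5) (nat_lit 52) (nat_lit 5) (nat_lit 53) (nat_lit 5) (nat_lit 457) (nat_lit 434) (nat_lit 309)) (XT.lf (nat_lit 0) (nat_lit 25355126349) (nat_lit 152) (nat_lit 92397490312) (nat_lit 76) (nat_lit 41845069662) (nat_lit 48) (nat_lit 5) (nat_lit 50) (nat_lit 5) (nat_lit 49) (nat_lit 5) (nat_lit 458) (nat_lit 434) (nat_lit 308)))) (XT.nd (nat_lit 156) (nat_lit 152) (nat_lit 0) (XT.nd (nat_lit 78) (nat_lit 0) (nat_lit 0) (XT.lf (nat_lit 0) (nat_lit 3170136183) (nat_lit 152) (nat_lit 62332491074) (nat_lit 228) (nat_lit 102052036929) (nat_lit 46) (nat_lit 5) (nat_lit 48) (nat_lit 5) (nat_lit 49) (nat_lit 5) (nat_lit 459) (nat_lit 434) (nat_lit 307)) (XT.lf (nat_lit 0) (nat_lit 111393675875) (nat_lit 228) (nat_lit 64315173233) (nat_lit 76) (nat_lit 236811423)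 (nat_lit 46) (nat_lit 5) (nat_lit 49) (nat_lit 5) (nat_lit 47) (nat_lit 4) (nat_lit 460) (nat_lit 434) (nat_lit 306))) (XT.nd (nat_lit 78) (nat_lit 76) (nat_lit 0) (XT.lf (nat_lit 0) (nat_lit 44358810178) (nat_lit 76) (nat_lit 119282528623) (nat_lit 152) (nat_lit 21151771405) (nat_lit 45) (nat_lit 5) (nat_lit 46) (nat_lit 5) (nat_lit 47) (nat_lit 4) (nat_lit 461) (nat_lit 434) (nat_lit 305)) (XT.lf (nat_lit 0) (nat_lit 26237462081) (nat_lit 152) (nat_lit 29488462193) (nat_lit 76) (nat_lit 138428653842) (nat_lit 44) (nat_lit 5) (nat_lit 46) (nat_lit 5) (nat_lit 45) (nat_lit 5) (nat_lit 462) (nat_lit 434) (nat_lit 304))))))) (XT.nd (nat_lit 936) (nat_lit 760) (nat_lit 0) (XT.nd (nat_lit 468) (nat_lit 456) (nat_lit 0) (XT.nd (nat_lit 234) (nat_lit 228) (nat_lit 0) (XT.nd (nat_lit 78) (nat_lit 76) (nat_lit 0) (XT.lf (nat_lit 0) (nat_lit 78931500113) (nat_lit 228) (nat_lit 109912512214) (nat_lit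 76) (nat_lit 15164486570) (nat_lit 42) (nat_lit 5) (nat_lit 45) (nat_lit 5) (nat_lit 43) (nat_lit 4) (nat_lit 463) (nat_lit 434) (nat_lit 303)) (XT.nd (nat_lit 78) (nat_lit 0) (nat_lit 0) (XT.lf (nat_lit 0) (nat_lit 13883277010) (nat_lit 76) (nat_lit 124565837783) (nat_lit 152) (nat_lit 75992974303) (nat_lit 41) (nat_lit 5) (nat_lit 42) (nat_lit 5) (nat_lit 43) (nat_lit 4) (nat_lit 464) (nat_lit 434) (nat_lit 302)) (XT.lf (nat_lit 0) (nat_lit 153832726185) (nat_lit 76) (nat_lit 51900155710) (nat_lit 152) (nat_lit 19737105195) (nat_lit 41) (nat_lit 5) (nat_lit 42) (nat_lit 5) (nat_lit 43) (nat_lit 4) (nat_lit 465) (nat_lit 434) (nat_lit 301)))) (XT.nd (nat_lit 78) (nat_lit 76) (nat_lit 0) (XT.lf (nat_lit 0) (nat_lit 41361832627) (nat_lit 152) (nat_lit 167756643969) (nat_lit 76) (nat_lit 27991155485) (nat_lit 39) (nat_lit 5) (nat_lit 41) (nat_lit 5) (nat_lit 40) (nat_lit 4) (nat_lit 466)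 (nat_lit 434) (nat_lit 300)) (XT.nd (nat_lit 78) (nat_lit 76) (nat_lit 0) (XT.lf (nat_lit 0) (nat_lit 109639558811) (nat_lit 152) (nat_lit 25739597775) (nat_lit 76) (nat_lit 113991704779) (nat_lit 39) (nat_lit 5) (nat_lit 41) (nat_lit 5) (nat_lit 40) (nat_lit 4) (nat_lit 467) (nat_lit 434) (nat_lit 299)) (XT.lf (nat_lit 0) (nat_lit 134359273135) (nat_lit 76) (nat_lit 52251174587) (nat_lit 152) (nat_lit 75744065726) (nat_lit 38) (nat_lit 5) (nat_lit 39) (nat_lit 5) (nat_lit 40) (nat_lit 4) (nat_lit 468) (nat_lit 434) (nat_lit 298))))) (XT.nd (nat_lit 234) (nat_lit 228) (nat_lit 0) (XT.nd (nat_lit 78) (nat_lit 152) (nat_lit 0) (XT.lf (nat_lit 0) (nat_lit 33145877628) (nat_lit 76) (nat_lit 239014466829) (nat_lit 76) (nat_lit 4022806331) (nat_lit 37) (nat_lit 4) (nat_lit 38) (nat_lit 5) (nat_lit 38) (nat_lit 4) (nat_lit 469) (nat_lit 434) (nat_lit 297)) (XT.nd (nat_lit 78) (nat_lit 76) (nat_lit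 0) (XT.lf (nat_lit 0) (nat_lit 74709876477) (nat_lit 152) (nat_lit 79595576279) (nat_lit 76) (nat_lit 136275551361) (nat_lit 36) (nat_lit 5) (nat_lit 38) (nat_lit 5) (nat_lit 37) (nat_lit 4) (nat_lit 470) (nat_lit 434) (nat_lit 296)) (XT.lf (nat_lit 0) (nat_lit 101914456108) (nat_lit 76) (nat_lit 60060063279) (nat_lit 152) (nat_lit 143951752748) (nat_lit 35) (nat_lit 5) (nat_lit 36) (nat_lit 5) (nat_lit 37) (nat_lit 4) (nat_lit 471) (nat_lit 434) (nat_lit 295)))) (XT.nd (nat_lit 78) (nat_lit 228) (nat_lit 0) (XT.lf (nat_lit 0) (nat_lit 259456270590) (nat_lit 152) (nat_lit 20913798829) (nat_lit 0) (nat_lit 41870217245) (nat_lit 35) (nat_lit 5) (nat_lit 37) (nat_lit 4) (nat_lit 35) (nat_lit 4) (nat_lit 472) (nat_lit 434) (nat_lit 294)) (XT.nd (nat_lit 78) (nat_lit 76) (nat_lit 0) (XT.lf (nat_lit 0) (nat_lit 29785367516) (nat_lit 152) (nat_lit 155632826182) (nat_lit 76) (nat_lit 153901150350)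 (nat_lit 33) (nat_lit 5) (nat_lit 35) (nat_lit 5) (nat_lit 34) (nat_lit 4) (nat_lit 473) (nat_lit 434) (nat_lit 293)) (XT.lf (nat_lit 0) (nat_lit 48926523228) (nat_lit 76) (nat_lit 79204835490) (nat_lit 152) (nat_lit 229361865064) (nat_lit 32) (nat_lit 5) (nat_lit 33) (nat_lit 5) (nat_lit 34) (nat_lit 4) (nat_lit 474) (nat_lit 434) (nat_lit 292)))))) (XT.nd (nat_lit 468) (nat_lit 380) (nat_lit 0) (XT.nd (nat_lit 234) (nat_lit 228) (nat_lit 0) (XT.nd (nat_lit 78) (nat_lit 152) (nat_lit 0) (XT.lf (nat_lit 0) (nat_lit 239564413592) (nat_lit 152) (nat_lit 99044073071) (nat_lit 0) (nat_lit 38094976496) (nat_lit 32) (nat_lit 5) (nat_lit 34) (nat_lit 4) (nat_lit 32) (nat_lit 4) (nat_lit 475) (nat_lit 434) (nat_lit 291)) (XT.nd (nat_lit 78) (nat_lit 76) (nat_lit 0) (XT.lf (nat_lit 0) (nat_lit 131774390732) (nat_lit 76) (nat_lit 233363862374) (nat_lit 76) (nat_lit 31894177373) (nat_lit 31) (nat_lit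 4) (nat_lit 32) (nat_lit 5) (nat_lit 32) (nat_lit 4) (nat_lit 476) (nat_lit 434) (nat_lit 290)) (XT.lf (nat_lit 0) (nat_lit 80457878492) (nat_lit 152) (nat_lit 34117527278) (nat_lit 76) (nat_lit 304032737265) (nat_lit 30) (nat_lit 5) (nat_lit 32) (nat_lit 5) (nat_lit 31) (nat_lit 4) (nat_lit 477) (nat_lit 434) (nat_lit 289)))) (XT.nd (nat_lit 78) (nat_lit 152) (nat_lit 0) (XT.lf (nat_lit 0) (nat_lit 206002327411) (nat_lit 152) (nat_lit 215911210727) (nat_lit 0) (nat_lit 19455913446) (nat_lit 29) (nat_lit 5) (nat_lit 31) (nat_lit 4) (nat_lit 29) (nat_lit 4) (nat_lit 478) (nat_lit 434) (nat_lit 288)) (XT.nd (nat_lit 78) (nat_lit 76) (nat_lit 0) (XT.lf (nat_lit 0) (nat_lit 40908993128) (nat_lit 76) (nat_lit 305597968754) (nat_lit 76) (nat_lit 119051372572) (nat_lit 28) (nat_lit 4) (nat_lit 29) (nat_lit 5) (nat_lit 29) (nat_lit 4) (nat_lit 479) (nat_lit 434) (nat_lit 287)) (XT.lf (nat_lit 0)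 (nat_lit 12297449689) (nat_lit 152) (nat_lit 160968069547) (nat_lit 76) (nat_lit 317919652691) (nat_lit 27) (nat_lit 5) (nat_lit 29) (nat_lit 5) (nat_lit 28) (nat_lit 4) (nat_lit 480) (nat_lit 434) (nat_lit 286))))) (XT.nd (nat_lit 234) (nat_lit 228) (nat_lit 0) (XT.nd (nat_lit 78) (nat_lit 76) (nat_lit 0) (XT.lf (nat_lit 0) (nat_lit 127071583325) (nat_lit 76) (nat_lit 23706543813) (nat_lit 152) (nat_lit 367592184529) (nat_lit 26) (nat_lit 5) (nat_lit 27) (nat_lit 5) (nat_lit 28) (nat_lit 4) (nat_lit 481) (nat_lit 434) (nat_lit 285)) (XT.nd (nat_lit 78) (nat_lit 76) (nat_lit 0) (XT.lf (nat_lit 0) (nat_lit 308166974810) (nat_lit 152) (nat_lit 103498700298) (nat_lit 0) (nat_lit 135438210204) (nat_lit 26) (nat_lit 5) (nat_lit 28) (nat_lit 4) (nat_lit 26) (nat_lit 4) (nat_lit 482) (nat_lit 434) (nat_lit 284)) (XT.lf (nat_lit 0) (nat_lit 217594034881) (nat_lit 76) (nat_lit 266401552994) (nat_lit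 76) (nat_lit 93672664373) (nat_lit 25) (nat_lit 4) (nat_lit 26) (nat_lit 5) (nat_lit 26) (nat_lit 4) (nat_lit 483) (nat_lit 434) (nat_lit 283)))) (XT.nd (nat_lit 156) (nat_lit 76) (nat_lit 0) (XT.nd (nat_lit 78) (nat_lit 76) (nat_lit 0) (XT.lf (nat_lit 0) (nat_lit 62953667183) (nat_lit 152) (nat_lit 41785375706) (nat_lit 76) (nat_lit 505584856092) (nat_lit 24) (nat_lit 5) (nat_lit 26) (nat_lit 5) (nat_lit 25) (nat_lit 4) (nat_lit 484) (nat_lit 434) (nat_lit 282)) (XT.lf (nat_lit 0) (nat_lit 236572448485) (nat_lit 152) (nat_lit 331424968877) (nat_lit 0) (nat_lit 76638087587) (nat_lit 23) (nat_lit 5) (nat_lit 25) (nat_lit 4) (nat_lit 23) (nat_lit 4) (nat_lit 485) (nat_lit 434) (nat_lit 281))) (XT.nd (nat_lit 78) (nat_lit 0) (nat_lit 0) (XT.lf (nat_lit 0) (nat_lit 15401695572) (nat_lit 76) (nat_lit 412941884047) (nat_lit 76) (nat_lit 253007431994) (nat_lit 22) (nat_lit 4) (nat_lit 23) (nat_lit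 5) (nat_lit 23) (nat_lit 4) (nat_lit 486) (nat_lit 434) (nat_lit 280)) (XT.lf (nat_lit 0) (nat_lit 408822494338) (nat_lit 76) (nat_lit 235695439175) (nat_lit 76) (nat_lit 75760902720) (nat_lit 22) (nat_lit 4) (nat_lit 23) (nat_lit 5) (nat_lit 23) (nat_lit 4) (nat_lit 487) (nat_lit 434) (nat_lit 279))))))))
noncomputable def xc173 : XT := (XT.nd (nat_lit 1950) (nat_lit 380) (nat_lit 0) (XT.nd (nat_lit 936) (nat_lit 456) (nat_lit 0) (XT.nd (nat_lit 468) (nat_lit 304) (nat_lit 0) (XT.nd (nat_lit 234) (nat_lit 152) (nat_lit 0) (XT.nd (nat_lit 78) (nat_lit 76) (nat_lit 0) (XT.lf (nat_lit 0) (nat_lit 72226993186) (nat_lit 76) (nat_lit 39389164405) (nat_lit 152) (nat_lit 650343240249) (nat_lit 20) (nat_lit 5) (nat_lit 21) (nat_lit 5) (nat_lit 22) (nat_lit 4) (nat_lit 488) (nat_lit 434) (nat_lit 278)) (XT.nd (nat_lit 78) (nat_lit 76) (nat_lit 0) (XT.lf (nat_lit 0) (nat_lit 322778634792) (nat_lit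 152) (nat_lit 308316317970) (nat_lit 0) (nat_lit 174690961675) (nat_lit 20) (nat_lit 5) (nat_lit 22) (nat_lit 4) (nat_lit 20) (nat_lit 4) (nat_lit 489) (nat_lit 434) (nat_lit 277)) (XT.lf (nat_lit 0) (nat_lit 107991766460) (nat_lit 76) (nat_lit 446462456038) (nat_lit 76) (nat_lit 298374720883) (nat_lit 19) (nat_lit 4) (nat_lit 20) (nat_lit 5) (nat_lit 20) (nat_lit 4) (nat_lit 490) (nat_lit 434) (nat_lit 276)))) (XT.nd (nat_lit 78) (nat_lit 152) (nat_lit 0) (XT.lf (nat_lit 0) (nat_lit 575138349911) (nat_lit 76) (nat_lit 237955239381) (nat_lit 76) (nat_lit 89867446783) (nat_lit 19) (nat_lit 4) (nat_lit 20) (nat_lit 5) (nat_lit 20) (nat_lit 4) (nat_lit 491) (nat_lit 434) (nat_lit 275)) (XT.nd (nat_lit 78) (nat_lit 0) (nat_lit 0) (XT.lf (nat_lit 0) (nat_lit 125580182426) (nat_lit 76) (nat_lit 5990984983) (nat_lit 152) (nat_lit 825030569405) (nat_lit 17) (nat_lit 5) (nat_lit 18) (nat_lit 5)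 (nat_lit 19) (nat_lit 4) (nat_lit 492) (nat_lit 434) (nat_lit 274)) (XT.lf (nat_lit 0) (nat_lit 380946548680) (nat_lit 152) (nat_lit 388366131685) (nat_lit 0) (nat_lit 243828127353) (nat_lit 17) (nat_lit 5) (nat_lit 19) (nat_lit 4) (nat_lit 17) (nat_lit 4) (nat_lit 493) (nat_lit 434) (nat_lit 273))))) (XT.nd (nat_lit 234) (nat_lit 76) (nat_lit 0) (XT.nd (nat_lit 78) (nat_lit 152) (nat_lit 0) (XT.lf (nat_lit 0) (nat_lit 94261111395) (nat_lit 76) (nat_lit 558433280950) (nat_lit 76) (nat_lit 421314817401) (nat_lit 16) (nat_lit 4) (nat_lit 17) (nat_lit 5) (nat_lit 17) (nat_lit 4) (nat_lit 494) (nat_lit 434) (nat_lit 272)) (XT.nd (nat_lit 78) (nat_lit 152) (nat_lit 0) (XT.lf (nat_lit 0) (nat_lit 637584942218) (nat_lit 76) (nat_lit 319215583687) (nat_lit 76) (nat_lit 182097081043) (nat_lit 16) (nat_lit 4) (nat_lit 17) (nat_lit 5) (nat_lit 17) (nat_lit 4) (nat_lit 495) (nat_lit 434) (nat_lit 271))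 (XT.lf (nat_lit 0) (nat_lit 14277512038) (nat_lit 76) (nat_lit 58509050884) (nat_lit 152) (nat_lit 1136016334209) (nat_lit 14) (nat_lit 5) (nat_lit 15) (nat_lit 5) (nat_lit 16) (nat_lit 4) (nat_lit 496) (nat_lit 434) (nat_lit 270)))) (XT.nd (nat_lit 78) (nat_lit 76) (nat_lit 0) (XT.lf (nat_lit 0) (nat_lit 357650029429) (nat_lit 152) (nat_lit 694029640945) (nat_lit 0) (nat_lit 230688388356) (nat_lit 14) (nat_lit 5) (nat_lit 16) (nat_lit 4) (nat_lit 14) (nat_lit 4) (nat_lit 497) (nat_lit 434) (nat_lit 269)) (XT.nd (nat_lit 78) (nat_lit 76) (nat_lit 0) (XT.lf (nat_lit 0) (nat_lit 666822152004) (nat_lit 152) (nat_lit 155014232761) (nat_lit 0) (nat_lit 539860482195) (nat_lit 14) (nat_lit 5) (nat_lit 16) (nat_lit 4) (nat_lit 14) (nat_lit 4) (nat_lit 498) (nat_lit 434) (nat_lit 268)) (XT.lf (nat_lit 0) (nat_lit 449613644356) (nat_lit 76) (nat_lit 561927492264) (nat_lit 76) (nat_lit 434965795848)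 (nat_lit 13) (nat_lit 4) (nat_lit 14) (nat_lit 5) (nat_lit 14) (nat_lit 4) (nat_lit 499) (nat_lit 434) (nat_lit 267)))))) (XT.nd (nat_lit 468) (nat_lit 228) (nat_lit 0) (XT.nd (nat_lit 234) (nat_lit 76) (nat_lit 0) (XT.nd (nat_lit 78) (nat_lit 152) (nat_lit 0) (XT.lf (nat_lit 0) (nat_lit 1111427295819) (nat_lit 76) (nat_lit 276648584610) (nat_lit 76) (nat_lit 149686863558) (nat_lit 13) (nat_lit 4) (nat_lit 14) (nat_lit 5) (nat_lit 14) (nat_lit 4) (nat_lit 500) (nat_lit 434) (nat_lit 266)) (XT.nd (nat_lit 78) (nat_lit 0) (nat_lit 0) (XT.lf (nat_lit 0) (nat_lit 156177775378) (nat_lit 152) (nat_lit 1440760816649) (nat_lit 0) (nat_lit 38620605134) (nat_lit 11) (nat_lit 5) (nat_lit 13) (nat_lit 4) (nat_lit 11) (nat_lit 4) (nat_lit 501) (nat_lit 434) (nat_lit 265)) (XT.lf (nat_lit 0) (nat_lit 497569707132) (nat_lit 152) (nat_lit 861754496465) (nat_lit 0) (nat_lit 380012517331) (nat_lit 11) (nat_lit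 5) (nat_lit 13) (nat_lit 4) (nat_lit 11) (nat_lit 4) (nat_lit 502) (nat_lit 434) (nat_lit 264)))) (XT.nd (nat_lit 78) (nat_lit 76) (nat_lit 0) (XT.lf (nat_lit 0) (nat_lit 866272885035) (nat_lit 152) (nat_lit 236427893107) (nat_lit 0) (nat_lit 748715677126) (nat_lit 11) (nat_lit 5) (nat_lit 13) (nat_lit 4) (nat_lit 11) (nat_lit 4) (nat_lit 503) (nat_lit 434) (nat_lit 263)) (XT.nd (nat_lit 78) (nat_lit 0) (nat_lit 0) (XT.lf (nat_lit 0) (nat_lit 462037625862) (nat_lit 76) (nat_lit 813546606959) (nat_lit 76) (nat_lit 695989382283) (nat_lit 10) (nat_lit 4) (nat_lit 11) (nat_lit 5) (nat_lit 11) (nat_lit 4) (nat_lit 504) (nat_lit 434) (nat_lit 262)) (XT.lf (nat_lit 0) (nat_lit 1229826049375) (nat_lit 76) (nat_lit 494278698884) (nat_lit 76) (nat_lit 376721458683) (nat_lit 10) (nat_lit 4) (nat_lit 11) (nat_lit 5) (nat_lit 11) (nat_lit 4) (nat_lit 505) (nat_lit 434) (nat_lit 261))))) (XT.nd (nat_lit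 234) (nat_lit 76) (nat_lit 0) (XT.nd (nat_lit 78) (nat_lit 152) (nat_lit 0) (XT.lf (nat_lit 0) (nat_lit 2059037360889) (nat_lit 76) (nat_lit 149469453528) (nat_lit 76) (nat_lit 31912198952) (nat_lit 10) (nat_lit 4) (nat_lit 11) (nat_lit 5) (nat_lit 11) (nat_lit 4) (nat_lit 506) (nat_lit 434) (nat_lit 260)) (XT.nd (nat_lit 78) (nat_lit 0) (nat_lit 0) (XT.lf (nat_lit 0) (nat_lit 343444701197) (nat_lit 152) (nat_lit 1810884462126) (nat_lit 0) (nat_lit 234595379081) (nat_lit 8) (nat_lit 5) (nat_lit 10) (nat_lit 4) (nat_lit 8) (nat_lit 4) (nat_lit 507) (nat_lit 434) (nat_lit 259)) (XT.lf (nat_lit 0) (nat_lit 756076412005) (nat_lit 152) (nat_lit 1145223084517) (nat_lit 0) (nat_lit 647227078477) (nat_lit 8) (nat_lit 5) (nat_lit 10) (nat_lit 4) (nat_lit 8) (nat_lit 4) (nat_lit 508) (nat_lit 434) (nat_lit 258)))) (XT.nd (nat_lit 156) (nat_lit 0) (nat_lit 0) (XT.nd (nat_lit 78) (nat_lit 76) (nat_lit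 0) (XT.lf (nat_lit 0) (nat_lit 1201718580153) (nat_lit 152) (nat_lit 426308960349) (nat_lit 0) (nat_lit 1092869236059) (nat_lit 8) (nat_lit 5) (nat_lit 10) (nat_lit 4) (nat_lit 8) (nat_lit 4) (nat_lit 509) (nat_lit 434) (nat_lit 257)) (XT.lf (nat_lit 0) (nat_lit 368554743130) (nat_lit 76) (nat_lit 1323321055427) (nat_lit 76) (nat_lit 1214471701550) (nat_lit 7) (nat_lit 4) (nat_lit 8) (nat_lit 5) (nat_lit 8) (nat_lit 4) (nat_lit 510) (nat_lit 434) (nat_lit 256))) (XT.nd (nat_lit 78) (nat_lit 0) (nat_lit 0) (XT.lf (nat_lit 0) (nat_lit 1251251963513) (nat_lit 76) (nat_lit 981649601650) (nat_lit 76) (nat_lit 872800238714) (nat_lit 7) (nat_lit 4) (nat_lit 8) (nat_lit 5) (nat_lit 8) (nat_lit 4) (nat_lit 511) (nat_lit 434) (nat_lit 255)) (XT.lf (nat_lit 0) (nat_lit 2204564824774) (nat_lit 76) (nat_lit 612644501906) (nat_lit 76) (nat_lit 503795130582) (nat_lit 7) (nat_lit 4) (nat_lit 8) (nat_lit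 5) (nat_lit 8) (nat_lit 4) (nat_lit 512) (nat_lit 434) (nat_lit 254))))))) (XT.nd (nat_lit 936) (nat_lit 152) (nat_lit 0) (XT.nd (nat_lit 468) (nat_lit 76) (nat_lit 0) (XT.nd (nat_lit 234) (nat_lit 0) (nat_lit 0) (XT.nd (nat_lit 78) (nat_lit 152) (nat_lit 0) (XT.lf (nat_lit 0) (nat_lit 3234142588315) (nat_lit 76) (nat_lit 214119059308) (nat_lit 76) (nat_lit 105269680218) (nat_lit 7) (nat_lit 4) (nat_lit 8) (nat_lit 5) (nat_lit 8) (nat_lit 4) (nat_lit 513) (nat_lit 434) (nat_lit 253)) (XT.nd (nat_lit 78) (nat_lit 0) (nat_lit 0) (XT.lf (nat_lit 0) (nat_lit 328137793759) (nat_lit 152) (nat_lit 3247004487763) (nat_lit 0) (nat_lit 227351324980) (nat_lit 5) (nat_lit 5) (nat_lit 7) (nat_lit 4) (nat_lit 5) (nat_lit 4) (nat_lit 514) (nat_lit 434) (nat_lit 252)) (XT.lf (nat_lit 0) (nat_lit 805051520617) (nat_lit 152) (nat_lit 2560675882817) (nat_lit 0) (nat_lit 704265045673) (nat_lit 5) (nat_lit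 5) (nat_lit 7) (nat_lit 4) (nat_lit 5) (nat_lit 4) (nat_lit 515) (nat_lit 434) (nat_lit 251)))) (XT.nd (nat_lit 78) (nat_lit 0) (nat_lit 0) (XT.lf (nat_lit 0) (nat_lit 1320118291582) (nat_lit 152) (nat_lit 1819441100933) (nat_lit 0) (nat_lit 1219331810929) (nat_lit 5) (nat_lit 5) (nat_lit 7) (nat_lit 4) (nat_lit 5) (nat_lit 4) (nat_lit 516) (nat_lit 434) (nat_lit 250)) (XT.nd (nat_lit 78) (nat_lit 0) (nat_lit 0) (XT.lf (nat_lit 0) (nat_lit 1876390354184) (nat_lit 152) (nat_lit 1018907639701) (nat_lit 0) (nat_lit 1775603868246) (nat_lit 5) (nat_lit 5) (nat_lit 7) (nat_lit 4) (nat_lit 5) (nat_lit 4) (nat_lit 517) (nat_lit 434) (nat_lit 249)) (XT.lf (nat_lit 0) (nat_lit 2477164135462) (nat_lit 152) (nat_lit 154331597128) (nat_lit 0) (nat_lit 2376377644630) (nat_lit 5) (nat_lit 5) (nat_lit 7) (nat_lit 4) (nat_lit 5) (nat_lit 4) (nat_lit 518) (nat_lit 434) (nat_lit 248))))) (XT.nd (nat_lit 234)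 (nat_lit 0) (nat_lit 0) (XT.nd (nat_lit 78) (nat_lit 0) (nat_lit 0) (XT.lf (nat_lit 0) (nat_lit 820452812926) (nat_lit 76) (nat_lit 2325278873298) (nat_lit 76) (nat_lit 2224492377934) (nat_lit 4) (nat_lit 4) (nat_lit 5) (nat_lit 5) (nat_lit 5) (nat_lit 4) (nat_lit 519) (nat_lit 434) (nat_lit 247)) (XT.nd (nat_lit 78) (nat_lit 0) (nat_lit 0) (XT.lf (nat_lit 0) (nat_lit 1881996864225) (nat_lit 76) (nat_lit 1990007434390) (nat_lit 76) (nat_lit 1889220934830) (nat_lit 4) (nat_lit 4) (nat_lit 5) (nat_lit 5) (nat_lit 5) (nat_lit 4) (nat_lit 520) (nat_lit 434) (nat_lit 246)) (XT.lf (nat_lit 0) (nat_lit 3028464359776) (nat_lit 76) (nat_lit 1627914321521) (nat_lit 76) (nat_lit 1527127818076) (nat_lit 4) (nat_lit 4) (nat_lit 5) (nat_lit 5) (nat_lit 5) (nat_lit 4) (nat_lit 521) (nat_lit 434) (nat_lit 245)))) (XT.nd (nat_lit 78) (nat_lit 0) (nat_lit 0) (XT.lf (nat_lit 0) (nat_lit 4266649181035) (nat_lit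 76) (nat_lit 1236853797724) (nat_lit 76) (nat_lit 1136067290681) (nat_lit 4) (nat_lit 4) (nat_lit 5) (nat_lit 5) (nat_lit 5) (nat_lit 4) (nat_lit 522) (nat_lit 434) (nat_lit 244)) (XT.nd (nat_lit 78) (nat_lit 0) (nat_lit 0) (XT.lf (nat_lit 0) (nat_lit 5603888719534) (nat_lit 76) (nat_lit 814508467303) (nat_lit 76) (nat_lit 713721956930) (nat_lit 4) (nat_lit 4) (nat_lit 5) (nat_lit 5) (nat_lit 5) (nat_lit 4) (nat_lit 523) (nat_lit 434) (nat_lit 243)) (XT.lf (nat_lit 0) (nat_lit 7048107357726) (nat_lit 76) (nat_lit 358375543116) (nat_lit 76) (nat_lit 257589029658) (nat_lit 4) (nat_lit 4) (nat_lit 5) (nat_lit 5) (nat_lit 5) (nat_lit 4) (nat_lit 524) (nat_lit 434) (nat_lit 242)))))) (XT.nd (nat_lit 468) (nat_lit 0) (nat_lit 0) (XT.nd (nat_lit 234) (nat_lit 0) (nat_lit 0) (XT.nd (nat_lit 78) (nat_lit 0) (nat_lit 0) (XT.lf (nat_lit 0) (nat_lit 236097543574) (nat_lit 152) (nat_lit 7858228863294)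 (nat_lit 0) (nat_lit 142776695136) (nat_lit 2) (nat_lit 5) (nat_lit 4) (nat_lit 4) (nat_lit 2) (nat_lit 4) (nat_lit 525) (nat_lit 434) (nat_lit 241)) (XT.nd (nat_lit 78) (nat_lit 0) (nat_lit 0) (XT.lf (nat_lit 0) (nat_lit 781949977139) (nat_lit 152) (nat_lit 7382735419286) (nat_lit 0) (nat_lit 688629126253) (nat_lit 2) (nat_lit 5) (nat_lit 4) (nat_lit 4) (nat_lit 2) (nat_lit 4) (nat_lit 526) (nat_lit 434) (nat_lit 240)) (XT.lf (nat_lit 0) (nat_lit 1371470578387) (nat_lit 152) (nat_lit 6869202555548) (nat_lit 0) (nat_lit 1278149725234) (nat_lit 2) (nat_lit 5) (nat_lit 4) (nat_lit 4) (nat_lit 2) (nat_lit 4) (nat_lit 527) (nat_lit 434) (nat_lit 239)))) (XT.nd (nat_lit 78) (nat_lit 0) (nat_lit 0) (XT.lf (nat_lit 0) (nat_lit 2008152802732) (nat_lit 152) (nat_lit 6314587114367) (nat_lit 0) (nat_lit 1914831947480) (nat_lit 2) (nat_lit 5) (nat_lit 4) (nat_lit 4) (nat_lit 2) (nat_lit 4) (nat_lit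 528) (nat_lit 434) (nat_lit 238)) (XT.nd (nat_lit 78) (nat_lit 0) (nat_lit 0) (XT.lf (nat_lit 0) (nat_lit 2695769581874) (nat_lit 152) (nat_lit 5715602485721) (nat_lit 0) (nat_lit 2602448724678) (nat_lit 2) (nat_lit 5) (nat_lit 4) (nat_lit 4) (nat_lit 2) (nat_lit 4) (nat_lit 529) (nat_lit 434) (nat_lit 237)) (XT.lf (nat_lit 0) (nat_lit 3438395681911) (nat_lit 152) (nat_lit 5068699131071) (nat_lit 0) (nat_lit 3345074822916) (nat_lit 2) (nat_lit 5) (nat_lit 4) (nat_lit 4) (nat_lit 2) (nat_lit 4) (nat_lit 530) (nat_lit 434) (nat_lit 236))))) (XT.nd (nat_lit 55146) (nat_lit 0) (nat_lit 5548) (XT.nd (nat_lit 54990) (nat_lit 0) (nat_lit 6004) (XT.lf (nat_lit 0) (nat_lit 4240431850103) (nat_lit 152) (nat_lit 4370043549056) (nat_lit 0) (nat_lit 4147110989441) (nat_lit 2) (nat_lit 5) (nat_lit 4) (nat_lit 4) (nat_lit 2) (nat_lit 4) (nat_lit 531) (nat_lit 434) (nat_lit 235)) (XT.nd (nat_lit 78) (nat_lit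 0) (nat_lit 0) (XT.lf (nat_lit 0) (nat_lit 29025039110) (nat_lit 532) (nat_lit 501118165) (nat_lit 532) (nat_lit 501118165) (nat_lit 81) (nat_lit 3) (nat_lit 88) (nat_lit 3) (nat_lit 88) (nat_lit 5) (nat_lit 435) (nat_lit 435) (nat_lit 330)) (XT.lf (nat_lit 76) (nat_lit 30300804657) (nat_lit 0) (nat_lit 30817125994) (nat_lit 532) (nat_lit 1279129746) (nat_lit 82) (nat_lit 5) (nat_lit 81) (nat_lit 3) (nat_lit 88) (nat_lit 5) (nat_lit 436) (nat_lit 435) (nat_lit 329)))) (XT.nd (nat_lit 156) (nat_lit 0) (nat_lit 0) (XT.nd (nat_lit 78) (nat_lit 456) (nat_lit 0) (XT.lf (nat_lit 76) (nat_lit 64164113452) (nat_lit 0) (nat_lit 292765083) (nat_lit 532) (nat_lit 468039216) (nat_lit 82) (nat_lit 5) (nat_lit 81) (nat_lit 3) (nat_lit 88) (nat_lit 5) (nat_lit 437) (nat_lit 435) (nat_lit 328)) (XT.lf (nat_lit 0) (nat_lit 2030931629) (nat_lit 532) (nat_lit 33583061848) (nat_lit 608) (nat_lit 31908753749)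 (nat_lit 75) (nat_lit 5) (nat_lit 82) (nat_lit 5) (nat_lit 83) (nat_lit 5) (nat_lit 438) (nat_lit 435) (nat_lit 327))) (XT.nd (nat_lit 78) (nat_lit 0) (nat_lit 76) (XT.lf (nat_lit 76) (nat_lit 1169860502) (nat_lit 0) (nat_lit 3590218729) (nat_lit 608) (nat_lit 65562908012) (nat_lit 76) (nat_lit 5) (nat_lit 75) (nat_lit 5) (nat_lit 83) (nat_lit 5) (nat_lit 439) (nat_lit 435) (nat_lit 326)) (XT.lf (nat_lit 0) (nat_lit 9393631268) (nat_lit 532) (nat_lit 33431364506) (nat_lit 608) (nat_lit 30387365215) (nat_lit 76) (nat_lit 5) (nat_lit 83) (nat_lit 5) (nat_lit 84) (nat_lit 5) (nat_lit 440) (nat_lit 435) (nat_lit 325))))))))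
noncomputable def xc174 : XT := (XT.nd (nat_lit 1950) (nat_lit 1596) (nat_lit 0) (XT.nd (nat_lit 936) (nat_lit 1216) (nat_lit 0) (XT.nd (nat_lit 468) (nat_lit 836) (nat_lit 0) (XT.nd (nat_lit 234) (nat_lit 228) (nat_lit 0) (XT.nd (nat_lit 78) (nat_lit 380) (nat_lit 0) (XT.lf (nat_lit 76) (nat_lit 5319898579) (nat_lit 0) (nat_lit 9297832425) (nat_lit 608) (nat_lit 61697564859) (nat_lit 77) (nat_lit 5) (nat_lit 76) (nat_lit 5) (nat_lit 84) (nat_lit 5) (nat_lit 441) (nat_lit 435) (nat_lit 324)) (XT.nd (nat_lit 78) (nat_lit 456) (nat_lit 0) (XT.lf (nat_lit 0) (nat_lit 21843540300) (nat_lit 532) (nat_lit 31192957940) (nat_lit 76) (nat_lit 26503265051) (nat_lit 77) (nat_lit 5) (nat_lit 84) (nat_lit 5) (nat_lit 78) (nat_lit 5) (nat_lit 442) (nat_lit 435) (nat_lit 323)) (XT.lf (nat_lit 0) (nat_lit 12159333715) (nat_lit 456) (nat_lit 18020852401) (nat_lit 532) (nat_lit 52799380520) (nat_lit 71)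 (nat_lit 5) (nat_lit 77) (nat_lit 5) (nat_lit 78) (nat_lit 5) (nat_lit 443) (nat_lit 435) (nat_lit 322)))) (XT.nd (nat_lit 78) (nat_lit 228) (nat_lit 0) (XT.lf (nat_lit 0) (nat_lit 40533780635) (nat_lit 532) (nat_lit 26371953707) (nat_lit 76) (nat_lit 19680818792) (nat_lit 71) (nat_lit 5) (nat_lit 78) (nat_lit 5) (nat_lit 72) (nat_lit 5) (nat_lit 444) (nat_lit 435) (nat_lit 321)) (XT.nd (nat_lit 78) (nat_lit 0) (nat_lit 0) (XT.lf (nat_lit 0) (nat_lit 22277446745) (nat_lit 228) (nat_lit 30441043222) (nat_lit 304) (nat_lit 37683382631) (nat_lit 68) (nat_lit 5) (nat_lit 71) (nat_lit 5) (nat_lit 72) (nat_lit 5) (nat_lit 445) (nat_lit 435) (nat_lit 320)) (XT.lf (nat_lit 0) (nat_lit 66831816241) (nat_lit 304) (nat_lit 18381017077) (nat_lit 76) (nat_lit 9233277301) (nat_lit 68) (nat_lit 5) (nat_lit 72) (nat_lit 5) (nat_lit 69) (nat_lit 5) (nat_lit 446) (nat_lit 435) (nat_lit 319))))) (XT.nd (nat_lit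 234) (nat_lit 380) (nat_lit 0) (XT.nd (nat_lit 78) (nat_lit 228) (nat_lit 0) (XT.lf (nat_lit 0) (nat_lit 36369496932) (nat_lit 228) (nat_lit 47369175873) (nat_lit 304) (nat_lit 14942057937) (nat_lit 65) (nat_lit 5) (nat_lit 68) (nat_lit 5) (nat_lit 69) (nat_lit 5) (nat_lit 447) (nat_lit 435) (nat_lit 318)) (XT.nd (nat_lit 78) (nat_lit 228) (nat_lit 0) (XT.lf (nat_lit 0) (nat_lit 96544382578) (nat_lit 228) (nat_lit 5955407604) (nat_lit 304) (nat_lit 714193490) (nat_lit 65) (nat_lit 5) (nat_lit 68) (nat_lit 5) (nat_lit 69) (nat_lit 5) (nat_lit 448) (nat_lit 435) (nat_lit 317)) (XT.lf (nat_lit 0) (nat_lit 16238183014) (nat_lit 228) (nat_lit 53086215057) (nat_lit 76) (nat_lit 38571770217) (nat_lit 62) (nat_lit 5) (nat_lit 65) (nat_lit 5) (nat_lit 63) (nat_lit 5) (nat_lit 449) (nat_lit 435) (nat_lit 316)))) (XT.nd (nat_lit 78) (nat_lit 152) (nat_lit 0) (XT.lf (nat_lit 0) (nat_lit 8915858137)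 (nat_lit 228) (nat_lit 26147732739) (nat_lit 304) (nat_lit 77843418802) (nat_lit 59) (nat_lit 5) (nat_lit 62) (nat_lit 5) (nat_lit 63) (nat_lit 5) (nat_lit 450) (nat_lit 435) (nat_lit 315)) (XT.nd (nat_lit 78) (nat_lit 152) (nat_lit 0) (XT.lf (nat_lit 0) (nat_lit 57376068034) (nat_lit 304) (nat_lit 39836805858) (nat_lit 76) (nat_lit 20947361688) (nat_lit 59) (nat_lit 5) (nat_lit 63) (nat_lit 5) (nat_lit 60) (nat_lit 5) (nat_lit 451) (nat_lit 435) (nat_lit 314)) (XT.lf (nat_lit 0) (nat_lit 30284723761) (nat_lit 152) (nat_lit 52595632320) (nat_lit 228) (nat_lit 40840818581) (nat_lit 57) (nat_lit 5) (nat_lit 59) (nat_lit 5) (nat_lit 60) (nat_lit 5) (nat_lit 452) (nat_lit 435) (nat_lit 313)))))) (XT.nd (nat_lit 468) (nat_lit 684) (nat_lit 0) (XT.nd (nat_lit 234) (nat_lit 152) (nat_lit 0) (XT.nd (nat_lit 78) (nat_lit 380) (nat_lit 0) (XT.lf (nat_lit 0) (nat_lit 108280588299) (nat_lit 152) (nat_lit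 3232939250) (nat_lit 228) (nat_lit 18126378205) (nat_lit 57) (nat_lit 5) (nat_lit 59) (nat_lit 5) (nat_lit 60) (nat_lit 5) (nat_lit 453) (nat_lit 435) (nat_lit 312)) (XT.nd (nat_lit 78) (nat_lit 152) (nat_lit 0) (XT.lf (nat_lit 0) (nat_lit 8755649444) (nat_lit 228) (nat_lit 77855986518) (nat_lit 76) (nat_lit 49194508062) (nat_lit 54) (nat_lit 5) (nat_lit 57) (nat_lit 5) (nat_lit 55) (nat_lit 5) (nat_lit 454) (nat_lit 435) (nat_lit 311)) (XT.lf (nat_lit 0) (nat_lit 1925597380) (nat_lit 152) (nat_lit 35612184354) (nat_lit 228) (nat_lit 104831927499) (nat_lit 52) (nat_lit 5) (nat_lit 54) (nat_lit 5) (nat_lit 55) (nat_lit 5) (nat_lit 455) (nat_lit 435) (nat_lit 310)))) (XT.nd (nat_lit 78) (nat_lit 152) (nat_lit 0) (XT.lf (nat_lit 0) (nat_lit 71274084469) (nat_lit 228) (nat_lit 57295035297) (nat_lit 76) (nat_lit 20677111985) (nat_lit 52) (nat_lit 5) (nat_lit 55) (nat_lit 5) (nat_lit 53) (nat_lit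 5) (nat_lit 456) (nat_lit 435) (nat_lit 309)) (XT.nd (nat_lit 78) (nat_lit 0) (nat_lit 0) (XT.lf (nat_lit 0) (nat_lit 33243056042) (nat_lit 152) (nat_lit 76190168465) (nat_lit 228) (nat_lit 47101736997) (nat_lit 50) (nat_lit 5) (nat_lit 52) (nat_lit 5) (nat_lit 53) (nat_lit 5) (nat_lit 457) (nat_lit 435) (nat_lit 308)) (XT.lf (nat_lit 0) (nat_lit 134281764348) (nat_lit 152) (nat_lit 17929344862) (nat_lit 228) (nat_lit 12070399423) (nat_lit 50) (nat_lit 5) (nat_lit 52) (nat_lit 5) (nat_lit 53) (nat_lit 5) (nat_lit 458) (nat_lit 435) (nat_lit 307))))) (XT.nd (nat_lit 234) (nat_lit 380) (nat_lit 0) (XT.nd (nat_lit 78) (nat_lit 152) (nat_lit 0) (XT.lf (nat_lit 0) (nat_lit 27393996815) (nat_lit 152) (nat_lit 99771908620) (nat_lit 76) (nat_lit 45198757757) (nat_lit 48) (nat_lit 5) (nat_lit 50) (nat_lit 5) (nat_lit 49) (nat_lit 5) (nat_lit 459) (nat_lit 435) (nat_lit 306)) (XT.nd (nat_lit 78)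 (nat_lit 0) (nat_lit 0) (XT.lf (nat_lit 0) (nat_lit 3440687972) (nat_lit 152) (nat_lit 67312242412) (nat_lit 228) (nat_lit 110205298384) (nat_lit 46) (nat_lit 5) (nat_lit 48) (nat_lit 5) (nat_lit 49) (nat_lit 5) (nat_lit 460) (nat_lit 435) (nat_lit 305)) (XT.lf (nat_lit 0) (nat_lit 120314667759) (nat_lit 228) (nat_lit 69444104912) (nat_lit 76) (nat_lit 261779842) (nat_lit 46) (nat_lit 5) (nat_lit 49) (nat_lit 5) (nat_lit 47) (nat_lit 4) (nat_lit 461) (nat_lit 435) (nat_lit 304)))) (XT.nd (nat_lit 156) (nat_lit 228) (nat_lit 0) (XT.nd (nat_lit 78) (nat_lit 76) (nat_lit 0) (XT.lf (nat_lit 0) (nat_lit 47923384965) (nat_lit 76) (nat_lit 128818436885) (nat_lit 152) (nat_lit 22834002138) (nat_lit 45) (nat_lit 5) (nat_lit 46) (nat_lit 5) (nat_lit 47) (nat_lit 4) (nat_lit 462) (nat_lit 435) (nat_lit 303)) (XT.lf (nat_lit 0) (nat_lit 28345176819) (nat_lit 152) (nat_lit 31832384865) (nat_lit 76)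 (nat_lit 149508684438) (nat_lit 44) (nat_lit 5) (nat_lit 46) (nat_lit 5) (nat_lit 45) (nat_lit 5) (nat_lit 463) (nat_lit 435) (nat_lit 302))) (XT.nd (nat_lit 78) (nat_lit 76) (nat_lit 0) (XT.lf (nat_lit 0) (nat_lit 85254599926) (nat_lit 228) (nat_lit 118690220160) (nat_lit 76) (nat_lit 16383671579) (nat_lit 42) (nat_lit 5) (nat_lit 45) (nat_lit 5) (nat_lit 43) (nat_lit 4) (nat_lit 464) (nat_lit 435) (nat_lit 301)) (XT.lf (nat_lit 0) (nat_lit 15008845037) (nat_lit 76) (nat_lit 134524501688) (nat_lit 152) (nat_lit 82063444574) (nat_lit 41) (nat_lit 5) (nat_lit 42) (nat_lit 5) (nat_lit 43) (nat_lit 4) (nat_lit 465) (nat_lit 435) (nat_lit 300))))))) (XT.nd (nat_lit 936) (nat_lit 836) (nat_lit 0) (XT.nd (nat_lit 468) (nat_lit 380) (nat_lit 0) (XT.nd (nat_lit 234) (nat_lit 228) (nat_lit 0) (XT.nd (nat_lit 78) (nat_lit 152) (nat_lit 0) (XT.lf (nat_lit 0) (nat_lit 166153146008) (nat_lit 76) (nat_lit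 56046054169) (nat_lit 152) (nat_lit 21307770209) (nat_lit 41) (nat_lit 5) (nat_lit 42) (nat_lit 5) (nat_lit 43) (nat_lit 4) (nat_lit 466) (nat_lit 435) (nat_lit 299)) (XT.nd (nat_lit 78) (nat_lit 0) (nat_lit 0) (XT.lf (nat_lit 0) (nat_lit 44678565859) (nat_lit 152) (nat_lit 181162855816) (nat_lit 76) (nat_lit 30236357484) (nat_lit 39) (nat_lit 5) (nat_lit 41) (nat_lit 5) (nat_lit 40) (nat_lit 4) (nat_lit 467) (nat_lit 435) (nat_lit 298)) (XT.lf (nat_lit 0) (nat_lit 118417933351) (nat_lit 152) (nat_lit 27785506642) (nat_lit 76) (nat_lit 123116512977) (nat_lit 39) (nat_lit 5) (nat_lit 41) (nat_lit 5) (nat_lit 40) (nat_lit 4) (nat_lit 468) (nat_lit 435) (nat_lit 297)))) (XT.nd (nat_lit 78) (nat_lit 152) (nat_lit 0) (XT.lf (nat_lit 0) (nat_lit 145120938271) (nat_lit 76) (nat_lit 56425331847) (nat_lit 152) (nat_lit 81796045000) (nat_lit 38) (nat_lit 5) (nat_lit 39) (nat_lit 5) (nat_lit 40) (nat_lit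 4) (nat_lit 469) (nat_lit 435) (nat_lit 296)) (XT.nd (nat_lit 78) (nat_lit 76) (nat_lit 0) (XT.lf (nat_lit 0) (nat_lit 35810550032) (nat_lit 76) (nat_lit 258129535941) (nat_lit 76) (nat_lit 4337163318) (nat_lit 37) (nat_lit 4) (nat_lit 38) (nat_lit 5) (nat_lit 38) (nat_lit 4) (nat_lit 470) (nat_lit 435) (nat_lit 295)) (XT.lf (nat_lit 0) (nat_lit 80693235080) (nat_lit 152) (nat_lit 85950837048) (nat_lit 76) (nat_lit 147182886459) (nat_lit 36) (nat_lit 5) (nat_lit 38) (nat_lit 5) (nat_lit 37) (nat_lit 4) (nat_lit 471) (nat_lit 435) (nat_lit 294))))) (XT.nd (nat_lit 234) (nat_lit 152) (nat_lit 0) (XT.nd (nat_lit 78) (nat_lit 152) (nat_lit 0) (XT.lf (nat_lit 0) (nat_lit 110079684377) (nat_lit 76) (nat_lit 64859168818) (nat_lit 152) (nat_lit 155461010577) (nat_lit 35) (nat_lit 5) (nat_lit 36) (nat_lit 5) (nat_lit 37) (nat_lit 4) (nat_lit 472) (nat_lit 435) (nat_lit 293)) (XT.nd (nat_lit 78)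 (nat_lit 152) (nat_lit 0) (XT.lf (nat_lit 0) (nat_lit 280218799396) (nat_lit 152) (nat_lit 22575379735) (nat_lit 0) (nat_lit 45224847967) (nat_lit 35) (nat_lit 5) (nat_lit 37) (nat_lit 4) (nat_lit 35) (nat_lit 4) (nat_lit 473) (nat_lit 435) (nat_lit 292)) (XT.lf (nat_lit 0) (nat_lit 32174199989) (nat_lit 152) (nat_lit 168071904607) (nat_lit 76) (nat_lit 166218306451) (nat_lit 33) (nat_lit 5) (nat_lit 35) (nat_lit 5) (nat_lit 34) (nat_lit 4) (nat_lit 474) (nat_lit 435) (nat_lit 291)))) (XT.nd (nat_lit 78) (nat_lit 76) (nat_lit 0) (XT.lf (nat_lit 0) (nat_lit 52851900410) (nat_lit 76) (nat_lit 85535796095) (nat_lit 152) (nat_lit 247704518593) (nat_lit 32) (nat_lit 5) (nat_lit 33) (nat_lit 5) (nat_lit 34) (nat_lit 4) (nat_lit 475) (nat_lit 435) (nat_lit 290)) (XT.nd (nat_lit 78) (nat_lit 76) (nat_lit 0) (XT.lf (nat_lit 0) (nat_lit 258735084819) (nat_lit 152) (nat_lit 106956866131) (nat_lit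 0) (nat_lit 41147347571) (nat_lit 32) (nat_lit 5) (nat_lit 34) (nat_lit 4) (nat_lit 32) (nat_lit 4) (nat_lit 476) (nat_lit 435) (nat_lit 289)) (XT.lf (nat_lit 0) (nat_lit 142326803060) (nat_lit 76) (nat_lit 252027871272) (nat_lit 76) (nat_lit 34439921485) (nat_lit 31) (nat_lit 4) (nat_lit 32) (nat_lit 5) (nat_lit 32) (nat_lit 4) (nat_lit 477) (nat_lit 435) (nat_lit 288)))))) (XT.nd (nat_lit 468) (nat_lit 456) (nat_lit 0) (XT.nd (nat_lit 234) (nat_lit 152) (nat_lit 0) (XT.nd (nat_lit 78) (nat_lit 152) (nat_lit 0) (XT.lf (nat_lit 0) (nat_lit 86899601767) (nat_lit 152) (nat_lit 36836974906) (nat_lit 76) (nat_lit 328359810175) (nat_lit 30) (nat_lit 5) (nat_lit 32) (nat_lit 5) (nat_lit 31) (nat_lit 4) (nat_lit 478) (nat_lit 435) (nat_lit 287)) (XT.nd (nat_lit 78) (nat_lit 76) (nat_lit 0) (XT.lf (nat_lit 0) (nat_lit 222487577007) (nat_lit 152) (nat_lit 233174123263) (nat_lit 0) (nat_lit 21016902192)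 (nat_lit 29) (nat_lit 5) (nat_lit 31) (nat_lit 4) (nat_lit 29) (nat_lit 4) (nat_lit 479) (nat_lit 435) (nat_lit 286)) (XT.lf (nat_lit 0) (nat_lit 44191444133) (nat_lit 76) (nat_lit 330040997081) (nat_lit 76) (nat_lit 128570166044) (nat_lit 28) (nat_lit 4) (nat_lit 29) (nat_lit 5) (nat_lit 29) (nat_lit 4) (nat_lit 480) (nat_lit 435) (nat_lit 285)))) (XT.nd (nat_lit 78) (nat_lit 76) (nat_lit 0) (XT.lf (nat_lit 0) (nat_lit 13285921951) (nat_lit 152) (nat_lit 173836258027) (nat_lit 76) (nat_lit 343357431460) (nat_lit 27) (nat_lit 5) (nat_lit 29) (nat_lit 5) (nat_lit 28) (nat_lit 4) (nat_lit 481) (nat_lit 435) (nat_lit 284)) (XT.nd (nat_lit 78) (nat_lit 0) (nat_lit 0) (XT.lf (nat_lit 0) (nat_lit 137246332718) (nat_lit 76) (nat_lit 25598591483) (nat_lit 152) (nat_lit 396994648518) (nat_lit 26) (nat_lit 5) (nat_lit 27) (nat_lit 5) (nat_lit 28) (nat_lit 4) (nat_lit 482) (nat_lit 435) (nat_lit 283))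 (XT.lf (nat_lit 0) (nat_lit 332824642551) (nat_lit 152) (nat_lit 111770004688) (nat_lit 0) (nat_lit 146277203998) (nat_lit 26) (nat_lit 5) (nat_lit 28) (nat_lit 4) (nat_lit 26) (nat_lit 4) (nat_lit 483) (nat_lit 435) (nat_lit 282))))) (XT.nd (nat_lit 234) (nat_lit 228) (nat_lit 0) (XT.nd (nat_lit 78) (nat_lit 152) (nat_lit 0) (XT.lf (nat_lit 0) (nat_lit 235009931796) (nat_lit 76) (nat_lit 287709495022) (nat_lit 76) (nat_lit 101161950147) (nat_lit 25) (nat_lit 4) (nat_lit 26) (nat_lit 5) (nat_lit 26) (nat_lit 4) (nat_lit 484) (nat_lit 435) (nat_lit 281)) (XT.nd (nat_lit 78) (nat_lit 76) (nat_lit 0) (XT.lf (nat_lit 0) (nat_lit 67993942871) (nat_lit 152) (nat_lit 45120242147) (nat_lit 76) (nat_lit 546035307201) (nat_lit 24) (nat_lit 5) (nat_lit 26) (nat_lit 5) (nat_lit 25) (nat_lit 4) (nat_lit 485) (nat_lit 435) (nat_lit 280)) (XT.lf (nat_lit 0) (nat_lit 255502211875) (nat_lit 152) (nat_lit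 357930987881) (nat_lit 0) (nat_lit 82772828101) (nat_lit 23) (nat_lit 5) (nat_lit 25) (nat_lit 4) (nat_lit 23) (nat_lit 4) (nat_lit 486) (nat_lit 435) (nat_lit 279)))) (XT.nd (nat_lit 156) (nat_lit 152) (nat_lit 0) (XT.nd (nat_lit 78) (nat_lit 0) (nat_lit 0) (XT.lf (nat_lit 0) (nat_lit 16641607737) (nat_lit 76) (nat_lit 445973318898) (nat_lit 76) (nat_lit 273243856974) (nat_lit 22) (nat_lit 4) (nat_lit 23) (nat_lit 5) (nat_lit 23) (nat_lit 4) (nat_lit 487) (nat_lit 435) (nat_lit 278)) (XT.lf (nat_lit 0) (nat_lit 441535494366) (nat_lit 76) (nat_lit 254547448500) (nat_lit 76) (nat_lit 81817914215) (nat_lit 22) (nat_lit 4) (nat_lit 23) (nat_lit 5) (nat_lit 23) (nat_lit 4) (nat_lit 488) (nat_lit 435) (nat_lit 277))) (XT.nd (nat_lit 78) (nat_lit 0) (nat_lit 0) (XT.lf (nat_lit 0) (nat_lit 78012359139) (nat_lit 76) (nat_lit 42536660295) (nat_lit 152) (nat_lit 702366844630) (nat_lit 20) (nat_lit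 5) (nat_lit 21) (nat_lit 5) (nat_lit 22) (nat_lit 4) (nat_lit 489) (nat_lit 435) (nat_lit 276)) (XT.lf (nat_lit 0) (nat_lit 348604311420) (nat_lit 152) (nat_lit 332974767273) (nat_lit 0) (nat_lit 188669437972) (nat_lit 20) (nat_lit 5) (nat_lit 22) (nat_lit 4) (nat_lit 20) (nat_lit 4) (nat_lit 490) (nat_lit 435) (nat_lit 275))))))))
noncomputable def xc175 : XT := (XT.nd (nat_lit 1950) (nat_lit 228) (nat_lit 0) (XT.nd (nat_lit 936) (nat_lit 456) (nat_lit 0) (XT.nd (nat_lit 468) (nat_lit 380) (nat_lit 0) (XT.nd (nat_lit 234) (nat_lit 76) (nat_lit 0) (XT.nd (nat_lit 78) (nat_lit 152) (nat_lit 0) (XT.lf (nat_lit 0) (nat_lit 116637790338) (nat_lit 76) (nat_lit 482176065716) (nat_lit 76) (nat_lit 322241139080) (nat_lit 19) (nat_lit 4) (nat_lit 20) (nat_lit 5) (nat_lit 20) (nat_lit 4) (nat_lit 491) (nat_lit 435) (nat_lit 274)) (XT.nd (nat_lit 78) (nat_lit 152) (nat_lit 0) (XT.lf (nat_lit 0) (nat_lit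 621155605460) (nat_lit 76) (nat_lit 256988522601) (nat_lit 76) (nat_lit 97053546718) (nat_lit 19) (nat_lit 4) (nat_lit 20) (nat_lit 5) (nat_lit 20) (nat_lit 4) (nat_lit 492) (nat_lit 435) (nat_lit 273)) (XT.lf (nat_lit 0) (nat_lit 135632788672) (nat_lit 76) (nat_lit 6467120056) (nat_lit 152) (nat_lit 891029723152) (nat_lit 17) (nat_lit 5) (nat_lit 18) (nat_lit 5) (nat_lit 19) (nat_lit 4) (nat_lit 493) (nat_lit 435) (nat_lit 272)))) (XT.nd (nat_lit 78) (nat_lit 76) (nat_lit 0) (XT.lf (nat_lit 0) (nat_lit 411425164735) (nat_lit 152) (nat_lit 419429533402) (nat_lit 0) (nat_lit 263337142785) (nat_lit 17) (nat_lit 5) (nat_lit 19) (nat_lit 4) (nat_lit 17) (nat_lit 4) (nat_lit 494) (nat_lit 435) (nat_lit 271)) (XT.nd (nat_lit 78) (nat_lit 0) (nat_lit 0) (XT.lf (nat_lit 0) (nat_lit 101807740041) (nat_lit 76) (nat_lit 603105019659) (nat_lit 76) (nat_lit 455016961511) (nat_lit 16) (nat_lit 4) (nat_lit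 17) (nat_lit 5) (nat_lit 17) (nat_lit 4) (nat_lit 495) (nat_lit 435) (nat_lit 270)) (XT.lf (nat_lit 0) (nat_lit 688597052164) (nat_lit 76) (nat_lit 344750123190) (nat_lit 76) (nat_lit 196662031524) (nat_lit 16) (nat_lit 4) (nat_lit 17) (nat_lit 5) (nat_lit 17) (nat_lit 4) (nat_lit 496) (nat_lit 435) (nat_lit 269))))) (XT.nd (nat_lit 234) (nat_lit 228) (nat_lit 0) (XT.nd (nat_lit 78) (nat_lit 0) (nat_lit 0) (XT.lf (nat_lit 0) (nat_lit 15425030357) (nat_lit 76) (nat_lit 63187062458) (nat_lit 152) (nat_lit 1226894827668) (nat_lit 14) (nat_lit 5) (nat_lit 15) (nat_lit 5) (nat_lit 16) (nat_lit 4) (nat_lit 497) (nat_lit 435) (nat_lit 268)) (XT.nd (nat_lit 78) (nat_lit 0) (nat_lit 0) (XT.lf (nat_lit 0) (nat_lit 386264504093) (nat_lit 152) (nat_lit 749546956165) (nat_lit 0) (nat_lit 249145845357) (nat_lit 14) (nat_lit 5) (nat_lit 16) (nat_lit 4) (nat_lit 14) (nat_lit 4) (nat_lit 498) (nat_lit 435)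 (nat_lit 267)) (XT.lf (nat_lit 0) (nat_lit 720170213340) (nat_lit 152) (nat_lit 167410689850) (nat_lit 0) (nat_lit 583051529967) (nat_lit 14) (nat_lit 5) (nat_lit 16) (nat_lit 4) (nat_lit 14) (nat_lit 4) (nat_lit 499) (nat_lit 435) (nat_lit 266)))) (XT.nd (nat_lit 78) (nat_lit 152) (nat_lit 0) (XT.lf (nat_lit 0) (nat_lit 485587298917) (nat_lit 76) (nat_lit 606879357981) (nat_lit 76) (nat_lit 469760651797) (nat_lit 13) (nat_lit 4) (nat_lit 14) (nat_lit 5) (nat_lit 14) (nat_lit 4) (nat_lit 500) (nat_lit 435) (nat_lit 265)) (XT.nd (nat_lit 78) (nat_lit 152) (nat_lit 0) (XT.lf (nat_lit 0) (nat_lit 1200345704496) (nat_lit 76) (nat_lit 298778310578) (nat_lit 76) (nat_lit 161659583273) (nat_lit 13) (nat_lit 4) (nat_lit 14) (nat_lit 5) (nat_lit 14) (nat_lit 4) (nat_lit 501) (nat_lit 435) (nat_lit 264)) (XT.lf (nat_lit 0) (nat_lit 168674112080) (nat_lit 152) (nat_lit 1556017342232) (nat_lit 0) (nat_lit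 41712309430) (nat_lit 11) (nat_lit 5) (nat_lit 13) (nat_lit 4) (nat_lit 11) (nat_lit 4) (nat_lit 502) (nat_lit 435) (nat_lit 263)))))) (XT.nd (nat_lit 468) (nat_lit 228) (nat_lit 0) (XT.nd (nat_lit 234) (nat_lit 152) (nat_lit 0) (XT.nd (nat_lit 78) (nat_lit 76) (nat_lit 0) (XT.lf (nat_lit 0) (nat_lit 537377241732) (nat_lit 152) (nat_lit 930690837896) (nat_lit 0) (nat_lit 410415422315) (nat_lit 11) (nat_lit 5) (nat_lit 13) (nat_lit 4) (nat_lit 11) (nat_lit 4) (nat_lit 503) (nat_lit 435) (nat_lit 262)) (XT.nd (nat_lit 78) (nat_lit 76) (nat_lit 0) (XT.lf (nat_lit 0) (nat_lit 935576528828) (nat_lit 152) (nat_lit 255338403921) (nat_lit 0) (nat_lit 808614693886) (nat_lit 11) (nat_lit 5) (nat_lit 13) (nat_lit 4) (nat_lit 11) (nat_lit 4) (nat_lit 504) (nat_lit 435) (nat_lit 261)) (XT.lf (nat_lit 0) (nat_lit 499004262373) (nat_lit 76) (nat_lit 878628474985) (nat_lit 76) (nat_lit 751666625667) (nat_lit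 10) (nat_lit 4) (nat_lit 11) (nat_lit 5) (nat_lit 11) (nat_lit 4) (nat_lit 505) (nat_lit 435) (nat_lit 260)))) (XT.nd (nat_lit 78) (nat_lit 152) (nat_lit 0) (XT.lf (nat_lit 0) (nat_lit 1328215491142) (nat_lit 76) (nat_lit 533819272081) (nat_lit 76) (nat_lit 406857409454) (nat_lit 10) (nat_lit 4) (nat_lit 11) (nat_lit 5) (nat_lit 11) (nat_lit 4) (nat_lit 506) (nat_lit 435) (nat_lit 259)) (XT.nd (nat_lit 78) (nat_lit 152) (nat_lit 0) (XT.lf (nat_lit 0) (nat_lit 2223763458849) (nat_lit 76) (nat_lit 161425414705) (nat_lit 76) (nat_lit 34463539753) (nat_lit 10) (nat_lit 4) (nat_lit 11) (nat_lit 5) (nat_lit 11) (nat_lit 4) (nat_lit 507) (nat_lit 435) (nat_lit 258)) (XT.lf (nat_lit 0) (nat_lit 370921828760) (nat_lit 152) (nat_lit 1955752026336) (nat_lit 0) (nat_lit 253364526572) (nat_lit 8) (nat_lit 5) (nat_lit 10) (nat_lit 4) (nat_lit 8) (nat_lit 4) (nat_lit 508) (nat_lit 435) (nat_lit 257)))))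 (XT.nd (nat_lit 234) (nat_lit 152) (nat_lit 0) (XT.nd (nat_lit 78) (nat_lit 76) (nat_lit 0) (XT.lf (nat_lit 0) (nat_lit 816563961509) (nat_lit 152) (nat_lit 1236837975018) (nat_lit 0) (nat_lit 699006649537) (nat_lit 8) (nat_lit 5) (nat_lit 10) (nat_lit 4) (nat_lit 8) (nat_lit 4) (nat_lit 509) (nat_lit 435) (nat_lit 256)) (XT.nd (nat_lit 78) (nat_lit 76) (nat_lit 0) (XT.lf (nat_lit 0) (nat_lit 1297857396698) (nat_lit 152) (nat_lit 460410939899) (nat_lit 0) (nat_lit 1180300075669) (nat_lit 8) (nat_lit 5) (nat_lit 10) (nat_lit 4) (nat_lit 8) (nat_lit 4) (nat_lit 510) (nat_lit 435) (nat_lit 255)) (XT.lf (nat_lit 0) (nat_lit 398041790559) (nat_lit 76) (nat_lit 1429185367651) (nat_lit 76) (nat_lit 1311628038234) (nat_lit 7) (nat_lit 4) (nat_lit 8) (nat_lit 5) (nat_lit 8) (nat_lit 4) (nat_lit 511) (nat_lit 435) (nat_lit 254)))) (XT.nd (nat_lit 156) (nat_lit 152) (nat_lit 0) (XT.nd (nat_lit 78)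 (nat_lit 0) (nat_lit 0) (XT.lf (nat_lit 0) (nat_lit 1351354590945) (nat_lit 76) (nat_lit 1060180299217) (nat_lit 76) (nat_lit 942622962034) (nat_lit 7) (nat_lit 4) (nat_lit 8) (nat_lit 5) (nat_lit 8) (nat_lit 4) (nat_lit 512) (nat_lit 435) (nat_lit 253)) (XT.lf (nat_lit 0) (nat_lit 2380932298119) (nat_lit 76) (nat_lit 661654885610) (nat_lit 76) (nat_lit 544097541235) (nat_lit 7) (nat_lit 4) (nat_lit 8) (nat_lit 5) (nat_lit 8) (nat_lit 4) (nat_lit 513) (nat_lit 435) (nat_lit 252))) (XT.nd (nat_lit 78) (nat_lit 152) (nat_lit 0) (XT.lf (nat_lit 0) (nat_lit 3492876113308) (nat_lit 76) (nat_lit 231247494748) (nat_lit 76) (nat_lit 113690143715) (nat_lit 7) (nat_lit 4) (nat_lit 8) (nat_lit 5) (nat_lit 8) (nat_lit 4) (nat_lit 514) (nat_lit 435) (nat_lit 251)) (XT.lf (nat_lit 0) (nat_lit 354389871606) (nat_lit 152) (nat_lit 3506762672270) (nat_lit 0) (nat_lit 245540466793) (nat_lit 5) (nat_lit 5)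 (nat_lit 7) (nat_lit 4) (nat_lit 5) (nat_lit 4) (nat_lit 515) (nat_lit 435) (nat_lit 250))))))) (XT.nd (nat_lit 1014) (nat_lit 0) (nat_lit 0) (XT.nd (nat_lit 468) (nat_lit 152) (nat_lit 0) (XT.nd (nat_lit 234) (nat_lit 76) (nat_lit 0) (XT.nd (nat_lit 78) (nat_lit 0) (nat_lit 0) (XT.lf (nat_lit 0) (nat_lit 869456618513) (nat_lit 152) (nat_lit 2765527940003) (nat_lit 0) (nat_lit 760607208414) (nat_lit 5) (nat_lit 5) (nat_lit 7) (nat_lit 4) (nat_lit 5) (nat_lit 4) (nat_lit 516) (nat_lit 435) (nat_lit 249)) (XT.nd (nat_lit 78) (nat_lit 0) (nat_lit 0) (XT.lf (nat_lit 0) (nat_lit 1425728658840) (nat_lit 152) (nat_lit 1964994524712) (nat_lit 0) (nat_lit 1316879243847) (nat_lit 5) (nat_lit 5) (nat_lit 7) (nat_lit 4) (nat_lit 5) (nat_lit 4) (nat_lit 517) (nat_lit 435) (nat_lit 248)) (XT.lf (nat_lit 0) (nat_lit 2026502419493) (nat_lit 152) (nat_lit 1100418524677) (nat_lit 0) (nat_lit 1917652999968)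 (nat_lit 5) (nat_lit 5) (nat_lit 7) (nat_lit 4) (nat_lit 5) (nat_lit 4) (nat_lit 518) (nat_lit 435) (nat_lit 247)))) (XT.nd (nat_lit 78) (nat_lit 76) (nat_lit 0) (XT.lf (nat_lit 0) (nat_lit 2675338041275) (nat_lit 152) (nat_lit 166676526565) (nat_lit 0) (nat_lit 2566488617554) (nat_lit 5) (nat_lit 5) (nat_lit 7) (nat_lit 4) (nat_lit 5) (nat_lit 4) (nat_lit 519) (nat_lit 435) (nat_lit 246)) (XT.nd (nat_lit 78) (nat_lit 0) (nat_lit 0) (XT.lf (nat_lit 0) (nat_lit 886090595829) (nat_lit 76) (nat_lit 2511300380330) (nat_lit 76) (nat_lit 2402450952724) (nat_lit 4) (nat_lit 4) (nat_lit 5) (nat_lit 5) (nat_lit 5) (nat_lit 4) (nat_lit 520) (nat_lit 435) (nat_lit 245)) (XT.lf (nat_lit 0) (nat_lit 2032558055834) (nat_lit 76) (nat_lit 2149207285779) (nat_lit 76) (nat_lit 2040357854576) (nat_lit 4) (nat_lit 4) (nat_lit 5) (nat_lit 5) (nat_lit 5) (nat_lit 4) (nat_lit 521) (nat_lit 435) (nat_lit 244)))))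 (XT.nd (nat_lit 234) (nat_lit 152) (nat_lit 0) (XT.nd (nat_lit 78) (nat_lit 0) (nat_lit 0) (XT.lf (nat_lit 0) (nat_lit 3270742844179) (nat_lit 76) (nat_lit 1758146778943) (nat_lit 76) (nat_lit 1649297344410) (nat_lit 4) (nat_lit 4) (nat_lit 5) (nat_lit 5) (nat_lit 5) (nat_lit 4) (nat_lit 522) (nat_lit 435) (nat_lit 243)) (XT.nd (nat_lit 78) (nat_lit 0) (nat_lit 0) (XT.lf (nat_lit 0) (nat_lit 4607982352204) (nat_lit 76) (nat_lit 1335801464228) (nat_lit 76) (nat_lit 1226952026610) (nat_lit 4) (nat_lit 4) (nat_lit 5) (nat_lit 5) (nat_lit 5) (nat_lit 4) (nat_lit 523) (nat_lit 435) (nat_lit 242)) (XT.lf (nat_lit 0) (nat_lit 6052200962177) (nat_lit 76) (nat_lit 879668554582) (nat_lit 76) (nat_lit 770819114109) (nat_lit 4) (nat_lit 4) (nat_lit 5) (nat_lit 5) (nat_lit 5) (nat_lit 4) (nat_lit 524) (nat_lit 435) (nat_lit 241)))) (XT.nd (nat_lit 156) (nat_lit 0) (nat_lit 0) (XT.nd (nat_lit 78) (nat_lit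 152) (nat_lit 0) (XT.lf (nat_lit 0) (nat_lit 7611957006603) (nat_lit 76) (nat_lit 387045040171) (nat_lit 76) (nat_lit 278195597053) (nat_lit 4) (nat_lit 4) (nat_lit 5) (nat_lit 5) (nat_lit 5) (nat_lit 4) (nat_lit 525) (nat_lit 435) (nat_lit 240)) (XT.lf (nat_lit 0) (nat_lit 254985873877) (nat_lit 152) (nat_lit 8486886083933) (nat_lit 0) (nat_lit 154199350205) (nat_lit 2) (nat_lit 5) (nat_lit 4) (nat_lit 4) (nat_lit 2) (nat_lit 4) (nat_lit 526) (nat_lit 435) (nat_lit 239))) (XT.nd (nat_lit 78) (nat_lit 0) (nat_lit 0) (XT.lf (nat_lit 0) (nat_lit 844506463105) (nat_lit 152) (nat_lit 7973353245029) (nat_lit 0) (nat_lit 743719937333) (nat_lit 2) (nat_lit 5) (nat_lit 4) (nat_lit 4) (nat_lit 2) (nat_lit 4) (nat_lit 527) (nat_lit 435) (nat_lit 238)) (XT.lf (nat_lit 0) (nat_lit 1481188676319) (nat_lit 152) (nat_lit 7418737826843) (nat_lit 0) (nat_lit 1380402148605) (nat_lit 2) (nat_lit 5) (nat_lit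 4) (nat_lit 4) (nat_lit 2) (nat_lit 4) (nat_lit 528) (nat_lit 435) (nat_lit 237)))))) (XT.nd (nat_lit 55458) (nat_lit 0) (nat_lit 5244) (XT.nd (nat_lit 55224) (nat_lit 0) (nat_lit 6004) (XT.nd (nat_lit 78) (nat_lit 0) (nat_lit 0) (XT.lf (nat_lit 0) (nat_lit 2168805445155) (nat_lit 152) (nat_lit 6819753219490) (nat_lit 0) (nat_lit 2068018915641) (nat_lit 2) (nat_lit 5) (nat_lit 4) (nat_lit 4) (nat_lit 2) (nat_lit 4) (nat_lit 529) (nat_lit 435) (nat_lit 236)) (XT.nd (nat_lit 78) (nat_lit 0) (nat_lit 0) (XT.lf (nat_lit 0) (nat_lit 2911431535650) (nat_lit 152) (nat_lit 6172849884555) (nat_lit 0) (nat_lit 2810645004470) (nat_lit 2) (nat_lit 5) (nat_lit 4) (nat_lit 4) (nat_lit 2) (nat_lit 4) (nat_lit 530) (nat_lit 435) (nat_lit 235)) (XT.lf (nat_lit 0) (nat_lit 3713467695007) (nat_lit 152) (nat_lit 5474194320794) (nat_lit 0) (nat_lit 3612681162284) (nat_lit 2) (nat_lit 5) (nat_lit 4) (nat_lit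 4) (nat_lit 2) (nat_lit 4) (nat_lit 531) (nat_lit 435) (nat_lit 234)))) (XT.nd (nat_lit 78) (nat_lit 0) (nat_lit 0) (XT.lf (nat_lit 0) (nat_lit 31363744863) (nat_lit 532) (nat_lit 532185968) (nat_lit 532) (nat_lit 532185968) (nat_lit 81) (nat_lit 3) (nat_lit 88) (nat_lit 3) (nat_lit 88) (nat_lit 5) (nat_lit 436) (nat_lit 436) (nat_lit 328)) (XT.nd (nat_lit 78) (nat_lit 0) (nat_lit 0) (XT.lf (nat_lit 76) (nat_lit 32742455537) (nat_lit 0) (nat_lit 33296263307) (nat_lit 532) (nat_lit 1347589815) (nat_lit 82) (nat_lit 5) (nat_lit 81) (nat_lit 3) (nat_lit 88) (nat_lit 5) (nat_lit 437) (nat_lit 436) (nat_lit 327)) (XT.lf (nat_lit 76) (nat_lit 69313526331) (nat_lit 0) (nat_lit 328933728) (nat_lit 532) (nat_lit 474120954) (nat_lit 82) (nat_lit 5) (nat_lit 81) (nat_lit 3) (nat_lit 88) (nat_lit 5) (nat_lit 438) (nat_lit 436) (nat_lit 326))))) (XT.nd (nat_lit 234) (nat_lit 304) (nat_lit 0) (XT.nd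 (nat_lit 78) (nat_lit 0) (nat_lit 0) (XT.lf (nat_lit 0) (nat_lit 2221155676) (nat_lit 532) (nat_lit 36249797454) (nat_lit 608) (nat_lit 34451387347) (nat_lit 75) (nat_lit 5) (nat_lit 82) (nat_lit 5) (nat_lit 83) (nat_lit 5) (nat_lit 439) (nat_lit 436) (nat_lit 325)) (XT.nd (nat_lit 78) (nat_lit 0) (nat_lit 76) (XT.lf (nat_lit 76) (nat_lit 1282854650) (nat_lit 0) (nat_lit 3884191616) (nat_lit 608) (nat_lit 70779681023) (nat_lit 76) (nat_lit 5) (nat_lit 75) (nat_lit 5) (nat_lit 83) (nat_lit 5) (nat_lit 440) (nat_lit 436) (nat_lit 324)) (XT.lf (nat_lit 0) (nat_lit 10169194203) (nat_lit 532) (nat_lit 36085811899) (nat_lit 608) (nat_lit 32812412343) (nat_lit 76) (nat_lit 5) (nat_lit 83) (nat_lit 5) (nat_lit 84) (nat_lit 5) (nat_lit 441) (nat_lit 436) (nat_lit 323)))) (XT.nd (nat_lit 156) (nat_lit 380) (nat_lit 0) (XT.nd (nat_lit 78) (nat_lit 0) (nat_lit 76) (XT.lf (nat_lit 76) (nat_lit 5765044341)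 (nat_lit 0) (nat_lit 10044864706) (nat_lit 608) (nat_lit 66608784510) (nat_lit 77) (nat_lit 5) (nat_lit 76) (nat_lit 5) (nat_lit 84) (nat_lit 5) (nat_lit 442) (nat_lit 436) (nat_lit 322)) (XT.lf (nat_lit 0) (nat_lit 23612025805) (nat_lit 532) (nat_lit 33668527030) (nat_lit 76) (nat_lit 28620706510) (nat_lit 77) (nat_lit 5) (nat_lit 84) (nat_lit 5) (nat_lit 78) (nat_lit 5) (nat_lit 443) (nat_lit 436) (nat_lit 321))) (XT.nd (nat_lit 78) (nat_lit 0) (nat_lit 0) (XT.lf (nat_lit 0) (nat_lit 13151444981) (nat_lit 456) (nat_lit 19463068300) (nat_lit 532) (nat_lit 57001821235) (nat_lit 71) (nat_lit 5) (nat_lit 77) (nat_lit 5) (nat_lit 78) (nat_lit 5) (nat_lit 444) (nat_lit 436) (nat_lit 320)) (XT.lf (nat_lit 0) (nat_lit 43794908181) (nat_lit 532) (nat_lit 28462288530) (nat_lit 76) (nat_lit 21254802528) (nat_lit 71) (nat_lit 5) (nat_lit 78) (nat_lit 5) (nat_lit 72) (nat_lit 5) (nat_lit 445) (nat_lit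 436) (nat_lit 319))))))))
noncomputable def xc176 : XT := (XT.nd (nat_lit 1950) (nat_lit 1596) (nat_lit 0) (XT.nd (nat_lit 936) (nat_lit 1064) (nat_lit 0) (XT.nd (nat_lit 468) (nat_lit 532) (nat_lit 0) (XT.nd (nat_lit 234) (nat_lit 456) (nat_lit 0) (XT.nd (nat_lit 78) (nat_lit 228) (nat_lit 0) (XT.lf (nat_lit 0) (nat_lit 24078572276) (nat_lit 228) (nat_lit 32874912425) (nat_lit 304) (nat_lit 40679132633) (nat_lit 68) (nat_lit 5) (nat_lit 71) (nat_lit 5) (nat_lit 72) (nat_lit 5) (nat_lit 446) (nat_lit 436) (nat_lit 318)) (XT.nd (nat_lit 78) (nat_lit 228) (nat_lit 0) (XT.lf (nat_lit 0) (nat_lit 72194611122) (nat_lit 304) (nat_lit 19832701358) (nat_lit 76) (nat_lit 9973183474) (nat_lit 68) (nat_lit 5) (nat_lit 72) (nat_lit 5) (nat_lit 69) (nat_lit 5) (nat_lit 447) (nat_lit 436) (nat_lit 317)) (XT.lf (nat_lit 0) (nat_lit 39297377896) (nat_lit 228) (nat_lit 51155875268) (nat_lit 304) (nat_lit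 16120693830) (nat_lit 65) (nat_lit 5) (nat_lit 68) (nat_lit 5) (nat_lit 69) (nat_lit 5) (nat_lit 448) (nat_lit 436) (nat_lit 316)))) (XT.nd (nat_lit 78) (nat_lit 456) (nat_lit 0) (XT.lf (nat_lit 0) (nat_lit 104284897267) (nat_lit 228) (nat_lit 6429215514) (nat_lit 304) (nat_lit 755839394) (nat_lit 65) (nat_lit 5) (nat_lit 68) (nat_lit 5) (nat_lit 69) (nat_lit 5) (nat_lit 449) (nat_lit 436) (nat_lit 315)) (XT.nd (nat_lit 78) (nat_lit 228) (nat_lit 0) (XT.lf (nat_lit 0) (nat_lit 17551356496) (nat_lit 228) (nat_lit 57314772023) (nat_lit 76) (nat_lit 41660601117) (nat_lit 62) (nat_lit 5) (nat_lit 65) (nat_lit 5) (nat_lit 63) (nat_lit 5) (nat_lit 450) (nat_lit 436) (nat_lit 314)) (XT.lf (nat_lit 0) (nat_lit 9647002718) (nat_lit 228) (nat_lit 28235178347) (nat_lit 304) (nat_lit 84056306741) (nat_lit 59) (nat_lit 5) (nat_lit 62) (nat_lit 5) (nat_lit 63) (nat_lit 5) (nat_lit 451) (nat_lit 436)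 (nat_lit 313))))) (XT.nd (nat_lit 234) (nat_lit 380) (nat_lit 0) (XT.nd (nat_lit 78) (nat_lit 152) (nat_lit 0) (XT.lf (nat_lit 0) (nat_lit 61978753559) (nat_lit 304) (nat_lit 43006293470) (nat_lit 76) (nat_lit 22626997156) (nat_lit 59) (nat_lit 5) (nat_lit 63) (nat_lit 5) (nat_lit 60) (nat_lit 5) (nat_lit 452) (nat_lit 436) (nat_lit 312)) (XT.nd (nat_lit 78) (nat_lit 0) (nat_lit 0) (XT.lf (nat_lit 0) (nat_lit 32724516573) (nat_lit 152) (nat_lit 56798343946) (nat_lit 228) (nat_lit 44095039969) (nat_lit 57) (nat_lit 5) (nat_lit 59) (nat_lit 5) (nat_lit 60) (nat_lit 5) (nat_lit 453) (nat_lit 436) (nat_lit 311)) (XT.lf (nat_lit 0) (nat_lit 116958789910) (nat_lit 152) (nat_lit 3487001280) (nat_lit 228) (nat_lit 19564410593) (nat_lit 57) (nat_lit 5) (nat_lit 59) (nat_lit 5) (nat_lit 60) (nat_lit 5) (nat_lit 454) (nat_lit 436) (nat_lit 310)))) (XT.nd (nat_lit 78) (nat_lit 152) (nat_lit 0) (XT.lf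 (nat_lit 0) (nat_lit 9467227475) (nat_lit 228) (nat_lit 84067755681) (nat_lit 76) (nat_lit 53134760661) (nat_lit 54) (nat_lit 5) (nat_lit 57) (nat_lit 5) (nat_lit 55) (nat_lit 5) (nat_lit 455) (nat_lit 436) (nat_lit 309)) (XT.nd (nat_lit 78) (nat_lit 0) (nat_lit 0) (XT.lf (nat_lit 0) (nat_lit 2095931897) (nat_lit 152) (nat_lit 38455565993) (nat_lit 228) (nat_lit 113206931071) (nat_lit 52) (nat_lit 5) (nat_lit 54) (nat_lit 5) (nat_lit 55) (nat_lit 5) (nat_lit 456) (nat_lit 436) (nat_lit 308)) (XT.lf (nat_lit 0) (nat_lit 76986037275) (nat_lit 228) (nat_lit 61862888840) (nat_lit 76) (nat_lit 22336200684) (nat_lit 52) (nat_lit 5) (nat_lit 55) (nat_lit 5) (nat_lit 53) (nat_lit 5) (nat_lit 457) (nat_lit 436) (nat_lit 307)))))) (XT.nd (nat_lit 468) (nat_lit 532) (nat_lit 0) (XT.nd (nat_lit 234) (nat_lit 228) (nat_lit 0) (XT.nd (nat_lit 78) (nat_lit 152) (nat_lit 0) (XT.lf (nat_lit 0) (nat_lit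 35917851090) (nat_lit 152) (nat_lit 82279683937) (nat_lit 228) (nat_lit 50859449888) (nat_lit 50) (nat_lit 5) (nat_lit 52) (nat_lit 5) (nat_lit 53) (nat_lit 5) (nat_lit 458) (nat_lit 436) (nat_lit 306)) (XT.nd (nat_lit 78) (nat_lit 152) (nat_lit 0) (XT.lf (nat_lit 0) (nat_lit 145038518981) (nat_lit 152) (nat_lit 19358416520) (nat_lit 228) (nat_lit 13026377610) (nat_lit 50) (nat_lit 5) (nat_lit 52) (nat_lit 5) (nat_lit 53) (nat_lit 5) (nat_lit 459) (nat_lit 436) (nat_lit 305)) (XT.lf (nat_lit 0) (nat_lit 29594484631) (nat_lit 152) (nat_lit 107738759975) (nat_lit 76) (nat_lit 48819873161) (nat_lit 48) (nat_lit 5) (nat_lit 50) (nat_lit 5) (nat_lit 49) (nat_lit 5) (nat_lit 460) (nat_lit 436) (nat_lit 304)))) (XT.nd (nat_lit 78) (nat_lit 76) (nat_lit 0) (XT.lf (nat_lit 0) (nat_lit 3730467095) (nat_lit 152) (nat_lit 72691350794) (nat_lit 228) (nat_lit 119012375976) (nat_lit 46) (nat_lit 5) (nat_lit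 48) (nat_lit 5) (nat_lit 49) (nat_lit 5) (nat_lit 461) (nat_lit 436) (nat_lit 303)) (XT.nd (nat_lit 78) (nat_lit 76) (nat_lit 0) (XT.lf (nat_lit 0) (nat_lit 129947984024) (nat_lit 228) (nat_lit 74985673960) (nat_lit 76) (nat_lit 287886414) (nat_lit 46) (nat_lit 5) (nat_lit 49) (nat_lit 5) (nat_lit 47) (nat_lit 4) (nat_lit 462) (nat_lit 436) (nat_lit 302)) (XT.lf (nat_lit 0) (nat_lit 51770861706) (nat_lit 76) (nat_lit 139118172787) (nat_lit 152) (nat_lit 24652225241) (nat_lit 45) (nat_lit 5) (nat_lit 46) (nat_lit 5) (nat_lit 47) (nat_lit 4) (nat_lit 463) (nat_lit 436) (nat_lit 301))))) (XT.nd (nat_lit 234) (nat_lit 228) (nat_lit 0) (XT.nd (nat_lit 78) (nat_lit 228) (nat_lit 0) (XT.lf (nat_lit 0) (nat_lit 30620265047) (nat_lit 152) (nat_lit 34365983281) (nat_lit 76) (nat_lit 161474298851) (nat_lit 44) (nat_lit 5) (nat_lit 46) (nat_lit 5) (nat_lit 45) (nat_lit 5) (nat_lit 464) (nat_lit 436)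 (nat_lit 300)) (XT.nd (nat_lit 78) (nat_lit 76) (nat_lit 0) (XT.lf (nat_lit 0) (nat_lit 92082323719) (nat_lit 228) (nat_lit 128172326463) (nat_lit 76) (nat_lit 17699531700) (nat_lit 42) (nat_lit 5) (nat_lit 45) (nat_lit 5) (nat_lit 43) (nat_lit 4) (nat_lit 465) (nat_lit 436) (nat_lit 299)) (XT.lf (nat_lit 0) (nat_lit 16222332018) (nat_lit 76) (nat_lit 145280800714) (nat_lit 152) (nat_lit 88620831805) (nat_lit 41) (nat_lit 5) (nat_lit 42) (nat_lit 5) (nat_lit 43) (nat_lit 4) (nat_lit 466) (nat_lit 436) (nat_lit 298)))) (XT.nd (nat_lit 156) (nat_lit 76) (nat_lit 0) (XT.nd (nat_lit 78) (nat_lit 152) (nat_lit 0) (XT.lf (nat_lit 0) (nat_lit 179457230446) (nat_lit 76) (nat_lit 60524496735) (nat_lit 152) (nat_lit 23005272997) (nat_lit 41) (nat_lit 5) (nat_lit 42) (nat_lit 5) (nat_lit 43) (nat_lit 4) (nat_lit 467) (nat_lit 436) (nat_lit 297)) (XT.lf (nat_lit 0) (nat_lit 48259526901) (nat_lit 152)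 (nat_lit 195643607471) (nat_lit 76) (nat_lit 32660332579) (nat_lit 39) (nat_lit 5) (nat_lit 41) (nat_lit 5) (nat_lit 40) (nat_lit 4) (nat_lit 468) (nat_lit 436) (nat_lit 296))) (XT.nd (nat_lit 78) (nat_lit 76) (nat_lit 0) (XT.lf (nat_lit 0) (nat_lit 127897549290) (nat_lit 152) (nat_lit 29996979756) (nat_lit 76) (nat_lit 132970525214) (nat_lit 39) (nat_lit 5) (nat_lit 41) (nat_lit 5) (nat_lit 40) (nat_lit 4) (nat_lit 469) (nat_lit 436) (nat_lit 295)) (XT.lf (nat_lit 0) (nat_lit 156741692967) (nat_lit 76) (nat_lit 60934268626) (nat_lit 152) (nat_lit 88333259135) (nat_lit 38) (nat_lit 5) (nat_lit 39) (nat_lit 5) (nat_lit 40) (nat_lit 4) (nat_lit 470) (nat_lit 436) (nat_lit 294))))))) (XT.nd (nat_lit 936) (nat_lit 760) (nat_lit 0) (XT.nd (nat_lit 468) (nat_lit 380) (nat_lit 0) (XT.nd (nat_lit 234) (nat_lit 228) (nat_lit 0) (XT.nd (nat_lit 78) (nat_lit 152) (nat_lit 0) (XT.lf (nat_lit 0) (nat_lit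 38686541319) (nat_lit 76) (nat_lit 278774679136) (nat_lit 76) (nat_lit 4677734189) (nat_lit 37) (nat_lit 4) (nat_lit 38) (nat_lit 5) (nat_lit 38) (nat_lit 4) (nat_lit 471) (nat_lit 436) (nat_lit 293)) (XT.nd (nat_lit 78) (nat_lit 76) (nat_lit 0) (XT.lf (nat_lit 0) (nat_lit 87154325304) (nat_lit 152) (nat_lit 92816285584) (nat_lit 76) (nat_lit 158962053546) (nat_lit 36) (nat_lit 5) (nat_lit 38) (nat_lit 5) (nat_lit 37) (nat_lit 4) (nat_lit 472) (nat_lit 436) (nat_lit 292)) (XT.lf (nat_lit 0) (nat_lit 118896408734) (nat_lit 76) (nat_lit 70043015901) (nat_lit 152) (nat_lit 167891990883) (nat_lit 35) (nat_lit 5) (nat_lit 36) (nat_lit 5) (nat_lit 37) (nat_lit 4) (nat_lit 473) (nat_lit 436) (nat_lit 291)))) (XT.nd (nat_lit 78) (nat_lit 228) (nat_lit 0) (XT.lf (nat_lit 0) (nat_lit 302641470665) (nat_lit 152) (nat_lit 24371530999) (nat_lit 0) (nat_lit 48847133938) (nat_lit 35) (nat_lit 5) (nat_lit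 37) (nat_lit 4) (nat_lit 35) (nat_lit 4) (nat_lit 474) (nat_lit 436) (nat_lit 290)) (XT.nd (nat_lit 78) (nat_lit 76) (nat_lit 0) (XT.lf (nat_lit 0) (nat_lit 34753282653) (nat_lit 152) (nat_lit 181507756711) (nat_lit 76) (nat_lit 179520112594) (nat_lit 33) (nat_lit 5) (nat_lit 35) (nat_lit 5) (nat_lit 34) (nat_lit 4) (nat_lit 475) (nat_lit 436) (nat_lit 289)) (XT.lf (nat_lit 0) (nat_lit 57089702069) (nat_lit 76) (nat_lit 92374007662) (nat_lit 152) (nat_lit 267515482553) (nat_lit 32) (nat_lit 5) (nat_lit 33) (nat_lit 5) (nat_lit 34) (nat_lit 4) (nat_lit 476) (nat_lit 436) (nat_lit 288))))) (XT.nd (nat_lit 234) (nat_lit 228) (nat_lit 0) (XT.nd (nat_lit 78) (nat_lit 152) (nat_lit 0) (XT.lf (nat_lit 0) (nat_lit 279438622520) (nat_lit 152) (nat_lit 115504213787) (nat_lit 0) (nat_lit 44443227416) (nat_lit 32) (nat_lit 5) (nat_lit 34) (nat_lit 4) (nat_lit 32) (nat_lit 4) (nat_lit 477) (nat_lit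 436) (nat_lit 287)) (XT.nd (nat_lit 78) (nat_lit 76) (nat_lit 0) (XT.lf (nat_lit 0) (nat_lit 153721915986) (nat_lit 76) (nat_lit 272185728467) (nat_lit 76) (nat_lit 37190151145) (nat_lit 31) (nat_lit 4) (nat_lit 32) (nat_lit 5) (nat_lit 32) (nat_lit 4) (nat_lit 478) (nat_lit 436) (nat_lit 286)) (XT.lf (nat_lit 0) (nat_lit 93855936330) (nat_lit 152) (nat_lit 39775398473) (nat_lit 76) (nat_lit 354632413516) (nat_lit 30) (nat_lit 5) (nat_lit 32) (nat_lit 5) (nat_lit 31) (nat_lit 4) (nat_lit 479) (nat_lit 436) (nat_lit 285)))) (XT.nd (nat_lit 78) (nat_lit 152) (nat_lit 0) (XT.lf (nat_lit 0) (nat_lit 240290924220) (nat_lit 152) (nat_lit 251819493176) (nat_lit 0) (nat_lit 22702125827) (nat_lit 29) (nat_lit 5) (nat_lit 31) (nat_lit 4) (nat_lit 29) (nat_lit 4) (nat_lit 480) (nat_lit 436) (nat_lit 284)) (XT.nd (nat_lit 78) (nat_lit 76) (nat_lit 0) (XT.lf (nat_lit 0) (nat_lit 47735102904) (nat_lit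 76) (nat_lit 356440153755) (nat_lit 76) (nat_lit 138851221428) (nat_lit 28) (nat_lit 4) (nat_lit 29) (nat_lit 5) (nat_lit 29) (nat_lit 4) (nat_lit 481) (nat_lit 436) (nat_lit 283)) (XT.lf (nat_lit 0) (nat_lit 14352804870) (nat_lit 152) (nat_lit 187735222212) (nat_lit 76) (nat_lit 370829632419) (nat_lit 27) (nat_lit 5) (nat_lit 29) (nat_lit 5) (nat_lit 28) (nat_lit 4) (nat_lit 482) (nat_lit 436) (nat_lit 282)))))) (XT.nd (nat_lit 468) (nat_lit 380) (nat_lit 0) (XT.nd (nat_lit 234) (nat_lit 228) (nat_lit 0) (XT.nd (nat_lit 78) (nat_lit 76) (nat_lit 0) (XT.lf (nat_lit 0) (nat_lit 148233774870) (nat_lit 76) (nat_lit 27642641495) (nat_lit 152) (nat_lit 428750010204) (nat_lit 26) (nat_lit 5) (nat_lit 27) (nat_lit 5) (nat_lit 28) (nat_lit 4) (nat_lit 483) (nat_lit 436) (nat_lit 281)) (XT.nd (nat_lit 78) (nat_lit 76) (nat_lit 0) (XT.lf (nat_lit 0) (nat_lit 359454308875) (nat_lit 152) (nat_lit 120704239122)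 (nat_lit 0) (nat_lit 157982755642) (nat_lit 26) (nat_lit 5) (nat_lit 28) (nat_lit 4) (nat_lit 26) (nat_lit 4) (nat_lit 484) (nat_lit 436) (nat_lit 280)) (XT.lf (nat_lit 0) (nat_lit 253817905801) (nat_lit 76) (nat_lit 310722669051) (nat_lit 76) (nat_lit 109251024663) (nat_lit 25) (nat_lit 4) (nat_lit 26) (nat_lit 5) (nat_lit 26) (nat_lit 4) (nat_lit 485) (nat_lit 436) (nat_lit 279)))) (XT.nd (nat_lit 78) (nat_lit 152) (nat_lit 0) (XT.lf (nat_lit 0) (nat_lit 73436872493) (nat_lit 152) (nat_lit 48723034003) (nat_lit 76) (nat_lit 589721271885) (nat_lit 24) (nat_lit 5) (nat_lit 26) (nat_lit 5) (nat_lit 25) (nat_lit 4) (nat_lit 486) (nat_lit 436) (nat_lit 278)) (XT.nd (nat_lit 78) (nat_lit 76) (nat_lit 0) (XT.lf (nat_lit 0) (nat_lit 275945790325) (nat_lit 152) (nat_lit 386558626628) (nat_lit 0) (nat_lit 89397820936) (nat_lit 23) (nat_lit 5) (nat_lit 25) (nat_lit 4) (nat_lit 23) (nat_lit 4) (nat_lit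 487) (nat_lit 436) (nat_lit 277)) (XT.lf (nat_lit 0) (nat_lit 17979603467) (nat_lit 76) (nat_lit 481647827180) (nat_lit 76) (nat_lit 295099790790) (nat_lit 22) (nat_lit 4) (nat_lit 23) (nat_lit 5) (nat_lit 23) (nat_lit 4) (nat_lit 488) (nat_lit 436) (nat_lit 276))))) (XT.nd (nat_lit 234) (nat_lit 228) (nat_lit 0) (XT.nd (nat_lit 78) (nat_lit 152) (nat_lit 0) (XT.lf (nat_lit 0) (nat_lit 476864507167) (nat_lit 76) (nat_lit 274908135834) (nat_lit 76) (nat_lit 88360037406) (nat_lit 22) (nat_lit 4) (nat_lit 23) (nat_lit 5) (nat_lit 23) (nat_lit 4) (nat_lit 489) (nat_lit 436) (nat_lit 275)) (XT.nd (nat_lit 78) (nat_lit 0) (nat_lit 0) (XT.lf (nat_lit 0) (nat_lit 84259526280) (nat_lit 76) (nat_lit 45936474753) (nat_lit 152) (nat_lit 758552887297) (nat_lit 20) (nat_lit 5) (nat_lit 21) (nat_lit 5) (nat_lit 22) (nat_lit 4) (nat_lit 490) (nat_lit 436) (nat_lit 274)) (XT.lf (nat_lit 0) (nat_lit 376495559150)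 (nat_lit 152) (nat_lit 359606870624) (nat_lit 0) (nat_lit 203765735948) (nat_lit 20) (nat_lit 5) (nat_lit 22) (nat_lit 4) (nat_lit 20) (nat_lit 4) (nat_lit 491) (nat_lit 436) (nat_lit 273)))) (XT.nd (nat_lit 156) (nat_lit 152) (nat_lit 0) (XT.nd (nat_lit 78) (nat_lit 0) (nat_lit 0) (XT.lf (nat_lit 0) (nat_lit 125974542785) (nat_lit 76) (nat_lit 520747247334) (nat_lit 76) (nat_lit 348017378532) (nat_lit 19) (nat_lit 4) (nat_lit 20) (nat_lit 5) (nat_lit 20) (nat_lit 4) (nat_lit 492) (nat_lit 436) (nat_lit 272)) (XT.lf (nat_lit 0) (nat_lit 670853358730) (nat_lit 76) (nat_lit 277544915855) (nat_lit 76) (nat_lit 104815004831) (nat_lit 19) (nat_lit 4) (nat_lit 20) (nat_lit 5) (nat_lit 20) (nat_lit 4) (nat_lit 493) (nat_lit 436) (nat_lit 271))) (XT.nd (nat_lit 78) (nat_lit 0) (nat_lit 0) (XT.lf (nat_lit 0) (nat_lit 146488720110) (nat_lit 76) (nat_lit 6981794422) (nat_lit 152) (nat_lit 962309278812)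 (nat_lit 17) (nat_lit 5) (nat_lit 18) (nat_lit 5) (nat_lit 19) (nat_lit 4) (nat_lit 494) (nat_lit 436) (nat_lit 270)) (XT.lf (nat_lit 0) (nat_lit 444341657475) (nat_lit 152) (nat_lit 452978847362) (nat_lit 0) (nat_lit 284406484959) (nat_lit 17) (nat_lit 5) (nat_lit 19) (nat_lit 4) (nat_lit 17) (nat_lit 4) (nat_lit 495) (nat_lit 436) (nat_lit 269))))))))
noncomputable def xc177 : XT := (XT.nd (nat_lit 1950) (nat_lit 228) (nat_lit 0) (XT.nd (nat_lit 936) (nat_lit 380) (nat_lit 0) (XT.nd (nat_lit 468) (nat_lit 228) (nat_lit 0) (XT.nd (nat_lit 234) (nat_lit 76) (nat_lit 0) (XT.nd (nat_lit 78) (nat_lit 152) (nat_lit 0) (XT.lf (nat_lit 0) (nat_lit 109957280141) (nat_lit 76) (nat_lit 651350914573) (nat_lit 76) (nat_lit 491415711023) (nat_lit 16) (nat_lit 4) (nat_lit 17) (nat_lit 5) (nat_lit 17) (nat_lit 4) (nat_lit 496) (nat_lit 436) (nat_lit 268)) (XT.nd (nat_lit 78) (nat_lit 152) (nat_lit 0)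 (XT.lf (nat_lit 0) (nat_lit 743689372723) (nat_lit 76) (nat_lit 372327812064) (nat_lit 76) (nat_lit 212392579778) (nat_lit 16) (nat_lit 4) (nat_lit 17) (nat_lit 5) (nat_lit 17) (nat_lit 4) (nat_lit 497) (nat_lit 436) (nat_lit 267)) (XT.lf (nat_lit 0) (nat_lit 16663591561) (nat_lit 76) (nat_lit 68239701926) (nat_lit 152) (nat_lit 1325044001949) (nat_lit 14) (nat_lit 5) (nat_lit 15) (nat_lit 5) (nat_lit 16) (nat_lit 4) (nat_lit 498) (nat_lit 436) (nat_lit 266)))) (XT.nd (nat_lit 78) (nat_lit 76) (nat_lit 0) (XT.lf (nat_lit 0) (nat_lit 417167784028) (nat_lit 152) (nat_lit 809506377907) (nat_lit 0) (nat_lit 269079558538) (nat_lit 14) (nat_lit 5) (nat_lit 16) (nat_lit 4) (nat_lit 14) (nat_lit 4) (nat_lit 499) (nat_lit 436) (nat_lit 265)) (XT.nd (nat_lit 78) (nat_lit 76) (nat_lit 0) (XT.lf (nat_lit 0) (nat_lit 777785793006) (nat_lit 152) (nat_lit 180799531378) (nat_lit 0) (nat_lit 629697546395)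 (nat_lit 14) (nat_lit 5) (nat_lit 16) (nat_lit 4) (nat_lit 14) (nat_lit 4) (nat_lit 500) (nat_lit 436) (nat_lit 264)) (XT.lf (nat_lit 0) (nat_lit 524438194878) (nat_lit 76) (nat_lit 655427705878) (nat_lit 76) (nat_lit 507339439710) (nat_lit 13) (nat_lit 4) (nat_lit 14) (nat_lit 5) (nat_lit 14) (nat_lit 4) (nat_lit 501) (nat_lit 436) (nat_lit 263))))) (XT.nd (nat_lit 234) (nat_lit 76) (nat_lit 0) (XT.nd (nat_lit 78) (nat_lit 152) (nat_lit 0) (XT.lf (nat_lit 0) (nat_lit 1296376983123) (nat_lit 76) (nat_lit 322678722886) (nat_lit 76) (nat_lit 174590438609) (nat_lit 13) (nat_lit 4) (nat_lit 14) (nat_lit 5) (nat_lit 14) (nat_lit 4) (nat_lit 502) (nat_lit 436) (nat_lit 262)) (XT.nd (nat_lit 78) (nat_lit 0) (nat_lit 0) (XT.lf (nat_lit 0) (nat_lit 182169854037) (nat_lit 152) (nat_lit 1680495008975) (nat_lit 0) (nat_lit 45051056774) (nat_lit 11) (nat_lit 5) (nat_lit 13) (nat_lit 4) (nat_lit 11)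 (nat_lit 4) (nat_lit 503) (nat_lit 436) (nat_lit 261)) (XT.lf (nat_lit 0) (nat_lit 580369099765) (nat_lit 152) (nat_lit 1005142659895) (nat_lit 0) (nat_lit 443250288128) (nat_lit 11) (nat_lit 5) (nat_lit 13) (nat_lit 4) (nat_lit 11) (nat_lit 4) (nat_lit 504) (nat_lit 436) (nat_lit 260)))) (XT.nd (nat_lit 78) (nat_lit 76) (nat_lit 0) (XT.lf (nat_lit 0) (nat_lit 1010424205481) (nat_lit 152) (nat_lit 275762286389) (nat_lit 0) (nat_lit 873305380533) (nat_lit 11) (nat_lit 5) (nat_lit 13) (nat_lit 4) (nat_lit 11) (nat_lit 4) (nat_lit 505) (nat_lit 436) (nat_lit 259)) (XT.nd (nat_lit 78) (nat_lit 0) (nat_lit 0) (XT.lf (nat_lit 0) (nat_lit 538927712453) (nat_lit 76) (nat_lit 948917157878) (nat_lit 76) (nat_lit 811798320606) (nat_lit 10) (nat_lit 4) (nat_lit 11) (nat_lit 5) (nat_lit 11) (nat_lit 4) (nat_lit 506) (nat_lit 436) (nat_lit 258)) (XT.lf (nat_lit 0) (nat_lit 1434475609219) (nat_lit 76)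 (nat_lit 576523336898) (nat_lit 76) (nat_lit 439404488214) (nat_lit 10) (nat_lit 4) (nat_lit 11) (nat_lit 5) (nat_lit 11) (nat_lit 4) (nat_lit 507) (nat_lit 436) (nat_lit 257)))))) (XT.nd (nat_lit 468) (nat_lit 152) (nat_lit 0) (XT.nd (nat_lit 234) (nat_lit 76) (nat_lit 0) (XT.nd (nat_lit 78) (nat_lit 152) (nat_lit 0) (XT.lf (nat_lit 0) (nat_lit 2401667201100) (nat_lit 76) (nat_lit 174338080335) (nat_lit 76) (nat_lit 37219221086) (nat_lit 10) (nat_lit 4) (nat_lit 11) (nat_lit 5) (nat_lit 11) (nat_lit 4) (nat_lit 508) (nat_lit 436) (nat_lit 256)) (XT.nd (nat_lit 78) (nat_lit 0) (nat_lit 0) (XT.lf (nat_lit 0) (nat_lit 400596905194) (nat_lit 152) (nat_lit 2112209451165) (nat_lit 0) (nat_lit 273634989423) (nat_lit 8) (nat_lit 5) (nat_lit 10) (nat_lit 4) (nat_lit 8) (nat_lit 4) (nat_lit 509) (nat_lit 436) (nat_lit 255)) (XT.lf (nat_lit 0) (nat_lit 881890310034) (nat_lit 152) (nat_lit 1335782478504)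 (nat_lit 0) (nat_lit 754928385875) (nat_lit 8) (nat_lit 5) (nat_lit 10) (nat_lit 4) (nat_lit 8) (nat_lit 4) (nat_lit 510) (nat_lit 436) (nat_lit 254)))) (XT.nd (nat_lit 78) (nat_lit 76) (nat_lit 0) (XT.lf (nat_lit 0) (nat_lit 1401687128809) (nat_lit 152) (nat_lit 497241468317) (nat_lit 0) (nat_lit 1274725196884) (nat_lit 8) (nat_lit 5) (nat_lit 10) (nat_lit 4) (nat_lit 8) (nat_lit 4) (nat_lit 511) (nat_lit 436) (nat_lit 253)) (XT.nd (nat_lit 78) (nat_lit 0) (nat_lit 0) (XT.lf (nat_lit 0) (nat_lit 429887421167) (nat_lit 76) (nat_lit 1543519020615) (nat_lit 76) (nat_lit 1416557081499) (nat_lit 7) (nat_lit 4) (nat_lit 8) (nat_lit 5) (nat_lit 8) (nat_lit 4) (nat_lit 512) (nat_lit 436) (nat_lit 252)) (XT.lf (nat_lit 0) (nat_lit 1459465076149) (nat_lit 76) (nat_lit 1144993633850) (nat_lit 76) (nat_lit 1018031688076) (nat_lit 7) (nat_lit 4) (nat_lit 8) (nat_lit 5) (nat_lit 8) (nat_lit 4) (nat_lit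 513) (nat_lit 436) (nat_lit 251))))) (XT.nd (nat_lit 234) (nat_lit 0) (nat_lit 0) (XT.nd (nat_lit 78) (nat_lit 152) (nat_lit 0) (XT.lf (nat_lit 0) (nat_lit 2571408843013) (nat_lit 76) (nat_lit 714586267843) (nat_lit 76) (nat_lit 587624315904) (nat_lit 7) (nat_lit 4) (nat_lit 8) (nat_lit 5) (nat_lit 8) (nat_lit 4) (nat_lit 514) (nat_lit 436) (nat_lit 250)) (XT.nd (nat_lit 78) (nat_lit 152) (nat_lit 0) (XT.lf (nat_lit 0) (nat_lit 3772308018155) (nat_lit 76) (nat_lit 249746360425) (nat_lit 76) (nat_lit 122784402777) (nat_lit 7) (nat_lit 4) (nat_lit 8) (nat_lit 5) (nat_lit 8) (nat_lit 4) (nat_lit 515) (nat_lit 436) (nat_lit 249)) (XT.lf (nat_lit 0) (nat_lit 382741965267) (nat_lit 152) (nat_lit 3787301821756) (nat_lit 0) (nat_lit 265184592180) (nat_lit 5) (nat_lit 5) (nat_lit 7) (nat_lit 4) (nat_lit 5) (nat_lit 4) (nat_lit 516) (nat_lit 436) (nat_lit 248)))) (XT.nd (nat_lit 156) (nat_lit 0)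 (nat_lit 0) (XT.nd (nat_lit 78) (nat_lit 0) (nat_lit 0) (XT.lf (nat_lit 0) (nat_lit 939013984969) (nat_lit 152) (nat_lit 2986768449003) (nat_lit 0) (nat_lit 821456607350) (nat_lit 5) (nat_lit 5) (nat_lit 7) (nat_lit 4) (nat_lit 5) (nat_lit 4) (nat_lit 517) (nat_lit 436) (nat_lit 247)) (XT.lf (nat_lit 0) (nat_lit 1539787726524) (nat_lit 152) (nat_lit 2122192488356) (nat_lit 0) (nat_lit 1422230344709) (nat_lit 5) (nat_lit 5) (nat_lit 7) (nat_lit 4) (nat_lit 5) (nat_lit 4) (nat_lit 518) (nat_lit 436) (nat_lit 246))) (XT.nd (nat_lit 78) (nat_lit 0) (nat_lit 0) (XT.lf (nat_lit 0) (nat_lit 2188623330623) (nat_lit 152) (nat_lit 1188450526714) (nat_lit 0) (nat_lit 2071065944924) (nat_lit 5) (nat_lit 5) (nat_lit 7) (nat_lit 4) (nat_lit 5) (nat_lit 4) (nat_lit 519) (nat_lit 436) (nat_lit 245)) (XT.lf (nat_lit 0) (nat_lit 2889365748994) (nat_lit 152) (nat_lit 180009278378) (nat_lit 0) (nat_lit 2771808359698)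 (nat_lit 5) (nat_lit 5) (nat_lit 7) (nat_lit 4) (nat_lit 5) (nat_lit 4) (nat_lit 520) (nat_lit 436) (nat_lit 244))))))) (XT.nd (nat_lit 56004) (nat_lit 0) (nat_lit 4788) (XT.nd (nat_lit 468) (nat_lit 152) (nat_lit 0) (XT.nd (nat_lit 234) (nat_lit 0) (nat_lit 0) (XT.nd (nat_lit 78) (nat_lit 0) (nat_lit 0) (XT.lf (nat_lit 0) (nat_lit 956979179117) (nat_lit 76) (nat_lit 2712203722457) (nat_lit 76) (nat_lit 2594646329830) (nat_lit 4) (nat_lit 4) (nat_lit 5) (nat_lit 5) (nat_lit 5) (nat_lit 4) (nat_lit 521) (nat_lit 436) (nat_lit 243)) (XT.nd (nat_lit 78) (nat_lit 0) (nat_lit 0) (XT.lf (nat_lit 0) (nat_lit 2195163936987) (nat_lit 76) (nat_lit 2321143231327) (nat_lit 76) (nat_lit 2203585835616) (nat_lit 4) (nat_lit 4) (nat_lit 5) (nat_lit 5) (nat_lit 5) (nat_lit 4) (nat_lit 522) (nat_lit 436) (nat_lit 242)) (XT.lf (nat_lit 0) (nat_lit 3532403416794) (nat_lit 76) (nat_lit 1898797931154) (nat_lit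 76) (nat_lit 1781240532586) (nat_lit 4) (nat_lit 4) (nat_lit 5) (nat_lit 5) (nat_lit 5) (nat_lit 4) (nat_lit 523) (nat_lit 436) (nat_lit 241)))) (XT.nd (nat_lit 78) (nat_lit 0) (nat_lit 0) (XT.lf (nat_lit 0) (nat_lit 4976622000640) (nat_lit 76) (nat_lit 1442665034973) (nat_lit 76) (nat_lit 1325107633761) (nat_lit 4) (nat_lit 4) (nat_lit 5) (nat_lit 5) (nat_lit 5) (nat_lit 4) (nat_lit 524) (nat_lit 436) (nat_lit 240)) (XT.nd (nat_lit 78) (nat_lit 0) (nat_lit 0) (XT.lf (nat_lit 0) (nat_lit 6536378020873) (nat_lit 76) (nat_lit 950041533029) (nat_lit 76) (nat_lit 832484129369) (nat_lit 4) (nat_lit 4) (nat_lit 5) (nat_lit 5) (nat_lit 5) (nat_lit 4) (nat_lit 525) (nat_lit 436) (nat_lit 239)) (XT.lf (nat_lit 0) (nat_lit 8220914476133) (nat_lit 76) (nat_lit 418008174940) (nat_lit 76) (nat_lit 300450769014) (nat_lit 4) (nat_lit 4) (nat_lit 5) (nat_lit 5) (nat_lit 5) (nat_lit 4) (nat_lit 526) (nat_lit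 436) (nat_lit 238))))) (XT.nd (nat_lit 234) (nat_lit 0) (nat_lit 0) (XT.nd (nat_lit 78) (nat_lit 0) (nat_lit 0) (XT.lf (nat_lit 0) (nat_lit 275385195449) (nat_lit 152) (nat_lit 9165836037499) (nat_lit 0) (nat_lit 166535743574) (nat_lit 2) (nat_lit 5) (nat_lit 4) (nat_lit 4) (nat_lit 2) (nat_lit 4) (nat_lit 527) (nat_lit 436) (nat_lit 237)) (XT.nd (nat_lit 78) (nat_lit 0) (nat_lit 0) (XT.lf (nat_lit 0) (nat_lit 912067398358) (nat_lit 152) (nat_lit 8611220640605) (nat_lit 0) (nat_lit 803217944683) (nat_lit 2) (nat_lit 5) (nat_lit 4) (nat_lit 4) (nat_lit 2) (nat_lit 4) (nat_lit 528) (nat_lit 436) (nat_lit 236)) (XT.lf (nat_lit 0) (nat_lit 1599684157652) (nat_lit 152) (nat_lit 8012236052967) (nat_lit 0) (nat_lit 1490834702310) (nat_lit 2) (nat_lit 5) (nat_lit 4) (nat_lit 4) (nat_lit 2) (nat_lit 4) (nat_lit 529) (nat_lit 436) (nat_lit 235)))) (XT.nd (nat_lit 78) (nat_lit 0) (nat_lit 0) (XT.lf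 (nat_lit 0) (nat_lit 2342310239311) (nat_lit 152) (nat_lit 7365332736286) (nat_lit 0) (nat_lit 2233460782427) (nat_lit 2) (nat_lit 5) (nat_lit 4) (nat_lit 4) (nat_lit 2) (nat_lit 4) (nat_lit 530) (nat_lit 436) (nat_lit 234)) (XT.nd (nat_lit 55146) (nat_lit 0) (nat_lit 6004) (XT.lf (nat_lit 0) (nat_lit 3144346390487) (nat_lit 152) (nat_lit 6666677189427) (nat_lit 0) (nat_lit 3035496932174) (nat_lit 2) (nat_lit 5) (nat_lit 4) (nat_lit 4) (nat_lit 2) (nat_lit 4) (nat_lit 531) (nat_lit 436) (nat_lit 233)) (XT.lf (nat_lit 0) (nat_lit 33887164260) (nat_lit 532) (nat_lit 567026235) (nat_lit 532) (nat_lit 567026235) (nat_lit 81) (nat_lit 3) (nat_lit 88) (nat_lit 3) (nat_lit 88) (nat_lit 5) (nat_lit 437) (nat_lit 437) (nat_lit 326)))))) (XT.nd (nat_lit 468) (nat_lit 760) (nat_lit 0) (XT.nd (nat_lit 234) (nat_lit 0) (nat_lit 0) (XT.nd (nat_lit 78) (nat_lit 456) (nat_lit 0) (XT.lf (nat_lit 76) (nat_lit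 35376929576) (nat_lit 0) (nat_lit 35971767555) (nat_lit 532) (nat_lit 1426358668) (nat_lit 82) (nat_lit 5) (nat_lit 81) (nat_lit 3) (nat_lit 88) (nat_lit 5) (nat_lit 438) (nat_lit 437) (nat_lit 325)) (XT.nd (nat_lit 78) (nat_lit 456) (nat_lit 0) (XT.lf (nat_lit 76) (nat_lit 74872569175) (nat_lit 0) (nat_lit 366177301) (nat_lit 532) (nat_lit 485163286) (nat_lit 82) (nat_lit 5) (nat_lit 81) (nat_lit 3) (nat_lit 88) (nat_lit 5) (nat_lit 439) (nat_lit 437) (nat_lit 324)) (XT.lf (nat_lit 0) (nat_lit 2422638868) (nat_lit 532) (nat_lit 39132712200) (nat_lit 608) (nat_lit 37198867760) (nat_lit 75) (nat_lit 5) (nat_lit 82) (nat_lit 5) (nat_lit 83) (nat_lit 5) (nat_lit 440) (nat_lit 437) (nat_lit 323)))) (XT.nd (nat_lit 78) (nat_lit 0) (nat_lit 76) (XT.lf (nat_lit 76) (nat_lit 1402119945) (nat_lit 0) (nat_lit 4200718601) (nat_lit 608) (nat_lit 76417827428) (nat_lit 76) (nat_lit 5) (nat_lit 75) (nat_lit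 5) (nat_lit 83) (nat_lit 5) (nat_lit 441) (nat_lit 437) (nat_lit 322)) (XT.nd (nat_lit 78) (nat_lit 0) (nat_lit 0) (XT.lf (nat_lit 0) (nat_lit 11003367971) (nat_lit 532) (nat_lit 38955477119) (nat_lit 608) (nat_lit 35432310947) (nat_lit 76) (nat_lit 5) (nat_lit 83) (nat_lit 5) (nat_lit 84) (nat_lit 5) (nat_lit 442) (nat_lit 437) (nat_lit 321)) (XT.lf (nat_lit 76) (nat_lit 6243012184) (nat_lit 0) (nat_lit 10851202242) (nat_lit 608) (nat_lit 71916409135) (nat_lit 77) (nat_lit 5) (nat_lit 76) (nat_lit 5) (nat_lit 84) (nat_lit 5) (nat_lit 443) (nat_lit 437) (nat_lit 320))))) (XT.nd (nat_lit 234) (nat_lit 456) (nat_lit 0) (XT.nd (nat_lit 78) (nat_lit 456) (nat_lit 0) (XT.lf (nat_lit 0) (nat_lit 25518993941) (nat_lit 532) (nat_lit 36344975976) (nat_lit 76) (nat_lit 30907945553) (nat_lit 77) (nat_lit 5) (nat_lit 84) (nat_lit 5) (nat_lit 78) (nat_lit 5) (nat_lit 444) (nat_lit 437) (nat_lit 319))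 (XT.nd (nat_lit 78) (nat_lit 0) (nat_lit 0) (XT.lf (nat_lit 0) (nat_lit 14220162576) (nat_lit 456) (nat_lit 21020583334) (nat_lit 532) (nat_lit 61543525811) (nat_lit 71) (nat_lit 5) (nat_lit 77) (nat_lit 5) (nat_lit 78) (nat_lit 5) (nat_lit 445) (nat_lit 437) (nat_lit 318)) (XT.lf (nat_lit 0) (nat_lit 47314297385) (nat_lit 532) (nat_lit 30722620829) (nat_lit 76) (nat_lit 22954773693) (nat_lit 71) (nat_lit 5) (nat_lit 78) (nat_lit 5) (nat_lit 72) (nat_lit 5) (nat_lit 446) (nat_lit 437) (nat_lit 317)))) (XT.nd (nat_lit 156) (nat_lit 228) (nat_lit 0) (XT.nd (nat_lit 78) (nat_lit 0) (nat_lit 0) (XT.lf (nat_lit 0) (nat_lit 26021087302) (nat_lit 228) (nat_lit 35503692924) (nat_lit 304) (nat_lit 43917241870) (nat_lit 68) (nat_lit 5) (nat_lit 71) (nat_lit 5) (nat_lit 72) (nat_lit 5) (nat_lit 447) (nat_lit 437) (nat_lit 316)) (XT.lf (nat_lit 0) (nat_lit 77984111409) (nat_lit 304) (nat_lit 21403201997)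 (nat_lit 76) (nat_lit 10772104673) (nat_lit 68) (nat_lit 5) (nat_lit 72) (nat_lit 5) (nat_lit 69) (nat_lit 5) (nat_lit 448) (nat_lit 437) (nat_lit 315))) (XT.nd (nat_lit 78) (nat_lit 0) (nat_lit 0) (XT.lf (nat_lit 0) (nat_lit 42456875611) (nat_lit 228) (nat_lit 55245915013) (nat_lit 304) (nat_lit 17396007137) (nat_lit 65) (nat_lit 5) (nat_lit 68) (nat_lit 5) (nat_lit 69) (nat_lit 5) (nat_lit 449) (nat_lit 437) (nat_lit 314)) (XT.lf (nat_lit 0) (nat_lit 112642233015) (nat_lit 228) (nat_lit 6941302499) (nat_lit 304) (nat_lit 803026731) (nat_lit 65) (nat_lit 5) (nat_lit 68) (nat_lit 5) (nat_lit 69) (nat_lit 5) (nat_lit 450) (nat_lit 437) (nat_lit 313))))))))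
noncomputable def xc178 : XT := (XT.nd (nat_lit 1950) (nat_lit 1596) (nat_lit 0) (XT.nd (nat_lit 936) (nat_lit 836) (nat_lit 0) (XT.nd (nat_lit 468) (nat_lit 608) (nat_lit 0) (XT.nd (nat_lit 234) (nat_lit 380) (nat_lit 0) (XT.nd (nat_lit 78) (nat_lit 228) (nat_lit 0) (XT.lf (nat_lit 0) (nat_lit 18967569647) (nat_lit 228) (nat_lit 61884229985) (nat_lit 76) (nat_lit 44996097769) (nat_lit 62) (nat_lit 5) (nat_lit 65) (nat_lit 5) (nat_lit 63) (nat_lit 5) (nat_lit 451) (nat_lit 437) (nat_lit 312)) (XT.nd (nat_lit 78) (nat_lit 0) (nat_lit 0) (XT.lf (nat_lit 0) (nat_lit 10434088663) (nat_lit 228) (nat_lit 30490243462) (nat_lit 304) (nat_lit 90768306508) (nat_lit 59) (nat_lit 5) (nat_lit 62) (nat_lit 5) (nat_lit 63) (nat_lit 5) (nat_lit 452) (nat_lit 437) (nat_lit 311)) (XT.lf (nat_lit 0) (nat_lit 66947856384) (nat_lit 304) (nat_lit 46431830506) (nat_lit 76) (nat_lit 24440454711) (nat_lit 59) (nat_lit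 5) (nat_lit 63) (nat_lit 5) (nat_lit 60) (nat_lit 5) (nat_lit 453) (nat_lit 437) (nat_lit 310)))) (XT.nd (nat_lit 78) (nat_lit 228) (nat_lit 0) (XT.lf (nat_lit 0) (nat_lit 35357065443) (nat_lit 152) (nat_lit 61337977101) (nat_lit 228) (nat_lit 47611459955) (nat_lit 57) (nat_lit 5) (nat_lit 59) (nat_lit 5) (nat_lit 60) (nat_lit 5) (nat_lit 454) (nat_lit 437) (nat_lit 309)) (XT.nd (nat_lit 78) (nat_lit 228) (nat_lit 0) (XT.lf (nat_lit 0) (nat_lit 126329000088) (nat_lit 152) (nat_lit 3762040677) (nat_lit 228) (nat_lit 21119208615) (nat_lit 57) (nat_lit 5) (nat_lit 59) (nat_lit 5) (nat_lit 60) (nat_lit 5) (nat_lit 455) (nat_lit 437) (nat_lit 308)) (XT.lf (nat_lit 0) (nat_lit 10234144489) (nat_lit 228) (nat_lit 90778850211) (nat_lit 76) (nat_lit 57389564109) (nat_lit 54) (nat_lit 5) (nat_lit 57) (nat_lit 5) (nat_lit 55) (nat_lit 5) (nat_lit 456) (nat_lit 437) (nat_lit 307))))) (XT.nd (nat_lit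 234) (nat_lit 304) (nat_lit 0) (XT.nd (nat_lit 78) (nat_lit 152) (nat_lit 0) (XT.lf (nat_lit 0) (nat_lit 2277569691) (nat_lit 152) (nat_lit 41527216082) (nat_lit 228) (nat_lit 122253582755) (nat_lit 52) (nat_lit 5) (nat_lit 54) (nat_lit 5) (nat_lit 55) (nat_lit 5) (nat_lit 457) (nat_lit 437) (nat_lit 306)) (XT.nd (nat_lit 78) (nat_lit 152) (nat_lit 0) (XT.lf (nat_lit 0) (nat_lit 83153515977) (nat_lit 228) (nat_lit 66798417478) (nat_lit 76) (nat_lit 24127314623) (nat_lit 52) (nat_lit 5) (nat_lit 55) (nat_lit 5) (nat_lit 53) (nat_lit 5) (nat_lit 458) (nat_lit 437) (nat_lit 305)) (XT.lf (nat_lit 0) (nat_lit 38804439812) (nat_lit 152) (nat_lit 88857173531) (nat_lit 228) (nat_lit 54919267207) (nat_lit 50) (nat_lit 5) (nat_lit 52) (nat_lit 5) (nat_lit 53) (nat_lit 5) (nat_lit 459) (nat_lit 437) (nat_lit 304)))) (XT.nd (nat_lit 78) (nat_lit 304) (nat_lit 0) (XT.lf (nat_lit 0) (nat_lit 156653786273)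 (nat_lit 152) (nat_lit 20902566581) (nat_lit 228) (nat_lit 14060211270) (nat_lit 50) (nat_lit 5) (nat_lit 52) (nat_lit 5) (nat_lit 53) (nat_lit 5) (nat_lit 460) (nat_lit 437) (nat_lit 303)) (XT.nd (nat_lit 78) (nat_lit 152) (nat_lit 0) (XT.lf (nat_lit 0) (nat_lit 31969732077) (nat_lit 152) (nat_lit 116345085281) (nat_lit 76) (nat_lit 52729933849) (nat_lit 48) (nat_lit 5) (nat_lit 50) (nat_lit 5) (nat_lit 49) (nat_lit 5) (nat_lit 461) (nat_lit 437) (nat_lit 302)) (XT.lf (nat_lit 0) (nat_lit 4041356525) (nat_lit 152) (nat_lit 78501625411) (nat_lit 228) (nat_lit 128525353126) (nat_lit 46) (nat_lit 5) (nat_lit 48) (nat_lit 5) (nat_lit 49) (nat_lit 5) (nat_lit 462) (nat_lit 437) (nat_lit 301)))))) (XT.nd (nat_lit 468) (nat_lit 456) (nat_lit 0) (XT.nd (nat_lit 234) (nat_lit 228) (nat_lit 0) (XT.nd (nat_lit 78) (nat_lit 152) (nat_lit 0) (XT.lf (nat_lit 0) (nat_lit 140350803923) (nat_lit 228) (nat_lit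 80972559989) (nat_lit 76) (nat_lit 315344784) (nat_lit 46) (nat_lit 5) (nat_lit 49) (nat_lit 5) (nat_lit 47) (nat_lit 4) (nat_lit 463) (nat_lit 437) (nat_lit 300)) (XT.nd (nat_lit 78) (nat_lit 76) (nat_lit 0) (XT.lf (nat_lit 0) (nat_lit 55924195546) (nat_lit 76) (nat_lit 150242706300) (nat_lit 152) (nat_lit 26617118394) (nat_lit 45) (nat_lit 5) (nat_lit 46) (nat_lit 5) (nat_lit 47) (nat_lit 4) (nat_lit 464) (nat_lit 437) (nat_lit 299)) (XT.lf (nat_lit 0) (nat_lit 33076294073) (nat_lit 152) (nat_lit 37104123079) (nat_lit 76) (nat_lit 174396460573) (nat_lit 44) (nat_lit 5) (nat_lit 46) (nat_lit 5) (nat_lit 45) (nat_lit 5) (nat_lit 465) (nat_lit 437) (nat_lit 298)))) (XT.nd (nat_lit 78) (nat_lit 76) (nat_lit 0) (XT.lf (nat_lit 0) (nat_lit 99455216028) (nat_lit 228) (nat_lit 138414871745) (nat_lit 76) (nat_lit 19119923587) (nat_lit 42) (nat_lit 5) (nat_lit 45) (nat_lit 5) (nat_lit 43) (nat_lit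 4) (nat_lit 466) (nat_lit 437) (nat_lit 297)) (XT.nd (nat_lit 78) (nat_lit 0) (nat_lit 0) (XT.lf (nat_lit 0) (nat_lit 17531074836) (nat_lit 76) (nat_lit 156898411283) (nat_lit 152) (nat_lit 95703906842) (nat_lit 41) (nat_lit 5) (nat_lit 42) (nat_lit 5) (nat_lit 43) (nat_lit 4) (nat_lit 467) (nat_lit 437) (nat_lit 296)) (XT.lf (nat_lit 0) (nat_lit 193823953564) (nat_lit 76) (nat_lit 65361962503) (nat_lit 152) (nat_lit 24839591589) (nat_lit 41) (nat_lit 5) (nat_lit 42) (nat_lit 5) (nat_lit 43) (nat_lit 4) (nat_lit 468) (nat_lit 437) (nat_lit 295))))) (XT.nd (nat_lit 234) (nat_lit 228) (nat_lit 0) (XT.nd (nat_lit 78) (nat_lit 76) (nat_lit 0) (XT.lf (nat_lit 0) (nat_lit 52126012452) (nat_lit 152) (nat_lit 211284570683) (nat_lit 76) (nat_lit 35277502889) (nat_lit 39) (nat_lit 5) (nat_lit 41) (nat_lit 5) (nat_lit 40) (nat_lit 4) (nat_lit 469) (nat_lit 437) (nat_lit 294)) (XT.nd (nat_lit 78) (nat_lit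 76) (nat_lit 0) (XT.lf (nat_lit 0) (nat_lit 138134652677) (nat_lit 152) (nat_lit 32386992409) (nat_lit 76) (nat_lit 143612189179) (nat_lit 39) (nat_lit 5) (nat_lit 41) (nat_lit 5) (nat_lit 40) (nat_lit 4) (nat_lit 470) (nat_lit 437) (nat_lit 293)) (XT.lf (nat_lit 0) (nat_lit 169290527404) (nat_lit 76) (nat_lit 65804646459) (nat_lit 152) (nat_lit 95394373342) (nat_lit 38) (nat_lit 5) (nat_lit 39) (nat_lit 5) (nat_lit 40) (nat_lit 4) (nat_lit 471) (nat_lit 437) (nat_lit 292)))) (XT.nd (nat_lit 156) (nat_lit 76) (nat_lit 0) (XT.nd (nat_lit 78) (nat_lit 76) (nat_lit 0) (XT.lf (nat_lit 0) (nat_lit 41791021626) (nat_lit 76) (nat_lit 301072178432) (nat_lit 76) (nat_lit 5046464075) (nat_lit 37) (nat_lit 4) (nat_lit 38) (nat_lit 5) (nat_lit 38) (nat_lit 4) (nat_lit 472) (nat_lit 437) (nat_lit 291)) (XT.lf (nat_lit 0) (nat_lit 94131499361) (nat_lit 152) (nat_lit 100232484841) (nat_lit 76) (nat_lit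 171682906864) (nat_lit 36) (nat_lit 5) (nat_lit 38) (nat_lit 5) (nat_lit 37) (nat_lit 4) (nat_lit 473) (nat_lit 437) (nat_lit 290))) (XT.nd (nat_lit 78) (nat_lit 0) (nat_lit 0) (XT.lf (nat_lit 0) (nat_lit 128416994552) (nat_lit 76) (nat_lit 75642267853) (nat_lit 152) (nat_lit 181318291391) (nat_lit 35) (nat_lit 5) (nat_lit 36) (nat_lit 5) (nat_lit 37) (nat_lit 4) (nat_lit 474) (nat_lit 437) (nat_lit 289)) (XT.lf (nat_lit 0) (nat_lit 326857218459) (nat_lit 152) (nat_lit 26312783730) (nat_lit 0) (nat_lit 52758589610) (nat_lit 35) (nat_lit 5) (nat_lit 37) (nat_lit 4) (nat_lit 35) (nat_lit 4) (nat_lit 475) (nat_lit 437) (nat_lit 288))))))) (XT.nd (nat_lit 936) (nat_lit 760) (nat_lit 0) (XT.nd (nat_lit 468) (nat_lit 380) (nat_lit 0) (XT.nd (nat_lit 234) (nat_lit 228) (nat_lit 0) (XT.nd (nat_lit 78) (nat_lit 76) (nat_lit 0) (XT.lf (nat_lit 0) (nat_lit 37537957702) (nat_lit 152) (nat_lit 196019889366)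 (nat_lit 76) (nat_lit 193885443847) (nat_lit 33) (nat_lit 5) (nat_lit 35) (nat_lit 5) (nat_lit 34) (nat_lit 4) (nat_lit 476) (nat_lit 437) (nat_lit 287)) (XT.nd (nat_lit 78) (nat_lit 0) (nat_lit 0) (XT.lf (nat_lit 0) (nat_lit 61665151233) (nat_lit 76) (nat_lit 99759939831) (nat_lit 152) (nat_lit 288912093648) (nat_lit 32) (nat_lit 5) (nat_lit 33) (nat_lit 5) (nat_lit 34) (nat_lit 4) (nat_lit 477) (nat_lit 437) (nat_lit 286)) (XT.lf (nat_lit 0) (nat_lit 301797768319) (nat_lit 152) (nat_lit 124736661972) (nat_lit 0) (nat_lit 48002193874) (nat_lit 32) (nat_lit 5) (nat_lit 34) (nat_lit 4) (nat_lit 32) (nat_lit 4) (nat_lit 478) (nat_lit 437) (nat_lit 285)))) (XT.nd (nat_lit 78) (nat_lit 152) (nat_lit 0) (XT.lf (nat_lit 0) (nat_lit 166027358464) (nat_lit 76) (nat_lit 293956838024) (nat_lit 76) (nat_lit 40161107357) (nat_lit 31) (nat_lit 4) (nat_lit 32) (nat_lit 5) (nat_lit 32) (nat_lit 4) (nat_lit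 479) (nat_lit 437) (nat_lit 284)) (XT.nd (nat_lit 78) (nat_lit 76) (nat_lit 0) (XT.lf (nat_lit 0) (nat_lit 101368154740) (nat_lit 152) (nat_lit 42950113456) (nat_lit 76) (nat_lit 383006280368) (nat_lit 30) (nat_lit 5) (nat_lit 32) (nat_lit 5) (nat_lit 31) (nat_lit 4) (nat_lit 480) (nat_lit 437) (nat_lit 283)) (XT.lf (nat_lit 0) (nat_lit 259517919910) (nat_lit 152) (nat_lit 271957713856) (nat_lit 0) (nat_lit 24521615046) (nat_lit 29) (nat_lit 5) (nat_lit 31) (nat_lit 4) (nat_lit 29) (nat_lit 4) (nat_lit 481) (nat_lit 437) (nat_lit 282))))) (XT.nd (nat_lit 234) (nat_lit 152) (nat_lit 0) (XT.nd (nat_lit 78) (nat_lit 152) (nat_lit 0) (XT.lf (nat_lit 0) (nat_lit 51561064119) (nat_lit 76) (nat_lit 384951831169) (nat_lit 76) (nat_lit 149955411478) (nat_lit 28) (nat_lit 4) (nat_lit 29) (nat_lit 5) (nat_lit 29) (nat_lit 4) (nat_lit 482) (nat_lit 437) (nat_lit 281)) (XT.nd (nat_lit 78) (nat_lit 76)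 (nat_lit 0) (XT.lf (nat_lit 0) (nat_lit 15504466470) (nat_lit 152) (nat_lit 202747235756) (nat_lit 76) (nat_lit 400499094956) (nat_lit 27) (nat_lit 5) (nat_lit 29) (nat_lit 5) (nat_lit 28) (nat_lit 4) (nat_lit 483) (nat_lit 437) (nat_lit 280)) (XT.lf (nat_lit 0) (nat_lit 160099108834) (nat_lit 76) (nat_lit 29850762942) (nat_lit 152) (nat_lit 463046401455) (nat_lit 26) (nat_lit 5) (nat_lit 27) (nat_lit 5) (nat_lit 28) (nat_lit 4) (nat_lit 484) (nat_lit 437) (nat_lit 279)))) (XT.nd (nat_lit 78) (nat_lit 152) (nat_lit 0) (XT.lf (nat_lit 0) (nat_lit 388213821384) (nat_lit 152) (nat_lit 130354263145) (nat_lit 0) (nat_lit 170624269889) (nat_lit 26) (nat_lit 5) (nat_lit 28) (nat_lit 4) (nat_lit 26) (nat_lit 4) (nat_lit 485) (nat_lit 437) (nat_lit 278)) (XT.nd (nat_lit 78) (nat_lit 76) (nat_lit 0) (XT.lf (nat_lit 0) (nat_lit 274129493496) (nat_lit 76) (nat_lit 335577408525) (nat_lit 76) (nat_lit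 117987778880) (nat_lit 25) (nat_lit 4) (nat_lit 26) (nat_lit 5) (nat_lit 26) (nat_lit 4) (nat_lit 486) (nat_lit 437) (nat_lit 277)) (XT.lf (nat_lit 0) (nat_lit 79314749412) (nat_lit 152) (nat_lit 52615023228) (nat_lit 76) (nat_lit 636901665772) (nat_lit 24) (nat_lit 5) (nat_lit 26) (nat_lit 5) (nat_lit 25) (nat_lit 4) (nat_lit 487) (nat_lit 437) (nat_lit 276)))))) (XT.nd (nat_lit 468) (nat_lit 380) (nat_lit 0) (XT.nd (nat_lit 234) (nat_lit 228) (nat_lit 0) (XT.nd (nat_lit 78) (nat_lit 76) (nat_lit 0) (XT.lf (nat_lit 0) (nat_lit 298024369790) (nat_lit 152) (nat_lit 417477452317) (nat_lit 0) (nat_lit 96552361450) (nat_lit 23) (nat_lit 5) (nat_lit 25) (nat_lit 4) (nat_lit 23) (nat_lit 4) (nat_lit 488) (nat_lit 437) (nat_lit 275)) (XT.nd (nat_lit 78) (nat_lit 0) (nat_lit 0) (XT.lf (nat_lit 0) (nat_lit 19423687719) (nat_lit 76) (nat_lit 520176775070) (nat_lit 76) (nat_lit 318704709288) (nat_lit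 22) (nat_lit 4) (nat_lit 23) (nat_lit 5) (nat_lit 23) (nat_lit 4) (nat_lit 489) (nat_lit 437) (nat_lit 274)) (XT.lf (nat_lit 0) (nat_lit 515018960309) (nat_lit 76) (nat_lit 296898121623) (nat_lit 76) (nat_lit 95426002653) (nat_lit 22) (nat_lit 4) (nat_lit 23) (nat_lit 5) (nat_lit 23) (nat_lit 4) (nat_lit 490) (nat_lit 437) (nat_lit 273)))) (XT.nd (nat_lit 78) (nat_lit 76) (nat_lit 0) (XT.lf (nat_lit 0) (nat_lit 91005585374) (nat_lit 76) (nat_lit 49608719237) (nat_lit 152) (nat_lit 819234284858) (nat_lit 20) (nat_lit 5) (nat_lit 21) (nat_lit 5) (nat_lit 22) (nat_lit 4) (nat_lit 491) (nat_lit 437) (nat_lit 272)) (XT.nd (nat_lit 78) (nat_lit 76) (nat_lit 0) (XT.lf (nat_lit 0) (nat_lit 406617692578) (nat_lit 152) (nat_lit 388370380811) (nat_lit 0) (nat_lit 220069346451) (nat_lit 20) (nat_lit 5) (nat_lit 22) (nat_lit 4) (nat_lit 20) (nat_lit 4) (nat_lit 492) (nat_lit 437) (nat_lit 271)) (XT.lf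 (nat_lit 0) (nat_lit 136057418090) (nat_lit 76) (nat_lit 562404537718) (nat_lit 76) (nat_lit 375856152496) (nat_lit 19) (nat_lit 4) (nat_lit 20) (nat_lit 5) (nat_lit 20) (nat_lit 4) (nat_lit 493) (nat_lit 437) (nat_lit 270))))) (XT.nd (nat_lit 234) (nat_lit 228) (nat_lit 0) (XT.nd (nat_lit 78) (nat_lit 152) (nat_lit 0) (XT.lf (nat_lit 0) (nat_lit 724526175468) (nat_lit 76) (nat_lit 299746204121) (nat_lit 76) (nat_lit 113197782700) (nat_lit 19) (nat_lit 4) (nat_lit 20) (nat_lit 5) (nat_lit 20) (nat_lit 4) (nat_lit 494) (nat_lit 437) (nat_lit 269)) (XT.nd (nat_lit 78) (nat_lit 0) (nat_lit 0) (XT.lf (nat_lit 0) (nat_lit 158212368768) (nat_lit 76) (nat_lit 7538027244) (nat_lit 152) (nat_lit 1039291601542) (nat_lit 17) (nat_lit 5) (nat_lit 18) (nat_lit 5) (nat_lit 19) (nat_lit 4) (nat_lit 495) (nat_lit 437) (nat_lit 268)) (XT.lf (nat_lit 0) (nat_lit 479891115897) (nat_lit 152) (nat_lit 489212826693)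 (nat_lit 0) (nat_lit 307161036293) (nat_lit 17) (nat_lit 5) (nat_lit 19) (nat_lit 4) (nat_lit 17) (nat_lit 4) (nat_lit 496) (nat_lit 437) (nat_lit 267)))) (XT.nd (nat_lit 156) (nat_lit 152) (nat_lit 0) (XT.nd (nat_lit 78) (nat_lit 0) (nat_lit 0) (XT.lf (nat_lit 0) (nat_lit 118758081429) (nat_lit 76) (nat_lit 703456838682) (nat_lit 76) (nat_lit 530726732471) (nat_lit 16) (nat_lit 4) (nat_lit 17) (nat_lit 5) (nat_lit 17) (nat_lit 4) (nat_lit 497) (nat_lit 437) (nat_lit 266)) (XT.lf (nat_lit 0) (nat_lit 803188428908) (nat_lit 76) (nat_lit 402112047162) (nat_lit 76) (nat_lit 229381916315) (nat_lit 16) (nat_lit 4) (nat_lit 17) (nat_lit 5) (nat_lit 17) (nat_lit 4) (nat_lit 498) (nat_lit 437) (nat_lit 265))) (XT.nd (nat_lit 78) (nat_lit 0) (nat_lit 0) (XT.lf (nat_lit 0) (nat_lit 18000587301) (nat_lit 76) (nat_lit 73696884313) (nat_lit 152) (nat_lit 1431045454262) (nat_lit 14) (nat_lit 5) (nat_lit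 15) (nat_lit 5) (nat_lit 16) (nat_lit 4) (nat_lit 499) (nat_lit 437) (nat_lit 264)) (XT.lf (nat_lit 0) (nat_lit 450543023972) (nat_lit 152) (nat_lit 874263171788) (nat_lit 0) (nat_lit 290607676953) (nat_lit 14) (nat_lit 5) (nat_lit 16) (nat_lit 4) (nat_lit 14) (nat_lit 4) (nat_lit 500) (nat_lit 437) (nat_lit 263))))))))
noncomputable def xc179 : XT := (XT.nd (nat_lit 1950) (nat_lit 152) (nat_lit 0) (XT.nd (nat_lit 936) (nat_lit 304) (nat_lit 0) (XT.nd (nat_lit 468) (nat_lit 228) (nat_lit 0) (XT.nd (nat_lit 234) (nat_lit 152) (nat_lit 0) (XT.nd (nat_lit 78) (nat_lit 76) (nat_lit 0) (XT.lf (nat_lit 0) (nat_lit 840010339059) (nat_lit 152) (nat_lit 195260052823) (nat_lit 0) (nat_lit 680074973932) (nat_lit 14) (nat_lit 5) (nat_lit 16) (nat_lit 4) (nat_lit 14) (nat_lit 4) (nat_lit 501) (nat_lit 437) (nat_lit 262)) (XT.nd (nat_lit 78) (nat_lit 0) (nat_lit 0) (XT.lf (nat_lit 0) (nat_lit 566396604419)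 (nat_lit 76) (nat_lit 707860207035) (nat_lit 76) (nat_lit 547924825141) (nat_lit 13) (nat_lit 4) (nat_lit 14) (nat_lit 5) (nat_lit 14) (nat_lit 4) (nat_lit 502) (nat_lit 437) (nat_lit 261)) (XT.lf (nat_lit 0) (nat_lit 1400090247282) (nat_lit 76) (nat_lit 348491432464) (nat_lit 76) (nat_lit 188556035045) (nat_lit 13) (nat_lit 4) (nat_lit 14) (nat_lit 5) (nat_lit 14) (nat_lit 4) (nat_lit 503) (nat_lit 437) (nat_lit 260)))) (XT.nd (nat_lit 78) (nat_lit 0) (nat_lit 0) (XT.lf (nat_lit 0) (nat_lit 196744996706) (nat_lit 152) (nat_lit 1814931419849) (nat_lit 0) (nat_lit 48656652453) (nat_lit 11) (nat_lit 5) (nat_lit 13) (nat_lit 4) (nat_lit 11) (nat_lit 4) (nat_lit 504) (nat_lit 437) (nat_lit 259)) (XT.nd (nat_lit 78) (nat_lit 0) (nat_lit 0) (XT.lf (nat_lit 0) (nat_lit 626800066956) (nat_lit 152) (nat_lit 1085551119127) (nat_lit 0) (nat_lit 478711710378) (nat_lit 11) (nat_lit 5) (nat_lit 13) (nat_lit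 4) (nat_lit 11) (nat_lit 4) (nat_lit 505) (nat_lit 437) (nat_lit 258)) (XT.lf (nat_lit 0) (nat_lit 1091259474521) (nat_lit 152) (nat_lit 297820534523) (nat_lit 0) (nat_lit 943171106532) (nat_lit 11) (nat_lit 5) (nat_lit 13) (nat_lit 4) (nat_lit 11) (nat_lit 4) (nat_lit 506) (nat_lit 437) (nat_lit 257))))) (XT.nd (nat_lit 234) (nat_lit 152) (nat_lit 0) (XT.nd (nat_lit 78) (nat_lit 0) (nat_lit 0) (XT.lf (nat_lit 0) (nat_lit 582044594992) (nat_lit 76) (nat_lit 1024829162962) (nat_lit 76) (nat_lit 876740784407) (nat_lit 10) (nat_lit 4) (nat_lit 11) (nat_lit 5) (nat_lit 11) (nat_lit 4) (nat_lit 507) (nat_lit 437) (nat_lit 256)) (XT.nd (nat_lit 78) (nat_lit 0) (nat_lit 0) (XT.lf (nat_lit 0) (nat_lit 1549236126052) (nat_lit 76) (nat_lit 622643937603) (nat_lit 76) (nat_lit 474555549264) (nat_lit 10) (nat_lit 4) (nat_lit 11) (nat_lit 5) (nat_lit 11) (nat_lit 4) (nat_lit 508) (nat_lit 437) (nat_lit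 255)) (XT.lf (nat_lit 0) (nat_lit 2593802862462) (nat_lit 76) (nat_lit 188283954312) (nat_lit 76) (nat_lit 40195556914) (nat_lit 10) (nat_lit 4) (nat_lit 11) (nat_lit 5) (nat_lit 11) (nat_lit 4) (nat_lit 509) (nat_lit 437) (nat_lit 254)))) (XT.nd (nat_lit 78) (nat_lit 0) (nat_lit 0) (XT.lf (nat_lit 0) (nat_lit 432645797984) (nat_lit 152) (nat_lit 2281183860484) (nat_lit 0) (nat_lit 295526903739) (nat_lit 8) (nat_lit 5) (nat_lit 10) (nat_lit 4) (nat_lit 8) (nat_lit 4) (nat_lit 510) (nat_lit 437) (nat_lit 253)) (XT.nd (nat_lit 78) (nat_lit 0) (nat_lit 0) (XT.lf (nat_lit 0) (nat_lit 952442590739) (nat_lit 152) (nat_lit 1442642903845) (nat_lit 0) (nat_lit 815323689303) (nat_lit 8) (nat_lit 5) (nat_lit 10) (nat_lit 4) (nat_lit 8) (nat_lit 4) (nat_lit 511) (nat_lit 437) (nat_lit 252)) (XT.lf (nat_lit 0) (nat_lit 1513823076801) (nat_lit 152) (nat_lit 537018773802) (nat_lit 0) (nat_lit 1376704168706)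 (nat_lit 8) (nat_lit 5) (nat_lit 10) (nat_lit 4) (nat_lit 8) (nat_lit 4) (nat_lit 512) (nat_lit 437) (nat_lit 251)))))) (XT.nd (nat_lit 468) (nat_lit 76) (nat_lit 0) (XT.nd (nat_lit 234) (nat_lit 152) (nat_lit 0) (XT.nd (nat_lit 78) (nat_lit 0) (nat_lit 0) (XT.lf (nat_lit 0) (nat_lit 464280375905) (nat_lit 76) (nat_lit 1666999533648) (nat_lit 76) (nat_lit 1529880619389) (nat_lit 7) (nat_lit 4) (nat_lit 8) (nat_lit 5) (nat_lit 8) (nat_lit 4) (nat_lit 513) (nat_lit 437) (nat_lit 250)) (XT.nd (nat_lit 78) (nat_lit 0) (nat_lit 0) (XT.lf (nat_lit 0) (nat_lit 1576224098023) (nat_lit 76) (nat_lit 1236592190655) (nat_lit 76) (nat_lit 1099473270687) (nat_lit 7) (nat_lit 4) (nat_lit 8) (nat_lit 5) (nat_lit 8) (nat_lit 4) (nat_lit 514) (nat_lit 437) (nat_lit 249)) (XT.lf (nat_lit 0) (nat_lit 2777123231734) (nat_lit 76) (nat_lit 771752304546) (nat_lit 76) (nat_lit 634633379292) (nat_lit 7) (nat_lit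 4) (nat_lit 8) (nat_lit 5) (nat_lit 8) (nat_lit 4) (nat_lit 515) (nat_lit 437) (nat_lit 248)))) (XT.nd (nat_lit 78) (nat_lit 152) (nat_lit 0) (XT.lf (nat_lit 0) (nat_lit 4074094216348) (nat_lit 76) (nat_lit 269725268587) (nat_lit 76) (nat_lit 132606338439) (nat_lit 7) (nat_lit 4) (nat_lit 8) (nat_lit 5) (nat_lit 8) (nat_lit 4) (nat_lit 516) (nat_lit 437) (nat_lit 247)) (XT.nd (nat_lit 78) (nat_lit 0) (nat_lit 0) (XT.lf (nat_lit 0) (nat_lit 413362097464) (nat_lit 152) (nat_lit 4090284369163) (nat_lit 0) (nat_lit 286400120909) (nat_lit 5) (nat_lit 5) (nat_lit 7) (nat_lit 4) (nat_lit 5) (nat_lit 4) (nat_lit 517) (nat_lit 437) (nat_lit 246)) (XT.lf (nat_lit 0) (nat_lit 1014135821337) (nat_lit 152) (nat_lit 3225708444986) (nat_lit 0) (nat_lit 887173840896) (nat_lit 5) (nat_lit 5) (nat_lit 7) (nat_lit 4) (nat_lit 5) (nat_lit 4) (nat_lit 518) (nat_lit 437) (nat_lit 245))))) (XT.nd (nat_lit 234)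 (nat_lit 76) (nat_lit 0) (XT.nd (nat_lit 78) (nat_lit 0) (nat_lit 0) (XT.lf (nat_lit 0) (nat_lit 1662971409063) (nat_lit 152) (nat_lit 2291966517111) (nat_lit 0) (nat_lit 1536009425025) (nat_lit 5) (nat_lit 5) (nat_lit 7) (nat_lit 4) (nat_lit 5) (nat_lit 4) (nat_lit 519) (nat_lit 437) (nat_lit 244)) (XT.nd (nat_lit 78) (nat_lit 0) (nat_lit 0) (XT.lf (nat_lit 0) (nat_lit 2363713812274) (nat_lit 152) (nat_lit 1283525300042) (nat_lit 0) (nat_lit 2236751824905) (nat_lit 5) (nat_lit 5) (nat_lit 7) (nat_lit 4) (nat_lit 5) (nat_lit 4) (nat_lit 520) (nat_lit 437) (nat_lit 243)) (XT.lf (nat_lit 0) (nat_lit 3120515578544) (nat_lit 152) (nat_lit 194408845825) (nat_lit 0) (nat_lit 2993553588092) (nat_lit 5) (nat_lit 5) (nat_lit 7) (nat_lit 4) (nat_lit 5) (nat_lit 4) (nat_lit 521) (nat_lit 437) (nat_lit 242)))) (XT.nd (nat_lit 156) (nat_lit 0) (nat_lit 0) (XT.nd (nat_lit 78) (nat_lit 0) (nat_lit 0)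 (XT.lf (nat_lit 0) (nat_lit 1033538658527) (nat_lit 76) (nat_lit 2929179430149) (nat_lit 76) (nat_lit 2802217436841) (nat_lit 4) (nat_lit 4) (nat_lit 5) (nat_lit 5) (nat_lit 5) (nat_lit 4) (nat_lit 522) (nat_lit 437) (nat_lit 241)) (XT.lf (nat_lit 0) (nat_lit 2370778112206) (nat_lit 76) (nat_lit 2506834143440) (nat_lit 76) (nat_lit 2379872147487) (nat_lit 4) (nat_lit 4) (nat_lit 5) (nat_lit 5) (nat_lit 5) (nat_lit 4) (nat_lit 523) (nat_lit 437) (nat_lit 240))) (XT.nd (nat_lit 78) (nat_lit 0) (nat_lit 0) (XT.lf (nat_lit 0) (nat_lit 3814996671859) (nat_lit 76) (nat_lit 2050701259726) (nat_lit 76) (nat_lit 1923739261325) (nat_lit 4) (nat_lit 4) (nat_lit 5) (nat_lit 5) (nat_lit 5) (nat_lit 4) (nat_lit 524) (nat_lit 437) (nat_lit 239)) (XT.lf (nat_lit 0) (nat_lit 5374752669693) (nat_lit 76) (nat_lit 1558077769326) (nat_lit 76) (nat_lit 1431115768658) (nat_lit 4) (nat_lit 4) (nat_lit 5) (nat_lit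 5) (nat_lit 5) (nat_lit 4) (nat_lit 525) (nat_lit 437) (nat_lit 238))))))) (XT.nd (nat_lit 56082) (nat_lit 0) (nat_lit 4180) (XT.nd (nat_lit 55614) (nat_lit 0) (nat_lit 5548) (XT.nd (nat_lit 234) (nat_lit 0) (nat_lit 0) (XT.nd (nat_lit 78) (nat_lit 152) (nat_lit 0) (XT.lf (nat_lit 0) (nat_lit 7059289104211) (nat_lit 76) (nat_lit 1026044421926) (nat_lit 76) (nat_lit 899082419160) (nat_lit 4) (nat_lit 4) (nat_lit 5) (nat_lit 5) (nat_lit 5) (nat_lit 4) (nat_lit 526) (nat_lit 437) (nat_lit 237)) (XT.nd (nat_lit 78) (nat_lit 152) (nat_lit 0) (XT.lf (nat_lit 0) (nat_lit 8878588413546) (nat_lit 76) (nat_lit 451448427320) (nat_lit 76) (nat_lit 324486422610) (nat_lit 4) (nat_lit 4) (nat_lit 5) (nat_lit 5) (nat_lit 5) (nat_lit 4) (nat_lit 527) (nat_lit 437) (nat_lit 236)) (XT.lf (nat_lit 0) (nat_lit 297416398312) (nat_lit 152) (nat_lit 9899102120475) (nat_lit 0) (nat_lit 179858984877) (nat_lit 2)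 (nat_lit 5) (nat_lit 4) (nat_lit 4) (nat_lit 2) (nat_lit 4) (nat_lit 528) (nat_lit 437) (nat_lit 235)))) (XT.nd (nat_lit 78) (nat_lit 0) (nat_lit 0) (XT.lf (nat_lit 0) (nat_lit 985033148770) (nat_lit 152) (nat_lit 9300117551091) (nat_lit 0) (nat_lit 867475733792) (nat_lit 2) (nat_lit 5) (nat_lit 4) (nat_lit 4) (nat_lit 2) (nat_lit 4) (nat_lit 529) (nat_lit 437) (nat_lit 234)) (XT.nd (nat_lit 78) (nat_lit 0) (nat_lit 0) (XT.lf (nat_lit 0) (nat_lit 1727659222249) (nat_lit 152) (nat_lit 8653214251312) (nat_lit 0) (nat_lit 1610101805842) (nat_lit 2) (nat_lit 5) (nat_lit 4) (nat_lit 4) (nat_lit 2) (nat_lit 4) (nat_lit 530) (nat_lit 437) (nat_lit 233)) (XT.lf (nat_lit 0) (nat_lit 2529695365849) (nat_lit 152) (nat_lit 7954558720104) (nat_lit 0) (nat_lit 2412137948120) (nat_lit 2) (nat_lit 5) (nat_lit 4) (nat_lit 4) (nat_lit 2) (nat_lit 4) (nat_lit 531) (nat_lit 437) (nat_lit 232))))) (XT.nd (nat_lit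 234) (nat_lit 456) (nat_lit 0) (XT.nd (nat_lit 78) (nat_lit 0) (nat_lit 0) (XT.lf (nat_lit 0) (nat_lit 36610414328) (nat_lit 532) (nat_lit 605757152) (nat_lit 532) (nat_lit 605757152) (nat_lit 81) (nat_lit 3) (nat_lit 88) (nat_lit 3) (nat_lit 88) (nat_lit 5) (nat_lit 438) (nat_lit 438) (nat_lit 324)) (XT.nd (nat_lit 78) (nat_lit 0) (nat_lit 0) (XT.lf (nat_lit 76) (nat_lit 38220010550) (nat_lit 0) (nat_lit 38859628288) (nat_lit 532) (nat_lit 1515571672) (nat_lit 82) (nat_lit 5) (nat_lit 81) (nat_lit 3) (nat_lit 88) (nat_lit 5) (nat_lit 439) (nat_lit 438) (nat_lit 323)) (XT.lf (nat_lit 76) (nat_lit 80874343790) (nat_lit 0) (nat_lit 404841233) (nat_lit 532) (nat_lit 500924784) (nat_lit 82) (nat_lit 5) (nat_lit 81) (nat_lit 3) (nat_lit 88) (nat_lit 5) (nat_lit 440) (nat_lit 438) (nat_lit 322)))) (XT.nd (nat_lit 78) (nat_lit 0) (nat_lit 0) (XT.lf (nat_lit 0) (nat_lit 2636846700) (nat_lit 532)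 (nat_lit 42248695215) (nat_lit 608) (nat_lit 40167377855) (nat_lit 75) (nat_lit 5) (nat_lit 82) (nat_lit 5) (nat_lit 83) (nat_lit 5) (nat_lit 441) (nat_lit 438) (nat_lit 321)) (XT.nd (nat_lit 78) (nat_lit 0) (nat_lit 76) (XT.lf (nat_lit 76) (nat_lit 1528553021) (nat_lit 0) (nat_lit 4541741501) (nat_lit 608) (nat_lit 82510481951) (nat_lit 76) (nat_lit 5) (nat_lit 75) (nat_lit 5) (nat_lit 83) (nat_lit 5) (nat_lit 442) (nat_lit 438) (nat_lit 320)) (XT.lf (nat_lit 0) (nat_lit 11901331365) (nat_lit 532) (nat_lit 42057169291) (nat_lit 608) (nat_lit 38262528211) (nat_lit 76) (nat_lit 5) (nat_lit 83) (nat_lit 5) (nat_lit 84) (nat_lit 5) (nat_lit 443) (nat_lit 438) (nat_lit 319)))))) (XT.nd (nat_lit 468) (nat_lit 836) (nat_lit 0) (XT.nd (nat_lit 234) (nat_lit 228) (nat_lit 0) (XT.nd (nat_lit 78) (nat_lit 380) (nat_lit 0) (XT.lf (nat_lit 76) (nat_lit 6756825840) (nat_lit 0) (nat_lit 11721654696)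 (nat_lit 608) (nat_lit 77651650762) (nat_lit 77) (nat_lit 5) (nat_lit 76) (nat_lit 5) (nat_lit 84) (nat_lit 5) (nat_lit 444) (nat_lit 438) (nat_lit 318)) (XT.nd (nat_lit 78) (nat_lit 456) (nat_lit 0) (XT.lf (nat_lit 0) (nat_lit 27575950761) (nat_lit 532) (nat_lit 39237970815) (nat_lit 76) (nat_lit 33378508601) (nat_lit 77) (nat_lit 5) (nat_lit 84) (nat_lit 5) (nat_lit 78) (nat_lit 5) (nat_lit 445) (nat_lit 438) (nat_lit 317)) (XT.lf (nat_lit 0) (nat_lit 15372009118) (nat_lit 456) (nat_lit 22702632582) (nat_lit 532) (nat_lit 66451197586) (nat_lit 71) (nat_lit 5) (nat_lit 77) (nat_lit 5) (nat_lit 78) (nat_lit 5) (nat_lit 446) (nat_lit 438) (nat_lit 316)))) (XT.nd (nat_lit 78) (nat_lit 228) (nat_lit 0) (XT.lf (nat_lit 0) (nat_lit 51112984171) (nat_lit 532) (nat_lit 33166155133) (nat_lit 76) (nat_lit 24790801476) (nat_lit 71) (nat_lit 5) (nat_lit 78) (nat_lit 5) (nat_lit 72) (nat_lit 5) (nat_lit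 447) (nat_lit 438) (nat_lit 315)) (XT.nd (nat_lit 78) (nat_lit 0) (nat_lit 0) (XT.lf (nat_lit 0) (nat_lit 28116688247) (nat_lit 228) (nat_lit 38342948838) (nat_lit 304) (nat_lit 47416714008) (nat_lit 68) (nat_lit 5) (nat_lit 71) (nat_lit 5) (nat_lit 72) (nat_lit 5) (nat_lit 448) (nat_lit 438) (nat_lit 314)) (XT.lf (nat_lit 0) (nat_lit 84234784250) (nat_lit 304) (nat_lit 23101641738) (nat_lit 76) (nat_lit 11634787416) (nat_lit 68) (nat_lit 5) (nat_lit 72) (nat_lit 5) (nat_lit 69) (nat_lit 5) (nat_lit 449) (nat_lit 438) (nat_lit 313))))) (XT.nd (nat_lit 234) (nat_lit 380) (nat_lit 0) (XT.nd (nat_lit 78) (nat_lit 228) (nat_lit 0) (XT.lf (nat_lit 0) (nat_lit 45866892296) (nat_lit 228) (nat_lit 59663504644) (nat_lit 304) (nat_lit 18775391583) (nat_lit 65) (nat_lit 5) (nat_lit 68) (nat_lit 5) (nat_lit 69) (nat_lit 5) (nat_lit 450) (nat_lit 438) (nat_lit 312)) (XT.nd (nat_lit 78) (nat_lit 228)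 (nat_lit 0) (XT.lf (nat_lit 0) (nat_lit 121666080763) (nat_lit 228) (nat_lit 7494677468) (nat_lit 304) (nat_lit 855883569) (nat_lit 65) (nat_lit 5) (nat_lit 68) (nat_lit 5) (nat_lit 69) (nat_lit 5) (nat_lit 451) (nat_lit 438) (nat_lit 311)) (XT.lf (nat_lit 0) (nat_lit 20495352989) (nat_lit 228) (nat_lit 66821487761) (nat_lit 76) (nat_lit 48598056306) (nat_lit 62) (nat_lit 5) (nat_lit 65) (nat_lit 5) (nat_lit 63) (nat_lit 5) (nat_lit 452) (nat_lit 438) (nat_lit 310)))) (XT.nd (nat_lit 156) (nat_lit 152) (nat_lit 0) (XT.nd (nat_lit 78) (nat_lit 0) (nat_lit 0) (XT.lf (nat_lit 0) (nat_lit 11281955098) (nat_lit 228) (nat_lit 32926248646) (nat_lit 304) (nat_lit 98019050203) (nat_lit 59) (nat_lit 5) (nat_lit 62) (nat_lit 5) (nat_lit 63) (nat_lit 5) (nat_lit 453) (nat_lit 438) (nat_lit 309)) (XT.lf (nat_lit 0) (nat_lit 72312946332) (nat_lit 304) (nat_lit 50133545635) (nat_lit 76) (nat_lit 26398518404)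 (nat_lit 59) (nat_lit 5) (nat_lit 63) (nat_lit 5) (nat_lit 60) (nat_lit 5) (nat_lit 454) (nat_lit 438) (nat_lit 308))) (XT.nd (nat_lit 78) (nat_lit 0) (nat_lit 0) (XT.lf (nat_lit 0) (nat_lit 38198137147) (nat_lit 152) (nat_lit 66241384986) (nat_lit 228) (nat_lit 51410788951) (nat_lit 57) (nat_lit 5) (nat_lit 59) (nat_lit 5) (nat_lit 60) (nat_lit 5) (nat_lit 455) (nat_lit 438) (nat_lit 307)) (XT.lf (nat_lit 0) (nat_lit 136446900158) (nat_lit 152) (nat_lit 4059642559) (nat_lit 228) (nat_lit 22799867710) (nat_lit 57) (nat_lit 5) (nat_lit 59) (nat_lit 5) (nat_lit 60) (nat_lit 5) (nat_lit 456) (nat_lit 438) (nat_lit 306))))))))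
noncomputable def xc180 : XT := (XT.nd (nat_lit 1950) (nat_lit 1444) (nat_lit 0) (XT.nd (nat_lit 936) (nat_lit 836) (nat_lit 0) (XT.nd (nat_lit 468) (nat_lit 532) (nat_lit 0) (XT.nd (nat_lit 234) (nat_lit 304) (nat_lit 0) (XT.nd (nat_lit 78) (nat_lit 152) (nat_lit 0) (XT.lf (nat_lit 0) (nat_lit 11061054045) (nat_lit 228) (nat_lit 98028876057) (nat_lit 76) (nat_lit 61984177964) (nat_lit 54) (nat_lit 5) (nat_lit 57) (nat_lit 5) (nat_lit 55) (nat_lit 5) (nat_lit 457) (nat_lit 438) (nat_lit 305)) (XT.nd (nat_lit 78) (nat_lit 0) (nat_lit 0) (XT.lf (nat_lit 0) (nat_lit 2471746497) (nat_lit 152) (nat_lit 44845282267) (nat_lit 228) (nat_lit 132025379319) (nat_lit 52) (nat_lit 5) (nat_lit 54) (nat_lit 5) (nat_lit 55) (nat_lit 5) (nat_lit 458) (nat_lit 438) (nat_lit 304)) (XT.lf (nat_lit 0) (nat_lit 89813166700) (nat_lit 228) (nat_lit 72130714685) (nat_lit 76) (nat_lit 26061115949) (nat_lit 52) (nat_lit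 5) (nat_lit 55) (nat_lit 5) (nat_lit 53) (nat_lit 5) (nat_lit 459) (nat_lit 438) (nat_lit 303)))) (XT.nd (nat_lit 78) (nat_lit 152) (nat_lit 0) (XT.lf (nat_lit 0) (nat_lit 41920078120) (nat_lit 152) (nat_lit 95961559210) (nat_lit 228) (nat_lit 59305145112) (nat_lit 50) (nat_lit 5) (nat_lit 52) (nat_lit 5) (nat_lit 53) (nat_lit 5) (nat_lit 460) (nat_lit 438) (nat_lit 302)) (XT.nd (nat_lit 78) (nat_lit 152) (nat_lit 0) (XT.lf (nat_lit 0) (nat_lit 169196536511) (nat_lit 152) (nat_lit 22570893941) (nat_lit 228) (nat_lit 15177932364) (nat_lit 50) (nat_lit 5) (nat_lit 52) (nat_lit 5) (nat_lit 53) (nat_lit 5) (nat_lit 461) (nat_lit 438) (nat_lit 301)) (XT.lf (nat_lit 0) (nat_lit 34533902444) (nat_lit 152) (nat_lit 125641739177) (nat_lit 76) (nat_lit 56952161578) (nat_lit 48) (nat_lit 5) (nat_lit 50) (nat_lit 5) (nat_lit 49) (nat_lit 5) (nat_lit 462) (nat_lit 438) (nat_lit 300))))) (XT.nd (nat_lit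 234) (nat_lit 304) (nat_lit 0) (XT.nd (nat_lit 78) (nat_lit 76) (nat_lit 0) (XT.lf (nat_lit 0) (nat_lit 4375340684) (nat_lit 152) (nat_lit 84777440075) (nat_lit 228) (nat_lit 138800511583) (nat_lit 46) (nat_lit 5) (nat_lit 48) (nat_lit 5) (nat_lit 49) (nat_lit 5) (nat_lit 463) (nat_lit 438) (nat_lit 299)) (XT.nd (nat_lit 78) (nat_lit 76) (nat_lit 0) (XT.lf (nat_lit 0) (nat_lit 151584853471) (nat_lit 228) (nat_lit 87440104253) (nat_lit 76) (nat_lit 344368197) (nat_lit 46) (nat_lit 5) (nat_lit 49) (nat_lit 5) (nat_lit 47) (nat_lit 4) (nat_lit 464) (nat_lit 438) (nat_lit 298)) (XT.lf (nat_lit 0) (nat_lit 60408131964) (nat_lit 76) (nat_lit 162257904432) (nat_lit 152) (nat_lit 28740242268) (nat_lit 45) (nat_lit 5) (nat_lit 46) (nat_lit 5) (nat_lit 47) (nat_lit 4) (nat_lit 465) (nat_lit 438) (nat_lit 297)))) (XT.nd (nat_lit 78) (nat_lit 228) (nat_lit 0) (XT.lf (nat_lit 0) (nat_lit 35727891273)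 (nat_lit 152) (nat_lit 40062903143) (nat_lit 76) (nat_lit 188351793514) (nat_lit 44) (nat_lit 5) (nat_lit 46) (nat_lit 5) (nat_lit 45) (nat_lit 5) (nat_lit 466) (nat_lit 438) (nat_lit 296)) (XT.nd (nat_lit 78) (nat_lit 76) (nat_lit 0) (XT.lf (nat_lit 0) (nat_lit 107417040042) (nat_lit 228) (nat_lit 149478424281) (nat_lit 76) (nat_lit 20653314928) (nat_lit 42) (nat_lit 5) (nat_lit 45) (nat_lit 5) (nat_lit 43) (nat_lit 4) (nat_lit 467) (nat_lit 438) (nat_lit 295)) (XT.lf (nat_lit 0) (nat_lit 18942954047) (nat_lit 76) (nat_lit 169446123102) (nat_lit 152) (nat_lit 103354568234) (nat_lit 41) (nat_lit 5) (nat_lit 42) (nat_lit 5) (nat_lit 43) (nat_lit 4) (nat_lit 468) (nat_lit 438) (nat_lit 294)))))) (XT.nd (nat_lit 468) (nat_lit 456) (nat_lit 0) (XT.nd (nat_lit 234) (nat_lit 228) (nat_lit 0) (XT.nd (nat_lit 78) (nat_lit 152) (nat_lit 0) (XT.lf (nat_lit 0) (nat_lit 209338567278) (nat_lit 76) (nat_lit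 70587066648) (nat_lit 152) (nat_lit 26821526365) (nat_lit 41) (nat_lit 5) (nat_lit 42) (nat_lit 5) (nat_lit 43) (nat_lit 4) (nat_lit 469) (nat_lit 438) (nat_lit 293)) (XT.nd (nat_lit 78) (nat_lit 0) (nat_lit 0) (XT.lf (nat_lit 0) (nat_lit 56301000341) (nat_lit 152) (nat_lit 228178312516) (nat_lit 76) (nat_lit 38103427145) (nat_lit 39) (nat_lit 5) (nat_lit 41) (nat_lit 5) (nat_lit 40) (nat_lit 4) (nat_lit 470) (nat_lit 438) (nat_lit 292)) (XT.lf (nat_lit 0) (nat_lit 149189968310) (nat_lit 152) (nat_lit 34969596412) (nat_lit 76) (nat_lit 155104612486) (nat_lit 39) (nat_lit 5) (nat_lit 41) (nat_lit 5) (nat_lit 40) (nat_lit 4) (nat_lit 471) (nat_lit 438) (nat_lit 291)))) (XT.nd (nat_lit 78) (nat_lit 152) (nat_lit 0) (XT.lf (nat_lit 0) (nat_lit 182841913459) (nat_lit 76) (nat_lit 71065277044) (nat_lit 152) (nat_lit 103021167960) (nat_lit 38) (nat_lit 5) (nat_lit 39) (nat_lit 5) (nat_lit 40)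 (nat_lit 4) (nat_lit 472) (nat_lit 438) (nat_lit 290)) (XT.nd (nat_lit 78) (nat_lit 76) (nat_lit 0) (XT.lf (nat_lit 0) (nat_lit 45142496943) (nat_lit 76) (nat_lit 325154116086) (nat_lit 76) (nat_lit 5445475397) (nat_lit 37) (nat_lit 4) (nat_lit 38) (nat_lit 5) (nat_lit 38) (nat_lit 4) (nat_lit 473) (nat_lit 438) (nat_lit 289)) (XT.lf (nat_lit 0) (nat_lit 101666158570) (nat_lit 152) (nat_lit 108243278767) (nat_lit 76) (nat_lit 185420873634) (nat_lit 36) (nat_lit 5) (nat_lit 38) (nat_lit 5) (nat_lit 37) (nat_lit 4) (nat_lit 474) (nat_lit 438) (nat_lit 288))))) (XT.nd (nat_lit 234) (nat_lit 228) (nat_lit 0) (XT.nd (nat_lit 78) (nat_lit 152) (nat_lit 0) (XT.lf (nat_lit 0) (nat_lit 138697961386) (nat_lit 76) (nat_lit 81690057614) (nat_lit 152) (nat_lit 195819417629) (nat_lit 35) (nat_lit 5) (nat_lit 36) (nat_lit 5) (nat_lit 37) (nat_lit 4) (nat_lit 475) (nat_lit 438) (nat_lit 287)) (XT.nd (nat_lit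 78) (nat_lit 152) (nat_lit 0) (XT.lf (nat_lit 0) (nat_lit 353009594068) (nat_lit 152) (nat_lit 28410544983) (nat_lit 0) (nat_lit 56982436036) (nat_lit 35) (nat_lit 5) (nat_lit 37) (nat_lit 4) (nat_lit 35) (nat_lit 4) (nat_lit 476) (nat_lit 438) (nat_lit 286)) (XT.lf (nat_lit 0) (nat_lit 40544777271) (nat_lit 152) (nat_lit 211694203524) (nat_lit 76) (nat_lit 209399470579) (nat_lit 33) (nat_lit 5) (nat_lit 35) (nat_lit 5) (nat_lit 34) (nat_lit 4) (nat_lit 477) (nat_lit 438) (nat_lit 285)))) (XT.nd (nat_lit 156) (nat_lit 152) (nat_lit 0) (XT.nd (nat_lit 78) (nat_lit 0) (nat_lit 0) (XT.lf (nat_lit 0) (nat_lit 66605456095) (nat_lit 76) (nat_lit 107737315570) (nat_lit 152) (nat_lit 312021093796) (nat_lit 32) (nat_lit 5) (nat_lit 33) (nat_lit 5) (nat_lit 34) (nat_lit 4) (nat_lit 478) (nat_lit 438) (nat_lit 284)) (XT.lf (nat_lit 0) (nat_lit 325945067149) (nat_lit 152) (nat_lit 134708831454) (nat_lit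 0) (nat_lit 51845377156) (nat_lit 32) (nat_lit 5) (nat_lit 34) (nat_lit 4) (nat_lit 32) (nat_lit 4) (nat_lit 479) (nat_lit 438) (nat_lit 283))) (XT.nd (nat_lit 78) (nat_lit 76) (nat_lit 0) (XT.lf (nat_lit 0) (nat_lit 179316139389) (nat_lit 76) (nat_lit 317470171143) (nat_lit 76) (nat_lit 43370347214) (nat_lit 31) (nat_lit 4) (nat_lit 32) (nat_lit 5) (nat_lit 32) (nat_lit 4) (nat_lit 480) (nat_lit 438) (nat_lit 282)) (XT.lf (nat_lit 0) (nat_lit 109480816570) (nat_lit 152) (nat_lit 46379849475) (nat_lit 76) (nat_lit 413649589528) (nat_lit 30) (nat_lit 5) (nat_lit 32) (nat_lit 5) (nat_lit 31) (nat_lit 4) (nat_lit 481) (nat_lit 438) (nat_lit 281))))))) (XT.nd (nat_lit 936) (nat_lit 684) (nat_lit 0) (XT.nd (nat_lit 468) (nat_lit 380) (nat_lit 0) (XT.nd (nat_lit 234) (nat_lit 152) (nat_lit 0) (XT.nd (nat_lit 78) (nat_lit 152) (nat_lit 0) (XT.lf (nat_lit 0) (nat_lit 280282544306) (nat_lit 152)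 (nat_lit 293708039147) (nat_lit 0) (nat_lit 26486189888) (nat_lit 29) (nat_lit 5) (nat_lit 31) (nat_lit 4) (nat_lit 29) (nat_lit 4) (nat_lit 482) (nat_lit 438) (nat_lit 280)) (XT.nd (nat_lit 78) (nat_lit 76) (nat_lit 0) (XT.lf (nat_lit 0) (nat_lit 55692081779) (nat_lit 76) (nat_lit 415744947067) (nat_lit 76) (nat_lit 161948494203) (nat_lit 28) (nat_lit 4) (nat_lit 29) (nat_lit 5) (nat_lit 29) (nat_lit 4) (nat_lit 483) (nat_lit 438) (nat_lit 279)) (XT.lf (nat_lit 0) (nat_lit 16747770641) (nat_lit 152) (nat_lit 218961181083) (nat_lit 76) (nat_lit 432541673395) (nat_lit 27) (nat_lit 5) (nat_lit 29) (nat_lit 5) (nat_lit 28) (nat_lit 4) (nat_lit 484) (nat_lit 438) (nat_lit 278)))) (XT.nd (nat_lit 78) (nat_lit 76) (nat_lit 0) (XT.lf (nat_lit 0) (nat_lit 172912723389) (nat_lit 76) (nat_lit 32236003442) (nat_lit 152) (nat_lit 500087018952) (nat_lit 26) (nat_lit 5) (nat_lit 27) (nat_lit 5) (nat_lit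 28) (nat_lit 4) (nat_lit 485) (nat_lit 438) (nat_lit 277)) (XT.nd (nat_lit 78) (nat_lit 76) (nat_lit 0) (XT.lf (nat_lit 0) (nat_lit 419273642972) (nat_lit 152) (nat_lit 140777190010) (nat_lit 0) (nat_lit 184276692444) (nat_lit 26) (nat_lit 5) (nat_lit 28) (nat_lit 4) (nat_lit 26) (nat_lit 4) (nat_lit 486) (nat_lit 438) (nat_lit 276)) (XT.lf (nat_lit 0) (nat_lit 296065130094) (nat_lit 76) (nat_lit 362420965704) (nat_lit 76) (nat_lit 127423948175) (nat_lit 25) (nat_lit 4) (nat_lit 26) (nat_lit 5) (nat_lit 26) (nat_lit 4) (nat_lit 487) (nat_lit 438) (nat_lit 275))))) (XT.nd (nat_lit 234) (nat_lit 152) (nat_lit 0) (XT.nd (nat_lit 78) (nat_lit 152) (nat_lit 0) (XT.lf (nat_lit 0) (nat_lit 85662438898) (nat_lit 152) (nat_lit 56819206658) (nat_lit 76) (nat_lit 687856107106) (nat_lit 24) (nat_lit 5) (nat_lit 26) (nat_lit 5) (nat_lit 25) (nat_lit 4) (nat_lit 488) (nat_lit 438) (nat_lit 274)) (XT.nd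 (nat_lit 78) (nat_lit 76) (nat_lit 0) (XT.lf (nat_lit 0) (nat_lit 321868819577) (nat_lit 152) (nat_lit 450870620690) (nat_lit 0) (nat_lit 104278877902) (nat_lit 23) (nat_lit 5) (nat_lit 25) (nat_lit 4) (nat_lit 23) (nat_lit 4) (nat_lit 489) (nat_lit 438) (nat_lit 273)) (XT.lf (nat_lit 0) (nat_lit 20982483262) (nat_lit 76) (nat_lit 561788449412) (nat_lit 76) (nat_lit 344198458488) (nat_lit 22) (nat_lit 4) (nat_lit 23) (nat_lit 5) (nat_lit 23) (nat_lit 4) (nat_lit 490) (nat_lit 438) (nat_lit 272)))) (XT.nd (nat_lit 78) (nat_lit 152) (nat_lit 0) (XT.lf (nat_lit 0) (nat_lit 556225014658) (nat_lit 76) (nat_lit 320647686479) (nat_lit 76) (nat_lit 103057649956) (nat_lit 22) (nat_lit 4) (nat_lit 23) (nat_lit 5) (nat_lit 23) (nat_lit 4) (nat_lit 491) (nat_lit 438) (nat_lit 271)) (XT.nd (nat_lit 78) (nat_lit 0) (nat_lit 0) (XT.lf (nat_lit 0) (nat_lit 98290573520) (nat_lit 76) (nat_lit 53575124684)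 (nat_lit 152) (nat_lit 884770598444) (nat_lit 20) (nat_lit 5) (nat_lit 21) (nat_lit 5) (nat_lit 22) (nat_lit 4) (nat_lit 492) (nat_lit 438) (nat_lit 270)) (XT.lf (nat_lit 0) (nat_lit 439149241641) (nat_lit 152) (nat_lit 419435690748) (nat_lit 0) (nat_lit 237676910308) (nat_lit 20) (nat_lit 5) (nat_lit 22) (nat_lit 4) (nat_lit 20) (nat_lit 4) (nat_lit 493) (nat_lit 438) (nat_lit 269)))))) (XT.nd (nat_lit 468) (nat_lit 380) (nat_lit 0) (XT.nd (nat_lit 234) (nat_lit 76) (nat_lit 0) (XT.nd (nat_lit 78) (nat_lit 152) (nat_lit 0) (XT.lf (nat_lit 0) (nat_lit 146946222684) (nat_lit 76) (nat_lit 607394766474) (nat_lit 76) (nat_lit 405922401624) (nat_lit 19) (nat_lit 4) (nat_lit 20) (nat_lit 5) (nat_lit 20) (nat_lit 4) (nat_lit 494) (nat_lit 438) (nat_lit 268)) (XT.nd (nat_lit 78) (nat_lit 152) (nat_lit 0) (XT.lf (nat_lit 0) (nat_lit 782492168716) (nat_lit 76) (nat_lit 323723924282) (nat_lit 76)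 (nat_lit 122251528397) (nat_lit 19) (nat_lit 4) (nat_lit 20) (nat_lit 5) (nat_lit 20) (nat_lit 4) (nat_lit 495) (nat_lit 438) (nat_lit 267)) (XT.lf (nat_lit 0) (nat_lit 170873260061) (nat_lit 76) (nat_lit 8139088343) (nat_lit 152) (nat_lit 1122432855270) (nat_lit 17) (nat_lit 5) (nat_lit 18) (nat_lit 5) (nat_lit 19) (nat_lit 4) (nat_lit 496) (nat_lit 438) (nat_lit 266)))) (XT.nd (nat_lit 78) (nat_lit 76) (nat_lit 0) (XT.lf (nat_lit 0) (nat_lit 518284227721) (nat_lit 152) (nat_lit 528346141874) (nat_lit 0) (nat_lit 331735661770) (nat_lit 17) (nat_lit 5) (nat_lit 19) (nat_lit 4) (nat_lit 17) (nat_lit 4) (nat_lit 497) (nat_lit 438) (nat_lit 265)) (XT.nd (nat_lit 78) (nat_lit 0) (nat_lit 0) (XT.lf (nat_lit 0) (nat_lit 128262344950) (nat_lit 76) (nat_lit 759731543308) (nat_lit 76) (nat_lit 573182954545) (nat_lit 16) (nat_lit 4) (nat_lit 17) (nat_lit 5) (nat_lit 17) (nat_lit 4) (nat_lit 498)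 (nat_lit 438) (nat_lit 264)) (XT.lf (nat_lit 0) (nat_lit 867446852301) (nat_lit 76) (nat_lit 434279304945) (nat_lit 76) (nat_lit 247730695061) (nat_lit 16) (nat_lit 4) (nat_lit 17) (nat_lit 5) (nat_lit 17) (nat_lit 4) (nat_lit 499) (nat_lit 438) (nat_lit 263))))) (XT.nd (nat_lit 234) (nat_lit 228) (nat_lit 0) (XT.nd (nat_lit 78) (nat_lit 0) (nat_lit 0) (XT.lf (nat_lit 0) (nat_lit 19443985122) (nat_lit 76) (nat_lit 79590925725) (nat_lit 152) (nat_lit 1545527317761) (nat_lit 14) (nat_lit 5) (nat_lit 15) (nat_lit 5) (nat_lit 16) (nat_lit 4) (nat_lit 500) (nat_lit 438) (nat_lit 262)) (XT.nd (nat_lit 78) (nat_lit 0) (nat_lit 0) (XT.lf (nat_lit 0) (nat_lit 486588023864) (nat_lit 152) (nat_lit 944201039359) (nat_lit 0) (nat_lit 313857794651) (nat_lit 14) (nat_lit 5) (nat_lit 16) (nat_lit 4) (nat_lit 14) (nat_lit 4) (nat_lit 501) (nat_lit 438) (nat_lit 261)) (XT.lf (nat_lit 0) (nat_lit 907212608752)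 (nat_lit 152) (nat_lit 210877906889) (nat_lit 0) (nat_lit 734482364015) (nat_lit 14) (nat_lit 5) (nat_lit 16) (nat_lit 4) (nat_lit 14) (nat_lit 4) (nat_lit 502) (nat_lit 438) (nat_lit 260)))) (XT.nd (nat_lit 156) (nat_lit 152) (nat_lit 0) (XT.nd (nat_lit 78) (nat_lit 0) (nat_lit 0) (XT.lf (nat_lit 0) (nat_lit 611711208244) (nat_lit 76) (nat_lit 764487552993) (nat_lit 76) (nat_lit 591757293881) (nat_lit 13) (nat_lit 4) (nat_lit 14) (nat_lit 5) (nat_lit 14) (nat_lit 4) (nat_lit 503) (nat_lit 438) (nat_lit 259)) (XT.lf (nat_lit 0) (nat_lit 1512100129538) (nat_lit 76) (nat_lit 376369385390) (nat_lit 76) (nat_lit 203639112968) (nat_lit 13) (nat_lit 4) (nat_lit 14) (nat_lit 5) (nat_lit 14) (nat_lit 4) (nat_lit 504) (nat_lit 438) (nat_lit 258))) (XT.nd (nat_lit 78) (nat_lit 0) (nat_lit 0) (XT.lf (nat_lit 0) (nat_lit 212485929045) (nat_lit 152) (nat_lit 1960123198659) (nat_lit 0) (nat_lit 52550480205)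 (nat_lit 11) (nat_lit 5) (nat_lit 13) (nat_lit 4) (nat_lit 11) (nat_lit 4) (nat_lit 505) (nat_lit 438) (nat_lit 257)) (XT.lf (nat_lit 0) (nat_lit 676945306203) (nat_lit 152) (nat_lit 1172392676455) (nat_lit 0) (nat_lit 517009846798) (nat_lit 11) (nat_lit 5) (nat_lit 13) (nat_lit 4) (nat_lit 11) (nat_lit 4) (nat_lit 506) (nat_lit 438) (nat_lit 256))))))))
noncomputable def xc181 : XT := (XT.nd (nat_lit 57174) (nat_lit 0) (nat_lit 3496) (XT.nd (nat_lit 936) (nat_lit 228) (nat_lit 0) (XT.nd (nat_lit 468) (nat_lit 228) (nat_lit 0) (XT.nd (nat_lit 234) (nat_lit 152) (nat_lit 0) (XT.nd (nat_lit 78) (nat_lit 76) (nat_lit 0) (XT.lf (nat_lit 0) (nat_lit 1178561374974) (nat_lit 152) (nat_lit 321643832653) (nat_lit 0) (nat_lit 1018625905785) (nat_lit 11) (nat_lit 5) (nat_lit 13) (nat_lit 4) (nat_lit 11) (nat_lit 4) (nat_lit 507) (nat_lit 438) (nat_lit 255)) (XT.nd (nat_lit 78) (nat_lit 0) (nat_lit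 0) (XT.lf (nat_lit 0) (nat_lit 628610447865) (nat_lit 76) (nat_lit 1106814323548) (nat_lit 76) (nat_lit 946878845301) (nat_lit 10) (nat_lit 4) (nat_lit 11) (nat_lit 5) (nat_lit 11) (nat_lit 4) (nat_lit 508) (nat_lit 438) (nat_lit 254)) (XT.lf (nat_lit 0) (nat_lit 1673177132131) (nat_lit 76) (nat_lit 672454367009) (nat_lit 76) (nat_lit 512518880374) (nat_lit 10) (nat_lit 4) (nat_lit 11) (nat_lit 5) (nat_lit 11) (nat_lit 4) (nat_lit 509) (nat_lit 438) (nat_lit 253)))) (XT.nd (nat_lit 78) (nat_lit 152) (nat_lit 0) (XT.lf (nat_lit 0) (nat_lit 2801309050713) (nat_lit 76) (nat_lit 203345665469) (nat_lit 76) (nat_lit 43410171068) (nat_lit 10) (nat_lit 4) (nat_lit 11) (nat_lit 5) (nat_lit 11) (nat_lit 4) (nat_lit 510) (nat_lit 438) (nat_lit 252)) (XT.nd (nat_lit 78) (nat_lit 0) (nat_lit 0) (XT.lf (nat_lit 0) (nat_lit 467258439510) (nat_lit 152) (nat_lit 2463676557342) (nat_lit 0) (nat_lit 319170012109)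 (nat_lit 8) (nat_lit 5) (nat_lit 10) (nat_lit 4) (nat_lit 8) (nat_lit 4) (nat_lit 511) (nat_lit 438) (nat_lit 251)) (XT.lf (nat_lit 0) (nat_lit 1028638903264) (nat_lit 152) (nat_lit 1558052473207) (nat_lit 0) (nat_lit 880550469698) (nat_lit 8) (nat_lit 5) (nat_lit 10) (nat_lit 4) (nat_lit 8) (nat_lit 4) (nat_lit 512) (nat_lit 438) (nat_lit 250))))) (XT.nd (nat_lit 234) (nat_lit 152) (nat_lit 0) (XT.nd (nat_lit 78) (nat_lit 76) (nat_lit 0) (XT.lf (nat_lit 0) (nat_lit 1634929761154) (nat_lit 152) (nat_lit 579978550757) (nat_lit 0) (nat_lit 1486841321880) (nat_lit 8) (nat_lit 5) (nat_lit 10) (nat_lit 4) (nat_lit 8) (nat_lit 4) (nat_lit 513) (nat_lit 438) (nat_lit 249)) (XT.nd (nat_lit 78) (nat_lit 0) (nat_lit 0) (XT.lf (nat_lit 0) (nat_lit 501424487257) (nat_lit 76) (nat_lit 1800358631615) (nat_lit 76) (nat_lit 1652270187055) (nat_lit 7) (nat_lit 4) (nat_lit 8) (nat_lit 5) (nat_lit 8) (nat_lit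 4) (nat_lit 514) (nat_lit 438) (nat_lit 248)) (XT.lf (nat_lit 0) (nat_lit 1702323582605) (nat_lit 76) (nat_lit 1335518765236) (nat_lit 76) (nat_lit 1187430315782) (nat_lit 7) (nat_lit 4) (nat_lit 8) (nat_lit 5) (nat_lit 8) (nat_lit 4) (nat_lit 515) (nat_lit 438) (nat_lit 247)))) (XT.nd (nat_lit 78) (nat_lit 152) (nat_lit 0) (XT.lf (nat_lit 0) (nat_lit 2999294531699) (nat_lit 76) (nat_lit 833491747547) (nat_lit 76) (nat_lit 685403293561) (nat_lit 7) (nat_lit 4) (nat_lit 8) (nat_lit 5) (nat_lit 8) (nat_lit 4) (nat_lit 516) (nat_lit 438) (nat_lit 246)) (XT.nd (nat_lit 78) (nat_lit 152) (nat_lit 0) (XT.lf (nat_lit 0) (nat_lit 4400023088310) (nat_lit 76) (nat_lit 291302603628) (nat_lit 76) (nat_lit 143214145446) (nat_lit 7) (nat_lit 4) (nat_lit 8) (nat_lit 5) (nat_lit 8) (nat_lit 4) (nat_lit 517) (nat_lit 438) (nat_lit 245)) (XT.lf (nat_lit 0) (nat_lit 446431729678) (nat_lit 152) (nat_lit 4417505748383)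 (nat_lit 0) (nat_lit 309312783320) (nat_lit 5) (nat_lit 5) (nat_lit 7) (nat_lit 4) (nat_lit 5) (nat_lit 4) (nat_lit 518) (nat_lit 438) (nat_lit 244)))))) (XT.nd (nat_lit 468) (nat_lit 152) (nat_lit 0) (XT.nd (nat_lit 234) (nat_lit 76) (nat_lit 0) (XT.nd (nat_lit 78) (nat_lit 0) (nat_lit 0) (XT.lf (nat_lit 0) (nat_lit 1095267302245) (nat_lit 152) (nat_lit 3483763851776) (nat_lit 0) (nat_lit 958148352556) (nat_lit 5) (nat_lit 5) (nat_lit 7) (nat_lit 4) (nat_lit 5) (nat_lit 4) (nat_lit 519) (nat_lit 438) (nat_lit 243)) (XT.nd (nat_lit 78) (nat_lit 0) (nat_lit 0) (XT.lf (nat_lit 0) (nat_lit 1796009691418) (nat_lit 152) (nat_lit 2475322663658) (nat_lit 0) (nat_lit 1658890738645) (nat_lit 5) (nat_lit 5) (nat_lit 7) (nat_lit 4) (nat_lit 5) (nat_lit 4) (nat_lit 520) (nat_lit 438) (nat_lit 242)) (XT.lf (nat_lit 0) (nat_lit 2552811444691) (nat_lit 152) (nat_lit 1386206236247) (nat_lit 0) (nat_lit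 2415692489063) (nat_lit 5) (nat_lit 5) (nat_lit 7) (nat_lit 4) (nat_lit 5) (nat_lit 4) (nat_lit 521) (nat_lit 438) (nat_lit 241)))) (XT.nd (nat_lit 78) (nat_lit 76) (nat_lit 0) (XT.lf (nat_lit 0) (nat_lit 3370157313194) (nat_lit 152) (nat_lit 209960546271) (nat_lit 0) (nat_lit 3233038354922) (nat_lit 5) (nat_lit 5) (nat_lit 7) (nat_lit 4) (nat_lit 5) (nat_lit 4) (nat_lit 522) (nat_lit 438) (nat_lit 240)) (XT.nd (nat_lit 78) (nat_lit 0) (nat_lit 0) (XT.lf (nat_lit 0) (nat_lit 1116222732931) (nat_lit 76) (nat_lit 3163513278641) (nat_lit 76) (nat_lit 3026394317920) (nat_lit 4) (nat_lit 4) (nat_lit 5) (nat_lit 5) (nat_lit 5) (nat_lit 4) (nat_lit 523) (nat_lit 438) (nat_lit 239)) (XT.lf (nat_lit 0) (nat_lit 2560441270184) (nat_lit 76) (nat_lit 2707380406470) (nat_lit 76) (nat_lit 2570261443483) (nat_lit 4) (nat_lit 4) (nat_lit 5) (nat_lit 5) (nat_lit 5) (nat_lit 4) (nat_lit 524) (nat_lit 438)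 (nat_lit 238))))) (XT.nd (nat_lit 234) (nat_lit 152) (nat_lit 0) (XT.nd (nat_lit 78) (nat_lit 0) (nat_lit 0) (XT.lf (nat_lit 0) (nat_lit 4120197247276) (nat_lit 76) (nat_lit 2214756926759) (nat_lit 76) (nat_lit 2077637961672) (nat_lit 4) (nat_lit 4) (nat_lit 5) (nat_lit 5) (nat_lit 5) (nat_lit 4) (nat_lit 525) (nat_lit 438) (nat_lit 237)) (XT.nd (nat_lit 78) (nat_lit 0) (nat_lit 0) (XT.lf (nat_lit 0) (nat_lit 5804733662590) (nat_lit 76) (nat_lit 1682723589256) (nat_lit 76) (nat_lit 1545604622226) (nat_lit 4) (nat_lit 4) (nat_lit 5) (nat_lit 5) (nat_lit 5) (nat_lit 4) (nat_lit 526) (nat_lit 438) (nat_lit 236)) (XT.lf (nat_lit 0) (nat_lit 7624032954143) (nat_lit 76) (nat_lit 1108127603814) (nat_lit 76) (nat_lit 971008634984) (nat_lit 4) (nat_lit 4) (nat_lit 5) (nat_lit 5) (nat_lit 5) (nat_lit 4) (nat_lit 527) (nat_lit 438) (nat_lit 235)))) (XT.nd (nat_lit 156) (nat_lit 0) (nat_lit 0) (XT.nd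 (nat_lit 78) (nat_lit 152) (nat_lit 0) (XT.lf (nat_lit 0) (nat_lit 9588876154773) (nat_lit 76) (nat_lit 487563957185) (nat_lit 76) (nat_lit 350444986689) (nat_lit 4) (nat_lit 4) (nat_lit 5) (nat_lit 5) (nat_lit 5) (nat_lit 4) (nat_lit 528) (nat_lit 438) (nat_lit 234)) (XT.lf (nat_lit 0) (nat_lit 321210042161) (nat_lit 152) (nat_lit 10691029604221) (nat_lit 0) (nat_lit 194248031014) (nat_lit 2) (nat_lit 5) (nat_lit 4) (nat_lit 4) (nat_lit 2) (nat_lit 4) (nat_lit 529) (nat_lit 438) (nat_lit 233))) (XT.nd (nat_lit 78) (nat_lit 0) (nat_lit 0) (XT.lf (nat_lit 0) (nat_lit 1063836108065) (nat_lit 152) (nat_lit 10044126320093) (nat_lit 0) (nat_lit 936874095595) (nat_lit 2) (nat_lit 5) (nat_lit 4) (nat_lit 4) (nat_lit 2) (nat_lit 4) (nat_lit 530) (nat_lit 438) (nat_lit 232)) (XT.lf (nat_lit 0) (nat_lit 1865872244652) (nat_lit 152) (nat_lit 9345470803375) (nat_lit 0) (nat_lit 1738910230957) (nat_lit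 2) (nat_lit 5) (nat_lit 4) (nat_lit 4) (nat_lit 2) (nat_lit 4) (nat_lit 531) (nat_lit 438) (nat_lit 231))))))) (XT.nd (nat_lit 936) (nat_lit 1520) (nat_lit 0) (XT.nd (nat_lit 468) (nat_lit 532) (nat_lit 0) (XT.nd (nat_lit 234) (nat_lit 456) (nat_lit 0) (XT.nd (nat_lit 78) (nat_lit 0) (nat_lit 0) (XT.lf (nat_lit 0) (nat_lit 39549772961) (nat_lit 532) (nat_lit 648532554) (nat_lit 532) (nat_lit 648532554) (nat_lit 81) (nat_lit 3) (nat_lit 88) (nat_lit 3) (nat_lit 88) (nat_lit 5) (nat_lit 439) (nat_lit 439) (nat_lit 322)) (XT.nd (nat_lit 78) (nat_lit 0) (nat_lit 0) (XT.lf (nat_lit 76) (nat_lit 41288693877) (nat_lit 0) (nat_lit 41977074243) (nat_lit 532) (nat_lit 1615473364) (nat_lit 82) (nat_lit 5) (nat_lit 81) (nat_lit 3) (nat_lit 88) (nat_lit 5) (nat_lit 440) (nat_lit 439) (nat_lit 321)) (XT.lf (nat_lit 76) (nat_lit 87354552852) (nat_lit 0) (nat_lit 445261580) (nat_lit 532) (nat_lit 521235766)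 (nat_lit 82) (nat_lit 5) (nat_lit 81) (nat_lit 3) (nat_lit 88) (nat_lit 5) (nat_lit 441) (nat_lit 439) (nat_lit 320)))) (XT.nd (nat_lit 78) (nat_lit 0) (nat_lit 0) (XT.lf (nat_lit 0) (nat_lit 2865281339) (nat_lit 532) (nat_lit 45616044571) (nat_lit 608) (nat_lit 43374424353) (nat_lit 75) (nat_lit 5) (nat_lit 82) (nat_lit 5) (nat_lit 83) (nat_lit 5) (nat_lit 442) (nat_lit 439) (nat_lit 319)) (XT.nd (nat_lit 78) (nat_lit 0) (nat_lit 76) (XT.lf (nat_lit 76) (nat_lit 1663065897) (nat_lit 0) (nat_lit 4909337861) (nat_lit 608) (nat_lit 89093512147) (nat_lit 76) (nat_lit 5) (nat_lit 75) (nat_lit 5) (nat_lit 83) (nat_lit 5) (nat_lit 443) (nat_lit 439) (nat_lit 318)) (XT.lf (nat_lit 0) (nat_lit 12868607591) (nat_lit 532) (nat_lit 45409100517) (nat_lit 608) (nat_lit 41319785943) (nat_lit 76) (nat_lit 5) (nat_lit 83) (nat_lit 5) (nat_lit 84) (nat_lit 5) (nat_lit 444) (nat_lit 439) (nat_lit 317)))))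 (XT.nd (nat_lit 234) (nat_lit 228) (nat_lit 0) (XT.nd (nat_lit 78) (nat_lit 380) (nat_lit 0) (XT.lf (nat_lit 76) (nat_lit 7309694165) (nat_lit 0) (nat_lit 12661407198) (nat_lit 608) (nat_lit 83848289764) (nat_lit 77) (nat_lit 5) (nat_lit 76) (nat_lit 5) (nat_lit 84) (nat_lit 5) (nat_lit 445) (nat_lit 439) (nat_lit 316)) (XT.nd (nat_lit 78) (nat_lit 456) (nat_lit 0) (XT.lf (nat_lit 0) (nat_lit 29795261821) (nat_lit 532) (nat_lit 42364488558) (nat_lit 76) (nat_lit 36047012371) (nat_lit 77) (nat_lit 5) (nat_lit 84) (nat_lit 5) (nat_lit 78) (nat_lit 5) (nat_lit 446) (nat_lit 439) (nat_lit 315)) (XT.lf (nat_lit 0) (nat_lit 16613972811) (nat_lit 456) (nat_lit 24519188336) (nat_lit 532) (nat_lit 71753738617) (nat_lit 71) (nat_lit 5) (nat_lit 77) (nat_lit 5) (nat_lit 78) (nat_lit 5) (nat_lit 447) (nat_lit 439) (nat_lit 314)))) (XT.nd (nat_lit 78) (nat_lit 228) (nat_lit 0) (XT.lf (nat_lit 0) (nat_lit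 55213633840) (nat_lit 532) (nat_lit 35807208721) (nat_lit 76) (nat_lit 26773761999) (nat_lit 71) (nat_lit 5) (nat_lit 78) (nat_lit 5) (nat_lit 72) (nat_lit 5) (nat_lit 448) (nat_lit 439) (nat_lit 313)) (XT.nd (nat_lit 78) (nat_lit 0) (nat_lit 0) (XT.lf (nat_lit 0) (nat_lit 30377952286) (nat_lit 228) (nat_lit 41409493524) (nat_lit 304) (nat_lit 51198127935) (nat_lit 68) (nat_lit 5) (nat_lit 71) (nat_lit 5) (nat_lit 72) (nat_lit 5) (nat_lit 449) (nat_lit 439) (nat_lit 312)) (XT.lf (nat_lit 0) (nat_lit 90983806983) (nat_lit 304) (nat_lit 24937927726) (nat_lit 76) (nat_lit 12566354333) (nat_lit 68) (nat_lit 5) (nat_lit 72) (nat_lit 5) (nat_lit 69) (nat_lit 5) (nat_lit 450) (nat_lit 439) (nat_lit 311)))))) (XT.nd (nat_lit 468) (nat_lit 684) (nat_lit 0) (XT.nd (nat_lit 234) (nat_lit 380) (nat_lit 0) (XT.nd (nat_lit 78) (nat_lit 228) (nat_lit 0) (XT.lf (nat_lit 0) (nat_lit 49547789149) (nat_lit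 228) (nat_lit 64434798690) (nat_lit 304) (nat_lit 20266880965) (nat_lit 65) (nat_lit 5) (nat_lit 68) (nat_lit 5) (nat_lit 69) (nat_lit 5) (nat_lit 451) (nat_lit 439) (nat_lit 310)) (XT.nd (nat_lit 78) (nat_lit 228) (nat_lit 0) (XT.lf (nat_lit 0) (nat_lit 131410057473) (nat_lit 228) (nat_lit 8092597660) (nat_lit 304) (nat_lit 914593195) (nat_lit 65) (nat_lit 5) (nat_lit 68) (nat_lit 5) (nat_lit 69) (nat_lit 5) (nat_lit 452) (nat_lit 439) (nat_lit 309)) (XT.lf (nat_lit 0) (nat_lit 22143878494) (nat_lit 228) (nat_lit 72155649320) (nat_lit 76) (nat_lit 52487847583) (nat_lit 62) (nat_lit 5) (nat_lit 65) (nat_lit 5) (nat_lit 63) (nat_lit 5) (nat_lit 453) (nat_lit 439) (nat_lit 308)))) (XT.nd (nat_lit 78) (nat_lit 152) (nat_lit 0) (XT.lf (nat_lit 0) (nat_lit 12195776374) (nat_lit 228) (nat_lit 35557592798) (nat_lit 304) (nat_lit 105851382839) (nat_lit 59) (nat_lit 5) (nat_lit 62) (nat_lit 5) (nat_lit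 63) (nat_lit 5) (nat_lit 454) (nat_lit 439) (nat_lit 307)) (XT.nd (nat_lit 78) (nat_lit 152) (nat_lit 0) (XT.lf (nat_lit 0) (nat_lit 78105922228) (nat_lit 304) (nat_lit 54133228505) (nat_lit 76) (nat_lit 28512823845) (nat_lit 59) (nat_lit 5) (nat_lit 63) (nat_lit 5) (nat_lit 60) (nat_lit 5) (nat_lit 455) (nat_lit 439) (nat_lit 306)) (XT.lf (nat_lit 0) (nat_lit 41264710399) (nat_lit 152) (nat_lit 71537583403) (nat_lit 228) (nat_lit 55515432072) (nat_lit 57) (nat_lit 5) (nat_lit 59) (nat_lit 5) (nat_lit 60) (nat_lit 5) (nat_lit 456) (nat_lit 439) (nat_lit 305))))) (XT.nd (nat_lit 234) (nat_lit 304) (nat_lit 0) (XT.nd (nat_lit 78) (nat_lit 380) (nat_lit 0) (XT.lf (nat_lit 0) (nat_lit 147372580208) (nat_lit 152) (nat_lit 4381532128) (nat_lit 228) (nat_lit 24616246021) (nat_lit 57) (nat_lit 5) (nat_lit 59) (nat_lit 5) (nat_lit 60) (nat_lit 5) (nat_lit 457) (nat_lit 439) (nat_lit 304)) (XT.nd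 (nat_lit 78) (nat_lit 152) (nat_lit 0) (XT.lf (nat_lit 0) (nat_lit 11952949683) (nat_lit 228) (nat_lit 105860656159) (nat_lit 76) (nat_lit 66945868929) (nat_lit 54) (nat_lit 5) (nat_lit 57) (nat_lit 5) (nat_lit 55) (nat_lit 5) (nat_lit 458) (nat_lit 439) (nat_lit 303)) (XT.lf (nat_lit 0) (nat_lit 2679749617) (nat_lit 152) (nat_lit 48429380241) (nat_lit 228) (nat_lit 142580130809) (nat_lit 52) (nat_lit 5) (nat_lit 54) (nat_lit 5) (nat_lit 55) (nat_lit 5) (nat_lit 459) (nat_lit 439) (nat_lit 302)))) (XT.nd (nat_lit 156) (nat_lit 152) (nat_lit 0) (XT.nd (nat_lit 78) (nat_lit 152) (nat_lit 0) (XT.lf (nat_lit 0) (nat_lit 97004538147) (nat_lit 228) (nat_lit 77891247142) (nat_lit 76) (nat_lit 28149105496) (nat_lit 52) (nat_lit 5) (nat_lit 55) (nat_lit 5) (nat_lit 53) (nat_lit 5) (nat_lit 460) (nat_lit 439) (nat_lit 301)) (XT.lf (nat_lit 0) (nat_lit 45283357829) (nat_lit 152) (nat_lit 103634893237)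 (nat_lit 228) (nat_lit 64042986529) (nat_lit 50) (nat_lit 5) (nat_lit 52) (nat_lit 5) (nat_lit 53) (nat_lit 5) (nat_lit 461) (nat_lit 439) (nat_lit 300))) (XT.nd (nat_lit 78) (nat_lit 152) (nat_lit 0) (XT.lf (nat_lit 0) (nat_lit 182741216339) (nat_lit 152) (nat_lit 24373240725) (nat_lit 228) (nat_lit 16386083443) (nat_lit 50) (nat_lit 5) (nat_lit 52) (nat_lit 5) (nat_lit 53) (nat_lit 5) (nat_lit 462) (nat_lit 439) (nat_lit 299)) (XT.lf (nat_lit 0) (nat_lit 37302266045) (nat_lit 152) (nat_lit 135683687943) (nat_lit 76) (nat_lit 61511620701) (nat_lit 48) (nat_lit 5) (nat_lit 50) (nat_lit 5) (nat_lit 49) (nat_lit 5) (nat_lit 463) (nat_lit 439) (nat_lit 298))))))))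
noncomputable def xc182 : XT := (XT.nd (nat_lit 1950) (nat_lit 1292) (nat_lit 0) (XT.nd (nat_lit 936) (nat_lit 836) (nat_lit 0) (XT.nd (nat_lit 468) (nat_lit 380) (nat_lit 0) (XT.nd (nat_lit 234) (nat_lit 304) (nat_lit 0) (XT.nd (nat_lit 78) (nat_lit 76) (nat_lit 0) (XT.lf (nat_lit 0) (nat_lit 4734520576) (nat_lit 152) (nat_lit 91555935548) (nat_lit 228) (nat_lit 149898662768) (nat_lit 46) (nat_lit 5) (nat_lit 48) (nat_lit 5) (nat_lit 49) (nat_lit 5) (nat_lit 464) (nat_lit 439) (nat_lit 297)) (XT.nd (nat_lit 78) (nat_lit 76) (nat_lit 0) (XT.lf (nat_lit 0) (nat_lit 163716773122) (nat_lit 228) (nat_lit 94426515838) (nat_lit 76) (nat_lit 375171965) (nat_lit 46) (nat_lit 5) (nat_lit 49) (nat_lit 5) (nat_lit 47) (nat_lit 4) (nat_lit 465) (nat_lit 439) (nat_lit 296)) (XT.lf (nat_lit 0) (nat_lit 65249356574) (nat_lit 76) (nat_lit 175234920212) (nat_lit 152) (nat_lit 31034107055) (nat_lit 45) (nat_lit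 5) (nat_lit 46) (nat_lit 5) (nat_lit 47) (nat_lit 4) (nat_lit 466) (nat_lit 439) (nat_lit 295)))) (XT.nd (nat_lit 78) (nat_lit 228) (nat_lit 0) (XT.lf (nat_lit 0) (nat_lit 38590832515) (nat_lit 152) (nat_lit 43259747996) (nat_lit 76) (nat_lit 203423037215) (nat_lit 44) (nat_lit 5) (nat_lit 46) (nat_lit 5) (nat_lit 45) (nat_lit 5) (nat_lit 467) (nat_lit 439) (nat_lit 294)) (XT.nd (nat_lit 78) (nat_lit 76) (nat_lit 0) (XT.lf (nat_lit 0) (nat_lit 116015038646) (nat_lit 228) (nat_lit 161428435874) (nat_lit 76) (nat_lit 22308835827) (nat_lit 42) (nat_lit 5) (nat_lit 45) (nat_lit 5) (nat_lit 43) (nat_lit 4) (nat_lit 468) (nat_lit 439) (nat_lit 293)) (XT.lf (nat_lit 0) (nat_lit 20466443547) (nat_lit 76) (nat_lit 182998245491) (nat_lit 152) (nat_lit 111618088738) (nat_lit 41) (nat_lit 5) (nat_lit 42) (nat_lit 5) (nat_lit 43) (nat_lit 4) (nat_lit 469) (nat_lit 439) (nat_lit 292))))) (XT.nd (nat_lit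 234) (nat_lit 228) (nat_lit 0) (XT.nd (nat_lit 78) (nat_lit 152) (nat_lit 0) (XT.lf (nat_lit 0) (nat_lit 226093109305) (nat_lit 76) (nat_lit 76230728777) (nat_lit 152) (nat_lit 28962762405) (nat_lit 41) (nat_lit 5) (nat_lit 42) (nat_lit 5) (nat_lit 43) (nat_lit 4) (nat_lit 470) (nat_lit 439) (nat_lit 291)) (XT.nd (nat_lit 78) (nat_lit 0) (nat_lit 0) (XT.lf (nat_lit 0) (nat_lit 60809287238) (nat_lit 152) (nat_lit 246424841044) (nat_lit 76) (nat_lit 41154894069) (nat_lit 39) (nat_lit 5) (nat_lit 41) (nat_lit 5) (nat_lit 40) (nat_lit 4) (nat_lit 471) (nat_lit 439) (nat_lit 290)) (XT.lf (nat_lit 0) (nat_lit 161129061025) (nat_lit 152) (nat_lit 37760000724) (nat_lit 76) (nat_lit 167515937736) (nat_lit 39) (nat_lit 5) (nat_lit 41) (nat_lit 5) (nat_lit 40) (nat_lit 4) (nat_lit 472) (nat_lit 439) (nat_lit 289)))) (XT.nd (nat_lit 78) (nat_lit 152) (nat_lit 0) (XT.lf (nat_lit 0) (nat_lit 197476248584)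 (nat_lit 76) (nat_lit 76747291789) (nat_lit 152) (nat_lit 111258784536) (nat_lit 38) (nat_lit 5) (nat_lit 39) (nat_lit 5) (nat_lit 40) (nat_lit 4) (nat_lit 473) (nat_lit 439) (nat_lit 288)) (XT.nd (nat_lit 78) (nat_lit 76) (nat_lit 0) (XT.lf (nat_lit 0) (nat_lit 48760921379) (nat_lit 76) (nat_lit 351163156089) (nat_lit 76) (nat_lit 5877078960) (nat_lit 37) (nat_lit 4) (nat_lit 38) (nat_lit 5) (nat_lit 38) (nat_lit 4) (nat_lit 474) (nat_lit 439) (nat_lit 287)) (XT.lf (nat_lit 0) (nat_lit 109803000004) (nat_lit 152) (nat_lit 116896049658) (nat_lit 76) (nat_lit 200257402082) (nat_lit 36) (nat_lit 5) (nat_lit 38) (nat_lit 5) (nat_lit 37) (nat_lit 4) (nat_lit 475) (nat_lit 439) (nat_lit 286)))))) (XT.nd (nat_lit 468) (nat_lit 456) (nat_lit 0) (XT.nd (nat_lit 234) (nat_lit 152) (nat_lit 0) (XT.nd (nat_lit 78) (nat_lit 152) (nat_lit 0) (XT.lf (nat_lit 0) (nat_lit 149800320304) (nat_lit 76) (nat_lit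 88222182948) (nat_lit 152) (nat_lit 211481252698) (nat_lit 35) (nat_lit 5) (nat_lit 36) (nat_lit 5) (nat_lit 37) (nat_lit 4) (nat_lit 476) (nat_lit 439) (nat_lit 285)) (XT.nd (nat_lit 78) (nat_lit 152) (nat_lit 0) (XT.lf (nat_lit 0) (nat_lit 381253617879) (nat_lit 152) (nat_lit 30677163063) (nat_lit 0) (nat_lit 61543739472) (nat_lit 35) (nat_lit 5) (nat_lit 37) (nat_lit 4) (nat_lit 35) (nat_lit 4) (nat_lit 477) (nat_lit 439) (nat_lit 284)) (XT.lf (nat_lit 0) (nat_lit 43791602726) (nat_lit 152) (nat_lit 228623500960) (nat_lit 76) (nat_lit 226154164187) (nat_lit 33) (nat_lit 5) (nat_lit 35) (nat_lit 5) (nat_lit 34) (nat_lit 4) (nat_lit 478) (nat_lit 439) (nat_lit 283)))) (XT.nd (nat_lit 78) (nat_lit 76) (nat_lit 0) (XT.lf (nat_lit 0) (nat_lit 71939973484) (nat_lit 76) (nat_lit 116353369190) (nat_lit 152) (nat_lit 336979379941) (nat_lit 32) (nat_lit 5) (nat_lit 33) (nat_lit 5) (nat_lit 34)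 (nat_lit 4) (nat_lit 479) (nat_lit 439) (nat_lit 282)) (XT.nd (nat_lit 78) (nat_lit 76) (nat_lit 0) (XT.lf (nat_lit 0) (nat_lit 352023653800) (nat_lit 152) (nat_lit 145479739380) (nat_lit 0) (nat_lit 55995586007) (nat_lit 32) (nat_lit 5) (nat_lit 34) (nat_lit 4) (nat_lit 32) (nat_lit 4) (nat_lit 480) (nat_lit 439) (nat_lit 281)) (XT.lf (nat_lit 0) (nat_lit 193667082331) (nat_lit 76) (nat_lit 342865029413) (nat_lit 76) (nat_lit 46836846792) (nat_lit 31) (nat_lit 4) (nat_lit 32) (nat_lit 5) (nat_lit 32) (nat_lit 4) (nat_lit 481) (nat_lit 439) (nat_lit 280))))) (XT.nd (nat_lit 234) (nat_lit 228) (nat_lit 0) (XT.nd (nat_lit 78) (nat_lit 152) (nat_lit 0) (XT.lf (nat_lit 0) (nat_lit 118242033483) (nat_lit 152) (nat_lit 50084859297) (nat_lit 76) (nat_lit 446743963010) (nat_lit 30) (nat_lit 5) (nat_lit 32) (nat_lit 5) (nat_lit 31) (nat_lit 4) (nat_lit 482) (nat_lit 439) (nat_lit 279)) (XT.nd (nat_lit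 78) (nat_lit 76) (nat_lit 0) (XT.lf (nat_lit 0) (nat_lit 302707883450) (nat_lit 152) (nat_lit 317199288060) (nat_lit 0) (nat_lit 28607524756) (nat_lit 29) (nat_lit 5) (nat_lit 31) (nat_lit 4) (nat_lit 29) (nat_lit 4) (nat_lit 483) (nat_lit 439) (nat_lit 278)) (XT.lf (nat_lit 0) (nat_lit 60152705978) (nat_lit 76) (nat_lit 449001944586) (nat_lit 76) (nat_lit 174901501490) (nat_lit 28) (nat_lit 4) (nat_lit 29) (nat_lit 5) (nat_lit 29) (nat_lit 4) (nat_lit 484) (nat_lit 439) (nat_lit 277)))) (XT.nd (nat_lit 156) (nat_lit 76) (nat_lit 0) (XT.nd (nat_lit 78) (nat_lit 76) (nat_lit 0) (XT.lf (nat_lit 0) (nat_lit 18090118745) (nat_lit 152) (nat_lit 236473074256) (nat_lit 76) (nat_lit 467147279937) (nat_lit 27) (nat_lit 5) (nat_lit 29) (nat_lit 5) (nat_lit 28) (nat_lit 4) (nat_lit 485) (nat_lit 439) (nat_lit 276)) (XT.lf (nat_lit 0) (nat_lit 186750615959) (nat_lit 76) (nat_lit 34812465562) (nat_lit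 152) (nat_lit 540091327330) (nat_lit 26) (nat_lit 5) (nat_lit 27) (nat_lit 5) (nat_lit 28) (nat_lit 4) (nat_lit 486) (nat_lit 439) (nat_lit 275))) (XT.nd (nat_lit 78) (nat_lit 76) (nat_lit 0) (XT.lf (nat_lit 0) (nat_lit 452817862837) (nat_lit 152) (nat_lit 152034723418) (nat_lit 0) (nat_lit 199020954866) (nat_lit 26) (nat_lit 5) (nat_lit 28) (nat_lit 4) (nat_lit 26) (nat_lit 4) (nat_lit 487) (nat_lit 439) (nat_lit 274)) (XT.lf (nat_lit 0) (nat_lit 319754864781) (nat_lit 76) (nat_lit 391412383442) (nat_lit 76) (nat_lit 137615418028) (nat_lit 25) (nat_lit 4) (nat_lit 26) (nat_lit 5) (nat_lit 26) (nat_lit 4) (nat_lit 488) (nat_lit 439) (nat_lit 273))))))) (XT.nd (nat_lit 936) (nat_lit 608) (nat_lit 0) (XT.nd (nat_lit 468) (nat_lit 304) (nat_lit 0) (XT.nd (nat_lit 234) (nat_lit 152) (nat_lit 0) (XT.nd (nat_lit 78) (nat_lit 152) (nat_lit 0) (XT.lf (nat_lit 0) (nat_lit 92517585530) (nat_lit 152)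 (nat_lit 61360440697) (nat_lit 76) (nat_lit 742886574475) (nat_lit 24) (nat_lit 5) (nat_lit 26) (nat_lit 5) (nat_lit 25) (nat_lit 4) (nat_lit 489) (nat_lit 439) (nat_lit 272)) (XT.nd (nat_lit 78) (nat_lit 76) (nat_lit 0) (XT.lf (nat_lit 0) (nat_lit 347620468666) (nat_lit 152) (nat_lit 486935959806) (nat_lit 0) (nat_lit 112623183621) (nat_lit 23) (nat_lit 5) (nat_lit 25) (nat_lit 4) (nat_lit 23) (nat_lit 4) (nat_lit 490) (nat_lit 439) (nat_lit 271)) (XT.lf (nat_lit 0) (nat_lit 22665283335) (nat_lit 76) (nat_lit 606729409740) (nat_lit 76) (nat_lit 371732082473) (nat_lit 22) (nat_lit 4) (nat_lit 23) (nat_lit 5) (nat_lit 23) (nat_lit 4) (nat_lit 491) (nat_lit 439) (nat_lit 270)))) (XT.nd (nat_lit 78) (nat_lit 152) (nat_lit 0) (XT.lf (nat_lit 0) (nat_lit 600726906026) (nat_lit 76) (nat_lit 346297542486) (nat_lit 76) (nat_lit 111300176124) (nat_lit 22) (nat_lit 4) (nat_lit 23) (nat_lit 5) (nat_lit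 23) (nat_lit 4) (nat_lit 492) (nat_lit 439) (nat_lit 269)) (XT.nd (nat_lit 78) (nat_lit 0) (nat_lit 0) (XT.lf (nat_lit 0) (nat_lit 106157712848) (nat_lit 76) (nat_lit 57859169559) (nat_lit 152) (nat_lit 955550163670) (nat_lit 20) (nat_lit 5) (nat_lit 21) (nat_lit 5) (nat_lit 22) (nat_lit 4) (nat_lit 493) (nat_lit 439) (nat_lit 268)) (XT.lf (nat_lit 0) (nat_lit 474283010239) (nat_lit 152) (nat_lit 452986841852) (nat_lit 0) (nat_lit 256692791649) (nat_lit 20) (nat_lit 5) (nat_lit 22) (nat_lit 4) (nat_lit 20) (nat_lit 4) (nat_lit 494) (nat_lit 439) (nat_lit 267))))) (XT.nd (nat_lit 234) (nat_lit 76) (nat_lit 0) (XT.nd (nat_lit 78) (nat_lit 152) (nat_lit 0) (XT.lf (nat_lit 0) (nat_lit 158705530879) (nat_lit 76) (nat_lit 655984518007) (nat_lit 76) (nat_lit 438394270681) (nat_lit 19) (nat_lit 4) (nat_lit 20) (nat_lit 5) (nat_lit 20) (nat_lit 4) (nat_lit 495) (nat_lit 439) (nat_lit 266)) (XT.nd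 (nat_lit 78) (nat_lit 152) (nat_lit 0) (XT.lf (nat_lit 0) (nat_lit 845094885158) (nat_lit 76) (nat_lit 349620143979) (nat_lit 76) (nat_lit 132029870046) (nat_lit 19) (nat_lit 4) (nat_lit 20) (nat_lit 5) (nat_lit 20) (nat_lit 4) (nat_lit 496) (nat_lit 439) (nat_lit 265)) (XT.lf (nat_lit 0) (nat_lit 184546466022) (nat_lit 76) (nat_lit 8788516953) (nat_lit 152) (nat_lit 1212225705232) (nat_lit 17) (nat_lit 5) (nat_lit 18) (nat_lit 5) (nat_lit 19) (nat_lit 4) (nat_lit 497) (nat_lit 439) (nat_lit 264)))) (XT.nd (nat_lit 78) (nat_lit 76) (nat_lit 0) (XT.lf (nat_lit 0) (nat_lit 559748528483) (nat_lit 152) (nat_lit 570610651679) (nat_lit 0) (nat_lit 358276008687) (nat_lit 17) (nat_lit 5) (nat_lit 19) (nat_lit 4) (nat_lit 17) (nat_lit 4) (nat_lit 498) (nat_lit 439) (nat_lit 263)) (XT.nd (nat_lit 78) (nat_lit 0) (nat_lit 0) (XT.lf (nat_lit 0) (nat_lit 138526433545) (nat_lit 76) (nat_lit 820508487152)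 (nat_lit 76) (nat_lit 619035947799) (nat_lit 16) (nat_lit 4) (nat_lit 17) (nat_lit 5) (nat_lit 17) (nat_lit 4) (nat_lit 499) (nat_lit 439) (nat_lit 262)) (XT.lf (nat_lit 0) (nat_lit 936845471781) (nat_lit 76) (nat_lit 469020186730) (nat_lit 76) (nat_lit 267547629268) (nat_lit 16) (nat_lit 4) (nat_lit 17) (nat_lit 5) (nat_lit 17) (nat_lit 4) (nat_lit 500) (nat_lit 439) (nat_lit 261)))))) (XT.nd (nat_lit 468) (nat_lit 228) (nat_lit 0) (XT.nd (nat_lit 234) (nat_lit 228) (nat_lit 0) (XT.nd (nat_lit 78) (nat_lit 0) (nat_lit 0) (XT.lf (nat_lit 0) (nat_lit 21002376734) (nat_lit 76) (nat_lit 85956734305) (nat_lit 152) (nat_lit 1669167983256) (nat_lit 14) (nat_lit 5) (nat_lit 15) (nat_lit 5) (nat_lit 16) (nat_lit 4) (nat_lit 501) (nat_lit 439) (nat_lit 260)) (XT.nd (nat_lit 78) (nat_lit 0) (nat_lit 0) (XT.lf (nat_lit 0) (nat_lit 525516401485) (nat_lit 152) (nat_lit 1019734390879) (nat_lit 0) (nat_lit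 338967707269) (nat_lit 14) (nat_lit 5) (nat_lit 16) (nat_lit 4) (nat_lit 14) (nat_lit 4) (nat_lit 502) (nat_lit 439) (nat_lit 259)) (XT.lf (nat_lit 0) (nat_lit 979790854223) (nat_lit 152) (nat_lit 227745610154) (nat_lit 0) (nat_lit 793242146697) (nat_lit 14) (nat_lit 5) (nat_lit 16) (nat_lit 4) (nat_lit 14) (nat_lit 4) (nat_lit 503) (nat_lit 439) (nat_lit 258)))) (XT.nd (nat_lit 78) (nat_lit 152) (nat_lit 0) (XT.lf (nat_lit 0) (nat_lit 660650570157) (nat_lit 76) (nat_lit 825645296426) (nat_lit 76) (nat_lit 639096576575) (nat_lit 13) (nat_lit 4) (nat_lit 14) (nat_lit 5) (nat_lit 14) (nat_lit 4) (nat_lit 504) (nat_lit 439) (nat_lit 257)) (XT.nd (nat_lit 78) (nat_lit 152) (nat_lit 0) (XT.lf (nat_lit 0) (nat_lit 1633070422544) (nat_lit 76) (nat_lit 406477768808) (nat_lit 76) (nat_lit 219929037546) (nat_lit 13) (nat_lit 4) (nat_lit 14) (nat_lit 5) (nat_lit 14) (nat_lit 4) (nat_lit 505) (nat_lit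 439) (nat_lit 256)) (XT.lf (nat_lit 0) (nat_lit 229485945859) (nat_lit 152) (nat_lit 2116930709920) (nat_lit 0) (nat_lit 56755629352) (nat_lit 11) (nat_lit 5) (nat_lit 13) (nat_lit 4) (nat_lit 11) (nat_lit 4) (nat_lit 506) (nat_lit 439) (nat_lit 255))))) (XT.nd (nat_lit 234) (nat_lit 152) (nat_lit 0) (XT.nd (nat_lit 78) (nat_lit 76) (nat_lit 0) (XT.lf (nat_lit 0) (nat_lit 731101988562) (nat_lit 152) (nat_lit 1266181919616) (nat_lit 0) (nat_lit 558371662996) (nat_lit 11) (nat_lit 5) (nat_lit 13) (nat_lit 4) (nat_lit 11) (nat_lit 4) (nat_lit 507) (nat_lit 439) (nat_lit 254)) (XT.nd (nat_lit 78) (nat_lit 76) (nat_lit 0) (XT.lf (nat_lit 0) (nat_lit 1272847264474) (nat_lit 152) (nat_lit 347373329122) (nat_lit 0) (nat_lit 1100116930521) (nat_lit 11) (nat_lit 5) (nat_lit 13) (nat_lit 4) (nat_lit 11) (nat_lit 4) (nat_lit 508) (nat_lit 439) (nat_lit 253)) (XT.lf (nat_lit 0) (nat_lit 678901242948)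 (nat_lit 76) (nat_lit 1195358464245) (nat_lit 76) (nat_lit 1022628122525) (nat_lit 10) (nat_lit 4) (nat_lit 11) (nat_lit 5) (nat_lit 11) (nat_lit 4) (nat_lit 509) (nat_lit 439) (nat_lit 252)))) (XT.nd (nat_lit 156) (nat_lit 152) (nat_lit 0) (XT.nd (nat_lit 78) (nat_lit 0) (nat_lit 0) (XT.lf (nat_lit 0) (nat_lit 1807033116825) (nat_lit 76) (nat_lit 726249785641) (nat_lit 76) (nat_lit 553519436730) (nat_lit 10) (nat_lit 4) (nat_lit 11) (nat_lit 5) (nat_lit 11) (nat_lit 4) (nat_lit 510) (nat_lit 439) (nat_lit 251)) (XT.lf (nat_lit 0) (nat_lit 3025415454514) (nat_lit 76) (nat_lit 219612456921) (nat_lit 76) (nat_lit 46882101351) (nat_lit 10) (nat_lit 4) (nat_lit 11) (nat_lit 5) (nat_lit 11) (nat_lit 4) (nat_lit 511) (nat_lit 439) (nat_lit 250))) (XT.nd (nat_lit 78) (nat_lit 0) (nat_lit 0) (XT.lf (nat_lit 0) (nat_lit 504639952880) (nat_lit 152) (nat_lit 2660768956980) (nat_lit 0) (nat_lit 344704432755)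 (nat_lit 8) (nat_lit 5) (nat_lit 10) (nat_lit 4) (nat_lit 8) (nat_lit 4) (nat_lit 512) (nat_lit 439) (nat_lit 249)) (XT.lf (nat_lit 0) (nat_lit 1110930791645) (nat_lit 152) (nat_lit 1682695073888) (nat_lit 0) (nat_lit 950995266234) (nat_lit 8) (nat_lit 5) (nat_lit 10) (nat_lit 4) (nat_lit 8) (nat_lit 4) (nat_lit 513) (nat_lit 439) (nat_lit 248))))))))
noncomputable def xc183 : XT := (XT.nd (nat_lit 57252) (nat_lit 0) (nat_lit 2812) (XT.nd (nat_lit 936) (nat_lit 152) (nat_lit 0) (XT.nd (nat_lit 468) (nat_lit 76) (nat_lit 0) (XT.nd (nat_lit 234) (nat_lit 152) (nat_lit 0) (XT.nd (nat_lit 78) (nat_lit 76) (nat_lit 0) (XT.lf (nat_lit 0) (nat_lit 1765724860676) (nat_lit 152) (nat_lit 626375355951) (nat_lit 0) (nat_lit 1605789330372) (nat_lit 8) (nat_lit 5) (nat_lit 10) (nat_lit 4) (nat_lit 8) (nat_lit 4) (nat_lit 514) (nat_lit 439) (nat_lit 247)) (XT.nd (nat_lit 78) (nat_lit 0) (nat_lit 0) (XT.lf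 (nat_lit 0) (nat_lit 541539887664) (nat_lit 76) (nat_lit 1944386580782) (nat_lit 76) (nat_lit 1784451045946) (nat_lit 7) (nat_lit 4) (nat_lit 8) (nat_lit 5) (nat_lit 8) (nat_lit 4) (nat_lit 515) (nat_lit 439) (nat_lit 246)) (XT.lf (nat_lit 0) (nat_lit 1838510803868) (nat_lit 76) (nat_lit 1442359580009) (nat_lit 76) (nat_lit 1282424040977) (nat_lit 7) (nat_lit 4) (nat_lit 8) (nat_lit 5) (nat_lit 8) (nat_lit 4) (nat_lit 516) (nat_lit 439) (nat_lit 245)))) (XT.nd (nat_lit 78) (nat_lit 152) (nat_lit 0) (XT.lf (nat_lit 0) (nat_lit 3239239330025) (nat_lit 76) (nat_lit 900170451752) (nat_lit 76) (nat_lit 740234908835) (nat_lit 7) (nat_lit 4) (nat_lit 8) (nat_lit 5) (nat_lit 8) (nat_lit 4) (nat_lit 517) (nat_lit 439) (nat_lit 244)) (XT.nd (nat_lit 78) (nat_lit 152) (nat_lit 0) (XT.lf (nat_lit 0) (nat_lit 4752026079625) (nat_lit 76) (nat_lit 314606223400) (nat_lit 76) (nat_lit 154670676886) (nat_lit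 7) (nat_lit 4) (nat_lit 8) (nat_lit 5) (nat_lit 8) (nat_lit 4) (nat_lit 518) (nat_lit 439) (nat_lit 243)) (XT.lf (nat_lit 0) (nat_lit 482146837683) (nat_lit 152) (nat_lit 4770905033432) (nat_lit 0) (nat_lit 334058365604) (nat_lit 5) (nat_lit 5) (nat_lit 7) (nat_lit 4) (nat_lit 5) (nat_lit 4) (nat_lit 519) (nat_lit 439) (nat_lit 242))))) (XT.nd (nat_lit 234) (nat_lit 76) (nat_lit 0) (XT.nd (nat_lit 78) (nat_lit 0) (nat_lit 0) (XT.lf (nat_lit 0) (nat_lit 1182889213860) (nat_lit 152) (nat_lit 3762463872120) (nat_lit 0) (nat_lit 1034800738925) (nat_lit 5) (nat_lit 5) (nat_lit 7) (nat_lit 4) (nat_lit 5) (nat_lit 4) (nat_lit 520) (nat_lit 439) (nat_lit 241)) (XT.nd (nat_lit 78) (nat_lit 0) (nat_lit 0) (XT.lf (nat_lit 0) (nat_lit 1939690955098) (nat_lit 152) (nat_lit 2673347469530) (nat_lit 0) (nat_lit 1791602477520) (nat_lit 5) (nat_lit 5) (nat_lit 7) (nat_lit 4) (nat_lit 5) (nat_lit 4) (nat_lit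 521) (nat_lit 439) (nat_lit 240)) (XT.lf (nat_lit 0) (nat_lit 2757036812458) (nat_lit 152) (nat_lit 1497101802535) (nat_lit 0) (nat_lit 2608948332431) (nat_lit 5) (nat_lit 5) (nat_lit 7) (nat_lit 4) (nat_lit 5) (nat_lit 4) (nat_lit 522) (nat_lit 439) (nat_lit 239)))) (XT.nd (nat_lit 78) (nat_lit 76) (nat_lit 0) (XT.lf (nat_lit 0) (nat_lit 3639770316945) (nat_lit 152) (nat_lit 226756526443) (nat_lit 0) (nat_lit 3491681834651) (nat_lit 5) (nat_lit 5) (nat_lit 7) (nat_lit 4) (nat_lit 5) (nat_lit 4) (nat_lit 523) (nat_lit 439) (nat_lit 238)) (XT.nd (nat_lit 78) (nat_lit 0) (nat_lit 0) (XT.lf (nat_lit 0) (nat_lit 1205521393233) (nat_lit 76) (nat_lit 3416593907187) (nat_lit 76) (nat_lit 3268505422794) (nat_lit 4) (nat_lit 4) (nat_lit 5) (nat_lit 5) (nat_lit 5) (nat_lit 4) (nat_lit 524) (nat_lit 439) (nat_lit 237)) (XT.lf (nat_lit 0) (nat_lit 2765277351121) (nat_lit 76) (nat_lit 2923970437372)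 (nat_lit 76) (nat_lit 2775881951036) (nat_lit 4) (nat_lit 4) (nat_lit 5) (nat_lit 5) (nat_lit 5) (nat_lit 4) (nat_lit 525) (nat_lit 439) (nat_lit 236)))))) (XT.nd (nat_lit 55770) (nat_lit 0) (nat_lit 5548) (XT.nd (nat_lit 234) (nat_lit 152) (nat_lit 0) (XT.nd (nat_lit 78) (nat_lit 0) (nat_lit 0) (XT.lf (nat_lit 0) (nat_lit 4449813748653) (nat_lit 76) (nat_lit 2391937109033) (nat_lit 76) (nat_lit 2243848620897) (nat_lit 4) (nat_lit 4) (nat_lit 5) (nat_lit 5) (nat_lit 5) (nat_lit 4) (nat_lit 526) (nat_lit 439) (nat_lit 235)) (XT.nd (nat_lit 78) (nat_lit 0) (nat_lit 0) (XT.lf (nat_lit 0) (nat_lit 6269113023741) (nat_lit 76) (nat_lit 1817341132076) (nat_lit 76) (nat_lit 1669252642274) (nat_lit 4) (nat_lit 4) (nat_lit 5) (nat_lit 5) (nat_lit 5) (nat_lit 4) (nat_lit 527) (nat_lit 439) (nat_lit 234)) (XT.lf (nat_lit 0) (nat_lit 8233956209126) (nat_lit 76) (nat_lit 1196777493304) (nat_lit 76) (nat_lit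 1048689001958) (nat_lit 4) (nat_lit 4) (nat_lit 5) (nat_lit 5) (nat_lit 5) (nat_lit 4) (nat_lit 528) (nat_lit 439) (nat_lit 233)))) (XT.nd (nat_lit 78) (nat_lit 152) (nat_lit 0) (XT.lf (nat_lit 0) (nat_lit 10355986819980) (nat_lit 76) (nat_lit 526568778560) (nat_lit 76) (nat_lit 378480285787) (nat_lit 4) (nat_lit 4) (nat_lit 5) (nat_lit 5) (nat_lit 5) (nat_lit 4) (nat_lit 529) (nat_lit 439) (nat_lit 232)) (XT.nd (nat_lit 78) (nat_lit 0) (nat_lit 0) (XT.lf (nat_lit 0) (nat_lit 346907130158) (nat_lit 152) (nat_lit 11546311384517) (nat_lit 0) (nat_lit 209788154143) (nat_lit 2) (nat_lit 5) (nat_lit 4) (nat_lit 4) (nat_lit 2) (nat_lit 4) (nat_lit 530) (nat_lit 439) (nat_lit 231)) (XT.lf (nat_lit 0) (nat_lit 1148943260250) (nat_lit 152) (nat_lit 10847655881217) (nat_lit 0) (nat_lit 1011824283101) (nat_lit 2) (nat_lit 5) (nat_lit 4) (nat_lit 4) (nat_lit 2) (nat_lit 4) (nat_lit 531) (nat_lit 439)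 (nat_lit 230))))) (XT.nd (nat_lit 234) (nat_lit 456) (nat_lit 0) (XT.nd (nat_lit 78) (nat_lit 0) (nat_lit 0) (XT.lf (nat_lit 0) (nat_lit 42722778706) (nat_lit 532) (nat_lit 695541042) (nat_lit 532) (nat_lit 695541042) (nat_lit 81) (nat_lit 3) (nat_lit 88) (nat_lit 3) (nat_lit 88) (nat_lit 5) (nat_lit 440) (nat_lit 440) (nat_lit 320)) (XT.nd (nat_lit 78) (nat_lit 0) (nat_lit 0) (XT.lf (nat_lit 76) (nat_lit 44601290830) (nat_lit 0) (nat_lit 45342678191) (nat_lit 532) (nat_lit 1726412159) (nat_lit 82) (nat_lit 5) (nat_lit 81) (nat_lit 3) (nat_lit 88) (nat_lit 5) (nat_lit 441) (nat_lit 440) (nat_lit 319)) (XT.lf (nat_lit 76) (nat_lit 94351714712) (nat_lit 0) (nat_lit 487769551) (nat_lit 532) (nat_lit 545991039) (nat_lit 82) (nat_lit 5) (nat_lit 81) (nat_lit 3) (nat_lit 88) (nat_lit 5) (nat_lit 442) (nat_lit 440) (nat_lit 318)))) (XT.nd (nat_lit 156) (nat_lit 0) (nat_lit 76) (XT.nd (nat_lit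 78) (nat_lit 0) (nat_lit 0) (XT.lf (nat_lit 0) (nat_lit 3109496047) (nat_lit 532) (nat_lit 49254571739) (nat_lit 608) (nat_lit 46838939576) (nat_lit 75) (nat_lit 5) (nat_lit 82) (nat_lit 5) (nat_lit 83) (nat_lit 5) (nat_lit 443) (nat_lit 440) (nat_lit 317)) (XT.lf (nat_lit 76) (nat_lit 1806595253) (nat_lit 0) (nat_lit 5305734616) (nat_lit 608) (nat_lit 96205725320) (nat_lit 76) (nat_lit 5) (nat_lit 75) (nat_lit 5) (nat_lit 83) (nat_lit 5) (nat_lit 444) (nat_lit 440) (nat_lit 316))) (XT.nd (nat_lit 78) (nat_lit 0) (nat_lit 0) (XT.lf (nat_lit 0) (nat_lit 13911101785) (nat_lit 532) (nat_lit 49030989810) (nat_lit 608) (nat_lit 44622158493) (nat_lit 76) (nat_lit 5) (nat_lit 83) (nat_lit 5) (nat_lit 84) (nat_lit 5) (nat_lit 445) (nat_lit 440) (nat_lit 315)) (XT.lf (nat_lit 76) (nat_lit 7905034049) (nat_lit 0) (nat_lit 13676051707) (nat_lit 608) (nat_lit 90542870144) (nat_lit 77) (nat_lit 5) (nat_lit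 76) (nat_lit 5) (nat_lit 84) (nat_lit 5) (nat_lit 446) (nat_lit 440) (nat_lit 314))))))) (XT.nd (nat_lit 1014) (nat_lit 1140) (nat_lit 0) (XT.nd (nat_lit 468) (nat_lit 836) (nat_lit 0) (XT.nd (nat_lit 234) (nat_lit 456) (nat_lit 0) (XT.nd (nat_lit 78) (nat_lit 456) (nat_lit 0) (XT.lf (nat_lit 0) (nat_lit 32190229647) (nat_lit 532) (nat_lit 45742913826) (nat_lit 76) (nat_lit 38929249940) (nat_lit 77) (nat_lit 5) (nat_lit 84) (nat_lit 5) (nat_lit 78) (nat_lit 5) (nat_lit 447) (nat_lit 440) (nat_lit 313)) (XT.nd (nat_lit 78) (nat_lit 0) (nat_lit 0) (XT.lf (nat_lit 0) (nat_lit 17953552710) (nat_lit 456) (nat_lit 26481019312) (nat_lit 532) (nat_lit 77482416671) (nat_lit 71) (nat_lit 5) (nat_lit 77) (nat_lit 5) (nat_lit 78) (nat_lit 5) (nat_lit 448) (nat_lit 440) (nat_lit 312)) (XT.lf (nat_lit 0) (nat_lit 59640679053) (nat_lit 532) (nat_lit 38661292600) (nat_lit 76) (nat_lit 28915402675) (nat_lit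 71) (nat_lit 5) (nat_lit 78) (nat_lit 5) (nat_lit 72) (nat_lit 5) (nat_lit 449) (nat_lit 440) (nat_lit 311)))) (XT.nd (nat_lit 78) (nat_lit 228) (nat_lit 0) (XT.lf (nat_lit 0) (nat_lit 32818415646) (nat_lit 228) (nat_lit 44721488928) (nat_lit 304) (nat_lit 55283755954) (nat_lit 68) (nat_lit 5) (nat_lit 71) (nat_lit 5) (nat_lit 72) (nat_lit 5) (nat_lit 450) (nat_lit 440) (nat_lit 310)) (XT.nd (nat_lit 78) (nat_lit 228) (nat_lit 0) (XT.lf (nat_lit 0) (nat_lit 98271290685) (nat_lit 304) (nat_lit 26922806464) (nat_lit 76) (nat_lit 13572334768) (nat_lit 68) (nat_lit 5) (nat_lit 72) (nat_lit 5) (nat_lit 69) (nat_lit 5) (nat_lit 451) (nat_lit 440) (nat_lit 309)) (XT.lf (nat_lit 0) (nat_lit 53521510660) (nat_lit 228) (nat_lit 69588051099) (nat_lit 304) (nat_lit 21879193424) (nat_lit 65) (nat_lit 5) (nat_lit 68) (nat_lit 5) (nat_lit 69) (nat_lit 5) (nat_lit 452) (nat_lit 440) (nat_lit 308))))) (XT.nd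 (nat_lit 234) (nat_lit 380) (nat_lit 0) (XT.nd (nat_lit 78) (nat_lit 456) (nat_lit 0) (XT.lf (nat_lit 0) (nat_lit 141932027237) (nat_lit 228) (nat_lit 8738587430) (nat_lit 304) (nat_lit 979392115) (nat_lit 65) (nat_lit 5) (nat_lit 68) (nat_lit 5) (nat_lit 69) (nat_lit 5) (nat_lit 453) (nat_lit 440) (nat_lit 307)) (XT.nd (nat_lit 78) (nat_lit 228) (nat_lit 0) (XT.lf (nat_lit 0) (nat_lit 23923016744) (nat_lit 228) (nat_lit 77918192605) (nat_lit 76) (nat_lit 56688544433) (nat_lit 62) (nat_lit 5) (nat_lit 65) (nat_lit 5) (nat_lit 63) (nat_lit 5) (nat_lit 454) (nat_lit 440) (nat_lit 306)) (XT.lf (nat_lit 0) (nat_lit 13181096292) (nat_lit 228) (nat_lit 38399837620) (nat_lit 304) (nat_lit 114311613339) (nat_lit 59) (nat_lit 5) (nat_lit 62) (nat_lit 5) (nat_lit 63) (nat_lit 5) (nat_lit 455) (nat_lit 440) (nat_lit 305)))) (XT.nd (nat_lit 156) (nat_lit 228) (nat_lit 0) (XT.nd (nat_lit 78) (nat_lit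 152) (nat_lit 0) (XT.lf (nat_lit 0) (nat_lit 84361203438) (nat_lit 304) (nat_lit 58454455389) (nat_lit 76) (nat_lit 30795927915) (nat_lit 59) (nat_lit 5) (nat_lit 63) (nat_lit 5) (nat_lit 60) (nat_lit 5) (nat_lit 456) (nat_lit 440) (nat_lit 304)) (XT.lf (nat_lit 0) (nat_lit 44575079858) (nat_lit 152) (nat_lit 77257921709) (nat_lit 228) (nat_lit 59949619318) (nat_lit 57) (nat_lit 5) (nat_lit 59) (nat_lit 5) (nat_lit 60) (nat_lit 5) (nat_lit 457) (nat_lit 440) (nat_lit 303))) (XT.nd (nat_lit 78) (nat_lit 228) (nat_lit 0) (XT.lf (nat_lit 0) (nat_lit 159170898317) (nat_lit 152) (nat_lit 4729583989) (nat_lit 228) (nat_lit 26579020406) (nat_lit 57) (nat_lit 5) (nat_lit 59) (nat_lit 5) (nat_lit 60) (nat_lit 5) (nat_lit 458) (nat_lit 440) (nat_lit 302)) (XT.lf (nat_lit 0) (nat_lit 12915196730) (nat_lit 228) (nat_lit 114320480889) (nat_lit 76) (nat_lit 72304073360) (nat_lit 54) (nat_lit 5) (nat_lit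 57) (nat_lit 5) (nat_lit 55) (nat_lit 5) (nat_lit 459) (nat_lit 440) (nat_lit 301)))))) (XT.nd (nat_lit 468) (nat_lit 532) (nat_lit 0) (XT.nd (nat_lit 234) (nat_lit 304) (nat_lit 0) (XT.nd (nat_lit 78) (nat_lit 152) (nat_lit 0) (XT.lf (nat_lit 0) (nat_lit 2902928798) (nat_lit 152) (nat_lit 52300708877) (nat_lit 228) (nat_lit 153980300829) (nat_lit 52) (nat_lit 5) (nat_lit 54) (nat_lit 5) (nat_lit 55) (nat_lit 5) (nat_lit 460) (nat_lit 440) (nat_lit 300)) (XT.nd (nat_lit 78) (nat_lit 152) (nat_lit 0) (XT.lf (nat_lit 0) (nat_lit 104770317960) (nat_lit 228) (nat_lit 84114038067) (nat_lit 76) (nat_lit 30403691918) (nat_lit 52) (nat_lit 5) (nat_lit 55) (nat_lit 5) (nat_lit 53) (nat_lit 5) (nat_lit 461) (nat_lit 440) (nat_lit 299)) (XT.lf (nat_lit 0) (nat_lit 48914319888) (nat_lit 152) (nat_lit 111922606241) (nat_lit 228) (nat_lit 69160792572) (nat_lit 50) (nat_lit 5) (nat_lit 52) (nat_lit 5)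 (nat_lit 53) (nat_lit 5) (nat_lit 462) (nat_lit 440) (nat_lit 298)))) (XT.nd (nat_lit 78) (nat_lit 304) (nat_lit 0) (XT.lf (nat_lit 0) (nat_lit 197368192750) (nat_lit 152) (nat_lit 26320249562) (nat_lit 228) (nat_lit 17691754489) (nat_lit 50) (nat_lit 5) (nat_lit 52) (nat_lit 5) (nat_lit 53) (nat_lit 5) (nat_lit 463) (nat_lit 440) (nat_lit 297)) (XT.nd (nat_lit 78) (nat_lit 152) (nat_lit 0) (XT.lf (nat_lit 0) (nat_lit 40291292499) (nat_lit 152) (nat_lit 146530332251) (nat_lit 76) (nat_lit 66435367742) (nat_lit 48) (nat_lit 5) (nat_lit 50) (nat_lit 5) (nat_lit 49) (nat_lit 5) (nat_lit 464) (nat_lit 440) (nat_lit 296)) (XT.lf (nat_lit 0) (nat_lit 5121129134) (nat_lit 152) (nat_lit 98877238468) (nat_lit 228) (nat_lit 161885506286) (nat_lit 46) (nat_lit 5) (nat_lit 48) (nat_lit 5) (nat_lit 49) (nat_lit 5) (nat_lit 465) (nat_lit 440) (nat_lit 295))))) (XT.nd (nat_lit 234) (nat_lit 380) (nat_lit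 0) (XT.nd (nat_lit 78) (nat_lit 152) (nat_lit 0) (XT.lf (nat_lit 0) (nat_lit 176818514297) (nat_lit 228) (nat_lit 101973095306) (nat_lit 76) (nat_lit 407975770) (nat_lit 46) (nat_lit 5) (nat_lit 49) (nat_lit 5) (nat_lit 47) (nat_lit 4) (nat_lit 466) (nat_lit 440) (nat_lit 294)) (XT.nd (nat_lit 78) (nat_lit 76) (nat_lit 0) (XT.lf (nat_lit 0) (nat_lit 70476655968) (nat_lit 76) (nat_lit 189250613199) (nat_lit 152) (nat_lit 33512244918) (nat_lit 45) (nat_lit 5) (nat_lit 46) (nat_lit 5) (nat_lit 47) (nat_lit 4) (nat_lit 467) (nat_lit 440) (nat_lit 293)) (XT.lf (nat_lit 0) (nat_lit 41682137131) (nat_lit 152) (nat_lit 46713508462) (nat_lit 76) (nat_lit 219699538130) (nat_lit 44) (nat_lit 5) (nat_lit 46) (nat_lit 5) (nat_lit 45) (nat_lit 5) (nat_lit 468) (nat_lit 440) (nat_lit 292)))) (XT.nd (nat_lit 156) (nat_lit 152) (nat_lit 0) (XT.nd (nat_lit 78) (nat_lit 76) (nat_lit 0) (XT.lf (nat_lit 0)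 (nat_lit 125300215847) (nat_lit 228) (nat_lit 174335627112) (nat_lit 76) (nat_lit 24096333936) (nat_lit 42) (nat_lit 5) (nat_lit 45) (nat_lit 5) (nat_lit 43) (nat_lit 4) (nat_lit 469) (nat_lit 440) (nat_lit 291)) (XT.lf (nat_lit 0) (nat_lit 22110663331) (nat_lit 76) (nat_lit 197635046610) (nat_lit 152) (nat_lit 120543382069) (nat_lit 41) (nat_lit 5) (nat_lit 42) (nat_lit 5) (nat_lit 43) (nat_lit 4) (nat_lit 470) (nat_lit 440) (nat_lit 290))) (XT.nd (nat_lit 78) (nat_lit 152) (nat_lit 0) (XT.lf (nat_lit 0) (nat_lit 244186950920) (nat_lit 76) (nat_lit 82326355116) (nat_lit 152) (nat_lit 31275937316) (nat_lit 41) (nat_lit 5) (nat_lit 42) (nat_lit 5) (nat_lit 43) (nat_lit 4) (nat_lit 471) (nat_lit 440) (nat_lit 289)) (XT.lf (nat_lit 0) (nat_lit 65677636929) (nat_lit 152) (nat_lit 266132195549) (nat_lit 76) (nat_lit 44450022864) (nat_lit 39) (nat_lit 5) (nat_lit 41) (nat_lit 5) (nat_lit 40)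 (nat_lit 4) (nat_lit 472) (nat_lit 440) (nat_lit 288))))))))
noncomputable def xc184 : XT := (XT.nd (nat_lit 1950) (nat_lit 1064) (nat_lit 0) (XT.nd (nat_lit 936) (nat_lit 760) (nat_lit 0) (XT.nd (nat_lit 468) (nat_lit 456) (nat_lit 0) (XT.nd (nat_lit 234) (nat_lit 152) (nat_lit 0) (XT.nd (nat_lit 78) (nat_lit 152) (nat_lit 0) (XT.lf (nat_lit 0) (nat_lit 174022725455) (nat_lit 152) (nat_lit 40774659320) (nat_lit 76) (nat_lit 180919747264) (nat_lit 39) (nat_lit 5) (nat_lit 41) (nat_lit 5) (nat_lit 40) (nat_lit 4) (nat_lit 473) (nat_lit 440) (nat_lit 287)) (XT.nd (nat_lit 78) (nat_lit 76) (nat_lit 0) (XT.lf (nat_lit 0) (nat_lit 213280334452) (nat_lit 76) (nat_lit 82884325288) (nat_lit 152) (nat_lit 120155992048) (nat_lit 38) (nat_lit 5) (nat_lit 39) (nat_lit 5) (nat_lit 40) (nat_lit 4) (nat_lit 474) (nat_lit 440) (nat_lit 286)) (XT.lf (nat_lit 0) (nat_lit 52667817621) (nat_lit 76) (nat_lit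 379253388546) (nat_lit 76) (nat_lit 6343786371) (nat_lit 37) (nat_lit 4) (nat_lit 38) (nat_lit 5) (nat_lit 38) (nat_lit 4) (nat_lit 475) (nat_lit 440) (nat_lit 285)))) (XT.nd (nat_lit 78) (nat_lit 76) (nat_lit 0) (XT.lf (nat_lit 0) (nat_lit 118590282484) (nat_lit 152) (nat_lit 126241996825) (nat_lit 76) (nat_lit 216280445000) (nat_lit 36) (nat_lit 5) (nat_lit 38) (nat_lit 5) (nat_lit 37) (nat_lit 4) (nat_lit 476) (nat_lit 440) (nat_lit 284)) (XT.nd (nat_lit 78) (nat_lit 0) (nat_lit 0) (XT.lf (nat_lit 0) (nat_lit 161789937499) (nat_lit 76) (nat_lit 95277317602) (nat_lit 152) (nat_lit 228396565036) (nat_lit 35) (nat_lit 5) (nat_lit 36) (nat_lit 5) (nat_lit 37) (nat_lit 4) (nat_lit 477) (nat_lit 440) (nat_lit 283)) (XT.lf (nat_lit 0) (nat_lit 411756699050) (nat_lit 152) (nat_lit 33125998730) (nat_lit 0) (nat_lit 66469560777) (nat_lit 35) (nat_lit 5) (nat_lit 37) (nat_lit 4) (nat_lit 35) (nat_lit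 4) (nat_lit 478) (nat_lit 440) (nat_lit 282))))) (XT.nd (nat_lit 234) (nat_lit 228) (nat_lit 0) (XT.nd (nat_lit 78) (nat_lit 76) (nat_lit 0) (XT.lf (nat_lit 0) (nat_lit 47297711527) (nat_lit 152) (nat_lit 246908032231) (nat_lit 76) (nat_lit 244248842968) (nat_lit 33) (nat_lit 5) (nat_lit 35) (nat_lit 5) (nat_lit 34) (nat_lit 4) (nat_lit 479) (nat_lit 440) (nat_lit 281)) (XT.nd (nat_lit 78) (nat_lit 0) (nat_lit 0) (XT.lf (nat_lit 0) (nat_lit 77700384755) (nat_lit 76) (nat_lit 125659125330) (nat_lit 152) (nat_lit 363934814221) (nat_lit 32) (nat_lit 5) (nat_lit 33) (nat_lit 5) (nat_lit 34) (nat_lit 4) (nat_lit 480) (nat_lit 440) (nat_lit 280)) (XT.lf (nat_lit 0) (nat_lit 380188102070) (nat_lit 152) (nat_lit 157113147174) (nat_lit 0) (nat_lit 60477443690) (nat_lit 32) (nat_lit 5) (nat_lit 34) (nat_lit 4) (nat_lit 32) (nat_lit 4) (nat_lit 481) (nat_lit 440) (nat_lit 279)))) (XT.nd (nat_lit 78)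 (nat_lit 152) (nat_lit 0) (XT.lf (nat_lit 0) (nat_lit 209165294417) (nat_lit 76) (nat_lit 370291869437) (nat_lit 76) (nat_lit 50581112610) (nat_lit 31) (nat_lit 4) (nat_lit 32) (nat_lit 5) (nat_lit 32) (nat_lit 4) (nat_lit 482) (nat_lit 440) (nat_lit 278)) (XT.nd (nat_lit 78) (nat_lit 76) (nat_lit 0) (XT.lf (nat_lit 0) (nat_lit 127703755204) (nat_lit 152) (nat_lit 54087037156) (nat_lit 76) (nat_lit 482485543081) (nat_lit 30) (nat_lit 5) (nat_lit 32) (nat_lit 5) (nat_lit 31) (nat_lit 4) (nat_lit 483) (nat_lit 440) (nat_lit 277)) (XT.lf (nat_lit 0) (nat_lit 326926859461) (nat_lit 152) (nat_lit 342570606432) (nat_lit 0) (nat_lit 30898218365) (nat_lit 29) (nat_lit 5) (nat_lit 31) (nat_lit 4) (nat_lit 29) (nat_lit 4) (nat_lit 484) (nat_lit 440) (nat_lit 276)))))) (XT.nd (nat_lit 468) (nat_lit 380) (nat_lit 0) (XT.nd (nat_lit 234) (nat_lit 152) (nat_lit 0) (XT.nd (nat_lit 78) (nat_lit 152) (nat_lit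 0) (XT.lf (nat_lit 0) (nat_lit 64969430049) (nat_lit 76) (nat_lit 484919872574) (nat_lit 76) (nat_lit 188891159118) (nat_lit 28) (nat_lit 4) (nat_lit 29) (nat_lit 5) (nat_lit 29) (nat_lit 4) (nat_lit 485) (nat_lit 440) (nat_lit 275)) (XT.nd (nat_lit 78) (nat_lit 76) (nat_lit 0) (XT.lf (nat_lit 0) (nat_lit 19539494270) (nat_lit 152) (nat_lit 255386632375) (nat_lit 76) (nat_lit 504521010780) (nat_lit 27) (nat_lit 5) (nat_lit 29) (nat_lit 5) (nat_lit 28) (nat_lit 4) (nat_lit 486) (nat_lit 440) (nat_lit 274)) (XT.lf (nat_lit 0) (nat_lit 201694844504) (nat_lit 76) (nat_lit 37595389630) (nat_lit 152) (nat_lit 583296358878) (nat_lit 26) (nat_lit 5) (nat_lit 27) (nat_lit 5) (nat_lit 28) (nat_lit 4) (nat_lit 487) (nat_lit 440) (nat_lit 273)))) (XT.nd (nat_lit 78) (nat_lit 152) (nat_lit 0) (XT.lf (nat_lit 0) (nat_lit 489045288115) (nat_lit 152) (nat_lit 164193521703) (nat_lit 0) (nat_lit 214944454838)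 (nat_lit 26) (nat_lit 5) (nat_lit 28) (nat_lit 4) (nat_lit 26) (nat_lit 4) (nat_lit 488) (nat_lit 440) (nat_lit 272)) (XT.nd (nat_lit 78) (nat_lit 76) (nat_lit 0) (XT.lf (nat_lit 0) (nat_lit 345339132803) (nat_lit 76) (nat_lit 422723436944) (nat_lit 76) (nat_lit 148622554420) (nat_lit 25) (nat_lit 4) (nat_lit 26) (nat_lit 5) (nat_lit 26) (nat_lit 4) (nat_lit 489) (nat_lit 440) (nat_lit 271)) (XT.lf (nat_lit 0) (nat_lit 99920836954) (nat_lit 152) (nat_lit 66265587258) (nat_lit 76) (nat_lit 802319196936) (nat_lit 24) (nat_lit 5) (nat_lit 26) (nat_lit 5) (nat_lit 25) (nat_lit 4) (nat_lit 490) (nat_lit 440) (nat_lit 270))))) (XT.nd (nat_lit 234) (nat_lit 228) (nat_lit 0) (XT.nd (nat_lit 78) (nat_lit 76) (nat_lit 0) (XT.lf (nat_lit 0) (nat_lit 375431943884) (nat_lit 152) (nat_lit 525887140999) (nat_lit 0) (nat_lit 121634749119) (nat_lit 23) (nat_lit 5) (nat_lit 25) (nat_lit 4) (nat_lit 23) (nat_lit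 4) (nat_lit 491) (nat_lit 440) (nat_lit 269)) (XT.nd (nat_lit 78) (nat_lit 0) (nat_lit 0) (XT.lf (nat_lit 0) (nat_lit 24482108035) (nat_lit 76) (nat_lit 655265948713) (nat_lit 76) (nat_lit 401468717749) (nat_lit 22) (nat_lit 4) (nat_lit 23) (nat_lit 5) (nat_lit 23) (nat_lit 4) (nat_lit 492) (nat_lit 440) (nat_lit 268)) (XT.lf (nat_lit 0) (nat_lit 648788393724) (nat_lit 76) (nat_lit 373999666434) (nat_lit 76) (nat_lit 120202401953) (nat_lit 22) (nat_lit 4) (nat_lit 23) (nat_lit 5) (nat_lit 23) (nat_lit 4) (nat_lit 493) (nat_lit 440) (nat_lit 267)))) (XT.nd (nat_lit 156) (nat_lit 76) (nat_lit 0) (XT.nd (nat_lit 78) (nat_lit 0) (nat_lit 0) (XT.lf (nat_lit 0) (nat_lit 114653667879) (nat_lit 76) (nat_lit 62486218367) (nat_lit 152) (nat_lit 1031992391227) (nat_lit 20) (nat_lit 5) (nat_lit 21) (nat_lit 5) (nat_lit 22) (nat_lit 4) (nat_lit 494) (nat_lit 440) (nat_lit 266)) (XT.lf (nat_lit 0) (nat_lit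 512227219359) (nat_lit 152) (nat_lit 489222613483) (nat_lit 0) (nat_lit 277229696904) (nat_lit 20) (nat_lit 5) (nat_lit 22) (nat_lit 4) (nat_lit 20) (nat_lit 4) (nat_lit 495) (nat_lit 440) (nat_lit 265))) (XT.nd (nat_lit 78) (nat_lit 0) (nat_lit 0) (XT.lf (nat_lit 0) (nat_lit 171405068668) (nat_lit 76) (nat_lit 708461710702) (nat_lit 76) (nat_lit 473464163611) (nat_lit 19) (nat_lit 4) (nat_lit 20) (nat_lit 5) (nat_lit 20) (nat_lit 4) (nat_lit 496) (nat_lit 440) (nat_lit 264)) (XT.lf (nat_lit 0) (nat_lit 912705342006) (nat_lit 76) (nat_lit 377588302955) (nat_lit 76) (nat_lit 142590733053) (nat_lit 19) (nat_lit 4) (nat_lit 20) (nat_lit 5) (nat_lit 20) (nat_lit 4) (nat_lit 497) (nat_lit 440) (nat_lit 263))))))) (XT.nd (nat_lit 936) (nat_lit 456) (nat_lit 0) (XT.nd (nat_lit 468) (nat_lit 228) (nat_lit 0) (XT.nd (nat_lit 234) (nat_lit 152) (nat_lit 0) (XT.nd (nat_lit 78) (nat_lit 76) (nat_lit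 0) (XT.lf (nat_lit 0) (nat_lit 199313051237) (nat_lit 76) (nat_lit 9490142156) (nat_lit 152) (nat_lit 1309202236908) (nat_lit 17) (nat_lit 5) (nat_lit 18) (nat_lit 5) (nat_lit 19) (nat_lit 4) (nat_lit 498) (nat_lit 440) (nat_lit 262)) (XT.nd (nat_lit 78) (nat_lit 76) (nat_lit 0) (XT.lf (nat_lit 0) (nat_lit 604529750392) (nat_lit 152) (nat_lit 616256776151) (nat_lit 0) (nat_lit 386939370225) (nat_lit 17) (nat_lit 5) (nat_lit 19) (nat_lit 4) (nat_lit 17) (nat_lit 4) (nat_lit 499) (nat_lit 440) (nat_lit 261)) (XT.lf (nat_lit 0) (nat_lit 149611206837) (nat_lit 76) (nat_lit 886147811854) (nat_lit 76) (nat_lit 668557414920) (nat_lit 16) (nat_lit 4) (nat_lit 17) (nat_lit 5) (nat_lit 17) (nat_lit 4) (nat_lit 500) (nat_lit 440) (nat_lit 260)))) (XT.nd (nat_lit 78) (nat_lit 152) (nat_lit 0) (XT.lf (nat_lit 0) (nat_lit 1011795571197) (nat_lit 76) (nat_lit 506540547714) (nat_lit 76) (nat_lit 288950135255)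 (nat_lit 16) (nat_lit 4) (nat_lit 17) (nat_lit 5) (nat_lit 17) (nat_lit 4) (nat_lit 501) (nat_lit 440) (nat_lit 259)) (XT.nd (nat_lit 78) (nat_lit 0) (nat_lit 0) (XT.lf (nat_lit 0) (nat_lit 22685029837) (nat_lit 76) (nat_lit 92832016639) (nat_lit 152) (nat_lit 1802700118825) (nat_lit 14) (nat_lit 5) (nat_lit 15) (nat_lit 5) (nat_lit 16) (nat_lit 4) (nat_lit 502) (nat_lit 440) (nat_lit 258)) (XT.lf (nat_lit 0) (nat_lit 567558858762) (nat_lit 152) (nat_lit 1101310800218) (nat_lit 0) (nat_lit 366086228999) (nat_lit 14) (nat_lit 5) (nat_lit 16) (nat_lit 4) (nat_lit 14) (nat_lit 4) (nat_lit 503) (nat_lit 440) (nat_lit 257))))) (XT.nd (nat_lit 234) (nat_lit 152) (nat_lit 0) (XT.nd (nat_lit 78) (nat_lit 76) (nat_lit 0) (XT.lf (nat_lit 0) (nat_lit 1058175182892) (nat_lit 152) (nat_lit 245963090512) (nat_lit 0) (nat_lit 856702541718) (nat_lit 14) (nat_lit 5) (nat_lit 16) (nat_lit 4) (nat_lit 14)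 (nat_lit 4) (nat_lit 504) (nat_lit 440) (nat_lit 256)) (XT.nd (nat_lit 78) (nat_lit 0) (nat_lit 0) (XT.lf (nat_lit 0) (nat_lit 713504729328) (nat_lit 76) (nat_lit 891695839202) (nat_lit 76) (nat_lit 690223187462) (nat_lit 13) (nat_lit 4) (nat_lit 14) (nat_lit 5) (nat_lit 14) (nat_lit 4) (nat_lit 505) (nat_lit 440) (nat_lit 255)) (XT.lf (nat_lit 0) (nat_lit 1763718013345) (nat_lit 76) (nat_lit 438994989444) (nat_lit 76) (nat_lit 237522327920) (nat_lit 13) (nat_lit 4) (nat_lit 14) (nat_lit 5) (nat_lit 14) (nat_lit 4) (nat_lit 506) (nat_lit 440) (nat_lit 254)))) (XT.nd (nat_lit 78) (nat_lit 0) (nat_lit 0) (XT.lf (nat_lit 0) (nat_lit 247845801030) (nat_lit 152) (nat_lit 2286283156570) (nat_lit 0) (nat_lit 61297031973) (nat_lit 11) (nat_lit 5) (nat_lit 13) (nat_lit 4) (nat_lit 11) (nat_lit 4) (nat_lit 507) (nat_lit 440) (nat_lit 253)) (XT.nd (nat_lit 78) (nat_lit 0) (nat_lit 0) (XT.lf (nat_lit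 0) (nat_lit 789591054593) (nat_lit 152) (nat_lit 1367474611942) (nat_lit 0) (nat_lit 603042277769) (nat_lit 11) (nat_lit 5) (nat_lit 13) (nat_lit 4) (nat_lit 11) (nat_lit 4) (nat_lit 508) (nat_lit 440) (nat_lit 252)) (XT.lf (nat_lit 0) (nat_lit 1374675885398) (nat_lit 152) (nat_lit 375161472078) (nat_lit 0) (nat_lit 1188127101383) (nat_lit 11) (nat_lit 5) (nat_lit 13) (nat_lit 4) (nat_lit 11) (nat_lit 4) (nat_lit 509) (nat_lit 440) (nat_lit 251)))))) (XT.nd (nat_lit 468) (nat_lit 228) (nat_lit 0) (XT.nd (nat_lit 234) (nat_lit 152) (nat_lit 0) (XT.nd (nat_lit 78) (nat_lit 0) (nat_lit 0) (XT.lf (nat_lit 0) (nat_lit 733215022128) (nat_lit 76) (nat_lit 1290986279598) (nat_lit 76) (nat_lit 1104437488925) (nat_lit 10) (nat_lit 4) (nat_lit 11) (nat_lit 5) (nat_lit 11) (nat_lit 4) (nat_lit 510) (nat_lit 440) (nat_lit 250)) (XT.nd (nat_lit 78) (nat_lit 0) (nat_lit 0) (XT.lf (nat_lit 0) (nat_lit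 1951597321490) (nat_lit 76) (nat_lit 784348970542) (nat_lit 76) (nat_lit 597800173703) (nat_lit 10) (nat_lit 4) (nat_lit 11) (nat_lit 5) (nat_lit 11) (nat_lit 4) (nat_lit 511) (nat_lit 440) (nat_lit 249)) (XT.lf (nat_lit 0) (nat_lit 3267450130985) (nat_lit 76) (nat_lit 237180714632) (nat_lit 76) (nat_lit 50631912085) (nat_lit 10) (nat_lit 4) (nat_lit 11) (nat_lit 5) (nat_lit 11) (nat_lit 4) (nat_lit 512) (nat_lit 440) (nat_lit 248)))) (XT.nd (nat_lit 78) (nat_lit 0) (nat_lit 0) (XT.lf (nat_lit 0) (nat_lit 545011867740) (nat_lit 152) (nat_lit 2873628994673) (nat_lit 0) (nat_lit 372281490117) (nat_lit 8) (nat_lit 5) (nat_lit 10) (nat_lit 4) (nat_lit 8) (nat_lit 4) (nat_lit 513) (nat_lit 440) (nat_lit 247)) (XT.nd (nat_lit 78) (nat_lit 0) (nat_lit 0) (XT.lf (nat_lit 0) (nat_lit 1199805920374) (nat_lit 152) (nat_lit 1817309310479) (nat_lit 0) (nat_lit 1027075538219) (nat_lit 8) (nat_lit 5)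 (nat_lit 10) (nat_lit 4) (nat_lit 8) (nat_lit 4) (nat_lit 514) (nat_lit 440) (nat_lit 246)) (XT.lf (nat_lit 0) (nat_lit 1906983465639) (nat_lit 152) (nat_lit 676484116538) (nat_lit 0) (nat_lit 1734253079289) (nat_lit 8) (nat_lit 5) (nat_lit 10) (nat_lit 4) (nat_lit 8) (nat_lit 4) (nat_lit 515) (nat_lit 440) (nat_lit 245))))) (XT.nd (nat_lit 234) (nat_lit 152) (nat_lit 0) (XT.nd (nat_lit 78) (nat_lit 0) (nat_lit 0) (XT.lf (nat_lit 0) (nat_lit 584864314467) (nat_lit 76) (nat_lit 2099936871646) (nat_lit 76) (nat_lit 1927206481410) (nat_lit 7) (nat_lit 4) (nat_lit 8) (nat_lit 5) (nat_lit 8) (nat_lit 4) (nat_lit 516) (nat_lit 440) (nat_lit 244)) (XT.nd (nat_lit 78) (nat_lit 0) (nat_lit 0) (XT.lf (nat_lit 0) (nat_lit 1985592812428) (nat_lit 76) (nat_lit 1557747757892) (nat_lit 76) (nat_lit 1385017364059) (nat_lit 7) (nat_lit 4) (nat_lit 8) (nat_lit 5) (nat_lit 8) (nat_lit 4) (nat_lit 517) (nat_lit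 440) (nat_lit 243)) (XT.lf (nat_lit 0) (nat_lit 3498379535919) (nat_lit 76) (nat_lit 972183542969) (nat_lit 76) (nat_lit 799453145805) (nat_lit 7) (nat_lit 4) (nat_lit 8) (nat_lit 5) (nat_lit 8) (nat_lit 4) (nat_lit 518) (nat_lit 440) (nat_lit 242)))) (XT.nd (nat_lit 156) (nat_lit 0) (nat_lit 0) (XT.nd (nat_lit 78) (nat_lit 152) (nat_lit 0) (XT.lf (nat_lit 0) (nat_lit 5132189147006) (nat_lit 76) (nat_lit 339774216714) (nat_lit 76) (nat_lit 167043816466) (nat_lit 7) (nat_lit 4) (nat_lit 8) (nat_lit 5) (nat_lit 8) (nat_lit 4) (nat_lit 519) (nat_lit 440) (nat_lit 241)) (XT.lf (nat_lit 0) (nat_lit 520719073064) (nat_lit 152) (nat_lit 5152576428885) (nat_lit 0) (nat_lit 360783514635) (nat_lit 5) (nat_lit 5) (nat_lit 7) (nat_lit 4) (nat_lit 5) (nat_lit 4) (nat_lit 520) (nat_lit 440) (nat_lit 240))) (XT.nd (nat_lit 78) (nat_lit 0) (nat_lit 0) (XT.lf (nat_lit 0) (nat_lit 1277520803160) (nat_lit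 152) (nat_lit 4063460049277) (nat_lit 0) (nat_lit 1117585242282) (nat_lit 5) (nat_lit 5) (nat_lit 7) (nat_lit 4) (nat_lit 5) (nat_lit 4) (nat_lit 521) (nat_lit 440) (nat_lit 239)) (XT.lf (nat_lit 0) (nat_lit 2094866650202) (nat_lit 152) (nat_lit 2887214403562) (nat_lit 0) (nat_lit 1934931087057) (nat_lit 5) (nat_lit 5) (nat_lit 7) (nat_lit 4) (nat_lit 5) (nat_lit 4) (nat_lit 522) (nat_lit 440) (nat_lit 238))))))))
noncomputable def xc185 : XT := (XT.nd (nat_lit 57330) (nat_lit 0) (nat_lit 2280) (XT.nd (nat_lit 56316) (nat_lit 0) (nat_lit 4332) (XT.nd (nat_lit 468) (nat_lit 152) (nat_lit 0) (XT.nd (nat_lit 234) (nat_lit 0) (nat_lit 0) (XT.nd (nat_lit 78) (nat_lit 76) (nat_lit 0) (XT.lf (nat_lit 0) (nat_lit 2977600145136) (nat_lit 152) (nat_lit 1616869147173) (nat_lit 0) (nat_lit 2817664579892) (nat_lit 5) (nat_lit 5) (nat_lit 7) (nat_lit 4) (nat_lit 5) (nat_lit 4) (nat_lit 523) (nat_lit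 440) (nat_lit 237)) (XT.nd (nat_lit 78) (nat_lit 76) (nat_lit 0) (XT.lf (nat_lit 0) (nat_lit 3930952301265) (nat_lit 152) (nat_lit 244896308221) (nat_lit 0) (nat_lit 3771016734078) (nat_lit 5) (nat_lit 5) (nat_lit 7) (nat_lit 4) (nat_lit 5) (nat_lit 4) (nat_lit 524) (nat_lit 440) (nat_lit 236)) (XT.lf (nat_lit 0) (nat_lit 1301963826287) (nat_lit 76) (nat_lit 3689921047896) (nat_lit 76) (nat_lit 3529985478909) (nat_lit 4) (nat_lit 4) (nat_lit 5) (nat_lit 5) (nat_lit 5) (nat_lit 4) (nat_lit 525) (nat_lit 440) (nat_lit 235)))) (XT.nd (nat_lit 78) (nat_lit 0) (nat_lit 0) (XT.lf (nat_lit 0) (nat_lit 2986500207354) (nat_lit 76) (nat_lit 3157887728042) (nat_lit 76) (nat_lit 2997952157389) (nat_lit 4) (nat_lit 4) (nat_lit 5) (nat_lit 5) (nat_lit 5) (nat_lit 4) (nat_lit 526) (nat_lit 440) (nat_lit 234)) (XT.nd (nat_lit 78) (nat_lit 0) (nat_lit 0) (XT.lf (nat_lit 0) (nat_lit 4805799467197) (nat_lit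 76) (nat_lit 2583291758941) (nat_lit 76) (nat_lit 2423356186745) (nat_lit 4) (nat_lit 4) (nat_lit 5) (nat_lit 5) (nat_lit 5) (nat_lit 4) (nat_lit 527) (nat_lit 440) (nat_lit 233)) (XT.lf (nat_lit 0) (nat_lit 6770642638465) (nat_lit 76) (nat_lit 1962728127443) (nat_lit 76) (nat_lit 1802792553819) (nat_lit 4) (nat_lit 4) (nat_lit 5) (nat_lit 5) (nat_lit 5) (nat_lit 4) (nat_lit 528) (nat_lit 440) (nat_lit 232))))) (XT.nd (nat_lit 55614) (nat_lit 0) (nat_lit 6004) (XT.nd (nat_lit 78) (nat_lit 152) (nat_lit 0) (XT.lf (nat_lit 0) (nat_lit 8892673236250) (nat_lit 76) (nat_lit 1292519419435) (nat_lit 76) (nat_lit 1132583844488) (nat_lit 4) (nat_lit 4) (nat_lit 5) (nat_lit 5) (nat_lit 5) (nat_lit 4) (nat_lit 529) (nat_lit 440) (nat_lit 231)) (XT.nd (nat_lit 78) (nat_lit 152) (nat_lit 0) (XT.lf (nat_lit 0) (nat_lit 11184466256684) (nat_lit 76) (nat_lit 568694027759) (nat_lit 76) (nat_lit 408758451588)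 (nat_lit 4) (nat_lit 4) (nat_lit 5) (nat_lit 5) (nat_lit 5) (nat_lit 4) (nat_lit 530) (nat_lit 440) (nat_lit 230)) (XT.lf (nat_lit 0) (nat_lit 374659944589) (nat_lit 152) (nat_lit 12470015791128) (nat_lit 0) (nat_lit 226571447084) (nat_lit 2) (nat_lit 5) (nat_lit 4) (nat_lit 4) (nat_lit 2) (nat_lit 4) (nat_lit 531) (nat_lit 440) (nat_lit 229)))) (XT.nd (nat_lit 78) (nat_lit 0) (nat_lit 0) (XT.lf (nat_lit 0) (nat_lit 46148337549) (nat_lit 532) (nat_lit 747005556) (nat_lit 532) (nat_lit 747005556) (nat_lit 81) (nat_lit 3) (nat_lit 88) (nat_lit 3) (nat_lit 88) (nat_lit 5) (nat_lit 441) (nat_lit 441) (nat_lit 318)) (XT.nd (nat_lit 78) (nat_lit 0) (nat_lit 0) (XT.lf (nat_lit 76) (nat_lit 48177540053) (nat_lit 0) (nat_lit 48976469339) (nat_lit 532) (nat_lit 1848836624) (nat_lit 82) (nat_lit 5) (nat_lit 81) (nat_lit 3) (nat_lit 88) (nat_lit 5) (nat_lit 442) (nat_lit 441) (nat_lit 317)) (XT.lf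 (nat_lit 76) (nat_lit 101907394441) (nat_lit 0) (nat_lit 532695646) (nat_lit 532) (nat_lit 575143926) (nat_lit 82) (nat_lit 5) (nat_lit 81) (nat_lit 3) (nat_lit 88) (nat_lit 5) (nat_lit 443) (nat_lit 441) (nat_lit 316)))))) (XT.nd (nat_lit 468) (nat_lit 912) (nat_lit 0) (XT.nd (nat_lit 234) (nat_lit 304) (nat_lit 0) (XT.nd (nat_lit 78) (nat_lit 0) (nat_lit 0) (XT.lf (nat_lit 0) (nat_lit 3371109126) (nat_lit 532) (nat_lit 53185715601) (nat_lit 608) (nat_lit 50581391911) (nat_lit 75) (nat_lit 5) (nat_lit 82) (nat_lit 5) (nat_lit 83) (nat_lit 5) (nat_lit 444) (nat_lit 441) (nat_lit 315)) (XT.nd (nat_lit 78) (nat_lit 0) (nat_lit 76) (XT.lf (nat_lit 76) (nat_lit 1960111285) (nat_lit 0) (nat_lit 5733322437) (nat_lit 608) (nat_lit 103889093669) (nat_lit 76) (nat_lit 5) (nat_lit 75) (nat_lit 5) (nat_lit 83) (nat_lit 5) (nat_lit 445) (nat_lit 441) (nat_lit 314)) (XT.lf (nat_lit 0) (nat_lit 15035140122)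 (nat_lit 532) (nat_lit 52944176515) (nat_lit 608) (nat_lit 48189178836) (nat_lit 76) (nat_lit 5) (nat_lit 83) (nat_lit 5) (nat_lit 84) (nat_lit 5) (nat_lit 446) (nat_lit 441) (nat_lit 313)))) (XT.nd (nat_lit 78) (nat_lit 380) (nat_lit 0) (XT.lf (nat_lit 76) (nat_lit 8546494000) (nat_lit 0) (nat_lit 14771620696) (nat_lit 608) (nat_lit 97774911894) (nat_lit 77) (nat_lit 5) (nat_lit 76) (nat_lit 5) (nat_lit 84) (nat_lit 5) (nat_lit 447) (nat_lit 441) (nat_lit 312)) (XT.nd (nat_lit 78) (nat_lit 456) (nat_lit 0) (XT.lf (nat_lit 0) (nat_lit 34775176138) (nat_lit 532) (nat_lit 49393144415) (nat_lit 76) (nat_lit 42042283848) (nat_lit 77) (nat_lit 5) (nat_lit 84) (nat_lit 5) (nat_lit 78) (nat_lit 5) (nat_lit 448) (nat_lit 441) (nat_lit 311)) (XT.lf (nat_lit 0) (nat_lit 19398806469) (nat_lit 456) (nat_lit 28599754552) (nat_lit 532) (nat_lit 83671046840) (nat_lit 71) (nat_lit 5) (nat_lit 77) (nat_lit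 5) (nat_lit 78) (nat_lit 5) (nat_lit 449) (nat_lit 441) (nat_lit 310))))) (XT.nd (nat_lit 234) (nat_lit 684) (nat_lit 0) (XT.nd (nat_lit 78) (nat_lit 228) (nat_lit 0) (XT.lf (nat_lit 0) (nat_lit 64420467762) (nat_lit 532) (nat_lit 41745200108) (nat_lit 76) (nat_lit 31228411738) (nat_lit 71) (nat_lit 5) (nat_lit 78) (nat_lit 5) (nat_lit 72) (nat_lit 5) (nat_lit 450) (nat_lit 441) (nat_lit 309)) (XT.nd (nat_lit 78) (nat_lit 0) (nat_lit 0) (XT.lf (nat_lit 0) (nat_lit 35452657054) (nat_lit 228) (nat_lit 48298552969) (nat_lit 304) (nat_lit 59697692527) (nat_lit 68) (nat_lit 5) (nat_lit 71) (nat_lit 5) (nat_lit 72) (nat_lit 5) (nat_lit 451) (nat_lit 441) (nat_lit 308)) (XT.lf (nat_lit 0) (nat_lit 106140520640) (nat_lit 304) (nat_lit 29067924294) (nat_lit 76) (nat_lit 14658697758) (nat_lit 68) (nat_lit 5) (nat_lit 72) (nat_lit 5) (nat_lit 69) (nat_lit 5) (nat_lit 452) (nat_lit 441) (nat_lit 307))))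 (XT.nd (nat_lit 156) (nat_lit 456) (nat_lit 0) (XT.nd (nat_lit 78) (nat_lit 0) (nat_lit 0) (XT.lf (nat_lit 0) (nat_lit 57811717778) (nat_lit 228) (nat_lit 75153782184) (nat_lit 304) (nat_lit 23621780253) (nat_lit 65) (nat_lit 5) (nat_lit 68) (nat_lit 5) (nat_lit 69) (nat_lit 5) (nat_lit 453) (nat_lit 441) (nat_lit 306)) (XT.lf (nat_lit 0) (nat_lit 153294447069) (nat_lit 228) (nat_lit 9436458681) (nat_lit 304) (nat_lit 1050568813) (nat_lit 65) (nat_lit 5) (nat_lit 68) (nat_lit 5) (nat_lit 69) (nat_lit 5) (nat_lit 454) (nat_lit 441) (nat_lit 305))) (XT.nd (nat_lit 78) (nat_lit 228) (nat_lit 0) (XT.lf (nat_lit 0) (nat_lit 25843397839) (nat_lit 228) (nat_lit 84143152934) (nat_lit 76) (nat_lit 61225058923) (nat_lit 62) (nat_lit 5) (nat_lit 65) (nat_lit 5) (nat_lit 63) (nat_lit 5) (nat_lit 455) (nat_lit 441) (nat_lit 304)) (XT.lf (nat_lit 0) (nat_lit 14243864009) (nat_lit 228) (nat_lit 41469799080)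 (nat_lit 304) (nat_lit 123449786467) (nat_lit 59) (nat_lit 5) (nat_lit 62) (nat_lit 5) (nat_lit 63) (nat_lit 5) (nat_lit 456) (nat_lit 441) (nat_lit 303))))))) (XT.nd (nat_lit 936) (nat_lit 988) (nat_lit 0) (XT.nd (nat_lit 468) (nat_lit 532) (nat_lit 0) (XT.nd (nat_lit 234) (nat_lit 380) (nat_lit 0) (XT.nd (nat_lit 78) (nat_lit 152) (nat_lit 0) (XT.lf (nat_lit 0) (nat_lit 91115935990) (nat_lit 304) (nat_lit 63122725917) (nat_lit 76) (nat_lit 33261383837) (nat_lit 59) (nat_lit 5) (nat_lit 63) (nat_lit 5) (nat_lit 60) (nat_lit 5) (nat_lit 457) (nat_lit 441) (nat_lit 302)) (XT.nd (nat_lit 78) (nat_lit 0) (nat_lit 0) (XT.lf (nat_lit 0) (nat_lit 48148967443) (nat_lit 152) (nat_lit 83436267752) (nat_lit 228) (nat_lit 64739546922) (nat_lit 57) (nat_lit 5) (nat_lit 59) (nat_lit 5) (nat_lit 60) (nat_lit 5) (nat_lit 458) (nat_lit 441) (nat_lit 301)) (XT.lf (nat_lit 0) (nat_lit 171911867586) (nat_lit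 152) (nat_lit 5105832473) (nat_lit 228) (nat_lit 28699747649) (nat_lit 57) (nat_lit 5) (nat_lit 59) (nat_lit 5) (nat_lit 60) (nat_lit 5) (nat_lit 459) (nat_lit 441) (nat_lit 300)))) (XT.nd (nat_lit 78) (nat_lit 152) (nat_lit 0) (XT.lf (nat_lit 0) (nat_lit 13953565994) (nat_lit 228) (nat_lit 123458379509) (nat_lit 76) (nat_lit 78090572512) (nat_lit 54) (nat_lit 5) (nat_lit 57) (nat_lit 5) (nat_lit 55) (nat_lit 5) (nat_lit 460) (nat_lit 441) (nat_lit 299)) (XT.nd (nat_lit 78) (nat_lit 0) (nat_lit 0) (XT.lf (nat_lit 0) (nat_lit 3142707008) (nat_lit 152) (nat_lit 56482174895) (nat_lit 228) (nat_lit 166293374720) (nat_lit 52) (nat_lit 5) (nat_lit 54) (nat_lit 5) (nat_lit 55) (nat_lit 5) (nat_lit 461) (nat_lit 441) (nat_lit 298)) (XT.lf (nat_lit 0) (nat_lit 113156587397) (nat_lit 228) (nat_lit 90835866148) (nat_lit 76) (nat_lit 32838266063) (nat_lit 52) (nat_lit 5) (nat_lit 55) (nat_lit 5) (nat_lit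 53) (nat_lit 5) (nat_lit 462) (nat_lit 441) (nat_lit 297))))) (XT.nd (nat_lit 234) (nat_lit 228) (nat_lit 0) (XT.nd (nat_lit 78) (nat_lit 152) (nat_lit 0) (XT.lf (nat_lit 0) (nat_lit 52834575760) (nat_lit 152) (nat_lit 120873775462) (nat_lit 228) (nat_lit 74688826691) (nat_lit 50) (nat_lit 5) (nat_lit 52) (nat_lit 5) (nat_lit 53) (nat_lit 5) (nat_lit 463) (nat_lit 441) (nat_lit 296)) (XT.nd (nat_lit 78) (nat_lit 152) (nat_lit 0) (XT.lf (nat_lit 0) (nat_lit 213164231764) (nat_lit 152) (nat_lit 28423425750) (nat_lit 228) (nat_lit 19102623286) (nat_lit 50) (nat_lit 5) (nat_lit 52) (nat_lit 5) (nat_lit 53) (nat_lit 5) (nat_lit 464) (nat_lit 441) (nat_lit 295)) (XT.lf (nat_lit 0) (nat_lit 43518749851) (nat_lit 152) (nat_lit 158245856630) (nat_lit 76) (nat_lit 71752612615) (nat_lit 48) (nat_lit 5) (nat_lit 50) (nat_lit 5) (nat_lit 49) (nat_lit 5) (nat_lit 465) (nat_lit 441) (nat_lit 294)))) (XT.nd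 (nat_lit 78) (nat_lit 76) (nat_lit 0) (XT.lf (nat_lit 0) (nat_lit 5537546926) (nat_lit 152) (nat_lit 106784698131) (nat_lit 228) (nat_lit 174832017654) (nat_lit 46) (nat_lit 5) (nat_lit 48) (nat_lit 5) (nat_lit 49) (nat_lit 5) (nat_lit 466) (nat_lit 441) (nat_lit 293)) (XT.nd (nat_lit 78) (nat_lit 76) (nat_lit 0) (XT.lf (nat_lit 0) (nat_lit 190967767153) (nat_lit 228) (nat_lit 110124477053) (nat_lit 76) (nat_lit 443005849) (nat_lit 46) (nat_lit 5) (nat_lit 49) (nat_lit 5) (nat_lit 47) (nat_lit 4) (nat_lit 467) (nat_lit 441) (nat_lit 292)) (XT.lf (nat_lit 0) (nat_lit 76121090630) (nat_lit 76) (nat_lit 204388003964) (nat_lit 152) (nat_lit 36189288726) (nat_lit 45) (nat_lit 5) (nat_lit 46) (nat_lit 5) (nat_lit 47) (nat_lit 4) (nat_lit 468) (nat_lit 441) (nat_lit 291)))))) (XT.nd (nat_lit 468) (nat_lit 532) (nat_lit 0) (XT.nd (nat_lit 234) (nat_lit 152) (nat_lit 0) (XT.nd (nat_lit 78) (nat_lit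 228) (nat_lit 0) (XT.lf (nat_lit 0) (nat_lit 45020170048) (nat_lit 152) (nat_lit 50444571156) (nat_lit 76) (nat_lit 237277779934) (nat_lit 44) (nat_lit 5) (nat_lit 46) (nat_lit 5) (nat_lit 45) (nat_lit 5) (nat_lit 469) (nat_lit 441) (nat_lit 290)) (XT.nd (nat_lit 78) (nat_lit 76) (nat_lit 0) (XT.lf (nat_lit 0) (nat_lit 135327640272) (nat_lit 228) (nat_lit 188276404207) (nat_lit 76) (nat_lit 26026433691) (nat_lit 42) (nat_lit 5) (nat_lit 45) (nat_lit 5) (nat_lit 43) (nat_lit 4) (nat_lit 470) (nat_lit 441) (nat_lit 289)) (XT.lf (nat_lit 0) (nat_lit 23885435722) (nat_lit 76) (nat_lit 213443228150) (nat_lit 152) (nat_lit 130183291448) (nat_lit 41) (nat_lit 5) (nat_lit 42) (nat_lit 5) (nat_lit 43) (nat_lit 4) (nat_lit 471) (nat_lit 441) (nat_lit 288)))) (XT.nd (nat_lit 78) (nat_lit 152) (nat_lit 0) (XT.lf (nat_lit 0) (nat_lit 263727387850) (nat_lit 76) (nat_lit 88910035572) (nat_lit 152) (nat_lit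 33774714906) (nat_lit 41) (nat_lit 5) (nat_lit 42) (nat_lit 5) (nat_lit 43) (nat_lit 4) (nat_lit 472) (nat_lit 441) (nat_lit 287)) (XT.nd (nat_lit 78) (nat_lit 0) (nat_lit 0) (XT.lf (nat_lit 0) (nat_lit 70934940058) (nat_lit 152) (nat_lit 287417084655) (nat_lit 76) (nat_lit 48008371461) (nat_lit 39) (nat_lit 5) (nat_lit 41) (nat_lit 5) (nat_lit 40) (nat_lit 4) (nat_lit 473) (nat_lit 441) (nat_lit 286)) (XT.lf (nat_lit 0) (nat_lit 187947406616) (nat_lit 152) (nat_lit 44031366753) (nat_lit 76) (nat_lit 195395499979) (nat_lit 39) (nat_lit 5) (nat_lit 41) (nat_lit 5) (nat_lit 40) (nat_lit 4) (nat_lit 474) (nat_lit 441) (nat_lit 285))))) (XT.nd (nat_lit 234) (nat_lit 304) (nat_lit 0) (XT.nd (nat_lit 78) (nat_lit 152) (nat_lit 0) (XT.lf (nat_lit 0) (nat_lit 230347893223) (nat_lit 76) (nat_lit 89512713764) (nat_lit 152) (nat_lit 129765474798) (nat_lit 38) (nat_lit 5) (nat_lit 39) (nat_lit 5) (nat_lit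 40) (nat_lit 4) (nat_lit 475) (nat_lit 441) (nat_lit 284)) (XT.nd (nat_lit 78) (nat_lit 76) (nat_lit 0) (XT.lf (nat_lit 0) (nat_lit 56886406381) (nat_lit 76) (nat_lit 409591241908) (nat_lit 76) (nat_lit 6848323826) (nat_lit 37) (nat_lit 4) (nat_lit 38) (nat_lit 5) (nat_lit 38) (nat_lit 4) (nat_lit 476) (nat_lit 441) (nat_lit 283)) (XT.lf (nat_lit 0) (nat_lit 128080113518) (nat_lit 152) (nat_lit 136336438185) (nat_lit 76) (nat_lit 233584981724) (nat_lit 36) (nat_lit 5) (nat_lit 38) (nat_lit 5) (nat_lit 37) (nat_lit 4) (nat_lit 477) (nat_lit 441) (nat_lit 282)))) (XT.nd (nat_lit 156) (nat_lit 228) (nat_lit 0) (XT.nd (nat_lit 78) (nat_lit 0) (nat_lit 0) (XT.lf (nat_lit 0) (nat_lit 174737926369) (nat_lit 76) (nat_lit 102897239651) (nat_lit 152) (nat_lit 246665557147) (nat_lit 35) (nat_lit 5) (nat_lit 36) (nat_lit 5) (nat_lit 37) (nat_lit 4) (nat_lit 478) (nat_lit 441) (nat_lit 281)) (XT.lf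 (nat_lit 0) (nat_lit 444699628442) (nat_lit 152) (nat_lit 35771502686) (nat_lit 0) (nat_lit 71789116507) (nat_lit 35) (nat_lit 5) (nat_lit 37) (nat_lit 4) (nat_lit 35) (nat_lit 4) (nat_lit 479) (nat_lit 441) (nat_lit 280))) (XT.nd (nat_lit 78) (nat_lit 76) (nat_lit 0) (XT.lf (nat_lit 0) (nat_lit 51083912351) (nat_lit 152) (nat_lit 266656089071) (nat_lit 76) (nat_lit 263790761418) (nat_lit 33) (nat_lit 5) (nat_lit 35) (nat_lit 5) (nat_lit 34) (nat_lit 4) (nat_lit 480) (nat_lit 441) (nat_lit 279)) (XT.lf (nat_lit 0) (nat_lit 83920885180) (nat_lit 76) (nat_lit 135709700524) (nat_lit 152) (nat_lit 393047099259) (nat_lit 32) (nat_lit 5) (nat_lit 33) (nat_lit 5) (nat_lit 34) (nat_lit 4) (nat_lit 481) (nat_lit 441) (nat_lit 278))))))))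
noncomputable def xc186 : XT := (XT.nd (nat_lit 1950) (nat_lit 684) (nat_lit 0) (XT.nd (nat_lit 936) (nat_lit 684) (nat_lit 0) (XT.nd (nat_lit 468) (nat_lit 380) (nat_lit 0) (XT.nd (nat_lit 234) (nat_lit 228) (nat_lit 0) (XT.nd (nat_lit 78) (nat_lit 152) (nat_lit 0) (XT.lf (nat_lit 0) (nat_lit 410605341565) (nat_lit 152) (nat_lit 169677936811) (nat_lit 0) (nat_lit 65317534591) (nat_lit 32) (nat_lit 5) (nat_lit 34) (nat_lit 4) (nat_lit 32) (nat_lit 4) (nat_lit 482) (nat_lit 441) (nat_lit 277)) (XT.nd (nat_lit 78) (nat_lit 76) (nat_lit 0) (XT.lf (nat_lit 0) (nat_lit 225902672205) (nat_lit 76) (nat_lit 399913193675) (nat_lit 76) (nat_lit 54625302299) (nat_lit 31) (nat_lit 4) (nat_lit 32) (nat_lit 5) (nat_lit 32) (nat_lit 4) (nat_lit 483) (nat_lit 441) (nat_lit 276)) (XT.lf (nat_lit 0) (nat_lit 137922078119) (nat_lit 152) (nat_lit 58410047038) (nat_lit 76) (nat_lit 521086155244) (nat_lit 30)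 (nat_lit 5) (nat_lit 32) (nat_lit 5) (nat_lit 31) (nat_lit 4) (nat_lit 484) (nat_lit 441) (nat_lit 275)))) (XT.nd (nat_lit 78) (nat_lit 152) (nat_lit 0) (XT.lf (nat_lit 0) (nat_lit 353083018965) (nat_lit 152) (nat_lit 369972290035) (nat_lit 0) (nat_lit 33371869070) (nat_lit 29) (nat_lit 5) (nat_lit 31) (nat_lit 4) (nat_lit 29) (nat_lit 4) (nat_lit 485) (nat_lit 441) (nat_lit 274)) (XT.nd (nat_lit 78) (nat_lit 76) (nat_lit 0) (XT.lf (nat_lit 0) (nat_lit 70170848987) (nat_lit 76) (nat_lit 523711552591) (nat_lit 76) (nat_lit 204000340657) (nat_lit 28) (nat_lit 4) (nat_lit 29) (nat_lit 5) (nat_lit 29) (nat_lit 4) (nat_lit 486) (nat_lit 441) (nat_lit 273)) (XT.lf (nat_lit 0) (nat_lit 21104510829) (nat_lit 152) (nat_lit 275813886850) (nat_lit 76) (nat_lit 544884362123) (nat_lit 27) (nat_lit 5) (nat_lit 29) (nat_lit 5) (nat_lit 28) (nat_lit 4) (nat_lit 487) (nat_lit 441) (nat_lit 272))))) (XT.nd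 (nat_lit 234) (nat_lit 228) (nat_lit 0) (XT.nd (nat_lit 78) (nat_lit 76) (nat_lit 0) (XT.lf (nat_lit 0) (nat_lit 217834015114) (nat_lit 76) (nat_lit 40601243384) (nat_lit 152) (nat_lit 629958117453) (nat_lit 26) (nat_lit 5) (nat_lit 27) (nat_lit 5) (nat_lit 28) (nat_lit 4) (nat_lit 488) (nat_lit 441) (nat_lit 271)) (XT.nd (nat_lit 78) (nat_lit 76) (nat_lit 0) (XT.lf (nat_lit 0) (nat_lit 528170622627) (nat_lit 152) (nat_lit 177325591583) (nat_lit 0) (nat_lit 232141574653) (nat_lit 26) (nat_lit 5) (nat_lit 28) (nat_lit 4) (nat_lit 26) (nat_lit 4) (nat_lit 489) (nat_lit 441) (nat_lit 270)) (XT.lf (nat_lit 0) (nat_lit 372969588907) (nat_lit 76) (nat_lit 456539651085) (nat_lit 76) (nat_lit 160510560890) (nat_lit 25) (nat_lit 4) (nat_lit 26) (nat_lit 5) (nat_lit 26) (nat_lit 4) (nat_lit 490) (nat_lit 441) (nat_lit 269)))) (XT.nd (nat_lit 78) (nat_lit 152) (nat_lit 0) (XT.lf (nat_lit 0) (nat_lit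 107916085342) (nat_lit 152) (nat_lit 71563671778) (nat_lit 76) (nat_lit 866506187168) (nat_lit 24) (nat_lit 5) (nat_lit 26) (nat_lit 5) (nat_lit 25) (nat_lit 4) (nat_lit 491) (nat_lit 441) (nat_lit 268)) (XT.nd (nat_lit 78) (nat_lit 76) (nat_lit 0) (XT.lf (nat_lit 0) (nat_lit 405468074948) (nat_lit 152) (nat_lit 567954943904) (nat_lit 0) (nat_lit 131366995792) (nat_lit 23) (nat_lit 5) (nat_lit 25) (nat_lit 4) (nat_lit 23) (nat_lit 4) (nat_lit 492) (nat_lit 441) (nat_lit 267)) (XT.lf (nat_lit 0) (nat_lit 26443764840) (nat_lit 76) (nat_lit 707685669563) (nat_lit 76) (nat_lit 433584559372) (nat_lit 22) (nat_lit 4) (nat_lit 23) (nat_lit 5) (nat_lit 23) (nat_lit 4) (nat_lit 493) (nat_lit 441) (nat_lit 266)))))) (XT.nd (nat_lit 468) (nat_lit 304) (nat_lit 0) (XT.nd (nat_lit 234) (nat_lit 228) (nat_lit 0) (XT.nd (nat_lit 78) (nat_lit 152) (nat_lit 0) (XT.lf (nat_lit 0) (nat_lit 700694324632) (nat_lit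 76) (nat_lit 403918199890) (nat_lit 76) (nat_lit 129817060964) (nat_lit 22) (nat_lit 4) (nat_lit 23) (nat_lit 5) (nat_lit 23) (nat_lit 4) (nat_lit 494) (nat_lit 441) (nat_lit 265)) (XT.nd (nat_lit 78) (nat_lit 0) (nat_lit 0) (XT.lf (nat_lit 0) (nat_lit 123828823109) (nat_lit 76) (nat_lit 67483671430) (nat_lit 152) (nat_lit 1114550251716) (nat_lit 20) (nat_lit 5) (nat_lit 21) (nat_lit 5) (nat_lit 22) (nat_lit 4) (nat_lit 495) (nat_lit 441) (nat_lit 264)) (XT.lf (nat_lit 0) (nat_lit 553206741473) (nat_lit 152) (nat_lit 528357699896) (nat_lit 0) (nat_lit 299409343168) (nat_lit 20) (nat_lit 5) (nat_lit 22) (nat_lit 4) (nat_lit 20) (nat_lit 4) (nat_lit 496) (nat_lit 441) (nat_lit 263)))) (XT.nd (nat_lit 78) (nat_lit 152) (nat_lit 0) (XT.lf (nat_lit 0) (nat_lit 185120127899) (nat_lit 76) (nat_lit 765137302611) (nat_lit 76) (nat_lit 511339883185) (nat_lit 19) (nat_lit 4) (nat_lit 20) (nat_lit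 5) (nat_lit 20) (nat_lit 4) (nat_lit 497) (nat_lit 441) (nat_lit 262)) (XT.nd (nat_lit 78) (nat_lit 152) (nat_lit 0) (XT.lf (nat_lit 0) (nat_lit 985724226531) (nat_lit 76) (nat_lit 407794121870) (nat_lit 76) (nat_lit 153996682887) (nat_lit 19) (nat_lit 4) (nat_lit 20) (nat_lit 5) (nat_lit 20) (nat_lit 4) (nat_lit 498) (nat_lit 441) (nat_lit 261)) (XT.lf (nat_lit 0) (nat_lit 215260554127) (nat_lit 76) (nat_lit 10248105112) (nat_lit 152) (nat_lit 1413937108640) (nat_lit 17) (nat_lit 5) (nat_lit 18) (nat_lit 5) (nat_lit 19) (nat_lit 4) (nat_lit 499) (nat_lit 441) (nat_lit 260))))) (XT.nd (nat_lit 234) (nat_lit 228) (nat_lit 0) (XT.nd (nat_lit 78) (nat_lit 76) (nat_lit 0) (XT.lf (nat_lit 0) (nat_lit 652893278940) (nat_lit 152) (nat_lit 665554979712) (nat_lit 0) (nat_lit 417895617959) (nat_lit 17) (nat_lit 5) (nat_lit 19) (nat_lit 4) (nat_lit 17) (nat_lit 4) (nat_lit 500) (nat_lit 441) (nat_lit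 259)) (XT.nd (nat_lit 78) (nat_lit 0) (nat_lit 0) (XT.lf (nat_lit 0) (nat_lit 161582382711) (nat_lit 76) (nat_lit 957038475734) (nat_lit 76) (nat_lit 722040800379) (nat_lit 16) (nat_lit 4) (nat_lit 17) (nat_lit 5) (nat_lit 17) (nat_lit 4) (nat_lit 501) (nat_lit 441) (nat_lit 258)) (XT.lf (nat_lit 0) (nat_lit 1092741327381) (nat_lit 76) (nat_lit 547062716468) (nat_lit 76) (nat_lit 312065027803) (nat_lit 16) (nat_lit 4) (nat_lit 17) (nat_lit 5) (nat_lit 17) (nat_lit 4) (nat_lit 502) (nat_lit 441) (nat_lit 257)))) (XT.nd (nat_lit 156) (nat_lit 76) (nat_lit 0) (XT.nd (nat_lit 78) (nat_lit 0) (nat_lit 0) (XT.lf (nat_lit 0) (nat_lit 24501943819) (nat_lit 76) (nat_lit 100257500800) (nat_lit 152) (nat_lit 1946915011139) (nat_lit 14) (nat_lit 5) (nat_lit 15) (nat_lit 5) (nat_lit 16) (nat_lit 4) (nat_lit 503) (nat_lit 441) (nat_lit 256)) (XT.lf (nat_lit 0) (nat_lit 612964549251) (nat_lit 152) (nat_lit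 1189413656406) (nat_lit 0) (nat_lit 395374074805) (nat_lit 14) (nat_lit 5) (nat_lit 16) (nat_lit 4) (nat_lit 14) (nat_lit 4) (nat_lit 504) (nat_lit 441) (nat_lit 255))) (XT.nd (nat_lit 78) (nat_lit 76) (nat_lit 0) (XT.lf (nat_lit 0) (nat_lit 1142830106587) (nat_lit 152) (nat_lit 265638278652) (nat_lit 0) (nat_lit 925239622358) (nat_lit 14) (nat_lit 5) (nat_lit 16) (nat_lit 4) (nat_lit 14) (nat_lit 4) (nat_lit 505) (nat_lit 441) (nat_lit 254)) (XT.lf (nat_lit 0) (nat_lit 770586919709) (nat_lit 76) (nat_lit 963030579608) (nat_lit 76) (nat_lit 745440086320) (nat_lit 13) (nat_lit 4) (nat_lit 14) (nat_lit 5) (nat_lit 14) (nat_lit 4) (nat_lit 506) (nat_lit 441) (nat_lit 253))))))) (XT.nd (nat_lit 936) (nat_lit 228) (nat_lit 0) (XT.nd (nat_lit 468) (nat_lit 228) (nat_lit 0) (XT.nd (nat_lit 234) (nat_lit 76) (nat_lit 0) (XT.nd (nat_lit 78) (nat_lit 152) (nat_lit 0) (XT.lf (nat_lit 0) (nat_lit 1904817132223)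 (nat_lit 76) (nat_lit 474113730516) (nat_lit 76) (nat_lit 256523228841) (nat_lit 13) (nat_lit 4) (nat_lit 14) (nat_lit 5) (nat_lit 14) (nat_lit 4) (nat_lit 507) (nat_lit 441) (nat_lit 252)) (XT.nd (nat_lit 78) (nat_lit 0) (nat_lit 0) (XT.lf (nat_lit 0) (nat_lit 267674304878) (nat_lit 152) (nat_lit 2469184085722) (nat_lit 0) (nat_lit 66201610951) (nat_lit 11) (nat_lit 5) (nat_lit 13) (nat_lit 4) (nat_lit 11) (nat_lit 4) (nat_lit 508) (nat_lit 441) (nat_lit 251)) (XT.lf (nat_lit 0) (nat_lit 852759116521) (nat_lit 152) (nat_lit 1476870985181) (nat_lit 0) (nat_lit 651286415935) (nat_lit 11) (nat_lit 5) (nat_lit 13) (nat_lit 4) (nat_lit 11) (nat_lit 4) (nat_lit 509) (nat_lit 441) (nat_lit 250)))) (XT.nd (nat_lit 78) (nat_lit 76) (nat_lit 0) (XT.lf (nat_lit 0) (nat_lit 1484650676193) (nat_lit 152) (nat_lit 405172912329) (nat_lit 0) (nat_lit 1283177969442) (nat_lit 11) (nat_lit 5) (nat_lit 13)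 (nat_lit 4) (nat_lit 11) (nat_lit 4) (nat_lit 510) (nat_lit 441) (nat_lit 249)) (XT.nd (nat_lit 78) (nat_lit 0) (nat_lit 0) (XT.lf (nat_lit 0) (nat_lit 791873664008) (nat_lit 76) (nat_lit 1394264443124) (nat_lit 76) (nat_lit 1192791730664) (nat_lit 10) (nat_lit 4) (nat_lit 11) (nat_lit 5) (nat_lit 11) (nat_lit 4) (nat_lit 511) (nat_lit 441) (nat_lit 248)) (XT.lf (nat_lit 0) (nat_lit 2107726440644) (nat_lit 76) (nat_lit 847096204072) (nat_lit 76) (nat_lit 645623486327) (nat_lit 10) (nat_lit 4) (nat_lit 11) (nat_lit 5) (nat_lit 11) (nat_lit 4) (nat_lit 512) (nat_lit 441) (nat_lit 247))))) (XT.nd (nat_lit 234) (nat_lit 76) (nat_lit 0) (XT.nd (nat_lit 78) (nat_lit 152) (nat_lit 0) (XT.lf (nat_lit 0) (nat_lit 3528847376126) (nat_lit 76) (nat_lit 256154538364) (nat_lit 76) (nat_lit 54681815725) (nat_lit 10) (nat_lit 4) (nat_lit 11) (nat_lit 5) (nat_lit 11) (nat_lit 4) (nat_lit 513) (nat_lit 441)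 (nat_lit 246)) (XT.nd (nat_lit 78) (nat_lit 0) (nat_lit 0) (XT.lf (nat_lit 0) (nat_lit 588613433268) (nat_lit 152) (nat_lit 3103518046357) (nat_lit 0) (nat_lit 402064611814) (nat_lit 8) (nat_lit 5) (nat_lit 10) (nat_lit 4) (nat_lit 8) (nat_lit 4) (nat_lit 514) (nat_lit 441) (nat_lit 245)) (XT.lf (nat_lit 0) (nat_lit 1295790964475) (nat_lit 152) (nat_lit 1962692881346) (nat_lit 0) (nat_lit 1109242139136) (nat_lit 8) (nat_lit 5) (nat_lit 10) (nat_lit 4) (nat_lit 8) (nat_lit 4) (nat_lit 515) (nat_lit 441) (nat_lit 244)))) (XT.nd (nat_lit 78) (nat_lit 76) (nat_lit 0) (XT.lf (nat_lit 0) (nat_lit 2059542671104) (nat_lit 152) (nat_lit 730601758851) (nat_lit 0) (nat_lit 1872993842167) (nat_lit 8) (nat_lit 5) (nat_lit 10) (nat_lit 4) (nat_lit 8) (nat_lit 4) (nat_lit 516) (nat_lit 441) (nat_lit 243)) (XT.nd (nat_lit 78) (nat_lit 0) (nat_lit 0) (XT.lf (nat_lit 0) (nat_lit 631654519116) (nat_lit 76)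 (nat_lit 2267931276454) (nat_lit 76) (nat_lit 2081382444187) (nat_lit 7) (nat_lit 4) (nat_lit 8) (nat_lit 5) (nat_lit 8) (nat_lit 4) (nat_lit 517) (nat_lit 441) (nat_lit 242)) (XT.lf (nat_lit 0) (nat_lit 2144441218432) (nat_lit 76) (nat_lit 1682367073965) (nat_lit 76) (nat_lit 1495818238613) (nat_lit 7) (nat_lit 4) (nat_lit 8) (nat_lit 5) (nat_lit 8) (nat_lit 4) (nat_lit 518) (nat_lit 441) (nat_lit 241)))))) (XT.nd (nat_lit 468) (nat_lit 76) (nat_lit 0) (XT.nd (nat_lit 234) (nat_lit 0) (nat_lit 0) (XT.nd (nat_lit 78) (nat_lit 152) (nat_lit 0) (XT.lf (nat_lit 0) (nat_lit 3778250807135) (nat_lit 76) (nat_lit 1049957759222) (nat_lit 76) (nat_lit 863408921015) (nat_lit 7) (nat_lit 4) (nat_lit 8) (nat_lit 5) (nat_lit 8) (nat_lit 4) (nat_lit 519) (nat_lit 441) (nat_lit 240)) (XT.nd (nat_lit 78) (nat_lit 152) (nat_lit 0) (XT.lf (nat_lit 0) (nat_lit 5542765119825) (nat_lit 76) (nat_lit 366955721473)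 (nat_lit 76) (nat_lit 180406880621) (nat_lit 7) (nat_lit 4) (nat_lit 8) (nat_lit 5) (nat_lit 8) (nat_lit 4) (nat_lit 520) (nat_lit 441) (nat_lit 239)) (XT.lf (nat_lit 0) (nat_lit 562377017605) (nat_lit 152) (nat_lit 5564781679666) (nat_lit 0) (nat_lit 389646607142) (nat_lit 5) (nat_lit 5) (nat_lit 7) (nat_lit 4) (nat_lit 5) (nat_lit 4) (nat_lit 521) (nat_lit 441) (nat_lit 238)))) (XT.nd (nat_lit 78) (nat_lit 0) (nat_lit 0) (XT.lf (nat_lit 0) (nat_lit 1379722855094) (nat_lit 152) (nat_lit 4388536053655) (nat_lit 0) (nat_lit 1206992442532) (nat_lit 5) (nat_lit 5) (nat_lit 7) (nat_lit 4) (nat_lit 5) (nat_lit 4) (nat_lit 522) (nat_lit 441) (nat_lit 237)) (XT.nd (nat_lit 78) (nat_lit 0) (nat_lit 0) (XT.lf (nat_lit 0) (nat_lit 2262456341182) (nat_lit 152) (nat_lit 3118190815510) (nat_lit 0) (nat_lit 2089725926676) (nat_lit 5) (nat_lit 5) (nat_lit 7) (nat_lit 4) (nat_lit 5) (nat_lit 4) (nat_lit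 523) (nat_lit 441) (nat_lit 236)) (XT.lf (nat_lit 0) (nat_lit 3215808489120) (nat_lit 152) (nat_lit 1746217993450) (nat_lit 0) (nat_lit 3043078072816) (nat_lit 5) (nat_lit 5) (nat_lit 7) (nat_lit 4) (nat_lit 5) (nat_lit 4) (nat_lit 524) (nat_lit 441) (nat_lit 235))))) (XT.nd (nat_lit 234) (nat_lit 0) (nat_lit 0) (XT.nd (nat_lit 78) (nat_lit 76) (nat_lit 0) (XT.lf (nat_lit 0) (nat_lit 4245428793120) (nat_lit 152) (nat_lit 264487378158) (nat_lit 0) (nat_lit 4072698375149) (nat_lit 5) (nat_lit 5) (nat_lit 7) (nat_lit 4) (nat_lit 5) (nat_lit 4) (nat_lit 525) (nat_lit 441) (nat_lit 234)) (XT.nd (nat_lit 78) (nat_lit 0) (nat_lit 0) (XT.lf (nat_lit 0) (nat_lit 1406121551041) (nat_lit 76) (nat_lit 3985114412912) (nat_lit 76) (nat_lit 3812383993398) (nat_lit 4) (nat_lit 4) (nat_lit 5) (nat_lit 5) (nat_lit 5) (nat_lit 4) (nat_lit 526) (nat_lit 441) (nat_lit 233)) (XT.lf (nat_lit 0) (nat_lit 3225420796767)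 (nat_lit 76) (nat_lit 3410518451085) (nat_lit 76) (nat_lit 3237788030143) (nat_lit 4) (nat_lit 4) (nat_lit 5) (nat_lit 5) (nat_lit 5) (nat_lit 4) (nat_lit 527) (nat_lit 441) (nat_lit 232)))) (XT.nd (nat_lit 156) (nat_lit 0) (nat_lit 0) (XT.nd (nat_lit 78) (nat_lit 0) (nat_lit 0) (XT.lf (nat_lit 0) (nat_lit 5190263954966) (nat_lit 76) (nat_lit 2789954826323) (nat_lit 76) (nat_lit 2617224404058) (nat_lit 4) (nat_lit 4) (nat_lit 5) (nat_lit 5) (nat_lit 5) (nat_lit 4) (nat_lit 528) (nat_lit 441) (nat_lit 231)) (XT.lf (nat_lit 0) (nat_lit 7312294540648) (nat_lit 76) (nat_lit 2119746124552) (nat_lit 76) (nat_lit 1947015701062) (nat_lit 4) (nat_lit 4) (nat_lit 5) (nat_lit 5) (nat_lit 5) (nat_lit 4) (nat_lit 529) (nat_lit 441) (nat_lit 230))) (XT.nd (nat_lit 55614) (nat_lit 0) (nat_lit 5852) (XT.lf (nat_lit 0) (nat_lit 9604087549877) (nat_lit 76) (nat_lit 1395920738651) (nat_lit 76) (nat_lit 1223190314027)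 (nat_lit 4) (nat_lit 4) (nat_lit 5) (nat_lit 5) (nat_lit 5) (nat_lit 4) (nat_lit 530) (nat_lit 441) (nat_lit 229)) (XT.lf (nat_lit 0) (nat_lit 49846837395) (nat_lit 532) (nat_lit 803183379) (nat_lit 532) (nat_lit 803183379) (nat_lit 81) (nat_lit 3) (nat_lit 88) (nat_lit 3) (nat_lit 88) (nat_lit 5) (nat_lit 442) (nat_lit 442) (nat_lit 316))))))))
noncomputable def xc187 : XT := (XT.nd (nat_lit 1950) (nat_lit 1672) (nat_lit 0) (XT.nd (nat_lit 936) (nat_lit 1444) (nat_lit 0) (XT.nd (nat_lit 468) (nat_lit 760) (nat_lit 0) (XT.nd (nat_lit 234) (nat_lit 0) (nat_lit 0) (XT.nd (nat_lit 78) (nat_lit 456) (nat_lit 0) (XT.lf (nat_lit 76) (nat_lit 52038727101) (nat_lit 0) (nat_lit 52900054044) (nat_lit 532) (nat_lit 1983293187) (nat_lit 82) (nat_lit 5) (nat_lit 81) (nat_lit 3) (nat_lit 88) (nat_lit 5) (nat_lit 443) (nat_lit 442) (nat_lit 315)) (XT.nd (nat_lit 78) (nat_lit 456) (nat_lit 0) (XT.lf (nat_lit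 76) (nat_lit 110066452518) (nat_lit 0) (nat_lit 580373481) (nat_lit 532) (nat_lit 608701398) (nat_lit 82) (nat_lit 5) (nat_lit 81) (nat_lit 3) (nat_lit 88) (nat_lit 5) (nat_lit 444) (nat_lit 442) (nat_lit 314)) (XT.lf (nat_lit 0) (nat_lit 3651817571) (nat_lit 532) (nat_lit 57432666576) (nat_lit 608) (nat_lit 54623905638) (nat_lit 75) (nat_lit 5) (nat_lit 82) (nat_lit 5) (nat_lit 83) (nat_lit 5) (nat_lit 445) (nat_lit 442) (nat_lit 313)))) (XT.nd (nat_lit 78) (nat_lit 0) (nat_lit 76) (XT.lf (nat_lit 76) (nat_lit 2124626303) (nat_lit 0) (nat_lit 6194670889) (nat_lit 608) (nat_lit 112188998875) (nat_lit 76) (nat_lit 5) (nat_lit 75) (nat_lit 5) (nat_lit 83) (nat_lit 5) (nat_lit 446) (nat_lit 442) (nat_lit 312)) (XT.nd (nat_lit 78) (nat_lit 0) (nat_lit 0) (XT.lf (nat_lit 0) (nat_lit 16247510826) (nat_lit 532) (nat_lit 57171743832) (nat_lit 608) (nat_lit 52041953458) (nat_lit 76) (nat_lit 5)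 (nat_lit 83) (nat_lit 5) (nat_lit 84) (nat_lit 5) (nat_lit 447) (nat_lit 442) (nat_lit 311)) (XT.lf (nat_lit 76) (nat_lit 9237978633) (nat_lit 0) (nat_lit 15954623374) (nat_lit 608) (nat_lit 105587141591) (nat_lit 77) (nat_lit 5) (nat_lit 76) (nat_lit 5) (nat_lit 84) (nat_lit 5) (nat_lit 448) (nat_lit 442) (nat_lit 310))))) (XT.nd (nat_lit 234) (nat_lit 456) (nat_lit 0) (XT.nd (nat_lit 78) (nat_lit 456) (nat_lit 0) (XT.lf (nat_lit 0) (nat_lit 37565530525) (nat_lit 532) (nat_lit 53336706293) (nat_lit 76) (nat_lit 45404546796) (nat_lit 77) (nat_lit 5) (nat_lit 84) (nat_lit 5) (nat_lit 78) (nat_lit 5) (nat_lit 449) (nat_lit 442) (nat_lit 309)) (XT.nd (nat_lit 78) (nat_lit 0) (nat_lit 0) (XT.lf (nat_lit 0) (nat_lit 20958400923) (nat_lit 456) (nat_lit 30887952418) (nat_lit 532) (nat_lit 90356188779) (nat_lit 71) (nat_lit 5) (nat_lit 77) (nat_lit 5) (nat_lit 78) (nat_lit 5) (nat_lit 450) (nat_lit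 442) (nat_lit 308)) (XT.lf (nat_lit 0) (nat_lit 69581422042) (nat_lit 532) (nat_lit 45077103583) (nat_lit 76) (nat_lit 33726493361) (nat_lit 71) (nat_lit 5) (nat_lit 78) (nat_lit 5) (nat_lit 72) (nat_lit 5) (nat_lit 451) (nat_lit 442) (nat_lit 307)))) (XT.nd (nat_lit 78) (nat_lit 228) (nat_lit 0) (XT.lf (nat_lit 0) (nat_lit 38296386898) (nat_lit 228) (nat_lit 52161875586) (nat_lit 304) (nat_lit 64465994295) (nat_lit 68) (nat_lit 5) (nat_lit 71) (nat_lit 5) (nat_lit 72) (nat_lit 5) (nat_lit 452) (nat_lit 442) (nat_lit 306)) (XT.nd (nat_lit 78) (nat_lit 228) (nat_lit 0) (XT.lf (nat_lit 0) (nat_lit 114638215224) (nat_lit 304) (nat_lit 31385893657) (nat_lit 76) (nat_lit 15831887583) (nat_lit 68) (nat_lit 5) (nat_lit 72) (nat_lit 5) (nat_lit 69) (nat_lit 5) (nat_lit 453) (nat_lit 442) (nat_lit 305)) (XT.lf (nat_lit 0) (nat_lit 62443930804) (nat_lit 228) (nat_lit 81164959071) (nat_lit 304) (nat_lit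 25504879460) (nat_lit 65) (nat_lit 5) (nat_lit 68) (nat_lit 5) (nat_lit 69) (nat_lit 5) (nat_lit 454) (nat_lit 442) (nat_lit 304)))))) (XT.nd (nat_lit 468) (nat_lit 836) (nat_lit 0) (XT.nd (nat_lit 234) (nat_lit 152) (nat_lit 0) (XT.nd (nat_lit 78) (nat_lit 456) (nat_lit 0) (XT.lf (nat_lit 0) (nat_lit 165564739505) (nat_lit 228) (nat_lit 10190333072) (nat_lit 304) (nat_lit 1128463195) (nat_lit 65) (nat_lit 5) (nat_lit 68) (nat_lit 5) (nat_lit 69) (nat_lit 5) (nat_lit 455) (nat_lit 442) (nat_lit 303)) (XT.nd (nat_lit 78) (nat_lit 228) (nat_lit 0) (XT.lf (nat_lit 0) (nat_lit 27916476452) (nat_lit 228) (nat_lit 90867322008) (nat_lit 76) (nat_lit 66124290434) (nat_lit 62) (nat_lit 5) (nat_lit 65) (nat_lit 5) (nat_lit 63) (nat_lit 5) (nat_lit 456) (nat_lit 442) (nat_lit 302)) (XT.lf (nat_lit 0) (nat_lit 15390471908) (nat_lit 228) (nat_lit 44785646423) (nat_lit 304) (nat_lit 133319977256) (nat_lit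 59) (nat_lit 5) (nat_lit 62) (nat_lit 5) (nat_lit 63) (nat_lit 5) (nat_lit 457) (nat_lit 442) (nat_lit 301)))) (XT.nd (nat_lit 78) (nat_lit 152) (nat_lit 0) (XT.lf (nat_lit 0) (nat_lit 98410214535) (nat_lit 304) (nat_lit 68165611633) (nat_lit 76) (nat_lit 35923822055) (nat_lit 59) (nat_lit 5) (nat_lit 63) (nat_lit 5) (nat_lit 60) (nat_lit 5) (nat_lit 458) (nat_lit 442) (nat_lit 300)) (XT.nd (nat_lit 78) (nat_lit 0) (nat_lit 0) (XT.lf (nat_lit 0) (nat_lit 52007641694) (nat_lit 152) (nat_lit 90109207843) (nat_lit 228) (nat_lit 69913530685) (nat_lit 57) (nat_lit 5) (nat_lit 59) (nat_lit 5) (nat_lit 60) (nat_lit 5) (nat_lit 459) (nat_lit 442) (nat_lit 299)) (XT.lf (nat_lit 0) (nat_lit 185671073341) (nat_lit 152) (nat_lit 5512483026) (nat_lit 228) (nat_lit 30990931173) (nat_lit 57) (nat_lit 5) (nat_lit 59) (nat_lit 5) (nat_lit 60) (nat_lit 5) (nat_lit 460) (nat_lit 442) (nat_lit 298))))) (XT.nd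 (nat_lit 234) (nat_lit 456) (nat_lit 0) (XT.nd (nat_lit 78) (nat_lit 152) (nat_lit 0) (XT.lf (nat_lit 0) (nat_lit 15074269591) (nat_lit 228) (nat_lit 133328414195) (nat_lit 76) (nat_lit 84339681553) (nat_lit 54) (nat_lit 5) (nat_lit 57) (nat_lit 5) (nat_lit 55) (nat_lit 5) (nat_lit 461) (nat_lit 442) (nat_lit 297)) (XT.nd (nat_lit 78) (nat_lit 0) (nat_lit 0) (XT.lf (nat_lit 0) (nat_lit 3400591251) (nat_lit 152) (nat_lit 60998527787) (nat_lit 228) (nat_lit 179592257784) (nat_lit 52) (nat_lit 5) (nat_lit 54) (nat_lit 5) (nat_lit 55) (nat_lit 5) (nat_lit 462) (nat_lit 442) (nat_lit 296)) (XT.lf (nat_lit 0) (nat_lit 122213095871) (nat_lit 228) (nat_lit 98096481184) (nat_lit 76) (nat_lit 35467281044) (nat_lit 52) (nat_lit 5) (nat_lit 55) (nat_lit 5) (nat_lit 53) (nat_lit 5) (nat_lit 463) (nat_lit 442) (nat_lit 295)))) (XT.nd (nat_lit 156) (nat_lit 304) (nat_lit 0) (XT.nd (nat_lit 78) (nat_lit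 0) (nat_lit 0) (XT.lf (nat_lit 0) (nat_lit 57067437741) (nat_lit 152) (nat_lit 130541414742) (nat_lit 228) (nat_lit 80659792491) (nat_lit 50) (nat_lit 5) (nat_lit 52) (nat_lit 5) (nat_lit 53) (nat_lit 5) (nat_lit 464) (nat_lit 442) (nat_lit 294)) (XT.lf (nat_lit 0) (nat_lit 230223014675) (nat_lit 152) (nat_lit 30695204666) (nat_lit 228) (nat_lit 20626999505) (nat_lit 50) (nat_lit 5) (nat_lit 52) (nat_lit 5) (nat_lit 53) (nat_lit 5) (nat_lit 465) (nat_lit 442) (nat_lit 293))) (XT.nd (nat_lit 78) (nat_lit 152) (nat_lit 0) (XT.lf (nat_lit 0) (nat_lit 47003811183) (nat_lit 152) (nat_lit 170899607635) (nat_lit 76) (nat_lit 77494892486) (nat_lit 48) (nat_lit 5) (nat_lit 50) (nat_lit 5) (nat_lit 49) (nat_lit 5) (nat_lit 466) (nat_lit 442) (nat_lit 292)) (XT.lf (nat_lit 0) (nat_lit 5986318395) (nat_lit 152) (nat_lit 115325142522) (nat_lit 228) (nat_lit 188814867530) (nat_lit 46) (nat_lit 5) (nat_lit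 48) (nat_lit 5) (nat_lit 49) (nat_lit 5) (nat_lit 467) (nat_lit 442) (nat_lit 291))))))) (XT.nd (nat_lit 936) (nat_lit 836) (nat_lit 0) (XT.nd (nat_lit 468) (nat_lit 456) (nat_lit 0) (XT.nd (nat_lit 234) (nat_lit 228) (nat_lit 0) (XT.nd (nat_lit 78) (nat_lit 152) (nat_lit 0) (XT.lf (nat_lit 0) (nat_lit 206248422161) (nat_lit 228) (nat_lit 118928891769) (nat_lit 76) (nat_lit 480497086) (nat_lit 46) (nat_lit 5) (nat_lit 49) (nat_lit 5) (nat_lit 47) (nat_lit 4) (nat_lit 468) (nat_lit 442) (nat_lit 290)) (XT.nd (nat_lit 78) (nat_lit 76) (nat_lit 0) (XT.lf (nat_lit 0) (nat_lit 82216180987) (nat_lit 76) (nat_lit 220736765226) (nat_lit 152) (nat_lit 39081057521) (nat_lit 45) (nat_lit 5) (nat_lit 46) (nat_lit 5) (nat_lit 47) (nat_lit 4) (nat_lit 469) (nat_lit 442) (nat_lit 289)) (XT.lf (nat_lit 0) (nat_lit 48624751713) (nat_lit 152) (nat_lit 54474977399) (nat_lit 76) (nat_lit 256261955993) (nat_lit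 44) (nat_lit 5) (nat_lit 46) (nat_lit 5) (nat_lit 45) (nat_lit 5) (nat_lit 470) (nat_lit 442) (nat_lit 288)))) (XT.nd (nat_lit 78) (nat_lit 76) (nat_lit 0) (XT.lf (nat_lit 0) (nat_lit 146156772583) (nat_lit 228) (nat_lit 203333309863) (nat_lit 76) (nat_lit 28110600033) (nat_lit 42) (nat_lit 5) (nat_lit 45) (nat_lit 5) (nat_lit 43) (nat_lit 4) (nat_lit 471) (nat_lit 442) (nat_lit 287)) (XT.nd (nat_lit 78) (nat_lit 0) (nat_lit 0) (XT.lf (nat_lit 0) (nat_lit 25801345446) (nat_lit 76) (nat_lit 230516438297) (nat_lit 152) (nat_lit 140594901621) (nat_lit 41) (nat_lit 5) (nat_lit 42) (nat_lit 5) (nat_lit 43) (nat_lit 4) (nat_lit 472) (nat_lit 442) (nat_lit 286)) (XT.lf (nat_lit 0) (nat_lit 284830277828) (nat_lit 76) (nat_lit 96020756840) (nat_lit 152) (nat_lit 36473865114) (nat_lit 41) (nat_lit 5) (nat_lit 42) (nat_lit 5) (nat_lit 43) (nat_lit 4) (nat_lit 473) (nat_lit 442) (nat_lit 285))))) (XT.nd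 (nat_lit 234) (nat_lit 228) (nat_lit 0) (XT.nd (nat_lit 78) (nat_lit 76) (nat_lit 0) (XT.lf (nat_lit 0) (nat_lit 76612386304) (nat_lit 152) (nat_lit 310405576137) (nat_lit 76) (nat_lit 51851053154) (nat_lit 39) (nat_lit 5) (nat_lit 41) (nat_lit 5) (nat_lit 40) (nat_lit 4) (nat_lit 474) (nat_lit 442) (nat_lit 284)) (XT.nd (nat_lit 78) (nat_lit 76) (nat_lit 0) (XT.lf (nat_lit 0) (nat_lit 202985653813) (nat_lit 152) (nat_lit 47549361935) (nat_lit 76) (nat_lit 211029002917) (nat_lit 39) (nat_lit 5) (nat_lit 41) (nat_lit 5) (nat_lit 40) (nat_lit 4) (nat_lit 475) (nat_lit 442) (nat_lit 283)) (XT.lf (nat_lit 0) (nat_lit 248780124556) (nat_lit 76) (nat_lit 96671709647) (nat_lit 152) (nat_lit 140144143668) (nat_lit 38) (nat_lit 5) (nat_lit 39) (nat_lit 5) (nat_lit 40) (nat_lit 4) (nat_lit 476) (nat_lit 442) (nat_lit 282)))) (XT.nd (nat_lit 78) (nat_lit 152) (nat_lit 0) (XT.lf (nat_lit 0) (nat_lit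 61441745632) (nat_lit 76) (nat_lit 442356468453) (nat_lit 76) (nat_lit 7393647332) (nat_lit 37) (nat_lit 4) (nat_lit 38) (nat_lit 5) (nat_lit 38) (nat_lit 4) (nat_lit 477) (nat_lit 442) (nat_lit 281)) (XT.nd (nat_lit 78) (nat_lit 76) (nat_lit 0) (XT.lf (nat_lit 0) (nat_lit 138328758913) (nat_lit 152) (nat_lit 147239136516) (nat_lit 76) (nat_lit 252273581638) (nat_lit 36) (nat_lit 5) (nat_lit 38) (nat_lit 5) (nat_lit 37) (nat_lit 4) (nat_lit 478) (nat_lit 442) (nat_lit 280)) (XT.lf (nat_lit 0) (nat_lit 188721070450) (nat_lit 76) (nat_lit 111127078357) (nat_lit 152) (nat_lit 266396458533) (nat_lit 35) (nat_lit 5) (nat_lit 36) (nat_lit 5) (nat_lit 37) (nat_lit 4) (nat_lit 479) (nat_lit 442) (nat_lit 279)))))) (XT.nd (nat_lit 468) (nat_lit 456) (nat_lit 0) (XT.nd (nat_lit 234) (nat_lit 152) (nat_lit 0) (XT.nd (nat_lit 78) (nat_lit 228) (nat_lit 0) (XT.lf (nat_lit 0) (nat_lit 480277650730) (nat_lit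 152) (nat_lit 38629299769) (nat_lit 0) (nat_lit 77533952675) (nat_lit 35) (nat_lit 5) (nat_lit 37) (nat_lit 4) (nat_lit 35) (nat_lit 4) (nat_lit 480) (nat_lit 442) (nat_lit 278)) (XT.nd (nat_lit 78) (nat_lit 76) (nat_lit 0) (XT.lf (nat_lit 0) (nat_lit 55172669151) (nat_lit 152) (nat_lit 287984644665) (nat_lit 76) (nat_lit 284895746451) (nat_lit 33) (nat_lit 5) (nat_lit 35) (nat_lit 5) (nat_lit 34) (nat_lit 4) (nat_lit 481) (nat_lit 442) (nat_lit 277)) (XT.lf (nat_lit 0) (nat_lit 90638387993) (nat_lit 76) (nat_lit 146564629145) (nat_lit 152) (nat_lit 424488723767) (nat_lit 32) (nat_lit 5) (nat_lit 33) (nat_lit 5) (nat_lit 34) (nat_lit 4) (nat_lit 482) (nat_lit 442) (nat_lit 276)))) (XT.nd (nat_lit 78) (nat_lit 152) (nat_lit 0) (XT.lf (nat_lit 0) (nat_lit 443455647602) (nat_lit 152) (nat_lit 183248517661) (nat_lit 0) (nat_lit 70544562364) (nat_lit 32) (nat_lit 5) (nat_lit 34) (nat_lit 4)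 (nat_lit 32) (nat_lit 4) (nat_lit 483) (nat_lit 442) (nat_lit 275)) (XT.nd (nat_lit 78) (nat_lit 76) (nat_lit 0) (XT.lf (nat_lit 0) (nat_lit 243978447568) (nat_lit 76) (nat_lit 431904512786) (nat_lit 76) (nat_lit 58993355187) (nat_lit 31) (nat_lit 4) (nat_lit 32) (nat_lit 5) (nat_lit 32) (nat_lit 4) (nat_lit 484) (nat_lit 442) (nat_lit 274)) (XT.lf (nat_lit 0) (nat_lit 148957578335) (nat_lit 152) (nat_lit 63079461663) (nat_lit 76) (nat_lit 562774564053) (nat_lit 30) (nat_lit 5) (nat_lit 32) (nat_lit 5) (nat_lit 31) (nat_lit 4) (nat_lit 485) (nat_lit 442) (nat_lit 273))))) (XT.nd (nat_lit 234) (nat_lit 228) (nat_lit 0) (XT.nd (nat_lit 78) (nat_lit 152) (nat_lit 0) (XT.lf (nat_lit 0) (nat_lit 381331384374) (nat_lit 152) (nat_lit 399566673965) (nat_lit 0) (nat_lit 36043156005) (nat_lit 29) (nat_lit 5) (nat_lit 31) (nat_lit 4) (nat_lit 29) (nat_lit 4) (nat_lit 486) (nat_lit 442) (nat_lit 272))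 (XT.nd (nat_lit 78) (nat_lit 76) (nat_lit 0) (XT.lf (nat_lit 0) (nat_lit 75787830121) (nat_lit 76) (nat_lit 565606839462) (nat_lit 76) (nat_lit 220318557905) (nat_lit 28) (nat_lit 4) (nat_lit 29) (nat_lit 5) (nat_lit 29) (nat_lit 4) (nat_lit 487) (nat_lit 442) (nat_lit 271)) (XT.lf (nat_lit 0) (nat_lit 22794463789) (nat_lit 152) (nat_lit 297875846121) (nat_lit 76) (nat_lit 588476543261) (nat_lit 27) (nat_lit 5) (nat_lit 29) (nat_lit 5) (nat_lit 28) (nat_lit 4) (nat_lit 488) (nat_lit 442) (nat_lit 270)))) (XT.nd (nat_lit 156) (nat_lit 152) (nat_lit 0) (XT.nd (nat_lit 78) (nat_lit 0) (nat_lit 0) (XT.lf (nat_lit 0) (nat_lit 235263808210) (nat_lit 76) (nat_lit 43847819007) (nat_lit 152) (nat_lit 680353094923) (nat_lit 26) (nat_lit 5) (nat_lit 27) (nat_lit 5) (nat_lit 28) (nat_lit 4) (nat_lit 489) (nat_lit 442) (nat_lit 269)) (XT.lf (nat_lit 0) (nat_lit 570425739741) (nat_lit 152) (nat_lit 191508713793)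 (nat_lit 0) (nat_lit 250714241013) (nat_lit 26) (nat_lit 5) (nat_lit 28) (nat_lit 4) (nat_lit 26) (nat_lit 4) (nat_lit 490) (nat_lit 442) (nat_lit 268))) (XT.nd (nat_lit 78) (nat_lit 76) (nat_lit 0) (XT.lf (nat_lit 0) (nat_lit 402810007082) (nat_lit 76) (nat_lit 493061399292) (nat_lit 76) (nat_lit 173349864366) (nat_lit 25) (nat_lit 4) (nat_lit 26) (nat_lit 5) (nat_lit 26) (nat_lit 4) (nat_lit 491) (nat_lit 442) (nat_lit 267)) (XT.lf (nat_lit 0) (nat_lit 116550727992) (nat_lit 152) (nat_lit 77286054219) (nat_lit 76) (nat_lit 935827929121) (nat_lit 24) (nat_lit 5) (nat_lit 26) (nat_lit 5) (nat_lit 25) (nat_lit 4) (nat_lit 492) (nat_lit 442) (nat_lit 266))))))))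
noncomputable def xc188 : XT := (XT.nd (nat_lit 1950) (nat_lit 304) (nat_lit 0) (XT.nd (nat_lit 936) (nat_lit 456) (nat_lit 0) (XT.nd (nat_lit 468) (nat_lit 380) (nat_lit 0) (XT.nd (nat_lit 234) (nat_lit 228) (nat_lit 0) (XT.nd (nat_lit 78) (nat_lit 76) (nat_lit 0) (XT.lf (nat_lit 0) (nat_lit 437906871727) (nat_lit 152) (nat_lit 613388623045) (nat_lit 0) (nat_lit 141877612950) (nat_lit 23) (nat_lit 5) (nat_lit 25) (nat_lit 4) (nat_lit 23) (nat_lit 4) (nat_lit 493) (nat_lit 442) (nat_lit 265)) (XT.nd (nat_lit 78) (nat_lit 0) (nat_lit 0) (XT.lf (nat_lit 0) (nat_lit 28561913629) (nat_lit 76) (nat_lit 764299189925) (nat_lit 76) (nat_lit 468269904542) (nat_lit 22) (nat_lit 4) (nat_lit 23) (nat_lit 5) (nat_lit 23) (nat_lit 4) (nat_lit 494) (nat_lit 442) (nat_lit 264)) (XT.lf (nat_lit 0) (nat_lit 756752322086) (nat_lit 76) (nat_lit 436230421435) (nat_lit 76) (nat_lit 140201111416) (nat_lit 22)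 (nat_lit 4) (nat_lit 23) (nat_lit 5) (nat_lit 23) (nat_lit 4) (nat_lit 495) (nat_lit 442) (nat_lit 263)))) (XT.nd (nat_lit 78) (nat_lit 76) (nat_lit 0) (XT.lf (nat_lit 0) (nat_lit 133737582490) (nat_lit 76) (nat_lit 72881126798) (nat_lit 152) (nat_lit 1203712959430) (nat_lit 20) (nat_lit 5) (nat_lit 21) (nat_lit 5) (nat_lit 22) (nat_lit 4) (nat_lit 496) (nat_lit 442) (nat_lit 262)) (XT.nd (nat_lit 78) (nat_lit 76) (nat_lit 0) (XT.lf (nat_lit 0) (nat_lit 597464433539) (nat_lit 152) (nat_lit 570623981641) (nat_lit 0) (nat_lit 323363179880) (nat_lit 20) (nat_lit 5) (nat_lit 22) (nat_lit 4) (nat_lit 20) (nat_lit 4) (nat_lit 497) (nat_lit 442) (nat_lit 261)) (XT.lf (nat_lit 0) (nat_lit 199932013283) (nat_lit 76) (nat_lit 826347133745) (nat_lit 76) (nat_lit 552245861977) (nat_lit 19) (nat_lit 4) (nat_lit 20) (nat_lit 5) (nat_lit 20) (nat_lit 4) (nat_lit 498) (nat_lit 442) (nat_lit 260))))) (XT.nd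 (nat_lit 234) (nat_lit 228) (nat_lit 0) (XT.nd (nat_lit 78) (nat_lit 152) (nat_lit 0) (XT.lf (nat_lit 0) (nat_lit 1064584271276) (nat_lit 76) (nat_lit 440416583958) (nat_lit 76) (nat_lit 166315295423) (nat_lit 19) (nat_lit 4) (nat_lit 20) (nat_lit 5) (nat_lit 20) (nat_lit 4) (nat_lit 499) (nat_lit 442) (nat_lit 259)) (XT.nd (nat_lit 78) (nat_lit 0) (nat_lit 0) (XT.lf (nat_lit 0) (nat_lit 232483506473) (nat_lit 76) (nat_lit 11066883205) (nat_lit 152) (nat_lit 1527050956600) (nat_lit 17) (nat_lit 5) (nat_lit 18) (nat_lit 5) (nat_lit 19) (nat_lit 4) (nat_lit 500) (nat_lit 442) (nat_lit 258)) (XT.lf (nat_lit 0) (nat_lit 705125725923) (nat_lit 152) (nat_lit 718797373176) (nat_lit 0) (nat_lit 451328208854) (nat_lit 17) (nat_lit 5) (nat_lit 19) (nat_lit 4) (nat_lit 17) (nat_lit 4) (nat_lit 501) (nat_lit 442) (nat_lit 257)))) (XT.nd (nat_lit 78) (nat_lit 152) (nat_lit 0) (XT.lf (nat_lit 0) (nat_lit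 174510927484) (nat_lit 76) (nat_lit 1033600558364) (nat_lit 76) (nat_lit 779803028971) (nat_lit 16) (nat_lit 4) (nat_lit 17) (nat_lit 5) (nat_lit 17) (nat_lit 4) (nat_lit 502) (nat_lit 442) (nat_lit 256)) (XT.nd (nat_lit 78) (nat_lit 152) (nat_lit 0) (XT.lf (nat_lit 0) (nat_lit 1180162442975) (nat_lit 76) (nat_lit 590826812093) (nat_lit 76) (nat_lit 337029271288) (nat_lit 16) (nat_lit 4) (nat_lit 17) (nat_lit 5) (nat_lit 17) (nat_lit 4) (nat_lit 503) (nat_lit 442) (nat_lit 255)) (XT.lf (nat_lit 0) (nat_lit 26463909677) (nat_lit 76) (nat_lit 108277177364) (nat_lit 152) (nat_lit 2102667254219) (nat_lit 14) (nat_lit 5) (nat_lit 15) (nat_lit 5) (nat_lit 16) (nat_lit 4) (nat_lit 504) (nat_lit 442) (nat_lit 254)))))) (XT.nd (nat_lit 468) (nat_lit 228) (nat_lit 0) (XT.nd (nat_lit 234) (nat_lit 152) (nat_lit 0) (XT.nd (nat_lit 78) (nat_lit 76) (nat_lit 0) (XT.lf (nat_lit 0) (nat_lit 662002554916)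 (nat_lit 152) (nat_lit 1284565027529) (nat_lit 0) (nat_lit 427004813107) (nat_lit 14) (nat_lit 5) (nat_lit 16) (nat_lit 4) (nat_lit 14) (nat_lit 4) (nat_lit 505) (nat_lit 442) (nat_lit 253)) (XT.nd (nat_lit 78) (nat_lit 76) (nat_lit 0) (XT.lf (nat_lit 0) (nat_lit 1234257294489) (nat_lit 152) (nat_lit 286887747064) (nat_lit 0) (nat_lit 999259544292) (nat_lit 14) (nat_lit 5) (nat_lit 16) (nat_lit 4) (nat_lit 14) (nat_lit 4) (nat_lit 506) (nat_lit 442) (nat_lit 252)) (XT.lf (nat_lit 0) (nat_lit 832235426814) (nat_lit 76) (nat_lit 1040072231454) (nat_lit 76) (nat_lit 805074473491) (nat_lit 13) (nat_lit 4) (nat_lit 14) (nat_lit 5) (nat_lit 14) (nat_lit 4) (nat_lit 507) (nat_lit 442) (nat_lit 251)))) (XT.nd (nat_lit 78) (nat_lit 152) (nat_lit 0) (XT.lf (nat_lit 0) (nat_lit 2057203941252) (nat_lit 76) (nat_lit 512042093289) (nat_lit 76) (nat_lit 277044328134) (nat_lit 13) (nat_lit 4) (nat_lit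 14) (nat_lit 5) (nat_lit 14) (nat_lit 4) (nat_lit 508) (nat_lit 442) (nat_lit 250)) (XT.nd (nat_lit 78) (nat_lit 0) (nat_lit 0) (XT.lf (nat_lit 0) (nat_lit 289088969232) (nat_lit 152) (nat_lit 2666717335064) (nat_lit 0) (nat_lit 71498439775) (nat_lit 11) (nat_lit 5) (nat_lit 13) (nat_lit 4) (nat_lit 11) (nat_lit 4) (nat_lit 509) (nat_lit 442) (nat_lit 249)) (XT.lf (nat_lit 0) (nat_lit 920980512476) (nat_lit 152) (nat_lit 1595019295925) (nat_lit 0) (nat_lit 703389977311) (nat_lit 11) (nat_lit 5) (nat_lit 13) (nat_lit 4) (nat_lit 11) (nat_lit 4) (nat_lit 510) (nat_lit 442) (nat_lit 248))))) (XT.nd (nat_lit 234) (nat_lit 152) (nat_lit 0) (XT.nd (nat_lit 78) (nat_lit 76) (nat_lit 0) (XT.lf (nat_lit 0) (nat_lit 1603423347541) (nat_lit 152) (nat_lit 437585478584) (nat_lit 0) (nat_lit 1385832807090) (nat_lit 11) (nat_lit 5) (nat_lit 13) (nat_lit 4) (nat_lit 11) (nat_lit 4) (nat_lit 511) (nat_lit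 442) (nat_lit 247)) (XT.nd (nat_lit 78) (nat_lit 0) (nat_lit 0) (XT.lf (nat_lit 0) (nat_lit 855224791791) (nat_lit 76) (nat_lit 1505804965135) (nat_lit 76) (nat_lit 1288214419791) (nat_lit 10) (nat_lit 4) (nat_lit 11) (nat_lit 5) (nat_lit 11) (nat_lit 4) (nat_lit 512) (nat_lit 442) (nat_lit 246)) (XT.lf (nat_lit 0) (nat_lit 2276345699102) (nat_lit 76) (nat_lit 914863313881) (nat_lit 76) (nat_lit 697272764005) (nat_lit 10) (nat_lit 4) (nat_lit 11) (nat_lit 5) (nat_lit 11) (nat_lit 4) (nat_lit 513) (nat_lit 442) (nat_lit 245)))) (XT.nd (nat_lit 156) (nat_lit 0) (nat_lit 0) (XT.nd (nat_lit 78) (nat_lit 152) (nat_lit 0) (XT.lf (nat_lit 0) (nat_lit 3811156224740) (nat_lit 76) (nat_lit 276646358362) (nat_lit 76) (nat_lit 59055804290) (nat_lit 10) (nat_lit 4) (nat_lit 11) (nat_lit 5) (nat_lit 11) (nat_lit 4) (nat_lit 514) (nat_lit 442) (nat_lit 244)) (XT.lf (nat_lit 0) (nat_lit 635703036143) (nat_lit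 152) (nat_lit 3351798403055) (nat_lit 0) (nat_lit 434230297294) (nat_lit 8) (nat_lit 5) (nat_lit 10) (nat_lit 4) (nat_lit 8) (nat_lit 4) (nat_lit 515) (nat_lit 442) (nat_lit 243))) (XT.nd (nat_lit 78) (nat_lit 0) (nat_lit 0) (XT.lf (nat_lit 0) (nat_lit 1399454730720) (nat_lit 152) (nat_lit 2119707305363) (nat_lit 0) (nat_lit 1197981988540) (nat_lit 8) (nat_lit 5) (nat_lit 10) (nat_lit 4) (nat_lit 8) (nat_lit 4) (nat_lit 516) (nat_lit 442) (nat_lit 242)) (XT.lf (nat_lit 0) (nat_lit 2224306537651) (nat_lit 152) (nat_lit 789048967622) (nat_lit 0) (nat_lit 2022833792387) (nat_lit 8) (nat_lit 5) (nat_lit 10) (nat_lit 4) (nat_lit 8) (nat_lit 4) (nat_lit 517) (nat_lit 442) (nat_lit 241))))))) (XT.nd (nat_lit 936) (nat_lit 0) (nat_lit 0) (XT.nd (nat_lit 468) (nat_lit 76) (nat_lit 0) (XT.nd (nat_lit 234) (nat_lit 152) (nat_lit 0) (XT.nd (nat_lit 78) (nat_lit 0) (nat_lit 0) (XT.lf (nat_lit 0) (nat_lit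 682187788989) (nat_lit 76) (nat_lit 2449365311386) (nat_lit 76) (nat_lit 2247892563267) (nat_lit 7) (nat_lit 4) (nat_lit 8) (nat_lit 5) (nat_lit 8) (nat_lit 4) (nat_lit 518) (nat_lit 442) (nat_lit 240)) (XT.nd (nat_lit 78) (nat_lit 0) (nat_lit 0) (XT.lf (nat_lit 0) (nat_lit 2315997356966) (nat_lit 76) (nat_lit 1816956007304) (nat_lit 76) (nat_lit 1615483256540) (nat_lit 7) (nat_lit 4) (nat_lit 8) (nat_lit 5) (nat_lit 8) (nat_lit 4) (nat_lit 519) (nat_lit 442) (nat_lit 239)) (XT.lf (nat_lit 0) (nat_lit 4080511650464) (nat_lit 76) (nat_lit 1133953979425) (nat_lit 76) (nat_lit 932481226213) (nat_lit 7) (nat_lit 4) (nat_lit 8) (nat_lit 5) (nat_lit 8) (nat_lit 4) (nat_lit 520) (nat_lit 442) (nat_lit 238)))) (XT.nd (nat_lit 78) (nat_lit 152) (nat_lit 0) (XT.lf (nat_lit 0) (nat_lit 5986187050483) (nat_lit 76) (nat_lit 396311808325) (nat_lit 76) (nat_lit 194839052846) (nat_lit 7) (nat_lit 4) (nat_lit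 8) (nat_lit 5) (nat_lit 8) (nat_lit 4) (nat_lit 521) (nat_lit 442) (nat_lit 237)) (XT.nd (nat_lit 78) (nat_lit 0) (nat_lit 0) (XT.lf (nat_lit 0) (nat_lit 607367537977) (nat_lit 152) (nat_lit 6009963473702) (nat_lit 0) (nat_lit 420818688368) (nat_lit 5) (nat_lit 5) (nat_lit 7) (nat_lit 4) (nat_lit 5) (nat_lit 4) (nat_lit 522) (nat_lit 442) (nat_lit 236)) (XT.lf (nat_lit 0) (nat_lit 1490101015875) (nat_lit 152) (nat_lit 4739618252450) (nat_lit 0) (nat_lit 1303552164466) (nat_lit 5) (nat_lit 5) (nat_lit 7) (nat_lit 4) (nat_lit 5) (nat_lit 4) (nat_lit 523) (nat_lit 442) (nat_lit 235))))) (XT.nd (nat_lit 234) (nat_lit 76) (nat_lit 0) (XT.nd (nat_lit 78) (nat_lit 0) (nat_lit 0) (XT.lf (nat_lit 0) (nat_lit 2443453156230) (nat_lit 152) (nat_lit 3367645446031) (nat_lit 0) (nat_lit 2256904303155) (nat_lit 5) (nat_lit 5) (nat_lit 7) (nat_lit 4) (nat_lit 5) (nat_lit 4) (nat_lit 524) (nat_lit 442) (nat_lit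 234)) (XT.nd (nat_lit 78) (nat_lit 0) (nat_lit 0) (XT.lf (nat_lit 0) (nat_lit 3473073453207) (nat_lit 152) (nat_lit 1885914845222) (nat_lit 0) (nat_lit 3286524598589) (nat_lit 5) (nat_lit 5) (nat_lit 7) (nat_lit 4) (nat_lit 5) (nat_lit 4) (nat_lit 525) (nat_lit 442) (nat_lit 233)) (XT.lf (nat_lit 0) (nat_lit 4585063360419) (nat_lit 152) (nat_lit 285645824241) (nat_lit 0) (nat_lit 4398514504372) (nat_lit 5) (nat_lit 5) (nat_lit 7) (nat_lit 4) (nat_lit 5) (nat_lit 4) (nat_lit 526) (nat_lit 442) (nat_lit 232)))) (XT.nd (nat_lit 78) (nat_lit 0) (nat_lit 0) (XT.lf (nat_lit 0) (nat_lit 1518611805518) (nat_lit 76) (nat_lit 4303923292612) (nat_lit 76) (nat_lit 4117374435243) (nat_lit 4) (nat_lit 4) (nat_lit 5) (nat_lit 5) (nat_lit 5) (nat_lit 4) (nat_lit 527) (nat_lit 442) (nat_lit 231)) (XT.nd (nat_lit 78) (nat_lit 0) (nat_lit 0) (XT.lf (nat_lit 0) (nat_lit 3483454951614) (nat_lit 76) (nat_lit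 3683359674086) (nat_lit 76) (nat_lit 3496810815492) (nat_lit 4) (nat_lit 4) (nat_lit 5) (nat_lit 5) (nat_lit 5) (nat_lit 4) (nat_lit 528) (nat_lit 442) (nat_lit 230)) (XT.lf (nat_lit 0) (nat_lit 5605485526090) (nat_lit 76) (nat_lit 3013150978090) (nat_lit 76) (nat_lit 2826602118362) (nat_lit 4) (nat_lit 4) (nat_lit 5) (nat_lit 5) (nat_lit 5) (nat_lit 4) (nat_lit 529) (nat_lit 442) (nat_lit 229)))))) (XT.nd (nat_lit 56082) (nat_lit 0) (nat_lit 4864) (XT.nd (nat_lit 55848) (nat_lit 0) (nat_lit 5396) (XT.nd (nat_lit 55692) (nat_lit 0) (nat_lit 5852) (XT.lf (nat_lit 0) (nat_lit 7897278524943) (nat_lit 76) (nat_lit 2289325597536) (nat_lit 76) (nat_lit 2102776736758) (nat_lit 4) (nat_lit 4) (nat_lit 5) (nat_lit 5) (nat_lit 5) (nat_lit 4) (nat_lit 530) (nat_lit 442) (nat_lit 228)) (XT.nd (nat_lit 78) (nat_lit 0) (nat_lit 0) (XT.lf (nat_lit 0) (nat_lit 53840270979) (nat_lit 532) (nat_lit 864366529)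 (nat_lit 532) (nat_lit 864366529) (nat_lit 81) (nat_lit 3) (nat_lit 88) (nat_lit 3) (nat_lit 88) (nat_lit 5) (nat_lit 443) (nat_lit 443) (nat_lit 314)) (XT.lf (nat_lit 76) (nat_lit 56207812790) (nat_lit 0) (nat_lit 57136745574) (nat_lit 532) (nat_lit 2130425121) (nat_lit 82) (nat_lit 5) (nat_lit 81) (nat_lit 3) (nat_lit 88) (nat_lit 5) (nat_lit 444) (nat_lit 443) (nat_lit 313)))) (XT.nd (nat_lit 78) (nat_lit 456) (nat_lit 0) (XT.lf (nat_lit 76) (nat_lit 118877312720) (nat_lit 0) (nat_lit 631143365) (nat_lit 532) (nat_lit 646720175) (nat_lit 82) (nat_lit 5) (nat_lit 81) (nat_lit 3) (nat_lit 88) (nat_lit 5) (nat_lit 445) (nat_lit 443) (nat_lit 312)) (XT.nd (nat_lit 78) (nat_lit 0) (nat_lit 0) (XT.lf (nat_lit 0) (nat_lit 3953410606) (nat_lit 532) (nat_lit 62020501547) (nat_lit 608) (nat_lit 58990390769) (nat_lit 75) (nat_lit 5) (nat_lit 82) (nat_lit 5) (nat_lit 83) (nat_lit 5) (nat_lit 446)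 (nat_lit 443) (nat_lit 311)) (XT.lf (nat_lit 76) (nat_lit 2301203158) (nat_lit 0) (nat_lit 6692544507) (nat_lit 608) (nat_lit 121154497482) (nat_lit 76) (nat_lit 5) (nat_lit 75) (nat_lit 5) (nat_lit 83) (nat_lit 5) (nat_lit 447) (nat_lit 443) (nat_lit 310))))) (XT.nd (nat_lit 234) (nat_lit 608) (nat_lit 0) (XT.nd (nat_lit 78) (nat_lit 0) (nat_lit 0) (XT.lf (nat_lit 0) (nat_lit 17555507418) (nat_lit 532) (nat_lit 61738653088) (nat_lit 608) (nat_lit 56203286684) (nat_lit 76) (nat_lit 5) (nat_lit 83) (nat_lit 5) (nat_lit 84) (nat_lit 5) (nat_lit 448) (nat_lit 443) (nat_lit 309)) (XT.nd (nat_lit 78) (nat_lit 0) (nat_lit 76) (XT.lf (nat_lit 76) (nat_lit 9983674256) (nat_lit 0) (nat_lit 17232084656) (nat_lit 608) (nat_lit 114025742500) (nat_lit 77) (nat_lit 5) (nat_lit 76) (nat_lit 5) (nat_lit 84) (nat_lit 5) (nat_lit 449) (nat_lit 443) (nat_lit 308)) (XT.lf (nat_lit 0) (nat_lit 40577923425)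 (nat_lit 532) (nat_lit 57596878671) (nat_lit 76) (nat_lit 49035950526) (nat_lit 77) (nat_lit 5) (nat_lit 84) (nat_lit 5) (nat_lit 78) (nat_lit 5) (nat_lit 450) (nat_lit 443) (nat_lit 307)))) (XT.nd (nat_lit 156) (nat_lit 228) (nat_lit 0) (XT.nd (nat_lit 78) (nat_lit 0) (nat_lit 0) (XT.lf (nat_lit 0) (nat_lit 22641665878) (nat_lit 456) (nat_lit 33359175084) (nat_lit 532) (nat_lit 97577360657) (nat_lit 71) (nat_lit 5) (nat_lit 77) (nat_lit 5) (nat_lit 78) (nat_lit 5) (nat_lit 451) (nat_lit 443) (nat_lit 306)) (XT.lf (nat_lit 0) (nat_lit 75154208832) (nat_lit 532) (nat_lit 48676659614) (nat_lit 76) (nat_lit 36424448807) (nat_lit 71) (nat_lit 5) (nat_lit 78) (nat_lit 5) (nat_lit 72) (nat_lit 5) (nat_lit 452) (nat_lit 443) (nat_lit 305))) (XT.nd (nat_lit 78) (nat_lit 0) (nat_lit 0) (XT.lf (nat_lit 0) (nat_lit 41366542706) (nat_lit 228) (nat_lit 56334344135) (nat_lit 304) (nat_lit 69616832108)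 (nat_lit 68) (nat_lit 5) (nat_lit 71) (nat_lit 5) (nat_lit 72) (nat_lit 5) (nat_lit 453) (nat_lit 443) (nat_lit 304)) (XT.lf (nat_lit 0) (nat_lit 123814804792) (nat_lit 304) (nat_lit 33890365474) (nat_lit 76) (nat_lit 17098862120) (nat_lit 68) (nat_lit 5) (nat_lit 72) (nat_lit 5) (nat_lit 69) (nat_lit 5) (nat_lit 454) (nat_lit 443) (nat_lit 303))))))))
noncomputable def xc189 : XT := (XT.nd (nat_lit 1950) (nat_lit 1520) (nat_lit 0) (XT.nd (nat_lit 936) (nat_lit 1064) (nat_lit 0) (XT.nd (nat_lit 468) (nat_lit 532) (nat_lit 0) (XT.nd (nat_lit 234) (nat_lit 380) (nat_lit 0) (XT.nd (nat_lit 78) (nat_lit 228) (nat_lit 0) (XT.lf (nat_lit 0) (nat_lit 67445682926) (nat_lit 228) (nat_lit 87657190701) (nat_lit 304) (nat_lit 27539574332) (nat_lit 65) (nat_lit 5) (nat_lit 68) (nat_lit 5) (nat_lit 69) (nat_lit 5) (nat_lit 455) (nat_lit 443) (nat_lit 302)) (XT.nd (nat_lit 78) (nat_lit 228) (nat_lit 0)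 (XT.lf (nat_lit 0) (nat_lit 178815694274) (nat_lit 228) (nat_lit 11004666110) (nat_lit 304) (nat_lit 1213466653) (nat_lit 65) (nat_lit 5) (nat_lit 68) (nat_lit 5) (nat_lit 69) (nat_lit 5) (nat_lit 456) (nat_lit 443) (nat_lit 301)) (XT.lf (nat_lit 0) (nat_lit 30154601484) (nat_lit 228) (nat_lit 98130463632) (nat_lit 76) (nat_lit 71415285449) (nat_lit 62) (nat_lit 5) (nat_lit 65) (nat_lit 5) (nat_lit 63) (nat_lit 5) (nat_lit 457) (nat_lit 443) (nat_lit 300)))) (XT.nd (nat_lit 78) (nat_lit 152) (nat_lit 0) (XT.lf (nat_lit 0) (nat_lit 16627795718) (nat_lit 228) (nat_lit 48367009297) (nat_lit 304) (nat_lit 143980609620) (nat_lit 59) (nat_lit 5) (nat_lit 62) (nat_lit 5) (nat_lit 63) (nat_lit 5) (nat_lit 458) (nat_lit 443) (nat_lit 299)) (XT.nd (nat_lit 78) (nat_lit 152) (nat_lit 0) (XT.lf (nat_lit 0) (nat_lit 106287321535) (nat_lit 304) (nat_lit 73612917183) (nat_lit 76) (nat_lit 38799037414)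 (nat_lit 59) (nat_lit 5) (nat_lit 63) (nat_lit 5) (nat_lit 60) (nat_lit 5) (nat_lit 459) (nat_lit 443) (nat_lit 298)) (XT.lf (nat_lit 0) (nat_lit 56174045944) (nat_lit 152) (nat_lit 97316262948) (nat_lit 228) (nat_lit 75502172133) (nat_lit 57) (nat_lit 5) (nat_lit 59) (nat_lit 5) (nat_lit 60) (nat_lit 5) (nat_lit 460) (nat_lit 443) (nat_lit 297))))) (XT.nd (nat_lit 234) (nat_lit 152) (nat_lit 0) (XT.nd (nat_lit 78) (nat_lit 380) (nat_lit 0) (XT.lf (nat_lit 0) (nat_lit 200530123018) (nat_lit 152) (nat_lit 5951924702) (nat_lit 228) (nat_lit 33466093623) (nat_lit 57) (nat_lit 5) (nat_lit 59) (nat_lit 5) (nat_lit 60) (nat_lit 5) (nat_lit 461) (nat_lit 443) (nat_lit 296)) (XT.nd (nat_lit 78) (nat_lit 152) (nat_lit 0) (XT.lf (nat_lit 0) (nat_lit 16283999153) (nat_lit 228) (nat_lit 143988998309) (nat_lit 76) (nat_lit 91088453505) (nat_lit 54) (nat_lit 5) (nat_lit 57) (nat_lit 5) (nat_lit 55) (nat_lit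 5) (nat_lit 462) (nat_lit 443) (nat_lit 295)) (XT.lf (nat_lit 0) (nat_lit 3678183547) (nat_lit 152) (nat_lit 65876505774) (nat_lit 228) (nat_lit 193955705868) (nat_lit 52) (nat_lit 5) (nat_lit 54) (nat_lit 5) (nat_lit 55) (nat_lit 5) (nat_lit 463) (nat_lit 443) (nat_lit 294)))) (XT.nd (nat_lit 78) (nat_lit 152) (nat_lit 0) (XT.lf (nat_lit 0) (nat_lit 131993557019) (nat_lit 228) (nat_lit 105938837663) (nat_lit 76) (nat_lit 38306338508) (nat_lit 52) (nat_lit 5) (nat_lit 55) (nat_lit 5) (nat_lit 53) (nat_lit 5) (nat_lit 464) (nat_lit 443) (nat_lit 293)) (XT.nd (nat_lit 78) (nat_lit 0) (nat_lit 0) (XT.lf (nat_lit 0) (nat_lit 61638059030) (nat_lit 152) (nat_lit 140982787973) (nat_lit 228) (nat_lit 87109026220) (nat_lit 50) (nat_lit 5) (nat_lit 52) (nat_lit 5) (nat_lit 53) (nat_lit 5) (nat_lit 465) (nat_lit 443) (nat_lit 292)) (XT.lf (nat_lit 0) (nat_lit 248645694988) (nat_lit 152) (nat_lit 33149024790)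 (nat_lit 228) (nat_lit 22273872734) (nat_lit 50) (nat_lit 5) (nat_lit 52) (nat_lit 5) (nat_lit 53) (nat_lit 5) (nat_lit 466) (nat_lit 443) (nat_lit 291)))))) (XT.nd (nat_lit 468) (nat_lit 456) (nat_lit 0) (XT.nd (nat_lit 234) (nat_lit 304) (nat_lit 0) (XT.nd (nat_lit 78) (nat_lit 152) (nat_lit 0) (XT.lf (nat_lit 0) (nat_lit 50767169357) (nat_lit 152) (nat_lit 184566502922) (nat_lit 76) (nat_lit 83696259315) (nat_lit 48) (nat_lit 5) (nat_lit 50) (nat_lit 5) (nat_lit 49) (nat_lit 5) (nat_lit 467) (nat_lit 443) (nat_lit 290)) (XT.nd (nat_lit 78) (nat_lit 0) (nat_lit 0) (XT.lf (nat_lit 0) (nat_lit 6470168752) (nat_lit 152) (nat_lit 124549155073) (nat_lit 228) (nat_lit 203916874889) (nat_lit 46) (nat_lit 5) (nat_lit 48) (nat_lit 5) (nat_lit 49) (nat_lit 5) (nat_lit 468) (nat_lit 443) (nat_lit 289)) (XT.lf (nat_lit 0) (nat_lit 222751068256) (nat_lit 228) (nat_lit 128438450498) (nat_lit 76) (nat_lit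 520695056) (nat_lit 46) (nat_lit 5) (nat_lit 49) (nat_lit 5) (nat_lit 47) (nat_lit 4) (nat_lit 469) (nat_lit 443) (nat_lit 288)))) (XT.nd (nat_lit 78) (nat_lit 228) (nat_lit 0) (XT.lf (nat_lit 0) (nat_lit 88798107760) (nat_lit 76) (nat_lit 238393752521) (nat_lit 152) (nat_lit 42204649202) (nat_lit 45) (nat_lit 5) (nat_lit 46) (nat_lit 5) (nat_lit 47) (nat_lit 4) (nat_lit 470) (nat_lit 443) (nat_lit 287)) (XT.nd (nat_lit 78) (nat_lit 152) (nat_lit 0) (XT.lf (nat_lit 0) (nat_lit 52517276485) (nat_lit 152) (nat_lit 58828552194) (nat_lit 76) (nat_lit 276764587424) (nat_lit 44) (nat_lit 5) (nat_lit 46) (nat_lit 5) (nat_lit 45) (nat_lit 5) (nat_lit 471) (nat_lit 443) (nat_lit 286)) (XT.lf (nat_lit 0) (nat_lit 157851818753) (nat_lit 228) (nat_lit 219595510761) (nat_lit 76) (nat_lit 30361206992) (nat_lit 42) (nat_lit 5) (nat_lit 45) (nat_lit 5) (nat_lit 43) (nat_lit 4) (nat_lit 472) (nat_lit 443)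 (nat_lit 285))))) (XT.nd (nat_lit 234) (nat_lit 228) (nat_lit 0) (XT.nd (nat_lit 78) (nat_lit 152) (nat_lit 0) (XT.lf (nat_lit 0) (nat_lit 27869803962) (nat_lit 76) (nat_lit 248955825974) (nat_lit 152) (nat_lit 151839876172) (nat_lit 41) (nat_lit 5) (nat_lit 42) (nat_lit 5) (nat_lit 43) (nat_lit 4) (nat_lit 473) (nat_lit 443) (nat_lit 284)) (XT.nd (nat_lit 78) (nat_lit 152) (nat_lit 0) (XT.lf (nat_lit 0) (nat_lit 307620728647) (nat_lit 76) (nat_lit 103700632770) (nat_lit 152) (nat_lit 39389350640) (nat_lit 41) (nat_lit 5) (nat_lit 42) (nat_lit 5) (nat_lit 43) (nat_lit 4) (nat_lit 474) (nat_lit 443) (nat_lit 283)) (XT.lf (nat_lit 0) (nat_lit 82743650049) (nat_lit 152) (nat_lit 335233842453) (nat_lit 76) (nat_lit 56000862350) (nat_lit 39) (nat_lit 5) (nat_lit 41) (nat_lit 5) (nat_lit 40) (nat_lit 4) (nat_lit 475) (nat_lit 443) (nat_lit 282)))) (XT.nd (nat_lit 156) (nat_lit 152) (nat_lit 0)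 (XT.nd (nat_lit 78) (nat_lit 76) (nat_lit 0) (XT.lf (nat_lit 0) (nat_lit 219226610600) (nat_lit 152) (nat_lit 51349440728) (nat_lit 76) (nat_lit 227912920321) (nat_lit 39) (nat_lit 5) (nat_lit 41) (nat_lit 5) (nat_lit 40) (nat_lit 4) (nat_lit 476) (nat_lit 443) (nat_lit 281)) (XT.lf (nat_lit 0) (nat_lit 268686306704) (nat_lit 76) (nat_lit 104403713551) (nat_lit 152) (nat_lit 151353472561) (nat_lit 38) (nat_lit 5) (nat_lit 39) (nat_lit 5) (nat_lit 40) (nat_lit 4) (nat_lit 477) (nat_lit 443) (nat_lit 280))) (XT.nd (nat_lit 78) (nat_lit 76) (nat_lit 0) (XT.lf (nat_lit 0) (nat_lit 66360880499) (nat_lit 76) (nat_lit 477743208832) (nat_lit 76) (nat_lit 7982959421) (nat_lit 37) (nat_lit 4) (nat_lit 38) (nat_lit 5) (nat_lit 38) (nat_lit 4) (nat_lit 478) (nat_lit 443) (nat_lit 279)) (XT.lf (nat_lit 0) (nat_lit 149396976904) (nat_lit 152) (nat_lit 159014652277) (nat_lit 76) (nat_lit 272457012558)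 (nat_lit 36) (nat_lit 5) (nat_lit 38) (nat_lit 5) (nat_lit 37) (nat_lit 4) (nat_lit 479) (nat_lit 443) (nat_lit 278))))))) (XT.nd (nat_lit 936) (nat_lit 760) (nat_lit 0) (XT.nd (nat_lit 468) (nat_lit 380) (nat_lit 0) (XT.nd (nat_lit 234) (nat_lit 152) (nat_lit 0) (XT.nd (nat_lit 78) (nat_lit 152) (nat_lit 0) (XT.lf (nat_lit 0) (nat_lit 203822279724) (nat_lit 76) (nat_lit 120015580989) (nat_lit 152) (nat_lit 287706166311) (nat_lit 35) (nat_lit 5) (nat_lit 36) (nat_lit 5) (nat_lit 37) (nat_lit 4) (nat_lit 480) (nat_lit 443) (nat_lit 277)) (XT.nd (nat_lit 78) (nat_lit 152) (nat_lit 0) (XT.lf (nat_lit 0) (nat_lit 518701622058) (nat_lit 152) (nat_lit 41716280296) (nat_lit 0) (nat_lit 83738132236) (nat_lit 35) (nat_lit 5) (nat_lit 37) (nat_lit 4) (nat_lit 35) (nat_lit 4) (nat_lit 481) (nat_lit 443) (nat_lit 276)) (XT.lf (nat_lit 0) (nat_lit 59588234922) (nat_lit 152) (nat_lit 311020045584) (nat_lit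 76) (nat_lit 307688884322) (nat_lit 33) (nat_lit 5) (nat_lit 35) (nat_lit 5) (nat_lit 34) (nat_lit 4) (nat_lit 482) (nat_lit 443) (nat_lit 275)))) (XT.nd (nat_lit 78) (nat_lit 76) (nat_lit 0) (XT.lf (nat_lit 0) (nat_lit 97892744354) (nat_lit 76) (nat_lit 158288215610) (nat_lit 152) (nat_lit 458445984021) (nat_lit 32) (nat_lit 5) (nat_lit 33) (nat_lit 5) (nat_lit 34) (nat_lit 4) (nat_lit 483) (nat_lit 443) (nat_lit 274)) (XT.nd (nat_lit 78) (nat_lit 76) (nat_lit 0) (XT.lf (nat_lit 0) (nat_lit 478933710102) (nat_lit 152) (nat_lit 197905266276) (nat_lit 0) (nat_lit 76189520533) (nat_lit 32) (nat_lit 5) (nat_lit 34) (nat_lit 4) (nat_lit 32) (nat_lit 4) (nat_lit 484) (nat_lit 443) (nat_lit 273)) (XT.lf (nat_lit 0) (nat_lit 263499776860) (nat_lit 76) (nat_lit 466455385141) (nat_lit 76) (nat_lit 63711133533) (nat_lit 31) (nat_lit 4) (nat_lit 32) (nat_lit 5) (nat_lit 32) (nat_lit 4) (nat_lit 485)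 (nat_lit 443) (nat_lit 272))))) (XT.nd (nat_lit 234) (nat_lit 152) (nat_lit 0) (XT.nd (nat_lit 78) (nat_lit 152) (nat_lit 0) (XT.lf (nat_lit 0) (nat_lit 160875671198) (nat_lit 152) (nat_lit 68122912956) (nat_lit 76) (nat_lit 607797829237) (nat_lit 30) (nat_lit 5) (nat_lit 32) (nat_lit 5) (nat_lit 31) (nat_lit 4) (nat_lit 486) (nat_lit 443) (nat_lit 271)) (XT.nd (nat_lit 78) (nat_lit 76) (nat_lit 0) (XT.lf (nat_lit 0) (nat_lit 411839373083) (nat_lit 152) (nat_lit 431529093554) (nat_lit 0) (nat_lit 38927926567) (nat_lit 29) (nat_lit 5) (nat_lit 31) (nat_lit 4) (nat_lit 29) (nat_lit 4) (nat_lit 487) (nat_lit 443) (nat_lit 270)) (XT.lf (nat_lit 0) (nat_lit 81853697079) (nat_lit 76) (nat_lit 610853982867) (nat_lit 76) (nat_lit 237942490751) (nat_lit 28) (nat_lit 4) (nat_lit 29) (nat_lit 5) (nat_lit 29) (nat_lit 4) (nat_lit 488) (nat_lit 443) (nat_lit 269)))) (XT.nd (nat_lit 78) (nat_lit 76)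 (nat_lit 0) (XT.lf (nat_lit 0) (nat_lit 24619385856) (nat_lit 152) (nat_lit 321703211757) (nat_lit 76) (nat_lit 635555894575) (nat_lit 27) (nat_lit 5) (nat_lit 29) (nat_lit 5) (nat_lit 28) (nat_lit 4) (nat_lit 489) (nat_lit 443) (nat_lit 268)) (XT.nd (nat_lit 78) (nat_lit 0) (nat_lit 0) (XT.lf (nat_lit 0) (nat_lit 254087546515) (nat_lit 76) (nat_lit 47354338074) (nat_lit 152) (nat_lit 734779909109) (nat_lit 26) (nat_lit 5) (nat_lit 27) (nat_lit 5) (nat_lit 28) (nat_lit 4) (nat_lit 490) (nat_lit 443) (nat_lit 267)) (XT.lf (nat_lit 0) (nat_lit 616061056897) (nat_lit 152) (nat_lit 206826903081) (nat_lit 0) (nat_lit 270772529460) (nat_lit 26) (nat_lit 5) (nat_lit 28) (nat_lit 4) (nat_lit 26) (nat_lit 4) (nat_lit 491) (nat_lit 443) (nat_lit 266)))))) (XT.nd (nat_lit 468) (nat_lit 304) (nat_lit 0) (XT.nd (nat_lit 234) (nat_lit 228) (nat_lit 0) (XT.nd (nat_lit 78) (nat_lit 152) (nat_lit 0) (XT.lf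 (nat_lit 0) (nat_lit 435037251976) (nat_lit 76) (nat_lit 532505090488) (nat_lit 76) (nat_lit 187216532017) (nat_lit 25) (nat_lit 4) (nat_lit 26) (nat_lit 5) (nat_lit 26) (nat_lit 4) (nat_lit 492) (nat_lit 443) (nat_lit 265)) (XT.nd (nat_lit 78) (nat_lit 76) (nat_lit 0) (XT.lf (nat_lit 0) (nat_lit 125875948631) (nat_lit 152) (nat_lit 83466614053) (nat_lit 76) (nat_lit 1010695232535) (nat_lit 24) (nat_lit 5) (nat_lit 26) (nat_lit 5) (nat_lit 25) (nat_lit 4) (nat_lit 493) (nat_lit 443) (nat_lit 264)) (XT.lf (nat_lit 0) (nat_lit 472940579543) (nat_lit 152) (nat_lit 662457384039) (nat_lit 0) (nat_lit 153228900086) (nat_lit 23) (nat_lit 5) (nat_lit 25) (nat_lit 4) (nat_lit 23) (nat_lit 4) (nat_lit 494) (nat_lit 443) (nat_lit 263)))) (XT.nd (nat_lit 78) (nat_lit 152) (nat_lit 0) (XT.lf (nat_lit 0) (nat_lit 30849136612) (nat_lit 76) (nat_lit 825441982113) (nat_lit 76) (nat_lit 505730279845) (nat_lit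 22) (nat_lit 4) (nat_lit 23) (nat_lit 5) (nat_lit 23) (nat_lit 4) (nat_lit 495) (nat_lit 443) (nat_lit 262)) (XT.nd (nat_lit 78) (nat_lit 152) (nat_lit 0) (XT.lf (nat_lit 0) (nat_lit 817294609604) (nat_lit 76) (nat_lit 471127796811) (nat_lit 76) (nat_lit 151416073421) (nat_lit 22) (nat_lit 4) (nat_lit 23) (nat_lit 5) (nat_lit 23) (nat_lit 4) (nat_lit 496) (nat_lit 443) (nat_lit 261)) (XT.lf (nat_lit 0) (nat_lit 144438692597) (nat_lit 76) (nat_lit 78710555260) (nat_lit 152) (nat_lit 1300008870994) (nat_lit 20) (nat_lit 5) (nat_lit 21) (nat_lit 5) (nat_lit 22) (nat_lit 4) (nat_lit 497) (nat_lit 443) (nat_lit 260))))) (XT.nd (nat_lit 234) (nat_lit 228) (nat_lit 0) (XT.nd (nat_lit 78) (nat_lit 76) (nat_lit 0) (XT.lf (nat_lit 0) (nat_lit 645262576518) (nat_lit 152) (nat_lit 616271898932) (nat_lit 0) (nat_lit 349233168133) (nat_lit 20) (nat_lit 5) (nat_lit 22) (nat_lit 4) (nat_lit 20) (nat_lit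 4) (nat_lit 498) (nat_lit 443) (nat_lit 259)) (XT.nd (nat_lit 78) (nat_lit 0) (nat_lit 0) (XT.lf (nat_lit 0) (nat_lit 215928524922) (nat_lit 76) (nat_lit 892453915869) (nat_lit 76) (nat_lit 596424491959) (nat_lit 19) (nat_lit 4) (nat_lit 20) (nat_lit 5) (nat_lit 20) (nat_lit 4) (nat_lit 499) (nat_lit 443) (nat_lit 258)) (XT.lf (nat_lit 0) (nat_lit 1149752819067) (nat_lit 76) (nat_lit 475648995327) (nat_lit 76) (nat_lit 179619557042) (nat_lit 19) (nat_lit 4) (nat_lit 20) (nat_lit 5) (nat_lit 20) (nat_lit 4) (nat_lit 500) (nat_lit 443) (nat_lit 257)))) (XT.nd (nat_lit 156) (nat_lit 76) (nat_lit 0) (XT.nd (nat_lit 78) (nat_lit 0) (nat_lit 0) (XT.lf (nat_lit 0) (nat_lit 251083994275) (nat_lit 76) (nat_lit 11951316238) (nat_lit 152) (nat_lit 1649214072281) (nat_lit 17) (nat_lit 5) (nat_lit 18) (nat_lit 5) (nat_lit 19) (nat_lit 4) (nat_lit 501) (nat_lit 443) (nat_lit 256)) (XT.lf (nat_lit 0)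 (nat_lit 761536628191) (nat_lit 152) (nat_lit 776299444140) (nat_lit 0) (nat_lit 487435272711) (nat_lit 17) (nat_lit 5) (nat_lit 19) (nat_lit 4) (nat_lit 17) (nat_lit 4) (nat_lit 502) (nat_lit 443) (nat_lit 255))) (XT.nd (nat_lit 78) (nat_lit 0) (nat_lit 0) (XT.lf (nat_lit 0) (nat_lit 188473477057) (nat_lit 76) (nat_lit 1116287749614) (nat_lit 76) (nat_lit 842186383568) (nat_lit 16) (nat_lit 4) (nat_lit 17) (nat_lit 5) (nat_lit 17) (nat_lit 4) (nat_lit 503) (nat_lit 443) (nat_lit 254)) (XT.lf (nat_lit 0) (nat_lit 1274576989686) (nat_lit 76) (nat_lit 638092166856) (nat_lit 76) (nat_lit 363990791027) (nat_lit 16) (nat_lit 4) (nat_lit 17) (nat_lit 5) (nat_lit 17) (nat_lit 4) (nat_lit 504) (nat_lit 443) (nat_lit 253))))))))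
noncomputable def xc190 : XT := (XT.nd (nat_lit 1950) (nat_lit 0) (nat_lit 0) (XT.nd (nat_lit 936) (nat_lit 304) (nat_lit 0) (XT.nd (nat_lit 468) (nat_lit 228) (nat_lit 0) (XT.nd (nat_lit 234) (nat_lit 228) (nat_lit 0) (XT.nd (nat_lit 78) (nat_lit 0) (nat_lit 0) (XT.lf (nat_lit 0) (nat_lit 28582574537) (nat_lit 76) (nat_lit 116938559801) (nat_lit 152) (nat_lit 2270879813388) (nat_lit 14) (nat_lit 5) (nat_lit 15) (nat_lit 5) (nat_lit 16) (nat_lit 4) (nat_lit 505) (nat_lit 443) (nat_lit 252)) (XT.nd (nat_lit 78) (nat_lit 0) (nat_lit 0) (XT.lf (nat_lit 0) (nat_lit 714963480953) (nat_lit 152) (nat_lit 1387328753917) (nat_lit 0) (nat_lit 461165894586) (nat_lit 14) (nat_lit 5) (nat_lit 16) (nat_lit 4) (nat_lit 14) (nat_lit 4) (nat_lit 506) (nat_lit 443) (nat_lit 251)) (XT.lf (nat_lit 0) (nat_lit 1332998546236) (nat_lit 152) (nat_lit 309837400335) (nat_lit 0) (nat_lit 1079200952679) (nat_lit 14)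 (nat_lit 5) (nat_lit 16) (nat_lit 4) (nat_lit 14) (nat_lit 4) (nat_lit 507) (nat_lit 443) (nat_lit 250)))) (XT.nd (nat_lit 78) (nat_lit 152) (nat_lit 0) (XT.lf (nat_lit 0) (nat_lit 898815592858) (nat_lit 76) (nat_lit 1123277328796) (nat_lit 76) (nat_lit 869479728580) (nat_lit 13) (nat_lit 4) (nat_lit 14) (nat_lit 5) (nat_lit 14) (nat_lit 4) (nat_lit 508) (nat_lit 443) (nat_lit 249)) (XT.nd (nat_lit 78) (nat_lit 152) (nat_lit 0) (XT.lf (nat_lit 0) (nat_lit 2221781489793) (nat_lit 76) (nat_lit 553004830035) (nat_lit 76) (nat_lit 299207223653) (nat_lit 13) (nat_lit 4) (nat_lit 14) (nat_lit 5) (nat_lit 14) (nat_lit 4) (nat_lit 509) (nat_lit 443) (nat_lit 248)) (XT.lf (nat_lit 0) (nat_lit 312216704023) (nat_lit 152) (nat_lit 2880053455138) (nat_lit 0) (nat_lit 77218915051) (nat_lit 11) (nat_lit 5) (nat_lit 13) (nat_lit 4) (nat_lit 11) (nat_lit 4) (nat_lit 510) (nat_lit 443) (nat_lit 247)))))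 (XT.nd (nat_lit 234) (nat_lit 152) (nat_lit 0) (XT.nd (nat_lit 78) (nat_lit 76) (nat_lit 0) (XT.lf (nat_lit 0) (nat_lit 994659525004) (nat_lit 152) (nat_lit 1722619666700) (nat_lit 0) (nat_lit 759661731138) (nat_lit 11) (nat_lit 5) (nat_lit 13) (nat_lit 4) (nat_lit 11) (nat_lit 4) (nat_lit 511) (nat_lit 443) (nat_lit 246)) (XT.nd (nat_lit 78) (nat_lit 76) (nat_lit 0) (XT.lf (nat_lit 0) (nat_lit 1731697744538) (nat_lit 152) (nat_lit 472591230853) (nat_lit 0) (nat_lit 1496699946141) (nat_lit 11) (nat_lit 5) (nat_lit 13) (nat_lit 4) (nat_lit 11) (nat_lit 4) (nat_lit 512) (nat_lit 443) (nat_lit 245)) (XT.lf (nat_lit 0) (nat_lit 923643833658) (nat_lit 76) (nat_lit 1626268819275) (nat_lit 76) (nat_lit 1391271016681) (nat_lit 10) (nat_lit 4) (nat_lit 11) (nat_lit 5) (nat_lit 11) (nat_lit 4) (nat_lit 513) (nat_lit 443) (nat_lit 244)))) (XT.nd (nat_lit 78) (nat_lit 152) (nat_lit 0) (XT.lf (nat_lit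 0) (nat_lit 2458454335144) (nat_lit 76) (nat_lit 988051876147) (nat_lit 76) (nat_lit 753054069669) (nat_lit 10) (nat_lit 4) (nat_lit 11) (nat_lit 5) (nat_lit 11) (nat_lit 4) (nat_lit 514) (nat_lit 443) (nat_lit 243)) (XT.nd (nat_lit 78) (nat_lit 152) (nat_lit 0) (XT.lf (nat_lit 0) (nat_lit 4116049630233) (nat_lit 76) (nat_lit 298777601435) (nat_lit 76) (nat_lit 63779791359) (nat_lit 10) (nat_lit 4) (nat_lit 11) (nat_lit 5) (nat_lit 11) (nat_lit 4) (nat_lit 515) (nat_lit 443) (nat_lit 242)) (XT.lf (nat_lit 0) (nat_lit 686559731893) (nat_lit 152) (nat_lit 3619941343363) (nat_lit 0) (nat_lit 468969163924) (nat_lit 8) (nat_lit 5) (nat_lit 10) (nat_lit 4) (nat_lit 8) (nat_lit 4) (nat_lit 516) (nat_lit 443) (nat_lit 241)))))) (XT.nd (nat_lit 468) (nat_lit 228) (nat_lit 0) (XT.nd (nat_lit 234) (nat_lit 0) (nat_lit 0) (XT.nd (nat_lit 78) (nat_lit 76) (nat_lit 0) (XT.lf (nat_lit 0) (nat_lit 1511411528491)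 (nat_lit 152) (nat_lit 2289283026888) (nat_lit 0) (nat_lit 1293820957666) (nat_lit 8) (nat_lit 5) (nat_lit 10) (nat_lit 4) (nat_lit 8) (nat_lit 4) (nat_lit 517) (nat_lit 443) (nat_lit 240)) (XT.nd (nat_lit 78) (nat_lit 76) (nat_lit 0) (XT.lf (nat_lit 0) (nat_lit 2402251448916) (nat_lit 152) (nat_lit 852172086047) (nat_lit 0) (nat_lit 2184660875447) (nat_lit 8) (nat_lit 5) (nat_lit 10) (nat_lit 4) (nat_lit 8) (nat_lit 4) (nat_lit 518) (nat_lit 443) (nat_lit 239)) (XT.lf (nat_lit 0) (nat_lit 736763590865) (nat_lit 76) (nat_lit 2645314135762) (nat_lit 76) (nat_lit 2427723559845) (nat_lit 7) (nat_lit 4) (nat_lit 8) (nat_lit 5) (nat_lit 8) (nat_lit 4) (nat_lit 519) (nat_lit 443) (nat_lit 238)))) (XT.nd (nat_lit 78) (nat_lit 0) (nat_lit 0) (XT.lf (nat_lit 0) (nat_lit 2501277866595) (nat_lit 76) (nat_lit 1962312117023) (nat_lit 76) (nat_lit 1744721538838) (nat_lit 7) (nat_lit 4) (nat_lit 8) (nat_lit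 5) (nat_lit 8) (nat_lit 4) (nat_lit 520) (nat_lit 443) (nat_lit 237)) (XT.nd (nat_lit 78) (nat_lit 0) (nat_lit 0) (XT.lf (nat_lit 0) (nat_lit 4406953250160) (nat_lit 76) (nat_lit 1224669954385) (nat_lit 76) (nat_lit 1007079374102) (nat_lit 7) (nat_lit 4) (nat_lit 8) (nat_lit 5) (nat_lit 8) (nat_lit 4) (nat_lit 521) (nat_lit 443) (nat_lit 236)) (XT.lf (nat_lit 0) (nat_lit 6465082632724) (nat_lit 76) (nat_lit 428016435034) (nat_lit 76) (nat_lit 210425852807) (nat_lit 7) (nat_lit 4) (nat_lit 8) (nat_lit 5) (nat_lit 8) (nat_lit 4) (nat_lit 522) (nat_lit 443) (nat_lit 235))))) (XT.nd (nat_lit 234) (nat_lit 76) (nat_lit 0) (XT.nd (nat_lit 78) (nat_lit 0) (nat_lit 0) (XT.lf (nat_lit 0) (nat_lit 655957248769) (nat_lit 152) (nat_lit 6490759916878) (nat_lit 0) (nat_lit 454484485782) (nat_lit 5) (nat_lit 5) (nat_lit 7) (nat_lit 4) (nat_lit 5) (nat_lit 4) (nat_lit 523) (nat_lit 443) (nat_lit 234))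 (XT.nd (nat_lit 78) (nat_lit 0) (nat_lit 0) (XT.lf (nat_lit 0) (nat_lit 1609309382102) (nat_lit 152) (nat_lit 5118787124942) (nat_lit 0) (nat_lit 1407836617572) (nat_lit 5) (nat_lit 5) (nat_lit 7) (nat_lit 4) (nat_lit 5) (nat_lit 4) (nat_lit 524) (nat_lit 443) (nat_lit 233)) (XT.lf (nat_lit 0) (nat_lit 2638929672578) (nat_lit 152) (nat_lit 3637056537543) (nat_lit 0) (nat_lit 2437456906619) (nat_lit 5) (nat_lit 5) (nat_lit 7) (nat_lit 4) (nat_lit 5) (nat_lit 4) (nat_lit 525) (nat_lit 443) (nat_lit 232)))) (XT.nd (nat_lit 156) (nat_lit 76) (nat_lit 0) (XT.nd (nat_lit 78) (nat_lit 0) (nat_lit 0) (XT.lf (nat_lit 0) (nat_lit 3750919573769) (nat_lit 152) (nat_lit 2036787528978) (nat_lit 0) (nat_lit 3549446806487) (nat_lit 5) (nat_lit 5) (nat_lit 7) (nat_lit 4) (nat_lit 5) (nat_lit 4) (nat_lit 526) (nat_lit 443) (nat_lit 231)) (XT.lf (nat_lit 0) (nat_lit 4951868655460) (nat_lit 152) (nat_lit 308497023642)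 (nat_lit 0) (nat_lit 4750395886954) (nat_lit 5) (nat_lit 5) (nat_lit 7) (nat_lit 4) (nat_lit 5) (nat_lit 4) (nat_lit 527) (nat_lit 443) (nat_lit 230))) (XT.nd (nat_lit 78) (nat_lit 0) (nat_lit 0) (XT.lf (nat_lit 0) (nat_lit 1640101204686) (nat_lit 76) (nat_lit 4648236921682) (nat_lit 76) (nat_lit 4446764152042) (nat_lit 4) (nat_lit 4) (nat_lit 5) (nat_lit 5) (nat_lit 5) (nat_lit 4) (nat_lit 528) (nat_lit 443) (nat_lit 229)) (XT.lf (nat_lit 0) (nat_lit 3762131768787) (nat_lit 76) (nat_lit 3978028231033) (nat_lit 76) (nat_lit 3776555460342) (nat_lit 4) (nat_lit 4) (nat_lit 5) (nat_lit 5) (nat_lit 5) (nat_lit 4) (nat_lit 529) (nat_lit 443) (nat_lit 228))))))) (XT.nd (nat_lit 56628) (nat_lit 0) (nat_lit 3496) (XT.nd (nat_lit 56160) (nat_lit 0) (nat_lit 4864) (XT.nd (nat_lit 55926) (nat_lit 0) (nat_lit 5396) (XT.nd (nat_lit 55770) (nat_lit 0) (nat_lit 5852) (XT.lf (nat_lit 0) (nat_lit 6053924758033)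 (nat_lit 76) (nat_lit 3254202855429) (nat_lit 76) (nat_lit 3052730083767) (nat_lit 4) (nat_lit 4) (nat_lit 5) (nat_lit 5) (nat_lit 5) (nat_lit 4) (nat_lit 530) (nat_lit 443) (nat_lit 227)) (XT.nd (nat_lit 78) (nat_lit 0) (nat_lit 0) (XT.lf (nat_lit 0) (nat_lit 58152367994) (nat_lit 532) (nat_lit 930882518) (nat_lit 532) (nat_lit 930882518) (nat_lit 81) (nat_lit 3) (nat_lit 88) (nat_lit 3) (nat_lit 88) (nat_lit 5) (nat_lit 444) (nat_lit 444) (nat_lit 312)) (XT.lf (nat_lit 76) (nat_lit 60709571147) (nat_lit 0) (nat_lit 61711703745) (nat_lit 532) (nat_lit 2290972710) (nat_lit 82) (nat_lit 5) (nat_lit 81) (nat_lit 3) (nat_lit 88) (nat_lit 5) (nat_lit 445) (nat_lit 444) (nat_lit 311)))) (XT.nd (nat_lit 78) (nat_lit 456) (nat_lit 0) (XT.lf (nat_lit 76) (nat_lit 128392250825) (nat_lit 0) (nat_lit 685355690) (nat_lit 532) (nat_lit 689303696) (nat_lit 82) (nat_lit 5) (nat_lit 81) (nat_lit 3) (nat_lit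 88) (nat_lit 5) (nat_lit 446) (nat_lit 444) (nat_lit 310)) (XT.nd (nat_lit 78) (nat_lit 0) (nat_lit 0) (XT.lf (nat_lit 0) (nat_lit 4277783274) (nat_lit 532) (nat_lit 66976330323) (nat_lit 608) (nat_lit 63706683656) (nat_lit 75) (nat_lit 5) (nat_lit 82) (nat_lit 5) (nat_lit 83) (nat_lit 5) (nat_lit 447) (nat_lit 444) (nat_lit 309)) (XT.lf (nat_lit 76) (nat_lit 2490963635) (nat_lit 0) (nat_lit 7229919901) (nat_lit 608) (nat_lit 130838608564) (nat_lit 76) (nat_lit 5) (nat_lit 75) (nat_lit 5) (nat_lit 83) (nat_lit 5) (nat_lit 448) (nat_lit 444) (nat_lit 308))))) (XT.nd (nat_lit 234) (nat_lit 608) (nat_lit 0) (XT.nd (nat_lit 78) (nat_lit 0) (nat_lit 0) (XT.lf (nat_lit 0) (nat_lit 18966974525) (nat_lit 532) (nat_lit 66671889497) (nat_lit 608) (nat_lit 60697815180) (nat_lit 76) (nat_lit 5) (nat_lit 83) (nat_lit 5) (nat_lit 84) (nat_lit 5) (nat_lit 449) (nat_lit 444) (nat_lit 307)) (XT.nd (nat_lit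 78) (nat_lit 0) (nat_lit 76) (XT.lf (nat_lit 76) (nat_lit 10788075786) (nat_lit 0) (nat_lit 18611587137) (nat_lit 608) (nat_lit 123140625616) (nat_lit 77) (nat_lit 5) (nat_lit 76) (nat_lit 5) (nat_lit 84) (nat_lit 5) (nat_lit 450) (nat_lit 444) (nat_lit 306)) (XT.lf (nat_lit 0) (nat_lit 43830287665) (nat_lit 532) (nat_lit 62198829818) (nat_lit 76) (nat_lit 52958003511) (nat_lit 77) (nat_lit 5) (nat_lit 84) (nat_lit 5) (nat_lit 78) (nat_lit 5) (nat_lit 451) (nat_lit 444) (nat_lit 305)))) (XT.nd (nat_lit 78) (nat_lit 228) (nat_lit 0) (XT.lf (nat_lit 0) (nat_lit 24458651481) (nat_lit 456) (nat_lit 36028068961) (nat_lit 532) (nat_lit 105377271026) (nat_lit 71) (nat_lit 5) (nat_lit 77) (nat_lit 5) (nat_lit 78) (nat_lit 5) (nat_lit 452) (nat_lit 444) (nat_lit 304)) (XT.nd (nat_lit 78) (nat_lit 228) (nat_lit 0) (XT.lf (nat_lit 0) (nat_lit 81171923649) (nat_lit 532) (nat_lit 52565123441) (nat_lit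 76) (nat_lit 39338264088) (nat_lit 71) (nat_lit 5) (nat_lit 78) (nat_lit 5) (nat_lit 72) (nat_lit 5) (nat_lit 453) (nat_lit 444) (nat_lit 303)) (XT.lf (nat_lit 0) (nat_lit 44681391548) (nat_lit 228) (nat_lit 60840678858) (nat_lit 304) (nat_lit 75180655932) (nat_lit 68) (nat_lit 5) (nat_lit 71) (nat_lit 5) (nat_lit 72) (nat_lit 5) (nat_lit 454) (nat_lit 444) (nat_lit 302)))))) (XT.nd (nat_lit 468) (nat_lit 684) (nat_lit 0) (XT.nd (nat_lit 234) (nat_lit 456) (nat_lit 0) (XT.nd (nat_lit 78) (nat_lit 228) (nat_lit 0) (XT.lf (nat_lit 0) (nat_lit 133724732273) (nat_lit 304) (nat_lit 36596108022) (nat_lit 76) (nat_lit 18467134198) (nat_lit 68) (nat_lit 5) (nat_lit 72) (nat_lit 5) (nat_lit 69) (nat_lit 5) (nat_lit 455) (nat_lit 444) (nat_lit 301)) (XT.nd (nat_lit 78) (nat_lit 0) (nat_lit 0) (XT.lf (nat_lit 0) (nat_lit 72846685347) (nat_lit 228) (nat_lit 94668938542) (nat_lit 304) (nat_lit 29737857319)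 (nat_lit 65) (nat_lit 5) (nat_lit 68) (nat_lit 5) (nat_lit 69) (nat_lit 5) (nat_lit 456) (nat_lit 444) (nat_lit 300)) (XT.lf (nat_lit 0) (nat_lit 193125901470) (nat_lit 228) (nat_lit 11884273274) (nat_lit 304) (nat_lit 1306022726) (nat_lit 65) (nat_lit 5) (nat_lit 68) (nat_lit 5) (nat_lit 69) (nat_lit 5) (nat_lit 457) (nat_lit 444) (nat_lit 299)))) (XT.nd (nat_lit 78) (nat_lit 228) (nat_lit 0) (XT.lf (nat_lit 0) (nat_lit 32571090758) (nat_lit 228) (nat_lit 105975547381) (nat_lit 76) (nat_lit 77129410017) (nat_lit 62) (nat_lit 5) (nat_lit 65) (nat_lit 5) (nat_lit 63) (nat_lit 5) (nat_lit 458) (nat_lit 444) (nat_lit 298)) (XT.nd (nat_lit 78) (nat_lit 0) (nat_lit 0) (XT.lf (nat_lit 0) (nat_lit 17963237189) (nat_lit 228) (nat_lit 52235093601) (nat_lit 304) (nat_lit 155494801002) (nat_lit 59) (nat_lit 5) (nat_lit 62) (nat_lit 5) (nat_lit 63) (nat_lit 5) (nat_lit 459) (nat_lit 444) (nat_lit 297))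 (XT.lf (nat_lit 0) (nat_lit 114793985102) (nat_lit 304) (nat_lit 79496855068) (nat_lit 76) (nat_lit 41904083173) (nat_lit 59) (nat_lit 5) (nat_lit 63) (nat_lit 5) (nat_lit 60) (nat_lit 5) (nat_lit 460) (nat_lit 444) (nat_lit 296))))) (XT.nd (nat_lit 234) (nat_lit 304) (nat_lit 0) (XT.nd (nat_lit 78) (nat_lit 228) (nat_lit 0) (XT.lf (nat_lit 0) (nat_lit 60672936110) (nat_lit 152) (nat_lit 105100122348) (nat_lit 228) (nat_lit 81538538456) (nat_lit 57) (nat_lit 5) (nat_lit 59) (nat_lit 5) (nat_lit 60) (nat_lit 5) (nat_lit 461) (nat_lit 444) (nat_lit 295)) (XT.nd (nat_lit 78) (nat_lit 228) (nat_lit 0) (XT.lf (nat_lit 0) (nat_lit 216577131461) (nat_lit 152) (nat_lit 6426743831) (nat_lit 228) (nat_lit 36139855699) (nat_lit 57) (nat_lit 5) (nat_lit 59) (nat_lit 5) (nat_lit 60) (nat_lit 5) (nat_lit 462) (nat_lit 444) (nat_lit 294)) (XT.lf (nat_lit 0) (nat_lit 17589966681) (nat_lit 228) (nat_lit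 155503240754) (nat_lit 76) (nat_lit 98376899322) (nat_lit 54) (nat_lit 5) (nat_lit 57) (nat_lit 5) (nat_lit 55) (nat_lit 5) (nat_lit 463) (nat_lit 444) (nat_lit 293)))) (XT.nd (nat_lit 156) (nat_lit 152) (nat_lit 0) (XT.nd (nat_lit 78) (nat_lit 0) (nat_lit 0) (XT.lf (nat_lit 0) (nat_lit 3977192171) (nat_lit 152) (nat_lit 71144993660) (nat_lit 228) (nat_lit 209468790819) (nat_lit 52) (nat_lit 5) (nat_lit 54) (nat_lit 5) (nat_lit 55) (nat_lit 5) (nat_lit 464) (nat_lit 444) (nat_lit 292)) (XT.lf (nat_lit 0) (nat_lit 142555968089) (nat_lit 228) (nat_lit 114409347611) (nat_lit 76) (nat_lit 41372281614) (nat_lit 52) (nat_lit 5) (nat_lit 55) (nat_lit 5) (nat_lit 53) (nat_lit 5) (nat_lit 465) (nat_lit 444) (nat_lit 291))) (XT.nd (nat_lit 78) (nat_lit 0) (nat_lit 0) (XT.lf (nat_lit 0) (nat_lit 66573584436) (nat_lit 152) (nat_lit 152259747817) (nat_lit 228) (nat_lit 94074705048) (nat_lit 50) (nat_lit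 5) (nat_lit 52) (nat_lit 5) (nat_lit 53) (nat_lit 5) (nat_lit 466) (nat_lit 444) (nat_lit 290)) (XT.lf (nat_lit 0) (nat_lit 268541499368) (nat_lit 152) (nat_lit 35799406780) (nat_lit 228) (nat_lit 24052964711) (nat_lit 50) (nat_lit 5) (nat_lit 52) (nat_lit 5) (nat_lit 53) (nat_lit 5) (nat_lit 467) (nat_lit 444) (nat_lit 289))))))))
noncomputable def xc191 : XT := (XT.nd (nat_lit 1950) (nat_lit 1368) (nat_lit 0) (XT.nd (nat_lit 936) (nat_lit 836) (nat_lit 0) (XT.nd (nat_lit 468) (nat_lit 380) (nat_lit 0) (XT.nd (nat_lit 234) (nat_lit 304) (nat_lit 0) (XT.nd (nat_lit 78) (nat_lit 152) (nat_lit 0) (XT.lf (nat_lit 0) (nat_lit 54831160600) (nat_lit 152) (nat_lit 199327473599) (nat_lit 76) (nat_lit 90393482206) (nat_lit 48) (nat_lit 5) (nat_lit 50) (nat_lit 5) (nat_lit 49) (nat_lit 5) (nat_lit 468) (nat_lit 444) (nat_lit 288)) (XT.nd (nat_lit 78) (nat_lit 0) (nat_lit 0) (XT.lf (nat_lit 0) (nat_lit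 6992021694) (nat_lit 152) (nat_lit 134511373787) (nat_lit 228) (nat_lit 220227496790) (nat_lit 46) (nat_lit 5) (nat_lit 48) (nat_lit 5) (nat_lit 49) (nat_lit 5) (nat_lit 469) (nat_lit 444) (nat_lit 287)) (XT.lf (nat_lit 0) (nat_lit 240573530535) (nat_lit 228) (nat_lit 138709451938) (nat_lit 76) (nat_lit 563858037) (nat_lit 46) (nat_lit 5) (nat_lit 49) (nat_lit 5) (nat_lit 47) (nat_lit 4) (nat_lit 470) (nat_lit 444) (nat_lit 286)))) (XT.nd (nat_lit 78) (nat_lit 228) (nat_lit 0) (XT.lf (nat_lit 0) (nat_lit 95905927826) (nat_lit 76) (nat_lit 257463577549) (nat_lit 152) (nat_lit 45578540926) (nat_lit 45) (nat_lit 5) (nat_lit 46) (nat_lit 5) (nat_lit 47) (nat_lit 4) (nat_lit 471) (nat_lit 444) (nat_lit 285)) (XT.nd (nat_lit 78) (nat_lit 152) (nat_lit 0) (XT.lf (nat_lit 0) (nat_lit 56720840217) (nat_lit 152) (nat_lit 63531044020) (nat_lit 76) (nat_lit 298907190419) (nat_lit 44) (nat_lit 5) (nat_lit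 46) (nat_lit 5) (nat_lit 45) (nat_lit 5) (nat_lit 472) (nat_lit 444) (nat_lit 284)) (XT.lf (nat_lit 0) (nat_lit 170482111340) (nat_lit 228) (nat_lit 237159324556) (nat_lit 76) (nat_lit 32791611572) (nat_lit 42) (nat_lit 5) (nat_lit 45) (nat_lit 5) (nat_lit 43) (nat_lit 4) (nat_lit 473) (nat_lit 444) (nat_lit 283))))) (XT.nd (nat_lit 234) (nat_lit 152) (nat_lit 0) (XT.nd (nat_lit 78) (nat_lit 152) (nat_lit 0) (XT.lf (nat_lit 0) (nat_lit 30103118458) (nat_lit 76) (nat_lit 268870639629) (nat_lit 152) (nat_lit 163984822114) (nat_lit 41) (nat_lit 5) (nat_lit 42) (nat_lit 5) (nat_lit 43) (nat_lit 4) (nat_lit 474) (nat_lit 444) (nat_lit 282)) (XT.nd (nat_lit 78) (nat_lit 152) (nat_lit 0) (XT.lf (nat_lit 0) (nat_lit 332233840808) (nat_lit 76) (nat_lit 111995153370) (nat_lit 152) (nat_lit 42538420773) (nat_lit 41) (nat_lit 5) (nat_lit 42) (nat_lit 5) (nat_lit 43) (nat_lit 4) (nat_lit 475) (nat_lit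 444) (nat_lit 281)) (XT.lf (nat_lit 0) (nat_lit 89365090647) (nat_lit 152) (nat_lit 362048966365) (nat_lit 76) (nat_lit 60482410200) (nat_lit 39) (nat_lit 5) (nat_lit 41) (nat_lit 5) (nat_lit 40) (nat_lit 4) (nat_lit 476) (nat_lit 444) (nat_lit 280)))) (XT.nd (nat_lit 78) (nat_lit 152) (nat_lit 0) (XT.lf (nat_lit 0) (nat_lit 236766543703) (nat_lit 152) (nat_lit 55454077945) (nat_lit 76) (nat_lit 246147323263) (nat_lit 39) (nat_lit 5) (nat_lit 41) (nat_lit 5) (nat_lit 40) (nat_lit 4) (nat_lit 477) (nat_lit 444) (nat_lit 279)) (XT.nd (nat_lit 78) (nat_lit 76) (nat_lit 0) (XT.lf (nat_lit 0) (nat_lit 290184445280) (nat_lit 76) (nat_lit 112754524980) (nat_lit 152) (nat_lit 163459861991) (nat_lit 38) (nat_lit 5) (nat_lit 39) (nat_lit 5) (nat_lit 40) (nat_lit 4) (nat_lit 478) (nat_lit 444) (nat_lit 278)) (XT.lf (nat_lit 0) (nat_lit 71673004725) (nat_lit 76) (nat_lit 515961141964) (nat_lit 76)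 (nat_lit 8619727435) (nat_lit 37) (nat_lit 4) (nat_lit 38) (nat_lit 5) (nat_lit 38) (nat_lit 4) (nat_lit 479) (nat_lit 444) (nat_lit 277)))))) (XT.nd (nat_lit 468) (nat_lit 456) (nat_lit 0) (XT.nd (nat_lit 234) (nat_lit 228) (nat_lit 0) (XT.nd (nat_lit 78) (nat_lit 76) (nat_lit 0) (XT.lf (nat_lit 0) (nat_lit 161350378814) (nat_lit 152) (nat_lit 171732725041) (nat_lit 76) (nat_lit 294254897628) (nat_lit 36) (nat_lit 5) (nat_lit 38) (nat_lit 5) (nat_lit 37) (nat_lit 4) (nat_lit 480) (nat_lit 444) (nat_lit 276)) (XT.nd (nat_lit 78) (nat_lit 0) (nat_lit 0) (XT.lf (nat_lit 0) (nat_lit 220131083053) (nat_lit 76) (nat_lit 129615401168) (nat_lit 152) (nat_lit 310720937305) (nat_lit 35) (nat_lit 5) (nat_lit 36) (nat_lit 5) (nat_lit 37) (nat_lit 4) (nat_lit 481) (nat_lit 444) (nat_lit 275)) (XT.lf (nat_lit 0) (nat_lit 560199260114) (nat_lit 152) (nat_lit 45050699100) (nat_lit 0) (nat_lit 90438437400)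 (nat_lit 35) (nat_lit 5) (nat_lit 37) (nat_lit 4) (nat_lit 35) (nat_lit 4) (nat_lit 482) (nat_lit 444) (nat_lit 274)))) (XT.nd (nat_lit 78) (nat_lit 76) (nat_lit 0) (XT.lf (nat_lit 0) (nat_lit 64356795979) (nat_lit 152) (nat_lit 335898759437) (nat_lit 76) (nat_lit 332305262348) (nat_lit 33) (nat_lit 5) (nat_lit 35) (nat_lit 5) (nat_lit 34) (nat_lit 4) (nat_lit 483) (nat_lit 444) (nat_lit 273)) (XT.nd (nat_lit 78) (nat_lit 0) (nat_lit 0) (XT.lf (nat_lit 0) (nat_lit 105726980536) (nat_lit 76) (nat_lit 170949914950) (nat_lit 152) (nat_lit 495120087255) (nat_lit 32) (nat_lit 5) (nat_lit 33) (nat_lit 5) (nat_lit 34) (nat_lit 4) (nat_lit 484) (nat_lit 444) (nat_lit 272)) (XT.lf (nat_lit 0) (nat_lit 517249787820) (nat_lit 152) (nat_lit 213735001709) (nat_lit 0) (nat_lit 82285876603) (nat_lit 32) (nat_lit 5) (nat_lit 34) (nat_lit 4) (nat_lit 32) (nat_lit 4) (nat_lit 485) (nat_lit 444) (nat_lit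 271))))) (XT.nd (nat_lit 234) (nat_lit 228) (nat_lit 0) (XT.nd (nat_lit 78) (nat_lit 152) (nat_lit 0) (XT.lf (nat_lit 0) (nat_lit 284582376882) (nat_lit 76) (nat_lit 503770539659) (nat_lit 76) (nat_lit 68806575254) (nat_lit 31) (nat_lit 4) (nat_lit 32) (nat_lit 5) (nat_lit 32) (nat_lit 4) (nat_lit 486) (nat_lit 444) (nat_lit 270)) (XT.nd (nat_lit 78) (nat_lit 76) (nat_lit 0) (XT.lf (nat_lit 0) (nat_lit 173746999411) (nat_lit 152) (nat_lit 73570254875) (nat_lit 76) (nat_lit 656422770167) (nat_lit 30) (nat_lit 5) (nat_lit 32) (nat_lit 5) (nat_lit 31) (nat_lit 4) (nat_lit 487) (nat_lit 444) (nat_lit 269)) (XT.lf (nat_lit 0) (nat_lit 444787790042) (nat_lit 152) (nat_lit 466048922471) (nat_lit 0) (nat_lit 42043290734) (nat_lit 29) (nat_lit 5) (nat_lit 31) (nat_lit 4) (nat_lit 29) (nat_lit 4) (nat_lit 488) (nat_lit 444) (nat_lit 268)))) (XT.nd (nat_lit 156) (nat_lit 76) (nat_lit 0) (XT.nd (nat_lit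 78) (nat_lit 76) (nat_lit 0) (XT.lf (nat_lit 0) (nat_lit 88404428158) (nat_lit 76) (nat_lit 659721098005) (nat_lit 76) (nat_lit 256976559603) (nat_lit 28) (nat_lit 4) (nat_lit 29) (nat_lit 5) (nat_lit 29) (nat_lit 4) (nat_lit 489) (nat_lit 444) (nat_lit 267)) (XT.lf (nat_lit 0) (nat_lit 26590106961) (nat_lit 152) (nat_lit 347437152121) (nat_lit 76) (nat_lit 686401418827) (nat_lit 27) (nat_lit 5) (nat_lit 29) (nat_lit 5) (nat_lit 28) (nat_lit 4) (nat_lit 490) (nat_lit 444) (nat_lit 266))) (XT.nd (nat_lit 78) (nat_lit 0) (nat_lit 0) (XT.lf (nat_lit 0) (nat_lit 274416808165) (nat_lit 76) (nat_lit 51141565047) (nat_lit 152) (nat_lit 793561072921) (nat_lit 26) (nat_lit 5) (nat_lit 27) (nat_lit 5) (nat_lit 28) (nat_lit 4) (nat_lit 491) (nat_lit 444) (nat_lit 265)) (XT.lf (nat_lit 0) (nat_lit 665347019961) (nat_lit 152) (nat_lit 223370905280) (nat_lit 0) (nat_lit 292435317042) (nat_lit 26) (nat_lit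 5) (nat_lit 28) (nat_lit 4) (nat_lit 26) (nat_lit 4) (nat_lit 492) (nat_lit 444) (nat_lit 264))))))) (XT.nd (nat_lit 1014) (nat_lit 608) (nat_lit 0) (XT.nd (nat_lit 468) (nat_lit 304) (nat_lit 0) (XT.nd (nat_lit 234) (nat_lit 228) (nat_lit 0) (XT.nd (nat_lit 78) (nat_lit 152) (nat_lit 0) (XT.lf (nat_lit 0) (nat_lit 469842327750) (nat_lit 76) (nat_lit 575104451133) (nat_lit 76) (nat_lit 202192721607) (nat_lit 25) (nat_lit 4) (nat_lit 26) (nat_lit 5) (nat_lit 26) (nat_lit 4) (nat_lit 493) (nat_lit 444) (nat_lit 263)) (XT.nd (nat_lit 78) (nat_lit 76) (nat_lit 0) (XT.lf (nat_lit 0) (nat_lit 135947021091) (nat_lit 152) (nat_lit 90141950291) (nat_lit 76) (nat_lit 1091551767706) (nat_lit 24) (nat_lit 5) (nat_lit 26) (nat_lit 5) (nat_lit 25) (nat_lit 4) (nat_lit 494) (nat_lit 444) (nat_lit 262)) (XT.lf (nat_lit 0) (nat_lit 510776818772) (nat_lit 152) (nat_lit 715451978149) (nat_lit 0) (nat_lit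 165488136390) (nat_lit 23) (nat_lit 5) (nat_lit 25) (nat_lit 4) (nat_lit 23) (nat_lit 4) (nat_lit 495) (nat_lit 444) (nat_lit 261)))) (XT.nd (nat_lit 78) (nat_lit 152) (nat_lit 0) (XT.lf (nat_lit 0) (nat_lit 33319013607) (nat_lit 76) (nat_lit 891476360739) (nat_lit 76) (nat_lit 546187658800) (nat_lit 22) (nat_lit 4) (nat_lit 23) (nat_lit 5) (nat_lit 23) (nat_lit 4) (nat_lit 496) (nat_lit 444) (nat_lit 260)) (XT.nd (nat_lit 78) (nat_lit 152) (nat_lit 0) (XT.lf (nat_lit 0) (nat_lit 882679980286) (nat_lit 76) (nat_lit 508817113201) (nat_lit 76) (nat_lit 163528393153) (nat_lit 22) (nat_lit 4) (nat_lit 23) (nat_lit 5) (nat_lit 23) (nat_lit 4) (nat_lit 497) (nat_lit 444) (nat_lit 259)) (XT.lf (nat_lit 0) (nat_lit 155995591424) (nat_lit 76) (nat_lit 85006489459) (nat_lit 152) (nat_lit 1404008616004) (nat_lit 20) (nat_lit 5) (nat_lit 21) (nat_lit 5) (nat_lit 22) (nat_lit 4) (nat_lit 498) (nat_lit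 444) (nat_lit 258))))) (XT.nd (nat_lit 234) (nat_lit 228) (nat_lit 0) (XT.nd (nat_lit 78) (nat_lit 76) (nat_lit 0) (XT.lf (nat_lit 0) (nat_lit 696884429944) (nat_lit 152) (nat_lit 665571935106) (nat_lit 0) (nat_lit 377172622222) (nat_lit 20) (nat_lit 5) (nat_lit 22) (nat_lit 4) (nat_lit 20) (nat_lit 4) (nat_lit 499) (nat_lit 444) (nat_lit 257)) (XT.nd (nat_lit 78) (nat_lit 0) (nat_lit 0) (XT.lf (nat_lit 0) (nat_lit 233204479220) (nat_lit 76) (nat_lit 963849381594) (nat_lit 76) (nat_lit 644137560562) (nat_lit 19) (nat_lit 4) (nat_lit 20) (nat_lit 5) (nat_lit 20) (nat_lit 4) (nat_lit 500) (nat_lit 444) (nat_lit 256)) (XT.lf (nat_lit 0) (nat_lit 1241734593022) (nat_lit 76) (nat_lit 513700130189) (nat_lit 76) (nat_lit 193988296833) (nat_lit 19) (nat_lit 4) (nat_lit 20) (nat_lit 5) (nat_lit 20) (nat_lit 4) (nat_lit 501) (nat_lit 444) (nat_lit 255)))) (XT.nd (nat_lit 156) (nat_lit 76) (nat_lit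 0) (XT.nd (nat_lit 78) (nat_lit 0) (nat_lit 0) (XT.lf (nat_lit 0) (nat_lit 271172263272) (nat_lit 76) (nat_lit 12906634823) (nat_lit 152) (nat_lit 1781150374293) (nat_lit 17) (nat_lit 5) (nat_lit 18) (nat_lit 5) (nat_lit 19) (nat_lit 4) (nat_lit 502) (nat_lit 444) (nat_lit 254)) (XT.lf (nat_lit 0) (nat_lit 822460282207) (nat_lit 152) (nat_lit 838401926001) (nat_lit 0) (nat_lit 526430786527) (nat_lit 17) (nat_lit 5) (nat_lit 19) (nat_lit 4) (nat_lit 17) (nat_lit 4) (nat_lit 503) (nat_lit 444) (nat_lit 253))) (XT.nd (nat_lit 78) (nat_lit 0) (nat_lit 0) (XT.lf (nat_lit 0) (nat_lit 203552791584) (nat_lit 76) (nat_lit 1205590037913) (nat_lit 76) (nat_lit 909560533175) (nat_lit 16) (nat_lit 4) (nat_lit 17) (nat_lit 5) (nat_lit 17) (nat_lit 4) (nat_lit 504) (nat_lit 444) (nat_lit 252)) (XT.lf (nat_lit 0) (nat_lit 1376544478826) (nat_lit 76) (nat_lit 689138862733) (nat_lit 76) (nat_lit 393109349607)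 (nat_lit 16) (nat_lit 4) (nat_lit 17) (nat_lit 5) (nat_lit 17) (nat_lit 4) (nat_lit 505) (nat_lit 444) (nat_lit 251)))))) (XT.nd (nat_lit 468) (nat_lit 228) (nat_lit 0) (XT.nd (nat_lit 234) (nat_lit 228) (nat_lit 0) (XT.nd (nat_lit 78) (nat_lit 0) (nat_lit 0) (XT.lf (nat_lit 0) (nat_lit 30870511163) (nat_lit 76) (nat_lit 126292965786) (nat_lit 152) (nat_lit 2452549494439) (nat_lit 14) (nat_lit 5) (nat_lit 15) (nat_lit 5) (nat_lit 16) (nat_lit 4) (nat_lit 506) (nat_lit 444) (nat_lit 250)) (XT.nd (nat_lit 78) (nat_lit 0) (nat_lit 0) (XT.lf (nat_lit 0) (nat_lit 772161178122) (nat_lit 152) (nat_lit 1498313788958) (nat_lit 0) (nat_lit 498059763230) (nat_lit 14) (nat_lit 5) (nat_lit 16) (nat_lit 4) (nat_lit 14) (nat_lit 4) (nat_lit 507) (nat_lit 444) (nat_lit 249)) (XT.lf (nat_lit 0) (nat_lit 1439639002799) (nat_lit 152) (nat_lit 334623220813) (nat_lit 0) (nat_lit 1165537581742) (nat_lit 14)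 (nat_lit 5) (nat_lit 16) (nat_lit 4) (nat_lit 14) (nat_lit 4) (nat_lit 508) (nat_lit 444) (nat_lit 248)))) (XT.nd (nat_lit 78) (nat_lit 152) (nat_lit 0) (XT.lf (nat_lit 0) (nat_lit 970721982177) (nat_lit 76) (nat_lit 1213138931103) (nat_lit 76) (nat_lit 939037504337) (nat_lit 13) (nat_lit 4) (nat_lit 14) (nat_lit 5) (nat_lit 14) (nat_lit 4) (nat_lit 509) (nat_lit 444) (nat_lit 247)) (XT.nd (nat_lit 78) (nat_lit 152) (nat_lit 0) (XT.lf (nat_lit 0) (nat_lit 2399525066282) (nat_lit 76) (nat_lit 597244675699) (nat_lit 76) (nat_lit 323143243648) (nat_lit 13) (nat_lit 4) (nat_lit 14) (nat_lit 5) (nat_lit 14) (nat_lit 4) (nat_lit 510) (nat_lit 444) (nat_lit 246)) (XT.lf (nat_lit 0) (nat_lit 337194569539) (nat_lit 152) (nat_lit 3110456645531) (nat_lit 0) (nat_lit 83396942738) (nat_lit 11) (nat_lit 5) (nat_lit 13) (nat_lit 4) (nat_lit 11) (nat_lit 4) (nat_lit 511) (nat_lit 444) (nat_lit 245)))))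 (XT.nd (nat_lit 234) (nat_lit 152) (nat_lit 0) (XT.nd (nat_lit 78) (nat_lit 76) (nat_lit 0) (XT.lf (nat_lit 0) (nat_lit 1074232776999) (nat_lit 152) (nat_lit 1860428234464) (nat_lit 0) (nat_lit 820435146002) (nat_lit 11) (nat_lit 5) (nat_lit 13) (nat_lit 4) (nat_lit 11) (nat_lit 4) (nat_lit 512) (nat_lit 444) (nat_lit 244)) (XT.nd (nat_lit 78) (nat_lit 76) (nat_lit 0) (XT.lf (nat_lit 0) (nat_lit 1870234017801) (nat_lit 152) (nat_lit 510397598236) (nat_lit 0) (nat_lit 1616436382919) (nat_lit 11) (nat_lit 5) (nat_lit 13) (nat_lit 4) (nat_lit 11) (nat_lit 4) (nat_lit 513) (nat_lit 444) (nat_lit 243)) (XT.lf (nat_lit 0) (nat_lit 997536247865) (nat_lit 76) (nat_lit 1756369859221) (nat_lit 76) (nat_lit 1502572220741) (nat_lit 10) (nat_lit 4) (nat_lit 11) (nat_lit 5) (nat_lit 11) (nat_lit 4) (nat_lit 514) (nat_lit 444) (nat_lit 242)))) (XT.nd (nat_lit 156) (nat_lit 152) (nat_lit 0) (XT.nd (nat_lit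 78) (nat_lit 0) (nat_lit 0) (XT.lf (nat_lit 0) (nat_lit 2655131522246) (nat_lit 76) (nat_lit 1067095595131) (nat_lit 76) (nat_lit 813297953321) (nat_lit 10) (nat_lit 4) (nat_lit 11) (nat_lit 5) (nat_lit 11) (nat_lit 4) (nat_lit 515) (nat_lit 444) (nat_lit 241)) (XT.lf (nat_lit 0) (nat_lit 4445334378698) (nat_lit 76) (nat_lit 322679410376) (nat_lit 76) (nat_lit 68881765481) (nat_lit 10) (nat_lit 4) (nat_lit 11) (nat_lit 5) (nat_lit 11) (nat_lit 4) (nat_lit 516) (nat_lit 444) (nat_lit 240))) (XT.nd (nat_lit 78) (nat_lit 0) (nat_lit 0) (XT.lf (nat_lit 0) (nat_lit 741484898698) (nat_lit 152) (nat_lit 3909535851847) (nat_lit 0) (nat_lit 506487076707) (nat_lit 8) (nat_lit 5) (nat_lit 10) (nat_lit 4) (nat_lit 8) (nat_lit 4) (nat_lit 517) (nat_lit 444) (nat_lit 239)) (XT.lf (nat_lit 0) (nat_lit 1632324810264) (nat_lit 152) (nat_lit 2472424929237) (nat_lit 0) (nat_lit 1397326985825) (nat_lit 8)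 (nat_lit 5) (nat_lit 10) (nat_lit 4) (nat_lit 8) (nat_lit 4) (nat_lit 518) (nat_lit 444) (nat_lit 238))))))))
noncomputable def xc192 : XT := (XT.nd (nat_lit 57720) (nat_lit 0) (nat_lit 2356) (XT.nd (nat_lit 56706) (nat_lit 0) (nat_lit 4636) (XT.nd (nat_lit 468) (nat_lit 76) (nat_lit 0) (XT.nd (nat_lit 234) (nat_lit 152) (nat_lit 0) (XT.nd (nat_lit 78) (nat_lit 76) (nat_lit 0) (XT.lf (nat_lit 0) (nat_lit 2594431897694) (nat_lit 152) (nat_lit 920345167930) (nat_lit 0) (nat_lit 2359434070988) (nat_lit 8) (nat_lit 5) (nat_lit 10) (nat_lit 4) (nat_lit 8) (nat_lit 4) (nat_lit 519) (nat_lit 444) (nat_lit 237)) (XT.nd (nat_lit 78) (nat_lit 0) (nat_lit 0) (XT.lf (nat_lit 0) (nat_lit 795705345794) (nat_lit 76) (nat_lit 2856938923229) (nat_lit 76) (nat_lit 2621941094424) (nat_lit 7) (nat_lit 4) (nat_lit 8) (nat_lit 5) (nat_lit 8) (nat_lit 4) (nat_lit 520) (nat_lit 444) (nat_lit 236)) (XT.lf (nat_lit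 0) (nat_lit 2701380714125) (nat_lit 76) (nat_lit 2119296768427) (nat_lit 76) (nat_lit 1884298937678) (nat_lit 7) (nat_lit 4) (nat_lit 8) (nat_lit 5) (nat_lit 8) (nat_lit 4) (nat_lit 521) (nat_lit 444) (nat_lit 235)))) (XT.nd (nat_lit 78) (nat_lit 152) (nat_lit 0) (XT.lf (nat_lit 0) (nat_lit 4759510082584) (nat_lit 76) (nat_lit 1322643256330) (nat_lit 76) (nat_lit 1087645423782) (nat_lit 7) (nat_lit 4) (nat_lit 8) (nat_lit 5) (nat_lit 8) (nat_lit 4) (nat_lit 522) (nat_lit 444) (nat_lit 234)) (XT.nd (nat_lit 78) (nat_lit 152) (nat_lit 0) (XT.lf (nat_lit 0) (nat_lit 6982289773352) (nat_lit 76) (nat_lit 462257477239) (nat_lit 76) (nat_lit 227259643025) (nat_lit 7) (nat_lit 4) (nat_lit 8) (nat_lit 5) (nat_lit 8) (nat_lit 4) (nat_lit 523) (nat_lit 444) (nat_lit 233)) (XT.lf (nat_lit 0) (nat_lit 708434092520) (nat_lit 152) (nat_lit 7010020166059) (nat_lit 0) (nat_lit 490843503856) (nat_lit 5)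 (nat_lit 5) (nat_lit 7) (nat_lit 4) (nat_lit 5) (nat_lit 4) (nat_lit 524) (nat_lit 444) (nat_lit 232))))) (XT.nd (nat_lit 234) (nat_lit 76) (nat_lit 0) (XT.nd (nat_lit 78) (nat_lit 0) (nat_lit 0) (XT.lf (nat_lit 0) (nat_lit 1738054376975) (nat_lit 152) (nat_lit 5528289591076) (nat_lit 0) (nat_lit 1520463786988) (nat_lit 5) (nat_lit 5) (nat_lit 7) (nat_lit 4) (nat_lit 5) (nat_lit 4) (nat_lit 525) (nat_lit 444) (nat_lit 231)) (XT.nd (nat_lit 78) (nat_lit 0) (nat_lit 0) (XT.lf (nat_lit 0) (nat_lit 2850044272592) (nat_lit 152) (nat_lit 3928020594008) (nat_lit 0) (nat_lit 2632453681380) (nat_lit 5) (nat_lit 5) (nat_lit 7) (nat_lit 4) (nat_lit 5) (nat_lit 4) (nat_lit 526) (nat_lit 444) (nat_lit 230)) (XT.lf (nat_lit 0) (nat_lit 4050993349122) (nat_lit 152) (nat_lit 2199730099317) (nat_lit 0) (nat_lit 3833402756777) (nat_lit 5) (nat_lit 5) (nat_lit 7) (nat_lit 4) (nat_lit 5) (nat_lit 4) (nat_lit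 527) (nat_lit 444) (nat_lit 229)))) (XT.nd (nat_lit 78) (nat_lit 76) (nat_lit 0) (XT.lf (nat_lit 0) (nat_lit 5348018341834) (nat_lit 152) (nat_lit 333176385552) (nat_lit 0) (nat_lit 5130427748439) (nat_lit 5) (nat_lit 5) (nat_lit 7) (nat_lit 4) (nat_lit 5) (nat_lit 4) (nat_lit 528) (nat_lit 444) (nat_lit 228)) (XT.nd (nat_lit 78) (nat_lit 0) (nat_lit 0) (XT.lf (nat_lit 0) (nat_lit 1771309690916) (nat_lit 76) (nat_lit 5020095674509) (nat_lit 76) (nat_lit 4802505080141) (nat_lit 4) (nat_lit 4) (nat_lit 5) (nat_lit 5) (nat_lit 5) (nat_lit 4) (nat_lit 529) (nat_lit 444) (nat_lit 227)) (XT.lf (nat_lit 0) (nat_lit 4063102671267) (nat_lit 76) (nat_lit 4296270303490) (nat_lit 76) (nat_lit 4078679708222) (nat_lit 4) (nat_lit 4) (nat_lit 5) (nat_lit 5) (nat_lit 5) (nat_lit 4) (nat_lit 530) (nat_lit 444) (nat_lit 226)))))) (XT.nd (nat_lit 468) (nat_lit 760) (nat_lit 0) (XT.nd (nat_lit 234) (nat_lit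 456) (nat_lit 0) (XT.nd (nat_lit 78) (nat_lit 0) (nat_lit 0) (XT.lf (nat_lit 0) (nat_lit 62808737249) (nat_lit 532) (nat_lit 1003095460) (nat_lit 532) (nat_lit 1003095460) (nat_lit 81) (nat_lit 3) (nat_lit 88) (nat_lit 3) (nat_lit 88) (nat_lit 5) (nat_lit 445) (nat_lit 445) (nat_lit 310)) (XT.nd (nat_lit 78) (nat_lit 0) (nat_lit 0) (XT.lf (nat_lit 76) (nat_lit 65570737845) (nat_lit 0) (nat_lit 66652085281) (nat_lit 532) (nat_lit 2465774514) (nat_lit 82) (nat_lit 5) (nat_lit 81) (nat_lit 3) (nat_lit 88) (nat_lit 5) (nat_lit 446) (nat_lit 445) (nat_lit 309)) (XT.lf (nat_lit 76) (nat_lit 138667705897) (nat_lit 0) (nat_lit 743374180) (nat_lit 532) (nat_lit 736599832) (nat_lit 82) (nat_lit 5) (nat_lit 81) (nat_lit 3) (nat_lit 88) (nat_lit 5) (nat_lit 447) (nat_lit 445) (nat_lit 308)))) (XT.nd (nat_lit 78) (nat_lit 0) (nat_lit 0) (XT.lf (nat_lit 0) (nat_lit 4626950225) (nat_lit 532) (nat_lit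 72329454456) (nat_lit 608) (nat_lit 68800699167) (nat_lit 75) (nat_lit 5) (nat_lit 82) (nat_lit 5) (nat_lit 83) (nat_lit 5) (nat_lit 448) (nat_lit 445) (nat_lit 307)) (XT.nd (nat_lit 78) (nat_lit 0) (nat_lit 76) (XT.lf (nat_lit 76) (nat_lit 2695096885) (nat_lit 0) (nat_lit 7810004022) (nat_lit 608) (nat_lit 141298625304) (nat_lit 76) (nat_lit 5) (nat_lit 75) (nat_lit 5) (nat_lit 83) (nat_lit 5) (nat_lit 449) (nat_lit 445) (nat_lit 306)) (XT.lf (nat_lit 0) (nat_lit 20490356590) (nat_lit 532) (nat_lit 72000620219) (nat_lit 608) (nat_lit 65552153393) (nat_lit 76) (nat_lit 5) (nat_lit 83) (nat_lit 5) (nat_lit 84) (nat_lit 5) (nat_lit 450) (nat_lit 445) (nat_lit 305))))) (XT.nd (nat_lit 234) (nat_lit 456) (nat_lit 0) (XT.nd (nat_lit 78) (nat_lit 380) (nat_lit 0) (XT.lf (nat_lit 76) (nat_lit 11656015187) (nat_lit 0) (nat_lit 20101316328) (nat_lit 608) (nat_lit 132985723159) (nat_lit 77) (nat_lit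 5) (nat_lit 76) (nat_lit 5) (nat_lit 84) (nat_lit 5) (nat_lit 451) (nat_lit 445) (nat_lit 304)) (XT.nd (nat_lit 78) (nat_lit 456) (nat_lit 0) (XT.lf (nat_lit 0) (nat_lit 47341966479) (nat_lit 532) (nat_lit 67169764370) (nat_lit 76) (nat_lit 57193938154) (nat_lit 77) (nat_lit 5) (nat_lit 84) (nat_lit 5) (nat_lit 78) (nat_lit 5) (nat_lit 452) (nat_lit 445) (nat_lit 303)) (XT.lf (nat_lit 0) (nat_lit 26420189565) (nat_lit 456) (nat_lit 38910451541) (nat_lit 532) (nat_lit 113802069920) (nat_lit 71) (nat_lit 5) (nat_lit 77) (nat_lit 5) (nat_lit 78) (nat_lit 5) (nat_lit 453) (nat_lit 445) (nat_lit 302)))) (XT.nd (nat_lit 156) (nat_lit 228) (nat_lit 0) (XT.nd (nat_lit 78) (nat_lit 228) (nat_lit 0) (XT.lf (nat_lit 0) (nat_lit 87670288403) (nat_lit 532) (nat_lit 56765473111) (nat_lit 76) (nat_lit 42485204654) (nat_lit 71) (nat_lit 5) (nat_lit 78) (nat_lit 5) (nat_lit 72) (nat_lit 5) (nat_lit 454)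 (nat_lit 445) (nat_lit 301)) (XT.lf (nat_lit 0) (nat_lit 48260640034) (nat_lit 228) (nat_lit 65707579251) (nat_lit 304) (nat_lit 81190373542) (nat_lit 68) (nat_lit 5) (nat_lit 71) (nat_lit 5) (nat_lit 72) (nat_lit 5) (nat_lit 455) (nat_lit 445) (nat_lit 300))) (XT.nd (nat_lit 78) (nat_lit 228) (nat_lit 0) (XT.lf (nat_lit 0) (nat_lit 144426777297) (nat_lit 304) (nat_lit 39519092712) (nat_lit 76) (nat_lit 19944816241) (nat_lit 68) (nat_lit 5) (nat_lit 72) (nat_lit 5) (nat_lit 69) (nat_lit 5) (nat_lit 456) (nat_lit 445) (nat_lit 299)) (XT.lf (nat_lit 0) (nat_lit 78679005039) (nat_lit 228) (nat_lit 102241744251) (nat_lit 304) (nat_lit 32112699553) (nat_lit 65) (nat_lit 5) (nat_lit 68) (nat_lit 5) (nat_lit 69) (nat_lit 5) (nat_lit 457) (nat_lit 445) (nat_lit 298))))))) (XT.nd (nat_lit 936) (nat_lit 988) (nat_lit 0) (XT.nd (nat_lit 468) (nat_lit 684) (nat_lit 0) (XT.nd (nat_lit 234) (nat_lit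 152) (nat_lit 0) (XT.nd (nat_lit 78) (nat_lit 456) (nat_lit 0) (XT.lf (nat_lit 0) (nat_lit 208580218833) (nat_lit 228) (nat_lit 12834358308) (nat_lit 304) (nat_lit 1406628293) (nat_lit 65) (nat_lit 5) (nat_lit 68) (nat_lit 5) (nat_lit 69) (nat_lit 5) (nat_lit 458) (nat_lit 445) (nat_lit 297)) (XT.nd (nat_lit 78) (nat_lit 228) (nat_lit 0) (XT.lf (nat_lit 0) (nat_lit 35180311245) (nat_lit 228) (nat_lit 114449001545) (nat_lit 76) (nat_lit 83300535909) (nat_lit 62) (nat_lit 5) (nat_lit 65) (nat_lit 5) (nat_lit 63) (nat_lit 5) (nat_lit 459) (nat_lit 445) (nat_lit 296)) (XT.lf (nat_lit 0) (nat_lit 19404769598) (nat_lit 228) (nat_lit 56412806747) (nat_lit 304) (nat_lit 167930735058) (nat_lit 59) (nat_lit 5) (nat_lit 62) (nat_lit 5) (nat_lit 63) (nat_lit 5) (nat_lit 460) (nat_lit 445) (nat_lit 295)))) (XT.nd (nat_lit 78) (nat_lit 152) (nat_lit 0) (XT.lf (nat_lit 0) (nat_lit 123980657068) (nat_lit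 304) (nat_lit 85852234912) (nat_lit 76) (nat_lit 45257372418) (nat_lit 59) (nat_lit 5) (nat_lit 63) (nat_lit 5) (nat_lit 60) (nat_lit 5) (nat_lit 461) (nat_lit 445) (nat_lit 294)) (XT.nd (nat_lit 78) (nat_lit 0) (nat_lit 0) (XT.lf (nat_lit 0) (nat_lit 65531028964) (nat_lit 152) (nat_lit 113506896167) (nat_lit 228) (nat_lit 88058357260) (nat_lit 57) (nat_lit 5) (nat_lit 59) (nat_lit 5) (nat_lit 60) (nat_lit 5) (nat_lit 462) (nat_lit 445) (nat_lit 293)) (XT.lf (nat_lit 0) (nat_lit 233907244539) (nat_lit 152) (nat_lit 6939738921) (nat_lit 228) (nat_lit 39028021680) (nat_lit 57) (nat_lit 5) (nat_lit 59) (nat_lit 5) (nat_lit 60) (nat_lit 5) (nat_lit 463) (nat_lit 445) (nat_lit 292))))) (XT.nd (nat_lit 234) (nat_lit 304) (nat_lit 0) (XT.nd (nat_lit 78) (nat_lit 152) (nat_lit 0) (XT.lf (nat_lit 0) (nat_lit 18999948304) (nat_lit 228) (nat_lit 167939318414) (nat_lit 76) (nat_lit 106248225425) (nat_lit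 54) (nat_lit 5) (nat_lit 57) (nat_lit 5) (nat_lit 55) (nat_lit 5) (nat_lit 464) (nat_lit 445) (nat_lit 291)) (XT.nd (nat_lit 78) (nat_lit 0) (nat_lit 0) (XT.lf (nat_lit 0) (nat_lit 4299443283) (nat_lit 152) (nat_lit 76835193483) (nat_lit 228) (nat_lit 226223403552) (nat_lit 52) (nat_lit 5) (nat_lit 54) (nat_lit 5) (nat_lit 55) (nat_lit 5) (nat_lit 465) (nat_lit 445) (nat_lit 290)) (XT.lf (nat_lit 0) (nat_lit 153962954544) (nat_lit 228) (nat_lit 123558154178) (nat_lit 76) (nat_lit 44683295303) (nat_lit 52) (nat_lit 5) (nat_lit 55) (nat_lit 5) (nat_lit 53) (nat_lit 5) (nat_lit 466) (nat_lit 445) (nat_lit 289)))) (XT.nd (nat_lit 78) (nat_lit 152) (nat_lit 0) (XT.lf (nat_lit 0) (nat_lit 71903312654) (nat_lit 152) (nat_lit 164439101722) (nat_lit 228) (nat_lit 101598072338) (nat_lit 50) (nat_lit 5) (nat_lit 52) (nat_lit 5) (nat_lit 53) (nat_lit 5) (nat_lit 467) (nat_lit 445) (nat_lit 288)) (XT.nd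 (nat_lit 78) (nat_lit 152) (nat_lit 0) (XT.lf (nat_lit 0) (nat_lit 290028376228) (nat_lit 152) (nat_lit 38662039025) (nat_lit 228) (nat_lit 25974786042) (nat_lit 50) (nat_lit 5) (nat_lit 52) (nat_lit 5) (nat_lit 53) (nat_lit 5) (nat_lit 468) (nat_lit 445) (nat_lit 287)) (XT.lf (nat_lit 0) (nat_lit 59219897699) (nat_lit 152) (nat_lit 215269942442) (nat_lit 76) (nat_lit 97626265776) (nat_lit 48) (nat_lit 5) (nat_lit 50) (nat_lit 5) (nat_lit 49) (nat_lit 5) (nat_lit 469) (nat_lit 445) (nat_lit 286)))))) (XT.nd (nat_lit 468) (nat_lit 456) (nat_lit 0) (XT.nd (nat_lit 234) (nat_lit 304) (nat_lit 0) (XT.nd (nat_lit 78) (nat_lit 76) (nat_lit 0) (XT.lf (nat_lit 0) (nat_lit 7555018068) (nat_lit 152) (nat_lit 145270814475) (nat_lit 228) (nat_lit 237843357636) (nat_lit 46) (nat_lit 5) (nat_lit 48) (nat_lit 5) (nat_lit 49) (nat_lit 5) (nat_lit 470) (nat_lit 445) (nat_lit 285)) (XT.nd (nat_lit 78) (nat_lit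 76) (nat_lit 0) (XT.lf (nat_lit 0) (nat_lit 259821450716) (nat_lit 228) (nat_lit 149802714780) (nat_lit 76) (nat_lit 610259012) (nat_lit 46) (nat_lit 5) (nat_lit 49) (nat_lit 5) (nat_lit 47) (nat_lit 4) (nat_lit 471) (nat_lit 445) (nat_lit 284)) (XT.lf (nat_lit 0) (nat_lit 103581806926) (nat_lit 76) (nat_lit 278059227562) (nat_lit 152) (nat_lit 49222697817) (nat_lit 45) (nat_lit 5) (nat_lit 46) (nat_lit 5) (nat_lit 47) (nat_lit 4) (nat_lit 472) (nat_lit 445) (nat_lit 283)))) (XT.nd (nat_lit 78) (nat_lit 228) (nat_lit 0) (XT.lf (nat_lit 0) (nat_lit 61260377817) (nat_lit 152) (nat_lit 68610276213) (nat_lit 76) (nat_lit 322820996792) (nat_lit 44) (nat_lit 5) (nat_lit 46) (nat_lit 5) (nat_lit 45) (nat_lit 5) (nat_lit 473) (nat_lit 445) (nat_lit 282)) (XT.nd (nat_lit 78) (nat_lit 76) (nat_lit 0) (XT.lf (nat_lit 0) (nat_lit 184122521029) (nat_lit 228) (nat_lit 256128789428) (nat_lit 76) (nat_lit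 35416233383) (nat_lit 42) (nat_lit 5) (nat_lit 45) (nat_lit 5) (nat_lit 43) (nat_lit 4) (nat_lit 474) (nat_lit 445) (nat_lit 281)) (XT.lf (nat_lit 0) (nat_lit 32514565961) (nat_lit 76) (nat_lit 290378874112) (nat_lit 152) (nat_lit 177101683885) (nat_lit 41) (nat_lit 5) (nat_lit 42) (nat_lit 5) (nat_lit 43) (nat_lit 4) (nat_lit 475) (nat_lit 445) (nat_lit 280))))) (XT.nd (nat_lit 234) (nat_lit 304) (nat_lit 0) (XT.nd (nat_lit 78) (nat_lit 152) (nat_lit 0) (XT.lf (nat_lit 0) (nat_lit 358815509209) (nat_lit 76) (nat_lit 120953453892) (nat_lit 152) (nat_lit 45939712955) (nat_lit 41) (nat_lit 5) (nat_lit 42) (nat_lit 5) (nat_lit 43) (nat_lit 4) (nat_lit 476) (nat_lit 445) (nat_lit 279)) (XT.nd (nat_lit 78) (nat_lit 0) (nat_lit 0) (XT.lf (nat_lit 0) (nat_lit 96515968505) (nat_lit 152) (nat_lit 391009811415) (nat_lit 76) (nat_lit 65322270902) (nat_lit 39) (nat_lit 5) (nat_lit 41) (nat_lit 5) (nat_lit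 40) (nat_lit 4) (nat_lit 477) (nat_lit 445) (nat_lit 278)) (XT.lf (nat_lit 0) (nat_lit 255709414056) (nat_lit 152) (nat_lit 59887559496) (nat_lit 76) (nat_lit 265840283092) (nat_lit 39) (nat_lit 5) (nat_lit 41) (nat_lit 5) (nat_lit 40) (nat_lit 4) (nat_lit 478) (nat_lit 445) (nat_lit 277)))) (XT.nd (nat_lit 156) (nat_lit 152) (nat_lit 0) (XT.nd (nat_lit 78) (nat_lit 76) (nat_lit 0) (XT.lf (nat_lit 0) (nat_lit 313401973570) (nat_lit 76) (nat_lit 121773613269) (nat_lit 152) (nat_lit 176535031973) (nat_lit 38) (nat_lit 5) (nat_lit 39) (nat_lit 5) (nat_lit 40) (nat_lit 4) (nat_lit 479) (nat_lit 445) (nat_lit 276)) (XT.lf (nat_lit 0) (nat_lit 77409634700) (nat_lit 76) (nat_lit 557236727101) (nat_lit 76) (nat_lit 9307703487) (nat_lit 37) (nat_lit 4) (nat_lit 38) (nat_lit 5) (nat_lit 38) (nat_lit 4) (nat_lit 480) (nat_lit 445) (nat_lit 275))) (XT.nd (nat_lit 78) (nat_lit 76) (nat_lit 0) (XT.lf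 (nat_lit 0) (nat_lit 174259818375) (nat_lit 152) (nat_lit 185468685793) (nat_lit 76) (nat_lit 317796424610) (nat_lit 36) (nat_lit 5) (nat_lit 38) (nat_lit 5) (nat_lit 37) (nat_lit 4) (nat_lit 481) (nat_lit 445) (nat_lit 274)) (XT.lf (nat_lit 0) (nat_lit 237744159676) (nat_lit 76) (nat_lit 139983410439) (nat_lit 152) (nat_lit 335577135685) (nat_lit 35) (nat_lit 5) (nat_lit 36) (nat_lit 5) (nat_lit 37) (nat_lit 4) (nat_lit 482) (nat_lit 445) (nat_lit 273))))))))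
noncomputable def xc193 : XT := (XT.nd (nat_lit 1950) (nat_lit 760) (nat_lit 0) (XT.nd (nat_lit 936) (nat_lit 836) (nat_lit 0) (XT.nd (nat_lit 468) (nat_lit 380) (nat_lit 0) (XT.nd (nat_lit 234) (nat_lit 152) (nat_lit 0) (XT.nd (nat_lit 78) (nat_lit 228) (nat_lit 0) (XT.lf (nat_lit 0) (nat_lit 605016494039) (nat_lit 152) (nat_lit 48652282789) (nat_lit 0) (nat_lit 97674587995) (nat_lit 35) (nat_lit 5) (nat_lit 37) (nat_lit 4) (nat_lit 35) (nat_lit 4) (nat_lit 483) (nat_lit 445) (nat_lit 272)) (XT.nd (nat_lit 78) (nat_lit 76) (nat_lit 0) (XT.lf (nat_lit 0) (nat_lit 69506627605) (nat_lit 152) (nat_lit 362768182660) (nat_lit 76) (nat_lit 358890769823) (nat_lit 33) (nat_lit 5) (nat_lit 35) (nat_lit 5) (nat_lit 34) (nat_lit 4) (nat_lit 484) (nat_lit 445) (nat_lit 271)) (XT.lf (nat_lit 0) (nat_lit 114187553789) (nat_lit 76) (nat_lit 184624743957) (nat_lit 152) (nat_lit 534728343510) (nat_lit 32)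 (nat_lit 5) (nat_lit 33) (nat_lit 5) (nat_lit 34) (nat_lit 4) (nat_lit 485) (nat_lit 445) (nat_lit 270)))) (XT.nd (nat_lit 78) (nat_lit 152) (nat_lit 0) (XT.lf (nat_lit 0) (nat_lit 558630954752) (nat_lit 152) (nat_lit 230831499145) (nat_lit 0) (nat_lit 88869770760) (nat_lit 32) (nat_lit 5) (nat_lit 34) (nat_lit 4) (nat_lit 32) (nat_lit 4) (nat_lit 486) (nat_lit 445) (nat_lit 269)) (XT.nd (nat_lit 78) (nat_lit 76) (nat_lit 0) (XT.lf (nat_lit 0) (nat_lit 307351211436) (nat_lit 76) (nat_lit 544071088616) (nat_lit 76) (nat_lit 74309859024) (nat_lit 31) (nat_lit 4) (nat_lit 32) (nat_lit 5) (nat_lit 32) (nat_lit 4) (nat_lit 487) (nat_lit 445) (nat_lit 268)) (XT.lf (nat_lit 0) (nat_lit 187647852057) (nat_lit 152) (nat_lit 79453739534) (nat_lit 76) (nat_lit 708937547363) (nat_lit 30) (nat_lit 5) (nat_lit 32) (nat_lit 5) (nat_lit 31) (nat_lit 4) (nat_lit 488) (nat_lit 445) (nat_lit 267))))) (XT.nd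 (nat_lit 234) (nat_lit 152) (nat_lit 0) (XT.nd (nat_lit 78) (nat_lit 152) (nat_lit 0) (XT.lf (nat_lit 0) (nat_lit 480371899589) (nat_lit 152) (nat_lit 503330694150) (nat_lit 0) (nat_lit 45407722822) (nat_lit 29) (nat_lit 5) (nat_lit 31) (nat_lit 4) (nat_lit 29) (nat_lit 4) (nat_lit 489) (nat_lit 445) (nat_lit 266)) (XT.nd (nat_lit 78) (nat_lit 76) (nat_lit 0) (XT.lf (nat_lit 0) (nat_lit 95478870298) (nat_lit 76) (nat_lit 712497754046) (nat_lit 76) (nat_lit 277533543761) (nat_lit 28) (nat_lit 4) (nat_lit 29) (nat_lit 5) (nat_lit 29) (nat_lit 4) (nat_lit 490) (nat_lit 445) (nat_lit 265)) (XT.lf (nat_lit 0) (nat_lit 28718318806) (nat_lit 152) (nat_lit 375230138200) (nat_lit 76) (nat_lit 741314434842) (nat_lit 27) (nat_lit 5) (nat_lit 29) (nat_lit 5) (nat_lit 28) (nat_lit 4) (nat_lit 491) (nat_lit 445) (nat_lit 264)))) (XT.nd (nat_lit 78) (nat_lit 76) (nat_lit 0) (XT.lf (nat_lit 0) (nat_lit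 296372088628) (nat_lit 76) (nat_lit 55231929968) (nat_lit 152) (nat_lit 857044905157) (nat_lit 26) (nat_lit 5) (nat_lit 27) (nat_lit 5) (nat_lit 28) (nat_lit 4) (nat_lit 492) (nat_lit 445) (nat_lit 263)) (XT.nd (nat_lit 78) (nat_lit 76) (nat_lit 0) (XT.lf (nat_lit 0) (nat_lit 718575706208) (nat_lit 152) (nat_lit 241238734382) (nat_lit 0) (nat_lit 315830987077) (nat_lit 26) (nat_lit 5) (nat_lit 28) (nat_lit 4) (nat_lit 26) (nat_lit 4) (nat_lit 493) (nat_lit 445) (nat_lit 262)) (XT.lf (nat_lit 0) (nat_lit 507431510624) (nat_lit 76) (nat_lit 621111909937) (nat_lit 76) (nat_lit 218367167995) (nat_lit 25) (nat_lit 4) (nat_lit 26) (nat_lit 5) (nat_lit 26) (nat_lit 4) (nat_lit 494) (nat_lit 445) (nat_lit 261)))))) (XT.nd (nat_lit 468) (nat_lit 456) (nat_lit 0) (XT.nd (nat_lit 234) (nat_lit 152) (nat_lit 0) (XT.nd (nat_lit 78) (nat_lit 152) (nat_lit 0) (XT.lf (nat_lit 0) (nat_lit 146823637177)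 (nat_lit 152) (nat_lit 97351597734) (nat_lit 76) (nat_lit 1178876694931) (nat_lit 24) (nat_lit 5) (nat_lit 26) (nat_lit 5) (nat_lit 25) (nat_lit 4) (nat_lit 495) (nat_lit 445) (nat_lit 260)) (XT.nd (nat_lit 78) (nat_lit 76) (nat_lit 0) (XT.lf (nat_lit 0) (nat_lit 551639815496) (nat_lit 152) (nat_lit 772686424626) (nat_lit 0) (nat_lit 178727979736) (nat_lit 23) (nat_lit 5) (nat_lit 25) (nat_lit 4) (nat_lit 23) (nat_lit 4) (nat_lit 496) (nat_lit 445) (nat_lit 259)) (XT.lf (nat_lit 0) (nat_lit 35986203134) (nat_lit 76) (nat_lit 962793629455) (nat_lit 76) (nat_lit 589881776928) (nat_lit 22) (nat_lit 4) (nat_lit 23) (nat_lit 5) (nat_lit 23) (nat_lit 4) (nat_lit 497) (nat_lit 445) (nat_lit 258)))) (XT.nd (nat_lit 78) (nat_lit 152) (nat_lit 0) (XT.lf (nat_lit 0) (nat_lit 953295923559) (nat_lit 76) (nat_lit 549521704346) (nat_lit 76) (nat_lit 176609836294) (nat_lit 22) (nat_lit 4) (nat_lit 23)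 (nat_lit 5) (nat_lit 23) (nat_lit 4) (nat_lit 498) (nat_lit 445) (nat_lit 257)) (XT.nd (nat_lit 78) (nat_lit 0) (nat_lit 0) (XT.lf (nat_lit 0) (nat_lit 168476784879) (nat_lit 76) (nat_lit 91806228248) (nat_lit 152) (nat_lit 1516328478235) (nat_lit 20) (nat_lit 5) (nat_lit 21) (nat_lit 5) (nat_lit 22) (nat_lit 4) (nat_lit 499) (nat_lit 445) (nat_lit 256)) (XT.lf (nat_lit 0) (nat_lit 752635910766) (nat_lit 152) (nat_lit 718816218943) (nat_lit 0) (nat_lit 407347118417) (nat_lit 20) (nat_lit 5) (nat_lit 22) (nat_lit 4) (nat_lit 20) (nat_lit 4) (nat_lit 500) (nat_lit 445) (nat_lit 255))))) (XT.nd (nat_lit 234) (nat_lit 228) (nat_lit 0) (XT.nd (nat_lit 78) (nat_lit 152) (nat_lit 0) (XT.lf (nat_lit 0) (nat_lit 251862271289) (nat_lit 76) (nat_lit 1040956605488) (nat_lit 76) (nat_lit 695667801728) (nat_lit 19) (nat_lit 4) (nat_lit 20) (nat_lit 5) (nat_lit 20) (nat_lit 4) (nat_lit 501) (nat_lit 445)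 (nat_lit 254)) (XT.nd (nat_lit 78) (nat_lit 152) (nat_lit 0) (XT.lf (nat_lit 0) (nat_lit 1341074687993) (nat_lit 76) (nat_lit 554795467796) (nat_lit 76) (nat_lit 209506653470) (nat_lit 19) (nat_lit 4) (nat_lit 20) (nat_lit 5) (nat_lit 20) (nat_lit 4) (nat_lit 502) (nat_lit 445) (nat_lit 253)) (XT.lf (nat_lit 0) (nat_lit 292867372742) (nat_lit 76) (nat_lit 13938491128) (nat_lit 152) (nat_lit 1923641697986) (nat_lit 17) (nat_lit 5) (nat_lit 18) (nat_lit 5) (nat_lit 19) (nat_lit 4) (nat_lit 503) (nat_lit 445) (nat_lit 252)))) (XT.nd (nat_lit 156) (nat_lit 152) (nat_lit 0) (XT.nd (nat_lit 78) (nat_lit 76) (nat_lit 0) (XT.lf (nat_lit 0) (nat_lit 888257725291) (nat_lit 152) (nat_lit 905472816645) (nat_lit 0) (nat_lit 568545842728) (nat_lit 17) (nat_lit 5) (nat_lit 19) (nat_lit 4) (nat_lit 17) (nat_lit 4) (nat_lit 504) (nat_lit 445) (nat_lit 251)) (XT.lf (nat_lit 0) (nat_lit 219838246360) (nat_lit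 76) (nat_lit 1302036613657) (nat_lit 76) (nat_lit 982324723327) (nat_lit 16) (nat_lit 4) (nat_lit 17) (nat_lit 5) (nat_lit 17) (nat_lit 4) (nat_lit 505) (nat_lit 445) (nat_lit 250))) (XT.nd (nat_lit 78) (nat_lit 152) (nat_lit 0) (XT.lf (nat_lit 0) (nat_lit 1486669177363) (nat_lit 76) (nat_lit 744269390928) (nat_lit 76) (nat_lit 424557493408) (nat_lit 16) (nat_lit 4) (nat_lit 17) (nat_lit 5) (nat_lit 17) (nat_lit 4) (nat_lit 506) (nat_lit 445) (nat_lit 249)) (XT.lf (nat_lit 0) (nat_lit 33341292886) (nat_lit 76) (nat_lit 136395821087) (nat_lit 152) (nat_lit 2648752850410) (nat_lit 14) (nat_lit 5) (nat_lit 15) (nat_lit 5) (nat_lit 16) (nat_lit 4) (nat_lit 507) (nat_lit 445) (nat_lit 248))))))) (XT.nd (nat_lit 936) (nat_lit 304) (nat_lit 0) (XT.nd (nat_lit 468) (nat_lit 228) (nat_lit 0) (XT.nd (nat_lit 234) (nat_lit 152) (nat_lit 0) (XT.nd (nat_lit 78) (nat_lit 76) (nat_lit 0) (XT.lf (nat_lit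 0) (nat_lit 833934602802) (nat_lit 152) (nat_lit 1618177807307) (nat_lit 0) (nat_lit 537905056186) (nat_lit 14) (nat_lit 5) (nat_lit 16) (nat_lit 4) (nat_lit 14) (nat_lit 4) (nat_lit 508) (nat_lit 445) (nat_lit 247)) (XT.nd (nat_lit 78) (nat_lit 76) (nat_lit 0) (XT.lf (nat_lit 0) (nat_lit 1554810614162) (nat_lit 152) (nat_lit 361392074064) (nat_lit 0) (nat_lit 1258781062261) (nat_lit 14) (nat_lit 5) (nat_lit 16) (nat_lit 4) (nat_lit 14) (nat_lit 4) (nat_lit 509) (nat_lit 445) (nat_lit 246)) (XT.lf (nat_lit 0) (nat_lit 1048380719737) (nat_lit 76) (nat_lit 1310189544907) (nat_lit 76) (nat_lit 1014159988112) (nat_lit 13) (nat_lit 4) (nat_lit 14) (nat_lit 5) (nat_lit 14) (nat_lit 4) (nat_lit 510) (nat_lit 445) (nat_lit 245)))) (XT.nd (nat_lit 78) (nat_lit 152) (nat_lit 0) (XT.lf (nat_lit 0) (nat_lit 2591487978053) (nat_lit 76) (nat_lit 645023786159) (nat_lit 76) (nat_lit 348994224833) (nat_lit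 13) (nat_lit 4) (nat_lit 14) (nat_lit 5) (nat_lit 14) (nat_lit 4) (nat_lit 511) (nat_lit 445) (nat_lit 244)) (XT.nd (nat_lit 78) (nat_lit 0) (nat_lit 0) (XT.lf (nat_lit 0) (nat_lit 364170588801) (nat_lit 152) (nat_lit 3359292246088) (nat_lit 0) (nat_lit 90069139243) (nat_lit 11) (nat_lit 5) (nat_lit 13) (nat_lit 4) (nat_lit 11) (nat_lit 4) (nat_lit 512) (nat_lit 445) (nat_lit 243)) (XT.lf (nat_lit 0) (nat_lit 1160171819251) (nat_lit 152) (nat_lit 2009261631105) (nat_lit 0) (nat_lit 886070366095) (nat_lit 11) (nat_lit 5) (nat_lit 13) (nat_lit 4) (nat_lit 11) (nat_lit 4) (nat_lit 513) (nat_lit 445) (nat_lit 242))))) (XT.nd (nat_lit 234) (nat_lit 152) (nat_lit 0) (XT.nd (nat_lit 78) (nat_lit 76) (nat_lit 0) (XT.lf (nat_lit 0) (nat_lit 2019853128198) (nat_lit 152) (nat_lit 551228607839) (nat_lit 0) (nat_lit 1745751671713) (nat_lit 11) (nat_lit 5) (nat_lit 13) (nat_lit 4) (nat_lit 11) (nat_lit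 4) (nat_lit 514) (nat_lit 445) (nat_lit 241)) (XT.nd (nat_lit 78) (nat_lit 0) (nat_lit 0) (XT.lf (nat_lit 0) (nat_lit 1077339925741) (nat_lit 76) (nat_lit 1896879048785) (nat_lit 76) (nat_lit 1622777589214) (nat_lit 10) (nat_lit 4) (nat_lit 11) (nat_lit 5) (nat_lit 11) (nat_lit 4) (nat_lit 515) (nat_lit 445) (nat_lit 240)) (XT.lf (nat_lit 0) (nat_lit 2867542764440) (nat_lit 76) (nat_lit 1152462873137) (nat_lit 76) (nat_lit 878361410711) (nat_lit 10) (nat_lit 4) (nat_lit 11) (nat_lit 5) (nat_lit 11) (nat_lit 4) (nat_lit 516) (nat_lit 445) (nat_lit 239)))) (XT.nd (nat_lit 78) (nat_lit 152) (nat_lit 0) (XT.lf (nat_lit 0) (nat_lit 4800961796044) (nat_lit 76) (nat_lit 348493420979) (nat_lit 76) (nat_lit 74391955909) (nat_lit 10) (nat_lit 4) (nat_lit 11) (nat_lit 5) (nat_lit 11) (nat_lit 4) (nat_lit 517) (nat_lit 445) (nat_lit 238)) (XT.nd (nat_lit 78) (nat_lit 0) (nat_lit 0) (XT.lf (nat_lit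 0) (nat_lit 800804023458) (nat_lit 152) (nat_lit 4222298034994) (nat_lit 0) (nat_lit 547006368349) (nat_lit 8) (nat_lit 5) (nat_lit 10) (nat_lit 4) (nat_lit 8) (nat_lit 4) (nat_lit 518) (nat_lit 445) (nat_lit 237)) (XT.lf (nat_lit 0) (nat_lit 1762911103293) (nat_lit 152) (nat_lit 2670218289316) (nat_lit 0) (nat_lit 1509113446085) (nat_lit 8) (nat_lit 5) (nat_lit 10) (nat_lit 4) (nat_lit 8) (nat_lit 4) (nat_lit 519) (nat_lit 445) (nat_lit 236)))))) (XT.nd (nat_lit 468) (nat_lit 76) (nat_lit 0) (XT.nd (nat_lit 234) (nat_lit 152) (nat_lit 0) (XT.nd (nat_lit 78) (nat_lit 76) (nat_lit 0) (XT.lf (nat_lit 0) (nat_lit 2801986734887) (nat_lit 152) (nat_lit 993972194086) (nat_lit 0) (nat_lit 2548189075735) (nat_lit 8) (nat_lit 5) (nat_lit 10) (nat_lit 4) (nat_lit 8) (nat_lit 4) (nat_lit 520) (nat_lit 445) (nat_lit 235)) (XT.nd (nat_lit 78) (nat_lit 0) (nat_lit 0) (XT.lf (nat_lit 0) (nat_lit 859362345868)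 (nat_lit 76) (nat_lit 3085493742682) (nat_lit 76) (nat_lit 2831696081731) (nat_lit 7) (nat_lit 4) (nat_lit 8) (nat_lit 5) (nat_lit 8) (nat_lit 4) (nat_lit 521) (nat_lit 445) (nat_lit 234)) (XT.lf (nat_lit 0) (nat_lit 2917491701265) (nat_lit 76) (nat_lit 2288840237304) (nat_lit 76) (nat_lit 2035042574686) (nat_lit 7) (nat_lit 4) (nat_lit 8) (nat_lit 5) (nat_lit 8) (nat_lit 4) (nat_lit 522) (nat_lit 445) (nat_lit 233)))) (XT.nd (nat_lit 78) (nat_lit 152) (nat_lit 0) (XT.lf (nat_lit 0) (nat_lit 5140271379940) (nat_lit 76) (nat_lit 1428454464432) (nat_lit 76) (nat_lit 1174656800271) (nat_lit 7) (nat_lit 4) (nat_lit 8) (nat_lit 5) (nat_lit 8) (nat_lit 4) (nat_lit 523) (nat_lit 445) (nat_lit 232)) (XT.nd (nat_lit 78) (nat_lit 152) (nat_lit 0) (XT.lf (nat_lit 0) (nat_lit 7540873409618) (nat_lit 76) (nat_lit 499237841710) (nat_lit 76) (nat_lit 245440176121) (nat_lit 7) (nat_lit 4) (nat_lit 8) (nat_lit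 5) (nat_lit 8) (nat_lit 4) (nat_lit 524) (nat_lit 445) (nat_lit 231)) (XT.lf (nat_lit 0) (nat_lit 765109046130) (nat_lit 152) (nat_lit 7570821312805) (nat_lit 0) (nat_lit 530111206397) (nat_lit 5) (nat_lit 5) (nat_lit 7) (nat_lit 4) (nat_lit 5) (nat_lit 4) (nat_lit 525) (nat_lit 445) (nat_lit 230))))) (XT.nd (nat_lit 234) (nat_lit 76) (nat_lit 0) (XT.nd (nat_lit 78) (nat_lit 0) (nat_lit 0) (XT.lf (nat_lit 0) (nat_lit 1877098936585) (nat_lit 152) (nat_lit 5970552326382) (nat_lit 0) (nat_lit 1642101095718) (nat_lit 5) (nat_lit 5) (nat_lit 7) (nat_lit 4) (nat_lit 5) (nat_lit 4) (nat_lit 526) (nat_lit 445) (nat_lit 229)) (XT.nd (nat_lit 78) (nat_lit 0) (nat_lit 0) (XT.lf (nat_lit 0) (nat_lit 3078048008336) (nat_lit 152) (nat_lit 4242261841548) (nat_lit 0) (nat_lit 2843050166419) (nat_lit 5) (nat_lit 5) (nat_lit 7) (nat_lit 4) (nat_lit 5) (nat_lit 4) (nat_lit 527) (nat_lit 445) (nat_lit 228))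 (XT.lf (nat_lit 0) (nat_lit 4375072996623) (nat_lit 152) (nat_lit 2375708136909) (nat_lit 0) (nat_lit 4140075153734) (nat_lit 5) (nat_lit 5) (nat_lit 7) (nat_lit 4) (nat_lit 5) (nat_lit 4) (nat_lit 528) (nat_lit 445) (nat_lit 227)))) (XT.nd (nat_lit 56004) (nat_lit 0) (nat_lit 5852) (XT.nd (nat_lit 78) (nat_lit 76) (nat_lit 0) (XT.lf (nat_lit 0) (nat_lit 5775859975451) (nat_lit 152) (nat_lit 359830153477) (nat_lit 0) (nat_lit 5540862131661) (nat_lit 5) (nat_lit 5) (nat_lit 7) (nat_lit 4) (nat_lit 5) (nat_lit 4) (nat_lit 529) (nat_lit 445) (nat_lit 226)) (XT.lf (nat_lit 0) (nat_lit 1913014800428) (nat_lit 76) (nat_lit 5421703156223) (nat_lit 76) (nat_lit 5186705311600) (nat_lit 4) (nat_lit 4) (nat_lit 5) (nat_lit 5) (nat_lit 5) (nat_lit 4) (nat_lit 530) (nat_lit 445) (nat_lit 225))) (XT.nd (nat_lit 78) (nat_lit 0) (nat_lit 0) (XT.lf (nat_lit 0) (nat_lit 67837019747) (nat_lit 532) (nat_lit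 1081407518) (nat_lit 532) (nat_lit 1081407518) (nat_lit 81) (nat_lit 3) (nat_lit 88) (nat_lit 3) (nat_lit 88) (nat_lit 5) (nat_lit 446) (nat_lit 446) (nat_lit 308)) (XT.lf (nat_lit 76) (nat_lit 70820170026) (nat_lit 0) (nat_lit 71987205839) (nat_lit 532) (nat_lit 2655769661) (nat_lit 82) (nat_lit 5) (nat_lit 81) (nat_lit 3) (nat_lit 88) (nat_lit 5) (nat_lit 447) (nat_lit 446) (nat_lit 307))))))))
noncomputable def xc194 : XT := (XT.nd (nat_lit 1950) (nat_lit 1748) (nat_lit 0) (XT.nd (nat_lit 936) (nat_lit 1444) (nat_lit 0) (XT.nd (nat_lit 468) (nat_lit 760) (nat_lit 0) (XT.nd (nat_lit 234) (nat_lit 0) (nat_lit 76) (XT.nd (nat_lit 78) (nat_lit 456) (nat_lit 0) (XT.lf (nat_lit 76) (nat_lit 149764616030) (nat_lit 0) (nat_lit 805579054) (nat_lit 532) (nat_lit 788799286) (nat_lit 82) (nat_lit 5) (nat_lit 81) (nat_lit 3) (nat_lit 88) (nat_lit 5) (nat_lit 448) (nat_lit 446) (nat_lit 306)) (XT.nd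 (nat_lit 78) (nat_lit 0) (nat_lit 0) (XT.lf (nat_lit 0) (nat_lit 5003059852) (nat_lit 532) (nat_lit 78111539299) (nat_lit 608) (nat_lit 74302595307) (nat_lit 75) (nat_lit 5) (nat_lit 82) (nat_lit 5) (nat_lit 83) (nat_lit 5) (nat_lit 449) (nat_lit 446) (nat_lit 305)) (XT.lf (nat_lit 76) (nat_lit 2914868010) (nat_lit 0) (nat_lit 8436253701) (nat_lit 608) (nat_lit 152596452276) (nat_lit 76) (nat_lit 5) (nat_lit 75) (nat_lit 5) (nat_lit 83) (nat_lit 5) (nat_lit 450) (nat_lit 446) (nat_lit 304)))) (XT.nd (nat_lit 78) (nat_lit 0) (nat_lit 0) (XT.lf (nat_lit 0) (nat_lit 22134749815) (nat_lit 532) (nat_lit 77756365620) (nat_lit 608) (nat_lit 70795050800) (nat_lit 76) (nat_lit 5) (nat_lit 83) (nat_lit 5) (nat_lit 84) (nat_lit 5) (nat_lit 451) (nat_lit 446) (nat_lit 303)) (XT.nd (nat_lit 78) (nat_lit 0) (nat_lit 76) (XT.lf (nat_lit 76) (nat_lit 12592691651) (nat_lit 0) (nat_lit 21710109409) (nat_lit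 608) (nat_lit 143619306228) (nat_lit 77) (nat_lit 5) (nat_lit 76) (nat_lit 5) (nat_lit 84) (nat_lit 5) (nat_lit 452) (nat_lit 446) (nat_lit 302)) (XT.lf (nat_lit 0) (nat_lit 51133829799) (nat_lit 532) (nat_lit 72539082974) (nat_lit 76) (nat_lit 61768848235) (nat_lit 77) (nat_lit 5) (nat_lit 84) (nat_lit 5) (nat_lit 78) (nat_lit 5) (nat_lit 453) (nat_lit 446) (nat_lit 301))))) (XT.nd (nat_lit 234) (nat_lit 228) (nat_lit 0) (XT.nd (nat_lit 78) (nat_lit 228) (nat_lit 0) (XT.lf (nat_lit 0) (nat_lit 28537959363) (nat_lit 456) (nat_lit 42023405174) (nat_lit 532) (nat_lit 122901620641) (nat_lit 71) (nat_lit 5) (nat_lit 77) (nat_lit 5) (nat_lit 78) (nat_lit 5) (nat_lit 454) (nat_lit 446) (nat_lit 300)) (XT.nd (nat_lit 78) (nat_lit 228) (nat_lit 0) (XT.lf (nat_lit 0) (nat_lit 94687864547) (nat_lit 532) (nat_lit 61302544118) (nat_lit 76) (nat_lit 45883917664) (nat_lit 71) (nat_lit 5) (nat_lit 78)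 (nat_lit 5) (nat_lit 72) (nat_lit 5) (nat_lit 455) (nat_lit 446) (nat_lit 299)) (XT.lf (nat_lit 0) (nat_lit 52125552589) (nat_lit 228) (nat_lit 70963882165) (nat_lit 304) (nat_lit 87681544043) (nat_lit 68) (nat_lit 5) (nat_lit 71) (nat_lit 5) (nat_lit 72) (nat_lit 5) (nat_lit 456) (nat_lit 446) (nat_lit 298)))) (XT.nd (nat_lit 78) (nat_lit 228) (nat_lit 0) (XT.lf (nat_lit 0) (nat_lit 155984405800) (nat_lit 304) (nat_lit 42676587248) (nat_lit 76) (nat_lit 21540668436) (nat_lit 68) (nat_lit 5) (nat_lit 72) (nat_lit 5) (nat_lit 69) (nat_lit 5) (nat_lit 457) (nat_lit 446) (nat_lit 297)) (XT.nd (nat_lit 78) (nat_lit 0) (nat_lit 0) (XT.lf (nat_lit 0) (nat_lit 84977256225) (nat_lit 228) (nat_lit 110420475617) (nat_lit 304) (nat_lit 34678126395) (nat_lit 65) (nat_lit 5) (nat_lit 68) (nat_lit 5) (nat_lit 69) (nat_lit 5) (nat_lit 458) (nat_lit 446) (nat_lit 296)) (XT.lf (nat_lit 0) (nat_lit 225270275953)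 (nat_lit 228) (nat_lit 13860543848) (nat_lit 304) (nat_lit 1515835296) (nat_lit 65) (nat_lit 5) (nat_lit 68) (nat_lit 5) (nat_lit 69) (nat_lit 5) (nat_lit 459) (nat_lit 446) (nat_lit 295)))))) (XT.nd (nat_lit 468) (nat_lit 608) (nat_lit 0) (XT.nd (nat_lit 234) (nat_lit 380) (nat_lit 0) (XT.nd (nat_lit 78) (nat_lit 228) (nat_lit 0) (XT.lf (nat_lit 0) (nat_lit 37997765317) (nat_lit 228) (nat_lit 123600986803) (nat_lit 76) (nat_lit 89965241582) (nat_lit 62) (nat_lit 5) (nat_lit 65) (nat_lit 5) (nat_lit 63) (nat_lit 5) (nat_lit 460) (nat_lit 446) (nat_lit 294)) (XT.nd (nat_lit 78) (nat_lit 0) (nat_lit 0) (XT.lf (nat_lit 0) (nat_lit 20960986414) (nat_lit 228) (nat_lit 60924893065) (nat_lit 304) (nat_lit 181362064556) (nat_lit 59) (nat_lit 5) (nat_lit 62) (nat_lit 5) (nat_lit 63) (nat_lit 5) (nat_lit 461) (nat_lit 446) (nat_lit 293)) (XT.lf (nat_lit 0) (nat_lit 133901812959) (nat_lit 304) (nat_lit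 92716668367) (nat_lit 76) (nat_lit 48878787479) (nat_lit 59) (nat_lit 5) (nat_lit 63) (nat_lit 5) (nat_lit 60) (nat_lit 5) (nat_lit 462) (nat_lit 446) (nat_lit 292)))) (XT.nd (nat_lit 78) (nat_lit 228) (nat_lit 0) (XT.lf (nat_lit 0) (nat_lit 70777161800) (nat_lit 152) (nat_lit 122586388215) (nat_lit 228) (nat_lit 95100227253) (nat_lit 57) (nat_lit 5) (nat_lit 59) (nat_lit 5) (nat_lit 60) (nat_lit 5) (nat_lit 463) (nat_lit 446) (nat_lit 291)) (XT.nd (nat_lit 78) (nat_lit 228) (nat_lit 0) (XT.lf (nat_lit 0) (nat_lit 252623204212) (nat_lit 152) (nat_lit 7493936882) (nat_lit 228) (nat_lit 42147672129) (nat_lit 57) (nat_lit 5) (nat_lit 59) (nat_lit 5) (nat_lit 60) (nat_lit 5) (nat_lit 464) (nat_lit 446) (nat_lit 290)) (XT.lf (nat_lit 0) (nat_lit 20522331248) (nat_lit 228) (nat_lit 181370878838) (nat_lit 76) (nat_lit 114749090109) (nat_lit 54) (nat_lit 5) (nat_lit 57) (nat_lit 5) (nat_lit 55)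 (nat_lit 5) (nat_lit 465) (nat_lit 446) (nat_lit 289))))) (XT.nd (nat_lit 234) (nat_lit 304) (nat_lit 0) (XT.nd (nat_lit 78) (nat_lit 152) (nat_lit 0) (XT.lf (nat_lit 0) (nat_lit 4646893033) (nat_lit 152) (nat_lit 82980808970) (nat_lit 228) (nat_lit 244318797669) (nat_lit 52) (nat_lit 5) (nat_lit 54) (nat_lit 5) (nat_lit 55) (nat_lit 5) (nat_lit 466) (nat_lit 446) (nat_lit 288)) (XT.nd (nat_lit 78) (nat_lit 152) (nat_lit 0) (XT.lf (nat_lit 0) (nat_lit 166282141979) (nat_lit 228) (nat_lit 133439427532) (nat_lit 76) (nat_lit 48259014448) (nat_lit 52) (nat_lit 5) (nat_lit 55) (nat_lit 5) (nat_lit 53) (nat_lit 5) (nat_lit 467) (nat_lit 446) (nat_lit 287)) (XT.lf (nat_lit 0) (nat_lit 77658871103) (nat_lit 152) (nat_lit 177593007363) (nat_lit 228) (nat_lit 109723681231) (nat_lit 50) (nat_lit 5) (nat_lit 52) (nat_lit 5) (nat_lit 53) (nat_lit 5) (nat_lit 468) (nat_lit 446) (nat_lit 286)))) (XT.nd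 (nat_lit 156) (nat_lit 152) (nat_lit 0) (XT.nd (nat_lit 78) (nat_lit 152) (nat_lit 0) (XT.lf (nat_lit 0) (nat_lit 313233695804) (nat_lit 152) (nat_lit 41753870206) (nat_lit 228) (nat_lit 28050697727) (nat_lit 50) (nat_lit 5) (nat_lit 52) (nat_lit 5) (nat_lit 53) (nat_lit 5) (nat_lit 469) (nat_lit 446) (nat_lit 285)) (XT.lf (nat_lit 0) (nat_lit 63959413599) (nat_lit 152) (nat_lit 232488340783) (nat_lit 76) (nat_lit 105437485861) (nat_lit 48) (nat_lit 5) (nat_lit 50) (nat_lit 5) (nat_lit 49) (nat_lit 5) (nat_lit 470) (nat_lit 446) (nat_lit 284))) (XT.nd (nat_lit 78) (nat_lit 0) (nat_lit 0) (XT.lf (nat_lit 0) (nat_lit 8162535630) (nat_lit 152) (nat_lit 156891220018) (nat_lit 228) (nat_lit 256868821020) (nat_lit 46) (nat_lit 5) (nat_lit 48) (nat_lit 5) (nat_lit 49) (nat_lit 5) (nat_lit 471) (nat_lit 446) (nat_lit 283)) (XT.lf (nat_lit 0) (nat_lit 280608913807) (nat_lit 228) (nat_lit 161783937010)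 (nat_lit 76) (nat_lit 660187700) (nat_lit 46) (nat_lit 5) (nat_lit 49) (nat_lit 5) (nat_lit 47) (nat_lit 4) (nat_lit 472) (nat_lit 446) (nat_lit 282))))))) (XT.nd (nat_lit 936) (nat_lit 912) (nat_lit 0) (XT.nd (nat_lit 468) (nat_lit 304) (nat_lit 0) (XT.nd (nat_lit 234) (nat_lit 228) (nat_lit 0) (XT.nd (nat_lit 78) (nat_lit 228) (nat_lit 0) (XT.lf (nat_lit 0) (nat_lit 111871270611) (nat_lit 76) (nat_lit 300302734464) (nat_lit 152) (nat_lit 53158690611) (nat_lit 45) (nat_lit 5) (nat_lit 46) (nat_lit 5) (nat_lit 47) (nat_lit 4) (nat_lit 473) (nat_lit 446) (nat_lit 281)) (XT.nd (nat_lit 78) (nat_lit 152) (nat_lit 0) (XT.lf (nat_lit 0) (nat_lit 66162811593) (nat_lit 152) (nat_lit 74096310820) (nat_lit 76) (nat_lit 348647732040) (nat_lit 44) (nat_lit 5) (nat_lit 46) (nat_lit 5) (nat_lit 45) (nat_lit 5) (nat_lit 474) (nat_lit 446) (nat_lit 280)) (XT.lf (nat_lit 0) (nat_lit 198853900885) (nat_lit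 228) (nat_lit 276616279574) (nat_lit 76) (nat_lit 38250640495) (nat_lit 42) (nat_lit 5) (nat_lit 45) (nat_lit 5) (nat_lit 43) (nat_lit 4) (nat_lit 475) (nat_lit 446) (nat_lit 279)))) (XT.nd (nat_lit 78) (nat_lit 152) (nat_lit 0) (XT.lf (nat_lit 0) (nat_lit 35118473031) (nat_lit 76) (nat_lit 313607969460) (nat_lit 152) (nat_lit 191268169078) (nat_lit 41) (nat_lit 5) (nat_lit 42) (nat_lit 5) (nat_lit 43) (nat_lit 4) (nat_lit 476) (nat_lit 446) (nat_lit 278)) (XT.nd (nat_lit 78) (nat_lit 152) (nat_lit 0) (XT.lf (nat_lit 0) (nat_lit 387523288642) (nat_lit 76) (nat_lit 130628605592) (nat_lit 152) (nat_lit 49613362660) (nat_lit 41) (nat_lit 5) (nat_lit 42) (nat_lit 5) (nat_lit 43) (nat_lit 4) (nat_lit 477) (nat_lit 446) (nat_lit 277)) (XT.lf (nat_lit 0) (nat_lit 104238678260) (nat_lit 152) (nat_lit 422287962360) (nat_lit 76) (nat_lit 70549139582) (nat_lit 39) (nat_lit 5) (nat_lit 41) (nat_lit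 5) (nat_lit 40) (nat_lit 4) (nat_lit 478) (nat_lit 446) (nat_lit 276))))) (XT.nd (nat_lit 234) (nat_lit 152) (nat_lit 0) (XT.nd (nat_lit 78) (nat_lit 152) (nat_lit 0) (XT.lf (nat_lit 0) (nat_lit 276167493361) (nat_lit 152) (nat_lit 64676125397) (nat_lit 76) (nat_lit 287108512228) (nat_lit 39) (nat_lit 5) (nat_lit 41) (nat_lit 5) (nat_lit 40) (nat_lit 4) (nat_lit 479) (nat_lit 446) (nat_lit 275)) (XT.nd (nat_lit 78) (nat_lit 76) (nat_lit 0) (XT.lf (nat_lit 0) (nat_lit 338476508571) (nat_lit 76) (nat_lit 131514410329) (nat_lit 152) (nat_lit 190656446519) (nat_lit 38) (nat_lit 5) (nat_lit 39) (nat_lit 5) (nat_lit 40) (nat_lit 4) (nat_lit 480) (nat_lit 446) (nat_lit 274)) (XT.lf (nat_lit 0) (nat_lit 83604797106) (nat_lit 76) (nat_lit 601814545396) (nat_lit 76) (nat_lit 10050946187) (nat_lit 37) (nat_lit 4) (nat_lit 38) (nat_lit 5) (nat_lit 38) (nat_lit 4) (nat_lit 481) (nat_lit 446) (nat_lit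 273)))) (XT.nd (nat_lit 78) (nat_lit 76) (nat_lit 0) (XT.lf (nat_lit 0) (nat_lit 188201812056) (nat_lit 152) (nat_lit 200303902492) (nat_lit 76) (nat_lit 343221111807) (nat_lit 36) (nat_lit 5) (nat_lit 38) (nat_lit 5) (nat_lit 37) (nat_lit 4) (nat_lit 482) (nat_lit 446) (nat_lit 272)) (XT.nd (nat_lit 78) (nat_lit 0) (nat_lit 0) (XT.lf (nat_lit 0) (nat_lit 256765912940) (nat_lit 76) (nat_lit 151181034901) (nat_lit 152) (nat_lit 362422040589) (nat_lit 35) (nat_lit 5) (nat_lit 36) (nat_lit 5) (nat_lit 37) (nat_lit 4) (nat_lit 483) (nat_lit 446) (nat_lit 271)) (XT.lf (nat_lit 0) (nat_lit 653418922200) (nat_lit 152) (nat_lit 52542345866) (nat_lit 0) (nat_lit 105489477192) (nat_lit 35) (nat_lit 5) (nat_lit 37) (nat_lit 4) (nat_lit 35) (nat_lit 4) (nat_lit 484) (nat_lit 446) (nat_lit 270)))))) (XT.nd (nat_lit 468) (nat_lit 456) (nat_lit 0) (XT.nd (nat_lit 234) (nat_lit 228) (nat_lit 0) (XT.nd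 (nat_lit 78) (nat_lit 76) (nat_lit 0) (XT.lf (nat_lit 0) (nat_lit 75068262022) (nat_lit 152) (nat_lit 391787513189) (nat_lit 76) (nat_lit 387602962897) (nat_lit 33) (nat_lit 5) (nat_lit 35) (nat_lit 5) (nat_lit 34) (nat_lit 4) (nat_lit 485) (nat_lit 446) (nat_lit 269)) (XT.nd (nat_lit 78) (nat_lit 0) (nat_lit 0) (XT.lf (nat_lit 0) (nat_lit 123324628402) (nat_lit 76) (nat_lit 199393725369) (nat_lit 152) (nat_lit 577505452961) (nat_lit 32) (nat_lit 5) (nat_lit 33) (nat_lit 5) (nat_lit 34) (nat_lit 4) (nat_lit 486) (nat_lit 446) (nat_lit 268)) (XT.lf (nat_lit 0) (nat_lit 603322446142) (nat_lit 152) (nat_lit 249296044883) (nat_lit 0) (nat_lit 95980230361) (nat_lit 32) (nat_lit 5) (nat_lit 34) (nat_lit 4) (nat_lit 32) (nat_lit 4) (nat_lit 487) (nat_lit 446) (nat_lit 267)))) (XT.nd (nat_lit 78) (nat_lit 152) (nat_lit 0) (XT.lf (nat_lit 0) (nat_lit 331941232566) (nat_lit 76) (nat_lit 587595837592)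 (nat_lit 76) (nat_lit 80253582716) (nat_lit 31) (nat_lit 4) (nat_lit 32) (nat_lit 5) (nat_lit 32) (nat_lit 4) (nat_lit 488) (nat_lit 446) (nat_lit 266)) (XT.nd (nat_lit 78) (nat_lit 76) (nat_lit 0) (XT.lf (nat_lit 0) (nat_lit 202660617030) (nat_lit 152) (nat_lit 85808207651) (nat_lit 76) (nat_lit 765653370410) (nat_lit 30) (nat_lit 5) (nat_lit 32) (nat_lit 5) (nat_lit 31) (nat_lit 4) (nat_lit 489) (nat_lit 446) (nat_lit 265)) (XT.lf (nat_lit 0) (nat_lit 518802582921) (nat_lit 152) (nat_lit 543595313161) (nat_lit 0) (nat_lit 49041171263) (nat_lit 29) (nat_lit 5) (nat_lit 31) (nat_lit 4) (nat_lit 29) (nat_lit 4) (nat_lit 490) (nat_lit 446) (nat_lit 264))))) (XT.nd (nat_lit 234) (nat_lit 228) (nat_lit 0) (XT.nd (nat_lit 78) (nat_lit 152) (nat_lit 0) (XT.lf (nat_lit 0) (nat_lit 103118969949) (nat_lit 76) (nat_lit 769496689768) (nat_lit 76) (nat_lit 299735249373) (nat_lit 28) (nat_lit 4) (nat_lit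 29) (nat_lit 5) (nat_lit 29) (nat_lit 4) (nat_lit 491) (nat_lit 446) (nat_lit 263)) (XT.nd (nat_lit 78) (nat_lit 76) (nat_lit 0) (XT.lf (nat_lit 0) (nat_lit 31016644469) (nat_lit 152) (nat_lit 405246846503) (nat_lit 76) (nat_lit 800620363385) (nat_lit 27) (nat_lit 5) (nat_lit 29) (nat_lit 5) (nat_lit 28) (nat_lit 4) (nat_lit 492) (nat_lit 446) (nat_lit 262)) (XT.lf (nat_lit 0) (nat_lit 320083515364) (nat_lit 76) (nat_lit 59649661078) (nat_lit 152) (nat_lit 925607594280) (nat_lit 26) (nat_lit 5) (nat_lit 27) (nat_lit 5) (nat_lit 28) (nat_lit 4) (nat_lit 493) (nat_lit 446) (nat_lit 261)))) (XT.nd (nat_lit 156) (nat_lit 152) (nat_lit 0) (XT.nd (nat_lit 78) (nat_lit 76) (nat_lit 0) (XT.lf (nat_lit 0) (nat_lit 776062555443) (nat_lit 152) (nat_lit 260536252784) (nat_lit 0) (nat_lit 341098190213) (nat_lit 26) (nat_lit 5) (nat_lit 28) (nat_lit 4) (nat_lit 26) (nat_lit 4) (nat_lit 494) (nat_lit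 446) (nat_lit 260)) (XT.lf (nat_lit 0) (nat_lit 548027571814) (nat_lit 76) (nat_lit 670800093454) (nat_lit 76) (nat_lit 235835708667) (nat_lit 25) (nat_lit 4) (nat_lit 26) (nat_lit 5) (nat_lit 26) (nat_lit 4) (nat_lit 495) (nat_lit 446) (nat_lit 259))) (XT.nd (nat_lit 78) (nat_lit 76) (nat_lit 0) (XT.lf (nat_lit 0) (nat_lit 158570260660) (nat_lit 152) (nat_lit 105138260722) (nat_lit 76) (nat_lit 1273187504230) (nat_lit 24) (nat_lit 5) (nat_lit 26) (nat_lit 5) (nat_lit 25) (nat_lit 4) (nat_lit 496) (nat_lit 446) (nat_lit 258)) (XT.lf (nat_lit 0) (nat_lit 595771730522) (nat_lit 152) (nat_lit 834499871026) (nat_lit 0) (nat_lit 193026897501) (nat_lit 23) (nat_lit 5) (nat_lit 25) (nat_lit 4) (nat_lit 23) (nat_lit 4) (nat_lit 497) (nat_lit 446) (nat_lit 257))))))))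
noncomputable def xc195 : XT := (XT.nd (nat_lit 1950) (nat_lit 152) (nat_lit 0) (XT.nd (nat_lit 936) (nat_lit 532) (nat_lit 0) (XT.nd (nat_lit 468) (nat_lit 380) (nat_lit 0) (XT.nd (nat_lit 234) (nat_lit 76) (nat_lit 0) (XT.nd (nat_lit 78) (nat_lit 152) (nat_lit 0) (XT.lf (nat_lit 0) (nat_lit 38866529802) (nat_lit 76) (nat_lit 1039816399524) (nat_lit 76) (nat_lit 637071552128) (nat_lit 22) (nat_lit 4) (nat_lit 23) (nat_lit 5) (nat_lit 23) (nat_lit 4) (nat_lit 498) (nat_lit 446) (nat_lit 256)) (XT.nd (nat_lit 78) (nat_lit 152) (nat_lit 0) (XT.lf (nat_lit 0) (nat_lit 1029560921904) (nat_lit 76) (nat_lit 593482773761) (nat_lit 76) (nat_lit 190737913055) (nat_lit 22) (nat_lit 4) (nat_lit 23) (nat_lit 5) (nat_lit 23) (nat_lit 4) (nat_lit 499) (nat_lit 446) (nat_lit 255)) (XT.lf (nat_lit 0) (nat_lit 181956253236) (nat_lit 76) (nat_lit 99150057468) (nat_lit 152) (nat_lit 1637634047433) (nat_lit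 20) (nat_lit 5) (nat_lit 21) (nat_lit 5) (nat_lit 22) (nat_lit 4) (nat_lit 500) (nat_lit 446) (nat_lit 254)))) (XT.nd (nat_lit 78) (nat_lit 76) (nat_lit 0) (XT.lf (nat_lit 0) (nat_lit 812847406421) (nat_lit 152) (nat_lit 776320255337) (nat_lit 0) (nat_lit 439935476383) (nat_lit 20) (nat_lit 5) (nat_lit 22) (nat_lit 4) (nat_lit 20) (nat_lit 4) (nat_lit 501) (nat_lit 446) (nat_lit 253)) (XT.nd (nat_lit 78) (nat_lit 0) (nat_lit 0) (XT.lf (nat_lit 0) (nat_lit 272012482186) (nat_lit 76) (nat_lit 1124232510957) (nat_lit 76) (nat_lit 751320571135) (nat_lit 19) (nat_lit 4) (nat_lit 20) (nat_lit 5) (nat_lit 20) (nat_lit 4) (nat_lit 502) (nat_lit 446) (nat_lit 252)) (XT.lf (nat_lit 0) (nat_lit 1448361801175) (nat_lit 76) (nat_lit 599178528395) (nat_lit 76) (nat_lit 226266579515) (nat_lit 19) (nat_lit 4) (nat_lit 20) (nat_lit 5) (nat_lit 20) (nat_lit 4) (nat_lit 503) (nat_lit 446) (nat_lit 251)))))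 (XT.nd (nat_lit 234) (nat_lit 152) (nat_lit 0) (XT.nd (nat_lit 78) (nat_lit 76) (nat_lit 0) (XT.lf (nat_lit 0) (nat_lit 316297901457) (nat_lit 76) (nat_lit 15052992160) (nat_lit 152) (nat_lit 2077532428328) (nat_lit 17) (nat_lit 5) (nat_lit 18) (nat_lit 5) (nat_lit 19) (nat_lit 4) (nat_lit 504) (nat_lit 446) (nat_lit 250)) (XT.nd (nat_lit 78) (nat_lit 76) (nat_lit 0) (XT.lf (nat_lit 0) (nat_lit 959318875300) (nat_lit 152) (nat_lit 977909558785) (nat_lit 0) (nat_lit 614030018786) (nat_lit 17) (nat_lit 5) (nat_lit 19) (nat_lit 4) (nat_lit 17) (nat_lit 4) (nat_lit 505) (nat_lit 446) (nat_lit 249)) (XT.lf (nat_lit 0) (nat_lit 237426361839) (nat_lit 76) (nat_lit 1406199004950) (nat_lit 76) (nat_lit 1060910141779) (nat_lit 16) (nat_lit 4) (nat_lit 17) (nat_lit 5) (nat_lit 17) (nat_lit 4) (nat_lit 506) (nat_lit 446) (nat_lit 248)))) (XT.nd (nat_lit 78) (nat_lit 152) (nat_lit 0) (XT.lf (nat_lit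 0) (nat_lit 1605603689117) (nat_lit 76) (nat_lit 803810444240) (nat_lit 76) (nat_lit 458521574903) (nat_lit 16) (nat_lit 4) (nat_lit 17) (nat_lit 5) (nat_lit 17) (nat_lit 4) (nat_lit 507) (nat_lit 446) (nat_lit 247)) (XT.nd (nat_lit 78) (nat_lit 0) (nat_lit 0) (XT.lf (nat_lit 0) (nat_lit 36009574394) (nat_lit 76) (nat_lit 147306987836) (nat_lit 152) (nat_lit 2860652560968) (nat_lit 14) (nat_lit 5) (nat_lit 15) (nat_lit 5) (nat_lit 16) (nat_lit 4) (nat_lit 508) (nat_lit 446) (nat_lit 246)) (XT.lf (nat_lit 0) (nat_lit 900649825784) (nat_lit 152) (nat_lit 1747631101879) (nat_lit 0) (nat_lit 580937899551) (nat_lit 14) (nat_lit 5) (nat_lit 16) (nat_lit 4) (nat_lit 14) (nat_lit 4) (nat_lit 509) (nat_lit 446) (nat_lit 245)))))) (XT.nd (nat_lit 468) (nat_lit 304) (nat_lit 0) (XT.nd (nat_lit 234) (nat_lit 152) (nat_lit 0) (XT.nd (nat_lit 78) (nat_lit 76) (nat_lit 0) (XT.lf (nat_lit 0) (nat_lit 1679195884367)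 (nat_lit 152) (nat_lit 390302578866) (nat_lit 0) (nat_lit 1359483953603) (nat_lit 14) (nat_lit 5) (nat_lit 16) (nat_lit 4) (nat_lit 14) (nat_lit 4) (nat_lit 510) (nat_lit 446) (nat_lit 244)) (XT.nd (nat_lit 78) (nat_lit 0) (nat_lit 0) (XT.lf (nat_lit 0) (nat_lit 1132252016639) (nat_lit 76) (nat_lit 1415004279244) (nat_lit 76) (nat_lit 1095292344284) (nat_lit 13) (nat_lit 4) (nat_lit 14) (nat_lit 5) (nat_lit 14) (nat_lit 4) (nat_lit 511) (nat_lit 446) (nat_lit 243)) (XT.lf (nat_lit 0) (nat_lit 2798807793448) (nat_lit 76) (nat_lit 696625291593) (nat_lit 76) (nat_lit 376913352748) (nat_lit 13) (nat_lit 4) (nat_lit 14) (nat_lit 5) (nat_lit 14) (nat_lit 4) (nat_lit 512) (nat_lit 446) (nat_lit 242)))) (XT.nd (nat_lit 78) (nat_lit 0) (nat_lit 0) (XT.lf (nat_lit 0) (nat_lit 393304624879) (nat_lit 152) (nat_lit 3628034827520) (nat_lit 0) (nat_lit 97275048543) (nat_lit 11) (nat_lit 5) (nat_lit 13)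 (nat_lit 4) (nat_lit 11) (nat_lit 4) (nat_lit 513) (nat_lit 446) (nat_lit 241)) (XT.nd (nat_lit 78) (nat_lit 0) (nat_lit 0) (XT.lf (nat_lit 0) (nat_lit 1252985924951) (nat_lit 152) (nat_lit 2170001822468) (nat_lit 0) (nat_lit 956956345532) (nat_lit 11) (nat_lit 5) (nat_lit 13) (nat_lit 4) (nat_lit 11) (nat_lit 4) (nat_lit 514) (nat_lit 446) (nat_lit 240)) (XT.lf (nat_lit 0) (nat_lit 2181441711937) (nat_lit 152) (nat_lit 595326212090) (nat_lit 0) (nat_lit 1885412129661) (nat_lit 11) (nat_lit 5) (nat_lit 13) (nat_lit 4) (nat_lit 11) (nat_lit 4) (nat_lit 515) (nat_lit 446) (nat_lit 239))))) (XT.nd (nat_lit 234) (nat_lit 228) (nat_lit 0) (XT.nd (nat_lit 78) (nat_lit 0) (nat_lit 0) (XT.lf (nat_lit 0) (nat_lit 1163527786849) (nat_lit 76) (nat_lit 2048629030460) (nat_lit 76) (nat_lit 1752599445541) (nat_lit 10) (nat_lit 4) (nat_lit 11) (nat_lit 5) (nat_lit 11) (nat_lit 4) (nat_lit 516) (nat_lit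 446) (nat_lit 238)) (XT.nd (nat_lit 78) (nat_lit 0) (nat_lit 0) (XT.lf (nat_lit 0) (nat_lit 3096946803233) (nat_lit 76) (nat_lit 1244659586111) (nat_lit 76) (nat_lit 948629998743) (nat_lit 10) (nat_lit 4) (nat_lit 11) (nat_lit 5) (nat_lit 11) (nat_lit 4) (nat_lit 517) (nat_lit 446) (nat_lit 237)) (XT.lf (nat_lit 0) (nat_lit 5185039311615) (nat_lit 76) (nat_lit 376372601252) (nat_lit 76) (nat_lit 80343011618) (nat_lit 10) (nat_lit 4) (nat_lit 11) (nat_lit 5) (nat_lit 11) (nat_lit 4) (nat_lit 518) (nat_lit 446) (nat_lit 236)))) (XT.nd (nat_lit 156) (nat_lit 76) (nat_lit 0) (XT.nd (nat_lit 78) (nat_lit 0) (nat_lit 0) (XT.lf (nat_lit 0) (nat_lit 864868630713) (nat_lit 152) (nat_lit 4560081290516) (nat_lit 0) (nat_lit 590767156885) (nat_lit 8) (nat_lit 5) (nat_lit 10) (nat_lit 4) (nat_lit 8) (nat_lit 4) (nat_lit 519) (nat_lit 446) (nat_lit 235)) (XT.lf (nat_lit 0) (nat_lit 1903944255795) (nat_lit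 152) (nat_lit 2883835208686) (nat_lit 0) (nat_lit 1629842780168) (nat_lit 8) (nat_lit 5) (nat_lit 10) (nat_lit 4) (nat_lit 8) (nat_lit 4) (nat_lit 520) (nat_lit 446) (nat_lit 234))) (XT.nd (nat_lit 78) (nat_lit 76) (nat_lit 0) (XT.lf (nat_lit 0) (nat_lit 3026145918344) (nat_lit 152) (nat_lit 1073489466117) (nat_lit 0) (nat_lit 2752044441050) (nat_lit 8) (nat_lit 5) (nat_lit 10) (nat_lit 4) (nat_lit 8) (nat_lit 4) (nat_lit 521) (nat_lit 446) (nat_lit 233)) (XT.lf (nat_lit 0) (nat_lit 928111824287) (nat_lit 76) (nat_lit 3332332989692) (nat_lit 76) (nat_lit 3058231510856) (nat_lit 7) (nat_lit 4) (nat_lit 8) (nat_lit 5) (nat_lit 8) (nat_lit 4) (nat_lit 522) (nat_lit 446) (nat_lit 232))))))) (XT.nd (nat_lit 56862) (nat_lit 0) (nat_lit 4104) (XT.nd (nat_lit 468) (nat_lit 0) (nat_lit 0) (XT.nd (nat_lit 234) (nat_lit 152) (nat_lit 0) (XT.nd (nat_lit 78) (nat_lit 0) (nat_lit 0) (XT.lf (nat_lit 0)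 (nat_lit 3150891491764) (nat_lit 76) (nat_lit 2471947222580) (nat_lit 76) (nat_lit 2197845742315) (nat_lit 7) (nat_lit 4) (nat_lit 8) (nat_lit 5) (nat_lit 8) (nat_lit 4) (nat_lit 523) (nat_lit 446) (nat_lit 231)) (XT.nd (nat_lit 78) (nat_lit 0) (nat_lit 0) (XT.lf (nat_lit 0) (nat_lit 5551493511074) (nat_lit 76) (nat_lit 1542730605190) (nat_lit 76) (nat_lit 1268629123602) (nat_lit 7) (nat_lit 4) (nat_lit 8) (nat_lit 5) (nat_lit 8) (nat_lit 4) (nat_lit 524) (nat_lit 446) (nat_lit 230)) (XT.lf (nat_lit 0) (nat_lit 8144143671960) (nat_lit 76) (nat_lit 539176668679) (nat_lit 76) (nat_lit 265075185867) (nat_lit 7) (nat_lit 4) (nat_lit 8) (nat_lit 5) (nat_lit 8) (nat_lit 4) (nat_lit 525) (nat_lit 446) (nat_lit 229)))) (XT.nd (nat_lit 78) (nat_lit 0) (nat_lit 0) (XT.lf (nat_lit 0) (nat_lit 826317963757) (nat_lit 152) (nat_lit 8176486617848) (nat_lit 0) (nat_lit 572520293437) (nat_lit 5) (nat_lit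 5) (nat_lit 7) (nat_lit 4) (nat_lit 5) (nat_lit 4) (nat_lit 526) (nat_lit 446) (nat_lit 228)) (XT.nd (nat_lit 78) (nat_lit 0) (nat_lit 0) (XT.lf (nat_lit 0) (nat_lit 2027267031083) (nat_lit 152) (nat_lit 6448196142140) (nat_lit 0) (nat_lit 1773469359791) (nat_lit 5) (nat_lit 5) (nat_lit 7) (nat_lit 4) (nat_lit 5) (nat_lit 4) (nat_lit 527) (nat_lit 446) (nat_lit 227)) (XT.lf (nat_lit 0) (nat_lit 3324292015273) (nat_lit 152) (nat_lit 4581642445952) (nat_lit 0) (nat_lit 3070494343080) (nat_lit 5) (nat_lit 5) (nat_lit 7) (nat_lit 4) (nat_lit 5) (nat_lit 4) (nat_lit 528) (nat_lit 446) (nat_lit 226))))) (XT.nd (nat_lit 56160) (nat_lit 0) (nat_lit 5320) (XT.nd (nat_lit 78) (nat_lit 0) (nat_lit 0) (XT.lf (nat_lit 0) (nat_lit 4725078990307) (nat_lit 152) (nat_lit 2565764470344) (nat_lit 0) (nat_lit 4471281317280) (nat_lit 5) (nat_lit 5) (nat_lit 7) (nat_lit 4) (nat_lit 5) (nat_lit 4) (nat_lit 529)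 (nat_lit 446) (nat_lit 225)) (XT.nd (nat_lit 56004) (nat_lit 0) (nat_lit 5776) (XT.lf (nat_lit 0) (nat_lit 6237928916036) (nat_lit 152) (nat_lit 388616271757) (nat_lit 0) (nat_lit 5984131242238) (nat_lit 5) (nat_lit 5) (nat_lit 7) (nat_lit 4) (nat_lit 5) (nat_lit 4) (nat_lit 530) (nat_lit 446) (nat_lit 224)) (XT.lf (nat_lit 0) (nat_lit 73267053616) (nat_lit 532) (nat_lit 1166260673) (nat_lit 532) (nat_lit 1166260673) (nat_lit 81) (nat_lit 3) (nat_lit 88) (nat_lit 3) (nat_lit 88) (nat_lit 5) (nat_lit 447) (nat_lit 447) (nat_lit 306)))) (XT.nd (nat_lit 78) (nat_lit 456) (nat_lit 0) (XT.lf (nat_lit 76) (nat_lit 76489018500) (nat_lit 0) (nat_lit 77748714658) (nat_lit 532) (nat_lit 2862001112) (nat_lit 82) (nat_lit 5) (nat_lit 81) (nat_lit 3) (nat_lit 88) (nat_lit 5) (nat_lit 448) (nat_lit 447) (nat_lit 305)) (XT.nd (nat_lit 78) (nat_lit 456) (nat_lit 0) (XT.lf (nat_lit 76) (nat_lit 161748780563)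 (nat_lit 0) (nat_lit 872370149) (nat_lit 532) (nat_lit 846134598) (nat_lit 82) (nat_lit 5) (nat_lit 81) (nat_lit 3) (nat_lit 88) (nat_lit 5) (nat_lit 449) (nat_lit 447) (nat_lit 304)) (XT.lf (nat_lit 0) (nat_lit 5408408901) (nat_lit 532) (nat_lit 84356800309) (nat_lit 608) (nat_lit 80244951257) (nat_lit 75) (nat_lit 5) (nat_lit 82) (nat_lit 5) (nat_lit 83) (nat_lit 5) (nat_lit 450) (nat_lit 447) (nat_lit 303)))))) (XT.nd (nat_lit 468) (nat_lit 912) (nat_lit 0) (XT.nd (nat_lit 234) (nat_lit 304) (nat_lit 0) (XT.nd (nat_lit 78) (nat_lit 0) (nat_lit 76) (XT.lf (nat_lit 76) (nat_lit 3151626872) (nat_lit 0) (nat_lit 9112396586) (nat_lit 608) (nat_lit 164798970368) (nat_lit 76) (nat_lit 5) (nat_lit 75) (nat_lit 5) (nat_lit 83) (nat_lit 5) (nat_lit 451) (nat_lit 447) (nat_lit 302)) (XT.nd (nat_lit 78) (nat_lit 0) (nat_lit 0) (XT.lf (nat_lit 0) (nat_lit 23909957695) (nat_lit 532) (nat_lit 83973184698)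 (nat_lit 608) (nat_lit 76457561873) (nat_lit 76) (nat_lit 5) (nat_lit 83) (nat_lit 5) (nat_lit 84) (nat_lit 5) (nat_lit 452) (nat_lit 447) (nat_lit 301)) (XT.lf (nat_lit 76) (nat_lit 13603703733) (nat_lit 0) (nat_lit 23447507817) (nat_lit 608) (nat_lit 155104328450) (nat_lit 77) (nat_lit 5) (nat_lit 76) (nat_lit 5) (nat_lit 84) (nat_lit 5) (nat_lit 453) (nat_lit 447) (nat_lit 300)))) (XT.nd (nat_lit 78) (nat_lit 456) (nat_lit 0) (XT.lf (nat_lit 0) (nat_lit 55228399354) (nat_lit 532) (nat_lit 78338555165) (nat_lit 76) (nat_lit 66709837428) (nat_lit 77) (nat_lit 5) (nat_lit 84) (nat_lit 5) (nat_lit 78) (nat_lit 5) (nat_lit 454) (nat_lit 447) (nat_lit 299)) (XT.nd (nat_lit 78) (nat_lit 0) (nat_lit 0) (XT.lf (nat_lit 0) (nat_lit 30824558041) (nat_lit 456) (nat_lit 45385378333) (nat_lit 532) (nat_lit 132729793782) (nat_lit 71) (nat_lit 5) (nat_lit 77) (nat_lit 5) (nat_lit 78) (nat_lit 5) (nat_lit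 455) (nat_lit 447) (nat_lit 298)) (XT.lf (nat_lit 0) (nat_lit 102266282832) (nat_lit 532) (nat_lit 66203175252) (nat_lit 76) (nat_lit 49554542461) (nat_lit 71) (nat_lit 5) (nat_lit 78) (nat_lit 5) (nat_lit 72) (nat_lit 5) (nat_lit 456) (nat_lit 447) (nat_lit 297))))) (XT.nd (nat_lit 234) (nat_lit 456) (nat_lit 0) (XT.nd (nat_lit 78) (nat_lit 228) (nat_lit 0) (XT.lf (nat_lit 0) (nat_lit 56299078752) (nat_lit 228) (nat_lit 76640732599) (nat_lit 304) (nat_lit 94692587300) (nat_lit 68) (nat_lit 5) (nat_lit 71) (nat_lit 5) (nat_lit 72) (nat_lit 5) (nat_lit 457) (nat_lit 447) (nat_lit 296)) (XT.nd (nat_lit 78) (nat_lit 228) (nat_lit 0) (XT.lf (nat_lit 0) (nat_lit 168466147220) (nat_lit 304) (nat_lit 46087256683) (nat_lit 76) (nat_lit 23264150731) (nat_lit 68) (nat_lit 5) (nat_lit 72) (nat_lit 5) (nat_lit 69) (nat_lit 5) (nat_lit 458) (nat_lit 447) (nat_lit 295)) (XT.lf (nat_lit 0) (nat_lit 91778806735)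 (nat_lit 228) (nat_lit 119253592255) (nat_lit 304) (nat_lit 37449299414) (nat_lit 65) (nat_lit 5) (nat_lit 68) (nat_lit 5) (nat_lit 69) (nat_lit 5) (nat_lit 459) (nat_lit 447) (nat_lit 294)))) (XT.nd (nat_lit 156) (nat_lit 228) (nat_lit 0) (XT.nd (nat_lit 78) (nat_lit 228) (nat_lit 0) (XT.lf (nat_lit 0) (nat_lit 243295018412) (nat_lit 228) (nat_lit 14968904568) (nat_lit 304) (nat_lit 1634252959) (nat_lit 65) (nat_lit 5) (nat_lit 68) (nat_lit 5) (nat_lit 69) (nat_lit 5) (nat_lit 460) (nat_lit 447) (nat_lit 293)) (XT.lf (nat_lit 0) (nat_lit 41040183569) (nat_lit 228) (nat_lit 133485692234) (nat_lit 76) (nat_lit 97163029153) (nat_lit 62) (nat_lit 5) (nat_lit 65) (nat_lit 5) (nat_lit 63) (nat_lit 5) (nat_lit 461) (nat_lit 447) (nat_lit 292))) (XT.nd (nat_lit 78) (nat_lit 0) (nat_lit 0) (XT.lf (nat_lit 0) (nat_lit 22641153435) (nat_lit 228) (nat_lit 65798080136) (nat_lit 304) (nat_lit 195868346844)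 (nat_lit 59) (nat_lit 5) (nat_lit 62) (nat_lit 5) (nat_lit 63) (nat_lit 5) (nat_lit 462) (nat_lit 447) (nat_lit 291)) (XT.lf (nat_lit 0) (nat_lit 144616275661) (nat_lit 304) (nat_lit 100130790814) (nat_lit 76) (nat_lit 52789798010) (nat_lit 59) (nat_lit 5) (nat_lit 63) (nat_lit 5) (nat_lit 60) (nat_lit 5) (nat_lit 463) (nat_lit 447) (nat_lit 290))))))))
noncomputable def xc196 : XT := (XT.nd (nat_lit 1950) (nat_lit 1444) (nat_lit 0) (XT.nd (nat_lit 936) (nat_lit 912) (nat_lit 0) (XT.nd (nat_lit 468) (nat_lit 456) (nat_lit 0) (XT.nd (nat_lit 234) (nat_lit 304) (nat_lit 0) (XT.nd (nat_lit 78) (nat_lit 228) (nat_lit 0) (XT.lf (nat_lit 0) (nat_lit 76442464475) (nat_lit 152) (nat_lit 132392390798) (nat_lit 228) (nat_lit 102705846095) (nat_lit 57) (nat_lit 5) (nat_lit 59) (nat_lit 5) (nat_lit 60) (nat_lit 5) (nat_lit 464) (nat_lit 447) (nat_lit 289)) (XT.nd (nat_lit 78) (nat_lit 228) (nat_lit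 0) (XT.lf (nat_lit 0) (nat_lit 272835958448) (nat_lit 152) (nat_lit 8092610653) (nat_lit 228) (nat_lit 45517264290) (nat_lit 57) (nat_lit 5) (nat_lit 59) (nat_lit 5) (nat_lit 60) (nat_lit 5) (nat_lit 465) (nat_lit 447) (nat_lit 288)) (XT.lf (nat_lit 0) (nat_lit 22166164284) (nat_lit 228) (nat_lit 195877475544) (nat_lit 76) (nat_lit 123929880359) (nat_lit 54) (nat_lit 5) (nat_lit 57) (nat_lit 5) (nat_lit 55) (nat_lit 5) (nat_lit 466) (nat_lit 447) (nat_lit 287)))) (XT.nd (nat_lit 78) (nat_lit 152) (nat_lit 0) (XT.lf (nat_lit 0) (nat_lit 5021640265) (nat_lit 152) (nat_lit 89618244889) (nat_lit 228) (nat_lit 263862176854) (nat_lit 52) (nat_lit 5) (nat_lit 54) (nat_lit 5) (nat_lit 55) (nat_lit 5) (nat_lit 467) (nat_lit 447) (nat_lit 286)) (XT.nd (nat_lit 78) (nat_lit 152) (nat_lit 0) (XT.lf (nat_lit 0) (nat_lit 179586557533) (nat_lit 228) (nat_lit 144111684804) (nat_lit 76) (nat_lit 52120640544)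 (nat_lit 52) (nat_lit 5) (nat_lit 55) (nat_lit 5) (nat_lit 53) (nat_lit 5) (nat_lit 468) (nat_lit 447) (nat_lit 285)) (XT.lf (nat_lit 0) (nat_lit 83874404382) (nat_lit 152) (nat_lit 191799399859) (nat_lit 228) (nat_lit 118499657953) (nat_lit 50) (nat_lit 5) (nat_lit 52) (nat_lit 5) (nat_lit 53) (nat_lit 5) (nat_lit 469) (nat_lit 447) (nat_lit 284))))) (XT.nd (nat_lit 234) (nat_lit 152) (nat_lit 0) (XT.nd (nat_lit 78) (nat_lit 304) (nat_lit 0) (XT.lf (nat_lit 0) (nat_lit 338295005904) (nat_lit 152) (nat_lit 45093209365) (nat_lit 228) (nat_lit 30292977826) (nat_lit 50) (nat_lit 5) (nat_lit 52) (nat_lit 5) (nat_lit 53) (nat_lit 5) (nat_lit 470) (nat_lit 447) (nat_lit 283)) (XT.nd (nat_lit 78) (nat_lit 152) (nat_lit 0) (XT.lf (nat_lit 0) (nat_lit 69077816278) (nat_lit 152) (nat_lit 251084667086) (nat_lit 76) (nat_lit 113873443939) (nat_lit 48) (nat_lit 5) (nat_lit 50) (nat_lit 5) (nat_lit 49)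 (nat_lit 5) (nat_lit 471) (nat_lit 447) (nat_lit 282)) (XT.lf (nat_lit 0) (nat_lit 8818210048) (nat_lit 152) (nat_lit 169441437702) (nat_lit 228) (nat_lit 277416607542) (nat_lit 46) (nat_lit 5) (nat_lit 48) (nat_lit 5) (nat_lit 49) (nat_lit 5) (nat_lit 472) (nat_lit 447) (nat_lit 281)))) (XT.nd (nat_lit 78) (nat_lit 152) (nat_lit 0) (XT.lf (nat_lit 0) (nat_lit 303059124710) (nat_lit 228) (nat_lit 174724084282) (nat_lit 76) (nat_lit 713952619) (nat_lit 46) (nat_lit 5) (nat_lit 49) (nat_lit 5) (nat_lit 47) (nat_lit 4) (nat_lit 473) (nat_lit 447) (nat_lit 280)) (XT.nd (nat_lit 78) (nat_lit 76) (nat_lit 0) (XT.lf (nat_lit 0) (nat_lit 120823474945) (nat_lit 76) (nat_lit 324325897578) (nat_lit 152) (nat_lit 57409822906) (nat_lit 45) (nat_lit 5) (nat_lit 46) (nat_lit 5) (nat_lit 47) (nat_lit 4) (nat_lit 474) (nat_lit 447) (nat_lit 279)) (XT.lf (nat_lit 0) (nat_lit 71457211307) (nat_lit 152) (nat_lit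 80021625862) (nat_lit 76) (nat_lit 376540455527) (nat_lit 44) (nat_lit 5) (nat_lit 46) (nat_lit 5) (nat_lit 45) (nat_lit 5) (nat_lit 475) (nat_lit 447) (nat_lit 278)))))) (XT.nd (nat_lit 468) (nat_lit 456) (nat_lit 0) (XT.nd (nat_lit 234) (nat_lit 228) (nat_lit 0) (XT.nd (nat_lit 78) (nat_lit 76) (nat_lit 0) (XT.lf (nat_lit 0) (nat_lit 214763565985) (nat_lit 228) (nat_lit 298743170240) (nat_lit 76) (nat_lit 41311642044) (nat_lit 42) (nat_lit 5) (nat_lit 45) (nat_lit 5) (nat_lit 43) (nat_lit 4) (nat_lit 476) (nat_lit 447) (nat_lit 277)) (XT.nd (nat_lit 78) (nat_lit 0) (nat_lit 0) (XT.lf (nat_lit 0) (nat_lit 37930301518) (nat_lit 76) (nat_lit 338695565710) (nat_lit 152) (nat_lit 206568208408) (nat_lit 41) (nat_lit 5) (nat_lit 42) (nat_lit 5) (nat_lit 43) (nat_lit 4) (nat_lit 477) (nat_lit 447) (nat_lit 276)) (XT.lf (nat_lit 0) (nat_lit 418527328257) (nat_lit 76) (nat_lit 141077929866) (nat_lit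 152) (nat_lit 53581122231) (nat_lit 41) (nat_lit 5) (nat_lit 42) (nat_lit 5) (nat_lit 43) (nat_lit 4) (nat_lit 478) (nat_lit 447) (nat_lit 275)))) (XT.nd (nat_lit 78) (nat_lit 76) (nat_lit 0) (XT.lf (nat_lit 0) (nat_lit 112579000466) (nat_lit 152) (nat_lit 456068741146) (nat_lit 76) (nat_lit 76194002682) (nat_lit 39) (nat_lit 5) (nat_lit 41) (nat_lit 5) (nat_lit 40) (nat_lit 4) (nat_lit 479) (nat_lit 447) (nat_lit 274)) (XT.nd (nat_lit 78) (nat_lit 76) (nat_lit 0) (XT.lf (nat_lit 0) (nat_lit 298262029816) (nat_lit 152) (nat_lit 69848124500) (nat_lit 76) (nat_lit 310078056108) (nat_lit 39) (nat_lit 5) (nat_lit 41) (nat_lit 5) (nat_lit 40) (nat_lit 4) (nat_lit 480) (nat_lit 447) (nat_lit 273)) (XT.lf (nat_lit 0) (nat_lit 365556667251) (nat_lit 76) (nat_lit 142034626941) (nat_lit 152) (nat_lit 205907772243) (nat_lit 38) (nat_lit 5) (nat_lit 39) (nat_lit 5) (nat_lit 40) (nat_lit 4) (nat_lit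 481) (nat_lit 447) (nat_lit 272))))) (XT.nd (nat_lit 234) (nat_lit 228) (nat_lit 0) (XT.nd (nat_lit 78) (nat_lit 152) (nat_lit 0) (XT.lf (nat_lit 0) (nat_lit 90295231312) (nat_lit 76) (nat_lit 649958748917) (nat_lit 76) (nat_lit 10853844259) (nat_lit 37) (nat_lit 4) (nat_lit 38) (nat_lit 5) (nat_lit 38) (nat_lit 4) (nat_lit 482) (nat_lit 447) (nat_lit 271)) (XT.nd (nat_lit 78) (nat_lit 76) (nat_lit 0) (XT.lf (nat_lit 0) (nat_lit 203258992866) (nat_lit 152) (nat_lit 216326261533) (nat_lit 76) (nat_lit 370679635137) (nat_lit 36) (nat_lit 5) (nat_lit 38) (nat_lit 5) (nat_lit 37) (nat_lit 4) (nat_lit 483) (nat_lit 447) (nat_lit 270)) (XT.lf (nat_lit 0) (nat_lit 277309089687) (nat_lit 76) (nat_lit 163274618882) (nat_lit 152) (nat_lit 391414718488) (nat_lit 35) (nat_lit 5) (nat_lit 36) (nat_lit 5) (nat_lit 37) (nat_lit 4) (nat_lit 484) (nat_lit 447) (nat_lit 269)))) (XT.nd (nat_lit 156) (nat_lit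 76) (nat_lit 0) (XT.nd (nat_lit 78) (nat_lit 152) (nat_lit 0) (XT.lf (nat_lit 0) (nat_lit 705693386455) (nat_lit 152) (nat_lit 56743916366) (nat_lit 0) (nat_lit 113929425968) (nat_lit 35) (nat_lit 5) (nat_lit 37) (nat_lit 4) (nat_lit 35) (nat_lit 4) (nat_lit 485) (nat_lit 447) (nat_lit 268)) (XT.lf (nat_lit 0) (nat_lit 81074669664) (nat_lit 152) (nat_lit 423128693184) (nat_lit 76) (nat_lit 418611998530) (nat_lit 33) (nat_lit 5) (nat_lit 35) (nat_lit 5) (nat_lit 34) (nat_lit 4) (nat_lit 486) (nat_lit 447) (nat_lit 267))) (XT.nd (nat_lit 78) (nat_lit 0) (nat_lit 0) (XT.lf (nat_lit 0) (nat_lit 133192373631) (nat_lit 76) (nat_lit 215344367685) (nat_lit 152) (nat_lit 623704896374) (nat_lit 32) (nat_lit 5) (nat_lit 33) (nat_lit 5) (nat_lit 34) (nat_lit 4) (nat_lit 487) (nat_lit 447) (nat_lit 266)) (XT.lf (nat_lit 0) (nat_lit 651589112040) (nat_lit 152) (nat_lit 269238035920) (nat_lit 0) (nat_lit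 103659401482) (nat_lit 32) (nat_lit 5) (nat_lit 34) (nat_lit 4) (nat_lit 32) (nat_lit 4) (nat_lit 488) (nat_lit 447) (nat_lit 265))))))) (XT.nd (nat_lit 936) (nat_lit 684) (nat_lit 0) (XT.nd (nat_lit 468) (nat_lit 304) (nat_lit 0) (XT.nd (nat_lit 234) (nat_lit 228) (nat_lit 0) (XT.nd (nat_lit 78) (nat_lit 152) (nat_lit 0) (XT.lf (nat_lit 0) (nat_lit 358498180875) (nat_lit 76) (nat_lit 634602700318) (nat_lit 76) (nat_lit 86672956242) (nat_lit 31) (nat_lit 4) (nat_lit 32) (nat_lit 5) (nat_lit 32) (nat_lit 4) (nat_lit 489) (nat_lit 447) (nat_lit 264)) (XT.nd (nat_lit 78) (nat_lit 76) (nat_lit 0) (XT.lf (nat_lit 0) (nat_lit 218874269554) (nat_lit 152) (nat_lit 92671294436) (nat_lit 76) (nat_lit 826906342425) (nat_lit 30) (nat_lit 5) (nat_lit 32) (nat_lit 5) (nat_lit 31) (nat_lit 4) (nat_lit 490) (nat_lit 447) (nat_lit 263)) (XT.lf (nat_lit 0) (nat_lit 560307588050) (nat_lit 152) (nat_lit 587081363693)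 (nat_lit 0) (nat_lit 52965177082) (nat_lit 29) (nat_lit 5) (nat_lit 31) (nat_lit 4) (nat_lit 29) (nat_lit 4) (nat_lit 491) (nat_lit 447) (nat_lit 262)))) (XT.nd (nat_lit 78) (nat_lit 152) (nat_lit 0) (XT.lf (nat_lit 0) (nat_lit 111370022205) (nat_lit 76) (nat_lit 831055666545) (nat_lit 76) (nat_lit 323713230941) (nat_lit 28) (nat_lit 4) (nat_lit 29) (nat_lit 5) (nat_lit 29) (nat_lit 4) (nat_lit 492) (nat_lit 447) (nat_lit 261)) (XT.nd (nat_lit 78) (nat_lit 76) (nat_lit 0) (XT.lf (nat_lit 0) (nat_lit 33498713474) (nat_lit 152) (nat_lit 437665134388) (nat_lit 76) (nat_lit 864670655826) (nat_lit 27) (nat_lit 5) (nat_lit 29) (nat_lit 5) (nat_lit 28) (nat_lit 4) (nat_lit 493) (nat_lit 447) (nat_lit 260)) (XT.lf (nat_lit 0) (nat_lit 345691619471) (nat_lit 76) (nat_lit 64420928128) (nat_lit 152) (nat_lit 999655427397) (nat_lit 26) (nat_lit 5) (nat_lit 27) (nat_lit 5) (nat_lit 28) (nat_lit 4) (nat_lit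 494) (nat_lit 447) (nat_lit 259))))) (XT.nd (nat_lit 234) (nat_lit 152) (nat_lit 0) (XT.nd (nat_lit 78) (nat_lit 152) (nat_lit 0) (XT.lf (nat_lit 0) (nat_lit 838148239524) (nat_lit 152) (nat_lit 281377798111) (nat_lit 0) (nat_lit 368386666289) (nat_lit 26) (nat_lit 5) (nat_lit 28) (nat_lit 4) (nat_lit 26) (nat_lit 4) (nat_lit 495) (nat_lit 447) (nat_lit 258)) (XT.nd (nat_lit 78) (nat_lit 76) (nat_lit 0) (XT.lf (nat_lit 0) (nat_lit 591871098153) (nat_lit 76) (nat_lit 724463441398) (nat_lit 76) (nat_lit 254701851396) (nat_lit 25) (nat_lit 4) (nat_lit 26) (nat_lit 5) (nat_lit 26) (nat_lit 4) (nat_lit 496) (nat_lit 447) (nat_lit 257)) (XT.lf (nat_lit 0) (nat_lit 171256509521) (nat_lit 152) (nat_lit 113548065723) (nat_lit 76) (nat_lit 1375043082161) (nat_lit 24) (nat_lit 5) (nat_lit 26) (nat_lit 5) (nat_lit 25) (nat_lit 4) (nat_lit 497) (nat_lit 447) (nat_lit 256)))) (XT.nd (nat_lit 78) (nat_lit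 76) (nat_lit 0) (XT.lf (nat_lit 0) (nat_lit 643434094637) (nat_lit 152) (nat_lit 901258602503) (nat_lit 0) (nat_lit 208469631765) (nat_lit 23) (nat_lit 5) (nat_lit 25) (nat_lit 4) (nat_lit 23) (nat_lit 4) (nat_lit 498) (nat_lit 447) (nat_lit 255)) (XT.nd (nat_lit 78) (nat_lit 0) (nat_lit 0) (XT.lf (nat_lit 0) (nat_lit 41977078538) (nat_lit 76) (nat_lit 1123001093955) (nat_lit 76) (nat_lit 688036618758) (nat_lit 22) (nat_lit 4) (nat_lit 23) (nat_lit 5) (nat_lit 23) (nat_lit 4) (nat_lit 499) (nat_lit 447) (nat_lit 254)) (XT.lf (nat_lit 0) (nat_lit 1111926931168) (nat_lit 76) (nat_lit 640960823874) (nat_lit 76) (nat_lit 205996337266) (nat_lit 22) (nat_lit 4) (nat_lit 23) (nat_lit 5) (nat_lit 23) (nat_lit 4) (nat_lit 500) (nat_lit 447) (nat_lit 253)))))) (XT.nd (nat_lit 468) (nat_lit 304) (nat_lit 0) (XT.nd (nat_lit 234) (nat_lit 152) (nat_lit 0) (XT.nd (nat_lit 78) (nat_lit 76) (nat_lit 0)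 (XT.lf (nat_lit 0) (nat_lit 196513889955) (nat_lit 76) (nat_lit 107081488472) (nat_lit 152) (nat_lit 1768644163322) (nat_lit 20) (nat_lit 5) (nat_lit 21) (nat_lit 5) (nat_lit 22) (nat_lit 4) (nat_lit 501) (nat_lit 447) (nat_lit 252)) (XT.nd (nat_lit 78) (nat_lit 76) (nat_lit 0) (XT.lf (nat_lit 0) (nat_lit 877875732880) (nat_lit 152) (nat_lit 838424794557) (nat_lit 0) (nat_lit 475130819031) (nat_lit 20) (nat_lit 5) (nat_lit 22) (nat_lit 4) (nat_lit 20) (nat_lit 4) (nat_lit 502) (nat_lit 447) (nat_lit 251)) (XT.lf (nat_lit 0) (nat_lit 293774534597) (nat_lit 76) (nat_lit 1214170577737) (nat_lit 76) (nat_lit 811425655499) (nat_lit 19) (nat_lit 4) (nat_lit 20) (nat_lit 5) (nat_lit 20) (nat_lit 4) (nat_lit 503) (nat_lit 447) (nat_lit 250)))) (XT.nd (nat_lit 78) (nat_lit 152) (nat_lit 0) (XT.lf (nat_lit 0) (nat_lit 1564231721043) (nat_lit 76) (nat_lit 647112316133) (nat_lit 76) (nat_lit 244367386129)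 (nat_lit 19) (nat_lit 4) (nat_lit 20) (nat_lit 5) (nat_lit 20) (nat_lit 4) (nat_lit 504) (nat_lit 447) (nat_lit 249)) (XT.nd (nat_lit 78) (nat_lit 0) (nat_lit 0) (XT.lf (nat_lit 0) (nat_lit 341602709993) (nat_lit 76) (nat_lit 16256735769) (nat_lit 152) (nat_lit 2243734503479) (nat_lit 17) (nat_lit 5) (nat_lit 18) (nat_lit 5) (nat_lit 19) (nat_lit 4) (nat_lit 505) (nat_lit 447) (nat_lit 248)) (XT.lf (nat_lit 0) (nat_lit 1036064841416) (nat_lit 152) (nat_lit 1056141394825) (nat_lit 0) (nat_lit 663152856366) (nat_lit 17) (nat_lit 5) (nat_lit 19) (nat_lit 4) (nat_lit 17) (nat_lit 4) (nat_lit 506) (nat_lit 447) (nat_lit 247))))) (XT.nd (nat_lit 234) (nat_lit 76) (nat_lit 0) (XT.nd (nat_lit 78) (nat_lit 152) (nat_lit 0) (XT.lf (nat_lit 0) (nat_lit 256421375939) (nat_lit 76) (nat_lit 1518694464270) (nat_lit 76) (nat_lit 1145782473513) (nat_lit 16) (nat_lit 4) (nat_lit 17) (nat_lit 5) (nat_lit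 17) (nat_lit 4) (nat_lit 507) (nat_lit 447) (nat_lit 246)) (XT.nd (nat_lit 78) (nat_lit 152) (nat_lit 0) (XT.lf (nat_lit 0) (nat_lit 1734052822350) (nat_lit 76) (nat_lit 868114852857) (nat_lit 76) (nat_lit 495202856814) (nat_lit 16) (nat_lit 4) (nat_lit 17) (nat_lit 5) (nat_lit 17) (nat_lit 4) (nat_lit 508) (nat_lit 447) (nat_lit 245)) (XT.lf (nat_lit 0) (nat_lit 38891178889) (nat_lit 76) (nat_lit 159091119104) (nat_lit 152) (nat_lit 3089504322193) (nat_lit 14) (nat_lit 5) (nat_lit 15) (nat_lit 5) (nat_lit 16) (nat_lit 4) (nat_lit 509) (nat_lit 447) (nat_lit 244)))) (XT.nd (nat_lit 156) (nat_lit 76) (nat_lit 0) (XT.nd (nat_lit 78) (nat_lit 0) (nat_lit 0) (XT.lf (nat_lit 0) (nat_lit 972702201728) (nat_lit 152) (nat_lit 1887440792692) (nat_lit 0) (nat_lit 627413307775) (nat_lit 14) (nat_lit 5) (nat_lit 16) (nat_lit 4) (nat_lit 14) (nat_lit 4) (nat_lit 510) (nat_lit 447) (nat_lit 243)) (XT.lf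 (nat_lit 0) (nat_lit 1813531916118) (nat_lit 152) (nat_lit 421526046900) (nat_lit 0) (nat_lit 1468243018280) (nat_lit 14) (nat_lit 5) (nat_lit 16) (nat_lit 4) (nat_lit 14) (nat_lit 4) (nat_lit 511) (nat_lit 447) (nat_lit 242))) (XT.nd (nat_lit 78) (nat_lit 0) (nat_lit 0) (XT.lf (nat_lit 0) (nat_lit 1222832897554) (nat_lit 76) (nat_lit 1528204253567) (nat_lit 76) (nat_lit 1182915352131) (nat_lit 13) (nat_lit 4) (nat_lit 14) (nat_lit 5) (nat_lit 14) (nat_lit 4) (nat_lit 512) (nat_lit 447) (nat_lit 241)) (XT.lf (nat_lit 0) (nat_lit 3022713083205) (nat_lit 76) (nat_lit 752354974164) (nat_lit 76) (nat_lit 407066069398) (nat_lit 13) (nat_lit 4) (nat_lit 14) (nat_lit 5) (nat_lit 14) (nat_lit 4) (nat_lit 513) (nat_lit 447) (nat_lit 240))))))))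
noncomputable def xc197 : XT := (XT.nd (nat_lit 57954) (nat_lit 0) (nat_lit 2584) (XT.nd (nat_lit 936) (nat_lit 152) (nat_lit 0) (XT.nd (nat_lit 468) (nat_lit 228) (nat_lit 0) (XT.nd (nat_lit 234) (nat_lit 76) (nat_lit 0) (XT.nd (nat_lit 78) (nat_lit 0) (nat_lit 0) (XT.lf (nat_lit 0) (nat_lit 424769328352) (nat_lit 152) (nat_lit 3918276929346) (nat_lit 0) (nat_lit 105057376638) (nat_lit 11) (nat_lit 5) (nat_lit 13) (nat_lit 4) (nat_lit 11) (nat_lit 4) (nat_lit 514) (nat_lit 447) (nat_lit 239)) (XT.nd (nat_lit 78) (nat_lit 0) (nat_lit 0) (XT.lf (nat_lit 0) (nat_lit 1353225107728) (nat_lit 152) (nat_lit 2343601334584) (nat_lit 0) (nat_lit 1033513153370) (nat_lit 11) (nat_lit 5) (nat_lit 13) (nat_lit 4) (nat_lit 11) (nat_lit 4) (nat_lit 515) (nat_lit 447) (nat_lit 238)) (XT.lf (nat_lit 0) (nat_lit 2355957334799) (nat_lit 152) (nat_lit 642951722316) (nat_lit 0) (nat_lit 2036245377993) (nat_lit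 11) (nat_lit 5) (nat_lit 13) (nat_lit 4) (nat_lit 11) (nat_lit 4) (nat_lit 516) (nat_lit 447) (nat_lit 237)))) (XT.nd (nat_lit 78) (nat_lit 0) (nat_lit 0) (XT.lf (nat_lit 0) (nat_lit 1256610581685) (nat_lit 76) (nat_lit 2212519059492) (nat_lit 76) (nat_lit 1892807100420) (nat_lit 10) (nat_lit 4) (nat_lit 11) (nat_lit 5) (nat_lit 11) (nat_lit 4) (nat_lit 517) (nat_lit 447) (nat_lit 236)) (XT.nd (nat_lit 78) (nat_lit 0) (nat_lit 0) (XT.lf (nat_lit 0) (nat_lit 3344703077017) (nat_lit 76) (nat_lit 1344232081329) (nat_lit 76) (nat_lit 1024520120157) (nat_lit 10) (nat_lit 4) (nat_lit 11) (nat_lit 5) (nat_lit 11) (nat_lit 4) (nat_lit 518) (nat_lit 447) (nat_lit 235)) (XT.lf (nat_lit 0) (nat_lit 5599842946845) (nat_lit 76) (nat_lit 406482157805) (nat_lit 76) (nat_lit 86770194691) (nat_lit 10) (nat_lit 4) (nat_lit 11) (nat_lit 5) (nat_lit 11) (nat_lit 4) (nat_lit 519) (nat_lit 447) (nat_lit 234)))))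 (XT.nd (nat_lit 234) (nat_lit 76) (nat_lit 0) (XT.nd (nat_lit 78) (nat_lit 0) (nat_lit 0) (XT.lf (nat_lit 0) (nat_lit 934058365835) (nat_lit 152) (nat_lit 4924887290261) (nat_lit 0) (nat_lit 638028768692) (nat_lit 8) (nat_lit 5) (nat_lit 10) (nat_lit 4) (nat_lit 8) (nat_lit 4) (nat_lit 520) (nat_lit 447) (nat_lit 233)) (XT.nd (nat_lit 78) (nat_lit 0) (nat_lit 0) (XT.lf (nat_lit 0) (nat_lit 2056260022801) (nat_lit 152) (nat_lit 3114541559180) (nat_lit 0) (nat_lit 1760230424115) (nat_lit 8) (nat_lit 5) (nat_lit 10) (nat_lit 4) (nat_lit 8) (nat_lit 4) (nat_lit 521) (nat_lit 447) (nat_lit 232)) (XT.lf (nat_lit 0) (nat_lit 3268237801572) (nat_lit 152) (nat_lit 1159368191739) (nat_lit 0) (nat_lit 2972208201458) (nat_lit 8) (nat_lit 5) (nat_lit 10) (nat_lit 4) (nat_lit 8) (nat_lit 4) (nat_lit 522) (nat_lit 447) (nat_lit 231)))) (XT.nd (nat_lit 78) (nat_lit 0) (nat_lit 0) (XT.lf (nat_lit 0) (nat_lit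 1002361190968) (nat_lit 76) (nat_lit 3598919412471) (nat_lit 76) (nat_lit 3302889811034) (nat_lit 7) (nat_lit 4) (nat_lit 8) (nat_lit 5) (nat_lit 8) (nat_lit 4) (nat_lit 523) (nat_lit 447) (nat_lit 230)) (XT.nd (nat_lit 78) (nat_lit 0) (nat_lit 0) (XT.lf (nat_lit 0) (nat_lit 3402963200678) (nat_lit 76) (nat_lit 2669702800019) (nat_lit 76) (nat_lit 2373673197357) (nat_lit 7) (nat_lit 4) (nat_lit 8) (nat_lit 5) (nat_lit 8) (nat_lit 4) (nat_lit 524) (nat_lit 447) (nat_lit 229)) (XT.lf (nat_lit 0) (nat_lit 5995613352675) (nat_lit 76) (nat_lit 1666148868080) (nat_lit 76) (nat_lit 1370119264284) (nat_lit 7) (nat_lit 4) (nat_lit 8) (nat_lit 5) (nat_lit 8) (nat_lit 4) (nat_lit 525) (nat_lit 447) (nat_lit 228)))))) (XT.nd (nat_lit 56472) (nat_lit 0) (nat_lit 5320) (XT.nd (nat_lit 234) (nat_lit 0) (nat_lit 0) (XT.nd (nat_lit 78) (nat_lit 152) (nat_lit 0) (XT.lf (nat_lit 0) (nat_lit 8795675499712)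 (nat_lit 76) (nat_lit 582310630391) (nat_lit 76) (nat_lit 286281025545) (nat_lit 7) (nat_lit 4) (nat_lit 8) (nat_lit 5) (nat_lit 8) (nat_lit 4) (nat_lit 526) (nat_lit 447) (nat_lit 227)) (XT.nd (nat_lit 78) (nat_lit 0) (nat_lit 0) (XT.lf (nat_lit 0) (nat_lit 892423567128) (nat_lit 152) (nat_lit 8830605204357) (nat_lit 0) (nat_lit 618322080259) (nat_lit 5) (nat_lit 5) (nat_lit 7) (nat_lit 4) (nat_lit 5) (nat_lit 4) (nat_lit 527) (nat_lit 447) (nat_lit 226)) (XT.lf (nat_lit 0) (nat_lit 2189448547524) (nat_lit 152) (nat_lit 6964051515993) (nat_lit 0) (nat_lit 1915347059821) (nat_lit 5) (nat_lit 5) (nat_lit 7) (nat_lit 4) (nat_lit 5) (nat_lit 4) (nat_lit 528) (nat_lit 447) (nat_lit 225)))) (XT.nd (nat_lit 78) (nat_lit 0) (nat_lit 0) (XT.lf (nat_lit 0) (nat_lit 3590235519044) (nat_lit 152) (nat_lit 4948173547630) (nat_lit 0) (nat_lit 3316134030570) (nat_lit 5) (nat_lit 5) (nat_lit 7) (nat_lit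 4) (nat_lit 5) (nat_lit 4) (nat_lit 529) (nat_lit 447) (nat_lit 224)) (XT.nd (nat_lit 56082) (nat_lit 0) (nat_lit 5776) (XT.lf (nat_lit 0) (nat_lit 5103085441521) (nat_lit 152) (nat_lit 2771025355751) (nat_lit 0) (nat_lit 4828983952333) (nat_lit 5) (nat_lit 5) (nat_lit 7) (nat_lit 4) (nat_lit 5) (nat_lit 4) (nat_lit 530) (nat_lit 447) (nat_lit 223)) (XT.lf (nat_lit 0) (nat_lit 79131051898) (nat_lit 532) (nat_lit 1258138818) (nat_lit 532) (nat_lit 1258138818) (nat_lit 81) (nat_lit 3) (nat_lit 88) (nat_lit 3) (nat_lit 88) (nat_lit 5) (nat_lit 448) (nat_lit 448) (nat_lit 304))))) (XT.nd (nat_lit 234) (nat_lit 0) (nat_lit 0) (XT.nd (nat_lit 78) (nat_lit 456) (nat_lit 0) (XT.lf (nat_lit 76) (nat_lit 82610913360) (nat_lit 0) (nat_lit 83970782914) (nat_lit 532) (nat_lit 3085619875) (nat_lit 82) (nat_lit 5) (nat_lit 81) (nat_lit 3) (nat_lit 88) (nat_lit 5) (nat_lit 449) (nat_lit 448) (nat_lit 303))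 (XT.nd (nat_lit 78) (nat_lit 456) (nat_lit 0) (XT.lf (nat_lit 76) (nat_lit 174691250953) (nat_lit 0) (nat_lit 944170024) (nat_lit 532) (nat_lit 908879694) (nat_lit 82) (nat_lit 5) (nat_lit 81) (nat_lit 3) (nat_lit 88) (nat_lit 5) (nat_lit 450) (nat_lit 448) (nat_lit 302)) (XT.lf (nat_lit 0) (nat_lit 5845457693) (nat_lit 532) (nat_lit 91102204644) (nat_lit 608) (nat_lit 86662959846) (nat_lit 75) (nat_lit 5) (nat_lit 82) (nat_lit 5) (nat_lit 83) (nat_lit 5) (nat_lit 451) (nat_lit 448) (nat_lit 301)))) (XT.nd (nat_lit 156) (nat_lit 0) (nat_lit 76) (XT.nd (nat_lit 78) (nat_lit 0) (nat_lit 76) (XT.lf (nat_lit 76) (nat_lit 3406817226) (nat_lit 0) (nat_lit 9842453633) (nat_lit 608) (nat_lit 177978431472) (nat_lit 76) (nat_lit 5) (nat_lit 75) (nat_lit 5) (nat_lit 83) (nat_lit 5) (nat_lit 452) (nat_lit 448) (nat_lit 300)) (XT.lf (nat_lit 0) (nat_lit 25826550518) (nat_lit 532) (nat_lit 90687875746)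 (nat_lit 608) (nat_lit 82573229759) (nat_lit 76) (nat_lit 5) (nat_lit 83) (nat_lit 5) (nat_lit 84) (nat_lit 5) (nat_lit 453) (nat_lit 448) (nat_lit 299))) (XT.nd (nat_lit 78) (nat_lit 0) (nat_lit 76) (XT.lf (nat_lit 76) (nat_lit 14695083664) (nat_lit 0) (nat_lit 25323813977) (nat_lit 608) (nat_lit 167508797603) (nat_lit 77) (nat_lit 5) (nat_lit 76) (nat_lit 5) (nat_lit 84) (nat_lit 5) (nat_lit 454) (nat_lit 448) (nat_lit 298)) (XT.lf (nat_lit 0) (nat_lit 59649983348) (nat_lit 532) (nat_lit 84602506480) (nat_lit 76) (nat_lit 72046179750) (nat_lit 77) (nat_lit 5) (nat_lit 84) (nat_lit 5) (nat_lit 78) (nat_lit 5) (nat_lit 455) (nat_lit 448) (nat_lit 297))))))) (XT.nd (nat_lit 936) (nat_lit 1140) (nat_lit 0) (XT.nd (nat_lit 468) (nat_lit 836) (nat_lit 0) (XT.nd (nat_lit 234) (nat_lit 228) (nat_lit 0) (XT.nd (nat_lit 78) (nat_lit 228) (nat_lit 0) (XT.lf (nat_lit 0) (nat_lit 33293576464) (nat_lit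 456) (nat_lit 49016294973) (nat_lit 532) (nat_lit 143344785216) (nat_lit 71) (nat_lit 5) (nat_lit 77) (nat_lit 5) (nat_lit 78) (nat_lit 5) (nat_lit 456) (nat_lit 448) (nat_lit 296)) (XT.nd (nat_lit 78) (nat_lit 228) (nat_lit 0) (XT.lf (nat_lit 0) (nat_lit 110450491084) (nat_lit 532) (nat_lit 71496366518) (nat_lit 76) (nat_lit 53518829883) (nat_lit 71) (nat_lit 5) (nat_lit 78) (nat_lit 5) (nat_lit 72) (nat_lit 5) (nat_lit 457) (nat_lit 448) (nat_lit 295)) (XT.lf (nat_lit 0) (nat_lit 60805990267) (nat_lit 228) (nat_lit 82771768180) (nat_lit 304) (nat_lit 102265010516) (nat_lit 68) (nat_lit 5) (nat_lit 71) (nat_lit 5) (nat_lit 72) (nat_lit 5) (nat_lit 458) (nat_lit 448) (nat_lit 294)))) (XT.nd (nat_lit 78) (nat_lit 228) (nat_lit 0) (XT.lf (nat_lit 0) (nat_lit 181946001546) (nat_lit 304) (nat_lit 49771272930) (nat_lit 76) (nat_lit 25125478966) (nat_lit 68) (nat_lit 5) (nat_lit 72) (nat_lit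 5) (nat_lit 69) (nat_lit 5) (nat_lit 459) (nat_lit 448) (nat_lit 293)) (XT.nd (nat_lit 78) (nat_lit 0) (nat_lit 0) (XT.lf (nat_lit 0) (nat_lit 99124000517) (nat_lit 228) (nat_lit 128793432609) (nat_lit 304) (nat_lit 40442605256) (nat_lit 65) (nat_lit 5) (nat_lit 68) (nat_lit 5) (nat_lit 69) (nat_lit 5) (nat_lit 460) (nat_lit 448) (nat_lit 292)) (XT.lf (nat_lit 0) (nat_lit 262761295109) (nat_lit 228) (nat_lit 16166003020) (nat_lit 304) (nat_lit 1762550500) (nat_lit 65) (nat_lit 5) (nat_lit 68) (nat_lit 5) (nat_lit 69) (nat_lit 5) (nat_lit 461) (nat_lit 448) (nat_lit 291))))) (XT.nd (nat_lit 234) (nat_lit 380) (nat_lit 0) (XT.nd (nat_lit 78) (nat_lit 228) (nat_lit 0) (XT.lf (nat_lit 0) (nat_lit 44325624787) (nat_lit 228) (nat_lit 144161655369) (nat_lit 76) (nat_lit 104936558663) (nat_lit 62) (nat_lit 5) (nat_lit 65) (nat_lit 5) (nat_lit 63) (nat_lit 5) (nat_lit 462) (nat_lit 448) (nat_lit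 290)) (XT.nd (nat_lit 78) (nat_lit 0) (nat_lit 0) (XT.lf (nat_lit 0) (nat_lit 24455264732) (nat_lit 228) (nat_lit 71061236926) (nat_lit 304) (nat_lit 211535514458) (nat_lit 59) (nat_lit 5) (nat_lit 62) (nat_lit 5) (nat_lit 63) (nat_lit 5) (nat_lit 463) (nat_lit 448) (nat_lit 289)) (XT.lf (nat_lit 0) (nat_lit 156187564739) (nat_lit 304) (nat_lit 108138501144) (nat_lit 76) (nat_lit 57013588447) (nat_lit 59) (nat_lit 5) (nat_lit 63) (nat_lit 5) (nat_lit 60) (nat_lit 5) (nat_lit 464) (nat_lit 448) (nat_lit 288)))) (XT.nd (nat_lit 78) (nat_lit 228) (nat_lit 0) (XT.lf (nat_lit 0) (nat_lit 82560544873) (nat_lit 152) (nat_lit 142983003191) (nat_lit 228) (nat_lit 110920256737) (nat_lit 57) (nat_lit 5) (nat_lit 59) (nat_lit 5) (nat_lit 60) (nat_lit 5) (nat_lit 465) (nat_lit 448) (nat_lit 287)) (XT.nd (nat_lit 78) (nat_lit 228) (nat_lit 0) (XT.lf (nat_lit 0) (nat_lit 294665319606) (nat_lit 152) (nat_lit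 8739298328) (nat_lit 228) (nat_lit 49156740762) (nat_lit 57) (nat_lit 5) (nat_lit 59) (nat_lit 5) (nat_lit 60) (nat_lit 5) (nat_lit 466) (nat_lit 448) (nat_lit 286)) (XT.lf (nat_lit 0) (nat_lit 23941212001) (nat_lit 228) (nat_lit 211545038470) (nat_lit 76) (nat_lit 133845010705) (nat_lit 54) (nat_lit 5) (nat_lit 57) (nat_lit 5) (nat_lit 55) (nat_lit 5) (nat_lit 467) (nat_lit 448) (nat_lit 285)))))) (XT.nd (nat_lit 468) (nat_lit 532) (nat_lit 0) (XT.nd (nat_lit 234) (nat_lit 304) (nat_lit 0) (XT.nd (nat_lit 78) (nat_lit 152) (nat_lit 0) (XT.lf (nat_lit 0) (nat_lit 5425939892) (nat_lit 152) (nat_lit 96786822450) (nat_lit 228) (nat_lit 284969329476) (nat_lit 52) (nat_lit 5) (nat_lit 54) (nat_lit 5) (nat_lit 55) (nat_lit 5) (nat_lit 468) (nat_lit 448) (nat_lit 284)) (XT.nd (nat_lit 78) (nat_lit 152) (nat_lit 0) (XT.lf (nat_lit 0) (nat_lit 193955063237) (nat_lit 228) (nat_lit 155638135937) (nat_lit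 76) (nat_lit 56291067627) (nat_lit 52) (nat_lit 5) (nat_lit 55) (nat_lit 5) (nat_lit 53) (nat_lit 5) (nat_lit 469) (nat_lit 448) (nat_lit 283)) (XT.lf (nat_lit 0) (nat_lit 90586777506) (nat_lit 152) (nat_lit 207142453276) (nat_lit 228) (nat_lit 127977986406) (nat_lit 50) (nat_lit 5) (nat_lit 52) (nat_lit 5) (nat_lit 53) (nat_lit 5) (nat_lit 470) (nat_lit 448) (nat_lit 282)))) (XT.nd (nat_lit 78) (nat_lit 304) (nat_lit 0) (XT.lf (nat_lit 0) (nat_lit 365360847834) (nat_lit 152) (nat_lit 48699834104) (nat_lit 228) (nat_lit 32714893660) (nat_lit 50) (nat_lit 5) (nat_lit 52) (nat_lit 5) (nat_lit 53) (nat_lit 5) (nat_lit 471) (nat_lit 448) (nat_lit 281)) (XT.nd (nat_lit 78) (nat_lit 152) (nat_lit 0) (XT.lf (nat_lit 0) (nat_lit 74605455839) (nat_lit 152) (nat_lit 271169090523) (nat_lit 76) (nat_lit 122984141822) (nat_lit 48) (nat_lit 5) (nat_lit 50) (nat_lit 5) (nat_lit 49) (nat_lit 5) (nat_lit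 472) (nat_lit 448) (nat_lit 280)) (XT.lf (nat_lit 0) (nat_lit 9525957291) (nat_lit 152) (nat_lit 182995826864) (nat_lit 228) (nat_lit 299608462244) (nat_lit 46) (nat_lit 5) (nat_lit 48) (nat_lit 5) (nat_lit 49) (nat_lit 5) (nat_lit 473) (nat_lit 448) (nat_lit 279))))) (XT.nd (nat_lit 234) (nat_lit 380) (nat_lit 0) (XT.nd (nat_lit 78) (nat_lit 152) (nat_lit 0) (XT.lf (nat_lit 0) (nat_lit 327305138808) (nat_lit 228) (nat_lit 188699809646) (nat_lit 76) (nat_lit 771883217) (nat_lit 46) (nat_lit 5) (nat_lit 49) (nat_lit 5) (nat_lit 47) (nat_lit 4) (nat_lit 474) (nat_lit 448) (nat_lit 278)) (XT.nd (nat_lit 78) (nat_lit 76) (nat_lit 0) (XT.lf (nat_lit 0) (nat_lit 130491498588) (nat_lit 76) (nat_lit 350271064340) (nat_lit 152) (nat_lit 62001268756) (nat_lit 45) (nat_lit 5) (nat_lit 46) (nat_lit 5) (nat_lit 47) (nat_lit 4) (nat_lit 475) (nat_lit 448) (nat_lit 277)) (XT.lf (nat_lit 0) (nat_lit 77174966870)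 (nat_lit 152) (nat_lit 86421307042) (nat_lit 76) (nat_lit 406664467796) (nat_lit 44) (nat_lit 5) (nat_lit 46) (nat_lit 5) (nat_lit 45) (nat_lit 5) (nat_lit 476) (nat_lit 448) (nat_lit 276)))) (XT.nd (nat_lit 156) (nat_lit 152) (nat_lit 0) (XT.nd (nat_lit 78) (nat_lit 76) (nat_lit 0) (XT.lf (nat_lit 0) (nat_lit 231945811268) (nat_lit 228) (nat_lit 322640556214) (nat_lit 76) (nat_lit 44617388144) (nat_lit 42) (nat_lit 5) (nat_lit 45) (nat_lit 5) (nat_lit 43) (nat_lit 4) (nat_lit 477) (nat_lit 448) (nat_lit 275)) (XT.lf (nat_lit 0) (nat_lit 40966740939) (nat_lit 76) (nat_lit 365790318214) (nat_lit 152) (nat_lit 223092452635) (nat_lit 41) (nat_lit 5) (nat_lit 42) (nat_lit 5) (nat_lit 43) (nat_lit 4) (nat_lit 478) (nat_lit 448) (nat_lit 274))) (XT.nd (nat_lit 78) (nat_lit 152) (nat_lit 0) (XT.lf (nat_lit 0) (nat_lit 452011380536) (nat_lit 76) (nat_lit 152363337632) (nat_lit 152) (nat_lit 57866489376)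 (nat_lit 41) (nat_lit 5) (nat_lit 42) (nat_lit 5) (nat_lit 43) (nat_lit 4) (nat_lit 479) (nat_lit 448) (nat_lit 273)) (XT.lf (nat_lit 0) (nat_lit 121586373268) (nat_lit 152) (nat_lit 492552304393) (nat_lit 76) (nat_lit 82290321880) (nat_lit 39) (nat_lit 5) (nat_lit 41) (nat_lit 5) (nat_lit 40) (nat_lit 4) (nat_lit 480) (nat_lit 448) (nat_lit 272))))))))
noncomputable def xc198 : XT := (XT.nd (nat_lit 1950) (nat_lit 1064) (nat_lit 0) (XT.nd (nat_lit 936) (nat_lit 760) (nat_lit 0) (XT.nd (nat_lit 468) (nat_lit 456) (nat_lit 0) (XT.nd (nat_lit 234) (nat_lit 152) (nat_lit 0) (XT.nd (nat_lit 78) (nat_lit 152) (nat_lit 0) (XT.lf (nat_lit 0) (nat_lit 322123966984) (nat_lit 152) (nat_lit 75434181826) (nat_lit 76) (nat_lit 334885040396) (nat_lit 39) (nat_lit 5) (nat_lit 41) (nat_lit 5) (nat_lit 40) (nat_lit 4) (nat_lit 481) (nat_lit 448) (nat_lit 271)) (XT.nd (nat_lit 78) (nat_lit 76) (nat_lit 0)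 (XT.lf (nat_lit 0) (nat_lit 394802947882) (nat_lit 76) (nat_lit 153396594443) (nat_lit 152) (nat_lit 222379373793) (nat_lit 38) (nat_lit 5) (nat_lit 39) (nat_lit 5) (nat_lit 40) (nat_lit 4) (nat_lit 482) (nat_lit 448) (nat_lit 270)) (XT.lf (nat_lit 0) (nat_lit 97520607737) (nat_lit 76) (nat_lit 701954625691) (nat_lit 76) (nat_lit 11721142178) (nat_lit 37) (nat_lit 4) (nat_lit 38) (nat_lit 5) (nat_lit 38) (nat_lit 4) (nat_lit 483) (nat_lit 448) (nat_lit 269)))) (XT.nd (nat_lit 78) (nat_lit 76) (nat_lit 0) (XT.lf (nat_lit 0) (nat_lit 219520600366) (nat_lit 152) (nat_lit 233630687937) (nat_lit 76) (nat_lit 400334721299) (nat_lit 36) (nat_lit 5) (nat_lit 38) (nat_lit 5) (nat_lit 37) (nat_lit 4) (nat_lit 484) (nat_lit 448) (nat_lit 268)) (XT.nd (nat_lit 78) (nat_lit 0) (nat_lit 0) (XT.lf (nat_lit 0) (nat_lit 299495448988) (nat_lit 76) (nat_lit 176335817807) (nat_lit 152) (nat_lit 422726965456)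 (nat_lit 35) (nat_lit 5) (nat_lit 36) (nat_lit 5) (nat_lit 37) (nat_lit 4) (nat_lit 485) (nat_lit 448) (nat_lit 267)) (XT.lf (nat_lit 0) (nat_lit 762149672254) (nat_lit 152) (nat_lit 61281871745) (nat_lit 0) (nat_lit 123044457858) (nat_lit 35) (nat_lit 5) (nat_lit 37) (nat_lit 4) (nat_lit 35) (nat_lit 4) (nat_lit 486) (nat_lit 448) (nat_lit 266))))) (XT.nd (nat_lit 234) (nat_lit 228) (nat_lit 0) (XT.nd (nat_lit 78) (nat_lit 76) (nat_lit 0) (XT.lf (nat_lit 0) (nat_lit 87561454863) (nat_lit 152) (nat_lit 456977427374) (nat_lit 76) (nat_lit 452101643084) (nat_lit 33) (nat_lit 5) (nat_lit 35) (nat_lit 5) (nat_lit 34) (nat_lit 4) (nat_lit 487) (nat_lit 448) (nat_lit 265)) (XT.nd (nat_lit 78) (nat_lit 0) (nat_lit 0) (XT.lf (nat_lit 0) (nat_lit 143849285261) (nat_lit 76) (nat_lit 232571183464) (nat_lit 152) (nat_lit 673600436897) (nat_lit 32) (nat_lit 5) (nat_lit 33) (nat_lit 5) (nat_lit 34) (nat_lit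 4) (nat_lit 488) (nat_lit 448) (nat_lit 264)) (XT.lf (nat_lit 0) (nat_lit 703716987066) (nat_lit 152) (nat_lit 290775627702) (nat_lit 0) (nat_lit 111952798912) (nat_lit 32) (nat_lit 5) (nat_lit 34) (nat_lit 4) (nat_lit 32) (nat_lit 4) (nat_lit 489) (nat_lit 448) (nat_lit 263)))) (XT.nd (nat_lit 78) (nat_lit 152) (nat_lit 0) (XT.lf (nat_lit 0) (nat_lit 387179449700) (nat_lit 76) (nat_lit 685370226802) (nat_lit 76) (nat_lit 93606009913) (nat_lit 31) (nat_lit 4) (nat_lit 32) (nat_lit 5) (nat_lit 32) (nat_lit 4) (nat_lit 490) (nat_lit 448) (nat_lit 262)) (XT.nd (nat_lit 78) (nat_lit 76) (nat_lit 0) (XT.lf (nat_lit 0) (nat_lit 236384899701) (nat_lit 152) (nat_lit 100083652118) (nat_lit 76) (nat_lit 893059451998) (nat_lit 30) (nat_lit 5) (nat_lit 32) (nat_lit 5) (nat_lit 31) (nat_lit 4) (nat_lit 491) (nat_lit 448) (nat_lit 261)) (XT.lf (nat_lit 0) (nat_lit 605132879676) (nat_lit 152) (nat_lit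 634046522890) (nat_lit 0) (nat_lit 57203001775) (nat_lit 29) (nat_lit 5) (nat_lit 31) (nat_lit 4) (nat_lit 29) (nat_lit 4) (nat_lit 492) (nat_lit 448) (nat_lit 260)))))) (XT.nd (nat_lit 468) (nat_lit 380) (nat_lit 0) (XT.nd (nat_lit 234) (nat_lit 152) (nat_lit 0) (XT.nd (nat_lit 78) (nat_lit 152) (nat_lit 0) (XT.lf (nat_lit 0) (nat_lit 120280939705) (nat_lit 76) (nat_lit 897539469660) (nat_lit 76) (nat_lit 349609570638) (nat_lit 28) (nat_lit 4) (nat_lit 29) (nat_lit 5) (nat_lit 29) (nat_lit 4) (nat_lit 493) (nat_lit 448) (nat_lit 259)) (XT.nd (nat_lit 78) (nat_lit 76) (nat_lit 0) (XT.lf (nat_lit 0) (nat_lit 36179242795) (nat_lit 152) (nat_lit 472677093565) (nat_lit 76) (nat_lit 933844877026) (nat_lit 27) (nat_lit 5) (nat_lit 29) (nat_lit 5) (nat_lit 28) (nat_lit 4) (nat_lit 494) (nat_lit 448) (nat_lit 258)) (XT.lf (nat_lit 0) (nat_lit 373348168917) (nat_lit 76) (nat_lit 69573997238) (nat_lit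 152) (nat_lit 1079627197643) (nat_lit 26) (nat_lit 5) (nat_lit 27) (nat_lit 5) (nat_lit 28) (nat_lit 4) (nat_lit 495) (nat_lit 448) (nat_lit 257)))) (XT.nd (nat_lit 78) (nat_lit 152) (nat_lit 0) (XT.lf (nat_lit 0) (nat_lit 905200681373) (nat_lit 152) (nat_lit 303886860356) (nat_lit 0) (nat_lit 397858131878) (nat_lit 26) (nat_lit 5) (nat_lit 28) (nat_lit 4) (nat_lit 26) (nat_lit 4) (nat_lit 496) (nat_lit 448) (nat_lit 256)) (XT.nd (nat_lit 78) (nat_lit 76) (nat_lit 0) (XT.lf (nat_lit 0) (nat_lit 639221918202) (nat_lit 76) (nat_lit 782419951268) (nat_lit 76) (nat_lit 275077387398) (nat_lit 25) (nat_lit 4) (nat_lit 26) (nat_lit 5) (nat_lit 26) (nat_lit 4) (nat_lit 497) (nat_lit 448) (nat_lit 255)) (XT.lf (nat_lit 0) (nat_lit 184957568698) (nat_lit 152) (nat_lit 122630834286) (nat_lit 76) (nat_lit 1485047023927) (nat_lit 24) (nat_lit 5) (nat_lit 26) (nat_lit 5) (nat_lit 25) (nat_lit 4) (nat_lit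 498) (nat_lit 448) (nat_lit 254))))) (XT.nd (nat_lit 234) (nat_lit 228) (nat_lit 0) (XT.nd (nat_lit 78) (nat_lit 76) (nat_lit 0) (XT.lf (nat_lit 0) (nat_lit 694909358623) (nat_lit 152) (nat_lit 973358211995) (nat_lit 0) (nat_lit 225147701675) (nat_lit 23) (nat_lit 5) (nat_lit 25) (nat_lit 4) (nat_lit 23) (nat_lit 4) (nat_lit 499) (nat_lit 448) (nat_lit 253)) (XT.nd (nat_lit 78) (nat_lit 0) (nat_lit 0) (XT.lf (nat_lit 0) (nat_lit 45336296220) (nat_lit 76) (nat_lit 1212840652038) (nat_lit 76) (nat_lit 743078984524) (nat_lit 22) (nat_lit 4) (nat_lit 23) (nat_lit 5) (nat_lit 23) (nat_lit 4) (nat_lit 500) (nat_lit 448) (nat_lit 252)) (XT.lf (nat_lit 0) (nat_lit 1200882059179) (nat_lit 76) (nat_lit 692237199568) (nat_lit 76) (nat_lit 222475522271) (nat_lit 22) (nat_lit 4) (nat_lit 23) (nat_lit 5) (nat_lit 23) (nat_lit 4) (nat_lit 501) (nat_lit 448) (nat_lit 251)))) (XT.nd (nat_lit 156) (nat_lit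 76) (nat_lit 0) (XT.nd (nat_lit 78) (nat_lit 0) (nat_lit 0) (XT.lf (nat_lit 0) (nat_lit 212235975483) (nat_lit 76) (nat_lit 115647515785) (nat_lit 152) (nat_lit 1910135175207) (nat_lit 20) (nat_lit 5) (nat_lit 21) (nat_lit 5) (nat_lit 22) (nat_lit 4) (nat_lit 502) (nat_lit 448) (nat_lit 250)) (XT.lf (nat_lit 0) (nat_lit 948106249283) (nat_lit 152) (nat_lit 905497851160) (nat_lit 0) (nat_lit 513141717113) (nat_lit 20) (nat_lit 5) (nat_lit 22) (nat_lit 4) (nat_lit 20) (nat_lit 4) (nat_lit 503) (nat_lit 448) (nat_lit 249))) (XT.nd (nat_lit 78) (nat_lit 0) (nat_lit 0) (XT.lf (nat_lit 0) (nat_lit 317277400859) (nat_lit 76) (nat_lit 1311303766054) (nat_lit 76) (nat_lit 876339226692) (nat_lit 19) (nat_lit 4) (nat_lit 20) (nat_lit 5) (nat_lit 20) (nat_lit 4) (nat_lit 504) (nat_lit 448) (nat_lit 248)) (XT.lf (nat_lit 0) (nat_lit 1689371095295) (nat_lit 76) (nat_lit 698880877440) (nat_lit 76) (nat_lit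 263916331420) (nat_lit 19) (nat_lit 4) (nat_lit 20) (nat_lit 5) (nat_lit 20) (nat_lit 4) (nat_lit 505) (nat_lit 448) (nat_lit 247))))))) (XT.nd (nat_lit 936) (nat_lit 456) (nat_lit 0) (XT.nd (nat_lit 468) (nat_lit 228) (nat_lit 0) (XT.nd (nat_lit 234) (nat_lit 152) (nat_lit 0) (XT.nd (nat_lit 78) (nat_lit 76) (nat_lit 0) (XT.lf (nat_lit 0) (nat_lit 368931763915) (nat_lit 76) (nat_lit 17556849594) (nat_lit 152) (nat_lit 2423232818700) (nat_lit 17) (nat_lit 5) (nat_lit 18) (nat_lit 5) (nat_lit 19) (nat_lit 4) (nat_lit 506) (nat_lit 448) (nat_lit 246)) (XT.nd (nat_lit 78) (nat_lit 76) (nat_lit 0) (XT.lf (nat_lit 0) (nat_lit 1118950419754) (nat_lit 152) (nat_lit 1140631910232) (nat_lit 0) (nat_lit 716205458742) (nat_lit 17) (nat_lit 5) (nat_lit 19) (nat_lit 4) (nat_lit 17) (nat_lit 4) (nat_lit 507) (nat_lit 448) (nat_lit 245)) (XT.lf (nat_lit 0) (nat_lit 276935862036) (nat_lit 76) (nat_lit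 1640189626114) (nat_lit 76) (nat_lit 1237444660207) (nat_lit 16) (nat_lit 4) (nat_lit 17) (nat_lit 5) (nat_lit 17) (nat_lit 4) (nat_lit 508) (nat_lit 448) (nat_lit 244)))) (XT.nd (nat_lit 78) (nat_lit 152) (nat_lit 0) (XT.lf (nat_lit 0) (nat_lit 1872777766678) (nat_lit 76) (nat_lit 937563675069) (nat_lit 76) (nat_lit 534818704631) (nat_lit 16) (nat_lit 4) (nat_lit 17) (nat_lit 5) (nat_lit 17) (nat_lit 4) (nat_lit 509) (nat_lit 448) (nat_lit 243)) (XT.nd (nat_lit 78) (nat_lit 0) (nat_lit 0) (XT.lf (nat_lit 0) (nat_lit 42003192116) (nat_lit 76) (nat_lit 171818041898) (nat_lit 152) (nat_lit 3336664287608) (nat_lit 14) (nat_lit 5) (nat_lit 15) (nat_lit 5) (nat_lit 16) (nat_lit 4) (nat_lit 510) (nat_lit 448) (nat_lit 242)) (XT.lf (nat_lit 0) (nat_lit 1050518712127) (nat_lit 152) (nat_lit 2038435372520) (nat_lit 0) (nat_lit 677606694980) (nat_lit 14) (nat_lit 5) (nat_lit 16) (nat_lit 4) (nat_lit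 14) (nat_lit 4) (nat_lit 511) (nat_lit 448) (nat_lit 241))))) (XT.nd (nat_lit 234) (nat_lit 152) (nat_lit 0) (XT.nd (nat_lit 78) (nat_lit 76) (nat_lit 0) (XT.lf (nat_lit 0) (nat_lit 1958614778908) (nat_lit 152) (nat_lit 455247497701) (nat_lit 0) (nat_lit 1585702758430) (nat_lit 14) (nat_lit 5) (nat_lit 16) (nat_lit 4) (nat_lit 14) (nat_lit 4) (nat_lit 512) (nat_lit 448) (nat_lit 240)) (XT.nd (nat_lit 78) (nat_lit 0) (nat_lit 0) (XT.lf (nat_lit 0) (nat_lit 1320660146286) (nat_lit 76) (nat_lit 1650460278336) (nat_lit 76) (nat_lit 1277548254774) (nat_lit 13) (nat_lit 4) (nat_lit 14) (nat_lit 5) (nat_lit 14) (nat_lit 4) (nat_lit 513) (nat_lit 448) (nat_lit 239)) (XT.lf (nat_lit 0) (nat_lit 3264530701091) (nat_lit 76) (nat_lit 812543079953) (nat_lit 76) (nat_lit 439631053535) (nat_lit 13) (nat_lit 4) (nat_lit 14) (nat_lit 5) (nat_lit 14) (nat_lit 4) (nat_lit 514) (nat_lit 448) (nat_lit 238))))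 (XT.nd (nat_lit 78) (nat_lit 0) (nat_lit 0) (XT.lf (nat_lit 0) (nat_lit 458751160527) (nat_lit 152) (nat_lit 4231738496952) (nat_lit 0) (nat_lit 113462244729) (nat_lit 11) (nat_lit 5) (nat_lit 13) (nat_lit 4) (nat_lit 11) (nat_lit 4) (nat_lit 515) (nat_lit 448) (nat_lit 237)) (XT.nd (nat_lit 78) (nat_lit 0) (nat_lit 0) (XT.lf (nat_lit 0) (nat_lit 1461483381075) (nat_lit 152) (nat_lit 2531088898072) (nat_lit 0) (nat_lit 1116194463010) (nat_lit 11) (nat_lit 5) (nat_lit 13) (nat_lit 4) (nat_lit 11) (nat_lit 4) (nat_lit 516) (nat_lit 448) (nat_lit 236)) (XT.lf (nat_lit 0) (nat_lit 2544434166702) (nat_lit 152) (nat_lit 694387357065) (nat_lit 0) (nat_lit 2199145246538) (nat_lit 11) (nat_lit 5) (nat_lit 13) (nat_lit 4) (nat_lit 11) (nat_lit 4) (nat_lit 517) (nat_lit 448) (nat_lit 235)))))) (XT.nd (nat_lit 468) (nat_lit 228) (nat_lit 0) (XT.nd (nat_lit 234) (nat_lit 152) (nat_lit 0) (XT.nd (nat_lit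 78) (nat_lit 0) (nat_lit 0) (XT.lf (nat_lit 0) (nat_lit 1357139918521) (nat_lit 76) (nat_lit 2389520332705) (nat_lit 76) (nat_lit 2044231410597) (nat_lit 10) (nat_lit 4) (nat_lit 11) (nat_lit 5) (nat_lit 11) (nat_lit 4) (nat_lit 518) (nat_lit 448) (nat_lit 234)) (XT.nd (nat_lit 78) (nat_lit 0) (nat_lit 0) (XT.lf (nat_lit 0) (nat_lit 3612279777162) (nat_lit 76) (nat_lit 1451770414921) (nat_lit 76) (nat_lit 1106481491014) (nat_lit 10) (nat_lit 4) (nat_lit 11) (nat_lit 5) (nat_lit 11) (nat_lit 4) (nat_lit 519) (nat_lit 448) (nat_lit 233)) (XT.lf (nat_lit 0) (nat_lit 6047830802947) (nat_lit 76) (nat_lit 439000514769) (nat_lit 76) (nat_lit 93711589195) (nat_lit 10) (nat_lit 4) (nat_lit 11) (nat_lit 5) (nat_lit 11) (nat_lit 4) (nat_lit 520) (nat_lit 448) (nat_lit 232)))) (XT.nd (nat_lit 78) (nat_lit 0) (nat_lit 0) (XT.lf (nat_lit 0) (nat_lit 1008783244863) (nat_lit 152) (nat_lit 5318877841815)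 (nat_lit 0) (nat_lit 689071275311) (nat_lit 8) (nat_lit 5) (nat_lit 10) (nat_lit 4) (nat_lit 8) (nat_lit 4) (nat_lit 521) (nat_lit 448) (nat_lit 231)) (XT.nd (nat_lit 78) (nat_lit 0) (nat_lit 0) (XT.lf (nat_lit 0) (nat_lit 2220761018848) (nat_lit 152) (nat_lit 3363704484223) (nat_lit 0) (nat_lit 1901049047973) (nat_lit 8) (nat_lit 5) (nat_lit 10) (nat_lit 4) (nat_lit 8) (nat_lit 4) (nat_lit 522) (nat_lit 448) (nat_lit 230)) (XT.lf (nat_lit 0) (nat_lit 3529697005534) (nat_lit 152) (nat_lit 1252117276994) (nat_lit 0) (nat_lit 3209985033435) (nat_lit 8) (nat_lit 5) (nat_lit 10) (nat_lit 4) (nat_lit 8) (nat_lit 4) (nat_lit 523) (nat_lit 448) (nat_lit 229))))) (XT.nd (nat_lit 234) (nat_lit 152) (nat_lit 0) (XT.nd (nat_lit 78) (nat_lit 0) (nat_lit 0) (XT.lf (nat_lit 0) (nat_lit 1082550446961) (nat_lit 76) (nat_lit 3886832779943) (nat_lit 76) (nat_lit 3567120806710) (nat_lit 7) (nat_lit 4) (nat_lit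 8) (nat_lit 5) (nat_lit 8) (nat_lit 4) (nat_lit 524) (nat_lit 448) (nat_lit 228)) (XT.nd (nat_lit 78) (nat_lit 0) (nat_lit 0) (XT.lf (nat_lit 0) (nat_lit 3675200590728) (nat_lit 76) (nat_lit 2883278852238) (nat_lit 76) (nat_lit 2563566877954) (nat_lit 7) (nat_lit 4) (nat_lit 8) (nat_lit 5) (nat_lit 8) (nat_lit 4) (nat_lit 525) (nat_lit 448) (nat_lit 227)) (XT.lf (nat_lit 0) (nat_lit 6475262730145) (nat_lit 76) (nat_lit 1799440618468) (nat_lit 76) (nat_lit 1479728643212) (nat_lit 7) (nat_lit 4) (nat_lit 8) (nat_lit 5) (nat_lit 8) (nat_lit 4) (nat_lit 526) (nat_lit 448) (nat_lit 226)))) (XT.nd (nat_lit 156) (nat_lit 0) (nat_lit 0) (XT.nd (nat_lit 78) (nat_lit 152) (nat_lit 0) (XT.lf (nat_lit 0) (nat_lit 9499329826037) (nat_lit 76) (nat_lit 628895333546) (nat_lit 76) (nat_lit 309183357390) (nat_lit 7) (nat_lit 4) (nat_lit 8) (nat_lit 5) (nat_lit 8) (nat_lit 4) (nat_lit 527) (nat_lit 448) (nat_lit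 225)) (XT.lf (nat_lit 0) (nat_lit 963817595048) (nat_lit 152) (nat_lit 9537053326707) (nat_lit 0) (nat_lit 667787986724) (nat_lit 5) (nat_lit 5) (nat_lit 7) (nat_lit 4) (nat_lit 5) (nat_lit 4) (nat_lit 528) (nat_lit 448) (nat_lit 224))) (XT.nd (nat_lit 78) (nat_lit 0) (nat_lit 0) (XT.lf (nat_lit 0) (nat_lit 2364604563316) (nat_lit 152) (nat_lit 7521175365052) (nat_lit 0) (nat_lit 2068574954277) (nat_lit 5) (nat_lit 5) (nat_lit 7) (nat_lit 4) (nat_lit 5) (nat_lit 4) (nat_lit 529) (nat_lit 448) (nat_lit 223)) (XT.lf (nat_lit 0) (nat_lit 3877454482781) (nat_lit 152) (nat_lit 5344027179385) (nat_lit 0) (nat_lit 3581424873081) (nat_lit 5) (nat_lit 5) (nat_lit 7) (nat_lit 4) (nat_lit 5) (nat_lit 4) (nat_lit 530) (nat_lit 448) (nat_lit 222))))))))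
noncomputable def xc199 : XT := (XT.nd (nat_lit 1950) (nat_lit 1748) (nat_lit 0) (XT.nd (nat_lit 936) (nat_lit 1520) (nat_lit 0) (XT.nd (nat_lit 468) (nat_lit 532) (nat_lit 0) (XT.nd (nat_lit 234) (nat_lit 456) (nat_lit 0) (XT.nd (nat_lit 78) (nat_lit 0) (nat_lit 0) (XT.lf (nat_lit 0) (nat_lit 85463794275) (nat_lit 532) (nat_lit 1357570181) (nat_lit 532) (nat_lit 1357570181) (nat_lit 81) (nat_lit 3) (nat_lit 88) (nat_lit 3) (nat_lit 88) (nat_lit 5) (nat_lit 449) (nat_lit 449) (nat_lit 302)) (XT.nd (nat_lit 78) (nat_lit 0) (nat_lit 0) (XT.lf (nat_lit 76) (nat_lit 89222164156) (nat_lit 0) (nat_lit 90690306902) (nat_lit 532) (nat_lit 3327890140) (nat_lit 82) (nat_lit 5) (nat_lit 81) (nat_lit 3) (nat_lit 88) (nat_lit 5) (nat_lit 450) (nat_lit 449) (nat_lit 301)) (XT.lf (nat_lit 76) (nat_lit 188668752628) (nat_lit 0) (nat_lit 1021427102) (nat_lit 532) (nat_lit 977349953) (nat_lit 82) (nat_lit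 5) (nat_lit 81) (nat_lit 3) (nat_lit 88) (nat_lit 5) (nat_lit 451) (nat_lit 449) (nat_lit 300)))) (XT.nd (nat_lit 78) (nat_lit 0) (nat_lit 0) (XT.lf (nat_lit 0) (nat_lit 6316846092) (nat_lit 532) (nat_lit 98387689237) (nat_lit 608) (nat_lit 93594635597) (nat_lit 75) (nat_lit 5) (nat_lit 82) (nat_lit 5) (nat_lit 83) (nat_lit 5) (nat_lit 452) (nat_lit 449) (nat_lit 299)) (XT.nd (nat_lit 78) (nat_lit 0) (nat_lit 76) (XT.lf (nat_lit 76) (nat_lit 3681986236) (nat_lit 0) (nat_lit 10630763264) (nat_lit 608) (nat_lit 192212885238) (nat_lit 76) (nat_lit 5) (nat_lit 75) (nat_lit 5) (nat_lit 83) (nat_lit 5) (nat_lit 453) (nat_lit 449) (nat_lit 298)) (XT.lf (nat_lit 0) (nat_lit 27895929195) (nat_lit 532) (nat_lit 97940193420) (nat_lit 608) (nat_lit 89178284759) (nat_lit 76) (nat_lit 5) (nat_lit 83) (nat_lit 5) (nat_lit 84) (nat_lit 5) (nat_lit 454) (nat_lit 449) (nat_lit 297))))) (XT.nd (nat_lit 234)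 (nat_lit 228) (nat_lit 0) (XT.nd (nat_lit 78) (nat_lit 380) (nat_lit 0) (XT.lf (nat_lit 76) (nat_lit 15873334076) (nat_lit 0) (nat_lit 27350152510) (nat_lit 608) (nat_lit 180906177404) (nat_lit 77) (nat_lit 5) (nat_lit 76) (nat_lit 5) (nat_lit 84) (nat_lit 5) (nat_lit 455) (nat_lit 449) (nat_lit 296)) (XT.nd (nat_lit 78) (nat_lit 456) (nat_lit 0) (XT.lf (nat_lit 0) (nat_lit 64424821561) (nat_lit 532) (nat_lit 91368020871) (nat_lit 76) (nat_lit 77809492896) (nat_lit 77) (nat_lit 5) (nat_lit 84) (nat_lit 5) (nat_lit 78) (nat_lit 5) (nat_lit 456) (nat_lit 449) (nat_lit 295)) (XT.lf (nat_lit 0) (nat_lit 35959680705) (nat_lit 456) (nat_lit 52937672622) (nat_lit 532) (nat_lit 154809459880) (nat_lit 71) (nat_lit 5) (nat_lit 77) (nat_lit 5) (nat_lit 78) (nat_lit 5) (nat_lit 457) (nat_lit 449) (nat_lit 294)))) (XT.nd (nat_lit 78) (nat_lit 228) (nat_lit 0) (XT.lf (nat_lit 0) (nat_lit 119289021476)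 (nat_lit 532) (nat_lit 77213450022) (nat_lit 76) (nat_lit 57800271138) (nat_lit 71) (nat_lit 5) (nat_lit 78) (nat_lit 5) (nat_lit 72) (nat_lit 5) (nat_lit 458) (nat_lit 449) (nat_lit 293)) (XT.nd (nat_lit 78) (nat_lit 0) (nat_lit 0) (XT.lf (nat_lit 0) (nat_lit 65673028830) (nat_lit 228) (nat_lit 89393318425) (nat_lit 304) (nat_lit 110443653258) (nat_lit 68) (nat_lit 5) (nat_lit 71) (nat_lit 5) (nat_lit 72) (nat_lit 5) (nat_lit 459) (nat_lit 449) (nat_lit 292)) (XT.lf (nat_lit 0) (nat_lit 196503878642) (nat_lit 304) (nat_lit 53750433365) (nat_lit 76) (nat_lit 27135685473) (nat_lit 68) (nat_lit 5) (nat_lit 72) (nat_lit 5) (nat_lit 69) (nat_lit 5) (nat_lit 460) (nat_lit 449) (nat_lit 291)))))) (XT.nd (nat_lit 468) (nat_lit 684) (nat_lit 0) (XT.nd (nat_lit 234) (nat_lit 380) (nat_lit 0) (XT.nd (nat_lit 78) (nat_lit 228) (nat_lit 0) (XT.lf (nat_lit 0) (nat_lit 107056397618) (nat_lit 228) (nat_lit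 139096523965) (nat_lit 304) (nat_lit 43675751921) (nat_lit 65) (nat_lit 5) (nat_lit 68) (nat_lit 5) (nat_lit 69) (nat_lit 5) (nat_lit 461) (nat_lit 449) (nat_lit 290)) (XT.nd (nat_lit 78) (nat_lit 228) (nat_lit 0) (XT.lf (nat_lit 0) (nat_lit 283784492292) (nat_lit 228) (nat_lit 17458928398) (nat_lit 304) (nat_lit 1901460322) (nat_lit 65) (nat_lit 5) (nat_lit 68) (nat_lit 5) (nat_lit 69) (nat_lit 5) (nat_lit 462) (nat_lit 449) (nat_lit 289)) (XT.lf (nat_lit 0) (nat_lit 47873583662) (nat_lit 228) (nat_lit 155692108166) (nat_lit 76) (nat_lit 113331901032) (nat_lit 62) (nat_lit 5) (nat_lit 65) (nat_lit 5) (nat_lit 63) (nat_lit 5) (nat_lit 463) (nat_lit 449) (nat_lit 288)))) (XT.nd (nat_lit 78) (nat_lit 152) (nat_lit 0) (XT.lf (nat_lit 0) (nat_lit 26414102768) (nat_lit 228) (nat_lit 76745544642) (nat_lit 304) (nat_lit 228456383620) (nat_lit 59) (nat_lit 5) (nat_lit 62) (nat_lit 5) (nat_lit 63)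 (nat_lit 5) (nat_lit 464) (nat_lit 449) (nat_lit 287)) (XT.nd (nat_lit 78) (nat_lit 152) (nat_lit 0) (XT.lf (nat_lit 0) (nat_lit 168684273471) (nat_lit 304) (nat_lit 116787221038) (nat_lit 76) (nat_lit 61575195580) (nat_lit 59) (nat_lit 5) (nat_lit 63) (nat_lit 5) (nat_lit 60) (nat_lit 5) (nat_lit 465) (nat_lit 449) (nat_lit 286)) (XT.lf (nat_lit 0) (nat_lit 89167688909) (nat_lit 152) (nat_lit 154420975690) (nat_lit 228) (nat_lit 119792113691) (nat_lit 57) (nat_lit 5) (nat_lit 59) (nat_lit 5) (nat_lit 60) (nat_lit 5) (nat_lit 466) (nat_lit 449) (nat_lit 285))))) (XT.nd (nat_lit 234) (nat_lit 304) (nat_lit 0) (XT.nd (nat_lit 78) (nat_lit 380) (nat_lit 0) (XT.lf (nat_lit 0) (nat_lit 318240675217) (nat_lit 152) (nat_lit 9437823902) (nat_lit 228) (nat_lit 53087647073) (nat_lit 57) (nat_lit 5) (nat_lit 59) (nat_lit 5) (nat_lit 60) (nat_lit 5) (nat_lit 467) (nat_lit 449) (nat_lit 284)) (XT.nd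 (nat_lit 78) (nat_lit 152) (nat_lit 0) (XT.lf (nat_lit 0) (nat_lit 25858013227) (nat_lit 228) (nat_lit 228466382358) (nat_lit 76) (nat_lit 144553245922) (nat_lit 54) (nat_lit 5) (nat_lit 57) (nat_lit 5) (nat_lit 55) (nat_lit 5) (nat_lit 468) (nat_lit 449) (nat_lit 283)) (XT.lf (nat_lit 0) (nat_lit 5862217078) (nat_lit 152) (nat_lit 104529012048) (nat_lit 228) (nat_lit 307765314169) (nat_lit 52) (nat_lit 5) (nat_lit 54) (nat_lit 5) (nat_lit 55) (nat_lit 5) (nat_lit 469) (nat_lit 449) (nat_lit 282)))) (XT.nd (nat_lit 156) (nat_lit 152) (nat_lit 0) (XT.nd (nat_lit 78) (nat_lit 152) (nat_lit 0) (XT.lf (nat_lit 0) (nat_lit 209472823836) (nat_lit 228) (nat_lit 168087057482) (nat_lit 76) (nat_lit 60795018195) (nat_lit 52) (nat_lit 5) (nat_lit 55) (nat_lit 5) (nat_lit 53) (nat_lit 5) (nat_lit 470) (nat_lit 449) (nat_lit 281)) (XT.lf (nat_lit 0) (nat_lit 97835795130) (nat_lit 152) (nat_lit 223713079157)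 (nat_lit 228) (nat_lit 138214815695) (nat_lit 50) (nat_lit 5) (nat_lit 52) (nat_lit 5) (nat_lit 53) (nat_lit 5) (nat_lit 471) (nat_lit 449) (nat_lit 280))) (XT.nd (nat_lit 78) (nat_lit 152) (nat_lit 0) (XT.lf (nat_lit 0) (nat_lit 394591637349) (nat_lit 152) (nat_lit 52595107517) (nat_lit 228) (nat_lit 35330779946) (nat_lit 50) (nat_lit 5) (nat_lit 52) (nat_lit 5) (nat_lit 53) (nat_lit 5) (nat_lit 472) (nat_lit 449) (nat_lit 279)) (XT.lf (nat_lit 0) (nat_lit 80575104805) (nat_lit 152) (nat_lit 292860603078) (nat_lit 76) (nat_lit 132823578216) (nat_lit 48) (nat_lit 5) (nat_lit 50) (nat_lit 5) (nat_lit 49) (nat_lit 5) (nat_lit 473) (nat_lit 449) (nat_lit 278))))))) (XT.nd (nat_lit 936) (nat_lit 836) (nat_lit 0) (XT.nd (nat_lit 468) (nat_lit 380) (nat_lit 0) (XT.nd (nat_lit 234) (nat_lit 304) (nat_lit 0) (XT.nd (nat_lit 78) (nat_lit 76) (nat_lit 0) (XT.lf (nat_lit 0) (nat_lit 10289997556) (nat_lit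 152) (nat_lit 197634699242) (nat_lit 228) (nat_lit 323575875590) (nat_lit 46) (nat_lit 5) (nat_lit 48) (nat_lit 5) (nat_lit 49) (nat_lit 5) (nat_lit 474) (nat_lit 449) (nat_lit 277)) (XT.nd (nat_lit 78) (nat_lit 76) (nat_lit 0) (XT.lf (nat_lit 0) (nat_lit 353490650840) (nat_lit 228) (nat_lit 203793907089) (nat_lit 76) (nat_lit 834332081) (nat_lit 46) (nat_lit 5) (nat_lit 49) (nat_lit 5) (nat_lit 47) (nat_lit 4) (nat_lit 475) (nat_lit 449) (nat_lit 276)) (XT.lf (nat_lit 0) (nat_lit 140932658023) (nat_lit 76) (nat_lit 378291973557) (nat_lit 152) (nat_lit 66960221438) (nat_lit 45) (nat_lit 5) (nat_lit 46) (nat_lit 5) (nat_lit 47) (nat_lit 4) (nat_lit 476) (nat_lit 449) (nat_lit 275)))) (XT.nd (nat_lit 78) (nat_lit 228) (nat_lit 0) (XT.lf (nat_lit 0) (nat_lit 83349974729) (nat_lit 152) (nat_lit 93333255014) (nat_lit 76) (nat_lit 439198290366) (nat_lit 44) (nat_lit 5) (nat_lit 46) (nat_lit 5)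 (nat_lit 45) (nat_lit 5) (nat_lit 477) (nat_lit 449) (nat_lit 274)) (XT.nd (nat_lit 78) (nat_lit 76) (nat_lit 0) (XT.lf (nat_lit 0) (nat_lit 250502470687) (nat_lit 228) (nat_lit 348450028039) (nat_lit 76) (nat_lit 48187477702) (nat_lit 42) (nat_lit 5) (nat_lit 45) (nat_lit 5) (nat_lit 43) (nat_lit 4) (nat_lit 478) (nat_lit 449) (nat_lit 273)) (XT.lf (nat_lit 0) (nat_lit 44245808009) (nat_lit 76) (nat_lit 395052778279) (nat_lit 152) (nat_lit 240938809370) (nat_lit 41) (nat_lit 5) (nat_lit 42) (nat_lit 5) (nat_lit 43) (nat_lit 4) (nat_lit 479) (nat_lit 449) (nat_lit 272))))) (XT.nd (nat_lit 234) (nat_lit 228) (nat_lit 0) (XT.nd (nat_lit 78) (nat_lit 152) (nat_lit 0) (XT.lf (nat_lit 0) (nat_lit 488173890788) (nat_lit 76) (nat_lit 164551695946) (nat_lit 152) (nat_lit 62494846047) (nat_lit 41) (nat_lit 5) (nat_lit 42) (nat_lit 5) (nat_lit 43) (nat_lit 4) (nat_lit 480) (nat_lit 449) (nat_lit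 271)) (XT.nd (nat_lit 78) (nat_lit 0) (nat_lit 0) (XT.lf (nat_lit 0) (nat_lit 131314185706) (nat_lit 152) (nat_lit 531954828899) (nat_lit 76) (nat_lit 88874232629) (nat_lit 39) (nat_lit 5) (nat_lit 41) (nat_lit 5) (nat_lit 40) (nat_lit 4) (nat_lit 481) (nat_lit 449) (nat_lit 270)) (XT.lf (nat_lit 0) (nat_lit 347894720061) (nat_lit 152) (nat_lit 81467379478) (nat_lit 76) (nat_lit 361676477886) (nat_lit 39) (nat_lit 5) (nat_lit 41) (nat_lit 5) (nat_lit 40) (nat_lit 4) (nat_lit 482) (nat_lit 449) (nat_lit 269)))) (XT.nd (nat_lit 78) (nat_lit 152) (nat_lit 0) (XT.lf (nat_lit 0) (nat_lit 426388681698) (nat_lit 76) (nat_lit 165667633853) (nat_lit 152) (nat_lit 240168849013) (nat_lit 38) (nat_lit 5) (nat_lit 39) (nat_lit 5) (nat_lit 40) (nat_lit 4) (nat_lit 483) (nat_lit 449) (nat_lit 268)) (XT.nd (nat_lit 78) (nat_lit 76) (nat_lit 0) (XT.lf (nat_lit 0) (nat_lit 105323763488) (nat_lit 76) (nat_lit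 758110290036) (nat_lit 76) (nat_lit 12657967965) (nat_lit 37) (nat_lit 4) (nat_lit 38) (nat_lit 5) (nat_lit 38) (nat_lit 4) (nat_lit 484) (nat_lit 449) (nat_lit 267)) (XT.lf (nat_lit 0) (nat_lit 237083009773) (nat_lit 152) (nat_lit 252319707341) (nat_lit 76) (nat_lit 432362112301) (nat_lit 36) (nat_lit 5) (nat_lit 38) (nat_lit 5) (nat_lit 37) (nat_lit 4) (nat_lit 485) (nat_lit 449) (nat_lit 266)))))) (XT.nd (nat_lit 468) (nat_lit 456) (nat_lit 0) (XT.nd (nat_lit 234) (nat_lit 152) (nat_lit 0) (XT.nd (nat_lit 78) (nat_lit 152) (nat_lit 0) (XT.lf (nat_lit 0) (nat_lit 323456484192) (nat_lit 76) (nat_lit 190442022579) (nat_lit 152) (nat_lit 456544324929) (nat_lit 35) (nat_lit 5) (nat_lit 36) (nat_lit 5) (nat_lit 37) (nat_lit 4) (nat_lit 486) (nat_lit 449) (nat_lit 265)) (XT.nd (nat_lit 78) (nat_lit 152) (nat_lit 0) (XT.lf (nat_lit 0) (nat_lit 823122344665) (nat_lit 152) (nat_lit 66183085811)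 (nat_lit 0) (nat_lit 132888595602) (nat_lit 35) (nat_lit 5) (nat_lit 37) (nat_lit 4) (nat_lit 35) (nat_lit 4) (nat_lit 487) (nat_lit 449) (nat_lit 264)) (XT.lf (nat_lit 0) (nat_lit 94567067090) (nat_lit 152) (nat_lit 493534283030) (nat_lit 76) (nat_lit 488270361526) (nat_lit 33) (nat_lit 5) (nat_lit 35) (nat_lit 5) (nat_lit 34) (nat_lit 4) (nat_lit 488) (nat_lit 449) (nat_lit 263)))) (XT.nd (nat_lit 78) (nat_lit 76) (nat_lit 0) (XT.lf (nat_lit 0) (nat_lit 155358532729) (nat_lit 76) (nat_lit 251176249166) (nat_lit 152) (nat_lit 727487742094) (nat_lit 32) (nat_lit 5) (nat_lit 33) (nat_lit 5) (nat_lit 34) (nat_lit 4) (nat_lit 489) (nat_lit 449) (nat_lit 262)) (XT.nd (nat_lit 78) (nat_lit 76) (nat_lit 0) (XT.lf (nat_lit 0) (nat_lit 760014985659) (nat_lit 152) (nat_lit 314036433841) (nat_lit 0) (nat_lit 120909576076) (nat_lit 32) (nat_lit 5) (nat_lit 34) (nat_lit 4) (nat_lit 32) (nat_lit 4)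 (nat_lit 490) (nat_lit 449) (nat_lit 261)) (XT.lf (nat_lit 0) (nat_lit 418155018257) (nat_lit 76) (nat_lit 740199253775) (nat_lit 76) (nat_lit 101093819556) (nat_lit 31) (nat_lit 4) (nat_lit 32) (nat_lit 5) (nat_lit 32) (nat_lit 4) (nat_lit 491) (nat_lit 449) (nat_lit 260))))) (XT.nd (nat_lit 234) (nat_lit 228) (nat_lit 0) (XT.nd (nat_lit 78) (nat_lit 152) (nat_lit 0) (XT.lf (nat_lit 0) (nat_lit 255296282025) (nat_lit 152) (nat_lit 108089190418) (nat_lit 76) (nat_lit 964504724429) (nat_lit 30) (nat_lit 5) (nat_lit 32) (nat_lit 5) (nat_lit 31) (nat_lit 4) (nat_lit 492) (nat_lit 449) (nat_lit 259)) (XT.nd (nat_lit 78) (nat_lit 76) (nat_lit 0) (XT.lf (nat_lit 0) (nat_lit 653544096968) (nat_lit 152) (nat_lit 684769087402) (nat_lit 0) (nat_lit 61779765345) (nat_lit 29) (nat_lit 5) (nat_lit 31) (nat_lit 4) (nat_lit 29) (nat_lit 4) (nat_lit 493) (nat_lit 449) (nat_lit 258)) (XT.lf (nat_lit 0)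 (nat_lit 129904542902) (nat_lit 76) (nat_lit 969342069784) (nat_lit 76) (nat_lit 377577720053) (nat_lit 28) (nat_lit 4) (nat_lit 29) (nat_lit 5) (nat_lit 29) (nat_lit 4) (nat_lit 494) (nat_lit 449) (nat_lit 257)))) (XT.nd (nat_lit 156) (nat_lit 76) (nat_lit 0) (XT.nd (nat_lit 78) (nat_lit 76) (nat_lit 0) (XT.lf (nat_lit 0) (nat_lit 39074124264) (nat_lit 152) (nat_lit 510490188027) (nat_lit 76) (nat_lit 1008552954786) (nat_lit 27) (nat_lit 5) (nat_lit 29) (nat_lit 5) (nat_lit 28) (nat_lit 4) (nat_lit 495) (nat_lit 449) (nat_lit 256)) (XT.lf (nat_lit 0) (nat_lit 403217068289) (nat_lit 76) (nat_lit 75139398206) (nat_lit 152) (nat_lit 1165996804229) (nat_lit 26) (nat_lit 5) (nat_lit 27) (nat_lit 5) (nat_lit 28) (nat_lit 4) (nat_lit 496) (nat_lit 449) (nat_lit 255))) (XT.nd (nat_lit 78) (nat_lit 76) (nat_lit 0) (XT.lf (nat_lit 0) (nat_lit 977617235443) (nat_lit 152) (nat_lit 328196813297) (nat_lit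 0) (nat_lit 429687238778) (nat_lit 26) (nat_lit 5) (nat_lit 28) (nat_lit 4) (nat_lit 26) (nat_lit 4) (nat_lit 497) (nat_lit 449) (nat_lit 254)) (XT.lf (nat_lit 0) (nat_lit 690360642334) (nat_lit 76) (nat_lit 845013062594) (nat_lit 76) (nat_lit 297083053605) (nat_lit 25) (nat_lit 4) (nat_lit 26) (nat_lit 5) (nat_lit 26) (nat_lit 4) (nat_lit 498) (nat_lit 449) (nat_lit 253))))))))
noncomputable def xc200 : XT := (XT.nd (nat_lit 1950) (nat_lit 228) (nat_lit 0) (XT.nd (nat_lit 936) (nat_lit 608) (nat_lit 0) (XT.nd (nat_lit 468) (nat_lit 304) (nat_lit 0) (XT.nd (nat_lit 234) (nat_lit 152) (nat_lit 0) (XT.nd (nat_lit 78) (nat_lit 152) (nat_lit 0) (XT.lf (nat_lit 0) (nat_lit 199754635799) (nat_lit 152) (nat_lit 132440377936) (nat_lit 76) (nat_lit 1603851210389) (nat_lit 24) (nat_lit 5) (nat_lit 26) (nat_lit 5) (nat_lit 25) (nat_lit 4) (nat_lit 499) (nat_lit 449) (nat_lit 252)) (XT.nd (nat_lit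 78) (nat_lit 76) (nat_lit 0) (XT.lf (nat_lit 0) (nat_lit 750502567201) (nat_lit 152) (nat_lit 1051225944136) (nat_lit 0) (nat_lit 243159945937) (nat_lit 23) (nat_lit 5) (nat_lit 25) (nat_lit 4) (nat_lit 23) (nat_lit 4) (nat_lit 500) (nat_lit 449) (nat_lit 251)) (XT.lf (nat_lit 0) (nat_lit 48964101323) (nat_lit 76) (nat_lit 1309867450298) (nat_lit 76) (nat_lit 802524819975) (nat_lit 22) (nat_lit 4) (nat_lit 23) (nat_lit 5) (nat_lit 23) (nat_lit 4) (nat_lit 501) (nat_lit 449) (nat_lit 250)))) (XT.nd (nat_lit 78) (nat_lit 152) (nat_lit 0) (XT.lf (nat_lit 0) (nat_lit 1296953458548) (nat_lit 76) (nat_lit 747615755253) (nat_lit 76) (nat_lit 240273116542) (nat_lit 22) (nat_lit 4) (nat_lit 23) (nat_lit 5) (nat_lit 23) (nat_lit 4) (nat_lit 502) (nat_lit 449) (nat_lit 249)) (XT.nd (nat_lit 78) (nat_lit 0) (nat_lit 0) (XT.lf (nat_lit 0) (nat_lit 229215688854) (nat_lit 76) (nat_lit 124898895439) (nat_lit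 152) (nat_lit 2062945542395) (nat_lit 20) (nat_lit 5) (nat_lit 21) (nat_lit 5) (nat_lit 22) (nat_lit 4) (nat_lit 503) (nat_lit 449) (nat_lit 248)) (XT.lf (nat_lit 0) (nat_lit 1023955141691) (nat_lit 152) (nat_lit 977936884532) (nat_lit 0) (nat_lit 554193425332) (nat_lit 20) (nat_lit 5) (nat_lit 22) (nat_lit 4) (nat_lit 20) (nat_lit 4) (nat_lit 504) (nat_lit 449) (nat_lit 247))))) (XT.nd (nat_lit 234) (nat_lit 76) (nat_lit 0) (XT.nd (nat_lit 78) (nat_lit 152) (nat_lit 0) (XT.lf (nat_lit 0) (nat_lit 342660367528) (nat_lit 76) (nat_lit 1416207674761) (nat_lit 76) (nat_lit 946445952236) (nat_lit 19) (nat_lit 4) (nat_lit 20) (nat_lit 5) (nat_lit 20) (nat_lit 4) (nat_lit 505) (nat_lit 449) (nat_lit 246)) (XT.nd (nat_lit 78) (nat_lit 152) (nat_lit 0) (XT.lf (nat_lit 0) (nat_lit 1824521500141) (nat_lit 76) (nat_lit 754790984138) (nat_lit 76) (nat_lit 285029255905) (nat_lit 19) (nat_lit 4) (nat_lit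 20) (nat_lit 5) (nat_lit 20) (nat_lit 4) (nat_lit 506) (nat_lit 449) (nat_lit 245)) (XT.lf (nat_lit 0) (nat_lit 398447022726) (nat_lit 76) (nat_lit 18961033160) (nat_lit 152) (nat_lit 2617091062630) (nat_lit 17) (nat_lit 5) (nat_lit 18) (nat_lit 5) (nat_lit 19) (nat_lit 4) (nat_lit 507) (nat_lit 449) (nat_lit 244)))) (XT.nd (nat_lit 78) (nat_lit 76) (nat_lit 0) (XT.lf (nat_lit 0) (nat_lit 1208466788575) (nat_lit 152) (nat_lit 1231881780456) (nat_lit 0) (nat_lit 773502215971) (nat_lit 17) (nat_lit 5) (nat_lit 19) (nat_lit 4) (nat_lit 17) (nat_lit 4) (nat_lit 508) (nat_lit 449) (nat_lit 243)) (XT.nd (nat_lit 78) (nat_lit 0) (nat_lit 0) (XT.lf (nat_lit 0) (nat_lit 299091396313) (nat_lit 76) (nat_lit 1771404457298) (nat_lit 76) (nat_lit 1336439880497) (nat_lit 16) (nat_lit 4) (nat_lit 17) (nat_lit 5) (nat_lit 17) (nat_lit 4) (nat_lit 509) (nat_lit 449) (nat_lit 242)) (XT.lf (nat_lit 0) (nat_lit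 2022600604043) (nat_lit 76) (nat_lit 1012568455274) (nat_lit 76) (nat_lit 577603874588) (nat_lit 16) (nat_lit 4) (nat_lit 17) (nat_lit 5) (nat_lit 17) (nat_lit 4) (nat_lit 510) (nat_lit 449) (nat_lit 241)))))) (XT.nd (nat_lit 468) (nat_lit 228) (nat_lit 0) (XT.nd (nat_lit 234) (nat_lit 228) (nat_lit 0) (XT.nd (nat_lit 78) (nat_lit 0) (nat_lit 0) (XT.lf (nat_lit 0) (nat_lit 45364063839) (nat_lit 76) (nat_lit 185563170834) (nat_lit 152) (nat_lit 3603597104520) (nat_lit 14) (nat_lit 5) (nat_lit 15) (nat_lit 5) (nat_lit 16) (nat_lit 4) (nat_lit 511) (nat_lit 449) (nat_lit 240)) (XT.nd (nat_lit 78) (nat_lit 0) (nat_lit 0) (XT.lf (nat_lit 0) (nat_lit 1134560495672) (nat_lit 152) (nat_lit 2201509616256) (nat_lit 0) (nat_lit 731815507140) (nat_lit 14) (nat_lit 5) (nat_lit 16) (nat_lit 4) (nat_lit 14) (nat_lit 4) (nat_lit 512) (nat_lit 449) (nat_lit 239)) (XT.lf (nat_lit 0) (nat_lit 2115304226567)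 (nat_lit 152) (nat_lit 491666754863) (nat_lit 0) (nat_lit 1712559235180) (nat_lit 14) (nat_lit 5) (nat_lit 16) (nat_lit 4) (nat_lit 14) (nat_lit 4) (nat_lit 513) (nat_lit 449) (nat_lit 238)))) (XT.nd (nat_lit 78) (nat_lit 152) (nat_lit 0) (XT.lf (nat_lit 0) (nat_lit 1426313486904) (nat_lit 76) (nat_lit 1782496830100) (nat_lit 76) (nat_lit 1379751836068) (nat_lit 13) (nat_lit 4) (nat_lit 14) (nat_lit 5) (nat_lit 14) (nat_lit 4) (nat_lit 514) (nat_lit 449) (nat_lit 237)) (XT.nd (nat_lit 78) (nat_lit 152) (nat_lit 0) (XT.lf (nat_lit 0) (nat_lit 3525693646915) (nat_lit 76) (nat_lit 877546275883) (nat_lit 76) (nat_lit 474801279403) (nat_lit 13) (nat_lit 4) (nat_lit 14) (nat_lit 5) (nat_lit 14) (nat_lit 4) (nat_lit 515) (nat_lit 449) (nat_lit 236)) (XT.lf (nat_lit 0) (nat_lit 495451498489) (nat_lit 152) (nat_lit 4570277073672) (nat_lit 0) (nat_lit 122539462612) (nat_lit 11) (nat_lit 5) (nat_lit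 13) (nat_lit 4) (nat_lit 11) (nat_lit 4) (nat_lit 516) (nat_lit 449) (nat_lit 235))))) (XT.nd (nat_lit 234) (nat_lit 152) (nat_lit 0) (XT.nd (nat_lit 78) (nat_lit 76) (nat_lit 0) (XT.lf (nat_lit 0) (nat_lit 1578402278523) (nat_lit 152) (nat_lit 2733575544143) (nat_lit 0) (nat_lit 1205490240703) (nat_lit 11) (nat_lit 5) (nat_lit 13) (nat_lit 4) (nat_lit 11) (nat_lit 4) (nat_lit 517) (nat_lit 449) (nat_lit 234)) (XT.nd (nat_lit 78) (nat_lit 76) (nat_lit 0) (XT.lf (nat_lit 0) (nat_lit 2747989110189) (nat_lit 152) (nat_lit 749937914357) (nat_lit 0) (nat_lit 2375077070570) (nat_lit 11) (nat_lit 5) (nat_lit 13) (nat_lit 4) (nat_lit 11) (nat_lit 4) (nat_lit 518) (nat_lit 449) (nat_lit 233)) (XT.lf (nat_lit 0) (nat_lit 1465711532357) (nat_lit 76) (nat_lit 2580681743660) (nat_lit 76) (nat_lit 2207769702374) (nat_lit 10) (nat_lit 4) (nat_lit 11) (nat_lit 5) (nat_lit 11) (nat_lit 4) (nat_lit 519)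 (nat_lit 449) (nat_lit 232)))) (XT.nd (nat_lit 156) (nat_lit 152) (nat_lit 0) (XT.nd (nat_lit 78) (nat_lit 0) (nat_lit 0) (XT.lf (nat_lit 0) (nat_lit 3901262548552) (nat_lit 76) (nat_lit 1567911848429) (nat_lit 76) (nat_lit 1194999805600) (nat_lit 10) (nat_lit 4) (nat_lit 11) (nat_lit 5) (nat_lit 11) (nat_lit 4) (nat_lit 520) (nat_lit 449) (nat_lit 231)) (XT.lf (nat_lit 0) (nat_lit 6531657627569) (nat_lit 76) (nat_lit 474120371056) (nat_lit 76) (nat_lit 101208326799) (nat_lit 10) (nat_lit 4) (nat_lit 11) (nat_lit 5) (nat_lit 11) (nat_lit 4) (nat_lit 521) (nat_lit 449) (nat_lit 230))) (XT.nd (nat_lit 78) (nat_lit 0) (nat_lit 0) (XT.lf (nat_lit 0) (nat_lit 1089486084288) (nat_lit 152) (nat_lit 5744387699075) (nat_lit 0) (nat_lit 744197153196) (nat_lit 8) (nat_lit 5) (nat_lit 10) (nat_lit 4) (nat_lit 8) (nat_lit 4) (nat_lit 522) (nat_lit 449) (nat_lit 229)) (XT.lf (nat_lit 0) (nat_lit 2398422066871)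 (nat_lit 152) (nat_lit 3632800500290) (nat_lit 0) (nat_lit 2053133134645) (nat_lit 8) (nat_lit 5) (nat_lit 10) (nat_lit 4) (nat_lit 8) (nat_lit 4) (nat_lit 523) (nat_lit 449) (nat_lit 228))))))) (XT.nd (nat_lit 57096) (nat_lit 0) (nat_lit 3952) (XT.nd (nat_lit 468) (nat_lit 0) (nat_lit 0) (XT.nd (nat_lit 234) (nat_lit 152) (nat_lit 0) (XT.nd (nat_lit 78) (nat_lit 76) (nat_lit 0) (XT.lf (nat_lit 0) (nat_lit 3812072920158) (nat_lit 152) (nat_lit 1352286341865) (nat_lit 0) (nat_lit 3466783986881) (nat_lit 8) (nat_lit 5) (nat_lit 10) (nat_lit 4) (nat_lit 8) (nat_lit 4) (nat_lit 524) (nat_lit 449) (nat_lit 227)) (XT.nd (nat_lit 78) (nat_lit 0) (nat_lit 0) (XT.lf (nat_lit 0) (nat_lit 1169154791974) (nat_lit 76) (nat_lit 4197779243281) (nat_lit 76) (nat_lit 3852490309032) (nat_lit 7) (nat_lit 4) (nat_lit 8) (nat_lit 5) (nat_lit 8) (nat_lit 4) (nat_lit 525) (nat_lit 449) (nat_lit 226)) (XT.lf (nat_lit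 0) (nat_lit 3969216924334) (nat_lit 76) (nat_lit 3113941013141) (nat_lit 76) (nat_lit 2768652077992) (nat_lit 7) (nat_lit 4) (nat_lit 8) (nat_lit 5) (nat_lit 8) (nat_lit 4) (nat_lit 526) (nat_lit 449) (nat_lit 225)))) (XT.nd (nat_lit 78) (nat_lit 152) (nat_lit 0) (XT.lf (nat_lit 0) (nat_lit 6993284013693) (nat_lit 76) (nat_lit 1943395731579) (nat_lit 76) (nat_lit 1598106795597) (nat_lit 7) (nat_lit 4) (nat_lit 8) (nat_lit 5) (nat_lit 8) (nat_lit 4) (nat_lit 527) (nat_lit 449) (nat_lit 224)) (XT.nd (nat_lit 78) (nat_lit 152) (nat_lit 0) (XT.lf (nat_lit 0) (nat_lit 10259276457617) (nat_lit 76) (nat_lit 679206833965) (nat_lit 76) (nat_lit 333917897211) (nat_lit 7) (nat_lit 4) (nat_lit 8) (nat_lit 5) (nat_lit 8) (nat_lit 4) (nat_lit 528) (nat_lit 449) (nat_lit 223)) (XT.lf (nat_lit 0) (nat_lit 1040923124865) (nat_lit 152) (nat_lit 10300017340788) (nat_lit 0) (nat_lit 721211145727) (nat_lit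 5) (nat_lit 5) (nat_lit 7) (nat_lit 4) (nat_lit 5) (nat_lit 4) (nat_lit 529) (nat_lit 449) (nat_lit 222))))) (XT.nd (nat_lit 56394) (nat_lit 0) (nat_lit 5320) (XT.nd (nat_lit 56238) (nat_lit 0) (nat_lit 5776) (XT.lf (nat_lit 0) (nat_lit 2553773041541) (nat_lit 152) (nat_lit 8122869160871) (nat_lit 0) (nat_lit 2234061061791) (nat_lit 5) (nat_lit 5) (nat_lit 7) (nat_lit 4) (nat_lit 5) (nat_lit 4) (nat_lit 530) (nat_lit 449) (nat_lit 221)) (XT.nd (nat_lit 78) (nat_lit 0) (nat_lit 0) (XT.lf (nat_lit 0) (nat_lit 92302833880) (nat_lit 532) (nat_lit 1465130062) (nat_lit 532) (nat_lit 1465130062) (nat_lit 81) (nat_lit 3) (nat_lit 88) (nat_lit 3) (nat_lit 88) (nat_lit 5) (nat_lit 450) (nat_lit 450) (nat_lit 300)) (XT.lf (nat_lit 76) (nat_lit 96361975806) (nat_lit 0) (nat_lit 97947127265) (nat_lit 532) (nat_lit 3590195317) (nat_lit 82) (nat_lit 5) (nat_lit 81) (nat_lit 3) (nat_lit 88) (nat_lit 5)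 (nat_lit 451) (nat_lit 450) (nat_lit 299)))) (XT.nd (nat_lit 78) (nat_lit 456) (nat_lit 0) (XT.lf (nat_lit 76) (nat_lit 203764140355) (nat_lit 0) (nat_lit 1104618873) (nat_lit 532) (nat_lit 1051902733) (nat_lit 82) (nat_lit 5) (nat_lit 81) (nat_lit 3) (nat_lit 88) (nat_lit 5) (nat_lit 452) (nat_lit 450) (nat_lit 298)) (XT.nd (nat_lit 78) (nat_lit 0) (nat_lit 0) (XT.lf (nat_lit 0) (nat_lit 6825410329) (nat_lit 532) (nat_lit 106256396610) (nat_lit 608) (nat_lit 101081039576) (nat_lit 75) (nat_lit 5) (nat_lit 82) (nat_lit 5) (nat_lit 83) (nat_lit 5) (nat_lit 453) (nat_lit 450) (nat_lit 297)) (XT.lf (nat_lit 76) (nat_lit 3978794477) (nat_lit 0) (nat_lit 11482007368) (nat_lit 608) (nat_lit 207586640378) (nat_lit 76) (nat_lit 5) (nat_lit 75) (nat_lit 5) (nat_lit 83) (nat_lit 5) (nat_lit 454) (nat_lit 450) (nat_lit 296)))))) (XT.nd (nat_lit 468) (nat_lit 836) (nat_lit 0) (XT.nd (nat_lit 234) (nat_lit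 608) (nat_lit 0) (XT.nd (nat_lit 78) (nat_lit 0) (nat_lit 0) (XT.lf (nat_lit 0) (nat_lit 30130393856) (nat_lit 532) (nat_lit 105773083459) (nat_lit 608) (nat_lit 96311858770) (nat_lit 76) (nat_lit 5) (nat_lit 83) (nat_lit 5) (nat_lit 84) (nat_lit 5) (nat_lit 455) (nat_lit 450) (nat_lit 295)) (XT.nd (nat_lit 78) (nat_lit 0) (nat_lit 76) (XT.lf (nat_lit 76) (nat_lit 17145467364) (nat_lit 0) (nat_lit 29538536294) (nat_lit 608) (nat_lit 195375821795) (nat_lit 77) (nat_lit 5) (nat_lit 76) (nat_lit 5) (nat_lit 84) (nat_lit 5) (nat_lit 456) (nat_lit 450) (nat_lit 294)) (XT.lf (nat_lit 0) (nat_lit 69581241739) (nat_lit 532) (nat_lit 98675159620) (nat_lit 76) (nat_lit 84033925481) (nat_lit 77) (nat_lit 5) (nat_lit 84) (nat_lit 5) (nat_lit 78) (nat_lit 5) (nat_lit 457) (nat_lit 450) (nat_lit 293)))) (XT.nd (nat_lit 78) (nat_lit 228) (nat_lit 0) (XT.lf (nat_lit 0) (nat_lit 38838699781) (nat_lit 456)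 (nat_lit 57172749918) (nat_lit 532) (nat_lit 167191723398) (nat_lit 71) (nat_lit 5) (nat_lit 77) (nat_lit 5) (nat_lit 78) (nat_lit 5) (nat_lit 458) (nat_lit 450) (nat_lit 292)) (XT.nd (nat_lit 78) (nat_lit 228) (nat_lit 0) (XT.lf (nat_lit 0) (nat_lit 128834278915) (nat_lit 532) (nat_lit 83388274809) (nat_lit 76) (nat_lit 62424236986) (nat_lit 71) (nat_lit 5) (nat_lit 78) (nat_lit 5) (nat_lit 72) (nat_lit 5) (nat_lit 459) (nat_lit 450) (nat_lit 291)) (XT.lf (nat_lit 0) (nat_lit 70929065359) (nat_lit 228) (nat_lit 96544619967) (nat_lit 304) (nat_lit 119276952360) (nat_lit 68) (nat_lit 5) (nat_lit 71) (nat_lit 5) (nat_lit 72) (nat_lit 5) (nat_lit 460) (nat_lit 450) (nat_lit 290))))) (XT.nd (nat_lit 234) (nat_lit 608) (nat_lit 0) (XT.nd (nat_lit 78) (nat_lit 228) (nat_lit 0) (XT.lf (nat_lit 0) (nat_lit 212226072483) (nat_lit 304) (nat_lit 58048289194) (nat_lit 76) (nat_lit 29306684506) (nat_lit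 68) (nat_lit 5) (nat_lit 72) (nat_lit 5) (nat_lit 69) (nat_lit 5) (nat_lit 461) (nat_lit 450) (nat_lit 289)) (XT.nd (nat_lit 78) (nat_lit 0) (nat_lit 0) (XT.lf (nat_lit 0) (nat_lit 115623033107) (nat_lit 228) (nat_lit 150223917304) (nat_lit 304) (nat_lit 47167872984) (nat_lit 65) (nat_lit 5) (nat_lit 68) (nat_lit 5) (nat_lit 69) (nat_lit 5) (nat_lit 462) (nat_lit 450) (nat_lit 288)) (XT.lf (nat_lit 0) (nat_lit 306489218045) (nat_lit 228) (nat_lit 18855338431) (nat_lit 304) (nat_lit 2051781694) (nat_lit 65) (nat_lit 5) (nat_lit 68) (nat_lit 5) (nat_lit 69) (nat_lit 5) (nat_lit 463) (nat_lit 450) (nat_lit 287)))) (XT.nd (nat_lit 156) (nat_lit 152) (nat_lit 0) (XT.nd (nat_lit 78) (nat_lit 228) (nat_lit 0) (XT.lf (nat_lit 0) (nat_lit 51705106923) (nat_lit 228) (nat_lit 168145350934) (nat_lit 76) (nat_lit 122398811205) (nat_lit 62) (nat_lit 5) (nat_lit 65) (nat_lit 5) (nat_lit 63) (nat_lit 5)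 (nat_lit 464) (nat_lit 450) (nat_lit 286)) (XT.lf (nat_lit 0) (nat_lit 28529303055) (nat_lit 228) (nat_lit 82884681321) (nat_lit 304) (nat_lit 246731203643) (nat_lit 59) (nat_lit 5) (nat_lit 62) (nat_lit 5) (nat_lit 63) (nat_lit 5) (nat_lit 465) (nat_lit 450) (nat_lit 285))) (XT.nd (nat_lit 78) (nat_lit 152) (nat_lit 0) (XT.lf (nat_lit 0) (nat_lit 182180475871) (nat_lit 304) (nat_lit 126128175232) (nat_lit 76) (nat_lit 66501657093) (nat_lit 59) (nat_lit 5) (nat_lit 63) (nat_lit 5) (nat_lit 60) (nat_lit 5) (nat_lit 466) (nat_lit 450) (nat_lit 284)) (XT.lf (nat_lit 0) (nat_lit 96303076284) (nat_lit 152) (nat_lit 166774081252) (nat_lit 228) (nat_lit 129373970796) (nat_lit 57) (nat_lit 5) (nat_lit 59) (nat_lit 5) (nat_lit 60) (nat_lit 5) (nat_lit 467) (nat_lit 450) (nat_lit 283))))))))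
noncomputable def xc201 : XT := (XT.nd (nat_lit 1950) (nat_lit 1520) (nat_lit 0) (XT.nd (nat_lit 936) (nat_lit 836) (nat_lit 0) (XT.nd (nat_lit 468) (nat_lit 608) (nat_lit 0) (XT.nd (nat_lit 234) (nat_lit 152) (nat_lit 0) (XT.nd (nat_lit 78) (nat_lit 380) (nat_lit 0) (XT.lf (nat_lit 0) (nat_lit 343701755402) (nat_lit 152) (nat_lit 10192319728) (nat_lit 228) (nat_lit 57333258849) (nat_lit 57) (nat_lit 5) (nat_lit 59) (nat_lit 5) (nat_lit 60) (nat_lit 5) (nat_lit 468) (nat_lit 450) (nat_lit 282)) (XT.nd (nat_lit 78) (nat_lit 152) (nat_lit 0) (XT.lf (nat_lit 0) (nat_lit 27927943949) (nat_lit 228) (nat_lit 246741756057) (nat_lit 76) (nat_lit 156118049458) (nat_lit 54) (nat_lit 5) (nat_lit 57) (nat_lit 5) (nat_lit 55) (nat_lit 5) (nat_lit 469) (nat_lit 450) (nat_lit 281)) (XT.lf (nat_lit 0) (nat_lit 6333082299) (nat_lit 152) (nat_lit 112890684694) (nat_lit 228) (nat_lit 332385200427) (nat_lit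 52) (nat_lit 5) (nat_lit 54) (nat_lit 5) (nat_lit 55) (nat_lit 5) (nat_lit 470) (nat_lit 450) (nat_lit 280)))) (XT.nd (nat_lit 78) (nat_lit 152) (nat_lit 0) (XT.lf (nat_lit 0) (nat_lit 226231811899) (nat_lit 228) (nat_lit 181532196523) (nat_lit 76) (nat_lit 65659189916) (nat_lit 52) (nat_lit 5) (nat_lit 55) (nat_lit 5) (nat_lit 53) (nat_lit 5) (nat_lit 471) (nat_lit 450) (nat_lit 279)) (XT.nd (nat_lit 78) (nat_lit 0) (nat_lit 0) (XT.lf (nat_lit 0) (nat_lit 105664438081) (nat_lit 152) (nat_lit 241609465013) (nat_lit 228) (nat_lit 149270792427) (nat_lit 50) (nat_lit 5) (nat_lit 52) (nat_lit 5) (nat_lit 53) (nat_lit 5) (nat_lit 472) (nat_lit 450) (nat_lit 278)) (XT.lf (nat_lit 0) (nat_lit 426160615875) (nat_lit 152) (nat_lit 56802104565) (nat_lit 228) (nat_lit 38156123338) (nat_lit 50) (nat_lit 5) (nat_lit 52) (nat_lit 5) (nat_lit 53) (nat_lit 5) (nat_lit 473) (nat_lit 450) (nat_lit 277)))))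 (XT.nd (nat_lit 234) (nat_lit 304) (nat_lit 0) (XT.nd (nat_lit 78) (nat_lit 152) (nat_lit 0) (XT.lf (nat_lit 0) (nat_lit 87022152712) (nat_lit 152) (nat_lit 316287724055) (nat_lit 76) (nat_lit 143450068938) (nat_lit 48) (nat_lit 5) (nat_lit 50) (nat_lit 5) (nat_lit 49) (nat_lit 5) (nat_lit 474) (nat_lit 450) (nat_lit 276)) (XT.nd (nat_lit 78) (nat_lit 0) (nat_lit 0) (XT.lf (nat_lit 0) (nat_lit 11114880901) (nat_lit 152) (nat_lit 213444794651) (nat_lit 228) (nat_lit 349460862275) (nat_lit 46) (nat_lit 5) (nat_lit 48) (nat_lit 5) (nat_lit 49) (nat_lit 5) (nat_lit 475) (nat_lit 450) (nat_lit 275)) (XT.lf (nat_lit 0) (nat_lit 381770846774) (nat_lit 228) (nat_lit 220095801577) (nat_lit 76) (nat_lit 901677248) (nat_lit 46) (nat_lit 5) (nat_lit 49) (nat_lit 5) (nat_lit 47) (nat_lit 4) (nat_lit 476) (nat_lit 450) (nat_lit 274)))) (XT.nd (nat_lit 78) (nat_lit 228) (nat_lit 0) (XT.lf (nat_lit 0)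 (nat_lit 152208847781) (nat_lit 76) (nat_lit 408554666207) (nat_lit 152) (nat_lit 72316054226) (nat_lit 45) (nat_lit 5) (nat_lit 46) (nat_lit 5) (nat_lit 47) (nat_lit 4) (nat_lit 477) (nat_lit 450) (nat_lit 273)) (XT.nd (nat_lit 78) (nat_lit 152) (nat_lit 0) (XT.lf (nat_lit 0) (nat_lit 90018839056) (nat_lit 152) (nat_lit 100798409421) (nat_lit 76) (nat_lit 474334723852) (nat_lit 44) (nat_lit 5) (nat_lit 46) (nat_lit 5) (nat_lit 45) (nat_lit 5) (nat_lit 478) (nat_lit 450) (nat_lit 272)) (XT.lf (nat_lit 0) (nat_lit 270543520980) (nat_lit 228) (nat_lit 376324510501) (nat_lit 76) (nat_lit 52043074774) (nat_lit 42) (nat_lit 5) (nat_lit 45) (nat_lit 5) (nat_lit 43) (nat_lit 4) (nat_lit 479) (nat_lit 450) (nat_lit 271)))))) (XT.nd (nat_lit 468) (nat_lit 456) (nat_lit 0) (XT.nd (nat_lit 234) (nat_lit 152) (nat_lit 0) (XT.nd (nat_lit 78) (nat_lit 152) (nat_lit 0) (XT.lf (nat_lit 0) (nat_lit 47786953955)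 (nat_lit 76) (nat_lit 426656344341) (nat_lit 152) (nat_lit 260213022936) (nat_lit 41) (nat_lit 5) (nat_lit 42) (nat_lit 5) (nat_lit 43) (nat_lit 4) (nat_lit 480) (nat_lit 450) (nat_lit 270)) (XT.nd (nat_lit 78) (nat_lit 152) (nat_lit 0) (XT.lf (nat_lit 0) (nat_lit 527229173630) (nat_lit 76) (nat_lit 177715224029) (nat_lit 152) (nat_lit 67493608561) (nat_lit 41) (nat_lit 5) (nat_lit 42) (nat_lit 5) (nat_lit 43) (nat_lit 4) (nat_lit 481) (nat_lit 450) (nat_lit 269)) (XT.lf (nat_lit 0) (nat_lit 141820094376) (nat_lit 152) (nat_lit 574509792160) (nat_lit 76) (nat_lit 95984758516) (nat_lit 39) (nat_lit 5) (nat_lit 41) (nat_lit 5) (nat_lit 40) (nat_lit 4) (nat_lit 482) (nat_lit 450) (nat_lit 268)))) (XT.nd (nat_lit 78) (nat_lit 152) (nat_lit 0) (XT.lf (nat_lit 0) (nat_lit 375727014160) (nat_lit 152) (nat_lit 87983452196) (nat_lit 76) (nat_lit 390611139892) (nat_lit 39) (nat_lit 5) (nat_lit 41)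 (nat_lit 5) (nat_lit 40) (nat_lit 4) (nat_lit 483) (nat_lit 450) (nat_lit 267)) (XT.nd (nat_lit 78) (nat_lit 76) (nat_lit 0) (XT.lf (nat_lit 0) (nat_lit 460501060516) (nat_lit 76) (nat_lit 178920454587) (nat_lit 152) (nat_lit 259381607034) (nat_lit 38) (nat_lit 5) (nat_lit 39) (nat_lit 5) (nat_lit 40) (nat_lit 4) (nat_lit 484) (nat_lit 450) (nat_lit 266)) (XT.lf (nat_lit 0) (nat_lit 113750956691) (nat_lit 76) (nat_lit 818758508206) (nat_lit 76) (nat_lit 13669863300) (nat_lit 37) (nat_lit 4) (nat_lit 38) (nat_lit 5) (nat_lit 38) (nat_lit 4) (nat_lit 485) (nat_lit 450) (nat_lit 265))))) (XT.nd (nat_lit 234) (nat_lit 304) (nat_lit 0) (XT.nd (nat_lit 78) (nat_lit 76) (nat_lit 0) (XT.lf (nat_lit 0) (nat_lit 256050303314) (nat_lit 152) (nat_lit 272504053107) (nat_lit 76) (nat_lit 466951607089) (nat_lit 36) (nat_lit 5) (nat_lit 38) (nat_lit 5) (nat_lit 37) (nat_lit 4) (nat_lit 486) (nat_lit 450)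 (nat_lit 264)) (XT.nd (nat_lit 78) (nat_lit 0) (nat_lit 0) (XT.lf (nat_lit 0) (nat_lit 349334202589) (nat_lit 76) (nat_lit 205676817982) (nat_lit 152) (nat_lit 493067186970) (nat_lit 35) (nat_lit 5) (nat_lit 36) (nat_lit 5) (nat_lit 37) (nat_lit 4) (nat_lit 487) (nat_lit 450) (nat_lit 263)) (XT.lf (nat_lit 0) (nat_lit 888972731201) (nat_lit 152) (nat_lit 71476587551) (nat_lit 0) (nat_lit 143520181463) (nat_lit 35) (nat_lit 5) (nat_lit 37) (nat_lit 4) (nat_lit 35) (nat_lit 4) (nat_lit 488) (nat_lit 450) (nat_lit 262)))) (XT.nd (nat_lit 156) (nat_lit 76) (nat_lit 0) (XT.nd (nat_lit 78) (nat_lit 76) (nat_lit 0) (XT.lf (nat_lit 0) (nat_lit 102133029027) (nat_lit 152) (nat_lit 533015878096) (nat_lit 76) (nat_lit 527332493703) (nat_lit 33) (nat_lit 5) (nat_lit 35) (nat_lit 5) (nat_lit 34) (nat_lit 4) (nat_lit 489) (nat_lit 450) (nat_lit 261)) (XT.lf (nat_lit 0) (nat_lit 167788333871) (nat_lit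 76) (nat_lit 271269809855) (nat_lit 152) (nat_lit 785686135814) (nat_lit 32) (nat_lit 5) (nat_lit 33) (nat_lit 5) (nat_lit 34) (nat_lit 4) (nat_lit 490) (nat_lit 450) (nat_lit 260))) (XT.nd (nat_lit 78) (nat_lit 76) (nat_lit 0) (XT.lf (nat_lit 0) (nat_lit 820816732890) (nat_lit 152) (nat_lit 339158281953) (nat_lit 0) (nat_lit 130582816486) (nat_lit 32) (nat_lit 5) (nat_lit 34) (nat_lit 4) (nat_lit 32) (nat_lit 4) (nat_lit 491) (nat_lit 450) (nat_lit 259)) (XT.lf (nat_lit 0) (nat_lit 451608459311) (nat_lit 76) (nat_lit 799414687244) (nat_lit 76) (nat_lit 109180749718) (nat_lit 31) (nat_lit 4) (nat_lit 32) (nat_lit 5) (nat_lit 32) (nat_lit 4) (nat_lit 492) (nat_lit 450) (nat_lit 258))))))) (XT.nd (nat_lit 936) (nat_lit 684) (nat_lit 0) (XT.nd (nat_lit 468) (nat_lit 456) (nat_lit 0) (XT.nd (nat_lit 234) (nat_lit 152) (nat_lit 0) (XT.nd (nat_lit 78) (nat_lit 152) (nat_lit 0) (XT.lf (nat_lit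 0) (nat_lit 275720490715) (nat_lit 152) (nat_lit 116735336394) (nat_lit 76) (nat_lit 1041665545003) (nat_lit 30) (nat_lit 5) (nat_lit 32) (nat_lit 5) (nat_lit 31) (nat_lit 4) (nat_lit 493) (nat_lit 450) (nat_lit 257)) (XT.nd (nat_lit 78) (nat_lit 76) (nat_lit 0) (XT.lf (nat_lit 0) (nat_lit 705828127913) (nat_lit 152) (nat_lit 739549622178) (nat_lit 0) (nat_lit 66722595328) (nat_lit 29) (nat_lit 5) (nat_lit 31) (nat_lit 4) (nat_lit 29) (nat_lit 4) (nat_lit 494) (nat_lit 450) (nat_lit 256)) (XT.lf (nat_lit 0) (nat_lit 140297873430) (nat_lit 76) (nat_lit 1046888957444) (nat_lit 76) (nat_lit 407783409334) (nat_lit 28) (nat_lit 4) (nat_lit 29) (nat_lit 5) (nat_lit 29) (nat_lit 4) (nat_lit 495) (nat_lit 450) (nat_lit 255)))) (XT.nd (nat_lit 78) (nat_lit 76) (nat_lit 0) (XT.lf (nat_lit 0) (nat_lit 42200518922) (nat_lit 152) (nat_lit 551328483125) (nat_lit 76) (nat_lit 1089237609205) (nat_lit 27)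 (nat_lit 5) (nat_lit 29) (nat_lit 5) (nat_lit 28) (nat_lit 4) (nat_lit 496) (nat_lit 450) (nat_lit 254)) (XT.nd (nat_lit 78) (nat_lit 0) (nat_lit 0) (XT.lf (nat_lit 0) (nat_lit 435475330406) (nat_lit 76) (nat_lit 81150105266) (nat_lit 152) (nat_lit 1259276060548) (nat_lit 26) (nat_lit 5) (nat_lit 27) (nat_lit 5) (nat_lit 28) (nat_lit 4) (nat_lit 497) (nat_lit 450) (nat_lit 253)) (XT.lf (nat_lit 0) (nat_lit 1055827042570) (nat_lit 152) (nat_lit 354451704547) (nat_lit 0) (nat_lit 464062609127) (nat_lit 26) (nat_lit 5) (nat_lit 28) (nat_lit 4) (nat_lit 26) (nat_lit 4) (nat_lit 498) (nat_lit 450) (nat_lit 252))))) (XT.nd (nat_lit 234) (nat_lit 228) (nat_lit 0) (XT.nd (nat_lit 78) (nat_lit 152) (nat_lit 0) (XT.lf (nat_lit 0) (nat_lit 745590325919) (nat_lit 76) (nat_lit 912613691984) (nat_lit 76) (nat_lit 320849247975) (nat_lit 25) (nat_lit 4) (nat_lit 26) (nat_lit 5) (nat_lit 26) (nat_lit 4)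 (nat_lit 499) (nat_lit 450) (nat_lit 251)) (XT.nd (nat_lit 78) (nat_lit 76) (nat_lit 0) (XT.lf (nat_lit 0) (nat_lit 215735402415) (nat_lit 152) (nat_lit 143034816768) (nat_lit 76) (nat_lit 1732159671202) (nat_lit 24) (nat_lit 5) (nat_lit 26) (nat_lit 5) (nat_lit 25) (nat_lit 4) (nat_lit 500) (nat_lit 450) (nat_lit 250)) (XT.lf (nat_lit 0) (nat_lit 810543166858) (nat_lit 152) (nat_lit 1135323226784) (nat_lit 0) (nat_lit 262613108663) (nat_lit 23) (nat_lit 5) (nat_lit 25) (nat_lit 4) (nat_lit 23) (nat_lit 4) (nat_lit 501) (nat_lit 450) (nat_lit 249)))) (XT.nd (nat_lit 78) (nat_lit 152) (nat_lit 0) (XT.lf (nat_lit 0) (nat_lit 52882002238) (nat_lit 76) (nat_lit 1414656457173) (nat_lit 76) (nat_lit 866726391211) (nat_lit 22) (nat_lit 4) (nat_lit 23) (nat_lit 5) (nat_lit 23) (nat_lit 4) (nat_lit 502) (nat_lit 450) (nat_lit 248)) (XT.nd (nat_lit 78) (nat_lit 152) (nat_lit 0) (XT.lf (nat_lit 0)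 (nat_lit 1400710450796) (nat_lit 76) (nat_lit 807424655350) (nat_lit 76) (nat_lit 259494582197) (nat_lit 22) (nat_lit 4) (nat_lit 23) (nat_lit 5) (nat_lit 23) (nat_lit 4) (nat_lit 503) (nat_lit 450) (nat_lit 247)) (XT.lf (nat_lit 0) (nat_lit 247553660124) (nat_lit 76) (nat_lit 134890445613) (nat_lit 152) (nat_lit 2227980802703) (nat_lit 20) (nat_lit 5) (nat_lit 21) (nat_lit 5) (nat_lit 22) (nat_lit 4) (nat_lit 504) (nat_lit 450) (nat_lit 246)))))) (XT.nd (nat_lit 468) (nat_lit 380) (nat_lit 0) (XT.nd (nat_lit 234) (nat_lit 228) (nat_lit 0) (XT.nd (nat_lit 78) (nat_lit 76) (nat_lit 0) (XT.lf (nat_lit 0) (nat_lit 1105871889503) (nat_lit 152) (nat_lit 1056171153951) (nat_lit 0) (nat_lit 598529217302) (nat_lit 20) (nat_lit 5) (nat_lit 22) (nat_lit 4) (nat_lit 20) (nat_lit 4) (nat_lit 505) (nat_lit 450) (nat_lit 245)) (XT.nd (nat_lit 78) (nat_lit 0) (nat_lit 0) (XT.lf (nat_lit 0) (nat_lit 370073861025)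 (nat_lit 76) (nat_lit 1529503952170) (nat_lit 76) (nat_lit 1022161274684) (nat_lit 19) (nat_lit 4) (nat_lit 20) (nat_lit 5) (nat_lit 20) (nat_lit 4) (nat_lit 506) (nat_lit 450) (nat_lit 244)) (XT.lf (nat_lit 0) (nat_lit 1970483835056) (nat_lit 76) (nat_lit 815173951229) (nat_lit 76) (nat_lit 307831268848) (nat_lit 19) (nat_lit 4) (nat_lit 20) (nat_lit 5) (nat_lit 20) (nat_lit 4) (nat_lit 507) (nat_lit 450) (nat_lit 243)))) (XT.nd (nat_lit 78) (nat_lit 76) (nat_lit 0) (XT.lf (nat_lit 0) (nat_lit 430323399854) (nat_lit 76) (nat_lit 20477603398) (nat_lit 152) (nat_lit 2826458020510) (nat_lit 17) (nat_lit 5) (nat_lit 18) (nat_lit 5) (nat_lit 19) (nat_lit 4) (nat_lit 508) (nat_lit 450) (nat_lit 242)) (XT.nd (nat_lit 78) (nat_lit 76) (nat_lit 0) (XT.lf (nat_lit 0) (nat_lit 1305144419077) (nat_lit 152) (nat_lit 1330431737677) (nat_lit 0) (nat_lit 835382668051) (nat_lit 17) (nat_lit 5) (nat_lit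 19) (nat_lit 4) (nat_lit 17) (nat_lit 4) (nat_lit 509) (nat_lit 450) (nat_lit 241)) (XT.lf (nat_lit 0) (nat_lit 323019278417) (nat_lit 76) (nat_lit 1913116523326) (nat_lit 76) (nat_lit 1443354768703) (nat_lit 16) (nat_lit 4) (nat_lit 17) (nat_lit 5) (nat_lit 17) (nat_lit 4) (nat_lit 510) (nat_lit 450) (nat_lit 240))))) (XT.nd (nat_lit 234) (nat_lit 228) (nat_lit 0) (XT.nd (nat_lit 78) (nat_lit 152) (nat_lit 0) (XT.lf (nat_lit 0) (nat_lit 2184409180514) (nat_lit 76) (nat_lit 1093573662662) (nat_lit 76) (nat_lit 623811904708) (nat_lit 16) (nat_lit 4) (nat_lit 17) (nat_lit 5) (nat_lit 17) (nat_lit 4) (nat_lit 511) (nat_lit 450) (nat_lit 239)) (XT.nd (nat_lit 78) (nat_lit 0) (nat_lit 0) (XT.lf (nat_lit 0) (nat_lit 48993717371) (nat_lit 76) (nat_lit 200407954940) (nat_lit 152) (nat_lit 3891884593305) (nat_lit 14) (nat_lit 5) (nat_lit 15) (nat_lit 5) (nat_lit 16) (nat_lit 4) (nat_lit 512) (nat_lit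 450) (nat_lit 238)) (XT.lf (nat_lit 0) (nat_lit 1225325581017) (nat_lit 152) (nat_lit 2377629883099) (nat_lit 0) (nat_lit 790360984819) (nat_lit 14) (nat_lit 5) (nat_lit 16) (nat_lit 4) (nat_lit 14) (nat_lit 4) (nat_lit 513) (nat_lit 450) (nat_lit 237)))) (XT.nd (nat_lit 156) (nat_lit 152) (nat_lit 0) (XT.nd (nat_lit 78) (nat_lit 76) (nat_lit 0) (XT.lf (nat_lit 0) (nat_lit 2284528792185) (nat_lit 152) (nat_lit 530999630014) (nat_lit 0) (nat_lit 1849564193539) (nat_lit 14) (nat_lit 5) (nat_lit 16) (nat_lit 4) (nat_lit 14) (nat_lit 4) (nat_lit 514) (nat_lit 450) (nat_lit 236)) (XT.lf (nat_lit 0) (nat_lit 1540419019316) (nat_lit 76) (nat_lit 1925096344594) (nat_lit 76) (nat_lit 1490131743681) (nat_lit 13) (nat_lit 4) (nat_lit 14) (nat_lit 5) (nat_lit 14) (nat_lit 4) (nat_lit 515) (nat_lit 450) (nat_lit 235))) (XT.nd (nat_lit 78) (nat_lit 152) (nat_lit 0) (XT.lf (nat_lit 0) (nat_lit 3807749558539)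 (nat_lit 76) (nat_lit 947749763219) (nat_lit 76) (nat_lit 512785160207) (nat_lit 13) (nat_lit 4) (nat_lit 14) (nat_lit 5) (nat_lit 14) (nat_lit 4) (nat_lit 516) (nat_lit 450) (nat_lit 234)) (XT.lf (nat_lit 0) (nat_lit 535087828518) (nat_lit 152) (nat_lit 4935898808293) (nat_lit 0) (nat_lit 132342823930) (nat_lit 11) (nat_lit 5) (nat_lit 13) (nat_lit 4) (nat_lit 11) (nat_lit 4) (nat_lit 517) (nat_lit 450) (nat_lit 233))))))))
noncomputable def xc202 : XT := (XT.nd (nat_lit 58188) (nat_lit 0) (nat_lit 2356) (XT.nd (nat_lit 936) (nat_lit 152) (nat_lit 0) (XT.nd (nat_lit 468) (nat_lit 76) (nat_lit 0) (XT.nd (nat_lit 234) (nat_lit 152) (nat_lit 0) (XT.nd (nat_lit 78) (nat_lit 76) (nat_lit 0) (XT.lf (nat_lit 0) (nat_lit 1704674655389) (nat_lit 152) (nat_lit 2952261188348) (nat_lit 0) (nat_lit 1301929649134) (nat_lit 11) (nat_lit 5) (nat_lit 13) (nat_lit 4) (nat_lit 11) (nat_lit 4) (nat_lit 518)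 (nat_lit 450) (nat_lit 232)) (XT.nd (nat_lit 78) (nat_lit 76) (nat_lit 0) (XT.lf (nat_lit 0) (nat_lit 2967828419174) (nat_lit 152) (nat_lit 809932577759) (nat_lit 0) (nat_lit 2565083411377) (nat_lit 11) (nat_lit 5) (nat_lit 13) (nat_lit 4) (nat_lit 11) (nat_lit 4) (nat_lit 519) (nat_lit 450) (nat_lit 231)) (XT.lf (nat_lit 0) (nat_lit 1582968815332) (nat_lit 76) (nat_lit 2787136098258) (nat_lit 76) (nat_lit 2384391089032) (nat_lit 10) (nat_lit 4) (nat_lit 11) (nat_lit 5) (nat_lit 11) (nat_lit 4) (nat_lit 520) (nat_lit 450) (nat_lit 230)))) (XT.nd (nat_lit 78) (nat_lit 152) (nat_lit 0) (XT.lf (nat_lit 0) (nat_lit 4213363886127) (nat_lit 76) (nat_lit 1693344625104) (nat_lit 76) (nat_lit 1290599614555) (nat_lit 10) (nat_lit 4) (nat_lit 11) (nat_lit 5) (nat_lit 11) (nat_lit 4) (nat_lit 521) (nat_lit 450) (nat_lit 229)) (XT.nd (nat_lit 78) (nat_lit 152) (nat_lit 0) (XT.lf (nat_lit 0) (nat_lit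 7054190546748) (nat_lit 76) (nat_lit 512049842223) (nat_lit 76) (nat_lit 109304830449) (nat_lit 10) (nat_lit 4) (nat_lit 11) (nat_lit 5) (nat_lit 11) (nat_lit 4) (nat_lit 522) (nat_lit 450) (nat_lit 228)) (XT.lf (nat_lit 0) (nat_lit 1176645125212) (nat_lit 152) (nat_lit 6203938397713) (nat_lit 0) (nat_lit 803733076223) (nat_lit 8) (nat_lit 5) (nat_lit 10) (nat_lit 4) (nat_lit 8) (nat_lit 4) (nat_lit 523) (nat_lit 450) (nat_lit 227))))) (XT.nd (nat_lit 234) (nat_lit 0) (nat_lit 0) (XT.nd (nat_lit 78) (nat_lit 76) (nat_lit 0) (XT.lf (nat_lit 0) (nat_lit 2590295974981) (nat_lit 152) (nat_lit 3923424246528) (nat_lit 0) (nat_lit 2217383925020) (nat_lit 8) (nat_lit 5) (nat_lit 10) (nat_lit 4) (nat_lit 8) (nat_lit 4) (nat_lit 524) (nat_lit 450) (nat_lit 226)) (XT.nd (nat_lit 78) (nat_lit 76) (nat_lit 0) (XT.lf (nat_lit 0) (nat_lit 4117038885955) (nat_lit 152) (nat_lit 1460468977191) (nat_lit 0)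 (nat_lit 3744126835094) (nat_lit 8) (nat_lit 5) (nat_lit 10) (nat_lit 4) (nat_lit 8) (nat_lit 4) (nat_lit 525) (nat_lit 450) (nat_lit 225)) (XT.lf (nat_lit 0) (nat_lit 1262687440468) (nat_lit 76) (nat_lit 4533601446377) (nat_lit 76) (nat_lit 4160689394682) (nat_lit 7) (nat_lit 4) (nat_lit 8) (nat_lit 5) (nat_lit 8) (nat_lit 4) (nat_lit 526) (nat_lit 450) (nat_lit 224)))) (XT.nd (nat_lit 78) (nat_lit 0) (nat_lit 0) (XT.lf (nat_lit 0) (nat_lit 4286754523778) (nat_lit 76) (nat_lit 3363056167927) (nat_lit 76) (nat_lit 2990144115460) (nat_lit 7) (nat_lit 4) (nat_lit 8) (nat_lit 5) (nat_lit 8) (nat_lit 4) (nat_lit 527) (nat_lit 450) (nat_lit 223)) (XT.nd (nat_lit 78) (nat_lit 0) (nat_lit 0) (XT.lf (nat_lit 0) (nat_lit 7552746962100) (nat_lit 76) (nat_lit 2098867273193) (nat_lit 76) (nat_lit 1725955220012) (nat_lit 7) (nat_lit 4) (nat_lit 8) (nat_lit 5) (nat_lit 8) (nat_lit 4) (nat_lit 528) (nat_lit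 450) (nat_lit 222)) (XT.lf (nat_lit 0) (nat_lit 11080018784700) (nat_lit 76) (nat_lit 733543272430) (nat_lit 76) (nat_lit 360631218587) (nat_lit 7) (nat_lit 4) (nat_lit 8) (nat_lit 5) (nat_lit 8) (nat_lit 4) (nat_lit 529) (nat_lit 450) (nat_lit 221)))))) (XT.nd (nat_lit 56706) (nat_lit 0) (nat_lit 4788) (XT.nd (nat_lit 56472) (nat_lit 0) (nat_lit 5320) (XT.nd (nat_lit 56316) (nat_lit 0) (nat_lit 5776) (XT.lf (nat_lit 0) (nat_lit 1124197079632) (nat_lit 152) (nat_lit 11124018511953) (nat_lit 0) (nat_lit 778908140321) (nat_lit 5) (nat_lit 5) (nat_lit 7) (nat_lit 4) (nat_lit 5) (nat_lit 4) (nat_lit 530) (nat_lit 450) (nat_lit 220)) (XT.nd (nat_lit 78) (nat_lit 0) (nat_lit 0) (XT.lf (nat_lit 0) (nat_lit 99688720452) (nat_lit 532) (nat_lit 1581443920) (nat_lit 532) (nat_lit 1581443920) (nat_lit 81) (nat_lit 3) (nat_lit 88) (nat_lit 3) (nat_lit 88) (nat_lit 5) (nat_lit 451) (nat_lit 451) (nat_lit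 298)) (XT.lf (nat_lit 76) (nat_lit 104072681571) (nat_lit 0) (nat_lit 105784265598) (nat_lit 532) (nat_lit 3874045001) (nat_lit 82) (nat_lit 5) (nat_lit 81) (nat_lit 3) (nat_lit 88) (nat_lit 5) (nat_lit 452) (nat_lit 451) (nat_lit 297)))) (XT.nd (nat_lit 78) (nat_lit 456) (nat_lit 0) (XT.lf (nat_lit 76) (nat_lit 220066889824) (nat_lit 0) (nat_lit 1194255189) (nat_lit 532) (nat_lit 1132938339) (nat_lit 82) (nat_lit 5) (nat_lit 81) (nat_lit 3) (nat_lit 88) (nat_lit 5) (nat_lit 453) (nat_lit 451) (nat_lit 296)) (XT.nd (nat_lit 78) (nat_lit 0) (nat_lit 0) (XT.lf (nat_lit 0) (nat_lit 7374200829) (nat_lit 532) (nat_lit 114754929802) (nat_lit 608) (nat_lit 109166522341) (nat_lit 75) (nat_lit 5) (nat_lit 82) (nat_lit 5) (nat_lit 83) (nat_lit 5) (nat_lit 454) (nat_lit 451) (nat_lit 295)) (XT.lf (nat_lit 76) (nat_lit 4299026482) (nat_lit 0) (nat_lit 12401239289) (nat_lit 608) (nat_lit 224190763242)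 (nat_lit 76) (nat_lit 5) (nat_lit 75) (nat_lit 5) (nat_lit 83) (nat_lit 5) (nat_lit 455) (nat_lit 451) (nat_lit 294))))) (XT.nd (nat_lit 234) (nat_lit 608) (nat_lit 0) (XT.nd (nat_lit 78) (nat_lit 0) (nat_lit 0) (XT.lf (nat_lit 0) (nat_lit 32543217618) (nat_lit 532) (nat_lit 114232936451) (nat_lit 608) (nat_lit 104016216963) (nat_lit 76) (nat_lit 5) (nat_lit 83) (nat_lit 5) (nat_lit 84) (nat_lit 5) (nat_lit 456) (nat_lit 451) (nat_lit 293)) (XT.nd (nat_lit 78) (nat_lit 0) (nat_lit 76) (XT.lf (nat_lit 76) (nat_lit 18519047966) (nat_lit 0) (nat_lit 31901937770) (nat_lit 608) (nat_lit 211003444293) (nat_lit 77) (nat_lit 5) (nat_lit 76) (nat_lit 5) (nat_lit 84) (nat_lit 5) (nat_lit 457) (nat_lit 451) (nat_lit 292)) (XT.lf (nat_lit 0) (nat_lit 75149828229) (nat_lit 532) (nat_lit 106567198006) (nat_lit 76) (nat_lit 90756359300) (nat_lit 77) (nat_lit 5) (nat_lit 84) (nat_lit 5) (nat_lit 78) (nat_lit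 5) (nat_lit 458) (nat_lit 451) (nat_lit 291)))) (XT.nd (nat_lit 156) (nat_lit 228) (nat_lit 0) (XT.nd (nat_lit 78) (nat_lit 0) (nat_lit 0) (XT.lf (nat_lit 0) (nat_lit 41947720162) (nat_lit 456) (nat_lit 61746624341) (nat_lit 532) (nat_lit 180564923691) (nat_lit 71) (nat_lit 5) (nat_lit 77) (nat_lit 5) (nat_lit 78) (nat_lit 5) (nat_lit 459) (nat_lit 451) (nat_lit 290)) (XT.lf (nat_lit 0) (nat_lit 139142852265) (nat_lit 532) (nat_lit 90057406739) (nat_lit 76) (nat_lit 67418128068) (nat_lit 71) (nat_lit 5) (nat_lit 78) (nat_lit 5) (nat_lit 72) (nat_lit 5) (nat_lit 460) (nat_lit 451) (nat_lit 289))) (XT.nd (nat_lit 78) (nat_lit 0) (nat_lit 0) (XT.lf (nat_lit 0) (nat_lit 76605271779) (nat_lit 228) (nat_lit 104268049020) (nat_lit 304) (nat_lit 128817228270) (nat_lit 68) (nat_lit 5) (nat_lit 71) (nat_lit 5) (nat_lit 72) (nat_lit 5) (nat_lit 461) (nat_lit 451) (nat_lit 288)) (XT.lf (nat_lit 0)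 (nat_lit 229205773121) (nat_lit 304) (nat_lit 62690284326) (nat_lit 76) (nat_lit 31651342891) (nat_lit 68) (nat_lit 5) (nat_lit 72) (nat_lit 5) (nat_lit 69) (nat_lit 5) (nat_lit 462) (nat_lit 451) (nat_lit 287))))))) (XT.nd (nat_lit 936) (nat_lit 1064) (nat_lit 0) (XT.nd (nat_lit 468) (nat_lit 532) (nat_lit 0) (XT.nd (nat_lit 234) (nat_lit 380) (nat_lit 0) (XT.nd (nat_lit 78) (nat_lit 228) (nat_lit 0) (XT.lf (nat_lit 0) (nat_lit 124874696468) (nat_lit 228) (nat_lit 162241548987) (nat_lit 304) (nat_lit 50939640365) (nat_lit 65) (nat_lit 5) (nat_lit 68) (nat_lit 5) (nat_lit 69) (nat_lit 5) (nat_lit 463) (nat_lit 451) (nat_lit 286)) (XT.nd (nat_lit 78) (nat_lit 228) (nat_lit 0) (XT.lf (nat_lit 0) (nat_lit 331010041334) (nat_lit 228) (nat_lit 20363504670) (nat_lit 304) (nat_lit 2214384916) (nat_lit 65) (nat_lit 5) (nat_lit 68) (nat_lit 5) (nat_lit 69) (nat_lit 5) (nat_lit 464) (nat_lit 451)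 (nat_lit 285)) (XT.lf (nat_lit 0) (nat_lit 55842918569) (nat_lit 228) (nat_lit 181595156405) (nat_lit 76) (nat_lit 132191023106) (nat_lit 62) (nat_lit 5) (nat_lit 65) (nat_lit 5) (nat_lit 63) (nat_lit 5) (nat_lit 465) (nat_lit 451) (nat_lit 284)))) (XT.nd (nat_lit 78) (nat_lit 152) (nat_lit 0) (XT.lf (nat_lit 0) (nat_lit 30813423761) (nat_lit 228) (nat_lit 89515021248) (nat_lit 304) (nat_lit 266468250460) (nat_lit 59) (nat_lit 5) (nat_lit 62) (nat_lit 5) (nat_lit 63) (nat_lit 5) (nat_lit 466) (nat_lit 451) (nat_lit 283)) (XT.nd (nat_lit 78) (nat_lit 152) (nat_lit 0) (XT.lf (nat_lit 0) (nat_lit 196756166104) (nat_lit 304) (nat_lit 136216694434) (nat_lit 76) (nat_lit 71822171918) (nat_lit 59) (nat_lit 5) (nat_lit 63) (nat_lit 5) (nat_lit 60) (nat_lit 5) (nat_lit 467) (nat_lit 451) (nat_lit 282)) (XT.lf (nat_lit 0) (nat_lit 104009013283) (nat_lit 152) (nat_lit 180115516932) (nat_lit 228) (nat_lit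 139722592172) (nat_lit 57) (nat_lit 5) (nat_lit 59) (nat_lit 5) (nat_lit 60) (nat_lit 5) (nat_lit 468) (nat_lit 451) (nat_lit 281))))) (XT.nd (nat_lit 234) (nat_lit 152) (nat_lit 0) (XT.nd (nat_lit 78) (nat_lit 380) (nat_lit 0) (XT.lf (nat_lit 0) (nat_lit 371199461480) (nat_lit 152) (nat_lit 11007250843) (nat_lit 228) (nat_lit 61918719290) (nat_lit 57) (nat_lit 5) (nat_lit 59) (nat_lit 5) (nat_lit 60) (nat_lit 5) (nat_lit 469) (nat_lit 451) (nat_lit 280)) (XT.nd (nat_lit 78) (nat_lit 152) (nat_lit 0) (XT.lf (nat_lit 0) (nat_lit 30163285145) (nat_lit 228) (nat_lit 266479435970) (nat_lit 76) (nat_lit 168607959689) (nat_lit 54) (nat_lit 5) (nat_lit 57) (nat_lit 5) (nat_lit 55) (nat_lit 5) (nat_lit 470) (nat_lit 451) (nat_lit 279)) (XT.lf (nat_lit 0) (nat_lit 6841347414) (nat_lit 152) (nat_lit 121921383641) (nat_lit 228) (nat_lit 358974868590) (nat_lit 52) (nat_lit 5) (nat_lit 54) (nat_lit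 5) (nat_lit 55) (nat_lit 5) (nat_lit 471) (nat_lit 451) (nat_lit 278)))) (XT.nd (nat_lit 78) (nat_lit 152) (nat_lit 0) (XT.lf (nat_lit 0) (nat_lit 244331353213) (nat_lit 228) (nat_lit 196053207123) (nat_lit 76) (nat_lit 70912414020) (nat_lit 52) (nat_lit 5) (nat_lit 55) (nat_lit 5) (nat_lit 53) (nat_lit 5) (nat_lit 472) (nat_lit 451) (nat_lit 277)) (XT.nd (nat_lit 78) (nat_lit 0) (nat_lit 0) (XT.lf (nat_lit 0) (nat_lit 114119118626) (nat_lit 152) (nat_lit 260937655962) (nat_lit 228) (nat_lit 161211419706) (nat_lit 50) (nat_lit 5) (nat_lit 52) (nat_lit 5) (nat_lit 53) (nat_lit 5) (nat_lit 473) (nat_lit 451) (nat_lit 276)) (XT.lf (nat_lit 0) (nat_lit 460254877643) (nat_lit 152) (nat_lit 61345748623) (nat_lit 228) (nat_lit 41207653839) (nat_lit 50) (nat_lit 5) (nat_lit 52) (nat_lit 5) (nat_lit 53) (nat_lit 5) (nat_lit 474) (nat_lit 451) (nat_lit 275)))))) (XT.nd (nat_lit 468) (nat_lit 456)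 (nat_lit 0) (XT.nd (nat_lit 234) (nat_lit 304) (nat_lit 0) (XT.nd (nat_lit 78) (nat_lit 152) (nat_lit 0) (XT.lf (nat_lit 0) (nat_lit 93984816152) (nat_lit 152) (nat_lit 341589261125) (nat_lit 76) (nat_lit 154926592684) (nat_lit 48) (nat_lit 5) (nat_lit 50) (nat_lit 5) (nat_lit 49) (nat_lit 5) (nat_lit 475) (nat_lit 451) (nat_lit 274)) (XT.nd (nat_lit 78) (nat_lit 0) (nat_lit 0) (XT.lf (nat_lit 0) (nat_lit 12005514738) (nat_lit 152) (nat_lit 230519794777) (nat_lit 228) (nat_lit 377416802449) (nat_lit 46) (nat_lit 5) (nat_lit 48) (nat_lit 5) (nat_lit 49) (nat_lit 5) (nat_lit 476) (nat_lit 451) (nat_lit 273)) (XT.lf (nat_lit 0) (nat_lit 412313323731) (nat_lit 228) (nat_lit 237702078461) (nat_lit 76) (nat_lit 974324631) (nat_lit 46) (nat_lit 5) (nat_lit 49) (nat_lit 5) (nat_lit 47) (nat_lit 4) (nat_lit 477) (nat_lit 451) (nat_lit 272)))) (XT.nd (nat_lit 78) (nat_lit 228) (nat_lit 0) (XT.lf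 (nat_lit 0) (nat_lit 164386907725) (nat_lit 76) (nat_lit 441238469173) (nat_lit 152) (nat_lit 78100494149) (nat_lit 45) (nat_lit 5) (nat_lit 46) (nat_lit 5) (nat_lit 47) (nat_lit 4) (nat_lit 478) (nat_lit 451) (nat_lit 271)) (XT.nd (nat_lit 78) (nat_lit 152) (nat_lit 0) (XT.lf (nat_lit 0) (nat_lit 97221088935) (nat_lit 152) (nat_lit 108860991027) (nat_lit 76) (nat_lit 512281990662) (nat_lit 44) (nat_lit 5) (nat_lit 46) (nat_lit 5) (nat_lit 45) (nat_lit 5) (nat_lit 479) (nat_lit 451) (nat_lit 270)) (XT.lf (nat_lit 0) (nat_lit 292187733658) (nat_lit 228) (nat_lit 406429168375) (nat_lit 76) (nat_lit 56207034178) (nat_lit 42) (nat_lit 5) (nat_lit 45) (nat_lit 5) (nat_lit 43) (nat_lit 4) (nat_lit 480) (nat_lit 451) (nat_lit 269))))) (XT.nd (nat_lit 234) (nat_lit 228) (nat_lit 0) (XT.nd (nat_lit 78) (nat_lit 152) (nat_lit 0) (XT.lf (nat_lit 0) (nat_lit 51611180252) (nat_lit 76) (nat_lit 460788289302)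 (nat_lit 152) (nat_lit 281029300725) (nat_lit 41) (nat_lit 5) (nat_lit 42) (nat_lit 5) (nat_lit 43) (nat_lit 4) (nat_lit 481) (nat_lit 451) (nat_lit 268)) (XT.nd (nat_lit 78) (nat_lit 152) (nat_lit 0) (XT.lf (nat_lit 0) (nat_lit 569408683429) (nat_lit 76) (nat_lit 191931921039) (nat_lit 152) (nat_lit 72892389796) (nat_lit 41) (nat_lit 5) (nat_lit 42) (nat_lit 5) (nat_lit 43) (nat_lit 4) (nat_lit 482) (nat_lit 451) (nat_lit 267)) (XT.lf (nat_lit 0) (nat_lit 153166365347) (nat_lit 152) (nat_lit 620469355496) (nat_lit 76) (nat_lit 103664042692) (nat_lit 39) (nat_lit 5) (nat_lit 41) (nat_lit 5) (nat_lit 40) (nat_lit 4) (nat_lit 483) (nat_lit 451) (nat_lit 266)))) (XT.nd (nat_lit 156) (nat_lit 152) (nat_lit 0) (XT.nd (nat_lit 78) (nat_lit 76) (nat_lit 0) (XT.lf (nat_lit 0) (nat_lit 405785789572) (nat_lit 152) (nat_lit 95020998708) (nat_lit 76) (nat_lit 421860497282) (nat_lit 39) (nat_lit 5)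 (nat_lit 41) (nat_lit 5) (nat_lit 40) (nat_lit 4) (nat_lit 484) (nat_lit 451) (nat_lit 265)) (XT.lf (nat_lit 0) (nat_lit 497342246421) (nat_lit 76) (nat_lit 193233585146) (nat_lit 152) (nat_lit 280131492679) (nat_lit 38) (nat_lit 5) (nat_lit 39) (nat_lit 5) (nat_lit 40) (nat_lit 4) (nat_lit 485) (nat_lit 451) (nat_lit 264))) (XT.nd (nat_lit 78) (nat_lit 76) (nat_lit 0) (XT.lf (nat_lit 0) (nat_lit 122852141014) (nat_lit 76) (nat_lit 884258670145) (nat_lit 76) (nat_lit 14762816131) (nat_lit 37) (nat_lit 4) (nat_lit 38) (nat_lit 5) (nat_lit 38) (nat_lit 4) (nat_lit 486) (nat_lit 451) (nat_lit 263)) (XT.lf (nat_lit 0) (nat_lit 276534887214) (nat_lit 152) (nat_lit 294303322125) (nat_lit 76) (nat_lit 504308186449) (nat_lit 36) (nat_lit 5) (nat_lit 38) (nat_lit 5) (nat_lit 37) (nat_lit 4) (nat_lit 487) (nat_lit 451) (nat_lit 262))))))))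
noncomputable def xc203 : XT := (XT.nd (nat_lit 1950) (nat_lit 684) (nat_lit 0) (XT.nd (nat_lit 936) (nat_lit 760) (nat_lit 0) (XT.nd (nat_lit 468) (nat_lit 380) (nat_lit 0) (XT.nd (nat_lit 234) (nat_lit 152) (nat_lit 0) (XT.nd (nat_lit 78) (nat_lit 152) (nat_lit 0) (XT.lf (nat_lit 0) (nat_lit 377281967312) (nat_lit 76) (nat_lit 222130477821) (nat_lit 152) (nat_lit 532511975547) (nat_lit 35) (nat_lit 5) (nat_lit 36) (nat_lit 5) (nat_lit 37) (nat_lit 4) (nat_lit 488) (nat_lit 451) (nat_lit 261)) (XT.nd (nat_lit 78) (nat_lit 152) (nat_lit 0) (XT.lf (nat_lit 0) (nat_lit 960091063211) (nat_lit 152) (nat_lit 77193732795) (nat_lit 0) (nat_lit 155002223117) (nat_lit 35) (nat_lit 5) (nat_lit 37) (nat_lit 4) (nat_lit 35) (nat_lit 4) (nat_lit 489) (nat_lit 451) (nat_lit 260)) (XT.lf (nat_lit 0) (nat_lit 110304182811) (nat_lit 152) (nat_lit 575656164482) (nat_lit 76) (nat_lit 569519524658) (nat_lit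 33) (nat_lit 5) (nat_lit 35) (nat_lit 5) (nat_lit 34) (nat_lit 4) (nat_lit 490) (nat_lit 451) (nat_lit 259)))) (XT.nd (nat_lit 78) (nat_lit 76) (nat_lit 0) (XT.lf (nat_lit 0) (nat_lit 181212359535) (nat_lit 76) (nat_lit 292970932328) (nat_lit 152) (nat_lit 848540490287) (nat_lit 32) (nat_lit 5) (nat_lit 33) (nat_lit 5) (nat_lit 34) (nat_lit 4) (nat_lit 491) (nat_lit 451) (nat_lit 258)) (XT.nd (nat_lit 78) (nat_lit 76) (nat_lit 0) (XT.lf (nat_lit 0) (nat_lit 886482541667) (nat_lit 152) (nat_lit 366290030076) (nat_lit 0) (nat_lit 141029848461) (nat_lit 32) (nat_lit 5) (nat_lit 34) (nat_lit 4) (nat_lit 32) (nat_lit 4) (nat_lit 492) (nat_lit 451) (nat_lit 257)) (XT.lf (nat_lit 0) (nat_lit 487738027340) (nat_lit 76) (nat_lit 863367427695) (nat_lit 76) (nat_lit 117914716381) (nat_lit 31) (nat_lit 4) (nat_lit 32) (nat_lit 5) (nat_lit 32) (nat_lit 4) (nat_lit 493) (nat_lit 451) (nat_lit 256)))))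 (XT.nd (nat_lit 234) (nat_lit 152) (nat_lit 0) (XT.nd (nat_lit 78) (nat_lit 152) (nat_lit 0) (XT.lf (nat_lit 0) (nat_lit 297778563896) (nat_lit 152) (nat_lit 126073315177) (nat_lit 76) (nat_lit 1124999168079) (nat_lit 30) (nat_lit 5) (nat_lit 32) (nat_lit 5) (nat_lit 31) (nat_lit 4) (nat_lit 494) (nat_lit 451) (nat_lit 255)) (XT.nd (nat_lit 78) (nat_lit 76) (nat_lit 0) (XT.lf (nat_lit 0) (nat_lit 762294809548) (nat_lit 152) (nat_lit 798712741288) (nat_lit 0) (nat_lit 72060787690) (nat_lit 29) (nat_lit 5) (nat_lit 31) (nat_lit 4) (nat_lit 29) (nat_lit 4) (nat_lit 495) (nat_lit 451) (nat_lit 254)) (XT.lf (nat_lit 0) (nat_lit 151522532433) (nat_lit 76) (nat_lit 1130639664297) (nat_lit 76) (nat_lit 440405629129) (nat_lit 28) (nat_lit 4) (nat_lit 29) (nat_lit 5) (nat_lit 29) (nat_lit 4) (nat_lit 496) (nat_lit 451) (nat_lit 253)))) (XT.nd (nat_lit 78) (nat_lit 76) (nat_lit 0) (XT.lf (nat_lit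 0) (nat_lit 45576958856) (nat_lit 152) (nat_lit 595433973071) (nat_lit 76) (nat_lit 1176376976340) (nat_lit 27) (nat_lit 5) (nat_lit 29) (nat_lit 5) (nat_lit 28) (nat_lit 4) (nat_lit 497) (nat_lit 451) (nat_lit 252)) (XT.nd (nat_lit 78) (nat_lit 0) (nat_lit 0) (XT.lf (nat_lit 0) (nat_lit 470314125576) (nat_lit 76) (nat_lit 87641732346) (nat_lit 152) (nat_lit 1360017726994) (nat_lit 26) (nat_lit 5) (nat_lit 27) (nat_lit 5) (nat_lit 28) (nat_lit 4) (nat_lit 498) (nat_lit 451) (nat_lit 251)) (XT.lf (nat_lit 0) (nat_lit 1140293573167) (nat_lit 152) (nat_lit 382807108903) (nat_lit 0) (nat_lit 501187953288) (nat_lit 26) (nat_lit 5) (nat_lit 28) (nat_lit 4) (nat_lit 26) (nat_lit 4) (nat_lit 499) (nat_lit 451) (nat_lit 250)))))) (XT.nd (nat_lit 468) (nat_lit 304) (nat_lit 0) (XT.nd (nat_lit 234) (nat_lit 228) (nat_lit 0) (XT.nd (nat_lit 78) (nat_lit 152) (nat_lit 0) (XT.lf (nat_lit 0) (nat_lit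 805238265468) (nat_lit 76) (nat_lit 985622431018) (nat_lit 76) (nat_lit 346516802080) (nat_lit 25) (nat_lit 4) (nat_lit 26) (nat_lit 5) (nat_lit 26) (nat_lit 4) (nat_lit 500) (nat_lit 451) (nat_lit 249)) (XT.nd (nat_lit 78) (nat_lit 76) (nat_lit 0) (XT.lf (nat_lit 0) (nat_lit 232994573901) (nat_lit 152) (nat_lit 154476923610) (nat_lit 76) (nat_lit 1870732756954) (nat_lit 24) (nat_lit 5) (nat_lit 26) (nat_lit 5) (nat_lit 25) (nat_lit 4) (nat_lit 501) (nat_lit 451) (nat_lit 248)) (XT.lf (nat_lit 0) (nat_lit 875386958239) (nat_lit 152) (nat_lit 1226148405158) (nat_lit 0) (nat_lit 283622472043) (nat_lit 23) (nat_lit 5) (nat_lit 25) (nat_lit 4) (nat_lit 23) (nat_lit 4) (nat_lit 502) (nat_lit 451) (nat_lit 247)))) (XT.nd (nat_lit 78) (nat_lit 152) (nat_lit 0) (XT.lf (nat_lit 0) (nat_lit 57113224977) (nat_lit 76) (nat_lit 1527828640114) (nat_lit 76) (nat_lit 936064147259) (nat_lit 22) (nat_lit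 4) (nat_lit 23) (nat_lit 5) (nat_lit 23) (nat_lit 4) (nat_lit 503) (nat_lit 451) (nat_lit 246)) (XT.nd (nat_lit 78) (nat_lit 152) (nat_lit 0) (XT.lf (nat_lit 0) (nat_lit 1512767900341) (nat_lit 76) (nat_lit 872018318859) (nat_lit 76) (nat_lit 280253819839) (nat_lit 22) (nat_lit 4) (nat_lit 23) (nat_lit 5) (nat_lit 23) (nat_lit 4) (nat_lit 504) (nat_lit 451) (nat_lit 245)) (XT.lf (nat_lit 0) (nat_lit 267358566928) (nat_lit 76) (nat_lit 145681371367) (nat_lit 152) (nat_lit 2406218938486) (nat_lit 20) (nat_lit 5) (nat_lit 21) (nat_lit 5) (nat_lit 22) (nat_lit 4) (nat_lit 505) (nat_lit 451) (nat_lit 244))))) (XT.nd (nat_lit 234) (nat_lit 228) (nat_lit 0) (XT.nd (nat_lit 78) (nat_lit 76) (nat_lit 0) (XT.lf (nat_lit 0) (nat_lit 1194341929137) (nat_lit 152) (nat_lit 1140664262124) (nat_lit 0) (nat_lit 646411827273) (nat_lit 20) (nat_lit 5) (nat_lit 22) (nat_lit 4) (nat_lit 20) (nat_lit 4) (nat_lit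 506) (nat_lit 451) (nat_lit 243)) (XT.nd (nat_lit 78) (nat_lit 0) (nat_lit 0) (XT.lf (nat_lit 0) (nat_lit 399680339262) (nat_lit 76) (nat_lit 1651863979788) (nat_lit 76) (nat_lit 1103933873391) (nat_lit 19) (nat_lit 4) (nat_lit 20) (nat_lit 5) (nat_lit 20) (nat_lit 4) (nat_lit 507) (nat_lit 451) (nat_lit 242)) (XT.lf (nat_lit 0) (nat_lit 2128123069040) (nat_lit 76) (nat_lit 880387600146) (nat_lit 76) (nat_lit 332457489553) (nat_lit 19) (nat_lit 4) (nat_lit 20) (nat_lit 5) (nat_lit 20) (nat_lit 4) (nat_lit 508) (nat_lit 451) (nat_lit 241)))) (XT.nd (nat_lit 156) (nat_lit 76) (nat_lit 0) (XT.nd (nat_lit 78) (nat_lit 0) (nat_lit 0) (XT.lf (nat_lit 0) (nat_lit 464749799371) (nat_lit 76) (nat_lit 22115543825) (nat_lit 152) (nat_lit 3052574381689) (nat_lit 17) (nat_lit 5) (nat_lit 18) (nat_lit 5) (nat_lit 19) (nat_lit 4) (nat_lit 509) (nat_lit 451) (nat_lit 240)) (XT.lf (nat_lit 0) (nat_lit 1409556219015)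 (nat_lit 152) (nat_lit 1436865774964) (nat_lit 0) (nat_lit 902213517094) (nat_lit 17) (nat_lit 5) (nat_lit 19) (nat_lit 4) (nat_lit 17) (nat_lit 4) (nat_lit 510) (nat_lit 451) (nat_lit 239))) (XT.nd (nat_lit 78) (nat_lit 0) (nat_lit 0) (XT.lf (nat_lit 0) (nat_lit 348861309716) (nat_lit 76) (nat_lit 2066165596087) (nat_lit 76) (nat_lit 1558822891081) (nat_lit 16) (nat_lit 4) (nat_lit 17) (nat_lit 5) (nat_lit 17) (nat_lit 4) (nat_lit 511) (nat_lit 451) (nat_lit 238)) (XT.lf (nat_lit 0) (nat_lit 2359162367757) (nat_lit 76) (nat_lit 1181059325022) (nat_lit 76) (nat_lit 673716617161) (nat_lit 16) (nat_lit 4) (nat_lit 17) (nat_lit 5) (nat_lit 17) (nat_lit 4) (nat_lit 512) (nat_lit 451) (nat_lit 237))))))) (XT.nd (nat_lit 936) (nat_lit 76) (nat_lit 0) (XT.nd (nat_lit 468) (nat_lit 228) (nat_lit 0) (XT.nd (nat_lit 234) (nat_lit 228) (nat_lit 0) (XT.nd (nat_lit 78) (nat_lit 0) (nat_lit 0) (XT.lf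 (nat_lit 0) (nat_lit 52913667800) (nat_lit 76) (nat_lit 216440360230) (nat_lit 152) (nat_lit 4203235121078) (nat_lit 14) (nat_lit 5) (nat_lit 15) (nat_lit 5) (nat_lit 16) (nat_lit 4) (nat_lit 513) (nat_lit 451) (nat_lit 236)) (XT.nd (nat_lit 78) (nat_lit 0) (nat_lit 0) (XT.lf (nat_lit 0) (nat_lit 1323351838139) (nat_lit 152) (nat_lit 2567839842971) (nat_lit 0) (nat_lit 853590066886) (nat_lit 14) (nat_lit 5) (nat_lit 16) (nat_lit 4) (nat_lit 14) (nat_lit 4) (nat_lit 514) (nat_lit 451) (nat_lit 235)) (XT.lf (nat_lit 0) (nat_lit 2467291290598) (nat_lit 152) (nat_lit 573479201549) (nat_lit 0) (nat_lit 1997529517246) (nat_lit 14) (nat_lit 5) (nat_lit 16) (nat_lit 4) (nat_lit 14) (nat_lit 4) (nat_lit 515) (nat_lit 451) (nat_lit 234)))) (XT.nd (nat_lit 78) (nat_lit 152) (nat_lit 0) (XT.lf (nat_lit 0) (nat_lit 1663652929631) (nat_lit 76) (nat_lit 2079103853334) (nat_lit 76) (nat_lit 1609342078038)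 (nat_lit 13) (nat_lit 4) (nat_lit 14) (nat_lit 5) (nat_lit 14) (nat_lit 4) (nat_lit 516) (nat_lit 451) (nat_lit 233)) (XT.nd (nat_lit 78) (nat_lit 152) (nat_lit 0) (XT.lf (nat_lit 0) (nat_lit 4112369883193) (nat_lit 76) (nat_lit 1023569560176) (nat_lit 76) (nat_lit 553807783081) (nat_lit 13) (nat_lit 4) (nat_lit 14) (nat_lit 5) (nat_lit 14) (nat_lit 4) (nat_lit 517) (nat_lit 451) (nat_lit 232)) (XT.lf (nat_lit 0) (nat_lit 577895034970) (nat_lit 152) (nat_lit 5330770343209) (nat_lit 0) (nat_lit 142930425006) (nat_lit 11) (nat_lit 5) (nat_lit 13) (nat_lit 4) (nat_lit 11) (nat_lit 4) (nat_lit 518) (nat_lit 451) (nat_lit 231))))) (XT.nd (nat_lit 234) (nat_lit 152) (nat_lit 0) (XT.nd (nat_lit 78) (nat_lit 76) (nat_lit 0) (XT.lf (nat_lit 0) (nat_lit 1841048794644) (nat_lit 152) (nat_lit 3188441741058) (nat_lit 0) (nat_lit 1406084183251) (nat_lit 11) (nat_lit 5) (nat_lit 13) (nat_lit 4) (nat_lit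 11) (nat_lit 4) (nat_lit 519) (nat_lit 451) (nat_lit 230)) (XT.nd (nat_lit 78) (nat_lit 76) (nat_lit 0) (XT.lf (nat_lit 0) (nat_lit 3205254847175) (nat_lit 152) (nat_lit 874726866982) (nat_lit 0) (nat_lit 2770290234460) (nat_lit 11) (nat_lit 5) (nat_lit 13) (nat_lit 4) (nat_lit 11) (nat_lit 4) (nat_lit 520) (nat_lit 451) (nat_lit 229)) (XT.lf (nat_lit 0) (nat_lit 1709606629532) (nat_lit 76) (nat_lit 3010106827602) (nat_lit 76) (nat_lit 2575142213661) (nat_lit 10) (nat_lit 4) (nat_lit 11) (nat_lit 5) (nat_lit 11) (nat_lit 4) (nat_lit 521) (nat_lit 451) (nat_lit 228)))) (XT.nd (nat_lit 78) (nat_lit 152) (nat_lit 0) (XT.lf (nat_lit 0) (nat_lit 4550433283103) (nat_lit 76) (nat_lit 1828812048337) (nat_lit 76) (nat_lit 1393847433263) (nat_lit 10) (nat_lit 4) (nat_lit 11) (nat_lit 5) (nat_lit 11) (nat_lit 4) (nat_lit 522) (nat_lit 451) (nat_lit 227)) (XT.nd (nat_lit 78) (nat_lit 152) (nat_lit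 0) (XT.lf (nat_lit 0) (nat_lit 7618526055382) (nat_lit 76) (nat_lit 553013693698) (nat_lit 76) (nat_lit 118049077573) (nat_lit 10) (nat_lit 4) (nat_lit 11) (nat_lit 5) (nat_lit 11) (nat_lit 4) (nat_lit 523) (nat_lit 451) (nat_lit 226)) (XT.lf (nat_lit 0) (nat_lit 1270776867414) (nat_lit 152) (nat_lit 6700253197507) (nat_lit 0) (nat_lit 868031851584) (nat_lit 8) (nat_lit 5) (nat_lit 10) (nat_lit 4) (nat_lit 8) (nat_lit 4) (nat_lit 524) (nat_lit 451) (nat_lit 225)))))) (XT.nd (nat_lit 56784) (nat_lit 0) (nat_lit 5168) (XT.nd (nat_lit 234) (nat_lit 0) (nat_lit 0) (XT.nd (nat_lit 78) (nat_lit 76) (nat_lit 0) (XT.lf (nat_lit 0) (nat_lit 2797519775373) (nat_lit 152) (nat_lit 4237297934377) (nat_lit 0) (nat_lit 2394774758709) (nat_lit 8) (nat_lit 5) (nat_lit 10) (nat_lit 4) (nat_lit 8) (nat_lit 4) (nat_lit 525) (nat_lit 451) (nat_lit 224)) (XT.nd (nat_lit 78) (nat_lit 76) (nat_lit 0) (XT.lf (nat_lit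 0) (nat_lit 4446402110159) (nat_lit 152) (nat_lit 1577306262150) (nat_lit 0) (nat_lit 4043657092724) (nat_lit 8) (nat_lit 5) (nat_lit 10) (nat_lit 4) (nat_lit 8) (nat_lit 4) (nat_lit 526) (nat_lit 451) (nat_lit 223)) (XT.lf (nat_lit 0) (nat_lit 1363702663018) (nat_lit 76) (nat_lit 4896289445174) (nat_lit 76) (nat_lit 4493544427024) (nat_lit 7) (nat_lit 4) (nat_lit 8) (nat_lit 5) (nat_lit 8) (nat_lit 4) (nat_lit 527) (nat_lit 451) (nat_lit 222)))) (XT.nd (nat_lit 78) (nat_lit 0) (nat_lit 0) (XT.lf (nat_lit 0) (nat_lit 4629695096154) (nat_lit 76) (nat_lit 3632100553109) (nat_lit 76) (nat_lit 3229355534297) (nat_lit 7) (nat_lit 4) (nat_lit 8) (nat_lit 5) (nat_lit 8) (nat_lit 4) (nat_lit 528) (nat_lit 451) (nat_lit 221)) (XT.nd (nat_lit 78) (nat_lit 0) (nat_lit 0) (XT.lf (nat_lit 0) (nat_lit 8156966913952) (nat_lit 76) (nat_lit 2266776554815) (nat_lit 76) (nat_lit 1864031535391) (nat_lit 7)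 (nat_lit 4) (nat_lit 8) (nat_lit 5) (nat_lit 8) (nat_lit 4) (nat_lit 529) (nat_lit 451) (nat_lit 220)) (XT.lf (nat_lit 0) (nat_lit 11966420467924) (nat_lit 76) (nat_lit 792226641416) (nat_lit 76) (nat_lit 389481621424) (nat_lit 7) (nat_lit 4) (nat_lit 8) (nat_lit 5) (nat_lit 8) (nat_lit 4) (nat_lit 530) (nat_lit 451) (nat_lit 219))))) (XT.nd (nat_lit 234) (nat_lit 456) (nat_lit 0) (XT.nd (nat_lit 78) (nat_lit 0) (nat_lit 0) (XT.lf (nat_lit 0) (nat_lit 107665241153) (nat_lit 532) (nat_lit 1707190789) (nat_lit 532) (nat_lit 1707190789) (nat_lit 81) (nat_lit 3) (nat_lit 88) (nat_lit 3) (nat_lit 88) (nat_lit 5) (nat_lit 452) (nat_lit 452) (nat_lit 296)) (XT.nd (nat_lit 78) (nat_lit 0) (nat_lit 0) (XT.lf (nat_lit 76) (nat_lit 112399994468) (nat_lit 0) (nat_lit 114248179814) (nat_lit 532) (nat_lit 4181082849) (nat_lit 82) (nat_lit 5) (nat_lit 81) (nat_lit 3) (nat_lit 88) (nat_lit 5) (nat_lit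 453) (nat_lit 452) (nat_lit 295)) (XT.lf (nat_lit 76) (nat_lit 237673628391) (nat_lit 0) (nat_lit 1290881687) (nat_lit 532) (nat_lit 1220901414) (nat_lit 82) (nat_lit 5) (nat_lit 81) (nat_lit 3) (nat_lit 88) (nat_lit 5) (nat_lit 454) (nat_lit 452) (nat_lit 294)))) (XT.nd (nat_lit 156) (nat_lit 0) (nat_lit 76) (XT.nd (nat_lit 78) (nat_lit 0) (nat_lit 0) (XT.lf (nat_lit 0) (nat_lit 7966501155) (nat_lit 532) (nat_lit 123933627909) (nat_lit 608) (nat_lit 117898986444) (nat_lit 75) (nat_lit 5) (nat_lit 82) (nat_lit 5) (nat_lit 83) (nat_lit 5) (nat_lit 455) (nat_lit 452) (nat_lit 293)) (XT.lf (nat_lit 76) (nat_lit 4644601934) (nat_lit 0) (nat_lit 13393913992) (nat_lit 608) (nat_lit 242123616580) (nat_lit 76) (nat_lit 5) (nat_lit 75) (nat_lit 5) (nat_lit 83) (nat_lit 5) (nat_lit 456) (nat_lit 452) (nat_lit 292))) (XT.nd (nat_lit 78) (nat_lit 0) (nat_lit 0) (XT.lf (nat_lit 0) (nat_lit 35148726000)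 (nat_lit 532) (nat_lit 123369862104) (nat_lit 608) (nat_lit 112337008054) (nat_lit 76) (nat_lit 5) (nat_lit 83) (nat_lit 5) (nat_lit 84) (nat_lit 5) (nat_lit 457) (nat_lit 452) (nat_lit 291)) (XT.lf (nat_lit 76) (nat_lit 20002237794) (nat_lit 0) (nat_lit 34454365916) (nat_lit 608) (nat_lit 227881625148) (nat_lit 77) (nat_lit 5) (nat_lit 76) (nat_lit 5) (nat_lit 84) (nat_lit 5) (nat_lit 458) (nat_lit 452) (nat_lit 290))))))))
noncomputable def xc204 : XT := (XT.nd (nat_lit 1950) (nat_lit 1672) (nat_lit 0) (XT.nd (nat_lit 936) (nat_lit 1216) (nat_lit 0) (XT.nd (nat_lit 468) (nat_lit 608) (nat_lit 0) (XT.nd (nat_lit 234) (nat_lit 456) (nat_lit 0) (XT.nd (nat_lit 78) (nat_lit 456) (nat_lit 0) (XT.lf (nat_lit 0) (nat_lit 81163603883) (nat_lit 532) (nat_lit 115090881131) (nat_lit 76) (nat_lit 98016627802) (nat_lit 77) (nat_lit 5) (nat_lit 84) (nat_lit 5) (nat_lit 78) (nat_lit 5) (nat_lit 459)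 (nat_lit 452) (nat_lit 289)) (XT.nd (nat_lit 78) (nat_lit 0) (nat_lit 0) (XT.lf (nat_lit 0) (nat_lit 45305187637) (nat_lit 456) (nat_lit 66686400953) (nat_lit 532) (nat_lit 195008284957) (nat_lit 71) (nat_lit 5) (nat_lit 77) (nat_lit 5) (nat_lit 78) (nat_lit 5) (nat_lit 460) (nat_lit 452) (nat_lit 288)) (XT.lf (nat_lit 0) (nat_lit 150275850266) (nat_lit 532) (nat_lit 97260344568) (nat_lit 76) (nat_lit 72811537267) (nat_lit 71) (nat_lit 5) (nat_lit 78) (nat_lit 5) (nat_lit 72) (nat_lit 5) (nat_lit 461) (nat_lit 452) (nat_lit 287)))) (XT.nd (nat_lit 78) (nat_lit 228) (nat_lit 0) (XT.lf (nat_lit 0) (nat_lit 82735306341) (nat_lit 228) (nat_lit 112609372447) (nat_lit 304) (nat_lit 139120994494) (nat_lit 68) (nat_lit 5) (nat_lit 71) (nat_lit 5) (nat_lit 72) (nat_lit 5) (nat_lit 462) (nat_lit 452) (nat_lit 286)) (XT.nd (nat_lit 78) (nat_lit 228) (nat_lit 0) (XT.lf (nat_lit 0) (nat_lit 247543619436)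 (nat_lit 304) (nat_lit 67703905560) (nat_lit 76) (nat_lit 34183556310) (nat_lit 68) (nat_lit 5) (nat_lit 72) (nat_lit 5) (nat_lit 69) (nat_lit 5) (nat_lit 463) (nat_lit 452) (nat_lit 285)) (XT.lf (nat_lit 0) (nat_lit 134866233154) (nat_lit 228) (nat_lit 175220631391) (nat_lit 304) (nat_lit 55013386304) (nat_lit 65) (nat_lit 5) (nat_lit 68) (nat_lit 5) (nat_lit 69) (nat_lit 5) (nat_lit 464) (nat_lit 452) (nat_lit 284))))) (XT.nd (nat_lit 234) (nat_lit 152) (nat_lit 0) (XT.nd (nat_lit 78) (nat_lit 456) (nat_lit 0) (XT.lf (nat_lit 0) (nat_lit 357492289981) (nat_lit 228) (nat_lit 21992361420) (nat_lit 304) (nat_lit 2390215997) (nat_lit 65) (nat_lit 5) (nat_lit 68) (nat_lit 5) (nat_lit 69) (nat_lit 5) (nat_lit 465) (nat_lit 452) (nat_lit 283)) (XT.nd (nat_lit 78) (nat_lit 228) (nat_lit 0) (XT.lf (nat_lit 0) (nat_lit 60311554981) (nat_lit 228) (nat_lit 196121206328) (nat_lit 76) (nat_lit 142766568162)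 (nat_lit 62) (nat_lit 5) (nat_lit 65) (nat_lit 5) (nat_lit 63) (nat_lit 5) (nat_lit 466) (nat_lit 452) (nat_lit 282)) (XT.lf (nat_lit 0) (nat_lit 33280020692) (nat_lit 228) (nat_lit 96675850368) (nat_lit 304) (nat_lit 287784467805) (nat_lit 59) (nat_lit 5) (nat_lit 62) (nat_lit 5) (nat_lit 63) (nat_lit 5) (nat_lit 467) (nat_lit 452) (nat_lit 281)))) (XT.nd (nat_lit 78) (nat_lit 152) (nat_lit 0) (XT.lf (nat_lit 0) (nat_lit 212497732920) (nat_lit 304) (nat_lit 147112542664) (nat_lit 76) (nat_lit 77568273397) (nat_lit 59) (nat_lit 5) (nat_lit 63) (nat_lit 5) (nat_lit 60) (nat_lit 5) (nat_lit 468) (nat_lit 452) (nat_lit 280)) (XT.nd (nat_lit 78) (nat_lit 0) (nat_lit 0) (XT.lf (nat_lit 0) (nat_lit 112331184017) (nat_lit 152) (nat_lit 194524337487) (nat_lit 228) (nat_lit 150899288188) (nat_lit 57) (nat_lit 5) (nat_lit 59) (nat_lit 5) (nat_lit 60) (nat_lit 5) (nat_lit 469) (nat_lit 452) (nat_lit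 279)) (XT.lf (nat_lit 0) (nat_lit 400896760686) (nat_lit 152) (nat_lit 11887441281) (nat_lit 228) (nat_lit 66871187799) (nat_lit 57) (nat_lit 5) (nat_lit 59) (nat_lit 5) (nat_lit 60) (nat_lit 5) (nat_lit 470) (nat_lit 452) (nat_lit 278)))))) (XT.nd (nat_lit 468) (nat_lit 532) (nat_lit 0) (XT.nd (nat_lit 234) (nat_lit 304) (nat_lit 0) (XT.nd (nat_lit 78) (nat_lit 152) (nat_lit 0) (XT.lf (nat_lit 0) (nat_lit 32577295899) (nat_lit 228) (nat_lit 287796367176) (nat_lit 76) (nat_lit 182096996219) (nat_lit 54) (nat_lit 5) (nat_lit 57) (nat_lit 5) (nat_lit 55) (nat_lit 5) (nat_lit 471) (nat_lit 452) (nat_lit 277)) (XT.nd (nat_lit 78) (nat_lit 0) (nat_lit 0) (XT.lf (nat_lit 0) (nat_lit 7390042837) (nat_lit 152) (nat_lit 131674617799) (nat_lit 228) (nat_lit 387691873963) (nat_lit 52) (nat_lit 5) (nat_lit 54) (nat_lit 5) (nat_lit 55) (nat_lit 5) (nat_lit 472) (nat_lit 452) (nat_lit 276)) (XT.lf (nat_lit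 0) (nat_lit 263878715690) (nat_lit 228) (nat_lit 211736121854) (nat_lit 76) (nat_lit 76585826304) (nat_lit 52) (nat_lit 5) (nat_lit 55) (nat_lit 5) (nat_lit 53) (nat_lit 5) (nat_lit 473) (nat_lit 452) (nat_lit 275)))) (XT.nd (nat_lit 78) (nat_lit 152) (nat_lit 0) (XT.lf (nat_lit 0) (nat_lit 123249955985) (nat_lit 152) (nat_lit 281812182968) (nat_lit 228) (nat_lit 174107444981) (nat_lit 50) (nat_lit 5) (nat_lit 52) (nat_lit 5) (nat_lit 53) (nat_lit 5) (nat_lit 474) (nat_lit 452) (nat_lit 274)) (XT.nd (nat_lit 78) (nat_lit 152) (nat_lit 0) (XT.lf (nat_lit 0) (nat_lit 497076478844) (nat_lit 152) (nat_lit 66252959003) (nat_lit 228) (nat_lit 44503443645) (nat_lit 50) (nat_lit 5) (nat_lit 52) (nat_lit 5) (nat_lit 53) (nat_lit 5) (nat_lit 475) (nat_lit 452) (nat_lit 273)) (XT.lf (nat_lit 0) (nat_lit 101504365525) (nat_lit 152) (nat_lit 368915132420) (nat_lit 76) (nat_lit 167321164399) (nat_lit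 48) (nat_lit 5) (nat_lit 50) (nat_lit 5) (nat_lit 49) (nat_lit 5) (nat_lit 476) (nat_lit 452) (nat_lit 272))))) (XT.nd (nat_lit 234) (nat_lit 304) (nat_lit 0) (XT.nd (nat_lit 78) (nat_lit 76) (nat_lit 0) (XT.lf (nat_lit 0) (nat_lit 12967193370) (nat_lit 152) (nat_lit 248960878149) (nat_lit 228) (nat_lit 407609350341) (nat_lit 46) (nat_lit 5) (nat_lit 48) (nat_lit 5) (nat_lit 49) (nat_lit 5) (nat_lit 477) (nat_lit 452) (nat_lit 271)) (XT.nd (nat_lit 78) (nat_lit 76) (nat_lit 0) (XT.lf (nat_lit 0) (nat_lit 445299083400) (nat_lit 228) (nat_lit 256717055401) (nat_lit 76) (nat_lit 1052710590) (nat_lit 46) (nat_lit 5) (nat_lit 49) (nat_lit 5) (nat_lit 47) (nat_lit 4) (nat_lit 478) (nat_lit 452) (nat_lit 270)) (XT.lf (nat_lit 0) (nat_lit 177539019570) (nat_lit 76) (nat_lit 476537057739) (nat_lit 152) (nat_lit 84347809730) (nat_lit 45) (nat_lit 5) (nat_lit 46) (nat_lit 5) (nat_lit 47) (nat_lit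 4) (nat_lit 479) (nat_lit 452) (nat_lit 269)))) (XT.nd (nat_lit 156) (nat_lit 76) (nat_lit 0) (XT.nd (nat_lit 78) (nat_lit 152) (nat_lit 0) (XT.lf (nat_lit 0) (nat_lit 104999412842) (nat_lit 152) (nat_lit 117568763359) (nat_lit 76) (nat_lit 553264969070) (nat_lit 44) (nat_lit 5) (nat_lit 46) (nat_lit 5) (nat_lit 45) (nat_lit 5) (nat_lit 480) (nat_lit 452) (nat_lit 268)) (XT.lf (nat_lit 0) (nat_lit 315563379065) (nat_lit 228) (nat_lit 438942384760) (nat_lit 76) (nat_lit 60704037090) (nat_lit 42) (nat_lit 5) (nat_lit 45) (nat_lit 5) (nat_lit 43) (nat_lit 4) (nat_lit 481) (nat_lit 452) (nat_lit 267))) (XT.nd (nat_lit 78) (nat_lit 0) (nat_lit 0) (XT.lf (nat_lit 0) (nat_lit 55741163476) (nat_lit 76) (nat_lit 497650870120) (nat_lit 152) (nat_lit 303510989736) (nat_lit 41) (nat_lit 5) (nat_lit 42) (nat_lit 5) (nat_lit 43) (nat_lit 4) (nat_lit 482) (nat_lit 452) (nat_lit 266)) (XT.lf (nat_lit 0)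 (nat_lit 614962386254) (nat_lit 76) (nat_lit 207286028123) (nat_lit 152) (nat_lit 78723174455) (nat_lit 41) (nat_lit 5) (nat_lit 42) (nat_lit 5) (nat_lit 43) (nat_lit 4) (nat_lit 483) (nat_lit 452) (nat_lit 265))))))) (XT.nd (nat_lit 936) (nat_lit 836) (nat_lit 0) (XT.nd (nat_lit 468) (nat_lit 380) (nat_lit 0) (XT.nd (nat_lit 234) (nat_lit 228) (nat_lit 0) (XT.nd (nat_lit 78) (nat_lit 76) (nat_lit 0) (XT.lf (nat_lit 0) (nat_lit 165420243351) (nat_lit 152) (nat_lit 670105857951) (nat_lit 76) (nat_lit 111957597773) (nat_lit 39) (nat_lit 5) (nat_lit 41) (nat_lit 5) (nat_lit 40) (nat_lit 4) (nat_lit 484) (nat_lit 452) (nat_lit 264)) (XT.nd (nat_lit 78) (nat_lit 76) (nat_lit 0) (XT.lf (nat_lit 0) (nat_lit 438249179382) (nat_lit 152) (nat_lit 102621710101) (nat_lit 76) (nat_lit 455609736755) (nat_lit 39) (nat_lit 5) (nat_lit 41) (nat_lit 5) (nat_lit 40) (nat_lit 4) (nat_lit 485) (nat_lit 452)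 (nat_lit 263)) (XT.lf (nat_lit 0) (nat_lit 537130570121) (nat_lit 76) (nat_lit 208691838309) (nat_lit 152) (nat_lit 302541460894) (nat_lit 38) (nat_lit 5) (nat_lit 39) (nat_lit 5) (nat_lit 40) (nat_lit 4) (nat_lit 486) (nat_lit 452) (nat_lit 262)))) (XT.nd (nat_lit 78) (nat_lit 152) (nat_lit 0) (XT.lf (nat_lit 0) (nat_lit 132681262044) (nat_lit 76) (nat_lit 954998919040) (nat_lit 76) (nat_lit 15943295954) (nat_lit 37) (nat_lit 4) (nat_lit 38) (nat_lit 5) (nat_lit 38) (nat_lit 4) (nat_lit 487) (nat_lit 452) (nat_lit 261)) (XT.nd (nat_lit 78) (nat_lit 76) (nat_lit 0) (XT.lf (nat_lit 0) (nat_lit 298658157988) (nat_lit 152) (nat_lit 317846683205) (nat_lit 76) (nat_lit 544653227847) (nat_lit 36) (nat_lit 5) (nat_lit 38) (nat_lit 5) (nat_lit 37) (nat_lit 4) (nat_lit 488) (nat_lit 452) (nat_lit 260)) (XT.lf (nat_lit 0) (nat_lit 407465406484) (nat_lit 76) (nat_lit 239900499723) (nat_lit 152) (nat_lit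 575112430865) (nat_lit 35) (nat_lit 5) (nat_lit 36) (nat_lit 5) (nat_lit 37) (nat_lit 4) (nat_lit 489) (nat_lit 452) (nat_lit 259))))) (XT.nd (nat_lit 234) (nat_lit 152) (nat_lit 0) (XT.nd (nat_lit 78) (nat_lit 228) (nat_lit 0) (XT.lf (nat_lit 0) (nat_lit 1036898788524) (nat_lit 152) (nat_lit 83368389717) (nat_lit 0) (nat_lit 167402767168) (nat_lit 35) (nat_lit 5) (nat_lit 37) (nat_lit 4) (nat_lit 35) (nat_lit 4) (nat_lit 490) (nat_lit 452) (nat_lit 258)) (XT.nd (nat_lit 78) (nat_lit 76) (nat_lit 0) (XT.lf (nat_lit 0) (nat_lit 119128955932) (nat_lit 152) (nat_lit 621707814138) (nat_lit 76) (nat_lit 615081456538) (nat_lit 33) (nat_lit 5) (nat_lit 35) (nat_lit 5) (nat_lit 34) (nat_lit 4) (nat_lit 491) (nat_lit 452) (nat_lit 257)) (XT.lf (nat_lit 0) (nat_lit 195710170446) (nat_lit 76) (nat_lit 316408210553) (nat_lit 152) (nat_lit 916423269641) (nat_lit 32) (nat_lit 5) (nat_lit 33) (nat_lit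 5) (nat_lit 34) (nat_lit 4) (nat_lit 492) (nat_lit 452) (nat_lit 256)))) (XT.nd (nat_lit 78) (nat_lit 152) (nat_lit 0) (XT.lf (nat_lit 0) (nat_lit 957401548075) (nat_lit 152) (nat_lit 395592448502) (nat_lit 0) (nat_lit 152312584980) (nat_lit 32) (nat_lit 5) (nat_lit 34) (nat_lit 4) (nat_lit 32) (nat_lit 4) (nat_lit 493) (nat_lit 452) (nat_lit 255)) (XT.nd (nat_lit 78) (nat_lit 76) (nat_lit 0) (XT.lf (nat_lit 0) (nat_lit 526757833659) (nat_lit 76) (nat_lit 932436449373) (nat_lit 76) (nat_lit 127347470753) (nat_lit 31) (nat_lit 4) (nat_lit 32) (nat_lit 5) (nat_lit 32) (nat_lit 4) (nat_lit 494) (nat_lit 452) (nat_lit 254)) (XT.lf (nat_lit 0) (nat_lit 321601221027) (nat_lit 152) (nat_lit 136158453258) (nat_lit 76) (nat_lit 1214999426864) (nat_lit 30) (nat_lit 5) (nat_lit 32) (nat_lit 5) (nat_lit 31) (nat_lit 4) (nat_lit 495) (nat_lit 452) (nat_lit 253)))))) (XT.nd (nat_lit 468) (nat_lit 456)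 (nat_lit 0) (XT.nd (nat_lit 234) (nat_lit 152) (nat_lit 0) (XT.nd (nat_lit 78) (nat_lit 152) (nat_lit 0) (XT.lf (nat_lit 0) (nat_lit 823278764169) (nat_lit 152) (nat_lit 862609031283) (nat_lit 0) (nat_lit 77825980553) (nat_lit 29) (nat_lit 5) (nat_lit 31) (nat_lit 4) (nat_lit 29) (nat_lit 4) (nat_lit 496) (nat_lit 452) (nat_lit 252)) (XT.nd (nat_lit 78) (nat_lit 76) (nat_lit 0) (XT.lf (nat_lit 0) (nat_lit 163645045872) (nat_lit 76) (nat_lit 1221090486154) (nat_lit 76) (nat_lit 475637691126) (nat_lit 28) (nat_lit 4) (nat_lit 29) (nat_lit 5) (nat_lit 29) (nat_lit 4) (nat_lit 497) (nat_lit 452) (nat_lit 251)) (XT.lf (nat_lit 0) (nat_lit 49223457145) (nat_lit 152) (nat_lit 643068014730) (nat_lit 76) (nat_lit 1270487441716) (nat_lit 27) (nat_lit 5) (nat_lit 29) (nat_lit 5) (nat_lit 28) (nat_lit 4) (nat_lit 498) (nat_lit 452) (nat_lit 250)))) (XT.nd (nat_lit 78) (nat_lit 76) (nat_lit 0) (XT.lf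 (nat_lit 0) (nat_lit 507939914690) (nat_lit 76) (nat_lit 94652743995) (nat_lit 152) (nat_lit 1468818786444) (nat_lit 26) (nat_lit 5) (nat_lit 27) (nat_lit 5) (nat_lit 28) (nat_lit 4) (nat_lit 499) (nat_lit 452) (nat_lit 249)) (XT.nd (nat_lit 78) (nat_lit 76) (nat_lit 0) (XT.lf (nat_lit 0) (nat_lit 1231517373828) (nat_lit 152) (nat_lit 413431050037) (nat_lit 0) (nat_lit 541283277128) (nat_lit 26) (nat_lit 5) (nat_lit 28) (nat_lit 4) (nat_lit 26) (nat_lit 4) (nat_lit 500) (nat_lit 452) (nat_lit 248)) (XT.lf (nat_lit 0) (nat_lit 869657938396) (nat_lit 76) (nat_lit 1064471920009) (nat_lit 76) (nat_lit 374237815543) (nat_lit 25) (nat_lit 4) (nat_lit 26) (nat_lit 5) (nat_lit 26) (nat_lit 4) (nat_lit 501) (nat_lit 452) (nat_lit 247))))) (XT.nd (nat_lit 234) (nat_lit 228) (nat_lit 0) (XT.nd (nat_lit 78) (nat_lit 152) (nat_lit 0) (XT.lf (nat_lit 0) (nat_lit 251634430703) (nat_lit 152) (nat_lit 166834495794)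 (nat_lit 76) (nat_lit 2020391645048) (nat_lit 24) (nat_lit 5) (nat_lit 26) (nat_lit 5) (nat_lit 25) (nat_lit 4) (nat_lit 502) (nat_lit 452) (nat_lit 246)) (XT.nd (nat_lit 78) (nat_lit 76) (nat_lit 0) (XT.lf (nat_lit 0) (nat_lit 945418204706) (nat_lit 152) (nat_lit 1324239694778) (nat_lit 0) (nat_lit 306312539600) (nat_lit 23) (nat_lit 5) (nat_lit 25) (nat_lit 4) (nat_lit 23) (nat_lit 4) (nat_lit 503) (nat_lit 452) (nat_lit 245)) (XT.lf (nat_lit 0) (nat_lit 61682851014) (nat_lit 76) (nat_lit 1650054645287) (nat_lit 76) (nat_lit 1010948974472) (nat_lit 22) (nat_lit 4) (nat_lit 23) (nat_lit 5) (nat_lit 23) (nat_lit 4) (nat_lit 504) (nat_lit 452) (nat_lit 244)))) (XT.nd (nat_lit 156) (nat_lit 76) (nat_lit 0) (XT.nd (nat_lit 78) (nat_lit 152) (nat_lit 0) (XT.lf (nat_lit 0) (nat_lit 1633789858330) (nat_lit 76) (nat_lit 941779519519) (nat_lit 76) (nat_lit 302673843419) (nat_lit 22) (nat_lit 4)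 (nat_lit 23) (nat_lit 5) (nat_lit 23) (nat_lit 4) (nat_lit 505) (nat_lit 452) (nat_lit 243)) (XT.lf (nat_lit 0) (nat_lit 288747778684) (nat_lit 76) (nat_lit 157335615392) (nat_lit 152) (nat_lit 2598716171987) (nat_lit 20) (nat_lit 5) (nat_lit 21) (nat_lit 5) (nat_lit 22) (nat_lit 4) (nat_lit 506) (nat_lit 452) (nat_lit 242))) (XT.nd (nat_lit 78) (nat_lit 76) (nat_lit 0) (XT.lf (nat_lit 0) (nat_lit 1289889530788) (nat_lit 152) (nat_lit 1231916902285) (nat_lit 0) (nat_lit 698125007153) (nat_lit 20) (nat_lit 5) (nat_lit 22) (nat_lit 4) (nat_lit 20) (nat_lit 4) (nat_lit 507) (nat_lit 452) (nat_lit 241)) (XT.lf (nat_lit 0) (nat_lit 431655254533) (nat_lit 76) (nat_lit 1784012850781) (nat_lit 76) (nat_lit 1192248323260) (nat_lit 19) (nat_lit 4) (nat_lit 20) (nat_lit 5) (nat_lit 20) (nat_lit 4) (nat_lit 508) (nat_lit 452) (nat_lit 240))))))))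
noncomputable def xc205 : XT := (XT.nd (nat_lit 58344) (nat_lit 0) (nat_lit 2888) (XT.nd (nat_lit 936) (nat_lit 304) (nat_lit 0) (XT.nd (nat_lit 468) (nat_lit 228) (nat_lit 0) (XT.nd (nat_lit 234) (nat_lit 228) (nat_lit 0) (XT.nd (nat_lit 78) (nat_lit 152) (nat_lit 0) (XT.lf (nat_lit 0) (nat_lit 2298373366535) (nat_lit 76) (nat_lit 950818379092) (nat_lit 76) (nat_lit 359053847974) (nat_lit 19) (nat_lit 4) (nat_lit 20) (nat_lit 5) (nat_lit 20) (nat_lit 4) (nat_lit 509) (nat_lit 452) (nat_lit 239)) (XT.nd (nat_lit 78) (nat_lit 0) (nat_lit 0) (XT.lf (nat_lit 0) (nat_lit 501930235592) (nat_lit 76) (nat_lit 23884557696) (nat_lit 152) (nat_lit 3296780091773) (nat_lit 17) (nat_lit 5) (nat_lit 18) (nat_lit 5) (nat_lit 19) (nat_lit 4) (nat_lit 510) (nat_lit 452) (nat_lit 238)) (XT.lf (nat_lit 0) (nat_lit 1522320927795) (nat_lit 152) (nat_lit 1551814606810) (nat_lit 0) (nat_lit 974390800450) (nat_lit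 17) (nat_lit 5) (nat_lit 19) (nat_lit 4) (nat_lit 17) (nat_lit 4) (nat_lit 511) (nat_lit 452) (nat_lit 237)))) (XT.nd (nat_lit 78) (nat_lit 152) (nat_lit 0) (XT.lf (nat_lit 0) (nat_lit 376770633754) (nat_lit 76) (nat_lit 2231458630206) (nat_lit 76) (nat_lit 1683528500217) (nat_lit 16) (nat_lit 4) (nat_lit 17) (nat_lit 5) (nat_lit 17) (nat_lit 4) (nat_lit 512) (nat_lit 452) (nat_lit 236)) (XT.nd (nat_lit 78) (nat_lit 152) (nat_lit 0) (XT.lf (nat_lit 0) (nat_lit 2547895745382) (nat_lit 76) (nat_lit 1275543873276) (nat_lit 76) (nat_lit 727613740839) (nat_lit 16) (nat_lit 4) (nat_lit 17) (nat_lit 5) (nat_lit 17) (nat_lit 4) (nat_lit 513) (nat_lit 452) (nat_lit 235)) (XT.lf (nat_lit 0) (nat_lit 57147149632) (nat_lit 76) (nat_lit 233755390914) (nat_lit 152) (nat_lit 4539493725268) (nat_lit 14) (nat_lit 5) (nat_lit 15) (nat_lit 5) (nat_lit 16) (nat_lit 4) (nat_lit 514) (nat_lit 452) (nat_lit 234)))))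 (XT.nd (nat_lit 234) (nat_lit 152) (nat_lit 0) (XT.nd (nat_lit 78) (nat_lit 76) (nat_lit 0) (XT.lf (nat_lit 0) (nat_lit 1429220165781) (nat_lit 152) (nat_lit 2773266661088) (nat_lit 0) (nat_lit 921877446518) (nat_lit 14) (nat_lit 5) (nat_lit 16) (nat_lit 4) (nat_lit 14) (nat_lit 4) (nat_lit 515) (nat_lit 452) (nat_lit 233)) (XT.nd (nat_lit 78) (nat_lit 76) (nat_lit 0) (XT.lf (nat_lit 0) (nat_lit 2664674761059) (nat_lit 152) (nat_lit 619357195709) (nat_lit 0) (nat_lit 2157332039997) (nat_lit 14) (nat_lit 5) (nat_lit 16) (nat_lit 4) (nat_lit 14) (nat_lit 4) (nat_lit 516) (nat_lit 452) (nat_lit 232)) (XT.lf (nat_lit 0) (nat_lit 1796745497308) (nat_lit 76) (nat_lit 2245431991137) (nat_lit 76) (nat_lit 1738089268408) (nat_lit 13) (nat_lit 4) (nat_lit 14) (nat_lit 5) (nat_lit 14) (nat_lit 4) (nat_lit 517) (nat_lit 452) (nat_lit 231)))) (XT.nd (nat_lit 78) (nat_lit 152) (nat_lit 0) (XT.lf (nat_lit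 0) (nat_lit 4441359782466) (nat_lit 76) (nat_lit 1105454967154) (nat_lit 76) (nat_lit 598112242882) (nat_lit 13) (nat_lit 4) (nat_lit 14) (nat_lit 5) (nat_lit 14) (nat_lit 4) (nat_lit 518) (nat_lit 452) (nat_lit 230)) (XT.nd (nat_lit 78) (nat_lit 0) (nat_lit 0) (XT.lf (nat_lit 0) (nat_lit 624126792234) (nat_lit 152) (nat_lit 5757231653668) (nat_lit 0) (nat_lit 154365009179) (nat_lit 11) (nat_lit 5) (nat_lit 13) (nat_lit 4) (nat_lit 11) (nat_lit 4) (nat_lit 519) (nat_lit 452) (nat_lit 229)) (XT.lf (nat_lit 0) (nat_lit 1988332841241) (nat_lit 152) (nat_lit 3443516786825) (nat_lit 0) (nat_lit 1518571056960) (nat_lit 11) (nat_lit 5) (nat_lit 13) (nat_lit 4) (nat_lit 11) (nat_lit 4) (nat_lit 520) (nat_lit 452) (nat_lit 228)))))) (XT.nd (nat_lit 468) (nat_lit 76) (nat_lit 0) (XT.nd (nat_lit 234) (nat_lit 152) (nat_lit 0) (XT.nd (nat_lit 78) (nat_lit 76) (nat_lit 0) (XT.lf (nat_lit 0) (nat_lit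 3461675367380) (nat_lit 152) (nat_lit 944704744565) (nat_lit 0) (nat_lit 2991913581965) (nat_lit 11) (nat_lit 5) (nat_lit 13) (nat_lit 4) (nat_lit 11) (nat_lit 4) (nat_lit 521) (nat_lit 452) (nat_lit 227)) (XT.nd (nat_lit 78) (nat_lit 0) (nat_lit 0) (XT.lf (nat_lit 0) (nat_lit 1846375424789) (nat_lit 76) (nat_lit 3250915237907) (nat_lit 76) (nat_lit 2781153451442) (nat_lit 10) (nat_lit 4) (nat_lit 11) (nat_lit 5) (nat_lit 11) (nat_lit 4) (nat_lit 522) (nat_lit 452) (nat_lit 226)) (XT.lf (nat_lit 0) (nat_lit 4914468191024) (nat_lit 76) (nat_lit 1975116886368) (nat_lit 76) (nat_lit 1505355098932) (nat_lit 10) (nat_lit 4) (nat_lit 11) (nat_lit 5) (nat_lit 11) (nat_lit 4) (nat_lit 523) (nat_lit 452) (nat_lit 225)))) (XT.nd (nat_lit 78) (nat_lit 152) (nat_lit 0) (XT.lf (nat_lit 0) (nat_lit 8228008366917) (nat_lit 76) (nat_lit 597254672679) (nat_lit 76) (nat_lit 127492884342) (nat_lit 10) (nat_lit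 4) (nat_lit 11) (nat_lit 5) (nat_lit 11) (nat_lit 4) (nat_lit 524) (nat_lit 452) (nat_lit 224)) (XT.nd (nat_lit 78) (nat_lit 0) (nat_lit 0) (XT.lf (nat_lit 0) (nat_lit 1372439130135) (nat_lit 152) (nat_lit 7236273220091) (nat_lit 0) (nat_lit 937474510533) (nat_lit 8) (nat_lit 5) (nat_lit 10) (nat_lit 4) (nat_lit 8) (nat_lit 4) (nat_lit 525) (nat_lit 452) (nat_lit 223)) (XT.lf (nat_lit 0) (nat_lit 3021321462335) (nat_lit 152) (nat_lit 4576281553186) (nat_lit 0) (nat_lit 2586356842019) (nat_lit 8) (nat_lit 5) (nat_lit 10) (nat_lit 4) (nat_lit 8) (nat_lit 4) (nat_lit 526) (nat_lit 452) (nat_lit 222))))) (XT.nd (nat_lit 234) (nat_lit 0) (nat_lit 0) (XT.nd (nat_lit 78) (nat_lit 76) (nat_lit 0) (XT.lf (nat_lit 0) (nat_lit 4802114376132) (nat_lit 152) (nat_lit 1703490563177) (nat_lit 0) (nat_lit 4367149755154) (nat_lit 8) (nat_lit 5) (nat_lit 10) (nat_lit 4) (nat_lit 8) (nat_lit 4) (nat_lit 527)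 (nat_lit 452) (nat_lit 221)) (XT.nd (nat_lit 78) (nat_lit 0) (nat_lit 0) (XT.lf (nat_lit 0) (nat_lit 1472799070943) (nat_lit 76) (nat_lit 5287992500555) (nat_lit 76) (nat_lit 4853027878964) (nat_lit 7) (nat_lit 4) (nat_lit 8) (nat_lit 5) (nat_lit 8) (nat_lit 4) (nat_lit 528) (nat_lit 452) (nat_lit 220)) (XT.lf (nat_lit 0) (nat_lit 5000070884294) (nat_lit 76) (nat_lit 3922668504549) (nat_lit 76) (nat_lit 3487703882390) (nat_lit 7) (nat_lit 4) (nat_lit 8) (nat_lit 5) (nat_lit 8) (nat_lit 4) (nat_lit 529) (nat_lit 452) (nat_lit 219)))) (XT.nd (nat_lit 56550) (nat_lit 0) (nat_lit 5624) (XT.nd (nat_lit 56472) (nat_lit 0) (nat_lit 5624) (XT.lf (nat_lit 0) (nat_lit 8809524434149) (nat_lit 76) (nat_lit 2448118593267) (nat_lit 76) (nat_lit 2013153970583) (nat_lit 7) (nat_lit 4) (nat_lit 8) (nat_lit 5) (nat_lit 8) (nat_lit 4) (nat_lit 530) (nat_lit 452) (nat_lit 218)) (XT.lf (nat_lit 0) (nat_lit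 116279680494) (nat_lit 532) (nat_lit 1843107063) (nat_lit 532) (nat_lit 1843107063) (nat_lit 81) (nat_lit 3) (nat_lit 88) (nat_lit 3) (nat_lit 88) (nat_lit 5) (nat_lit 453) (nat_lit 453) (nat_lit 294))) (XT.nd (nat_lit 78) (nat_lit 0) (nat_lit 0) (XT.lf (nat_lit 76) (nat_lit 121393278637) (nat_lit 0) (nat_lit 123389039831) (nat_lit 532) (nat_lit 4513095410) (nat_lit 82) (nat_lit 5) (nat_lit 81) (nat_lit 3) (nat_lit 88) (nat_lit 5) (nat_lit 454) (nat_lit 453) (nat_lit 293)) (XT.lf (nat_lit 76) (nat_lit 256688708118) (nat_lit 0) (nat_lit 1395083362) (nat_lit 532) (nat_lit 1316282724) (nat_lit 82) (nat_lit 5) (nat_lit 81) (nat_lit 3) (nat_lit 88) (nat_lit 5) (nat_lit 455) (nat_lit 453) (nat_lit 292))))))) (XT.nd (nat_lit 936) (nat_lit 1292) (nat_lit 0) (XT.nd (nat_lit 468) (nat_lit 684) (nat_lit 0) (XT.nd (nat_lit 234) (nat_lit 304) (nat_lit 0) (XT.nd (nat_lit 78) (nat_lit 0) (nat_lit 0) (XT.lf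 (nat_lit 0) (nat_lit 8605848220) (nat_lit 532) (nat_lit 133846863858) (nat_lit 608) (nat_lit 127330170035) (nat_lit 75) (nat_lit 5) (nat_lit 82) (nat_lit 5) (nat_lit 83) (nat_lit 5) (nat_lit 456) (nat_lit 453) (nat_lit 291)) (XT.nd (nat_lit 78) (nat_lit 0) (nat_lit 76) (XT.lf (nat_lit 76) (nat_lit 5017587556) (nat_lit 0) (nat_lit 14465920561) (nat_lit 608) (nat_lit 261491441673) (nat_lit 76) (nat_lit 5) (nat_lit 75) (nat_lit 5) (nat_lit 83) (nat_lit 5) (nat_lit 457) (nat_lit 453) (nat_lit 290)) (XT.lf (nat_lit 0) (nat_lit 37962382458) (nat_lit 532) (nat_lit 133237985654) (nat_lit 608) (nat_lit 121323534656) (nat_lit 76) (nat_lit 5) (nat_lit 83) (nat_lit 5) (nat_lit 84) (nat_lit 5) (nat_lit 458) (nat_lit 453) (nat_lit 289)))) (XT.nd (nat_lit 78) (nat_lit 380) (nat_lit 0) (XT.lf (nat_lit 76) (nat_lit 21603845136) (nat_lit 0) (nat_lit 37210949350) (nat_lit 608) (nat_lit 246110359302) (nat_lit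 77) (nat_lit 5) (nat_lit 76) (nat_lit 5) (nat_lit 84) (nat_lit 5) (nat_lit 459) (nat_lit 453) (nat_lit 288)) (XT.nd (nat_lit 78) (nat_lit 456) (nat_lit 0) (XT.lf (nat_lit 0) (nat_lit 87658226311) (nat_lit 532) (nat_lit 124296700391) (nat_lit 76) (nat_lit 105857752057) (nat_lit 77) (nat_lit 5) (nat_lit 84) (nat_lit 5) (nat_lit 78) (nat_lit 5) (nat_lit 460) (nat_lit 453) (nat_lit 287)) (XT.lf (nat_lit 0) (nat_lit 48931017139) (nat_lit 456) (nat_lit 72021353037) (nat_lit 532) (nat_lit 210607376569) (nat_lit 71) (nat_lit 5) (nat_lit 77) (nat_lit 5) (nat_lit 78) (nat_lit 5) (nat_lit 461) (nat_lit 453) (nat_lit 286))))) (XT.nd (nat_lit 234) (nat_lit 456) (nat_lit 0) (XT.nd (nat_lit 78) (nat_lit 228) (nat_lit 0) (XT.lf (nat_lit 0) (nat_lit 162299264154) (nat_lit 532) (nat_lit 105039753486) (nat_lit 76) (nat_lit 78636425058) (nat_lit 71) (nat_lit 5) (nat_lit 78) (nat_lit 5) (nat_lit 72) (nat_lit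 5) (nat_lit 462) (nat_lit 453) (nat_lit 285)) (XT.nd (nat_lit 78) (nat_lit 0) (nat_lit 0) (XT.lf (nat_lit 0) (nat_lit 89355513580) (nat_lit 228) (nat_lit 121618018938) (nat_lit 304) (nat_lit 150249291992) (nat_lit 68) (nat_lit 5) (nat_lit 71) (nat_lit 5) (nat_lit 72) (nat_lit 5) (nat_lit 463) (nat_lit 453) (nat_lit 284)) (XT.lf (nat_lit 0) (nat_lit 267348295947) (nat_lit 304) (nat_lit 73118844966) (nat_lit 76) (nat_lit 36918331682) (nat_lit 68) (nat_lit 5) (nat_lit 72) (nat_lit 5) (nat_lit 69) (nat_lit 5) (nat_lit 464) (nat_lit 453) (nat_lit 283)))) (XT.nd (nat_lit 78) (nat_lit 228) (nat_lit 0) (XT.lf (nat_lit 0) (nat_lit 145656870084) (nat_lit 228) (nat_lit 189238074843) (nat_lit 304) (nat_lit 59413235253) (nat_lit 65) (nat_lit 5) (nat_lit 68) (nat_lit 5) (nat_lit 69) (nat_lit 5) (nat_lit 465) (nat_lit 453) (nat_lit 282)) (XT.nd (nat_lit 78) (nat_lit 228) (nat_lit 0) (XT.lf (nat_lit 0)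 (nat_lit 386092912326) (nat_lit 228) (nat_lit 23751558611) (nat_lit 304) (nat_lit 2580301836) (nat_lit 65) (nat_lit 5) (nat_lit 68) (nat_lit 5) (nat_lit 69) (nat_lit 5) (nat_lit 466) (nat_lit 453) (nat_lit 281)) (XT.lf (nat_lit 0) (nat_lit 65137510695) (nat_lit 228) (nat_lit 211809563166) (nat_lit 76) (nat_lit 154188119273) (nat_lit 62) (nat_lit 5) (nat_lit 65) (nat_lit 5) (nat_lit 63) (nat_lit 5) (nat_lit 467) (nat_lit 453) (nat_lit 280)))))) (XT.nd (nat_lit 468) (nat_lit 532) (nat_lit 0) (XT.nd (nat_lit 234) (nat_lit 380) (nat_lit 0) (XT.nd (nat_lit 78) (nat_lit 152) (nat_lit 0) (XT.lf (nat_lit 0) (nat_lit 35943728100) (nat_lit 228) (nat_lit 104409598969) (nat_lit 304) (nat_lit 310806159823) (nat_lit 59) (nat_lit 5) (nat_lit 62) (nat_lit 5) (nat_lit 63) (nat_lit 5) (nat_lit 468) (nat_lit 453) (nat_lit 279)) (XT.nd (nat_lit 78) (nat_lit 152) (nat_lit 0) (XT.lf (nat_lit 0) (nat_lit 229498471930)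 (nat_lit 304) (nat_lit 158880270936) (nat_lit 76) (nat_lit 83774016240) (nat_lit 59) (nat_lit 5) (nat_lit 63) (nat_lit 5) (nat_lit 60) (nat_lit 5) (nat_lit 469) (nat_lit 453) (nat_lit 278)) (XT.lf (nat_lit 0) (nat_lit 121318921598) (nat_lit 152) (nat_lit 210085923718) (nat_lit 228) (nat_lit 162970278433) (nat_lit 57) (nat_lit 5) (nat_lit 59) (nat_lit 5) (nat_lit 60) (nat_lit 5) (nat_lit 470) (nat_lit 453) (nat_lit 277)))) (XT.nd (nat_lit 78) (nat_lit 380) (nat_lit 0) (XT.lf (nat_lit 0) (nat_lit 432969652337) (nat_lit 152) (nat_lit 12838102539) (nat_lit 228) (nat_lit 72220000591) (nat_lit 57) (nat_lit 5) (nat_lit 59) (nat_lit 5) (nat_lit 60) (nat_lit 5) (nat_lit 471) (nat_lit 453) (nat_lit 276)) (XT.nd (nat_lit 78) (nat_lit 152) (nat_lit 0) (XT.lf (nat_lit 0) (nat_lit 35184292278) (nat_lit 228) (nat_lit 310818855980) (nat_lit 76) (nat_lit 196665098641) (nat_lit 54) (nat_lit 5) (nat_lit 57)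 (nat_lit 5) (nat_lit 55) (nat_lit 5) (nat_lit 472) (nat_lit 453) (nat_lit 275)) (XT.lf (nat_lit 0) (nat_lit 7982435933) (nat_lit 152) (nat_lit 142208178673) (nat_lit 228) (nat_lit 418706380161) (nat_lit 52) (nat_lit 5) (nat_lit 54) (nat_lit 5) (nat_lit 55) (nat_lit 5) (nat_lit 473) (nat_lit 453) (nat_lit 274))))) (XT.nd (nat_lit 234) (nat_lit 380) (nat_lit 0) (XT.nd (nat_lit 78) (nat_lit 152) (nat_lit 0) (XT.lf (nat_lit 0) (nat_lit 284989745301) (nat_lit 228) (nat_lit 228673861191) (nat_lit 76) (nat_lit 82713051772) (nat_lit 52) (nat_lit 5) (nat_lit 55) (nat_lit 5) (nat_lit 53) (nat_lit 5) (nat_lit 474) (nat_lit 453) (nat_lit 273)) (XT.nd (nat_lit 78) (nat_lit 0) (nat_lit 0) (XT.lf (nat_lit 0) (nat_lit 133111073750) (nat_lit 152) (nat_lit 304356741393) (nat_lit 228) (nat_lit 188035279004) (nat_lit 50) (nat_lit 5) (nat_lit 52) (nat_lit 5) (nat_lit 53) (nat_lit 5) (nat_lit 475) (nat_lit 453)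 (nat_lit 272)) (XT.lf (nat_lit 0) (nat_lit 536843635380) (nat_lit 152) (nat_lit 71552810341) (nat_lit 228) (nat_lit 48063013975) (nat_lit 50) (nat_lit 5) (nat_lit 52) (nat_lit 5) (nat_lit 53) (nat_lit 5) (nat_lit 476) (nat_lit 453) (nat_lit 271)))) (XT.nd (nat_lit 156) (nat_lit 76) (nat_lit 0) (XT.nd (nat_lit 78) (nat_lit 152) (nat_lit 0) (XT.lf (nat_lit 0) (nat_lit 109625369842) (nat_lit 152) (nat_lit 398427254541) (nat_lit 76) (nat_lit 180707238466) (nat_lit 48) (nat_lit 5) (nat_lit 50) (nat_lit 5) (nat_lit 49) (nat_lit 5) (nat_lit 477) (nat_lit 453) (nat_lit 270)) (XT.lf (nat_lit 0) (nat_lit 14005629756) (nat_lit 152) (nat_lit 268877319551) (nat_lit 228) (nat_lit 440217415667) (nat_lit 46) (nat_lit 5) (nat_lit 48) (nat_lit 5) (nat_lit 49) (nat_lit 5) (nat_lit 478) (nat_lit 453) (nat_lit 269))) (XT.nd (nat_lit 78) (nat_lit 76) (nat_lit 0) (XT.lf (nat_lit 0) (nat_lit 480923604868) (nat_lit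 228) (nat_lit 277253400168) (nat_lit 76) (nat_lit 1137304656) (nat_lit 46) (nat_lit 5) (nat_lit 49) (nat_lit 5) (nat_lit 47) (nat_lit 4) (nat_lit 479) (nat_lit 453) (nat_lit 268)) (XT.lf (nat_lit 0) (nat_lit 191743134986) (nat_lit 76) (nat_lit 514659603148) (nat_lit 152) (nat_lit 91095013838) (nat_lit 45) (nat_lit 5) (nat_lit 46) (nat_lit 5) (nat_lit 47) (nat_lit 4) (nat_lit 480) (nat_lit 453) (nat_lit 267))))))))
noncomputable def xc206 : XT := (XT.nd (nat_lit 1950) (nat_lit 1140) (nat_lit 0) (XT.nd (nat_lit 936) (nat_lit 836) (nat_lit 0) (XT.nd (nat_lit 468) (nat_lit 456) (nat_lit 0) (XT.nd (nat_lit 234) (nat_lit 152) (nat_lit 0) (XT.nd (nat_lit 78) (nat_lit 228) (nat_lit 0) (XT.lf (nat_lit 0) (nat_lit 113399911816) (nat_lit 152) (nat_lit 126973315396) (nat_lit 76) (nat_lit 597526525954) (nat_lit 44) (nat_lit 5) (nat_lit 46) (nat_lit 5) (nat_lit 45) (nat_lit 5) (nat_lit 481) (nat_lit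 453) (nat_lit 266)) (XT.nd (nat_lit 78) (nat_lit 76) (nat_lit 0) (XT.lf (nat_lit 0) (nat_lit 340808986697) (nat_lit 228) (nat_lit 474056817822) (nat_lit 76) (nat_lit 65560737438) (nat_lit 42) (nat_lit 5) (nat_lit 45) (nat_lit 5) (nat_lit 43) (nat_lit 4) (nat_lit 482) (nat_lit 453) (nat_lit 265)) (XT.lf (nat_lit 0) (nat_lit 60201390027) (nat_lit 76) (nat_lit 537462526212) (nat_lit 152) (nat_lit 327791307318) (nat_lit 41) (nat_lit 5) (nat_lit 42) (nat_lit 5) (nat_lit 43) (nat_lit 4) (nat_lit 483) (nat_lit 453) (nat_lit 264)))) (XT.nd (nat_lit 78) (nat_lit 152) (nat_lit 0) (XT.lf (nat_lit 0) (nat_lit 664160241482) (nat_lit 76) (nat_lit 223868527486) (nat_lit 152) (nat_lit 85020508415) (nat_lit 41) (nat_lit 5) (nat_lit 42) (nat_lit 5) (nat_lit 43) (nat_lit 4) (nat_lit 484) (nat_lit 453) (nat_lit 263)) (XT.nd (nat_lit 78) (nat_lit 0) (nat_lit 0) (XT.lf (nat_lit 0) (nat_lit 178654350453) (nat_lit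 152) (nat_lit 723713429824) (nat_lit 76) (nat_lit 120914575679) (nat_lit 39) (nat_lit 5) (nat_lit 41) (nat_lit 5) (nat_lit 40) (nat_lit 4) (nat_lit 485) (nat_lit 453) (nat_lit 262)) (XT.lf (nat_lit 0) (nat_lit 473309565245) (nat_lit 152) (nat_lit 110830616572) (nat_lit 76) (nat_lit 492058858366) (nat_lit 39) (nat_lit 5) (nat_lit 41) (nat_lit 5) (nat_lit 40) (nat_lit 4) (nat_lit 486) (nat_lit 453) (nat_lit 261))))) (XT.nd (nat_lit 234) (nat_lit 228) (nat_lit 0) (XT.nd (nat_lit 78) (nat_lit 152) (nat_lit 0) (XT.lf (nat_lit 0) (nat_lit 580101825045) (nat_lit 76) (nat_lit 225386813590) (nat_lit 152) (nat_lit 326744305202) (nat_lit 38) (nat_lit 5) (nat_lit 39) (nat_lit 5) (nat_lit 40) (nat_lit 4) (nat_lit 487) (nat_lit 453) (nat_lit 260)) (XT.nd (nat_lit 78) (nat_lit 76) (nat_lit 0) (XT.lf (nat_lit 0) (nat_lit 143296577264) (nat_lit 76) (nat_lit 1031398451290) (nat_lit 76) (nat_lit 17218291980)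 (nat_lit 37) (nat_lit 4) (nat_lit 38) (nat_lit 5) (nat_lit 38) (nat_lit 4) (nat_lit 488) (nat_lit 453) (nat_lit 259)) (XT.lf (nat_lit 0) (nat_lit 322551221976) (nat_lit 152) (nat_lit 343273642235) (nat_lit 76) (nat_lit 588225817421) (nat_lit 36) (nat_lit 5) (nat_lit 38) (nat_lit 5) (nat_lit 37) (nat_lit 4) (nat_lit 489) (nat_lit 453) (nat_lit 258)))) (XT.nd (nat_lit 78) (nat_lit 152) (nat_lit 0) (XT.lf (nat_lit 0) (nat_lit 440063394993) (nat_lit 76) (nat_lit 259092182771) (nat_lit 152) (nat_lit 621120994327) (nat_lit 35) (nat_lit 5) (nat_lit 36) (nat_lit 5) (nat_lit 37) (nat_lit 4) (nat_lit 490) (nat_lit 453) (nat_lit 257)) (XT.nd (nat_lit 78) (nat_lit 152) (nat_lit 0) (XT.lf (nat_lit 0) (nat_lit 1119851069054) (nat_lit 152) (nat_lit 90037139272) (nat_lit 0) (nat_lit 180795302500) (nat_lit 35) (nat_lit 5) (nat_lit 37) (nat_lit 4) (nat_lit 35) (nat_lit 4) (nat_lit 491) (nat_lit 453) (nat_lit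 256)) (XT.lf (nat_lit 0) (nat_lit 128659648346) (nat_lit 152) (nat_lit 671443716101) (nat_lit 76) (nat_lit 664288290196) (nat_lit 33) (nat_lit 5) (nat_lit 35) (nat_lit 5) (nat_lit 34) (nat_lit 4) (nat_lit 492) (nat_lit 453) (nat_lit 255)))))) (XT.nd (nat_lit 468) (nat_lit 456) (nat_lit 0) (XT.nd (nat_lit 234) (nat_lit 228) (nat_lit 0) (XT.nd (nat_lit 78) (nat_lit 76) (nat_lit 0) (XT.lf (nat_lit 0) (nat_lit 211367688942) (nat_lit 76) (nat_lit 341720527582) (nat_lit 152) (nat_lit 989736736948) (nat_lit 32) (nat_lit 5) (nat_lit 33) (nat_lit 5) (nat_lit 34) (nat_lit 4) (nat_lit 493) (nat_lit 453) (nat_lit 254)) (XT.nd (nat_lit 78) (nat_lit 76) (nat_lit 0) (XT.lf (nat_lit 0) (nat_lit 1033994017492) (nat_lit 152) (nat_lit 427239172246) (nat_lit 0) (nat_lit 164497890682) (nat_lit 32) (nat_lit 5) (nat_lit 34) (nat_lit 4) (nat_lit 32) (nat_lit 4) (nat_lit 494) (nat_lit 453) (nat_lit 253)) (XT.lf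 (nat_lit 0) (nat_lit 568899115472) (nat_lit 76) (nat_lit 1007031045932) (nat_lit 76) (nat_lit 137534905812) (nat_lit 31) (nat_lit 4) (nat_lit 32) (nat_lit 5) (nat_lit 32) (nat_lit 4) (nat_lit 495) (nat_lit 453) (nat_lit 252)))) (XT.nd (nat_lit 78) (nat_lit 152) (nat_lit 0) (XT.lf (nat_lit 0) (nat_lit 347329637656) (nat_lit 152) (nat_lit 147050506119) (nat_lit 76) (nat_lit 1312199659938) (nat_lit 30) (nat_lit 5) (nat_lit 32) (nat_lit 5) (nat_lit 31) (nat_lit 4) (nat_lit 496) (nat_lit 453) (nat_lit 251)) (XT.nd (nat_lit 78) (nat_lit 76) (nat_lit 0) (XT.lf (nat_lit 0) (nat_lit 889141382397) (nat_lit 152) (nat_lit 931617128522) (nat_lit 0) (nat_lit 84052341790) (nat_lit 29) (nat_lit 5) (nat_lit 31) (nat_lit 4) (nat_lit 29) (nat_lit 4) (nat_lit 497) (nat_lit 453) (nat_lit 250)) (XT.lf (nat_lit 0) (nat_lit 176737258977) (nat_lit 76) (nat_lit 1318777423873) (nat_lit 76) (nat_lit 513688373483)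 (nat_lit 28) (nat_lit 4) (nat_lit 29) (nat_lit 5) (nat_lit 29) (nat_lit 4) (nat_lit 498) (nat_lit 453) (nat_lit 249))))) (XT.nd (nat_lit 234) (nat_lit 304) (nat_lit 0) (XT.nd (nat_lit 78) (nat_lit 76) (nat_lit 0) (XT.lf (nat_lit 0) (nat_lit 53161626567) (nat_lit 152) (nat_lit 694512876187) (nat_lit 76) (nat_lit 1372126700487) (nat_lit 27) (nat_lit 5) (nat_lit 29) (nat_lit 5) (nat_lit 28) (nat_lit 4) (nat_lit 499) (nat_lit 453) (nat_lit 248)) (XT.nd (nat_lit 78) (nat_lit 0) (nat_lit 0) (XT.lf (nat_lit 0) (nat_lit 548575672909) (nat_lit 76) (nat_lit 102224683218) (nat_lit 152) (nat_lit 1586323981825) (nat_lit 26) (nat_lit 5) (nat_lit 27) (nat_lit 5) (nat_lit 28) (nat_lit 4) (nat_lit 500) (nat_lit 453) (nat_lit 247)) (XT.lf (nat_lit 0) (nat_lit 1330039033631) (nat_lit 152) (nat_lit 446504995992) (nat_lit 0) (nat_lit 584586185850) (nat_lit 26) (nat_lit 5) (nat_lit 28) (nat_lit 4) (nat_lit 26)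 (nat_lit 4) (nat_lit 501) (nat_lit 453) (nat_lit 246)))) (XT.nd (nat_lit 156) (nat_lit 152) (nat_lit 0) (XT.nd (nat_lit 78) (nat_lit 76) (nat_lit 0) (XT.lf (nat_lit 0) (nat_lit 939231097894) (nat_lit 76) (nat_lit 1149629411701) (nat_lit 76) (nat_lit 404176557262) (nat_lit 25) (nat_lit 4) (nat_lit 26) (nat_lit 5) (nat_lit 26) (nat_lit 4) (nat_lit 502) (nat_lit 453) (nat_lit 245)) (XT.lf (nat_lit 0) (nat_lit 271765434550) (nat_lit 152) (nat_lit 180180756739) (nat_lit 76) (nat_lit 2182023206022) (nat_lit 24) (nat_lit 5) (nat_lit 26) (nat_lit 5) (nat_lit 25) (nat_lit 4) (nat_lit 503) (nat_lit 453) (nat_lit 244))) (XT.nd (nat_lit 78) (nat_lit 76) (nat_lit 0) (XT.lf (nat_lit 0) (nat_lit 1021051909546) (nat_lit 152) (nat_lit 1430178370710) (nat_lit 0) (nat_lit 330817774072) (nat_lit 23) (nat_lit 5) (nat_lit 25) (nat_lit 4) (nat_lit 23) (nat_lit 4) (nat_lit 504) (nat_lit 453) (nat_lit 243)) (XT.lf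 (nat_lit 0) (nat_lit 66617966096) (nat_lit 76) (nat_lit 1782058771680) (nat_lit 76) (nat_lit 1091824631312) (nat_lit 22) (nat_lit 4) (nat_lit 23) (nat_lit 5) (nat_lit 23) (nat_lit 4) (nat_lit 505) (nat_lit 453) (nat_lit 242))))))) (XT.nd (nat_lit 936) (nat_lit 532) (nat_lit 0) (XT.nd (nat_lit 468) (nat_lit 228) (nat_lit 0) (XT.nd (nat_lit 234) (nat_lit 228) (nat_lit 0) (XT.nd (nat_lit 78) (nat_lit 152) (nat_lit 0) (XT.lf (nat_lit 0) (nat_lit 1764493497923) (nat_lit 76) (nat_lit 1017121654016) (nat_lit 76) (nat_lit 326887509116) (nat_lit 22) (nat_lit 4) (nat_lit 23) (nat_lit 5) (nat_lit 23) (nat_lit 4) (nat_lit 506) (nat_lit 453) (nat_lit 241)) (XT.nd (nat_lit 78) (nat_lit 0) (nat_lit 0) (XT.lf (nat_lit 0) (nat_lit 311848052282) (nat_lit 76) (nat_lit 169922236841) (nat_lit 152) (nat_lit 2806613224339) (nat_lit 20) (nat_lit 5) (nat_lit 21) (nat_lit 5) (nat_lit 22) (nat_lit 4) (nat_lit 507)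 (nat_lit 453) (nat_lit 240)) (XT.lf (nat_lit 0) (nat_lit 1393080905289) (nat_lit 152) (nat_lit 1330469825105) (nat_lit 0) (nat_lit 753975208084) (nat_lit 20) (nat_lit 5) (nat_lit 22) (nat_lit 4) (nat_lit 20) (nat_lit 4) (nat_lit 508) (nat_lit 453) (nat_lit 239)))) (XT.nd (nat_lit 78) (nat_lit 152) (nat_lit 0) (XT.lf (nat_lit 0) (nat_lit 466188093388) (nat_lit 76) (nat_lit 1926733666746) (nat_lit 76) (nat_lit 1287627966210) (nat_lit 19) (nat_lit 4) (nat_lit 20) (nat_lit 5) (nat_lit 20) (nat_lit 4) (nat_lit 509) (nat_lit 453) (nat_lit 238)) (XT.nd (nat_lit 78) (nat_lit 152) (nat_lit 0) (XT.lf (nat_lit 0) (nat_lit 2482243623351) (nat_lit 76) (nat_lit 1026883653033) (nat_lit 76) (nat_lit 387777949414) (nat_lit 19) (nat_lit 4) (nat_lit 20) (nat_lit 5) (nat_lit 20) (nat_lit 4) (nat_lit 510) (nat_lit 453) (nat_lit 237)) (XT.lf (nat_lit 0) (nat_lit 542085042189) (nat_lit 76) (nat_lit 25795125437)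 (nat_lit 152) (nat_lit 3560522292967) (nat_lit 17) (nat_lit 5) (nat_lit 18) (nat_lit 5) (nat_lit 19) (nat_lit 4) (nat_lit 511) (nat_lit 453) (nat_lit 236))))) (XT.nd (nat_lit 234) (nat_lit 152) (nat_lit 0) (XT.nd (nat_lit 78) (nat_lit 76) (nat_lit 0) (XT.lf (nat_lit 0) (nat_lit 1644106783139) (nat_lit 152) (nat_lit 1675959406571) (nat_lit 0) (nat_lit 1052342237658) (nat_lit 17) (nat_lit 5) (nat_lit 19) (nat_lit 4) (nat_lit 17) (nat_lit 4) (nat_lit 512) (nat_lit 453) (nat_lit 235)) (XT.nd (nat_lit 78) (nat_lit 0) (nat_lit 0) (XT.lf (nat_lit 0) (nat_lit 406912643903) (nat_lit 76) (nat_lit 2409975137523) (nat_lit 76) (nat_lit 1818210589775) (nat_lit 16) (nat_lit 4) (nat_lit 17) (nat_lit 5) (nat_lit 17) (nat_lit 4) (nat_lit 513) (nat_lit 453) (nat_lit 234)) (XT.lf (nat_lit 0) (nat_lit 2751727737835) (nat_lit 76) (nat_lit 1377587213602) (nat_lit 76) (nat_lit 785822663755) (nat_lit 16) (nat_lit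 4) (nat_lit 17) (nat_lit 5) (nat_lit 17) (nat_lit 4) (nat_lit 514) (nat_lit 453) (nat_lit 233)))) (XT.nd (nat_lit 78) (nat_lit 0) (nat_lit 0) (XT.lf (nat_lit 0) (nat_lit 61719254600) (nat_lit 76) (nat_lit 252455652318) (nat_lit 152) (nat_lit 4902653047109) (nat_lit 14) (nat_lit 5) (nat_lit 15) (nat_lit 5) (nat_lit 16) (nat_lit 4) (nat_lit 515) (nat_lit 453) (nat_lit 232)) (XT.nd (nat_lit 78) (nat_lit 0) (nat_lit 0) (XT.lf (nat_lit 0) (nat_lit 1543557933871) (nat_lit 152) (nat_lit 2995127677341) (nat_lit 0) (nat_lit 995627791658) (nat_lit 14) (nat_lit 5) (nat_lit 16) (nat_lit 4) (nat_lit 14) (nat_lit 4) (nat_lit 516) (nat_lit 453) (nat_lit 231)) (XT.lf (nat_lit 0) (nat_lit 2877848885302) (nat_lit 152) (nat_lit 668905478187) (nat_lit 0) (nat_lit 2329918741547) (nat_lit 14) (nat_lit 5) (nat_lit 16) (nat_lit 4) (nat_lit 14) (nat_lit 4) (nat_lit 517) (nat_lit 453) (nat_lit 230)))))) (XT.nd (nat_lit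 468) (nat_lit 228) (nat_lit 0) (XT.nd (nat_lit 234) (nat_lit 76) (nat_lit 0) (XT.nd (nat_lit 78) (nat_lit 152) (nat_lit 0) (XT.lf (nat_lit 0) (nat_lit 1940485422849) (nat_lit 76) (nat_lit 2425066404283) (nat_lit 76) (nat_lit 1877136259099) (nat_lit 13) (nat_lit 4) (nat_lit 14) (nat_lit 5) (nat_lit 14) (nat_lit 4) (nat_lit 518) (nat_lit 453) (nat_lit 229)) (XT.nd (nat_lit 78) (nat_lit 152) (nat_lit 0) (XT.lf (nat_lit 0) (nat_lit 4796668829652) (nat_lit 76) (nat_lit 1193891229207) (nat_lit 76) (nat_lit 645961082700) (nat_lit 13) (nat_lit 4) (nat_lit 14) (nat_lit 5) (nat_lit 14) (nat_lit 4) (nat_lit 519) (nat_lit 453) (nat_lit 228)) (XT.lf (nat_lit 0) (nat_lit 674057068043) (nat_lit 152) (nat_lit 6217809914187) (nat_lit 0) (nat_lit 166714338662) (nat_lit 11) (nat_lit 5) (nat_lit 13) (nat_lit 4) (nat_lit 11) (nat_lit 4) (nat_lit 520) (nat_lit 453) (nat_lit 227)))) (XT.nd (nat_lit 78) (nat_lit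 76) (nat_lit 0) (XT.lf (nat_lit 0) (nat_lit 2147399591161) (nat_lit 152) (nat_lit 3718997878128) (nat_lit 0) (nat_lit 1640056860729) (nat_lit 11) (nat_lit 5) (nat_lit 13) (nat_lit 4) (nat_lit 11) (nat_lit 4) (nat_lit 521) (nat_lit 453) (nat_lit 226)) (XT.nd (nat_lit 78) (nat_lit 76) (nat_lit 0) (XT.lf (nat_lit 0) (nat_lit 3738609510308) (nat_lit 152) (nat_lit 1020280891127) (nat_lit 0) (nat_lit 3231266778904) (nat_lit 11) (nat_lit 5) (nat_lit 13) (nat_lit 4) (nat_lit 11) (nat_lit 4) (nat_lit 522) (nat_lit 453) (nat_lit 225)) (XT.lf (nat_lit 0) (nat_lit 1994085685876) (nat_lit 76) (nat_lit 3510988340424) (nat_lit 76) (nat_lit 3003645608120) (nat_lit 10) (nat_lit 4) (nat_lit 11) (nat_lit 5) (nat_lit 11) (nat_lit 4) (nat_lit 523) (nat_lit 453) (nat_lit 224))))) (XT.nd (nat_lit 234) (nat_lit 76) (nat_lit 0) (XT.nd (nat_lit 78) (nat_lit 152) (nat_lit 0) (XT.lf (nat_lit 0) (nat_lit 5307625856588)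 (nat_lit 76) (nat_lit 2133126129393) (nat_lit 76) (nat_lit 1625783396256) (nat_lit 10) (nat_lit 4) (nat_lit 11) (nat_lit 5) (nat_lit 11) (nat_lit 4) (nat_lit 524) (nat_lit 453) (nat_lit 223)) (XT.nd (nat_lit 78) (nat_lit 152) (nat_lit 0) (XT.lf (nat_lit 0) (nat_lit 8886249230976) (nat_lit 76) (nat_lit 645034946600) (nat_lit 76) (nat_lit 137692212691) (nat_lit 10) (nat_lit 4) (nat_lit 11) (nat_lit 5) (nat_lit 11) (nat_lit 4) (nat_lit 525) (nat_lit 453) (nat_lit 222)) (XT.lf (nat_lit 0) (nat_lit 1482234357705) (nat_lit 152) (nat_lit 7815174877753) (nat_lit 0) (nat_lit 1012472566387) (nat_lit 8) (nat_lit 5) (nat_lit 10) (nat_lit 4) (nat_lit 8) (nat_lit 4) (nat_lit 526) (nat_lit 453) (nat_lit 221)))) (XT.nd (nat_lit 156) (nat_lit 76) (nat_lit 0) (XT.nd (nat_lit 78) (nat_lit 0) (nat_lit 0) (XT.lf (nat_lit 0) (nat_lit 3263027269285) (nat_lit 152) (nat_lit 4942383892306) (nat_lit 0) (nat_lit 2793265477354)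 (nat_lit 8) (nat_lit 5) (nat_lit 10) (nat_lit 4) (nat_lit 8) (nat_lit 4) (nat_lit 527) (nat_lit 453) (nat_lit 220)) (XT.lf (nat_lit 0) (nat_lit 5186283609522) (nat_lit 152) (nat_lit 1839769636810) (nat_lit 0) (nat_lit 4716521817023) (nat_lit 8) (nat_lit 5) (nat_lit 10) (nat_lit 4) (nat_lit 8) (nat_lit 4) (nat_lit 528) (nat_lit 453) (nat_lit 219))) (XT.nd (nat_lit 56628) (nat_lit 0) (nat_lit 5624) (XT.lf (nat_lit 0) (nat_lit 1590623163699) (nat_lit 76) (nat_lit 5711031814665) (nat_lit 76) (nat_lit 5241270021642) (nat_lit 7) (nat_lit 4) (nat_lit 8) (nat_lit 5) (nat_lit 8) (nat_lit 4) (nat_lit 529) (nat_lit 453) (nat_lit 218)) (XT.lf (nat_lit 0) (nat_lit 125583100928) (nat_lit 532) (nat_lit 1989990651) (nat_lit 532) (nat_lit 1989990651) (nat_lit 81) (nat_lit 3) (nat_lit 88) (nat_lit 3) (nat_lit 88) (nat_lit 5) (nat_lit 454) (nat_lit 454) (nat_lit 292))))))))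
noncomputable def xc207 : XT := (XT.nd (nat_lit 1950) (nat_lit 1748) (nat_lit 0) (XT.nd (nat_lit 936) (nat_lit 1444) (nat_lit 0) (XT.nd (nat_lit 468) (nat_lit 760) (nat_lit 0) (XT.nd (nat_lit 234) (nat_lit 0) (nat_lit 0) (XT.nd (nat_lit 78) (nat_lit 456) (nat_lit 0) (XT.lf (nat_lit 76) (nat_lit 131105842276) (nat_lit 0) (nat_lit 133261025185) (nat_lit 532) (nat_lit 4872021929) (nat_lit 82) (nat_lit 5) (nat_lit 81) (nat_lit 3) (nat_lit 88) (nat_lit 5) (nat_lit 455) (nat_lit 454) (nat_lit 291)) (XT.nd (nat_lit 78) (nat_lit 456) (nat_lit 0) (XT.lf (nat_lit 76) (nat_lit 277224824533) (nat_lit 0) (nat_lit 1507488334) (nat_lit 532) (nat_lit 1419621347) (nat_lit 82) (nat_lit 5) (nat_lit 81) (nat_lit 3) (nat_lit 88) (nat_lit 5) (nat_lit 456) (nat_lit 454) (nat_lit 290)) (XT.lf (nat_lit 0) (nat_lit 9296053879) (nat_lit 532) (nat_lit 144553366153) (nat_lit 608) (nat_lit 137515953215) (nat_lit 75)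 (nat_lit 5) (nat_lit 82) (nat_lit 5) (nat_lit 83) (nat_lit 5) (nat_lit 457) (nat_lit 454) (nat_lit 289)))) (XT.nd (nat_lit 78) (nat_lit 0) (nat_lit 76) (XT.lf (nat_lit 76) (nat_lit 5420209809) (nat_lit 0) (nat_lit 15623617259) (nat_lit 608) (nat_lit 282408987260) (nat_lit 76) (nat_lit 5) (nat_lit 75) (nat_lit 5) (nat_lit 83) (nat_lit 5) (nat_lit 458) (nat_lit 454) (nat_lit 288)) (XT.nd (nat_lit 78) (nat_lit 0) (nat_lit 0) (XT.lf (nat_lit 0) (nat_lit 41000880581) (nat_lit 532) (nat_lit 143895768147) (nat_lit 608) (nat_lit 131029045308) (nat_lit 76) (nat_lit 5) (nat_lit 83) (nat_lit 5) (nat_lit 84) (nat_lit 5) (nat_lit 459) (nat_lit 454) (nat_lit 287)) (XT.lf (nat_lit 76) (nat_lit 23333377300) (nat_lit 0) (nat_lit 40188026053) (nat_lit 608) (nat_lit 265797648387) (nat_lit 77) (nat_lit 5) (nat_lit 76) (nat_lit 5) (nat_lit 84) (nat_lit 5) (nat_lit 460) (nat_lit 454) (nat_lit 286))))) (XT.nd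 (nat_lit 234) (nat_lit 456) (nat_lit 0) (XT.nd (nat_lit 78) (nat_lit 456) (nat_lit 0) (XT.lf (nat_lit 0) (nat_lit 94672199675) (nat_lit 532) (nat_lit 134239192225) (nat_lit 76) (nat_lit 114326195636) (nat_lit 77) (nat_lit 5) (nat_lit 84) (nat_lit 5) (nat_lit 78) (nat_lit 5) (nat_lit 461) (nat_lit 454) (nat_lit 285)) (XT.nd (nat_lit 78) (nat_lit 0) (nat_lit 0) (XT.lf (nat_lit 0) (nat_lit 52846711208) (nat_lit 456) (nat_lit 77783095580) (nat_lit 532) (nat_lit 227454619657) (nat_lit 71) (nat_lit 5) (nat_lit 77) (nat_lit 5) (nat_lit 78) (nat_lit 5) (nat_lit 462) (nat_lit 454) (nat_lit 284)) (XT.lf (nat_lit 0) (nat_lit 175284359150) (nat_lit 532) (nat_lit 113441717503) (nat_lit 76) (nat_lit 84927308892) (nat_lit 71) (nat_lit 5) (nat_lit 78) (nat_lit 5) (nat_lit 72) (nat_lit 5) (nat_lit 463) (nat_lit 454) (nat_lit 283)))) (XT.nd (nat_lit 78) (nat_lit 228) (nat_lit 0) (XT.lf (nat_lit 0) (nat_lit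 96505140137) (nat_lit 228) (nat_lit 131347371886) (nat_lit 304) (nat_lit 162268050457) (nat_lit 68) (nat_lit 5) (nat_lit 71) (nat_lit 5) (nat_lit 72) (nat_lit 5) (nat_lit 464) (nat_lit 454) (nat_lit 282)) (XT.nd (nat_lit 78) (nat_lit 228) (nat_lit 0) (XT.lf (nat_lit 0) (nat_lit 288737177246) (nat_lit 304) (nat_lit 78967175403) (nat_lit 76) (nat_lit 39871876121) (nat_lit 68) (nat_lit 5) (nat_lit 72) (nat_lit 5) (nat_lit 69) (nat_lit 5) (nat_lit 465) (nat_lit 454) (nat_lit 281)) (XT.lf (nat_lit 0) (nat_lit 157310567049) (nat_lit 228) (nat_lit 204376943310) (nat_lit 304) (nat_lit 64165246443) (nat_lit 65) (nat_lit 5) (nat_lit 68) (nat_lit 5) (nat_lit 69) (nat_lit 5) (nat_lit 466) (nat_lit 454) (nat_lit 280)))))) (XT.nd (nat_lit 468) (nat_lit 836) (nat_lit 0) (XT.nd (nat_lit 234) (nat_lit 152) (nat_lit 0) (XT.nd (nat_lit 78) (nat_lit 456) (nat_lit 0) (XT.lf (nat_lit 0) (nat_lit 416981407681)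 (nat_lit 228) (nat_lit 25651518930) (nat_lit 304) (nat_lit 2785755955) (nat_lit 65) (nat_lit 5) (nat_lit 68) (nat_lit 5) (nat_lit 69) (nat_lit 5) (nat_lit 467) (nat_lit 454) (nat_lit 279)) (XT.nd (nat_lit 78) (nat_lit 228) (nat_lit 0) (XT.lf (nat_lit 0) (nat_lit 70349395737) (nat_lit 228) (nat_lit 228753179670) (nat_lit 76) (nat_lit 166523362280) (nat_lit 62) (nat_lit 5) (nat_lit 65) (nat_lit 5) (nat_lit 63) (nat_lit 5) (nat_lit 468) (nat_lit 454) (nat_lit 278)) (XT.lf (nat_lit 0) (nat_lit 38820345821) (nat_lit 228) (nat_lit 112762093029) (nat_lit 304) (nat_lit 335669739194) (nat_lit 59) (nat_lit 5) (nat_lit 62) (nat_lit 5) (nat_lit 63) (nat_lit 5) (nat_lit 469) (nat_lit 454) (nat_lit 277)))) (XT.nd (nat_lit 78) (nat_lit 152) (nat_lit 0) (XT.lf (nat_lit 0) (nat_lit 247859138760) (nat_lit 304) (nat_lit 171589599382) (nat_lit 76) (nat_lit 90476178426) (nat_lit 59) (nat_lit 5) (nat_lit 63)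 (nat_lit 5) (nat_lit 60) (nat_lit 5) (nat_lit 470) (nat_lit 454) (nat_lit 276)) (XT.nd (nat_lit 78) (nat_lit 0) (nat_lit 0) (XT.lf (nat_lit 0) (nat_lit 131025500877) (nat_lit 152) (nat_lit 226892488315) (nat_lit 228) (nat_lit 176007083827) (nat_lit 57) (nat_lit 5) (nat_lit 59) (nat_lit 5) (nat_lit 60) (nat_lit 5) (nat_lit 471) (nat_lit 454) (nat_lit 275)) (XT.lf (nat_lit 0) (nat_lit 467608211146) (nat_lit 152) (nat_lit 13864864353) (nat_lit 228) (nat_lit 77996844267) (nat_lit 57) (nat_lit 5) (nat_lit 59) (nat_lit 5) (nat_lit 60) (nat_lit 5) (nat_lit 472) (nat_lit 454) (nat_lit 274))))) (XT.nd (nat_lit 234) (nat_lit 456) (nat_lit 0) (XT.nd (nat_lit 78) (nat_lit 152) (nat_lit 0) (XT.lf (nat_lit 0) (nat_lit 37999732426) (nat_lit 228) (nat_lit 335683318017) (nat_lit 76) (nat_lit 212398600364) (nat_lit 54) (nat_lit 5) (nat_lit 57) (nat_lit 5) (nat_lit 55) (nat_lit 5) (nat_lit 473) (nat_lit 454)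 (nat_lit 273)) (XT.nd (nat_lit 78) (nat_lit 0) (nat_lit 0) (XT.lf (nat_lit 0) (nat_lit 8622050757) (nat_lit 152) (nat_lit 153584482700) (nat_lit 228) (nat_lit 452202167221) (nat_lit 52) (nat_lit 5) (nat_lit 54) (nat_lit 5) (nat_lit 55) (nat_lit 5) (nat_lit 474) (nat_lit 454) (nat_lit 272)) (XT.lf (nat_lit 0) (nat_lit 307789552802) (nat_lit 228) (nat_lit 246966783794) (nat_lit 76) (nat_lit 89330404010) (nat_lit 52) (nat_lit 5) (nat_lit 55) (nat_lit 5) (nat_lit 53) (nat_lit 5) (nat_lit 475) (nat_lit 454) (nat_lit 271)))) (XT.nd (nat_lit 156) (nat_lit 304) (nat_lit 0) (XT.nd (nat_lit 78) (nat_lit 0) (nat_lit 0) (XT.lf (nat_lit 0) (nat_lit 143760920973) (nat_lit 152) (nat_lit 328704923869) (nat_lit 228) (nat_lit 203077448397) (nat_lit 50) (nat_lit 5) (nat_lit 52) (nat_lit 5) (nat_lit 53) (nat_lit 5) (nat_lit 476) (nat_lit 454) (nat_lit 270)) (XT.lf (nat_lit 0) (nat_lit 579792016324) (nat_lit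 152) (nat_lit 77276704766) (nat_lit 228) (nat_lit 51907450529) (nat_lit 50) (nat_lit 5) (nat_lit 52) (nat_lit 5) (nat_lit 53) (nat_lit 5) (nat_lit 477) (nat_lit 454) (nat_lit 269))) (XT.nd (nat_lit 78) (nat_lit 152) (nat_lit 0) (XT.lf (nat_lit 0) (nat_lit 118395961051) (nat_lit 152) (nat_lit 430300501715) (nat_lit 76) (nat_lit 195164144117) (nat_lit 48) (nat_lit 5) (nat_lit 50) (nat_lit 5) (nat_lit 49) (nat_lit 5) (nat_lit 478) (nat_lit 454) (nat_lit 268)) (XT.lf (nat_lit 0) (nat_lit 15126989701) (nat_lit 152) (nat_lit 290387137446) (nat_lit 228) (nat_lit 475434223614) (nat_lit 46) (nat_lit 5) (nat_lit 48) (nat_lit 5) (nat_lit 49) (nat_lit 5) (nat_lit 479) (nat_lit 454) (nat_lit 267))))))) (XT.nd (nat_lit 1014) (nat_lit 912) (nat_lit 0) (XT.nd (nat_lit 468) (nat_lit 456) (nat_lit 0) (XT.nd (nat_lit 234) (nat_lit 228) (nat_lit 0) (XT.nd (nat_lit 78) (nat_lit 152) (nat_lit 0) (XT.lf (nat_lit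 0) (nat_lit 519398003200) (nat_lit 228) (nat_lit 299432797984) (nat_lit 76) (nat_lit 1228612434) (nat_lit 46) (nat_lit 5) (nat_lit 49) (nat_lit 5) (nat_lit 47) (nat_lit 4) (nat_lit 480) (nat_lit 454) (nat_lit 266)) (XT.nd (nat_lit 78) (nat_lit 76) (nat_lit 0) (XT.lf (nat_lit 0) (nat_lit 207083437852) (nat_lit 76) (nat_lit 555832011994) (nat_lit 152) (nat_lit 98382082819) (nat_lit 45) (nat_lit 5) (nat_lit 46) (nat_lit 5) (nat_lit 47) (nat_lit 4) (nat_lit 481) (nat_lit 454) (nat_lit 265)) (XT.lf (nat_lit 0) (nat_lit 122472372823) (nat_lit 152) (nat_lit 137130366986) (nat_lit 76) (nat_lit 645328956122) (nat_lit 44) (nat_lit 5) (nat_lit 46) (nat_lit 5) (nat_lit 45) (nat_lit 5) (nat_lit 482) (nat_lit 454) (nat_lit 264)))) (XT.nd (nat_lit 78) (nat_lit 76) (nat_lit 0) (XT.lf (nat_lit 0) (nat_lit 368074166286) (nat_lit 228) (nat_lit 511980542157) (nat_lit 76) (nat_lit 70805919976) (nat_lit 42)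 (nat_lit 5) (nat_lit 45) (nat_lit 5) (nat_lit 43) (nat_lit 4) (nat_lit 483) (nat_lit 454) (nat_lit 263)) (XT.nd (nat_lit 78) (nat_lit 0) (nat_lit 0) (XT.lf (nat_lit 0) (nat_lit 65018301532) (nat_lit 76) (nat_lit 580459173785) (nat_lit 152) (nat_lit 354014130425) (nat_lit 41) (nat_lit 5) (nat_lit 42) (nat_lit 5) (nat_lit 43) (nat_lit 4) (nat_lit 484) (nat_lit 454) (nat_lit 262)) (XT.lf (nat_lit 0) (nat_lit 717293801822) (nat_lit 76) (nat_lit 241777681422) (nat_lit 152) (nat_lit 91821703275) (nat_lit 41) (nat_lit 5) (nat_lit 42) (nat_lit 5) (nat_lit 43) (nat_lit 4) (nat_lit 485) (nat_lit 454) (nat_lit 261))))) (XT.nd (nat_lit 234) (nat_lit 228) (nat_lit 0) (XT.nd (nat_lit 78) (nat_lit 76) (nat_lit 0) (XT.lf (nat_lit 0) (nat_lit 192947116557) (nat_lit 152) (nat_lit 781609735380) (nat_lit 76) (nat_lit 130588059020) (nat_lit 39) (nat_lit 5) (nat_lit 41) (nat_lit 5) (nat_lit 40) (nat_lit 4) (nat_lit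 486) (nat_lit 454) (nat_lit 260)) (XT.nd (nat_lit 78) (nat_lit 76) (nat_lit 0) (XT.lf (nat_lit 0) (nat_lit 511174717565) (nat_lit 152) (nat_lit 119696354019) (nat_lit 76) (nat_lit 531423860819) (nat_lit 39) (nat_lit 5) (nat_lit 41) (nat_lit 5) (nat_lit 40) (nat_lit 4) (nat_lit 487) (nat_lit 454) (nat_lit 259)) (XT.lf (nat_lit 0) (nat_lit 626510664907) (nat_lit 76) (nat_lit 243417439933) (nat_lit 152) (nat_lit 352883444471) (nat_lit 38) (nat_lit 5) (nat_lit 39) (nat_lit 5) (nat_lit 40) (nat_lit 4) (nat_lit 488) (nat_lit 454) (nat_lit 258)))) (XT.nd (nat_lit 156) (nat_lit 76) (nat_lit 0) (XT.nd (nat_lit 78) (nat_lit 76) (nat_lit 0) (XT.lf (nat_lit 0) (nat_lit 154761001540) (nat_lit 76) (nat_lit 1113910000513) (nat_lit 76) (nat_lit 18595354404) (nat_lit 37) (nat_lit 4) (nat_lit 38) (nat_lit 5) (nat_lit 38) (nat_lit 4) (nat_lit 489) (nat_lit 454) (nat_lit 257)) (XT.lf (nat_lit 0) (nat_lit 348355672399)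 (nat_lit 152) (nat_lit 370734868639) (nat_lit 76) (nat_lit 635284166890) (nat_lit 36) (nat_lit 5) (nat_lit 38) (nat_lit 5) (nat_lit 37) (nat_lit 4) (nat_lit 490) (nat_lit 454) (nat_lit 256))) (XT.nd (nat_lit 78) (nat_lit 0) (nat_lit 0) (XT.lf (nat_lit 0) (nat_lit 475269114732) (nat_lit 76) (nat_lit 279819251382) (nat_lit 152) (nat_lit 670810304354) (nat_lit 35) (nat_lit 5) (nat_lit 36) (nat_lit 5) (nat_lit 37) (nat_lit 4) (nat_lit 491) (nat_lit 454) (nat_lit 255)) (XT.lf (nat_lit 0) (nat_lit 1209439478179) (nat_lit 152) (nat_lit 97239491738) (nat_lit 0) (nat_lit 195259195869) (nat_lit 35) (nat_lit 5) (nat_lit 37) (nat_lit 4) (nat_lit 35) (nat_lit 4) (nat_lit 492) (nat_lit 454) (nat_lit 254)))))) (XT.nd (nat_lit 468) (nat_lit 456) (nat_lit 0) (XT.nd (nat_lit 234) (nat_lit 228) (nat_lit 0) (XT.nd (nat_lit 78) (nat_lit 76) (nat_lit 0) (XT.lf (nat_lit 0) (nat_lit 138952742522) (nat_lit 152)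 (nat_lit 725158593389) (nat_lit 76) (nat_lit 717431625304) (nat_lit 33) (nat_lit 5) (nat_lit 35) (nat_lit 5) (nat_lit 34) (nat_lit 4) (nat_lit 493) (nat_lit 454) (nat_lit 253)) (XT.nd (nat_lit 78) (nat_lit 0) (nat_lit 0) (XT.lf (nat_lit 0) (nat_lit 228277708361) (nat_lit 76) (nat_lit 369057878452) (nat_lit 152) (nat_lit 1068915337886) (nat_lit 32) (nat_lit 5) (nat_lit 33) (nat_lit 5) (nat_lit 34) (nat_lit 4) (nat_lit 494) (nat_lit 454) (nat_lit 252)) (XT.lf (nat_lit 0) (nat_lit 1116713835163) (nat_lit 152) (nat_lit 461417729777) (nat_lit 0) (nat_lit 177657978199) (nat_lit 32) (nat_lit 5) (nat_lit 34) (nat_lit 4) (nat_lit 32) (nat_lit 4) (nat_lit 495) (nat_lit 454) (nat_lit 251)))) (XT.nd (nat_lit 78) (nat_lit 152) (nat_lit 0) (XT.lf (nat_lit 0) (nat_lit 614411606370) (nat_lit 76) (nat_lit 1087593255780) (nat_lit 76) (nat_lit 148537387405) (nat_lit 31) (nat_lit 4) (nat_lit 32) (nat_lit 5)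 (nat_lit 32) (nat_lit 4) (nat_lit 496) (nat_lit 454) (nat_lit 250)) (XT.nd (nat_lit 78) (nat_lit 76) (nat_lit 0) (XT.lf (nat_lit 0) (nat_lit 375116282113) (nat_lit 152) (nat_lit 158814012144) (nat_lit 76) (nat_lit 1417175871867) (nat_lit 30) (nat_lit 5) (nat_lit 32) (nat_lit 5) (nat_lit 31) (nat_lit 4) (nat_lit 497) (nat_lit 454) (nat_lit 249)) (XT.lf (nat_lit 0) (nat_lit 960272964845) (nat_lit 152) (nat_lit 1006145962741) (nat_lit 0) (nat_lit 90776771582) (nat_lit 29) (nat_lit 5) (nat_lit 31) (nat_lit 4) (nat_lit 29) (nat_lit 4) (nat_lit 498) (nat_lit 454) (nat_lit 248))))) (XT.nd (nat_lit 234) (nat_lit 228) (nat_lit 0) (XT.nd (nat_lit 78) (nat_lit 152) (nat_lit 0) (XT.lf (nat_lit 0) (nat_lit 190876762187) (nat_lit 76) (nat_lit 1424279359576) (nat_lit 76) (nat_lit 554783157925) (nat_lit 28) (nat_lit 4) (nat_lit 29) (nat_lit 5) (nat_lit 29) (nat_lit 4) (nat_lit 499) (nat_lit 454) (nat_lit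 247)) (XT.nd (nat_lit 78) (nat_lit 76) (nat_lit 0) (XT.lf (nat_lit 0) (nat_lit 57414807765) (nat_lit 152) (nat_lit 750073409265) (nat_lit 76) (nat_lit 1481897062378) (nat_lit 27) (nat_lit 5) (nat_lit 29) (nat_lit 5) (nat_lit 28) (nat_lit 4) (nat_lit 500) (nat_lit 454) (nat_lit 246)) (XT.lf (nat_lit 0) (nat_lit 592462211177) (nat_lit 76) (nat_lit 110402417565) (nat_lit 152) (nat_lit 1713229636709) (nat_lit 26) (nat_lit 5) (nat_lit 27) (nat_lit 5) (nat_lit 28) (nat_lit 4) (nat_lit 501) (nat_lit 454) (nat_lit 245)))) (XT.nd (nat_lit 156) (nat_lit 152) (nat_lit 0) (XT.nd (nat_lit 78) (nat_lit 76) (nat_lit 0) (XT.lf (nat_lit 0) (nat_lit 1436442387714) (nat_lit 152) (nat_lit 482224934383) (nat_lit 0) (nat_lit 631353292097) (nat_lit 26) (nat_lit 5) (nat_lit 28) (nat_lit 4) (nat_lit 26) (nat_lit 4) (nat_lit 502) (nat_lit 454) (nat_lit 244)) (XT.lf (nat_lit 0) (nat_lit 1014370035336) (nat_lit 76)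 (nat_lit 1241599540092) (nat_lit 76) (nat_lit 436510438766) (nat_lit 25) (nat_lit 4) (nat_lit 26) (nat_lit 5) (nat_lit 26) (nat_lit 4) (nat_lit 503) (nat_lit 454) (nat_lit 243))) (XT.nd (nat_lit 78) (nat_lit 76) (nat_lit 0) (XT.lf (nat_lit 0) (nat_lit 293506883126) (nat_lit 152) (nat_lit 194594789708) (nat_lit 76) (nat_lit 2356585259151) (nat_lit 24) (nat_lit 5) (nat_lit 26) (nat_lit 5) (nat_lit 25) (nat_lit 4) (nat_lit 504) (nat_lit 454) (nat_lit 242)) (XT.lf (nat_lit 0) (nat_lit 1102736275328) (nat_lit 152) (nat_lit 1544592211997) (nat_lit 0) (nat_lit 357283394304) (nat_lit 23) (nat_lit 5) (nat_lit 25) (nat_lit 4) (nat_lit 23) (nat_lit 4) (nat_lit 505) (nat_lit 454) (nat_lit 241))))))))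
noncomputable def xc208 : XT := (XT.nd (nat_lit 58578) (nat_lit 0) (nat_lit 2888) (XT.nd (nat_lit 936) (nat_lit 456) (nat_lit 0) (XT.nd (nat_lit 468) (nat_lit 380) (nat_lit 0) (XT.nd (nat_lit 234) (nat_lit 76) (nat_lit 0) (XT.nd (nat_lit 78) (nat_lit 152) (nat_lit 0) (XT.lf (nat_lit 0) (nat_lit 71947820909) (nat_lit 76) (nat_lit 1924623263170) (nat_lit 76) (nat_lit 1179170377950) (nat_lit 22) (nat_lit 4) (nat_lit 23) (nat_lit 5) (nat_lit 23) (nat_lit 4) (nat_lit 506) (nat_lit 454) (nat_lit 240)) (XT.nd (nat_lit 78) (nat_lit 152) (nat_lit 0) (XT.lf (nat_lit 0) (nat_lit 1905653364354) (nat_lit 76) (nat_lit 1098491191666) (nat_lit 76) (nat_lit 353038302561) (nat_lit 22) (nat_lit 4) (nat_lit 23) (nat_lit 5) (nat_lit 23) (nat_lit 4) (nat_lit 507) (nat_lit 454) (nat_lit 239)) (XT.lf (nat_lit 0) (nat_lit 336796283385) (nat_lit 76) (nat_lit 183515820502) (nat_lit 152) (nat_lit 3031142075318) (nat_lit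 20) (nat_lit 5) (nat_lit 21) (nat_lit 5) (nat_lit 22) (nat_lit 4) (nat_lit 508) (nat_lit 454) (nat_lit 238)))) (XT.nd (nat_lit 78) (nat_lit 76) (nat_lit 0) (XT.lf (nat_lit 0) (nat_lit 1504527559499) (nat_lit 152) (nat_lit 1436907043005) (nat_lit 0) (nat_lit 814293396506) (nat_lit 20) (nat_lit 5) (nat_lit 22) (nat_lit 4) (nat_lit 20) (nat_lit 4) (nat_lit 509) (nat_lit 454) (nat_lit 237)) (XT.nd (nat_lit 78) (nat_lit 0) (nat_lit 0) (XT.lf (nat_lit 0) (nat_lit 503483499649) (nat_lit 76) (nat_lit 2080872178246) (nat_lit 76) (nat_lit 1390638012397) (nat_lit 19) (nat_lit 4) (nat_lit 20) (nat_lit 5) (nat_lit 20) (nat_lit 4) (nat_lit 510) (nat_lit 454) (nat_lit 236)) (XT.lf (nat_lit 0) (nat_lit 2680823445432) (nat_lit 76) (nat_lit 1109034176907) (nat_lit 76) (nat_lit 418800008413) (nat_lit 19) (nat_lit 4) (nat_lit 20) (nat_lit 5) (nat_lit 20) (nat_lit 4) (nat_lit 511) (nat_lit 454) (nat_lit 235)))))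 (XT.nd (nat_lit 234) (nat_lit 152) (nat_lit 0) (XT.nd (nat_lit 78) (nat_lit 76) (nat_lit 0) (XT.lf (nat_lit 0) (nat_lit 585452177997) (nat_lit 76) (nat_lit 27858566684) (nat_lit 152) (nat_lit 3845363899666) (nat_lit 17) (nat_lit 5) (nat_lit 18) (nat_lit 5) (nat_lit 19) (nat_lit 4) (nat_lit 512) (nat_lit 454) (nat_lit 234)) (XT.nd (nat_lit 78) (nat_lit 76) (nat_lit 0) (XT.lf (nat_lit 0) (nat_lit 1775635481072) (nat_lit 152) (nat_lit 1810035842923) (nat_lit 0) (nat_lit 1136529765138) (nat_lit 17) (nat_lit 5) (nat_lit 19) (nat_lit 4) (nat_lit 17) (nat_lit 4) (nat_lit 513) (nat_lit 454) (nat_lit 233)) (XT.lf (nat_lit 0) (nat_lit 439465963584) (nat_lit 76) (nat_lit 2602772991546) (nat_lit 76) (nat_lit 1963667273669) (nat_lit 16) (nat_lit 4) (nat_lit 17) (nat_lit 5) (nat_lit 17) (nat_lit 4) (nat_lit 514) (nat_lit 454) (nat_lit 232)))) (XT.nd (nat_lit 78) (nat_lit 152) (nat_lit 0) (XT.lf (nat_lit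 0) (nat_lit 2971866242204) (nat_lit 76) (nat_lit 1487794045340) (nat_lit 76) (nat_lit 848688325663) (nat_lit 16) (nat_lit 4) (nat_lit 17) (nat_lit 5) (nat_lit 17) (nat_lit 4) (nat_lit 515) (nat_lit 454) (nat_lit 231)) (XT.nd (nat_lit 78) (nat_lit 0) (nat_lit 0) (XT.lf (nat_lit 0) (nat_lit 66657080459) (nat_lit 76) (nat_lit 272651958868) (nat_lit 152) (nat_lit 5294865139832) (nat_lit 14) (nat_lit 5) (nat_lit 15) (nat_lit 5) (nat_lit 16) (nat_lit 4) (nat_lit 516) (nat_lit 454) (nat_lit 230)) (XT.lf (nat_lit 0) (nat_lit 1667042701320) (nat_lit 152) (nat_lit 3234737620067) (nat_lit 0) (nat_lit 1075278143092) (nat_lit 14) (nat_lit 5) (nat_lit 16) (nat_lit 4) (nat_lit 14) (nat_lit 4) (nat_lit 517) (nat_lit 454) (nat_lit 229)))))) (XT.nd (nat_lit 468) (nat_lit 228) (nat_lit 0) (XT.nd (nat_lit 234) (nat_lit 152) (nat_lit 0) (XT.nd (nat_lit 78) (nat_lit 76) (nat_lit 0) (XT.lf (nat_lit 0) (nat_lit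 3108076919034) (nat_lit 152) (nat_lit 722417665088) (nat_lit 0) (nat_lit 2516312359483) (nat_lit 14) (nat_lit 5) (nat_lit 16) (nat_lit 4) (nat_lit 14) (nat_lit 4) (nat_lit 518) (nat_lit 454) (nat_lit 228)) (XT.nd (nat_lit 78) (nat_lit 0) (nat_lit 0) (XT.lf (nat_lit 0) (nat_lit 2095724501668) (nat_lit 76) (nat_lit 2619071591330) (nat_lit 76) (nat_lit 2027307030555) (nat_lit 13) (nat_lit 4) (nat_lit 14) (nat_lit 5) (nat_lit 14) (nat_lit 4) (nat_lit 519) (nat_lit 454) (nat_lit 227)) (XT.lf (nat_lit 0) (nat_lit 5180402562868) (nat_lit 76) (nat_lit 1289402411529) (nat_lit 76) (nat_lit 697637849620) (nat_lit 13) (nat_lit 4) (nat_lit 14) (nat_lit 5) (nat_lit 14) (nat_lit 4) (nat_lit 520) (nat_lit 454) (nat_lit 226)))) (XT.nd (nat_lit 78) (nat_lit 0) (nat_lit 0) (XT.lf (nat_lit 0) (nat_lit 727981747025) (nat_lit 152) (nat_lit 6715234474318) (nat_lit 0) (nat_lit 180051596137) (nat_lit 11) (nat_lit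 5) (nat_lit 13) (nat_lit 4) (nat_lit 11) (nat_lit 4) (nat_lit 521) (nat_lit 454) (nat_lit 225)) (XT.nd (nat_lit 78) (nat_lit 0) (nat_lit 0) (XT.lf (nat_lit 0) (nat_lit 2319191663581) (nat_lit 152) (nat_lit 4016517492634) (nat_lit 0) (nat_lit 1771261511793) (nat_lit 11) (nat_lit 5) (nat_lit 13) (nat_lit 4) (nat_lit 11) (nat_lit 4) (nat_lit 522) (nat_lit 454) (nat_lit 224)) (XT.lf (nat_lit 0) (nat_lit 4037698368473) (nat_lit 152) (nat_lit 1101903162655) (nat_lit 0) (nat_lit 3489768215851) (nat_lit 11) (nat_lit 5) (nat_lit 13) (nat_lit 4) (nat_lit 11) (nat_lit 4) (nat_lit 523) (nat_lit 454) (nat_lit 223))))) (XT.nd (nat_lit 234) (nat_lit 152) (nat_lit 0) (XT.nd (nat_lit 78) (nat_lit 0) (nat_lit 0) (XT.lf (nat_lit 0) (nat_lit 2153612735452) (nat_lit 76) (nat_lit 3791867307766) (nat_lit 76) (nat_lit 3243937154372) (nat_lit 10) (nat_lit 4) (nat_lit 11) (nat_lit 5) (nat_lit 11) (nat_lit 4) (nat_lit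 524) (nat_lit 454) (nat_lit 222)) (XT.nd (nat_lit 78) (nat_lit 0) (nat_lit 0) (XT.lf (nat_lit 0) (nat_lit 5732236105398) (nat_lit 76) (nat_lit 2303776127251) (nat_lit 76) (nat_lit 1755845973143) (nat_lit 10) (nat_lit 4) (nat_lit 11) (nat_lit 5) (nat_lit 11) (nat_lit 4) (nat_lit 525) (nat_lit 454) (nat_lit 221)) (XT.lf (nat_lit 0) (nat_lit 9597149336383) (nat_lit 76) (nat_lit 696637656686) (nat_lit 76) (nat_lit 148707501916) (nat_lit 10) (nat_lit 4) (nat_lit 11) (nat_lit 5) (nat_lit 11) (nat_lit 4) (nat_lit 526) (nat_lit 454) (nat_lit 220)))) (XT.nd (nat_lit 156) (nat_lit 0) (nat_lit 0) (XT.nd (nat_lit 78) (nat_lit 0) (nat_lit 0) (XT.lf (nat_lit 0) (nat_lit 1600813189621) (nat_lit 152) (nat_lit 8440388696553) (nat_lit 0) (nat_lit 1093470453155) (nat_lit 8) (nat_lit 5) (nat_lit 10) (nat_lit 4) (nat_lit 8) (nat_lit 4) (nat_lit 527) (nat_lit 454) (nat_lit 219)) (XT.lf (nat_lit 0) (nat_lit 3524069527957)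 (nat_lit 152) (nat_lit 5337774444968) (nat_lit 0) (nat_lit 3016726790966) (nat_lit 8) (nat_lit 5) (nat_lit 10) (nat_lit 4) (nat_lit 8) (nat_lit 4) (nat_lit 528) (nat_lit 454) (nat_lit 218))) (XT.nd (nat_lit 56706) (nat_lit 0) (nat_lit 5548) (XT.lf (nat_lit 0) (nat_lit 5601186369699) (nat_lit 152) (nat_lit 1986951060789) (nat_lit 0) (nat_lit 5093843632222) (nat_lit 8) (nat_lit 5) (nat_lit 10) (nat_lit 4) (nat_lit 8) (nat_lit 4) (nat_lit 529) (nat_lit 454) (nat_lit 217)) (XT.lf (nat_lit 0) (nat_lit 135630645774) (nat_lit 532) (nat_lit 2148705526) (nat_lit 532) (nat_lit 2148705526) (nat_lit 81) (nat_lit 3) (nat_lit 88) (nat_lit 3) (nat_lit 88) (nat_lit 5) (nat_lit 455) (nat_lit 455) (nat_lit 290))))))) (XT.nd (nat_lit 936) (nat_lit 1444) (nat_lit 0) (XT.nd (nat_lit 468) (nat_lit 760) (nat_lit 0) (XT.nd (nat_lit 234) (nat_lit 0) (nat_lit 0) (XT.nd (nat_lit 78) (nat_lit 456) (nat_lit 0) (XT.lf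 (nat_lit 76) (nat_lit 141595253886) (nat_lit 0) (nat_lit 143922646369) (nat_lit 532) (nat_lit 5259965170) (nat_lit 82) (nat_lit 5) (nat_lit 81) (nat_lit 3) (nat_lit 88) (nat_lit 5) (nat_lit 456) (nat_lit 455) (nat_lit 289)) (XT.nd (nat_lit 78) (nat_lit 456) (nat_lit 0) (XT.lf (nat_lit 76) (nat_lit 299403684781) (nat_lit 0) (nat_lit 1628771817) (nat_lit 532) (nat_lit 1531507247) (nat_lit 82) (nat_lit 5) (nat_lit 81) (nat_lit 3) (nat_lit 88) (nat_lit 5) (nat_lit 457) (nat_lit 455) (nat_lit 288)) (XT.lf (nat_lit 0) (nat_lit 10041228074) (nat_lit 532) (nat_lit 156116566503) (nat_lit 608) (nat_lit 148516688986) (nat_lit 75) (nat_lit 5) (nat_lit 82) (nat_lit 5) (nat_lit 83) (nat_lit 5) (nat_lit 458) (nat_lit 455) (nat_lit 287)))) (XT.nd (nat_lit 78) (nat_lit 0) (nat_lit 76) (XT.lf (nat_lit 76) (nat_lit 5854868474) (nat_lit 0) (nat_lit 16873869340) (nat_lit 608) (nat_lit 305000188967) (nat_lit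 76) (nat_lit 5) (nat_lit 75) (nat_lit 5) (nat_lit 83) (nat_lit 5) (nat_lit 459) (nat_lit 455) (nat_lit 286)) (XT.nd (nat_lit 78) (nat_lit 0) (nat_lit 0) (XT.lf (nat_lit 0) (nat_lit 44282243488) (nat_lit 532) (nat_lit 155406352473) (nat_lit 608) (nat_lit 141511049899) (nat_lit 76) (nat_lit 5) (nat_lit 83) (nat_lit 5) (nat_lit 84) (nat_lit 5) (nat_lit 460) (nat_lit 455) (nat_lit 285)) (XT.lf (nat_lit 76) (nat_lit 25201097341) (nat_lit 0) (nat_lit 43403240252) (nat_lit 608) (nat_lit 287060140248) (nat_lit 77) (nat_lit 5) (nat_lit 76) (nat_lit 5) (nat_lit 84) (nat_lit 5) (nat_lit 461) (nat_lit 455) (nat_lit 284))))) (XT.nd (nat_lit 234) (nat_lit 456) (nat_lit 0) (XT.nd (nat_lit 78) (nat_lit 456) (nat_lit 0) (XT.lf (nat_lit 0) (nat_lit 102247103272) (nat_lit 532) (nat_lit 144977260905) (nat_lit 76) (nat_lit 123472139894) (nat_lit 77) (nat_lit 5) (nat_lit 84) (nat_lit 5) (nat_lit 78) (nat_lit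 5) (nat_lit 462) (nat_lit 455) (nat_lit 283)) (XT.nd (nat_lit 78) (nat_lit 0) (nat_lit 0) (XT.lf (nat_lit 0) (nat_lit 57075487798) (nat_lit 456) (nat_lit 84005772633) (nat_lit 532) (nat_lit 245649834362) (nat_lit 71) (nat_lit 5) (nat_lit 77) (nat_lit 5) (nat_lit 78) (nat_lit 5) (nat_lit 463) (nat_lit 455) (nat_lit 282)) (XT.lf (nat_lit 0) (nat_lit 189308097134) (nat_lit 532) (nat_lit 122516012156) (nat_lit 76) (nat_lit 91721467737) (nat_lit 71) (nat_lit 5) (nat_lit 78) (nat_lit 5) (nat_lit 72) (nat_lit 5) (nat_lit 464) (nat_lit 455) (nat_lit 281)))) (XT.nd (nat_lit 78) (nat_lit 228) (nat_lit 0) (XT.lf (nat_lit 0) (nat_lit 104226567698) (nat_lit 228) (nat_lit 141855085705) (nat_lit 304) (nat_lit 175248478637) (nat_lit 68) (nat_lit 5) (nat_lit 71) (nat_lit 5) (nat_lit 72) (nat_lit 5) (nat_lit 465) (nat_lit 455) (nat_lit 280)) (XT.nd (nat_lit 78) (nat_lit 228) (nat_lit 0) (XT.lf (nat_lit 0)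 (nat_lit 311837023873) (nat_lit 304) (nat_lit 85283540211) (nat_lit 76) (nat_lit 43061693002) (nat_lit 68) (nat_lit 5) (nat_lit 72) (nat_lit 5) (nat_lit 69) (nat_lit 5) (nat_lit 466) (nat_lit 455) (nat_lit 279)) (XT.lf (nat_lit 0) (nat_lit 169896396087) (nat_lit 228) (nat_lit 220726946580) (nat_lit 304) (nat_lit 69297567984) (nat_lit 65) (nat_lit 5) (nat_lit 68) (nat_lit 5) (nat_lit 69) (nat_lit 5) (nat_lit 467) (nat_lit 455) (nat_lit 278)))))) (XT.nd (nat_lit 468) (nat_lit 836) (nat_lit 0) (XT.nd (nat_lit 234) (nat_lit 152) (nat_lit 0) (XT.nd (nat_lit 78) (nat_lit 456) (nat_lit 0) (XT.lf (nat_lit 0) (nat_lit 450340831105) (nat_lit 228) (nat_lit 27703499523) (nat_lit 304) (nat_lit 3007784789) (nat_lit 65) (nat_lit 5) (nat_lit 68) (nat_lit 5) (nat_lit 69) (nat_lit 5) (nat_lit 468) (nat_lit 455) (nat_lit 277)) (XT.nd (nat_lit 78) (nat_lit 228) (nat_lit 0) (XT.lf (nat_lit 0) (nat_lit 75978105443)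 (nat_lit 228) (nat_lit 247052449347) (nat_lit 76) (nat_lit 179845397127) (nat_lit 62) (nat_lit 5) (nat_lit 65) (nat_lit 5) (nat_lit 63) (nat_lit 5) (nat_lit 469) (nat_lit 455) (nat_lit 276)) (XT.lf (nat_lit 0) (nat_lit 41926933254) (nat_lit 228) (nat_lit 121782825682) (nat_lit 304) (nat_lit 362522535223) (nat_lit 59) (nat_lit 5) (nat_lit 62) (nat_lit 5) (nat_lit 63) (nat_lit 5) (nat_lit 470) (nat_lit 455) (nat_lit 275)))) (XT.nd (nat_lit 78) (nat_lit 152) (nat_lit 0) (XT.lf (nat_lit 0) (nat_lit 267688546365) (nat_lit 304) (nat_lit 185315830066) (nat_lit 76) (nat_lit 97714479223) (nat_lit 59) (nat_lit 5) (nat_lit 63) (nat_lit 5) (nat_lit 60) (nat_lit 5) (nat_lit 471) (nat_lit 455) (nat_lit 274)) (XT.nd (nat_lit 78) (nat_lit 0) (nat_lit 0) (XT.lf (nat_lit 0) (nat_lit 141508454486) (nat_lit 152) (nat_lit 245043622206) (nat_lit 228) (nat_lit 190086950189) (nat_lit 57) (nat_lit 5) (nat_lit 59)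 (nat_lit 5) (nat_lit 60) (nat_lit 5) (nat_lit 472) (nat_lit 455) (nat_lit 273)) (XT.lf (nat_lit 0) (nat_lit 505017713907) (nat_lit 152) (nat_lit 14973807969) (nat_lit 228) (nat_lit 84235943342) (nat_lit 57) (nat_lit 5) (nat_lit 59) (nat_lit 5) (nat_lit 60) (nat_lit 5) (nat_lit 473) (nat_lit 455) (nat_lit 272))))) (XT.nd (nat_lit 234) (nat_lit 456) (nat_lit 0) (XT.nd (nat_lit 78) (nat_lit 152) (nat_lit 0) (XT.lf (nat_lit 0) (nat_lit 41040308385) (nat_lit 228) (nat_lit 362537086304) (nat_lit 76) (nat_lit 229390740307) (nat_lit 54) (nat_lit 5) (nat_lit 57) (nat_lit 5) (nat_lit 55) (nat_lit 5) (nat_lit 474) (nat_lit 455) (nat_lit 271)) (XT.nd (nat_lit 78) (nat_lit 0) (nat_lit 0) (XT.lf (nat_lit 0) (nat_lit 9312689260) (nat_lit 152) (nat_lit 165870941020) (nat_lit 228) (nat_lit 488377720440) (nat_lit 52) (nat_lit 5) (nat_lit 54) (nat_lit 5) (nat_lit 55) (nat_lit 5) (nat_lit 475) (nat_lit 455)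 (nat_lit 270)) (XT.lf (nat_lit 0) (nat_lit 332413255329) (nat_lit 228) (nat_lit 266723280911) (nat_lit 76) (nat_lit 96477100474) (nat_lit 52) (nat_lit 5) (nat_lit 55) (nat_lit 5) (nat_lit 53) (nat_lit 5) (nat_lit 476) (nat_lit 455) (nat_lit 269)))) (XT.nd (nat_lit 156) (nat_lit 304) (nat_lit 0) (XT.nd (nat_lit 78) (nat_lit 0) (nat_lit 0) (XT.lf (nat_lit 0) (nat_lit 155262618830) (nat_lit 152) (nat_lit 355001011850) (nat_lit 228) (nat_lit 219323084488) (nat_lit 50) (nat_lit 5) (nat_lit 52) (nat_lit 5) (nat_lit 53) (nat_lit 5) (nat_lit 477) (nat_lit 455) (nat_lit 268)) (XT.lf (nat_lit 0) (nat_lit 626176140759) (nat_lit 152) (nat_lit 83458557880) (nat_lit 228) (nat_lit 56059528257) (nat_lit 50) (nat_lit 5) (nat_lit 52) (nat_lit 5) (nat_lit 53) (nat_lit 5) (nat_lit 478) (nat_lit 455) (nat_lit 267))) (XT.nd (nat_lit 78) (nat_lit 152) (nat_lit 0) (XT.lf (nat_lit 0) (nat_lit 127868119436) (nat_lit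 152) (nat_lit 464723741792) (nat_lit 76) (nat_lit 210777555630) (nat_lit 48) (nat_lit 5) (nat_lit 50) (nat_lit 5) (nat_lit 49) (nat_lit 5) (nat_lit 479) (nat_lit 455) (nat_lit 266)) (XT.lf (nat_lit 0) (nat_lit 16337928683) (nat_lit 152) (nat_lit 313617793224) (nat_lit 228) (nat_lit 513468459697) (nat_lit 46) (nat_lit 5) (nat_lit 48) (nat_lit 5) (nat_lit 49) (nat_lit 5) (nat_lit 480) (nat_lit 455) (nat_lit 265))))))))
noncomputable def xc209 : XT := (XT.nd (nat_lit 1950) (nat_lit 1216) (nat_lit 0) (XT.nd (nat_lit 936) (nat_lit 836) (nat_lit 0) (XT.nd (nat_lit 468) (nat_lit 456) (nat_lit 0) (XT.nd (nat_lit 234) (nat_lit 228) (nat_lit 0) (XT.nd (nat_lit 78) (nat_lit 152) (nat_lit 0) (XT.lf (nat_lit 0) (nat_lit 560950280649) (nat_lit 228) (nat_lit 323386672338) (nat_lit 76) (nat_lit 1327178696) (nat_lit 46) (nat_lit 5) (nat_lit 49) (nat_lit 5) (nat_lit 47) (nat_lit 4) (nat_lit 481) (nat_lit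 455) (nat_lit 264)) (XT.nd (nat_lit 78) (nat_lit 76) (nat_lit 0) (XT.lf (nat_lit 0) (nat_lit 223650843390) (nat_lit 76) (nat_lit 600298264821) (nat_lit 152) (nat_lit 106252193233) (nat_lit 45) (nat_lit 5) (nat_lit 46) (nat_lit 5) (nat_lit 47) (nat_lit 4) (nat_lit 482) (nat_lit 455) (nat_lit 263)) (XT.lf (nat_lit 0) (nat_lit 132270563936) (nat_lit 152) (nat_lit 148100098778) (nat_lit 76) (nat_lit 696955536751) (nat_lit 44) (nat_lit 5) (nat_lit 46) (nat_lit 5) (nat_lit 45) (nat_lit 5) (nat_lit 483) (nat_lit 455) (nat_lit 262)))) (XT.nd (nat_lit 78) (nat_lit 76) (nat_lit 0) (XT.lf (nat_lit 0) (nat_lit 397520494525) (nat_lit 228) (nat_lit 552938281577) (nat_lit 76) (nat_lit 76470670960) (nat_lit 42) (nat_lit 5) (nat_lit 45) (nat_lit 5) (nat_lit 43) (nat_lit 4) (nat_lit 484) (nat_lit 455) (nat_lit 261)) (XT.nd (nat_lit 78) (nat_lit 0) (nat_lit 0) (XT.lf (nat_lit 0) (nat_lit 70220451786) (nat_lit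 76) (nat_lit 626895603740) (nat_lit 152) (nat_lit 382334848069) (nat_lit 41) (nat_lit 5) (nat_lit 42) (nat_lit 5) (nat_lit 43) (nat_lit 4) (nat_lit 485) (nat_lit 455) (nat_lit 260)) (XT.lf (nat_lit 0) (nat_lit 774677941274) (nat_lit 76) (nat_lit 261119614503) (nat_lit 152) (nat_lit 99167057323) (nat_lit 41) (nat_lit 5) (nat_lit 42) (nat_lit 5) (nat_lit 43) (nat_lit 4) (nat_lit 486) (nat_lit 455) (nat_lit 259))))) (XT.nd (nat_lit 234) (nat_lit 228) (nat_lit 0) (XT.nd (nat_lit 78) (nat_lit 76) (nat_lit 0) (XT.lf (nat_lit 0) (nat_lit 208383244307) (nat_lit 152) (nat_lit 844137855062) (nat_lit 76) (nat_lit 141035375764) (nat_lit 39) (nat_lit 5) (nat_lit 41) (nat_lit 5) (nat_lit 40) (nat_lit 4) (nat_lit 487) (nat_lit 455) (nat_lit 258)) (XT.nd (nat_lit 78) (nat_lit 76) (nat_lit 0) (XT.lf (nat_lit 0) (nat_lit 552069026845) (nat_lit 152) (nat_lit 129271452018) (nat_lit 76) (nat_lit 573938021558)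 (nat_lit 39) (nat_lit 5) (nat_lit 41) (nat_lit 5) (nat_lit 40) (nat_lit 4) (nat_lit 488) (nat_lit 455) (nat_lit 257)) (XT.lf (nat_lit 0) (nat_lit 676632112970) (nat_lit 76) (nat_lit 262890561856) (nat_lit 152) (nat_lit 381113772680) (nat_lit 38) (nat_lit 5) (nat_lit 39) (nat_lit 5) (nat_lit 40) (nat_lit 4) (nat_lit 489) (nat_lit 455) (nat_lit 256)))) (XT.nd (nat_lit 78) (nat_lit 152) (nat_lit 0) (XT.lf (nat_lit 0) (nat_lit 167142480166) (nat_lit 76) (nat_lit 1203022520306) (nat_lit 76) (nat_lit 20082639019) (nat_lit 37) (nat_lit 4) (nat_lit 38) (nat_lit 5) (nat_lit 38) (nat_lit 4) (nat_lit 490) (nat_lit 455) (nat_lit 255)) (XT.nd (nat_lit 78) (nat_lit 76) (nat_lit 0) (XT.lf (nat_lit 0) (nat_lit 376224428544) (nat_lit 152) (nat_lit 400393088022) (nat_lit 76) (nat_lit 686107143790) (nat_lit 36) (nat_lit 5) (nat_lit 38) (nat_lit 5) (nat_lit 37) (nat_lit 4) (nat_lit 491) (nat_lit 455) (nat_lit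 254)) (XT.lf (nat_lit 0) (nat_lit 513291199586) (nat_lit 76) (nat_lit 302204529138) (nat_lit 152) (nat_lit 724474811900) (nat_lit 35) (nat_lit 5) (nat_lit 36) (nat_lit 5) (nat_lit 37) (nat_lit 4) (nat_lit 492) (nat_lit 455) (nat_lit 253)))))) (XT.nd (nat_lit 468) (nat_lit 456) (nat_lit 0) (XT.nd (nat_lit 234) (nat_lit 152) (nat_lit 0) (XT.nd (nat_lit 78) (nat_lit 228) (nat_lit 0) (XT.lf (nat_lit 0) (nat_lit 1306194913870) (nat_lit 152) (nat_lit 105018120663) (nat_lit 0) (nat_lit 210880162307) (nat_lit 35) (nat_lit 5) (nat_lit 37) (nat_lit 4) (nat_lit 35) (nat_lit 4) (nat_lit 493) (nat_lit 455) (nat_lit 252)) (XT.nd (nat_lit 78) (nat_lit 76) (nat_lit 0) (XT.lf (nat_lit 0) (nat_lit 150069238250) (nat_lit 152) (nat_lit 783170749310) (nat_lit 76) (nat_lit 774826388433) (nat_lit 33) (nat_lit 5) (nat_lit 35) (nat_lit 5) (nat_lit 34) (nat_lit 4) (nat_lit 494) (nat_lit 455) (nat_lit 251)) (XT.lf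 (nat_lit 0) (nat_lit 246540443123) (nat_lit 76) (nat_lit 398582258953) (nat_lit 152) (nat_lit 1154428275121) (nat_lit 32) (nat_lit 5) (nat_lit 33) (nat_lit 5) (nat_lit 34) (nat_lit 4) (nat_lit 495) (nat_lit 455) (nat_lit 250)))) (XT.nd (nat_lit 78) (nat_lit 152) (nat_lit 0) (XT.lf (nat_lit 0) (nat_lit 1206051195981) (nat_lit 152) (nat_lit 498330654119) (nat_lit 0) (nat_lit 191870836159) (nat_lit 32) (nat_lit 5) (nat_lit 34) (nat_lit 4) (nat_lit 32) (nat_lit 4) (nat_lit 496) (nat_lit 455) (nat_lit 249)) (XT.nd (nat_lit 78) (nat_lit 76) (nat_lit 0) (XT.lf (nat_lit 0) (nat_lit 663565016412) (nat_lit 76) (nat_lit 1174600481481) (nat_lit 76) (nat_lit 160420111875) (nat_lit 31) (nat_lit 4) (nat_lit 32) (nat_lit 5) (nat_lit 32) (nat_lit 4) (nat_lit 497) (nat_lit 455) (nat_lit 248)) (XT.lf (nat_lit 0) (nat_lit 405125819118) (nat_lit 152) (nat_lit 171518674898) (nat_lit 76) (nat_lit 1530550146635)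 (nat_lit 30) (nat_lit 5) (nat_lit 32) (nat_lit 5) (nat_lit 31) (nat_lit 4) (nat_lit 498) (nat_lit 455) (nat_lit 247))))) (XT.nd (nat_lit 234) (nat_lit 228) (nat_lit 0) (XT.nd (nat_lit 78) (nat_lit 152) (nat_lit 0) (XT.lf (nat_lit 0) (nat_lit 1037095035106) (nat_lit 152) (nat_lit 1086637180172) (nat_lit 0) (nat_lit 98039121169) (nat_lit 29) (nat_lit 5) (nat_lit 31) (nat_lit 4) (nat_lit 29) (nat_lit 4) (nat_lit 499) (nat_lit 455) (nat_lit 246)) (XT.nd (nat_lit 78) (nat_lit 76) (nat_lit 0) (XT.lf (nat_lit 0) (nat_lit 206147351114) (nat_lit 76) (nat_lit 1538221486972) (nat_lit 76) (nat_lit 599165565844) (nat_lit 28) (nat_lit 4) (nat_lit 29) (nat_lit 5) (nat_lit 29) (nat_lit 4) (nat_lit 500) (nat_lit 455) (nat_lit 245)) (XT.lf (nat_lit 0) (nat_lit 62008207640) (nat_lit 152) (nat_lit 810078855894) (nat_lit 76) (nat_lit 1600449021000) (nat_lit 27) (nat_lit 5) (nat_lit 29) (nat_lit 5) (nat_lit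 28) (nat_lit 4) (nat_lit 501) (nat_lit 455) (nat_lit 244)))) (XT.nd (nat_lit 156) (nat_lit 152) (nat_lit 0) (XT.nd (nat_lit 78) (nat_lit 0) (nat_lit 0) (XT.lf (nat_lit 0) (nat_lit 639859603396) (nat_lit 76) (nat_lit 119234404944) (nat_lit 152) (nat_lit 1850287781598) (nat_lit 26) (nat_lit 5) (nat_lit 27) (nat_lit 5) (nat_lit 28) (nat_lit 4) (nat_lit 502) (nat_lit 455) (nat_lit 243)) (XT.lf (nat_lit 0) (nat_lit 1551357977113) (nat_lit 152) (nat_lit 520802533653) (nat_lit 0) (nat_lit 681861736687) (nat_lit 26) (nat_lit 5) (nat_lit 28) (nat_lit 4) (nat_lit 26) (nat_lit 4) (nat_lit 503) (nat_lit 455) (nat_lit 242))) (XT.nd (nat_lit 78) (nat_lit 76) (nat_lit 0) (XT.lf (nat_lit 0) (nat_lit 1095520023632) (nat_lit 76) (nat_lit 1340927310788) (nat_lit 76) (nat_lit 471431065468) (nat_lit 25) (nat_lit 4) (nat_lit 26) (nat_lit 5) (nat_lit 26) (nat_lit 4) (nat_lit 504) (nat_lit 455) (nat_lit 241))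 (XT.lf (nat_lit 0) (nat_lit 316987617086) (nat_lit 152) (nat_lit 210162006312) (nat_lit 76) (nat_lit 2545112248477) (nat_lit 24) (nat_lit 5) (nat_lit 26) (nat_lit 5) (nat_lit 25) (nat_lit 4) (nat_lit 505) (nat_lit 455) (nat_lit 240))))))) (XT.nd (nat_lit 936) (nat_lit 456) (nat_lit 0) (XT.nd (nat_lit 468) (nat_lit 380) (nat_lit 0) (XT.nd (nat_lit 234) (nat_lit 228) (nat_lit 0) (XT.nd (nat_lit 78) (nat_lit 76) (nat_lit 0) (XT.lf (nat_lit 0) (nat_lit 1190955359982) (nat_lit 152) (nat_lit 1668159221698) (nat_lit 0) (nat_lit 385866235864) (nat_lit 23) (nat_lit 5) (nat_lit 25) (nat_lit 4) (nat_lit 23) (nat_lit 4) (nat_lit 506) (nat_lit 455) (nat_lit 239)) (XT.nd (nat_lit 78) (nat_lit 0) (nat_lit 0) (XT.lf (nat_lit 0) (nat_lit 77704004542) (nat_lit 76) (nat_lit 2078592943972) (nat_lit 76) (nat_lit 1273503816256) (nat_lit 22) (nat_lit 4) (nat_lit 23) (nat_lit 5) (nat_lit 23) (nat_lit 4) (nat_lit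 507) (nat_lit 455) (nat_lit 238)) (XT.lf (nat_lit 0) (nat_lit 2058105964948) (nat_lit 76) (nat_lit 1186370320100) (nat_lit 76) (nat_lit 381281189054) (nat_lit 22) (nat_lit 4) (nat_lit 23) (nat_lit 5) (nat_lit 23) (nat_lit 4) (nat_lit 508) (nat_lit 455) (nat_lit 237)))) (XT.nd (nat_lit 78) (nat_lit 76) (nat_lit 0) (XT.lf (nat_lit 0) (nat_lit 363740317778) (nat_lit 76) (nat_lit 198196918716) (nat_lit 152) (nat_lit 3273633263901) (nat_lit 20) (nat_lit 5) (nat_lit 21) (nat_lit 5) (nat_lit 22) (nat_lit 4) (nat_lit 509) (nat_lit 455) (nat_lit 236)) (XT.nd (nat_lit 78) (nat_lit 76) (nat_lit 0) (XT.lf (nat_lit 0) (nat_lit 1624889920113) (nat_lit 152) (nat_lit 1551859290851) (nat_lit 0) (nat_lit 879437015496) (nat_lit 20) (nat_lit 5) (nat_lit 22) (nat_lit 4) (nat_lit 20) (nat_lit 4) (nat_lit 510) (nat_lit 455) (nat_lit 235)) (XT.lf (nat_lit 0) (nat_lit 543762487225) (nat_lit 76) (nat_lit 2247341796608)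 (nat_lit 76) (nat_lit 1501888889543) (nat_lit 19) (nat_lit 4) (nat_lit 20) (nat_lit 5) (nat_lit 20) (nat_lit 4) (nat_lit 511) (nat_lit 455) (nat_lit 234))))) (XT.nd (nat_lit 234) (nat_lit 228) (nat_lit 0) (XT.nd (nat_lit 78) (nat_lit 152) (nat_lit 0) (XT.lf (nat_lit 0) (nat_lit 2895289605886) (nat_lit 76) (nat_lit 1197756766709) (nat_lit 76) (nat_lit 452303857377) (nat_lit 19) (nat_lit 4) (nat_lit 20) (nat_lit 5) (nat_lit 20) (nat_lit 4) (nat_lit 512) (nat_lit 455) (nat_lit 233)) (XT.nd (nat_lit 78) (nat_lit 0) (nat_lit 0) (XT.lf (nat_lit 0) (nat_lit 632288637244) (nat_lit 76) (nat_lit 30087107310) (nat_lit 152) (nat_lit 4152992860114) (nat_lit 17) (nat_lit 5) (nat_lit 18) (nat_lit 5) (nat_lit 19) (nat_lit 4) (nat_lit 513) (nat_lit 455) (nat_lit 232)) (XT.lf (nat_lit 0) (nat_lit 1917686452686) (nat_lit 152) (nat_lit 1954838439289) (nat_lit 0) (nat_lit 1227452273636) (nat_lit 17) (nat_lit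 5) (nat_lit 19) (nat_lit 4) (nat_lit 17) (nat_lit 4) (nat_lit 514) (nat_lit 455) (nat_lit 231)))) (XT.nd (nat_lit 78) (nat_lit 152) (nat_lit 0) (XT.lf (nat_lit 0) (nat_lit 474623504877) (nat_lit 76) (nat_lit 2810994696286) (nat_lit 76) (nat_lit 2120760515570) (nat_lit 16) (nat_lit 4) (nat_lit 17) (nat_lit 5) (nat_lit 17) (nat_lit 4) (nat_lit 515) (nat_lit 455) (nat_lit 230)) (XT.nd (nat_lit 78) (nat_lit 152) (nat_lit 0) (XT.lf (nat_lit 0) (nat_lit 3209615786215) (nat_lit 76) (nat_lit 1606817444352) (nat_lit 76) (nat_lit 916583262093) (nat_lit 16) (nat_lit 4) (nat_lit 17) (nat_lit 5) (nat_lit 17) (nat_lit 4) (nat_lit 516) (nat_lit 455) (nat_lit 229)) (XT.lf (nat_lit 0) (nat_lit 71989891659) (nat_lit 76) (nat_lit 294463990719) (nat_lit 152) (nat_lit 5718454221520) (nat_lit 14) (nat_lit 5) (nat_lit 15) (nat_lit 5) (nat_lit 16) (nat_lit 4) (nat_lit 517) (nat_lit 455) (nat_lit 228)))))) (XT.nd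 (nat_lit 468) (nat_lit 228) (nat_lit 0) (XT.nd (nat_lit 234) (nat_lit 152) (nat_lit 0) (XT.nd (nat_lit 78) (nat_lit 76) (nat_lit 0) (XT.lf (nat_lit 0) (nat_lit 1800406231228) (nat_lit 152) (nat_lit 3493516396937) (nat_lit 0) (nat_lit 1161300504367) (nat_lit 14) (nat_lit 5) (nat_lit 16) (nat_lit 4) (nat_lit 14) (nat_lit 4) (nat_lit 518) (nat_lit 455) (nat_lit 227)) (XT.nd (nat_lit 78) (nat_lit 76) (nat_lit 0) (XT.lf (nat_lit 0) (nat_lit 3356723177929) (nat_lit 152) (nat_lit 780210862799) (nat_lit 0) (nat_lit 2717617449933) (nat_lit 14) (nat_lit 5) (nat_lit 16) (nat_lit 4) (nat_lit 14) (nat_lit 4) (nat_lit 519) (nat_lit 455) (nat_lit 226)) (XT.lf (nat_lit 0) (nat_lit 2263382671841) (nat_lit 76) (nat_lit 2828597211216) (nat_lit 76) (nat_lit 2189491482170) (nat_lit 13) (nat_lit 4) (nat_lit 14) (nat_lit 5) (nat_lit 14) (nat_lit 4) (nat_lit 520) (nat_lit 455) (nat_lit 225)))) (XT.nd (nat_lit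 78) (nat_lit 152) (nat_lit 0) (XT.lf (nat_lit 0) (nat_lit 5594834962378) (nat_lit 76) (nat_lit 1392554504988) (nat_lit 76) (nat_lit 753448774969) (nat_lit 13) (nat_lit 4) (nat_lit 14) (nat_lit 5) (nat_lit 14) (nat_lit 4) (nat_lit 521) (nat_lit 455) (nat_lit 224)) (XT.nd (nat_lit 78) (nat_lit 0) (nat_lit 0) (XT.lf (nat_lit 0) (nat_lit 786220384127) (nat_lit 152) (nat_lit 7252453032501) (nat_lit 0) (nat_lit 194455818462) (nat_lit 11) (nat_lit 5) (nat_lit 13) (nat_lit 4) (nat_lit 11) (nat_lit 4) (nat_lit 522) (nat_lit 455) (nat_lit 223)) (XT.lf (nat_lit 0) (nat_lit 2504727086798) (nat_lit 152) (nat_lit 4337838707080) (nat_lit 0) (nat_lit 1912962520360) (nat_lit 11) (nat_lit 5) (nat_lit 13) (nat_lit 4) (nat_lit 11) (nat_lit 4) (nat_lit 523) (nat_lit 455) (nat_lit 222))))) (XT.nd (nat_lit 234) (nat_lit 152) (nat_lit 0) (XT.nd (nat_lit 78) (nat_lit 76) (nat_lit 0) (XT.lf (nat_lit 0) (nat_lit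 4360714321404) (nat_lit 152) (nat_lit 1190055244403) (nat_lit 0) (nat_lit 3768949754252) (nat_lit 11) (nat_lit 5) (nat_lit 13) (nat_lit 4) (nat_lit 11) (nat_lit 4) (nat_lit 524) (nat_lit 455) (nat_lit 221)) (XT.nd (nat_lit 78) (nat_lit 0) (nat_lit 0) (XT.lf (nat_lit 0) (nat_lit 2325901921216) (nat_lit 76) (nat_lit 4095216606745) (nat_lit 76) (nat_lit 3503452038931) (nat_lit 10) (nat_lit 4) (nat_lit 11) (nat_lit 5) (nat_lit 11) (nat_lit 4) (nat_lit 525) (nat_lit 455) (nat_lit 220)) (XT.lf (nat_lit 0) (nat_lit 6190815148393) (nat_lit 76) (nat_lit 2488078138133) (nat_lit 76) (nat_lit 1896313569707) (nat_lit 10) (nat_lit 4) (nat_lit 11) (nat_lit 5) (nat_lit 11) (nat_lit 4) (nat_lit 526) (nat_lit 455) (nat_lit 219)))) (XT.nd (nat_lit 156) (nat_lit 0) (nat_lit 0) (XT.nd (nat_lit 78) (nat_lit 152) (nat_lit 0) (XT.lf (nat_lit 0) (nat_lit 10364921426408) (nat_lit 76) (nat_lit 752368595797) (nat_lit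 76) (nat_lit 160604026803) (nat_lit 10) (nat_lit 4) (nat_lit 11) (nat_lit 5) (nat_lit 11) (nat_lit 4) (nat_lit 527) (nat_lit 455) (nat_lit 218)) (XT.lf (nat_lit 0) (nat_lit 1728878316206) (nat_lit 152) (nat_lit 9115619645311) (nat_lit 0) (nat_lit 1180948159244) (nat_lit 8) (nat_lit 5) (nat_lit 10) (nat_lit 4) (nat_lit 8) (nat_lit 4) (nat_lit 528) (nat_lit 455) (nat_lit 217))) (XT.nd (nat_lit 56784) (nat_lit 0) (nat_lit 5548) (XT.lf (nat_lit 0) (nat_lit 3805995156319) (nat_lit 152) (nat_lit 5764796264486) (nat_lit 0) (nat_lit 3258064998907) (nat_lit 8) (nat_lit 5) (nat_lit 10) (nat_lit 4) (nat_lit 8) (nat_lit 4) (nat_lit 529) (nat_lit 455) (nat_lit 216)) (XT.lf (nat_lit 0) (nat_lit 146481866273) (nat_lit 532) (nat_lit 2320186693) (nat_lit 532) (nat_lit 2320186693) (nat_lit 81) (nat_lit 3) (nat_lit 88) (nat_lit 3) (nat_lit 88) (nat_lit 5) (nat_lit 456) (nat_lit 456) (nat_lit 288))))))))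
noncomputable def xc210 : XT := (XT.nd (nat_lit 1950) (nat_lit 1672) (nat_lit 0) (XT.nd (nat_lit 936) (nat_lit 1444) (nat_lit 0) (XT.nd (nat_lit 468) (nat_lit 760) (nat_lit 0) (XT.nd (nat_lit 234) (nat_lit 0) (nat_lit 0) (XT.nd (nat_lit 78) (nat_lit 456) (nat_lit 0) (XT.lf (nat_lit 76) (nat_lit 152923683720) (nat_lit 0) (nat_lit 155437091798) (nat_lit 532) (nat_lit 5679203302) (nat_lit 82) (nat_lit 5) (nat_lit 81) (nat_lit 3) (nat_lit 88) (nat_lit 5) (nat_lit 457) (nat_lit 456) (nat_lit 287)) (XT.nd (nat_lit 78) (nat_lit 456) (nat_lit 0) (XT.lf (nat_lit 76) (nat_lit 323356729123) (nat_lit 0) (nat_lit 1759660339) (nat_lit 532) (nat_lit 1652584232) (nat_lit 82) (nat_lit 5) (nat_lit 81) (nat_lit 3) (nat_lit 88) (nat_lit 5) (nat_lit 458) (nat_lit 456) (nat_lit 286)) (XT.lf (nat_lit 0) (nat_lit 10845803656) (nat_lit 532) (nat_lit 168604975378) (nat_lit 608) (nat_lit 160397560725) (nat_lit 75)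 (nat_lit 5) (nat_lit 82) (nat_lit 5) (nat_lit 83) (nat_lit 5) (nat_lit 459) (nat_lit 456) (nat_lit 285)))) (XT.nd (nat_lit 78) (nat_lit 0) (nat_lit 76) (XT.lf (nat_lit 76) (nat_lit 6324151197) (nat_lit 0) (nat_lit 18224089844) (nat_lit 608) (nat_lit 329398903268) (nat_lit 76) (nat_lit 5) (nat_lit 75) (nat_lit 5) (nat_lit 83) (nat_lit 5) (nat_lit 460) (nat_lit 456) (nat_lit 284)) (XT.nd (nat_lit 78) (nat_lit 0) (nat_lit 0) (XT.lf (nat_lit 0) (nat_lit 47825931044) (nat_lit 532) (nat_lit 167837937209) (nat_lit 608) (nat_lit 152831660371) (nat_lit 76) (nat_lit 5) (nat_lit 83) (nat_lit 5) (nat_lit 84) (nat_lit 5) (nat_lit 461) (nat_lit 456) (nat_lit 283)) (XT.lf (nat_lit 76) (nat_lit 27218085212) (nat_lit 0) (nat_lit 46875647033) (nat_lit 608) (nat_lit 310023819773) (nat_lit 77) (nat_lit 5) (nat_lit 76) (nat_lit 5) (nat_lit 84) (nat_lit 5) (nat_lit 462) (nat_lit 456) (nat_lit 282))))) (XT.nd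 (nat_lit 234) (nat_lit 456) (nat_lit 0) (XT.nd (nat_lit 78) (nat_lit 456) (nat_lit 0) (XT.lf (nat_lit 0) (nat_lit 110427838288) (nat_lit 532) (nat_lit 156574527256) (nat_lit 76) (nat_lit 133349781290) (nat_lit 77) (nat_lit 5) (nat_lit 84) (nat_lit 5) (nat_lit 78) (nat_lit 5) (nat_lit 463) (nat_lit 456) (nat_lit 281)) (XT.nd (nat_lit 78) (nat_lit 0) (nat_lit 0) (XT.lf (nat_lit 0) (nat_lit 61642418191) (nat_lit 456) (nat_lit 90726259655) (nat_lit 532) (nat_lit 265300830998) (nat_lit 71) (nat_lit 5) (nat_lit 77) (nat_lit 5) (nat_lit 78) (nat_lit 5) (nat_lit 464) (nat_lit 456) (nat_lit 280)) (XT.lf (nat_lit 0) (nat_lit 204453593029) (nat_lit 532) (nat_lit 132316399140) (nat_lit 76) (nat_lit 99059162980) (nat_lit 71) (nat_lit 5) (nat_lit 78) (nat_lit 5) (nat_lit 72) (nat_lit 5) (nat_lit 465) (nat_lit 456) (nat_lit 279)))) (XT.nd (nat_lit 78) (nat_lit 228) (nat_lit 0) (XT.lf (nat_lit 0) (nat_lit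 112565564469) (nat_lit 228) (nat_lit 153203427462) (nat_lit 304) (nat_lit 189267485994) (nat_lit 68) (nat_lit 5) (nat_lit 71) (nat_lit 5) (nat_lit 72) (nat_lit 5) (nat_lit 466) (nat_lit 456) (nat_lit 278)) (XT.nd (nat_lit 78) (nat_lit 228) (nat_lit 0) (XT.lf (nat_lit 0) (nat_lit 336784733767) (nat_lit 304) (nat_lit 92105358181) (nat_lit 76) (nat_lit 46506685704) (nat_lit 68) (nat_lit 5) (nat_lit 72) (nat_lit 5) (nat_lit 69) (nat_lit 5) (nat_lit 467) (nat_lit 456) (nat_lit 277)) (XT.lf (nat_lit 0) (nat_lit 183488951117) (nat_lit 228) (nat_lit 238384971823) (nat_lit 304) (nat_lit 74840603383) (nat_lit 65) (nat_lit 5) (nat_lit 68) (nat_lit 5) (nat_lit 69) (nat_lit 5) (nat_lit 468) (nat_lit 456) (nat_lit 276)))))) (XT.nd (nat_lit 468) (nat_lit 836) (nat_lit 0) (XT.nd (nat_lit 234) (nat_lit 152) (nat_lit 0) (XT.nd (nat_lit 78) (nat_lit 456) (nat_lit 0) (XT.lf (nat_lit 0) (nat_lit 486368878466)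 (nat_lit 228) (nat_lit 29919658667) (nat_lit 304) (nat_lit 3247694572) (nat_lit 65) (nat_lit 5) (nat_lit 68) (nat_lit 5) (nat_lit 69) (nat_lit 5) (nat_lit 469) (nat_lit 456) (nat_lit 275)) (XT.nd (nat_lit 78) (nat_lit 228) (nat_lit 0) (XT.lf (nat_lit 0) (nat_lit 82057003782) (nat_lit 228) (nat_lit 266815801077) (nat_lit 76) (nat_lit 194233171100) (nat_lit 62) (nat_lit 5) (nat_lit 65) (nat_lit 5) (nat_lit 63) (nat_lit 5) (nat_lit 470) (nat_lit 456) (nat_lit 274)) (XT.lf (nat_lit 0) (nat_lit 45281910760) (nat_lit 228) (nat_lit 131525250443) (nat_lit 304) (nat_lit 391523666654) (nat_lit 59) (nat_lit 5) (nat_lit 62) (nat_lit 5) (nat_lit 63) (nat_lit 5) (nat_lit 471) (nat_lit 456) (nat_lit 273)))) (XT.nd (nat_lit 78) (nat_lit 152) (nat_lit 0) (XT.lf (nat_lit 0) (nat_lit 289104210068) (nat_lit 304) (nat_lit 200140292916) (nat_lit 76) (nat_lit 105531814620) (nat_lit 59) (nat_lit 5) (nat_lit 63)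 (nat_lit 5) (nat_lit 60) (nat_lit 5) (nat_lit 472) (nat_lit 456) (nat_lit 272)) (XT.nd (nat_lit 78) (nat_lit 0) (nat_lit 0) (XT.lf (nat_lit 0) (nat_lit 152829914057) (nat_lit 152) (nat_lit 264646884637) (nat_lit 228) (nat_lit 205293305772) (nat_lit 57) (nat_lit 5) (nat_lit 59) (nat_lit 5) (nat_lit 60) (nat_lit 5) (nat_lit 473) (nat_lit 456) (nat_lit 271)) (XT.lf (nat_lit 0) (nat_lit 545419856216) (nat_lit 152) (nat_lit 16171502102) (nat_lit 228) (nat_lit 90974262854) (nat_lit 57) (nat_lit 5) (nat_lit 59) (nat_lit 5) (nat_lit 60) (nat_lit 5) (nat_lit 474) (nat_lit 456) (nat_lit 270))))) (XT.nd (nat_lit 234) (nat_lit 456) (nat_lit 0) (XT.nd (nat_lit 78) (nat_lit 152) (nat_lit 0) (XT.lf (nat_lit 0) (nat_lit 44324045199) (nat_lit 228) (nat_lit 391539284042) (nat_lit 76) (nat_lit 247742215507) (nat_lit 54) (nat_lit 5) (nat_lit 57) (nat_lit 5) (nat_lit 55) (nat_lit 5) (nat_lit 475) (nat_lit 456)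 (nat_lit 269)) (XT.nd (nat_lit 78) (nat_lit 0) (nat_lit 0) (XT.lf (nat_lit 0) (nat_lit 10058454094) (nat_lit 152) (nat_lit 179140358845) (nat_lit 228) (nat_lit 527447406389) (nat_lit 52) (nat_lit 5) (nat_lit 54) (nat_lit 5) (nat_lit 55) (nat_lit 5) (nat_lit 476) (nat_lit 456) (nat_lit 268)) (XT.lf (nat_lit 0) (nat_lit 359006777264) (nat_lit 228) (nat_lit 288060418430) (nat_lit 76) (nat_lit 104195494972) (nat_lit 52) (nat_lit 5) (nat_lit 55) (nat_lit 5) (nat_lit 53) (nat_lit 5) (nat_lit 477) (nat_lit 456) (nat_lit 267)))) (XT.nd (nat_lit 156) (nat_lit 304) (nat_lit 0) (XT.nd (nat_lit 78) (nat_lit 0) (nat_lit 0) (XT.lf (nat_lit 0) (nat_lit 167684334937) (nat_lit 152) (nat_lit 383400830514) (nat_lit 228) (nat_lit 236868451325) (nat_lit 50) (nat_lit 5) (nat_lit 52) (nat_lit 5) (nat_lit 53) (nat_lit 5) (nat_lit 478) (nat_lit 456) (nat_lit 266)) (XT.lf (nat_lit 0) (nat_lit 676270886280) (nat_lit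 152) (nat_lit 90134999654) (nat_lit 228) (nat_lit 60543846145) (nat_lit 50) (nat_lit 5) (nat_lit 52) (nat_lit 5) (nat_lit 53) (nat_lit 5) (nat_lit 479) (nat_lit 456) (nat_lit 265))) (XT.nd (nat_lit 78) (nat_lit 152) (nat_lit 0) (XT.lf (nat_lit 0) (nat_lit 138097981799) (nat_lit 152) (nat_lit 501900955213) (nat_lit 76) (nat_lit 227640000122) (nat_lit 48) (nat_lit 5) (nat_lit 50) (nat_lit 5) (nat_lit 49) (nat_lit 5) (nat_lit 480) (nat_lit 456) (nat_lit 264)) (XT.lf (nat_lit 0) (nat_lit 17645631535) (nat_lit 152) (nat_lit 338706946434) (nat_lit 228) (nat_lit 554545506254) (nat_lit 46) (nat_lit 5) (nat_lit 48) (nat_lit 5) (nat_lit 49) (nat_lit 5) (nat_lit 481) (nat_lit 456) (nat_lit 263))))))) (XT.nd (nat_lit 936) (nat_lit 836) (nat_lit 0) (XT.nd (nat_lit 468) (nat_lit 456) (nat_lit 0) (XT.nd (nat_lit 234) (nat_lit 228) (nat_lit 0) (XT.nd (nat_lit 78) (nat_lit 152) (nat_lit 0) (XT.lf (nat_lit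 0) (nat_lit 605826677924) (nat_lit 228) (nat_lit 349256963564) (nat_lit 76) (nat_lit 1433590704) (nat_lit 46) (nat_lit 5) (nat_lit 49) (nat_lit 5) (nat_lit 47) (nat_lit 4) (nat_lit 482) (nat_lit 456) (nat_lit 262)) (XT.nd (nat_lit 78) (nat_lit 76) (nat_lit 0) (XT.lf (nat_lit 0) (nat_lit 241543537155) (nat_lit 76) (nat_lit 648321861833) (nat_lit 152) (nat_lit 114751977564) (nat_lit 45) (nat_lit 5) (nat_lit 46) (nat_lit 5) (nat_lit 47) (nat_lit 4) (nat_lit 483) (nat_lit 456) (nat_lit 261)) (XT.lf (nat_lit 0) (nat_lit 142852553090) (nat_lit 152) (nat_lit 159947508629) (nat_lit 76) (nat_lit 752712206147) (nat_lit 44) (nat_lit 5) (nat_lit 46) (nat_lit 5) (nat_lit 45) (nat_lit 5) (nat_lit 484) (nat_lit 456) (nat_lit 260)))) (XT.nd (nat_lit 78) (nat_lit 76) (nat_lit 0) (XT.lf (nat_lit 0) (nat_lit 429322472682) (nat_lit 228) (nat_lit 597172740578) (nat_lit 76) (nat_lit 82588562451) (nat_lit 42)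 (nat_lit 5) (nat_lit 45) (nat_lit 5) (nat_lit 43) (nat_lit 4) (nat_lit 485) (nat_lit 456) (nat_lit 259)) (XT.nd (nat_lit 78) (nat_lit 0) (nat_lit 0) (XT.lf (nat_lit 0) (nat_lit 75838676176) (nat_lit 76) (nat_lit 677046991453) (nat_lit 152) (nat_lit 412921282013) (nat_lit 41) (nat_lit 5) (nat_lit 42) (nat_lit 5) (nat_lit 43) (nat_lit 4) (nat_lit 486) (nat_lit 456) (nat_lit 258)) (XT.lf (nat_lit 0) (nat_lit 836652721249) (nat_lit 76) (nat_lit 282008942379) (nat_lit 152) (nat_lit 107100094223) (nat_lit 41) (nat_lit 5) (nat_lit 42) (nat_lit 5) (nat_lit 43) (nat_lit 4) (nat_lit 487) (nat_lit 456) (nat_lit 257))))) (XT.nd (nat_lit 234) (nat_lit 228) (nat_lit 0) (XT.nd (nat_lit 78) (nat_lit 76) (nat_lit 0) (XT.lf (nat_lit 0) (nat_lit 225054211143) (nat_lit 152) (nat_lit 911668318354) (nat_lit 76) (nat_lit 152318439041) (nat_lit 39) (nat_lit 5) (nat_lit 41) (nat_lit 5) (nat_lit 40) (nat_lit 4)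 (nat_lit 488) (nat_lit 456) (nat_lit 256)) (XT.nd (nat_lit 78) (nat_lit 76) (nat_lit 0) (XT.lf (nat_lit 0) (nat_lit 596234833523) (nat_lit 152) (nat_lit 139612644927) (nat_lit 76) (nat_lit 619853279223) (nat_lit 39) (nat_lit 5) (nat_lit 41) (nat_lit 5) (nat_lit 40) (nat_lit 4) (nat_lit 489) (nat_lit 456) (nat_lit 255)) (XT.lf (nat_lit 0) (nat_lit 730763192014) (nat_lit 76) (nat_lit 283921572517) (nat_lit 152) (nat_lit 411602576699) (nat_lit 38) (nat_lit 5) (nat_lit 39) (nat_lit 5) (nat_lit 40) (nat_lit 4) (nat_lit 490) (nat_lit 456) (nat_lit 254)))) (XT.nd (nat_lit 78) (nat_lit 152) (nat_lit 0) (XT.lf (nat_lit 0) (nat_lit 180514391699) (nat_lit 76) (nat_lit 1299264081664) (nat_lit 76) (nat_lit 21688955442) (nat_lit 37) (nat_lit 4) (nat_lit 38) (nat_lit 5) (nat_lit 38) (nat_lit 4) (nat_lit 491) (nat_lit 456) (nat_lit 253)) (XT.nd (nat_lit 78) (nat_lit 76) (nat_lit 0) (XT.lf (nat_lit 0) (nat_lit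 406322642047) (nat_lit 152) (nat_lit 432424046287) (nat_lit 76) (nat_lit 740995924098) (nat_lit 36) (nat_lit 5) (nat_lit 38) (nat_lit 5) (nat_lit 37) (nat_lit 4) (nat_lit 492) (nat_lit 456) (nat_lit 252)) (XT.lf (nat_lit 0) (nat_lit 554354971955) (nat_lit 76) (nat_lit 326380666543) (nat_lit 152) (nat_lit 782432525245) (nat_lit 35) (nat_lit 5) (nat_lit 36) (nat_lit 5) (nat_lit 37) (nat_lit 4) (nat_lit 493) (nat_lit 456) (nat_lit 251)))))) (XT.nd (nat_lit 468) (nat_lit 456) (nat_lit 0) (XT.nd (nat_lit 234) (nat_lit 152) (nat_lit 0) (XT.nd (nat_lit 78) (nat_lit 228) (nat_lit 0) (XT.lf (nat_lit 0) (nat_lit 1410690744836) (nat_lit 152) (nat_lit 113419115571) (nat_lit 0) (nat_lit 227750773139) (nat_lit 35) (nat_lit 5) (nat_lit 37) (nat_lit 4) (nat_lit 35) (nat_lit 4) (nat_lit 494) (nat_lit 456) (nat_lit 250)) (XT.nd (nat_lit 78) (nat_lit 76) (nat_lit 0) (XT.lf (nat_lit 0) (nat_lit 162075014216)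 (nat_lit 152) (nat_lit 845823953536) (nat_lit 76) (nat_lit 836812699357) (nat_lit 33) (nat_lit 5) (nat_lit 35) (nat_lit 5) (nat_lit 34) (nat_lit 4) (nat_lit 495) (nat_lit 456) (nat_lit 249)) (XT.lf (nat_lit 0) (nat_lit 266264122754) (nat_lit 76) (nat_lit 430468625528) (nat_lit 152) (nat_lit 1246782288677) (nat_lit 32) (nat_lit 5) (nat_lit 33) (nat_lit 5) (nat_lit 34) (nat_lit 4) (nat_lit 496) (nat_lit 456) (nat_lit 248)))) (XT.nd (nat_lit 78) (nat_lit 152) (nat_lit 0) (XT.lf (nat_lit 0) (nat_lit 1302535509428) (nat_lit 152) (nat_lit 538196682889) (nat_lit 0) (nat_lit 207220691412) (nat_lit 32) (nat_lit 5) (nat_lit 34) (nat_lit 4) (nat_lit 32) (nat_lit 4) (nat_lit 497) (nat_lit 456) (nat_lit 247)) (XT.nd (nat_lit 78) (nat_lit 76) (nat_lit 0) (XT.lf (nat_lit 0) (nat_lit 716650630562) (nat_lit 76) (nat_lit 1268568318729) (nat_lit 76) (nat_lit 173253492325) (nat_lit 31) (nat_lit 4) (nat_lit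 32) (nat_lit 5) (nat_lit 32) (nat_lit 4) (nat_lit 498) (nat_lit 456) (nat_lit 246)) (XT.lf (nat_lit 0) (nat_lit 437536085638) (nat_lit 152) (nat_lit 185239776042) (nat_lit 76) (nat_lit 1652994334136) (nat_lit 30) (nat_lit 5) (nat_lit 32) (nat_lit 5) (nat_lit 31) (nat_lit 4) (nat_lit 499) (nat_lit 456) (nat_lit 245))))) (XT.nd (nat_lit 234) (nat_lit 228) (nat_lit 0) (XT.nd (nat_lit 78) (nat_lit 152) (nat_lit 0) (XT.lf (nat_lit 0) (nat_lit 1120062837737) (nat_lit 152) (nat_lit 1173567760564) (nat_lit 0) (nat_lit 105882429069) (nat_lit 29) (nat_lit 5) (nat_lit 31) (nat_lit 4) (nat_lit 29) (nat_lit 4) (nat_lit 500) (nat_lit 456) (nat_lit 244)) (XT.nd (nat_lit 78) (nat_lit 76) (nat_lit 0) (XT.lf (nat_lit 0) (nat_lit 222639523251) (nat_lit 76) (nat_lit 1661279016140) (nat_lit 76) (nat_lit 647098601307) (nat_lit 28) (nat_lit 4) (nat_lit 29) (nat_lit 5) (nat_lit 29) (nat_lit 4) (nat_lit 501) (nat_lit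 456) (nat_lit 243)) (XT.lf (nat_lit 0) (nat_lit 66969048796) (nat_lit 152) (nat_lit 874884799043) (nat_lit 76) (nat_lit 1728485108687) (nat_lit 27) (nat_lit 5) (nat_lit 29) (nat_lit 5) (nat_lit 28) (nat_lit 4) (nat_lit 502) (nat_lit 456) (nat_lit 242)))) (XT.nd (nat_lit 156) (nat_lit 152) (nat_lit 0) (XT.nd (nat_lit 78) (nat_lit 0) (nat_lit 0) (XT.lf (nat_lit 0) (nat_lit 691048727741) (nat_lit 76) (nat_lit 128772980704) (nat_lit 152) (nat_lit 1998310610327) (nat_lit 26) (nat_lit 5) (nat_lit 27) (nat_lit 5) (nat_lit 28) (nat_lit 4) (nat_lit 503) (nat_lit 456) (nat_lit 241)) (XT.lf (nat_lit 0) (nat_lit 1675466785363) (nat_lit 152) (nat_lit 562466397284) (nat_lit 0) (nat_lit 736410830991) (nat_lit 26) (nat_lit 5) (nat_lit 28) (nat_lit 4) (nat_lit 26) (nat_lit 4) (nat_lit 504) (nat_lit 456) (nat_lit 240))) (XT.nd (nat_lit 78) (nat_lit 76) (nat_lit 0) (XT.lf (nat_lit 0) (nat_lit 1183161955999)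 (nat_lit 76) (nat_lit 1448201330604) (nat_lit 76) (nat_lit 509145372036) (nat_lit 25) (nat_lit 4) (nat_lit 26) (nat_lit 5) (nat_lit 26) (nat_lit 4) (nat_lit 505) (nat_lit 456) (nat_lit 239)) (XT.lf (nat_lit 0) (nat_lit 342346783611) (nat_lit 152) (nat_lit 226974652540) (nat_lit 76) (nat_lit 2748721372898) (nat_lit 24) (nat_lit 5) (nat_lit 26) (nat_lit 5) (nat_lit 25) (nat_lit 4) (nat_lit 506) (nat_lit 456) (nat_lit 238))))))))
noncomputable def xc211 : XT := (XT.nd (nat_lit 58734) (nat_lit 0) (nat_lit 2888) (XT.nd (nat_lit 936) (nat_lit 456) (nat_lit 0) (XT.nd (nat_lit 468) (nat_lit 380) (nat_lit 0) (XT.nd (nat_lit 234) (nat_lit 228) (nat_lit 0) (XT.nd (nat_lit 78) (nat_lit 76) (nat_lit 0) (XT.lf (nat_lit 0) (nat_lit 1286231945355) (nat_lit 152) (nat_lit 1801611644569) (nat_lit 0) (nat_lit 416735680494) (nat_lit 23) (nat_lit 5) (nat_lit 25) (nat_lit 4) (nat_lit 23) (nat_lit 4) (nat_lit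 507) (nat_lit 456) (nat_lit 237)) (XT.nd (nat_lit 78) (nat_lit 0) (nat_lit 0) (XT.lf (nat_lit 0) (nat_lit 83920631799) (nat_lit 76) (nat_lit 2244880224953) (nat_lit 76) (nat_lit 1375383957008) (nat_lit 22) (nat_lit 4) (nat_lit 23) (nat_lit 5) (nat_lit 23) (nat_lit 4) (nat_lit 508) (nat_lit 456) (nat_lit 236)) (XT.lf (nat_lit 0) (nat_lit 2222754726304) (nat_lit 76) (nat_lit 1281279802619) (nat_lit 76) (nat_lit 411783531818) (nat_lit 22) (nat_lit 4) (nat_lit 23) (nat_lit 5) (nat_lit 23) (nat_lit 4) (nat_lit 509) (nat_lit 456) (nat_lit 235)))) (XT.nd (nat_lit 78) (nat_lit 76) (nat_lit 0) (XT.lf (nat_lit 0) (nat_lit 392839827598) (nat_lit 76) (nat_lit 214052528672) (nat_lit 152) (nat_lit 3535523772886) (nat_lit 20) (nat_lit 5) (nat_lit 21) (nat_lit 5) (nat_lit 22) (nat_lit 4) (nat_lit 510) (nat_lit 456) (nat_lit 234)) (XT.nd (nat_lit 78) (nat_lit 76) (nat_lit 0) (XT.lf (nat_lit 0) (nat_lit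 1754881247341) (nat_lit 152) (nat_lit 1676007763548) (nat_lit 0) (nat_lit 949792102996) (nat_lit 20) (nat_lit 5) (nat_lit 22) (nat_lit 4) (nat_lit 20) (nat_lit 4) (nat_lit 511) (nat_lit 456) (nat_lit 233)) (XT.lf (nat_lit 0) (nat_lit 587263749925) (nat_lit 76) (nat_lit 2427129006680) (nat_lit 76) (nat_lit 1622039860235) (nat_lit 19) (nat_lit 4) (nat_lit 20) (nat_lit 5) (nat_lit 20) (nat_lit 4) (nat_lit 512) (nat_lit 456) (nat_lit 232))))) (XT.nd (nat_lit 234) (nat_lit 228) (nat_lit 0) (XT.nd (nat_lit 78) (nat_lit 152) (nat_lit 0) (XT.lf (nat_lit 0) (nat_lit 3126913018543) (nat_lit 76) (nat_lit 1293577184289) (nat_lit 76) (nat_lit 488488035901) (nat_lit 19) (nat_lit 4) (nat_lit 20) (nat_lit 5) (nat_lit 20) (nat_lit 4) (nat_lit 513) (nat_lit 456) (nat_lit 231)) (XT.nd (nat_lit 78) (nat_lit 0) (nat_lit 0) (XT.lf (nat_lit 0) (nat_lit 682871972572) (nat_lit 76) (nat_lit 32493951831) (nat_lit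 152) (nat_lit 4485232159016) (nat_lit 17) (nat_lit 5) (nat_lit 18) (nat_lit 5) (nat_lit 19) (nat_lit 4) (nat_lit 514) (nat_lit 456) (nat_lit 230)) (XT.lf (nat_lit 0) (nat_lit 2071101483038) (nat_lit 152) (nat_lit 2111225282035) (nat_lit 0) (nat_lit 1325648564655) (nat_lit 17) (nat_lit 5) (nat_lit 19) (nat_lit 4) (nat_lit 17) (nat_lit 4) (nat_lit 515) (nat_lit 456) (nat_lit 229)))) (XT.nd (nat_lit 78) (nat_lit 152) (nat_lit 0) (XT.lf (nat_lit 0) (nat_lit 512593611780) (nat_lit 76) (nat_lit 3035874156605) (nat_lit 76) (nat_lit 2290421236794) (nat_lit 16) (nat_lit 4) (nat_lit 17) (nat_lit 5) (nat_lit 17) (nat_lit 4) (nat_lit 516) (nat_lit 456) (nat_lit 228)) (XT.nd (nat_lit 78) (nat_lit 152) (nat_lit 0) (XT.lf (nat_lit 0) (nat_lit 3466385258847) (nat_lit 76) (nat_lit 1735362733064) (nat_lit 76) (nat_lit 989909811929) (nat_lit 16) (nat_lit 4) (nat_lit 17) (nat_lit 5) (nat_lit 17) (nat_lit 4)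 (nat_lit 517) (nat_lit 456) (nat_lit 227)) (XT.lf (nat_lit 0) (nat_lit 77749292836) (nat_lit 76) (nat_lit 318021002930) (nat_lit 152) (nat_lit 6175930448219) (nat_lit 14) (nat_lit 5) (nat_lit 15) (nat_lit 5) (nat_lit 16) (nat_lit 4) (nat_lit 518) (nat_lit 456) (nat_lit 226)))))) (XT.nd (nat_lit 468) (nat_lit 228) (nat_lit 0) (XT.nd (nat_lit 234) (nat_lit 152) (nat_lit 0) (XT.nd (nat_lit 78) (nat_lit 76) (nat_lit 0) (XT.lf (nat_lit 0) (nat_lit 1944438827294) (nat_lit 152) (nat_lit 3772997509160) (nat_lit 0) (nat_lit 1254204638875) (nat_lit 14) (nat_lit 5) (nat_lit 16) (nat_lit 4) (nat_lit 14) (nat_lit 4) (nat_lit 519) (nat_lit 456) (nat_lit 225)) (XT.nd (nat_lit 78) (nat_lit 76) (nat_lit 0) (XT.lf (nat_lit 0) (nat_lit 3625261122504) (nat_lit 152) (nat_lit 842627547071) (nat_lit 0) (nat_lit 2935026933112) (nat_lit 14) (nat_lit 5) (nat_lit 16) (nat_lit 4) (nat_lit 14) (nat_lit 4) (nat_lit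 520) (nat_lit 456) (nat_lit 224)) (XT.lf (nat_lit 0) (nat_lit 2444453465663) (nat_lit 76) (nat_lit 3054884896017) (nat_lit 76) (nat_lit 2364650705725) (nat_lit 13) (nat_lit 4) (nat_lit 14) (nat_lit 5) (nat_lit 14) (nat_lit 4) (nat_lit 521) (nat_lit 456) (nat_lit 223)))) (XT.nd (nat_lit 78) (nat_lit 152) (nat_lit 0) (XT.lf (nat_lit 0) (nat_lit 6042421926105) (nat_lit 76) (nat_lit 1503958780113) (nat_lit 76) (nat_lit 813724588987) (nat_lit 13) (nat_lit 4) (nat_lit 14) (nat_lit 5) (nat_lit 14) (nat_lit 4) (nat_lit 522) (nat_lit 456) (nat_lit 222)) (XT.nd (nat_lit 78) (nat_lit 0) (nat_lit 0) (XT.lf (nat_lit 0) (nat_lit 849118098311) (nat_lit 152) (nat_lit 7832649103837) (nat_lit 0) (nat_lit 210012365072) (nat_lit 11) (nat_lit 5) (nat_lit 13) (nat_lit 4) (nat_lit 11) (nat_lit 4) (nat_lit 523) (nat_lit 456) (nat_lit 221)) (XT.lf (nat_lit 0) (nat_lit 2705105331013) (nat_lit 152) (nat_lit 4684865645068)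 (nat_lit 0) (nat_lit 2065999597113) (nat_lit 11) (nat_lit 5) (nat_lit 13) (nat_lit 4) (nat_lit 11) (nat_lit 4) (nat_lit 524) (nat_lit 456) (nat_lit 220))))) (XT.nd (nat_lit 234) (nat_lit 152) (nat_lit 0) (XT.nd (nat_lit 78) (nat_lit 76) (nat_lit 0) (XT.lf (nat_lit 0) (nat_lit 4709571538664) (nat_lit 152) (nat_lit 1285259517124) (nat_lit 0) (nat_lit 4070465804152) (nat_lit 11) (nat_lit 5) (nat_lit 13) (nat_lit 4) (nat_lit 11) (nat_lit 4) (nat_lit 525) (nat_lit 456) (nat_lit 219)) (XT.nd (nat_lit 78) (nat_lit 0) (nat_lit 0) (XT.lf (nat_lit 0) (nat_lit 2511974218028) (nat_lit 76) (nat_lit 4422833861860) (nat_lit 76) (nat_lit 3783728126780) (nat_lit 10) (nat_lit 4) (nat_lit 11) (nat_lit 5) (nat_lit 11) (nat_lit 4) (nat_lit 526) (nat_lit 456) (nat_lit 218)) (XT.lf (nat_lit 0) (nat_lit 6686080492777) (nat_lit 76) (nat_lit 2687124321199) (nat_lit 76) (nat_lit 2048018585593) (nat_lit 10) (nat_lit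 4) (nat_lit 11) (nat_lit 5) (nat_lit 11) (nat_lit 4) (nat_lit 527) (nat_lit 456) (nat_lit 217)))) (XT.nd (nat_lit 56940) (nat_lit 0) (nat_lit 5548) (XT.nd (nat_lit 78) (nat_lit 152) (nat_lit 0) (XT.lf (nat_lit 0) (nat_lit 11194115263218) (nat_lit 76) (nat_lit 812558020511) (nat_lit 76) (nat_lit 173452284419) (nat_lit 10) (nat_lit 4) (nat_lit 11) (nat_lit 5) (nat_lit 11) (nat_lit 4) (nat_lit 528) (nat_lit 456) (nat_lit 216)) (XT.lf (nat_lit 0) (nat_lit 1867188642730) (nat_lit 152) (nat_lit 9844869090937) (nat_lit 0) (nat_lit 1275424071858) (nat_lit 8) (nat_lit 5) (nat_lit 10) (nat_lit 4) (nat_lit 8) (nat_lit 4) (nat_lit 529) (nat_lit 456) (nat_lit 215))) (XT.nd (nat_lit 78) (nat_lit 0) (nat_lit 0) (XT.lf (nat_lit 0) (nat_lit 158201074729) (nat_lit 532) (nat_lit 2505445597) (nat_lit 532) (nat_lit 2505445597) (nat_lit 81) (nat_lit 3) (nat_lit 88) (nat_lit 3) (nat_lit 88) (nat_lit 5) (nat_lit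 457) (nat_lit 457) (nat_lit 286)) (XT.lf (nat_lit 76) (nat_lit 165158272453) (nat_lit 0) (nat_lit 167872602453) (nat_lit 532) (nat_lit 6132202905) (nat_lit 82) (nat_lit 5) (nat_lit 81) (nat_lit 3) (nat_lit 88) (nat_lit 5) (nat_lit 458) (nat_lit 457) (nat_lit 285))))))) (XT.nd (nat_lit 936) (nat_lit 1444) (nat_lit 0) (XT.nd (nat_lit 468) (nat_lit 760) (nat_lit 0) (XT.nd (nat_lit 234) (nat_lit 0) (nat_lit 76) (XT.nd (nat_lit 78) (nat_lit 456) (nat_lit 0) (XT.lf (nat_lit 76) (nat_lit 349225910078) (nat_lit 0) (nat_lit 1900936232) (nat_lit 532) (nat_lit 1783553321) (nat_lit 82) (nat_lit 5) (nat_lit 81) (nat_lit 3) (nat_lit 88) (nat_lit 5) (nat_lit 459) (nat_lit 457) (nat_lit 284)) (XT.nd (nat_lit 78) (nat_lit 0) (nat_lit 0) (XT.lf (nat_lit 0) (nat_lit 11714563059) (nat_lit 532) (nat_lit 182092587704) (nat_lit 608) (nat_lit 173228968310) (nat_lit 75) (nat_lit 5) (nat_lit 82) (nat_lit 5) (nat_lit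 83) (nat_lit 5) (nat_lit 460) (nat_lit 457) (nat_lit 283)) (XT.lf (nat_lit 76) (nat_lit 6830849105) (nat_lit 0) (nat_lit 19682283627) (nat_lit 608) (nat_lit 355749700288) (nat_lit 76) (nat_lit 5) (nat_lit 75) (nat_lit 5) (nat_lit 83) (nat_lit 5) (nat_lit 461) (nat_lit 457) (nat_lit 282)))) (XT.nd (nat_lit 78) (nat_lit 0) (nat_lit 0) (XT.lf (nat_lit 0) (nat_lit 51652955524) (nat_lit 532) (nat_lit 181264180466) (nat_lit 608) (nat_lit 165057958702) (nat_lit 76) (nat_lit 5) (nat_lit 83) (nat_lit 5) (nat_lit 84) (nat_lit 5) (nat_lit 462) (nat_lit 457) (nat_lit 281)) (XT.nd (nat_lit 78) (nat_lit 0) (nat_lit 76) (XT.lf (nat_lit 76) (nat_lit 29396303705) (nat_lit 0) (nat_lit 50625825305) (nat_lit 608) (nat_lit 334824755109) (nat_lit 77) (nat_lit 5) (nat_lit 76) (nat_lit 5) (nat_lit 84) (nat_lit 5) (nat_lit 463) (nat_lit 457) (nat_lit 280)) (XT.lf (nat_lit 0) (nat_lit 119262894188) (nat_lit 532)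 (nat_lit 169099705382) (nat_lit 76) (nat_lit 144017652514) (nat_lit 77) (nat_lit 5) (nat_lit 84) (nat_lit 5) (nat_lit 78) (nat_lit 5) (nat_lit 464) (nat_lit 457) (nat_lit 279))))) (XT.nd (nat_lit 234) (nat_lit 228) (nat_lit 0) (XT.nd (nat_lit 78) (nat_lit 228) (nat_lit 0) (XT.lf (nat_lit 0) (nat_lit 66574575852) (nat_lit 456) (nat_lit 97984382042) (nat_lit 532) (nat_lit 286524048616) (nat_lit 71) (nat_lit 5) (nat_lit 77) (nat_lit 5) (nat_lit 78) (nat_lit 5) (nat_lit 465) (nat_lit 457) (nat_lit 278)) (XT.nd (nat_lit 78) (nat_lit 228) (nat_lit 0) (XT.lf (nat_lit 0) (nat_lit 220810607601) (nat_lit 532) (nat_lit 142900944620) (nat_lit 76) (nat_lit 106983877006) (nat_lit 71) (nat_lit 5) (nat_lit 78) (nat_lit 5) (nat_lit 72) (nat_lit 5) (nat_lit 466) (nat_lit 457) (nat_lit 277)) (XT.lf (nat_lit 0) (nat_lit 121571556674) (nat_lit 228) (nat_lit 165459645846) (nat_lit 304) (nat_lit 204408138189)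 (nat_lit 68) (nat_lit 5) (nat_lit 71) (nat_lit 5) (nat_lit 72) (nat_lit 5) (nat_lit 467) (nat_lit 457) (nat_lit 276)))) (XT.nd (nat_lit 78) (nat_lit 228) (nat_lit 0) (XT.lf (nat_lit 0) (nat_lit 363728153743) (nat_lit 304) (nat_lit 99473045025) (nat_lit 76) (nat_lit 50227269653) (nat_lit 68) (nat_lit 5) (nat_lit 72) (nat_lit 5) (nat_lit 69) (nat_lit 5) (nat_lit 468) (nat_lit 457) (nat_lit 275)) (XT.nd (nat_lit 78) (nat_lit 0) (nat_lit 0) (XT.lf (nat_lit 0) (nat_lit 198168790236) (nat_lit 228) (nat_lit 257455657701) (nat_lit 304) (nat_lit 80827191469) (nat_lit 65) (nat_lit 5) (nat_lit 68) (nat_lit 5) (nat_lit 69) (nat_lit 5) (nat_lit 469) (nat_lit 457) (nat_lit 274)) (XT.lf (nat_lit 0) (nat_lit 525279058216) (nat_lit 228) (nat_lit 32313127779) (nat_lit 304) (nat_lit 3506898856) (nat_lit 65) (nat_lit 5) (nat_lit 68) (nat_lit 5) (nat_lit 69) (nat_lit 5) (nat_lit 470) (nat_lit 457) (nat_lit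 273)))))) (XT.nd (nat_lit 468) (nat_lit 608) (nat_lit 0) (XT.nd (nat_lit 234) (nat_lit 380) (nat_lit 0) (XT.nd (nat_lit 78) (nat_lit 228) (nat_lit 0) (XT.lf (nat_lit 0) (nat_lit 88622121272) (nat_lit 228) (nat_lit 288160341382) (nat_lit 76) (nat_lit 209771946704) (nat_lit 62) (nat_lit 5) (nat_lit 65) (nat_lit 5) (nat_lit 63) (nat_lit 5) (nat_lit 471) (nat_lit 457) (nat_lit 272)) (XT.nd (nat_lit 78) (nat_lit 0) (nat_lit 0) (XT.lf (nat_lit 0) (nat_lit 48905169078) (nat_lit 228) (nat_lit 142047097901) (nat_lit 304) (nat_lit 422844984380) (nat_lit 59) (nat_lit 5) (nat_lit 62) (nat_lit 5) (nat_lit 63) (nat_lit 5) (nat_lit 472) (nat_lit 457) (nat_lit 271)) (XT.lf (nat_lit 0) (nat_lit 312233044124) (nat_lit 304) (nat_lit 216150827430) (nat_lit 76) (nat_lit 113974511590) (nat_lit 59) (nat_lit 5) (nat_lit 63) (nat_lit 5) (nat_lit 60) (nat_lit 5) (nat_lit 473) (nat_lit 457) (nat_lit 270)))) (XT.nd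 (nat_lit 78) (nat_lit 228) (nat_lit 0) (XT.lf (nat_lit 0) (nat_lit 165056978660) (nat_lit 152) (nat_lit 285818440497) (nat_lit 228) (nat_lit 221716255461) (nat_lit 57) (nat_lit 5) (nat_lit 59) (nat_lit 5) (nat_lit 60) (nat_lit 5) (nat_lit 474) (nat_lit 457) (nat_lit 269)) (XT.nd (nat_lit 78) (nat_lit 228) (nat_lit 0) (XT.lf (nat_lit 0) (nat_lit 589054066452) (nat_lit 152) (nat_lit 17465041797) (nat_lit 228) (nat_lit 98251727240) (nat_lit 57) (nat_lit 5) (nat_lit 59) (nat_lit 5) (nat_lit 60) (nat_lit 5) (nat_lit 475) (nat_lit 457) (nat_lit 268)) (XT.lf (nat_lit 0) (nat_lit 47870407896) (nat_lit 228) (nat_lit 422861767330) (nat_lit 76) (nat_lit 267561777911) (nat_lit 54) (nat_lit 5) (nat_lit 57) (nat_lit 5) (nat_lit 55) (nat_lit 5) (nat_lit 476) (nat_lit 457) (nat_lit 267))))) (XT.nd (nat_lit 234) (nat_lit 304) (nat_lit 0) (XT.nd (nat_lit 78) (nat_lit 152) (nat_lit 0) (XT.lf (nat_lit 0) (nat_lit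 10863773163) (nat_lit 152) (nat_lit 193471366826) (nat_lit 228) (nat_lit 569642743065) (nat_lit 52) (nat_lit 5) (nat_lit 54) (nat_lit 5) (nat_lit 55) (nat_lit 5) (nat_lit 477) (nat_lit 457) (nat_lit 266)) (XT.nd (nat_lit 78) (nat_lit 152) (nat_lit 0) (XT.lf (nat_lit 0) (nat_lit 387727715114) (nat_lit 228) (nat_lit 311104630373) (nat_lit 76) (nat_lit 112531328723) (nat_lit 52) (nat_lit 5) (nat_lit 55) (nat_lit 5) (nat_lit 53) (nat_lit 5) (nat_lit 478) (nat_lit 457) (nat_lit 265)) (XT.lf (nat_lit 0) (nat_lit 181099687529) (nat_lit 152) (nat_lit 414072672088) (nat_lit 228) (nat_lit 255817515976) (nat_lit 50) (nat_lit 5) (nat_lit 52) (nat_lit 5) (nat_lit 53) (nat_lit 5) (nat_lit 479) (nat_lit 457) (nat_lit 264)))) (XT.nd (nat_lit 156) (nat_lit 152) (nat_lit 0) (XT.nd (nat_lit 78) (nat_lit 152) (nat_lit 0) (XT.lf (nat_lit 0) (nat_lit 730373118105) (nat_lit 152) (nat_lit 97345591417) (nat_lit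 228) (nat_lit 65386972860) (nat_lit 50) (nat_lit 5) (nat_lit 52) (nat_lit 5) (nat_lit 53) (nat_lit 5) (nat_lit 480) (nat_lit 457) (nat_lit 263)) (XT.lf (nat_lit 0) (nat_lit 149146174260) (nat_lit 152) (nat_lit 542052443563) (nat_lit 76) (nat_lit 245851405929) (nat_lit 48) (nat_lit 5) (nat_lit 50) (nat_lit 5) (nat_lit 49) (nat_lit 5) (nat_lit 481) (nat_lit 457) (nat_lit 262))) (XT.nd (nat_lit 78) (nat_lit 0) (nat_lit 0) (XT.lf (nat_lit 0) (nat_lit 19057855238) (nat_lit 152) (nat_lit 365803270454) (nat_lit 228) (nat_lit 598908777912) (nat_lit 46) (nat_lit 5) (nat_lit 48) (nat_lit 5) (nat_lit 49) (nat_lit 5) (nat_lit 482) (nat_lit 457) (nat_lit 261)) (XT.lf (nat_lit 0) (nat_lit 654293133508) (nat_lit 228) (nat_lit 377196969756) (nat_lit 76) (nat_lit 1548481761) (nat_lit 46) (nat_lit 5) (nat_lit 49) (nat_lit 5) (nat_lit 47) (nat_lit 4) (nat_lit 483) (nat_lit 457) (nat_lit 260))))))))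
noncomputable def xc212 : XT := (XT.nd (nat_lit 1950) (nat_lit 988) (nat_lit 0) (XT.nd (nat_lit 936) (nat_lit 912) (nat_lit 0) (XT.nd (nat_lit 468) (nat_lit 304) (nat_lit 0) (XT.nd (nat_lit 234) (nat_lit 228) (nat_lit 0) (XT.nd (nat_lit 78) (nat_lit 228) (nat_lit 0) (XT.lf (nat_lit 0) (nat_lit 260867557074) (nat_lit 76) (nat_lit 700187384293) (nat_lit 152) (nat_lit 123931800440) (nat_lit 45) (nat_lit 5) (nat_lit 46) (nat_lit 5) (nat_lit 47) (nat_lit 4) (nat_lit 484) (nat_lit 457) (nat_lit 259)) (XT.nd (nat_lit 78) (nat_lit 152) (nat_lit 0) (XT.lf (nat_lit 0) (nat_lit 154281052295) (nat_lit 152) (nat_lit 172742796587) (nat_lit 76) (nat_lit 812929376789) (nat_lit 44) (nat_lit 5) (nat_lit 46) (nat_lit 5) (nat_lit 45) (nat_lit 5) (nat_lit 485) (nat_lit 457) (nat_lit 258)) (XT.lf (nat_lit 0) (nat_lit 463668560786) (nat_lit 228) (nat_lit 644946042398) (nat_lit 76) (nat_lit 89195851334) (nat_lit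 42) (nat_lit 5) (nat_lit 45) (nat_lit 5) (nat_lit 43) (nat_lit 4) (nat_lit 486) (nat_lit 457) (nat_lit 257)))) (XT.nd (nat_lit 78) (nat_lit 152) (nat_lit 0) (XT.lf (nat_lit 0) (nat_lit 81906274596) (nat_lit 76) (nat_lit 731210527358) (nat_lit 152) (nat_lit 445954681161) (nat_lit 41) (nat_lit 5) (nat_lit 42) (nat_lit 5) (nat_lit 43) (nat_lit 4) (nat_lit 487) (nat_lit 457) (nat_lit 256)) (XT.nd (nat_lit 78) (nat_lit 152) (nat_lit 0) (XT.lf (nat_lit 0) (nat_lit 903585405918) (nat_lit 76) (nat_lit 304569450908) (nat_lit 152) (nat_lit 115667820823) (nat_lit 41) (nat_lit 5) (nat_lit 42) (nat_lit 5) (nat_lit 43) (nat_lit 4) (nat_lit 488) (nat_lit 457) (nat_lit 255)) (XT.lf (nat_lit 0) (nat_lit 243058811488) (nat_lit 152) (nat_lit 984601299329) (nat_lit 76) (nat_lit 164504114109) (nat_lit 39) (nat_lit 5) (nat_lit 41) (nat_lit 5) (nat_lit 40) (nat_lit 4) (nat_lit 489) (nat_lit 457) (nat_lit 254)))))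 (XT.nd (nat_lit 234) (nat_lit 152) (nat_lit 0) (XT.nd (nat_lit 78) (nat_lit 152) (nat_lit 0) (XT.lf (nat_lit 0) (nat_lit 643933864143) (nat_lit 152) (nat_lit 150781207916) (nat_lit 76) (nat_lit 669441726694) (nat_lit 39) (nat_lit 5) (nat_lit 41) (nat_lit 5) (nat_lit 40) (nat_lit 4) (nat_lit 490) (nat_lit 457) (nat_lit 253)) (XT.nd (nat_lit 78) (nat_lit 76) (nat_lit 0) (XT.lf (nat_lit 0) (nat_lit 789224684622) (nat_lit 76) (nat_lit 306635097455) (nat_lit 152) (nat_lit 444530527523) (nat_lit 38) (nat_lit 5) (nat_lit 39) (nat_lit 5) (nat_lit 40) (nat_lit 4) (nat_lit 491) (nat_lit 457) (nat_lit 252)) (XT.lf (nat_lit 0) (nat_lit 194955982953) (nat_lit 76) (nat_lit 1403205002207) (nat_lit 76) (nat_lit 23423819220) (nat_lit 37) (nat_lit 4) (nat_lit 38) (nat_lit 5) (nat_lit 38) (nat_lit 4) (nat_lit 492) (nat_lit 457) (nat_lit 251)))) (XT.nd (nat_lit 78) (nat_lit 76) (nat_lit 0) (XT.lf (nat_lit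 0) (nat_lit 438828675650) (nat_lit 152) (nat_lit 467017550944) (nat_lit 76) (nat_lit 800275777042) (nat_lit 36) (nat_lit 5) (nat_lit 38) (nat_lit 5) (nat_lit 37) (nat_lit 4) (nat_lit 493) (nat_lit 457) (nat_lit 250)) (XT.nd (nat_lit 78) (nat_lit 0) (nat_lit 0) (XT.lf (nat_lit 0) (nat_lit 598703778150) (nat_lit 76) (nat_lit 352490927028) (nat_lit 152) (nat_lit 845026894405) (nat_lit 35) (nat_lit 5) (nat_lit 36) (nat_lit 5) (nat_lit 37) (nat_lit 4) (nat_lit 494) (nat_lit 457) (nat_lit 249)) (XT.lf (nat_lit 0) (nat_lit 1523546208346) (nat_lit 152) (nat_lit 122492254946) (nat_lit 0) (nat_lit 245971004612) (nat_lit 35) (nat_lit 5) (nat_lit 37) (nat_lit 4) (nat_lit 35) (nat_lit 4) (nat_lit 495) (nat_lit 457) (nat_lit 248)))))) (XT.nd (nat_lit 468) (nat_lit 456) (nat_lit 0) (XT.nd (nat_lit 234) (nat_lit 228) (nat_lit 0) (XT.nd (nat_lit 78) (nat_lit 76) (nat_lit 0) (XT.lf (nat_lit 0) (nat_lit 175041218462)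 (nat_lit 152) (nat_lit 913489479114) (nat_lit 76) (nat_lit 903757886644) (nat_lit 33) (nat_lit 5) (nat_lit 35) (nat_lit 5) (nat_lit 34) (nat_lit 4) (nat_lit 496) (nat_lit 457) (nat_lit 247)) (XT.nd (nat_lit 78) (nat_lit 0) (nat_lit 0) (XT.lf (nat_lit 0) (nat_lit 287565633389) (nat_lit 76) (nat_lit 464905931978) (nat_lit 152) (nat_lit 1346524658763) (nat_lit 32) (nat_lit 5) (nat_lit 33) (nat_lit 5) (nat_lit 34) (nat_lit 4) (nat_lit 497) (nat_lit 457) (nat_lit 246)) (XT.lf (nat_lit 0) (nat_lit 1406738536884) (nat_lit 152) (nat_lit 581252054386) (nat_lit 0) (nat_lit 223798508214) (nat_lit 32) (nat_lit 5) (nat_lit 34) (nat_lit 4) (nat_lit 32) (nat_lit 4) (nat_lit 498) (nat_lit 457) (nat_lit 245)))) (XT.nd (nat_lit 78) (nat_lit 152) (nat_lit 0) (XT.lf (nat_lit 0) (nat_lit 773983034948) (nat_lit 76) (nat_lit 1370053611670) (nat_lit 76) (nat_lit 187113575809) (nat_lit 31) (nat_lit 4) (nat_lit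 32) (nat_lit 5) (nat_lit 32) (nat_lit 4) (nat_lit 499) (nat_lit 457) (nat_lit 244)) (XT.nd (nat_lit 78) (nat_lit 76) (nat_lit 0) (XT.lf (nat_lit 0) (nat_lit 472539144806) (nat_lit 152) (nat_lit 200058621322) (nat_lit 76) (nat_lit 1785234031562) (nat_lit 30) (nat_lit 5) (nat_lit 32) (nat_lit 5) (nat_lit 31) (nat_lit 4) (nat_lit 500) (nat_lit 457) (nat_lit 243)) (XT.lf (nat_lit 0) (nat_lit 1209668036072) (nat_lit 152) (nat_lit 1267452843598) (nat_lit 0) (nat_lit 114353176178) (nat_lit 29) (nat_lit 5) (nat_lit 31) (nat_lit 4) (nat_lit 29) (nat_lit 4) (nat_lit 501) (nat_lit 457) (nat_lit 242))))) (XT.nd (nat_lit 234) (nat_lit 228) (nat_lit 0) (XT.nd (nat_lit 78) (nat_lit 152) (nat_lit 0) (XT.lf (nat_lit 0) (nat_lit 240451014369) (nat_lit 76) (nat_lit 1794181174717) (nat_lit 76) (nat_lit 698866309538) (nat_lit 28) (nat_lit 4) (nat_lit 29) (nat_lit 5) (nat_lit 29) (nat_lit 4) (nat_lit 502) (nat_lit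 457) (nat_lit 241)) (XT.nd (nat_lit 78) (nat_lit 76) (nat_lit 0) (XT.lf (nat_lit 0) (nat_lit 72326730918) (nat_lit 152) (nat_lit 944875269762) (nat_lit 76) (nat_lit 1866764059707) (nat_lit 27) (nat_lit 5) (nat_lit 29) (nat_lit 5) (nat_lit 28) (nat_lit 4) (nat_lit 503) (nat_lit 457) (nat_lit 240)) (XT.lf (nat_lit 0) (nat_lit 746332931236) (nat_lit 76) (nat_lit 139074667725) (nat_lit 152) (nat_lit 2158175293002) (nat_lit 26) (nat_lit 5) (nat_lit 27) (nat_lit 5) (nat_lit 28) (nat_lit 4) (nat_lit 504) (nat_lit 457) (nat_lit 239)))) (XT.nd (nat_lit 156) (nat_lit 152) (nat_lit 0) (XT.nd (nat_lit 78) (nat_lit 76) (nat_lit 0) (XT.lf (nat_lit 0) (nat_lit 1809504274009) (nat_lit 152) (nat_lit 607463418376) (nat_lit 0) (nat_lit 795323830675) (nat_lit 26) (nat_lit 5) (nat_lit 28) (nat_lit 4) (nat_lit 26) (nat_lit 4) (nat_lit 505) (nat_lit 457) (nat_lit 238)) (XT.lf (nat_lit 0) (nat_lit 1277815195811)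 (nat_lit 76) (nat_lit 1564057295551) (nat_lit 76) (nat_lit 549876848619) (nat_lit 25) (nat_lit 4) (nat_lit 26) (nat_lit 5) (nat_lit 26) (nat_lit 4) (nat_lit 506) (nat_lit 457) (nat_lit 237))) (XT.nd (nat_lit 78) (nat_lit 76) (nat_lit 0) (XT.lf (nat_lit 0) (nat_lit 369734661038) (nat_lit 152) (nat_lit 245132355302) (nat_lit 76) (nat_lit 2968619206651) (nat_lit 24) (nat_lit 5) (nat_lit 26) (nat_lit 5) (nat_lit 25) (nat_lit 4) (nat_lit 507) (nat_lit 457) (nat_lit 236)) (XT.lf (nat_lit 0) (nat_lit 1389130635220) (nat_lit 152) (nat_lit 1945740306189) (nat_lit 0) (nat_lit 450074659900) (nat_lit 23) (nat_lit 5) (nat_lit 25) (nat_lit 4) (nat_lit 23) (nat_lit 4) (nat_lit 508) (nat_lit 457) (nat_lit 235))))))) (XT.nd (nat_lit 936) (nat_lit 304) (nat_lit 0) (XT.nd (nat_lit 468) (nat_lit 380) (nat_lit 0) (XT.nd (nat_lit 234) (nat_lit 76) (nat_lit 0) (XT.nd (nat_lit 78) (nat_lit 152) (nat_lit 0) (XT.lf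 (nat_lit 0) (nat_lit 90634545454) (nat_lit 76) (nat_lit 2424470510460) (nat_lit 76) (nat_lit 1485414532495) (nat_lit 22) (nat_lit 4) (nat_lit 23) (nat_lit 5) (nat_lit 23) (nat_lit 4) (nat_lit 509) (nat_lit 457) (nat_lit 234)) (XT.nd (nat_lit 78) (nat_lit 152) (nat_lit 0) (XT.lf (nat_lit 0) (nat_lit 2400575348030) (nat_lit 76) (nat_lit 1383782064153) (nat_lit 76) (nat_lit 444726083740) (nat_lit 22) (nat_lit 4) (nat_lit 23) (nat_lit 5) (nat_lit 23) (nat_lit 4) (nat_lit 510) (nat_lit 457) (nat_lit 233)) (XT.lf (nat_lit 0) (nat_lit 424267257631) (nat_lit 76) (nat_lit 231176607902) (nat_lit 152) (nat_lit 3818365544291) (nat_lit 20) (nat_lit 5) (nat_lit 21) (nat_lit 5) (nat_lit 22) (nat_lit 4) (nat_lit 511) (nat_lit 457) (nat_lit 232)))) (XT.nd (nat_lit 78) (nat_lit 76) (nat_lit 0) (XT.lf (nat_lit 0) (nat_lit 1895271861686) (nat_lit 152) (nat_lit 1810088152660) (nat_lit 0) (nat_lit 1025775579483)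 (nat_lit 20) (nat_lit 5) (nat_lit 22) (nat_lit 4) (nat_lit 20) (nat_lit 4) (nat_lit 512) (nat_lit 457) (nat_lit 231)) (XT.nd (nat_lit 78) (nat_lit 0) (nat_lit 0) (XT.lf (nat_lit 0) (nat_lit 634245076017) (nat_lit 76) (nat_lit 2621299212625) (nat_lit 76) (nat_lit 1751802928623) (nat_lit 19) (nat_lit 4) (nat_lit 20) (nat_lit 5) (nat_lit 20) (nat_lit 4) (nat_lit 513) (nat_lit 457) (nat_lit 230)) (XT.lf (nat_lit 0) (nat_lit 3377066269377) (nat_lit 76) (nat_lit 1397063252931) (nat_lit 76) (nat_lit 527566967263) (nat_lit 19) (nat_lit 4) (nat_lit 20) (nat_lit 5) (nat_lit 20) (nat_lit 4) (nat_lit 514) (nat_lit 457) (nat_lit 229))))) (XT.nd (nat_lit 234) (nat_lit 152) (nat_lit 0) (XT.nd (nat_lit 78) (nat_lit 76) (nat_lit 0) (XT.lf (nat_lit 0) (nat_lit 737501939867) (nat_lit 76) (nat_lit 35093361612) (nat_lit 152) (nat_lit 4844050620362) (nat_lit 17) (nat_lit 5) (nat_lit 18) (nat_lit 5) (nat_lit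 19) (nat_lit 4) (nat_lit 515) (nat_lit 457) (nat_lit 228)) (XT.nd (nat_lit 78) (nat_lit 76) (nat_lit 0) (XT.lf (nat_lit 0) (nat_lit 2236789699535) (nat_lit 152) (nat_lit 2280123105355) (nat_lit 0) (nat_lit 1431700543387) (nat_lit 17) (nat_lit 5) (nat_lit 19) (nat_lit 4) (nat_lit 17) (nat_lit 4) (nat_lit 516) (nat_lit 457) (nat_lit 227)) (XT.lf (nat_lit 0) (nat_lit 553601294921) (nat_lit 76) (nat_lit 3278743990211) (nat_lit 76) (nat_lit 2473654832838) (nat_lit 16) (nat_lit 4) (nat_lit 17) (nat_lit 5) (nat_lit 17) (nat_lit 4) (nat_lit 517) (nat_lit 457) (nat_lit 226)))) (XT.nd (nat_lit 78) (nat_lit 152) (nat_lit 0) (XT.lf (nat_lit 0) (nat_lit 3743696259368) (nat_lit 76) (nat_lit 1874191660113) (nat_lit 76) (nat_lit 1069102501607) (nat_lit 16) (nat_lit 4) (nat_lit 17) (nat_lit 5) (nat_lit 17) (nat_lit 4) (nat_lit 518) (nat_lit 457) (nat_lit 225)) (XT.nd (nat_lit 78) (nat_lit 0) (nat_lit 0)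 (XT.lf (nat_lit 0) (nat_lit 83969416171) (nat_lit 76) (nat_lit 343462591390) (nat_lit 152) (nat_lit 6670004788891) (nat_lit 14) (nat_lit 5) (nat_lit 15) (nat_lit 5) (nat_lit 16) (nat_lit 4) (nat_lit 519) (nat_lit 457) (nat_lit 224)) (XT.lf (nat_lit 0) (nat_lit 2099994017126) (nat_lit 152) (nat_lit 4074837138825) (nat_lit 0) (nat_lit 1354541090711) (nat_lit 14) (nat_lit 5) (nat_lit 16) (nat_lit 4) (nat_lit 14) (nat_lit 4) (nat_lit 520) (nat_lit 457) (nat_lit 223)))))) (XT.nd (nat_lit 468) (nat_lit 76) (nat_lit 0) (XT.nd (nat_lit 234) (nat_lit 152) (nat_lit 0) (XT.nd (nat_lit 78) (nat_lit 76) (nat_lit 0) (XT.lf (nat_lit 0) (nat_lit 3915282089756) (nat_lit 152) (nat_lit 910037592441) (nat_lit 0) (nat_lit 3169829162507) (nat_lit 14) (nat_lit 5) (nat_lit 16) (nat_lit 4) (nat_lit 14) (nat_lit 4) (nat_lit 521) (nat_lit 457) (nat_lit 222)) (XT.nd (nat_lit 78) (nat_lit 0) (nat_lit 0) (XT.lf (nat_lit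 0) (nat_lit 2640009897302) (nat_lit 76) (nat_lit 3299275608741) (nat_lit 76) (nat_lit 2553822680720) (nat_lit 13) (nat_lit 4) (nat_lit 14) (nat_lit 5) (nat_lit 14) (nat_lit 4) (nat_lit 522) (nat_lit 457) (nat_lit 221)) (XT.lf (nat_lit 0) (nat_lit 6525815823143) (nat_lit 76) (nat_lit 1624275409413) (nat_lit 76) (nat_lit 878822480677) (nat_lit 13) (nat_lit 4) (nat_lit 14) (nat_lit 5) (nat_lit 14) (nat_lit 4) (nat_lit 523) (nat_lit 457) (nat_lit 220)))) (XT.nd (nat_lit 78) (nat_lit 0) (nat_lit 0) (XT.lf (nat_lit 0) (nat_lit 917047617724) (nat_lit 152) (nat_lit 8459260885312) (nat_lit 0) (nat_lit 226813423837) (nat_lit 11) (nat_lit 5) (nat_lit 13) (nat_lit 4) (nat_lit 11) (nat_lit 4) (nat_lit 524) (nat_lit 457) (nat_lit 219)) (XT.nd (nat_lit 78) (nat_lit 0) (nat_lit 0) (XT.lf (nat_lit 0) (nat_lit 2921513823743) (nat_lit 152) (nat_lit 5059654760718) (nat_lit 0) (nat_lit 2231279629289) (nat_lit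 11) (nat_lit 5) (nat_lit 13) (nat_lit 4) (nat_lit 11) (nat_lit 4) (nat_lit 525) (nat_lit 457) (nat_lit 218)) (XT.lf (nat_lit 0) (nat_lit 5086337323099) (nat_lit 152) (nat_lit 1388080152609) (nat_lit 0) (nat_lit 4396103128119) (nat_lit 11) (nat_lit 5) (nat_lit 13) (nat_lit 4) (nat_lit 11) (nat_lit 4) (nat_lit 526) (nat_lit 457) (nat_lit 217))))) (XT.nd (nat_lit 57096) (nat_lit 0) (nat_lit 4940) (XT.nd (nat_lit 78) (nat_lit 0) (nat_lit 0) (XT.lf (nat_lit 0) (nat_lit 2712932278168) (nat_lit 76) (nat_lit 4776660507860) (nat_lit 76) (nat_lit 4086426312394) (nat_lit 10) (nat_lit 4) (nat_lit 11) (nat_lit 5) (nat_lit 11) (nat_lit 4) (nat_lit 527) (nat_lit 457) (nat_lit 216)) (XT.nd (nat_lit 78) (nat_lit 0) (nat_lit 0) (XT.lf (nat_lit 0) (nat_lit 7220967045808) (nat_lit 76) (nat_lit 2902094208608) (nat_lit 76) (nat_lit 2211860012692) (nat_lit 10) (nat_lit 4) (nat_lit 11) (nat_lit 5) (nat_lit 11)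 (nat_lit 4) (nat_lit 528) (nat_lit 457) (nat_lit 215)) (XT.lf (nat_lit 0) (nat_lit 12089644589468) (nat_lit 76) (nat_lit 877562608183) (nat_lit 76) (nat_lit 187328411850) (nat_lit 10) (nat_lit 4) (nat_lit 11) (nat_lit 5) (nat_lit 11) (nat_lit 4) (nat_lit 529) (nat_lit 457) (nat_lit 214)))) (XT.nd (nat_lit 156) (nat_lit 456) (nat_lit 0) (XT.nd (nat_lit 78) (nat_lit 0) (nat_lit 0) (XT.lf (nat_lit 0) (nat_lit 170857725826) (nat_lit 532) (nat_lit 2705576006) (nat_lit 532) (nat_lit 2705576006) (nat_lit 81) (nat_lit 3) (nat_lit 88) (nat_lit 3) (nat_lit 88) (nat_lit 5) (nat_lit 458) (nat_lit 458) (nat_lit 284)) (XT.lf (nat_lit 76) (nat_lit 178371529274) (nat_lit 0) (nat_lit 181302876451) (nat_lit 532) (nat_lit 6621633165) (nat_lit 82) (nat_lit 5) (nat_lit 81) (nat_lit 3) (nat_lit 88) (nat_lit 5) (nat_lit 459) (nat_lit 458) (nat_lit 283))) (XT.nd (nat_lit 78) (nat_lit 456) (nat_lit 0) (XT.lf (nat_lit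 76) (nat_lit 377164533832) (nat_lit 0) (nat_lit 2053442429) (nat_lit 532) (nat_lit 1925176502) (nat_lit 82) (nat_lit 5) (nat_lit 81) (nat_lit 3) (nat_lit 88) (nat_lit 5) (nat_lit 460) (nat_lit 458) (nat_lit 282)) (XT.lf (nat_lit 0) (nat_lit 12652666984) (nat_lit 532) (nat_lit 196659321105) (nat_lit 608) (nat_lit 187086945176) (nat_lit 75) (nat_lit 5) (nat_lit 82) (nat_lit 5) (nat_lit 83) (nat_lit 5) (nat_lit 461) (nat_lit 458) (nat_lit 281))))))))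
noncomputable def xc213 : XT := (XT.nd (nat_lit 1950) (nat_lit 1672) (nat_lit 0) (XT.nd (nat_lit 936) (nat_lit 1140) (nat_lit 0) (XT.nd (nat_lit 468) (nat_lit 912) (nat_lit 0) (XT.nd (nat_lit 234) (nat_lit 304) (nat_lit 0) (XT.nd (nat_lit 78) (nat_lit 0) (nat_lit 76) (XT.lf (nat_lit 76) (nat_lit 7377973595) (nat_lit 0) (nat_lit 21257094879) (nat_lit 608) (nat_lit 384208720172) (nat_lit 76) (nat_lit 5) (nat_lit 75) (nat_lit 5) (nat_lit 83) (nat_lit 5) (nat_lit 462) (nat_lit 458) (nat_lit 280)) (XT.nd (nat_lit 78) (nat_lit 0) (nat_lit 0) (XT.lf (nat_lit 0) (nat_lit 55786006436) (nat_lit 532) (nat_lit 195764636131) (nat_lit 608) (nat_lit 178262394353) (nat_lit 76) (nat_lit 5) (nat_lit 83) (nat_lit 5) (nat_lit 84) (nat_lit 5) (nat_lit 463) (nat_lit 458) (nat_lit 279)) (XT.lf (nat_lit 76) (nat_lit 31748669589) (nat_lit 0) (nat_lit 54675999791) (nat_lit 608) (nat_lit 361609903688) (nat_lit 77)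 (nat_lit 5) (nat_lit 76) (nat_lit 5) (nat_lit 84) (nat_lit 5) (nat_lit 464) (nat_lit 458) (nat_lit 278)))) (XT.nd (nat_lit 78) (nat_lit 456) (nat_lit 0) (XT.lf (nat_lit 0) (nat_lit 128804636316) (nat_lit 532) (nat_lit 182627009612) (nat_lit 76) (nat_lit 155538969312) (nat_lit 77) (nat_lit 5) (nat_lit 84) (nat_lit 5) (nat_lit 78) (nat_lit 5) (nat_lit 465) (nat_lit 458) (nat_lit 277)) (XT.nd (nat_lit 78) (nat_lit 0) (nat_lit 0) (XT.lf (nat_lit 0) (nat_lit 71901197103) (nat_lit 456) (nat_lit 105823151137) (nat_lit 532) (nat_lit 309445244743) (nat_lit 71) (nat_lit 5) (nat_lit 77) (nat_lit 5) (nat_lit 78) (nat_lit 5) (nat_lit 466) (nat_lit 458) (nat_lit 276)) (XT.lf (nat_lit 0) (nat_lit 238476079606) (nat_lit 532) (nat_lit 154332363081) (nat_lit 76) (nat_lit 115542570866) (nat_lit 71) (nat_lit 5) (nat_lit 78) (nat_lit 5) (nat_lit 72) (nat_lit 5) (nat_lit 467) (nat_lit 458) (nat_lit 275)))))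 (XT.nd (nat_lit 234) (nat_lit 456) (nat_lit 0) (XT.nd (nat_lit 78) (nat_lit 228) (nat_lit 0) (XT.lf (nat_lit 0) (nat_lit 131297921681) (nat_lit 228) (nat_lit 178696369664) (nat_lit 304) (nat_lit 220760149082) (nat_lit 68) (nat_lit 5) (nat_lit 71) (nat_lit 5) (nat_lit 72) (nat_lit 5) (nat_lit 468) (nat_lit 458) (nat_lit 274)) (XT.nd (nat_lit 78) (nat_lit 228) (nat_lit 0) (XT.lf (nat_lit 0) (nat_lit 392826955833) (nat_lit 304) (nat_lit 107430252645) (nat_lit 76) (nat_lit 54245493314) (nat_lit 68) (nat_lit 5) (nat_lit 72) (nat_lit 5) (nat_lit 69) (nat_lit 5) (nat_lit 469) (nat_lit 458) (nat_lit 273)) (XT.lf (nat_lit 0) (nat_lit 214022913337) (nat_lit 228) (nat_lit 278052014409) (nat_lit 304) (nat_lit 87292800784) (nat_lit 65) (nat_lit 5) (nat_lit 68) (nat_lit 5) (nat_lit 69) (nat_lit 5) (nat_lit 470) (nat_lit 458) (nat_lit 272)))) (XT.nd (nat_lit 78) (nat_lit 456) (nat_lit 0) (XT.lf (nat_lit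 0) (nat_lit 567301956838) (nat_lit 228) (nat_lit 34898089197) (nat_lit 304) (nat_lit 3786926688) (nat_lit 65) (nat_lit 5) (nat_lit 68) (nat_lit 5) (nat_lit 69) (nat_lit 5) (nat_lit 471) (nat_lit 458) (nat_lit 271)) (XT.nd (nat_lit 78) (nat_lit 228) (nat_lit 0) (XT.lf (nat_lit 0) (nat_lit 95712368672) (nat_lit 228) (nat_lit 311212548167) (nat_lit 76) (nat_lit 226553806963) (nat_lit 62) (nat_lit 5) (nat_lit 65) (nat_lit 5) (nat_lit 63) (nat_lit 5) (nat_lit 472) (nat_lit 458) (nat_lit 270)) (XT.lf (nat_lit 0) (nat_lit 52818187421) (nat_lit 228) (nat_lit 153410717776) (nat_lit 304) (nat_lit 456672089641) (nat_lit 59) (nat_lit 5) (nat_lit 62) (nat_lit 5) (nat_lit 63) (nat_lit 5) (nat_lit 473) (nat_lit 458) (nat_lit 269)))))) (XT.nd (nat_lit 468) (nat_lit 608) (nat_lit 0) (XT.nd (nat_lit 234) (nat_lit 380) (nat_lit 0) (XT.nd (nat_lit 78) (nat_lit 152) (nat_lit 0) (XT.lf (nat_lit 0) (nat_lit 337212113967)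 (nat_lit 304) (nat_lit 233442302987) (nat_lit 76) (nat_lit 123092602661) (nat_lit 59) (nat_lit 5) (nat_lit 63) (nat_lit 5) (nat_lit 60) (nat_lit 5) (nat_lit 474) (nat_lit 458) (nat_lit 268)) (XT.nd (nat_lit 78) (nat_lit 0) (nat_lit 0) (XT.lf (nat_lit 0) (nat_lit 178262112637) (nat_lit 152) (nat_lit 308683748631) (nat_lit 228) (nat_lit 239453114562) (nat_lit 57) (nat_lit 5) (nat_lit 59) (nat_lit 5) (nat_lit 60) (nat_lit 5) (nat_lit 475) (nat_lit 458) (nat_lit 267)) (XT.lf (nat_lit 0) (nat_lit 636178924809) (nat_lit 152) (nat_lit 18862090413) (nat_lit 228) (nat_lit 106111456775) (nat_lit 57) (nat_lit 5) (nat_lit 59) (nat_lit 5) (nat_lit 60) (nat_lit 5) (nat_lit 476) (nat_lit 458) (nat_lit 266)))) (XT.nd (nat_lit 78) (nat_lit 152) (nat_lit 0) (XT.lf (nat_lit 0) (nat_lit 51700416968) (nat_lit 228) (nat_lit 456690143357) (nat_lit 76) (nat_lit 288966878892) (nat_lit 54) (nat_lit 5) (nat_lit 57)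 (nat_lit 5) (nat_lit 55) (nat_lit 5) (nat_lit 477) (nat_lit 458) (nat_lit 265)) (XT.nd (nat_lit 78) (nat_lit 0) (nat_lit 0) (XT.lf (nat_lit 0) (nat_lit 11733426063) (nat_lit 152) (nat_lit 208948886934) (nat_lit 228) (nat_lit 615213771705) (nat_lit 52) (nat_lit 5) (nat_lit 54) (nat_lit 5) (nat_lit 55) (nat_lit 5) (nat_lit 478) (nat_lit 458) (nat_lit 264)) (XT.lf (nat_lit 0) (nat_lit 418746271546) (nat_lit 228) (nat_lit 335992467940) (nat_lit 76) (nat_lit 121534001476) (nat_lit 52) (nat_lit 5) (nat_lit 55) (nat_lit 5) (nat_lit 53) (nat_lit 5) (nat_lit 479) (nat_lit 458) (nat_lit 263))))) (XT.nd (nat_lit 234) (nat_lit 304) (nat_lit 0) (XT.nd (nat_lit 78) (nat_lit 152) (nat_lit 0) (XT.lf (nat_lit 0) (nat_lit 195588181904) (nat_lit 152) (nat_lit 447198293069) (nat_lit 228) (nat_lit 276282564497) (nat_lit 50) (nat_lit 5) (nat_lit 52) (nat_lit 5) (nat_lit 53) (nat_lit 5) (nat_lit 480) (nat_lit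 458) (nat_lit 262)) (XT.nd (nat_lit 78) (nat_lit 152) (nat_lit 0) (XT.lf (nat_lit 0) (nat_lit 788803448454) (nat_lit 152) (nat_lit 105133060224) (nat_lit 228) (nat_lit 70617604062) (nat_lit 50) (nat_lit 5) (nat_lit 52) (nat_lit 5) (nat_lit 53) (nat_lit 5) (nat_lit 481) (nat_lit 458) (nat_lit 261)) (XT.lf (nat_lit 0) (nat_lit 161078171628) (nat_lit 152) (nat_lit 585416134874) (nat_lit 76) (nat_lit 265519694841) (nat_lit 48) (nat_lit 5) (nat_lit 50) (nat_lit 5) (nat_lit 49) (nat_lit 5) (nat_lit 482) (nat_lit 458) (nat_lit 260)))) (XT.nd (nat_lit 156) (nat_lit 152) (nat_lit 0) (XT.nd (nat_lit 78) (nat_lit 0) (nat_lit 0) (XT.lf (nat_lit 0) (nat_lit 20582975066) (nat_lit 152) (nat_lit 395067333450) (nat_lit 228) (nat_lit 646821163922) (nat_lit 46) (nat_lit 5) (nat_lit 48) (nat_lit 5) (nat_lit 49) (nat_lit 5) (nat_lit 483) (nat_lit 458) (nat_lit 259)) (XT.lf (nat_lit 0) (nat_lit 706636859695)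 (nat_lit 228) (nat_lit 407372255034) (nat_lit 76) (nat_lit 1672535027) (nat_lit 46) (nat_lit 5) (nat_lit 49) (nat_lit 5) (nat_lit 47) (nat_lit 4) (nat_lit 484) (nat_lit 458) (nat_lit 258))) (XT.nd (nat_lit 78) (nat_lit 76) (nat_lit 0) (XT.lf (nat_lit 0) (nat_lit 281737421985) (nat_lit 76) (nat_lit 756202180861) (nat_lit 152) (nat_lit 133846056985) (nat_lit 45) (nat_lit 5) (nat_lit 46) (nat_lit 5) (nat_lit 47) (nat_lit 4) (nat_lit 485) (nat_lit 458) (nat_lit 257)) (XT.lf (nat_lit 0) (nat_lit 166623789357) (nat_lit 152) (nat_lit 186561780729) (nat_lit 76) (nat_lit 877963893384) (nat_lit 44) (nat_lit 5) (nat_lit 46) (nat_lit 5) (nat_lit 45) (nat_lit 5) (nat_lit 486) (nat_lit 458) (nat_lit 256))))))) (XT.nd (nat_lit 936) (nat_lit 760) (nat_lit 0) (XT.nd (nat_lit 468) (nat_lit 456) (nat_lit 0) (XT.nd (nat_lit 234) (nat_lit 228) (nat_lit 0) (XT.nd (nat_lit 78) (nat_lit 76) (nat_lit 0) (XT.lf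 (nat_lit 0) (nat_lit 500762294526) (nat_lit 228) (nat_lit 696541282180) (nat_lit 76) (nat_lit 96331694242) (nat_lit 42) (nat_lit 5) (nat_lit 45) (nat_lit 5) (nat_lit 43) (nat_lit 4) (nat_lit 487) (nat_lit 458) (nat_lit 255)) (XT.nd (nat_lit 78) (nat_lit 0) (nat_lit 0) (XT.lf (nat_lit 0) (nat_lit 88459208943) (nat_lit 76) (nat_lit 789707178009) (nat_lit 152) (nat_lit 481630795526) (nat_lit 41) (nat_lit 5) (nat_lit 42) (nat_lit 5) (nat_lit 43) (nat_lit 4) (nat_lit 488) (nat_lit 458) (nat_lit 254)) (XT.lf (nat_lit 0) (nat_lit 975872638743) (nat_lit 76) (nat_lit 328934829630) (nat_lit 152) (nat_lit 124921005629) (nat_lit 41) (nat_lit 5) (nat_lit 42) (nat_lit 5) (nat_lit 43) (nat_lit 4) (nat_lit 489) (nat_lit 458) (nat_lit 253)))) (XT.nd (nat_lit 78) (nat_lit 76) (nat_lit 0) (XT.lf (nat_lit 0) (nat_lit 262503742276) (nat_lit 152) (nat_lit 1063368987901) (nat_lit 76) (nat_lit 177664614658) (nat_lit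 39) (nat_lit 5) (nat_lit 41) (nat_lit 5) (nat_lit 40) (nat_lit 4) (nat_lit 490) (nat_lit 458) (nat_lit 252)) (XT.nd (nat_lit 78) (nat_lit 76) (nat_lit 0) (XT.lf (nat_lit 0) (nat_lit 695448782412) (nat_lit 152) (nat_lit 162843319943) (nat_lit 76) (nat_lit 722997223553) (nat_lit 39) (nat_lit 5) (nat_lit 41) (nat_lit 5) (nat_lit 40) (nat_lit 4) (nat_lit 491) (nat_lit 458) (nat_lit 251)) (XT.lf (nat_lit 0) (nat_lit 852363034262) (nat_lit 76) (nat_lit 331165733044) (nat_lit 152) (nat_lit 480092750836) (nat_lit 38) (nat_lit 5) (nat_lit 39) (nat_lit 5) (nat_lit 40) (nat_lit 4) (nat_lit 492) (nat_lit 458) (nat_lit 250))))) (XT.nd (nat_lit 234) (nat_lit 228) (nat_lit 0) (XT.nd (nat_lit 78) (nat_lit 152) (nat_lit 0) (XT.lf (nat_lit 0) (nat_lit 210552838748) (nat_lit 76) (nat_lit 1515461225781) (nat_lit 76) (nat_lit 25297508145) (nat_lit 37) (nat_lit 4) (nat_lit 38) (nat_lit 5) (nat_lit 38) (nat_lit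 4) (nat_lit 493) (nat_lit 458) (nat_lit 249)) (XT.nd (nat_lit 78) (nat_lit 76) (nat_lit 0) (XT.lf (nat_lit 0) (nat_lit 473935160236) (nat_lit 152) (nat_lit 504378595754) (nat_lit 76) (nat_lit 864297992682) (nat_lit 36) (nat_lit 5) (nat_lit 38) (nat_lit 5) (nat_lit 37) (nat_lit 4) (nat_lit 494) (nat_lit 458) (nat_lit 248)) (XT.lf (nat_lit 0) (nat_lit 646600430572) (nat_lit 76) (nat_lit 380690035862) (nat_lit 152) (nat_lit 912628846318) (nat_lit 35) (nat_lit 5) (nat_lit 36) (nat_lit 5) (nat_lit 37) (nat_lit 4) (nat_lit 495) (nat_lit 458) (nat_lit 247)))) (XT.nd (nat_lit 78) (nat_lit 228) (nat_lit 0) (XT.lf (nat_lit 0) (nat_lit 1645430079845) (nat_lit 152) (nat_lit 132291301091) (nat_lit 0) (nat_lit 265648830404) (nat_lit 35) (nat_lit 5) (nat_lit 37) (nat_lit 4) (nat_lit 35) (nat_lit 4) (nat_lit 496) (nat_lit 458) (nat_lit 246)) (XT.nd (nat_lit 78) (nat_lit 76) (nat_lit 0) (XT.lf (nat_lit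 0) (nat_lit 189044690072) (nat_lit 152) (nat_lit 986568302477) (nat_lit 76) (nat_lit 976058664470) (nat_lit 33) (nat_lit 5) (nat_lit 35) (nat_lit 5) (nat_lit 34) (nat_lit 4) (nat_lit 497) (nat_lit 458) (nat_lit 245)) (XT.lf (nat_lit 0) (nat_lit 310571210546) (nat_lit 76) (nat_lit 502098249136) (nat_lit 152) (nat_lit 1454246448843) (nat_lit 32) (nat_lit 5) (nat_lit 33) (nat_lit 5) (nat_lit 34) (nat_lit 4) (nat_lit 498) (nat_lit 458) (nat_lit 244)))))) (XT.nd (nat_lit 468) (nat_lit 380) (nat_lit 0) (XT.nd (nat_lit 234) (nat_lit 228) (nat_lit 0) (XT.nd (nat_lit 78) (nat_lit 152) (nat_lit 0) (XT.lf (nat_lit 0) (nat_lit 1519277779901) (nat_lit 152) (nat_lit 627751907408) (nat_lit 0) (nat_lit 241702527321) (nat_lit 32) (nat_lit 5) (nat_lit 34) (nat_lit 4) (nat_lit 32) (nat_lit 4) (nat_lit 499) (nat_lit 458) (nat_lit 243)) (XT.nd (nat_lit 78) (nat_lit 76) (nat_lit 0) (XT.lf (nat_lit 0) (nat_lit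 835901981191) (nat_lit 76) (nat_lit 1479657752664) (nat_lit 76) (nat_lit 202082493919) (nat_lit 31) (nat_lit 4) (nat_lit 32) (nat_lit 5) (nat_lit 32) (nat_lit 4) (nat_lit 500) (nat_lit 458) (nat_lit 242)) (XT.lf (nat_lit 0) (nat_lit 510342424124) (nat_lit 152) (nat_lit 216063022273) (nat_lit 76) (nat_lit 1928052883283) (nat_lit 30) (nat_lit 5) (nat_lit 32) (nat_lit 5) (nat_lit 31) (nat_lit 4) (nat_lit 501) (nat_lit 458) (nat_lit 241)))) (XT.nd (nat_lit 78) (nat_lit 152) (nat_lit 0) (XT.lf (nat_lit 0) (nat_lit 1306441625833) (nat_lit 152) (nat_lit 1368848781468) (nat_lit 0) (nat_lit 123501561260) (nat_lit 29) (nat_lit 5) (nat_lit 31) (nat_lit 4) (nat_lit 29) (nat_lit 4) (nat_lit 502) (nat_lit 458) (nat_lit 240)) (XT.nd (nat_lit 78) (nat_lit 76) (nat_lit 0) (XT.lf (nat_lit 0) (nat_lit 259687377805) (nat_lit 76) (nat_lit 1937715529193) (nat_lit 76) (nat_lit 754775460089) (nat_lit 28) (nat_lit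 4) (nat_lit 29) (nat_lit 5) (nat_lit 29) (nat_lit 4) (nat_lit 503) (nat_lit 458) (nat_lit 239)) (XT.lf (nat_lit 0) (nat_lit 78113005038) (nat_lit 152) (nat_lit 1020465022820) (nat_lit 76) (nat_lit 2016105306505) (nat_lit 27) (nat_lit 5) (nat_lit 29) (nat_lit 5) (nat_lit 28) (nat_lit 4) (nat_lit 504) (nat_lit 458) (nat_lit 238))))) (XT.nd (nat_lit 234) (nat_lit 228) (nat_lit 0) (XT.nd (nat_lit 78) (nat_lit 76) (nat_lit 0) (XT.lf (nat_lit 0) (nat_lit 806039827460) (nat_lit 76) (nat_lit 150200511311) (nat_lit 152) (nat_lit 2330829173994) (nat_lit 26) (nat_lit 5) (nat_lit 27) (nat_lit 5) (nat_lit 28) (nat_lit 4) (nat_lit 505) (nat_lit 458) (nat_lit 237)) (XT.nd (nat_lit 78) (nat_lit 76) (nat_lit 0) (XT.lf (nat_lit 0) (nat_lit 1954264740944) (nat_lit 152) (nat_lit 656060242626) (nat_lit 0) (nat_lit 858949851330) (nat_lit 26) (nat_lit 5) (nat_lit 28) (nat_lit 4) (nat_lit 26) (nat_lit 4) (nat_lit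 506) (nat_lit 458) (nat_lit 236)) (XT.lf (nat_lit 0) (nat_lit 1380040654386) (nat_lit 76) (nat_lit 1689181757880) (nat_lit 76) (nat_lit 593866865182) (nat_lit 25) (nat_lit 4) (nat_lit 26) (nat_lit 5) (nat_lit 26) (nat_lit 4) (nat_lit 507) (nat_lit 458) (nat_lit 235)))) (XT.nd (nat_lit 156) (nat_lit 76) (nat_lit 0) (XT.nd (nat_lit 78) (nat_lit 76) (nat_lit 0) (XT.lf (nat_lit 0) (nat_lit 399313549437) (nat_lit 152) (nat_lit 264742712723) (nat_lit 76) (nat_lit 3206108849426) (nat_lit 24) (nat_lit 5) (nat_lit 26) (nat_lit 5) (nat_lit 25) (nat_lit 4) (nat_lit 508) (nat_lit 458) (nat_lit 234)) (XT.lf (nat_lit 0) (nat_lit 1500261201125) (nat_lit 152) (nat_lit 2101399299250) (nat_lit 0) (nat_lit 486080739831) (nat_lit 23) (nat_lit 5) (nat_lit 25) (nat_lit 4) (nat_lit 23) (nat_lit 4) (nat_lit 509) (nat_lit 458) (nat_lit 233))) (XT.nd (nat_lit 78) (nat_lit 0) (nat_lit 0) (XT.lf (nat_lit 0) (nat_lit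 97885534667) (nat_lit 76) (nat_lit 2618428037707) (nat_lit 76) (nat_lit 1604247574146) (nat_lit 22) (nat_lit 4) (nat_lit 23) (nat_lit 5) (nat_lit 23) (nat_lit 4) (nat_lit 510) (nat_lit 458) (nat_lit 232)) (XT.lf (nat_lit 0) (nat_lit 2592621584739) (nat_lit 76) (nat_lit 1494484524110) (nat_lit 76) (nat_lit 480304058450) (nat_lit 22) (nat_lit 4) (nat_lit 23) (nat_lit 5) (nat_lit 23) (nat_lit 4) (nat_lit 511) (nat_lit 458) (nat_lit 231))))))))
noncomputable def xc214 : XT := (XT.nd (nat_lit 58890) (nat_lit 0) (nat_lit 2356) (XT.nd (nat_lit 936) (nat_lit 228) (nat_lit 0) (XT.nd (nat_lit 468) (nat_lit 304) (nat_lit 0) (XT.nd (nat_lit 234) (nat_lit 152) (nat_lit 0) (XT.nd (nat_lit 78) (nat_lit 76) (nat_lit 0) (XT.lf (nat_lit 0) (nat_lit 458208847283) (nat_lit 76) (nat_lit 249670631027) (nat_lit 152) (nat_lit 4123834676016) (nat_lit 20) (nat_lit 5) (nat_lit 21) (nat_lit 5) (nat_lit 22) (nat_lit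 4) (nat_lit 512) (nat_lit 458) (nat_lit 230)) (XT.nd (nat_lit 78) (nat_lit 76) (nat_lit 0) (XT.lf (nat_lit 0) (nat_lit 2046893708835) (nat_lit 152) (nat_lit 1954895005995) (nat_lit 0) (nat_lit 1107837718647) (nat_lit 20) (nat_lit 5) (nat_lit 22) (nat_lit 4) (nat_lit 20) (nat_lit 4) (nat_lit 513) (nat_lit 458) (nat_lit 229)) (XT.lf (nat_lit 0) (nat_lit 684984875942) (nat_lit 76) (nat_lit 2831003051393) (nat_lit 76) (nat_lit 1891947059662) (nat_lit 19) (nat_lit 4) (nat_lit 20) (nat_lit 5) (nat_lit 20) (nat_lit 4) (nat_lit 514) (nat_lit 458) (nat_lit 228)))) (XT.nd (nat_lit 78) (nat_lit 152) (nat_lit 0) (XT.lf (nat_lit 0) (nat_lit 3647231750412) (nat_lit 76) (nat_lit 1508828222201) (nat_lit 76) (nat_lit 569772229041) (nat_lit 19) (nat_lit 4) (nat_lit 20) (nat_lit 5) (nat_lit 20) (nat_lit 4) (nat_lit 515) (nat_lit 458) (nat_lit 227)) (XT.nd (nat_lit 78) (nat_lit 0) (nat_lit 0) (XT.lf (nat_lit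 0) (nat_lit 796502274659) (nat_lit 76) (nat_lit 37900739350) (nat_lit 152) (nat_lit 5231574574504) (nat_lit 17) (nat_lit 5) (nat_lit 18) (nat_lit 5) (nat_lit 19) (nat_lit 4) (nat_lit 516) (nat_lit 458) (nat_lit 226)) (XT.lf (nat_lit 0) (nat_lit 2415732959391) (nat_lit 152) (nat_lit 2462532782965) (nat_lit 0) (nat_lit 1546236667070) (nat_lit 17) (nat_lit 5) (nat_lit 19) (nat_lit 4) (nat_lit 17) (nat_lit 4) (nat_lit 517) (nat_lit 458) (nat_lit 225))))) (XT.nd (nat_lit 234) (nat_lit 76) (nat_lit 0) (XT.nd (nat_lit 78) (nat_lit 152) (nat_lit 0) (XT.lf (nat_lit 0) (nat_lit 597889565009) (nat_lit 76) (nat_lit 3541043424617) (nat_lit 76) (nat_lit 2671547131246) (nat_lit 16) (nat_lit 4) (nat_lit 17) (nat_lit 5) (nat_lit 17) (nat_lit 4) (nat_lit 518) (nat_lit 458) (nat_lit 224)) (XT.nd (nat_lit 78) (nat_lit 152) (nat_lit 0) (XT.lf (nat_lit 0) (nat_lit 4043192114279) (nat_lit 76) (nat_lit 2024126914394)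 (nat_lit 76) (nat_lit 1154630620050) (nat_lit 16) (nat_lit 4) (nat_lit 17) (nat_lit 5) (nat_lit 17) (nat_lit 4) (nat_lit 519) (nat_lit 458) (nat_lit 223)) (XT.lf (nat_lit 0) (nat_lit 90687123707) (nat_lit 76) (nat_lit 370939520019) (nat_lit 152) (nat_lit 7203605090397) (nat_lit 14) (nat_lit 5) (nat_lit 15) (nat_lit 5) (nat_lit 16) (nat_lit 4) (nat_lit 520) (nat_lit 458) (nat_lit 222)))) (XT.nd (nat_lit 78) (nat_lit 76) (nat_lit 0) (XT.lf (nat_lit 0) (nat_lit 2267993610211) (nat_lit 152) (nat_lit 4400823963269) (nat_lit 0) (nat_lit 1462904447177) (nat_lit 14) (nat_lit 5) (nat_lit 16) (nat_lit 4) (nat_lit 14) (nat_lit 4) (nat_lit 521) (nat_lit 458) (nat_lit 221)) (XT.nd (nat_lit 78) (nat_lit 76) (nat_lit 0) (XT.lf (nat_lit 0) (nat_lit 4228504723340) (nat_lit 152) (nat_lit 982840464038) (nat_lit 0) (nat_lit 3423415559591) (nat_lit 14) (nat_lit 5) (nat_lit 16) (nat_lit 4) (nat_lit 14) (nat_lit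 4) (nat_lit 522) (nat_lit 458) (nat_lit 220)) (XT.lf (nat_lit 0) (nat_lit 2851210821447) (nat_lit 76) (nat_lit 3563217589747) (nat_lit 76) (nat_lit 2758128425336) (nat_lit 13) (nat_lit 4) (nat_lit 14) (nat_lit 5) (nat_lit 14) (nat_lit 4) (nat_lit 523) (nat_lit 458) (nat_lit 219)))))) (XT.nd (nat_lit 57408) (nat_lit 0) (nat_lit 4940) (XT.nd (nat_lit 234) (nat_lit 76) (nat_lit 0) (XT.nd (nat_lit 78) (nat_lit 152) (nat_lit 0) (XT.lf (nat_lit 0) (nat_lit 7047881211550) (nat_lit 76) (nat_lit 1754217379487) (nat_lit 76) (nat_lit 949128214463) (nat_lit 13) (nat_lit 4) (nat_lit 14) (nat_lit 5) (nat_lit 14) (nat_lit 4) (nat_lit 524) (nat_lit 458) (nat_lit 218)) (XT.nd (nat_lit 78) (nat_lit 0) (nat_lit 0) (XT.lf (nat_lit 0) (nat_lit 990411488483) (nat_lit 152) (nat_lit 9136001630253) (nat_lit 0) (nat_lit 244958557380) (nat_lit 11) (nat_lit 5) (nat_lit 13) (nat_lit 4) (nat_lit 11) (nat_lit 4) (nat_lit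 525) (nat_lit 458) (nat_lit 217)) (XT.lf (nat_lit 0) (nat_lit 3155234986439) (nat_lit 152) (nat_lit 5464427025016) (nat_lit 0) (nat_lit 2409782054850) (nat_lit 11) (nat_lit 5) (nat_lit 13) (nat_lit 4) (nat_lit 11) (nat_lit 4) (nat_lit 526) (nat_lit 458) (nat_lit 216)))) (XT.nd (nat_lit 78) (nat_lit 76) (nat_lit 0) (XT.lf (nat_lit 0) (nat_lit 5493244361536) (nat_lit 152) (nat_lit 1499126456893) (nat_lit 0) (nat_lit 4747791429497) (nat_lit 11) (nat_lit 5) (nat_lit 13) (nat_lit 4) (nat_lit 11) (nat_lit 4) (nat_lit 527) (nat_lit 458) (nat_lit 215)) (XT.nd (nat_lit 78) (nat_lit 0) (nat_lit 0) (XT.lf (nat_lit 0) (nat_lit 2929966965615) (nat_lit 76) (nat_lit 5158793294519) (nat_lit 76) (nat_lit 4413340362063) (nat_lit 10) (nat_lit 4) (nat_lit 11) (nat_lit 5) (nat_lit 11) (nat_lit 4) (nat_lit 528) (nat_lit 458) (nat_lit 214)) (XT.lf (nat_lit 0) (nat_lit 7798644506874) (nat_lit 76) (nat_lit 3134261695326)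 (nat_lit 76) (nat_lit 2388808762483) (nat_lit 10) (nat_lit 4) (nat_lit 11) (nat_lit 5) (nat_lit 11) (nat_lit 4) (nat_lit 529) (nat_lit 458) (nat_lit 213))))) (XT.nd (nat_lit 234) (nat_lit 456) (nat_lit 0) (XT.nd (nat_lit 78) (nat_lit 0) (nat_lit 0) (XT.lf (nat_lit 0) (nat_lit 184526828390) (nat_lit 532) (nat_lit 2921760392) (nat_lit 532) (nat_lit 2921760392) (nat_lit 81) (nat_lit 3) (nat_lit 88) (nat_lit 3) (nat_lit 88) (nat_lit 5) (nat_lit 459) (nat_lit 459) (nat_lit 282)) (XT.nd (nat_lit 78) (nat_lit 0) (nat_lit 0) (XT.lf (nat_lit 76) (nat_lit 192641761753) (nat_lit 0) (nat_lit 195807505918) (nat_lit 532) (nat_lit 7150381332) (nat_lit 82) (nat_lit 5) (nat_lit 81) (nat_lit 3) (nat_lit 88) (nat_lit 5) (nat_lit 460) (nat_lit 459) (nat_lit 281)) (XT.lf (nat_lit 76) (nat_lit 407338168888) (nat_lit 0) (nat_lit 2218087592) (nat_lit 532) (nat_lit 2078280912) (nat_lit 82) (nat_lit 5) (nat_lit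 81) (nat_lit 3) (nat_lit 88) (nat_lit 5) (nat_lit 461) (nat_lit 459) (nat_lit 280)))) (XT.nd (nat_lit 156) (nat_lit 0) (nat_lit 76) (XT.nd (nat_lit 78) (nat_lit 0) (nat_lit 0) (XT.lf (nat_lit 0) (nat_lit 13665685281) (nat_lit 532) (nat_lit 212391489277) (nat_lit 608) (nat_lit 202053608783) (nat_lit 75) (nat_lit 5) (nat_lit 82) (nat_lit 5) (nat_lit 83) (nat_lit 5) (nat_lit 462) (nat_lit 459) (nat_lit 279)) (XT.lf (nat_lit 76) (nat_lit 7968774378) (nat_lit 0) (nat_lit 22957858425) (nat_lit 608) (nat_lit 414944598050) (nat_lit 76) (nat_lit 5) (nat_lit 75) (nat_lit 5) (nat_lit 83) (nat_lit 5) (nat_lit 463) (nat_lit 459) (nat_lit 278))) (XT.nd (nat_lit 78) (nat_lit 0) (nat_lit 0) (XT.lf (nat_lit 0) (nat_lit 60249585227) (nat_lit 532) (nat_lit 211425225084) (nat_lit 608) (nat_lit 192523213537) (nat_lit 76) (nat_lit 5) (nat_lit 83) (nat_lit 5) (nat_lit 84) (nat_lit 5) (nat_lit 464) (nat_lit 459)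 (nat_lit 277)) (XT.lf (nat_lit 76) (nat_lit 34289130361) (nat_lit 0) (nat_lit 59050172762) (nat_lit 608) (nat_lit 390537982823) (nat_lit 77) (nat_lit 5) (nat_lit 76) (nat_lit 5) (nat_lit 84) (nat_lit 5) (nat_lit 465) (nat_lit 459) (nat_lit 276))))))) (XT.nd (nat_lit 936) (nat_lit 1216) (nat_lit 0) (XT.nd (nat_lit 468) (nat_lit 608) (nat_lit 0) (XT.nd (nat_lit 234) (nat_lit 456) (nat_lit 0) (XT.nd (nat_lit 78) (nat_lit 456) (nat_lit 0) (XT.lf (nat_lit 0) (nat_lit 139109616441) (nat_lit 532) (nat_lit 197236594077) (nat_lit 76) (nat_lit 167982005063) (nat_lit 77) (nat_lit 5) (nat_lit 84) (nat_lit 5) (nat_lit 78) (nat_lit 5) (nat_lit 466) (nat_lit 459) (nat_lit 275)) (XT.nd (nat_lit 78) (nat_lit 0) (nat_lit 0) (XT.lf (nat_lit 0) (nat_lit 77653854585) (nat_lit 456) (nat_lit 114289019116) (nat_lit 532) (nat_lit 334200240383) (nat_lit 71) (nat_lit 5) (nat_lit 77) (nat_lit 5) (nat_lit 78) (nat_lit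 5) (nat_lit 467) (nat_lit 459) (nat_lit 274)) (XT.lf (nat_lit 0) (nat_lit 257554700437) (nat_lit 532) (nat_lit 166678388763) (nat_lit 76) (nat_lit 124785962561) (nat_lit 71) (nat_lit 5) (nat_lit 78) (nat_lit 5) (nat_lit 72) (nat_lit 5) (nat_lit 468) (nat_lit 459) (nat_lit 273)))) (XT.nd (nat_lit 78) (nat_lit 228) (nat_lit 0) (XT.lf (nat_lit 0) (nat_lit 141802304517) (nat_lit 228) (nat_lit 192992038213) (nat_lit 304) (nat_lit 238420412173) (nat_lit 68) (nat_lit 5) (nat_lit 71) (nat_lit 5) (nat_lit 72) (nat_lit 5) (nat_lit 469) (nat_lit 459) (nat_lit 272)) (XT.nd (nat_lit 78) (nat_lit 228) (nat_lit 0) (XT.lf (nat_lit 0) (nat_lit 424253583656) (nat_lit 304) (nat_lit 116024127604) (nat_lit 76) (nat_lit 58585168864) (nat_lit 68) (nat_lit 5) (nat_lit 72) (nat_lit 5) (nat_lit 69) (nat_lit 5) (nat_lit 470) (nat_lit 459) (nat_lit 271)) (XT.lf (nat_lit 0) (nat_lit 231145277853) (nat_lit 228) (nat_lit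 300296093335) (nat_lit 304) (nat_lit 94275739592) (nat_lit 65) (nat_lit 5) (nat_lit 68) (nat_lit 5) (nat_lit 69) (nat_lit 5) (nat_lit 471) (nat_lit 459) (nat_lit 270))))) (XT.nd (nat_lit 234) (nat_lit 152) (nat_lit 0) (XT.nd (nat_lit 78) (nat_lit 456) (nat_lit 0) (XT.lf (nat_lit 0) (nat_lit 612686605467) (nat_lit 228) (nat_lit 37689860198) (nat_lit 304) (nat_lit 4089431513) (nat_lit 65) (nat_lit 5) (nat_lit 68) (nat_lit 5) (nat_lit 69) (nat_lit 5) (nat_lit 472) (nat_lit 459) (nat_lit 269)) (XT.nd (nat_lit 78) (nat_lit 228) (nat_lit 0) (XT.lf (nat_lit 0) (nat_lit 103369767716) (nat_lit 228) (nat_lit 336109020019) (nat_lit 76) (nat_lit 244678201132) (nat_lit 62) (nat_lit 5) (nat_lit 65) (nat_lit 5) (nat_lit 63) (nat_lit 5) (nat_lit 473) (nat_lit 459) (nat_lit 268)) (XT.lf (nat_lit 0) (nat_lit 57044160947) (nat_lit 228) (nat_lit 165683448349) (nat_lit 304) (nat_lit 493205433724) (nat_lit 59)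 (nat_lit 5) (nat_lit 62) (nat_lit 5) (nat_lit 63) (nat_lit 5) (nat_lit 474) (nat_lit 459) (nat_lit 267)))) (XT.nd (nat_lit 78) (nat_lit 152) (nat_lit 0) (XT.lf (nat_lit 0) (nat_lit 364189448578) (nat_lit 304) (nat_lit 252117180850) (nat_lit 76) (nat_lit 132940122451) (nat_lit 59) (nat_lit 5) (nat_lit 63) (nat_lit 5) (nat_lit 60) (nat_lit 5) (nat_lit 475) (nat_lit 459) (nat_lit 266)) (XT.nd (nat_lit 78) (nat_lit 0) (nat_lit 0) (XT.lf (nat_lit 0) (nat_lit 192523575205) (nat_lit 152) (nat_lit 333378305256) (nat_lit 228) (nat_lit 258608985353) (nat_lit 57) (nat_lit 5) (nat_lit 59) (nat_lit 5) (nat_lit 60) (nat_lit 5) (nat_lit 476) (nat_lit 459) (nat_lit 265)) (XT.lf (nat_lit 0) (nat_lit 687073695791) (nat_lit 152) (nat_lit 20370924993) (nat_lit 228) (nat_lit 114600022971) (nat_lit 57) (nat_lit 5) (nat_lit 59) (nat_lit 5) (nat_lit 60) (nat_lit 5) (nat_lit 477) (nat_lit 459) (nat_lit 264))))))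 (XT.nd (nat_lit 468) (nat_lit 532) (nat_lit 0) (XT.nd (nat_lit 234) (nat_lit 304) (nat_lit 0) (XT.nd (nat_lit 78) (nat_lit 152) (nat_lit 0) (XT.lf (nat_lit 0) (nat_lit 55836773063) (nat_lit 228) (nat_lit 493224870120) (nat_lit 76) (nat_lit 312084365304) (nat_lit 54) (nat_lit 5) (nat_lit 57) (nat_lit 5) (nat_lit 55) (nat_lit 5) (nat_lit 478) (nat_lit 459) (nat_lit 263)) (XT.nd (nat_lit 78) (nat_lit 0) (nat_lit 0) (XT.lf (nat_lit 0) (nat_lit 12672572582) (nat_lit 152) (nat_lit 225664635648) (nat_lit 228) (nat_lit 664430538389) (nat_lit 52) (nat_lit 5) (nat_lit 54) (nat_lit 5) (nat_lit 55) (nat_lit 5) (nat_lit 479) (nat_lit 459) (nat_lit 262)) (XT.lf (nat_lit 0) (nat_lit 452246264098) (nat_lit 228) (nat_lit 362871408532) (nat_lit 76) (nat_lit 131256864303) (nat_lit 52) (nat_lit 5) (nat_lit 55) (nat_lit 5) (nat_lit 53) (nat_lit 5) (nat_lit 480) (nat_lit 459) (nat_lit 261)))) (XT.nd (nat_lit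 78) (nat_lit 152) (nat_lit 0) (XT.lf (nat_lit 0) (nat_lit 211235681735) (nat_lit 152) (nat_lit 482973991230) (nat_lit 228) (nat_lit 298384867225) (nat_lit 50) (nat_lit 5) (nat_lit 52) (nat_lit 5) (nat_lit 53) (nat_lit 5) (nat_lit 481) (nat_lit 459) (nat_lit 260)) (XT.nd (nat_lit 78) (nat_lit 152) (nat_lit 0) (XT.lf (nat_lit 0) (nat_lit 851908136625) (nat_lit 152) (nat_lit 113543552001) (nat_lit 228) (nat_lit 76266732357) (nat_lit 50) (nat_lit 5) (nat_lit 52) (nat_lit 5) (nat_lit 53) (nat_lit 5) (nat_lit 482) (nat_lit 459) (nat_lit 259)) (XT.lf (nat_lit 0) (nat_lit 173964685497) (nat_lit 152) (nat_lit 632248993417) (nat_lit 76) (nat_lit 286761421695) (nat_lit 48) (nat_lit 5) (nat_lit 50) (nat_lit 5) (nat_lit 49) (nat_lit 5) (nat_lit 483) (nat_lit 459) (nat_lit 258))))) (XT.nd (nat_lit 234) (nat_lit 304) (nat_lit 0) (XT.nd (nat_lit 78) (nat_lit 76) (nat_lit 0) (XT.lf (nat_lit 0) (nat_lit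 22230034376) (nat_lit 152) (nat_lit 426672549824) (nat_lit 228) (nat_lit 698566585926) (nat_lit 46) (nat_lit 5) (nat_lit 48) (nat_lit 5) (nat_lit 49) (nat_lit 5) (nat_lit 484) (nat_lit 459) (nat_lit 257)) (XT.nd (nat_lit 78) (nat_lit 76) (nat_lit 0) (XT.lf (nat_lit 0) (nat_lit 763168044672) (nat_lit 228) (nat_lit 439961630514) (nat_lit 76) (nat_lit 1806487628) (nat_lit 46) (nat_lit 5) (nat_lit 49) (nat_lit 5) (nat_lit 47) (nat_lit 4) (nat_lit 485) (nat_lit 459) (nat_lit 256)) (XT.lf (nat_lit 0) (nat_lit 304276810415) (nat_lit 76) (nat_lit 816698188856) (nat_lit 152) (nat_lit 144553495066) (nat_lit 45) (nat_lit 5) (nat_lit 46) (nat_lit 5) (nat_lit 47) (nat_lit 4) (nat_lit 486) (nat_lit 459) (nat_lit 255)))) (XT.nd (nat_lit 156) (nat_lit 76) (nat_lit 0) (XT.nd (nat_lit 78) (nat_lit 152) (nat_lit 0) (XT.lf (nat_lit 0) (nat_lit 179953909309) (nat_lit 152) (nat_lit 201486346314) (nat_lit 76)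 (nat_lit 948201147561) (nat_lit 44) (nat_lit 5) (nat_lit 46) (nat_lit 5) (nat_lit 45) (nat_lit 5) (nat_lit 487) (nat_lit 459) (nat_lit 254)) (XT.lf (nat_lit 0) (nat_lit 540823491460) (nat_lit 228) (nat_lit 752264204431) (nat_lit 76) (nat_lit 104038379644) (nat_lit 42) (nat_lit 5) (nat_lit 45) (nat_lit 5) (nat_lit 43) (nat_lit 4) (nat_lit 488) (nat_lit 459) (nat_lit 253))) (XT.nd (nat_lit 78) (nat_lit 0) (nat_lit 0) (XT.lf (nat_lit 0) (nat_lit 95536316354) (nat_lit 76) (nat_lit 852883588036) (nat_lit 152) (nat_lit 520161036150) (nat_lit 41) (nat_lit 5) (nat_lit 42) (nat_lit 5) (nat_lit 43) (nat_lit 4) (nat_lit 489) (nat_lit 459) (nat_lit 252)) (XT.lf (nat_lit 0) (nat_lit 1053942793079) (nat_lit 76) (nat_lit 355249463951) (nat_lit 152) (nat_lit 134914479582) (nat_lit 41) (nat_lit 5) (nat_lit 42) (nat_lit 5) (nat_lit 43) (nat_lit 4) (nat_lit 490) (nat_lit 459) (nat_lit 251))))))))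
noncomputable def xc215 : XT := (XT.nd (nat_lit 1950) (nat_lit 684) (nat_lit 0) (XT.nd (nat_lit 936) (nat_lit 836) (nat_lit 0) (XT.nd (nat_lit 468) (nat_lit 380) (nat_lit 0) (XT.nd (nat_lit 234) (nat_lit 228) (nat_lit 0) (XT.nd (nat_lit 78) (nat_lit 76) (nat_lit 0) (XT.lf (nat_lit 0) (nat_lit 283504235304) (nat_lit 152) (nat_lit 1148438150816) (nat_lit 76) (nat_lit 191877930796) (nat_lit 39) (nat_lit 5) (nat_lit 41) (nat_lit 5) (nat_lit 40) (nat_lit 4) (nat_lit 491) (nat_lit 459) (nat_lit 250)) (XT.nd (nat_lit 78) (nat_lit 76) (nat_lit 0) (XT.lf (nat_lit 0) (nat_lit 751084864307) (nat_lit 152) (nat_lit 175870455800) (nat_lit 76) (nat_lit 780837137516) (nat_lit 39) (nat_lit 5) (nat_lit 41) (nat_lit 5) (nat_lit 40) (nat_lit 4) (nat_lit 492) (nat_lit 459) (nat_lit 249)) (XT.lf (nat_lit 0) (nat_lit 920552398393) (nat_lit 76) (nat_lit 357658844047) (nat_lit 152) (nat_lit 518499983241) (nat_lit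 38) (nat_lit 5) (nat_lit 39) (nat_lit 5) (nat_lit 40) (nat_lit 4) (nat_lit 493) (nat_lit 459) (nat_lit 248)))) (XT.nd (nat_lit 78) (nat_lit 152) (nat_lit 0) (XT.lf (nat_lit 0) (nat_lit 227397389200) (nat_lit 76) (nat_lit 1636697972435) (nat_lit 76) (nat_lit 27321123087) (nat_lit 37) (nat_lit 4) (nat_lit 38) (nat_lit 5) (nat_lit 38) (nat_lit 4) (nat_lit 494) (nat_lit 459) (nat_lit 247)) (XT.nd (nat_lit 78) (nat_lit 76) (nat_lit 0) (XT.lf (nat_lit 0) (nat_lit 511850136407) (nat_lit 152) (nat_lit 544728575403) (nat_lit 76) (nat_lit 933441963679) (nat_lit 36) (nat_lit 5) (nat_lit 38) (nat_lit 5) (nat_lit 37) (nat_lit 4) (nat_lit 495) (nat_lit 459) (nat_lit 246)) (XT.lf (nat_lit 0) (nat_lit 698328765231) (nat_lit 76) (nat_lit 411145096990) (nat_lit 152) (nat_lit 985638982864) (nat_lit 35) (nat_lit 5) (nat_lit 36) (nat_lit 5) (nat_lit 37) (nat_lit 4) (nat_lit 496) (nat_lit 459) (nat_lit 245)))))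 (XT.nd (nat_lit 234) (nat_lit 152) (nat_lit 0) (XT.nd (nat_lit 78) (nat_lit 228) (nat_lit 0) (XT.lf (nat_lit 0) (nat_lit 1777064636123) (nat_lit 152) (nat_lit 142874318612) (nat_lit 0) (nat_lit 286900861514) (nat_lit 35) (nat_lit 5) (nat_lit 37) (nat_lit 4) (nat_lit 35) (nat_lit 4) (nat_lit 497) (nat_lit 459) (nat_lit 244)) (XT.nd (nat_lit 78) (nat_lit 76) (nat_lit 0) (XT.lf (nat_lit 0) (nat_lit 204168414569) (nat_lit 152) (nat_lit 1065493479495) (nat_lit 76) (nat_lit 1054143483567) (nat_lit 33) (nat_lit 5) (nat_lit 35) (nat_lit 5) (nat_lit 34) (nat_lit 4) (nat_lit 498) (nat_lit 459) (nat_lit 243)) (XT.lf (nat_lit 0) (nat_lit 335417187299) (nat_lit 76) (nat_lit 542265974122) (nat_lit 152) (nat_lit 1570586008183) (nat_lit 32) (nat_lit 5) (nat_lit 33) (nat_lit 5) (nat_lit 34) (nat_lit 4) (nat_lit 499) (nat_lit 459) (nat_lit 242)))) (XT.nd (nat_lit 78) (nat_lit 152) (nat_lit 0) (XT.lf (nat_lit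 0) (nat_lit 1640820139524) (nat_lit 152) (nat_lit 677971793086) (nat_lit 0) (nat_lit 261038848206) (nat_lit 32) (nat_lit 5) (nat_lit 34) (nat_lit 4) (nat_lit 32) (nat_lit 4) (nat_lit 500) (nat_lit 459) (nat_lit 241)) (XT.nd (nat_lit 78) (nat_lit 76) (nat_lit 0) (XT.lf (nat_lit 0) (nat_lit 902774399844) (nat_lit 76) (nat_lit 1598030246042) (nat_lit 76) (nat_lit 218248949439) (nat_lit 31) (nat_lit 4) (nat_lit 32) (nat_lit 5) (nat_lit 32) (nat_lit 4) (nat_lit 501) (nat_lit 459) (nat_lit 240)) (XT.lf (nat_lit 0) (nat_lit 551169944712) (nat_lit 152) (nat_lit 233347816494) (nat_lit 76) (nat_lit 2082297224711) (nat_lit 30) (nat_lit 5) (nat_lit 32) (nat_lit 5) (nat_lit 31) (nat_lit 4) (nat_lit 502) (nat_lit 459) (nat_lit 239)))))) (XT.nd (nat_lit 468) (nat_lit 456) (nat_lit 0) (XT.nd (nat_lit 234) (nat_lit 152) (nat_lit 0) (XT.nd (nat_lit 78) (nat_lit 152) (nat_lit 0) (XT.lf (nat_lit 0) (nat_lit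 1410957081822) (nat_lit 152) (nat_lit 1478356435685) (nat_lit 0) (nat_lit 133381798461) (nat_lit 29) (nat_lit 5) (nat_lit 31) (nat_lit 4) (nat_lit 29) (nat_lit 4) (nat_lit 503) (nat_lit 459) (nat_lit 238)) (XT.nd (nat_lit 78) (nat_lit 76) (nat_lit 0) (XT.lf (nat_lit 0) (nat_lit 280462610044) (nat_lit 76) (nat_lit 2092732651929) (nat_lit 76) (nat_lit 815157364683) (nat_lit 28) (nat_lit 4) (nat_lit 29) (nat_lit 5) (nat_lit 29) (nat_lit 4) (nat_lit 504) (nat_lit 459) (nat_lit 237)) (XT.lf (nat_lit 0) (nat_lit 84362161736) (nat_lit 152) (nat_lit 1102101994430) (nat_lit 76) (nat_lit 2177393835638) (nat_lit 27) (nat_lit 5) (nat_lit 29) (nat_lit 5) (nat_lit 28) (nat_lit 4) (nat_lit 505) (nat_lit 459) (nat_lit 236)))) (XT.nd (nat_lit 78) (nat_lit 76) (nat_lit 0) (XT.lf (nat_lit 0) (nat_lit 870523238044) (nat_lit 76) (nat_lit 162216440906) (nat_lit 152) (nat_lit 2517295385787) (nat_lit 26) (nat_lit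 5) (nat_lit 27) (nat_lit 5) (nat_lit 28) (nat_lit 4) (nat_lit 506) (nat_lit 459) (nat_lit 235)) (XT.nd (nat_lit 78) (nat_lit 76) (nat_lit 0) (XT.lf (nat_lit 0) (nat_lit 2110606027399) (nat_lit 152) (nat_lit 708544848370) (nat_lit 0) (nat_lit 927665937345) (nat_lit 26) (nat_lit 5) (nat_lit 28) (nat_lit 4) (nat_lit 26) (nat_lit 4) (nat_lit 507) (nat_lit 459) (nat_lit 234)) (XT.lf (nat_lit 0) (nat_lit 1490444114994) (nat_lit 76) (nat_lit 1824316194503) (nat_lit 76) (nat_lit 641376101805) (nat_lit 25) (nat_lit 4) (nat_lit 26) (nat_lit 5) (nat_lit 26) (nat_lit 4) (nat_lit 508) (nat_lit 459) (nat_lit 233))))) (XT.nd (nat_lit 234) (nat_lit 228) (nat_lit 0) (XT.nd (nat_lit 78) (nat_lit 152) (nat_lit 0) (XT.lf (nat_lit 0) (nat_lit 431258732429) (nat_lit 152) (nat_lit 285921931693) (nat_lit 76) (nat_lit 3462597648466) (nat_lit 24) (nat_lit 5) (nat_lit 26) (nat_lit 5) (nat_lit 25) (nat_lit 4) (nat_lit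 509) (nat_lit 459) (nat_lit 232)) (XT.nd (nat_lit 78) (nat_lit 76) (nat_lit 0) (XT.lf (nat_lit 0) (nat_lit 1620282195883) (nat_lit 152) (nat_lit 2269511044772) (nat_lit 0) (nat_lit 524967290871) (nat_lit 23) (nat_lit 5) (nat_lit 25) (nat_lit 4) (nat_lit 23) (nat_lit 4) (nat_lit 510) (nat_lit 459) (nat_lit 231)) (XT.lf (nat_lit 0) (nat_lit 105716570835) (nat_lit 76) (nat_lit 2827902183340) (nat_lit 76) (nat_lit 1732587276384) (nat_lit 22) (nat_lit 4) (nat_lit 23) (nat_lit 5) (nat_lit 23) (nat_lit 4) (nat_lit 511) (nat_lit 459) (nat_lit 230)))) (XT.nd (nat_lit 156) (nat_lit 76) (nat_lit 0) (XT.nd (nat_lit 78) (nat_lit 152) (nat_lit 0) (XT.lf (nat_lit 0) (nat_lit 2800031490588) (nat_lit 76) (nat_lit 1614043195868) (nat_lit 76) (nat_lit 518728287113) (nat_lit 22) (nat_lit 4) (nat_lit 23) (nat_lit 5) (nat_lit 23) (nat_lit 4) (nat_lit 512) (nat_lit 459) (nat_lit 229)) (XT.lf (nat_lit 0) (nat_lit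 494865734285) (nat_lit 76) (nat_lit 269644191054) (nat_lit 152) (nat_lit 4453741354231) (nat_lit 20) (nat_lit 5) (nat_lit 21) (nat_lit 5) (nat_lit 22) (nat_lit 4) (nat_lit 513) (nat_lit 459) (nat_lit 228))) (XT.nd (nat_lit 78) (nat_lit 76) (nat_lit 0) (XT.lf (nat_lit 0) (nat_lit 2210645289744) (nat_lit 152) (nat_lit 2111286435969) (nat_lit 0) (nat_lit 1196464815704) (nat_lit 20) (nat_lit 5) (nat_lit 22) (nat_lit 4) (nat_lit 20) (nat_lit 4) (nat_lit 514) (nat_lit 459) (nat_lit 227)) (XT.lf (nat_lit 0) (nat_lit 739783832206) (nat_lit 76) (nat_lit 3057483211278) (nat_lit 76) (nat_lit 2043302735914) (nat_lit 19) (nat_lit 4) (nat_lit 20) (nat_lit 5) (nat_lit 20) (nat_lit 4) (nat_lit 515) (nat_lit 459) (nat_lit 226))))))) (XT.nd (nat_lit 1014) (nat_lit 76) (nat_lit 0) (XT.nd (nat_lit 468) (nat_lit 228) (nat_lit 0) (XT.nd (nat_lit 234) (nat_lit 228) (nat_lit 0) (XT.nd (nat_lit 78) (nat_lit 152)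 (nat_lit 0) (XT.lf (nat_lit 0) (nat_lit 3939010444324) (nat_lit 76) (nat_lit 1629534401989) (nat_lit 76) (nat_lit 615353925401) (nat_lit 19) (nat_lit 4) (nat_lit 20) (nat_lit 5) (nat_lit 20) (nat_lit 4) (nat_lit 516) (nat_lit 459) (nat_lit 225)) (XT.nd (nat_lit 78) (nat_lit 0) (nat_lit 0) (XT.lf (nat_lit 0) (nat_lit 860222610613) (nat_lit 76) (nat_lit 40932720317) (nat_lit 152) (nat_lit 5650100458600) (nat_lit 17) (nat_lit 5) (nat_lit 18) (nat_lit 5) (nat_lit 19) (nat_lit 4) (nat_lit 517) (nat_lit 459) (nat_lit 224)) (XT.lf (nat_lit 0) (nat_lit 2608991668068) (nat_lit 152) (nat_lit 2659535259152) (nat_lit 0) (nat_lit 1669935669204) (nat_lit 17) (nat_lit 5) (nat_lit 19) (nat_lit 4) (nat_lit 17) (nat_lit 4) (nat_lit 518) (nat_lit 459) (nat_lit 223)))) (XT.nd (nat_lit 78) (nat_lit 152) (nat_lit 0) (XT.lf (nat_lit 0) (nat_lit 645720872952) (nat_lit 76) (nat_lit 3824326825875) (nat_lit 76) (nat_lit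 2885270826112) (nat_lit 16) (nat_lit 4) (nat_lit 17) (nat_lit 5) (nat_lit 17) (nat_lit 4) (nat_lit 519) (nat_lit 459) (nat_lit 222)) (XT.nd (nat_lit 78) (nat_lit 152) (nat_lit 0) (XT.lf (nat_lit 0) (nat_lit 4366647615590) (nat_lit 76) (nat_lit 2186057000220) (nat_lit 76) (nat_lit 1247000999623) (nat_lit 16) (nat_lit 4) (nat_lit 17) (nat_lit 5) (nat_lit 17) (nat_lit 4) (nat_lit 520) (nat_lit 459) (nat_lit 221)) (XT.lf (nat_lit 0) (nat_lit 97942225841) (nat_lit 76) (nat_lit 400614614163) (nat_lit 152) (nat_lit 7779893427665) (nat_lit 14) (nat_lit 5) (nat_lit 15) (nat_lit 5) (nat_lit 16) (nat_lit 4) (nat_lit 521) (nat_lit 459) (nat_lit 220))))) (XT.nd (nat_lit 234) (nat_lit 152) (nat_lit 0) (XT.nd (nat_lit 78) (nat_lit 76) (nat_lit 0) (XT.lf (nat_lit 0) (nat_lit 2449433160512) (nat_lit 152) (nat_lit 4752889754591) (nat_lit 0) (nat_lit 1579936862287) (nat_lit 14) (nat_lit 5) (nat_lit 16) (nat_lit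 4) (nat_lit 14) (nat_lit 4) (nat_lit 522) (nat_lit 459) (nat_lit 219)) (XT.nd (nat_lit 78) (nat_lit 76) (nat_lit 0) (XT.lf (nat_lit 0) (nat_lit 4566785158137) (nat_lit 152) (nat_lit 1061467584736) (nat_lit 0) (nat_lit 3697288859299) (nat_lit 14) (nat_lit 5) (nat_lit 16) (nat_lit 4) (nat_lit 14) (nat_lit 4) (nat_lit 523) (nat_lit 459) (nat_lit 218)) (XT.lf (nat_lit 0) (nat_lit 3079307800640) (nat_lit 76) (nat_lit 3848274938891) (nat_lit 76) (nat_lit 2978778639486) (nat_lit 13) (nat_lit 4) (nat_lit 14) (nat_lit 5) (nat_lit 14) (nat_lit 4) (nat_lit 524) (nat_lit 459) (nat_lit 217)))) (XT.nd (nat_lit 156) (nat_lit 0) (nat_lit 0) (XT.nd (nat_lit 78) (nat_lit 152) (nat_lit 0) (XT.lf (nat_lit 0) (nat_lit 7611711813547) (nat_lit 76) (nat_lit 1894554716109) (nat_lit 76) (nat_lit 1025058416178) (nat_lit 13) (nat_lit 4) (nat_lit 14) (nat_lit 5) (nat_lit 14) (nat_lit 4) (nat_lit 525) (nat_lit 459)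 (nat_lit 216)) (XT.lf (nat_lit 0) (nat_lit 1069644460151) (nat_lit 152) (nat_lit 9866881652748) (nat_lit 0) (nat_lit 264555293098) (nat_lit 11) (nat_lit 5) (nat_lit 13) (nat_lit 4) (nat_lit 11) (nat_lit 4) (nat_lit 526) (nat_lit 459) (nat_lit 215))) (XT.nd (nat_lit 78) (nat_lit 0) (nat_lit 0) (XT.lf (nat_lit 0) (nat_lit 3407653834049) (nat_lit 152) (nat_lit 5901581087087) (nat_lit 0) (nat_lit 2602564666579) (nat_lit 11) (nat_lit 5) (nat_lit 13) (nat_lit 4) (nat_lit 11) (nat_lit 4) (nat_lit 527) (nat_lit 459) (nat_lit 214)) (XT.lf (nat_lit 0) (nat_lit 5932703955547) (nat_lit 152) (nat_lit 1619056480915) (nat_lit 0) (nat_lit 5127614787691) (nat_lit 11) (nat_lit 5) (nat_lit 13) (nat_lit 4) (nat_lit 11) (nat_lit 4) (nat_lit 528) (nat_lit 459) (nat_lit 213)))))) (XT.nd (nat_lit 57486) (nat_lit 0) (nat_lit 4408) (XT.nd (nat_lit 57252) (nat_lit 0) (nat_lit 4940) (XT.nd (nat_lit 57096) (nat_lit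 0) (nat_lit 5396) (XT.lf (nat_lit 0) (nat_lit 3164364413050) (nat_lit 76) (nat_lit 5571496711811) (nat_lit 76) (nat_lit 4766407543598) (nat_lit 10) (nat_lit 4) (nat_lit 11) (nat_lit 5) (nat_lit 11) (nat_lit 4) (nat_lit 529) (nat_lit 459) (nat_lit 212)) (XT.nd (nat_lit 78) (nat_lit 0) (nat_lit 0) (XT.lf (nat_lit 0) (nat_lit 199289390041) (nat_lit 532) (nat_lit 3155276864) (nat_lit 532) (nat_lit 3155276864) (nat_lit 81) (nat_lit 3) (nat_lit 88) (nat_lit 3) (nat_lit 88) (nat_lit 5) (nat_lit 460) (nat_lit 460) (nat_lit 280)) (XT.lf (nat_lit 76) (nat_lit 208053540053) (nat_lit 0) (nat_lit 211472448770) (nat_lit 532) (nat_lit 7721569515) (nat_lit 82) (nat_lit 5) (nat_lit 81) (nat_lit 3) (nat_lit 88) (nat_lit 5) (nat_lit 461) (nat_lit 460) (nat_lit 279)))) (XT.nd (nat_lit 78) (nat_lit 456) (nat_lit 0) (XT.lf (nat_lit 76) (nat_lit 439925627363) (nat_lit 0) (nat_lit 2395851617) (nat_lit 532) (nat_lit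 2243763456) (nat_lit 82) (nat_lit 5) (nat_lit 81) (nat_lit 3) (nat_lit 88) (nat_lit 5) (nat_lit 462) (nat_lit 460) (nat_lit 278)) (XT.nd (nat_lit 78) (nat_lit 0) (nat_lit 0) (XT.lf (nat_lit 0) (nat_lit 14759630208) (nat_lit 532) (nat_lit 229382313293) (nat_lit 608) (nat_lit 218217647136) (nat_lit 75) (nat_lit 5) (nat_lit 82) (nat_lit 5) (nat_lit 83) (nat_lit 5) (nat_lit 463) (nat_lit 460) (nat_lit 277)) (XT.lf (nat_lit 76) (nat_lit 8606758921) (nat_lit 0) (nat_lit 24794655099) (nat_lit 608) (nat_lit 448139463103) (nat_lit 76) (nat_lit 5) (nat_lit 75) (nat_lit 5) (nat_lit 83) (nat_lit 5) (nat_lit 464) (nat_lit 460) (nat_lit 276))))) (XT.nd (nat_lit 234) (nat_lit 608) (nat_lit 0) (XT.nd (nat_lit 78) (nat_lit 0) (nat_lit 0) (XT.lf (nat_lit 0) (nat_lit 65070150704) (nat_lit 532) (nat_lit 228338744173) (nat_lit 608) (nat_lit 207924922846) (nat_lit 76) (nat_lit 5) (nat_lit 83) (nat_lit 5) (nat_lit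 84) (nat_lit 5) (nat_lit 465) (nat_lit 460) (nat_lit 275)) (XT.nd (nat_lit 78) (nat_lit 0) (nat_lit 76) (XT.lf (nat_lit 76) (nat_lit 37032747077) (nat_lit 0) (nat_lit 63774266306) (nat_lit 608) (nat_lit 421780410029) (nat_lit 77) (nat_lit 5) (nat_lit 76) (nat_lit 5) (nat_lit 84) (nat_lit 5) (nat_lit 466) (nat_lit 460) (nat_lit 274)) (XT.lf (nat_lit 0) (nat_lit 150238908064) (nat_lit 532) (nat_lit 213015027516) (nat_lit 76) (nat_lit 181420495344) (nat_lit 77) (nat_lit 5) (nat_lit 84) (nat_lit 5) (nat_lit 78) (nat_lit 5) (nat_lit 467) (nat_lit 460) (nat_lit 273)))) (XT.nd (nat_lit 156) (nat_lit 228) (nat_lit 0) (XT.nd (nat_lit 78) (nat_lit 0) (nat_lit 0) (XT.lf (nat_lit 0) (nat_lit 83866644531) (nat_lit 456) (nat_lit 123432154266) (nat_lit 532) (nat_lit 360935724687) (nat_lit 71) (nat_lit 5) (nat_lit 77) (nat_lit 5) (nat_lit 78) (nat_lit 5) (nat_lit 468) (nat_lit 460) (nat_lit 272)) (XT.lf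 (nat_lit 0) (nat_lit 278159534687) (nat_lit 532) (nat_lit 180012176870) (nat_lit 76) (nat_lit 134768827584) (nat_lit 71) (nat_lit 5) (nat_lit 78) (nat_lit 5) (nat_lit 72) (nat_lit 5) (nat_lit 469) (nat_lit 460) (nat_lit 271))) (XT.nd (nat_lit 78) (nat_lit 0) (nat_lit 0) (XT.lf (nat_lit 0) (nat_lit 153146959645) (nat_lit 228) (nat_lit 208431366099) (nat_lit 304) (nat_lit 257493574609) (nat_lit 68) (nat_lit 5) (nat_lit 71) (nat_lit 5) (nat_lit 72) (nat_lit 5) (nat_lit 470) (nat_lit 460) (nat_lit 270)) (XT.lf (nat_lit 0) (nat_lit 458194274461) (nat_lit 304) (nat_lit 125305590346) (nat_lit 76) (nat_lit 63272013311) (nat_lit 68) (nat_lit 5) (nat_lit 72) (nat_lit 5) (nat_lit 69) (nat_lit 5) (nat_lit 471) (nat_lit 460) (nat_lit 269))))))))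
noncomputable def xc216 : XT := (XT.nd (nat_lit 1950) (nat_lit 1520) (nat_lit 0) (XT.nd (nat_lit 936) (nat_lit 1064) (nat_lit 0) (XT.nd (nat_lit 468) (nat_lit 532) (nat_lit 0) (XT.nd (nat_lit 234) (nat_lit 380) (nat_lit 0) (XT.nd (nat_lit 78) (nat_lit 228) (nat_lit 0) (XT.lf (nat_lit 0) (nat_lit 249637355713) (nat_lit 228) (nat_lit 324319710307) (nat_lit 304) (nat_lit 101817382730) (nat_lit 65) (nat_lit 5) (nat_lit 68) (nat_lit 5) (nat_lit 69) (nat_lit 5) (nat_lit 472) (nat_lit 460) (nat_lit 268)) (XT.nd (nat_lit 78) (nat_lit 228) (nat_lit 0) (XT.lf (nat_lit 0) (nat_lit 661701955785) (nat_lit 228) (nat_lit 40704983740) (nat_lit 304) (nat_lit 4416200822) (nat_lit 65) (nat_lit 5) (nat_lit 68) (nat_lit 5) (nat_lit 69) (nat_lit 5) (nat_lit 473) (nat_lit 460) (nat_lit 267)) (XT.lf (nat_lit 0) (nat_lit 111639700255) (nat_lit 228) (nat_lit 362997285516) (nat_lit 76) (nat_lit 264252534050) (nat_lit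 62) (nat_lit 5) (nat_lit 65) (nat_lit 5) (nat_lit 63) (nat_lit 5) (nat_lit 474) (nat_lit 460) (nat_lit 266)))) (XT.nd (nat_lit 78) (nat_lit 152) (nat_lit 0) (XT.lf (nat_lit 0) (nat_lit 61608138380) (nat_lit 228) (nat_lit 178938015464) (nat_lit 304) (nat_lit 532661505693) (nat_lit 59) (nat_lit 5) (nat_lit 62) (nat_lit 5) (nat_lit 63) (nat_lit 5) (nat_lit 475) (nat_lit 460) (nat_lit 265)) (XT.nd (nat_lit 78) (nat_lit 152) (nat_lit 0) (XT.lf (nat_lit 0) (nat_lit 393324917817) (nat_lit 304) (nat_lit 272286121182) (nat_lit 76) (nat_lit 143575427907) (nat_lit 59) (nat_lit 5) (nat_lit 63) (nat_lit 5) (nat_lit 60) (nat_lit 5) (nat_lit 476) (nat_lit 460) (nat_lit 264)) (XT.lf (nat_lit 0) (nat_lit 207925884367) (nat_lit 152) (nat_lit 360048446849) (nat_lit 228) (nat_lit 279297379787) (nat_lit 57) (nat_lit 5) (nat_lit 59) (nat_lit 5) (nat_lit 60) (nat_lit 5) (nat_lit 477) (nat_lit 460) (nat_lit 263)))))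 (XT.nd (nat_lit 234) (nat_lit 152) (nat_lit 0) (XT.nd (nat_lit 78) (nat_lit 380) (nat_lit 0) (XT.lf (nat_lit 0) (nat_lit 742039983255) (nat_lit 152) (nat_lit 22000485263) (nat_lit 228) (nat_lit 123767724443) (nat_lit 57) (nat_lit 5) (nat_lit 59) (nat_lit 5) (nat_lit 60) (nat_lit 5) (nat_lit 478) (nat_lit 460) (nat_lit 262)) (XT.nd (nat_lit 78) (nat_lit 152) (nat_lit 0) (XT.lf (nat_lit 0) (nat_lit 60303991604) (nat_lit 228) (nat_lit 532682444174) (nat_lit 76) (nat_lit 337051231213) (nat_lit 54) (nat_lit 5) (nat_lit 57) (nat_lit 5) (nat_lit 55) (nat_lit 5) (nat_lit 479) (nat_lit 460) (nat_lit 261)) (XT.lf (nat_lit 0) (nat_lit 13686783425) (nat_lit 152) (nat_lit 243717667404) (nat_lit 228) (nat_lit 717584694207) (nat_lit 52) (nat_lit 5) (nat_lit 54) (nat_lit 5) (nat_lit 55) (nat_lit 5) (nat_lit 480) (nat_lit 460) (nat_lit 260)))) (XT.nd (nat_lit 78) (nat_lit 152) (nat_lit 0) (XT.lf (nat_lit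 0) (nat_lit 488426214564) (nat_lit 228) (nat_lit 391900729544) (nat_lit 76) (nat_lit 141757535797) (nat_lit 52) (nat_lit 5) (nat_lit 55) (nat_lit 5) (nat_lit 53) (nat_lit 5) (nat_lit 481) (nat_lit 460) (nat_lit 259)) (XT.nd (nat_lit 78) (nat_lit 0) (nat_lit 0) (XT.lf (nat_lit 0) (nat_lit 228134918028) (nat_lit 152) (nat_lit 521611768825) (nat_lit 228) (nat_lit 322255397316) (nat_lit 50) (nat_lit 5) (nat_lit 52) (nat_lit 5) (nat_lit 53) (nat_lit 5) (nat_lit 482) (nat_lit 460) (nat_lit 258)) (XT.lf (nat_lit 0) (nat_lit 920061141031) (nat_lit 152) (nat_lit 122626904954) (nat_lit 228) (nat_lit 82367830865) (nat_lit 50) (nat_lit 5) (nat_lit 52) (nat_lit 5) (nat_lit 53) (nat_lit 5) (nat_lit 483) (nat_lit 460) (nat_lit 257)))))) (XT.nd (nat_lit 468) (nat_lit 456) (nat_lit 0) (XT.nd (nat_lit 234) (nat_lit 304) (nat_lit 0) (XT.nd (nat_lit 78) (nat_lit 152) (nat_lit 0) (XT.lf (nat_lit 0) (nat_lit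 187882083365) (nat_lit 152) (nat_lit 682828542308) (nat_lit 76) (nat_lit 309702465117) (nat_lit 48) (nat_lit 5) (nat_lit 50) (nat_lit 5) (nat_lit 49) (nat_lit 5) (nat_lit 484) (nat_lit 460) (nat_lit 256)) (XT.nd (nat_lit 78) (nat_lit 0) (nat_lit 0) (XT.lf (nat_lit 0) (nat_lit 24008798327) (nat_lit 152) (nat_lit 460806207803) (nat_lit 228) (nat_lit 754451680367) (nat_lit 46) (nat_lit 5) (nat_lit 48) (nat_lit 5) (nat_lit 49) (nat_lit 5) (nat_lit 485) (nat_lit 460) (nat_lit 255)) (XT.lf (nat_lit 0) (nat_lit 824221690751) (nat_lit 228) (nat_lit 475158213800) (nat_lit 76) (nat_lit 1951135067) (nat_lit 46) (nat_lit 5) (nat_lit 49) (nat_lit 5) (nat_lit 47) (nat_lit 4) (nat_lit 486) (nat_lit 460) (nat_lit 254)))) (XT.nd (nat_lit 78) (nat_lit 228) (nat_lit 0) (XT.lf (nat_lit 0) (nat_lit 328619293616) (nat_lit 76) (nat_lit 882033901240) (nat_lit 152) (nat_lit 156117563358) (nat_lit 45) (nat_lit 5)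 (nat_lit 46) (nat_lit 5) (nat_lit 47) (nat_lit 4) (nat_lit 487) (nat_lit 460) (nat_lit 253)) (XT.nd (nat_lit 78) (nat_lit 152) (nat_lit 0) (XT.lf (nat_lit 0) (nat_lit 194350407927) (nat_lit 152) (nat_lit 217604930910) (nat_lit 76) (nat_lit 1024057361713) (nat_lit 44) (nat_lit 5) (nat_lit 46) (nat_lit 5) (nat_lit 45) (nat_lit 5) (nat_lit 488) (nat_lit 460) (nat_lit 252)) (XT.lf (nat_lit 0) (nat_lit 584089553709) (nat_lit 228) (nat_lit 812445014719) (nat_lit 76) (nat_lit 112361578499) (nat_lit 42) (nat_lit 5) (nat_lit 45) (nat_lit 5) (nat_lit 43) (nat_lit 4) (nat_lit 489) (nat_lit 460) (nat_lit 251))))) (XT.nd (nat_lit 234) (nat_lit 228) (nat_lit 0) (XT.nd (nat_lit 78) (nat_lit 152) (nat_lit 0) (XT.lf (nat_lit 0) (nat_lit 103179539474) (nat_lit 76) (nat_lit 921114134292) (nat_lit 152) (nat_lit 561773727841) (nat_lit 41) (nat_lit 5) (nat_lit 42) (nat_lit 5) (nat_lit 43) (nat_lit 4) (nat_lit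 490) (nat_lit 460) (nat_lit 250)) (XT.nd (nat_lit 78) (nat_lit 152) (nat_lit 0) (XT.lf (nat_lit 0) (nat_lit 1138258510795) (nat_lit 76) (nat_lit 383669290710) (nat_lit 152) (nat_lit 145707460909) (nat_lit 41) (nat_lit 5) (nat_lit 42) (nat_lit 5) (nat_lit 43) (nat_lit 4) (nat_lit 491) (nat_lit 460) (nat_lit 249)) (XT.lf (nat_lit 0) (nat_lit 306184740149) (nat_lit 152) (nat_lit 1240312897568) (nat_lit 76) (nat_lit 207228291259) (nat_lit 39) (nat_lit 5) (nat_lit 41) (nat_lit 5) (nat_lit 40) (nat_lit 4) (nat_lit 492) (nat_lit 460) (nat_lit 248)))) (XT.nd (nat_lit 156) (nat_lit 152) (nat_lit 0) (XT.nd (nat_lit 78) (nat_lit 76) (nat_lit 0) (XT.lf (nat_lit 0) (nat_lit 811171807174) (nat_lit 152) (nat_lit 189939809567) (nat_lit 76) (nat_lit 843304225183) (nat_lit 39) (nat_lit 5) (nat_lit 41) (nat_lit 5) (nat_lit 40) (nat_lit 4) (nat_lit 493) (nat_lit 460) (nat_lit 247)) (XT.lf (nat_lit 0) (nat_lit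 994196865805) (nat_lit 76) (nat_lit 386271424993) (nat_lit 152) (nat_lit 559979821011) (nat_lit 38) (nat_lit 5) (nat_lit 39) (nat_lit 5) (nat_lit 40) (nat_lit 4) (nat_lit 494) (nat_lit 460) (nat_lit 246))) (XT.nd (nat_lit 78) (nat_lit 76) (nat_lit 0) (XT.lf (nat_lit 0) (nat_lit 245589457559) (nat_lit 76) (nat_lit 1767633680421) (nat_lit 76) (nat_lit 29506653717) (nat_lit 37) (nat_lit 4) (nat_lit 38) (nat_lit 5) (nat_lit 38) (nat_lit 4) (nat_lit 495) (nat_lit 460) (nat_lit 245)) (XT.lf (nat_lit 0) (nat_lit 552798287368) (nat_lit 152) (nat_lit 588306597364) (nat_lit 76) (nat_lit 1008117433584) (nat_lit 36) (nat_lit 5) (nat_lit 38) (nat_lit 5) (nat_lit 37) (nat_lit 4) (nat_lit 496) (nat_lit 460) (nat_lit 244))))))) (XT.nd (nat_lit 936) (nat_lit 760) (nat_lit 0) (XT.nd (nat_lit 468) (nat_lit 380) (nat_lit 0) (XT.nd (nat_lit 234) (nat_lit 152) (nat_lit 0) (XT.nd (nat_lit 78) (nat_lit 152) (nat_lit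 0) (XT.lf (nat_lit 0) (nat_lit 754195323835) (nat_lit 76) (nat_lit 444036583228) (nat_lit 152) (nat_lit 1064489954753) (nat_lit 35) (nat_lit 5) (nat_lit 36) (nat_lit 5) (nat_lit 37) (nat_lit 4) (nat_lit 497) (nat_lit 460) (nat_lit 243)) (XT.nd (nat_lit 78) (nat_lit 152) (nat_lit 0) (XT.lf (nat_lit 0) (nat_lit 1919229935519) (nat_lit 152) (nat_lit 154304018416) (nat_lit 0) (nat_lit 309853037326) (nat_lit 35) (nat_lit 5) (nat_lit 37) (nat_lit 4) (nat_lit 35) (nat_lit 4) (nat_lit 498) (nat_lit 460) (nat_lit 242)) (XT.lf (nat_lit 0) (nat_lit 220502015727) (nat_lit 152) (nat_lit 1150732711644) (nat_lit 76) (nat_lit 1138475070224) (nat_lit 33) (nat_lit 5) (nat_lit 35) (nat_lit 5) (nat_lit 34) (nat_lit 4) (nat_lit 499) (nat_lit 460) (nat_lit 241)))) (XT.nd (nat_lit 78) (nat_lit 76) (nat_lit 0) (XT.lf (nat_lit 0) (nat_lit 362250802261) (nat_lit 76) (nat_lit 585647136358) (nat_lit 152) (nat_lit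 1696232754606) (nat_lit 32) (nat_lit 5) (nat_lit 33) (nat_lit 5) (nat_lit 34) (nat_lit 4) (nat_lit 500) (nat_lit 460) (nat_lit 240)) (XT.nd (nat_lit 78) (nat_lit 76) (nat_lit 0) (XT.lf (nat_lit 0) (nat_lit 1772085868340) (nat_lit 152) (nat_lit 732209307697) (nat_lit 0) (nat_lit 281922057828) (nat_lit 32) (nat_lit 5) (nat_lit 34) (nat_lit 4) (nat_lit 32) (nat_lit 4) (nat_lit 501) (nat_lit 460) (nat_lit 239)) (XT.lf (nat_lit 0) (nat_lit 974996574874) (nat_lit 76) (nat_lit 1725872556986) (nat_lit 76) (nat_lit 235708741942) (nat_lit 31) (nat_lit 4) (nat_lit 32) (nat_lit 5) (nat_lit 32) (nat_lit 4) (nat_lit 502) (nat_lit 460) (nat_lit 238))))) (XT.nd (nat_lit 234) (nat_lit 152) (nat_lit 0) (XT.nd (nat_lit 78) (nat_lit 152) (nat_lit 0) (XT.lf (nat_lit 0) (nat_lit 595263648878) (nat_lit 152) (nat_lit 252015429571) (nat_lit 76) (nat_lit 2248881097651) (nat_lit 30) (nat_lit 5) (nat_lit 32) (nat_lit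 5) (nat_lit 31) (nat_lit 4) (nat_lit 503) (nat_lit 460) (nat_lit 237)) (XT.nd (nat_lit 78) (nat_lit 76) (nat_lit 0) (XT.lf (nat_lit 0) (nat_lit 1523833756326) (nat_lit 152) (nat_lit 1596624737661) (nat_lit 0) (nat_lit 144052438618) (nat_lit 29) (nat_lit 5) (nat_lit 31) (nat_lit 4) (nat_lit 29) (nat_lit 4) (nat_lit 504) (nat_lit 460) (nat_lit 236)) (XT.lf (nat_lit 0) (nat_lit 302899826336) (nat_lit 76) (nat_lit 2260151161546) (nat_lit 76) (nat_lit 880369840507) (nat_lit 28) (nat_lit 4) (nat_lit 29) (nat_lit 5) (nat_lit 29) (nat_lit 4) (nat_lit 505) (nat_lit 460) (nat_lit 235)))) (XT.nd (nat_lit 78) (nat_lit 76) (nat_lit 0) (XT.lf (nat_lit 0) (nat_lit 91111234379) (nat_lit 152) (nat_lit 1190269956612) (nat_lit 76) (nat_lit 2351585432178) (nat_lit 27) (nat_lit 5) (nat_lit 29) (nat_lit 5) (nat_lit 28) (nat_lit 4) (nat_lit 506) (nat_lit 460) (nat_lit 234)) (XT.nd (nat_lit 78) (nat_lit 0) (nat_lit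 0) (XT.lf (nat_lit 0) (nat_lit 940165289463) (nat_lit 76) (nat_lit 175193660748) (nat_lit 152) (nat_lit 2718678911946) (nat_lit 26) (nat_lit 5) (nat_lit 27) (nat_lit 5) (nat_lit 28) (nat_lit 4) (nat_lit 507) (nat_lit 460) (nat_lit 233)) (XT.lf (nat_lit 0) (nat_lit 2279454601480) (nat_lit 152) (nat_lit 765228253056) (nat_lit 0) (nat_lit 1001879296274) (nat_lit 26) (nat_lit 5) (nat_lit 28) (nat_lit 4) (nat_lit 26) (nat_lit 4) (nat_lit 508) (nat_lit 460) (nat_lit 232)))))) (XT.nd (nat_lit 468) (nat_lit 304) (nat_lit 0) (XT.nd (nat_lit 234) (nat_lit 228) (nat_lit 0) (XT.nd (nat_lit 78) (nat_lit 152) (nat_lit 0) (XT.lf (nat_lit 0) (nat_lit 1609679822740) (nat_lit 76) (nat_lit 1970261400893) (nat_lit 76) (nat_lit 692686093420) (nat_lit 25) (nat_lit 4) (nat_lit 26) (nat_lit 5) (nat_lit 26) (nat_lit 4) (nat_lit 509) (nat_lit 460) (nat_lit 231)) (XT.nd (nat_lit 78) (nat_lit 76) (nat_lit 0) (XT.lf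 (nat_lit 0) (nat_lit 465759515931) (nat_lit 152) (nat_lit 308795516434) (nat_lit 76) (nat_lit 3739605538435) (nat_lit 24) (nat_lit 5) (nat_lit 26) (nat_lit 5) (nat_lit 25) (nat_lit 4) (nat_lit 510) (nat_lit 460) (nat_lit 230)) (XT.lf (nat_lit 0) (nat_lit 1749904856146) (nat_lit 152) (nat_lit 2451071758242) (nat_lit 0) (nat_lit 566964752891) (nat_lit 23) (nat_lit 5) (nat_lit 25) (nat_lit 4) (nat_lit 23) (nat_lit 4) (nat_lit 511) (nat_lit 460) (nat_lit 229)))) (XT.nd (nat_lit 78) (nat_lit 152) (nat_lit 0) (XT.lf (nat_lit 0) (nat_lit 114174062307) (nat_lit 76) (nat_lit 3054134274516) (nat_lit 76) (nat_lit 1871194169595) (nat_lit 22) (nat_lit 4) (nat_lit 23) (nat_lit 5) (nat_lit 23) (nat_lit 4) (nat_lit 512) (nat_lit 460) (nat_lit 228)) (XT.nd (nat_lit 78) (nat_lit 152) (nat_lit 0) (XT.lf (nat_lit 0) (nat_lit 3024034163358) (nat_lit 76) (nat_lit 1743166574231) (nat_lit 76) (nat_lit 560226467767)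 (nat_lit 22) (nat_lit 4) (nat_lit 23) (nat_lit 5) (nat_lit 23) (nat_lit 4) (nat_lit 513) (nat_lit 460) (nat_lit 227)) (XT.lf (nat_lit 0) (nat_lit 534455146679) (nat_lit 76) (nat_lit 291215648787) (nat_lit 152) (nat_lit 4810040580380) (nat_lit 20) (nat_lit 5) (nat_lit 21) (nat_lit 5) (nat_lit 22) (nat_lit 4) (nat_lit 514) (nat_lit 460) (nat_lit 226))))) (XT.nd (nat_lit 234) (nat_lit 228) (nat_lit 0) (XT.nd (nat_lit 78) (nat_lit 76) (nat_lit 0) (XT.lf (nat_lit 0) (nat_lit 2387496985114) (nat_lit 152) (nat_lit 2280189204666) (nat_lit 0) (nat_lit 1292182069174) (nat_lit 20) (nat_lit 5) (nat_lit 22) (nat_lit 4) (nat_lit 20) (nat_lit 4) (nat_lit 515) (nat_lit 460) (nat_lit 225)) (XT.nd (nat_lit 78) (nat_lit 0) (nat_lit 0) (XT.lf (nat_lit 0) (nat_lit 798966681263) (nat_lit 76) (nat_lit 3302081795969) (nat_lit 76) (nat_lit 2206766878895) (nat_lit 19) (nat_lit 4) (nat_lit 20) (nat_lit 5) (nat_lit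 20) (nat_lit 4) (nat_lit 516) (nat_lit 460) (nat_lit 224)) (XT.lf (nat_lit 0) (nat_lit 4254131411796) (nat_lit 76) (nat_lit 1759897087287) (nat_lit 76) (nat_lit 664582169162) (nat_lit 19) (nat_lit 4) (nat_lit 20) (nat_lit 5) (nat_lit 20) (nat_lit 4) (nat_lit 517) (nat_lit 460) (nat_lit 223)))) (XT.nd (nat_lit 156) (nat_lit 76) (nat_lit 0) (XT.nd (nat_lit 78) (nat_lit 0) (nat_lit 0) (XT.lf (nat_lit 0) (nat_lit 929040551475) (nat_lit 76) (nat_lit 44207270914) (nat_lit 152) (nat_lit 6102108425103) (nat_lit 17) (nat_lit 5) (nat_lit 18) (nat_lit 5) (nat_lit 19) (nat_lit 4) (nat_lit 518) (nat_lit 460) (nat_lit 222)) (XT.lf (nat_lit 0) (nat_lit 2817711063178) (nat_lit 152) (nat_lit 2872297954328) (nat_lit 0) (nat_lit 1803530581699) (nat_lit 17) (nat_lit 5) (nat_lit 19) (nat_lit 4) (nat_lit 17) (nat_lit 4) (nat_lit 519) (nat_lit 460) (nat_lit 221))) (XT.nd (nat_lit 78) (nat_lit 0) (nat_lit 0) (XT.lf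 (nat_lit 0) (nat_lit 697378665167) (nat_lit 76) (nat_lit 4130272909607) (nat_lit 76) (nat_lit 3116092427357) (nat_lit 16) (nat_lit 4) (nat_lit 17) (nat_lit 5) (nat_lit 17) (nat_lit 4) (nat_lit 520) (nat_lit 460) (nat_lit 220)) (XT.lf (nat_lit 0) (nat_lit 4715979538150) (nat_lit 76) (nat_lit 2360941502517) (nat_lit 76) (nat_lit 1346761019552) (nat_lit 16) (nat_lit 4) (nat_lit 17) (nat_lit 5) (nat_lit 17) (nat_lit 4) (nat_lit 521) (nat_lit 460) (nat_lit 219))))))))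
noncomputable def xc217 : XT := (XT.nd (nat_lit 59046) (nat_lit 0) (nat_lit 1596) (XT.nd (nat_lit 58032) (nat_lit 0) (nat_lit 3648) (XT.nd (nat_lit 468) (nat_lit 0) (nat_lit 0) (XT.nd (nat_lit 234) (nat_lit 228) (nat_lit 0) (XT.nd (nat_lit 78) (nat_lit 0) (nat_lit 0) (XT.lf (nat_lit 0) (nat_lit 105777717281) (nat_lit 76) (nat_lit 432663725462) (nat_lit 152) (nat_lit 8402284841896) (nat_lit 14) (nat_lit 5) (nat_lit 15) (nat_lit 5) (nat_lit 16) (nat_lit 4) (nat_lit 522) (nat_lit 460) (nat_lit 218)) (XT.nd (nat_lit 78) (nat_lit 0) (nat_lit 0) (XT.lf (nat_lit 0) (nat_lit 2645387866066) (nat_lit 152) (nat_lit 5133120827157) (nat_lit 0) (nat_lit 1706331862141) (nat_lit 14) (nat_lit 5) (nat_lit 16) (nat_lit 4) (nat_lit 14) (nat_lit 4) (nat_lit 523) (nat_lit 460) (nat_lit 217)) (XT.lf (nat_lit 0) (nat_lit 4932128019596) (nat_lit 152) (nat_lit 1146384891699) (nat_lit 0) (nat_lit 3993072015145) (nat_lit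 14) (nat_lit 5) (nat_lit 16) (nat_lit 4) (nat_lit 14) (nat_lit 4) (nat_lit 524) (nat_lit 460) (nat_lit 216)))) (XT.nd (nat_lit 78) (nat_lit 152) (nat_lit 0) (XT.lf (nat_lit 0) (nat_lit 3325652521981) (nat_lit 76) (nat_lit 4156136884246) (nat_lit 76) (nat_lit 3217080879309) (nat_lit 13) (nat_lit 4) (nat_lit 14) (nat_lit 5) (nat_lit 14) (nat_lit 4) (nat_lit 525) (nat_lit 460) (nat_lit 215)) (XT.nd (nat_lit 78) (nat_lit 152) (nat_lit 0) (XT.lf (nat_lit 0) (nat_lit 8220648848713) (nat_lit 76) (nat_lit 2046119047327) (nat_lit 76) (nat_lit 1107063041939) (nat_lit 13) (nat_lit 4) (nat_lit 14) (nat_lit 5) (nat_lit 14) (nat_lit 4) (nat_lit 526) (nat_lit 460) (nat_lit 214)) (XT.lf (nat_lit 0) (nat_lit 1155216062051) (nat_lit 152) (nat_lit 10656232092439) (nat_lit 0) (nat_lit 285719760380) (nat_lit 11) (nat_lit 5) (nat_lit 13) (nat_lit 4) (nat_lit 11) (nat_lit 4) (nat_lit 527) (nat_lit 460) (nat_lit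 213))))) (XT.nd (nat_lit 57330) (nat_lit 0) (nat_lit 4864) (XT.nd (nat_lit 78) (nat_lit 0) (nat_lit 0) (XT.lf (nat_lit 0) (nat_lit 3680266182520) (nat_lit 152) (nat_lit 6373707488379) (nat_lit 0) (nat_lit 2810769880492) (nat_lit 11) (nat_lit 5) (nat_lit 13) (nat_lit 4) (nat_lit 11) (nat_lit 4) (nat_lit 528) (nat_lit 460) (nat_lit 212)) (XT.nd (nat_lit 57174) (nat_lit 0) (nat_lit 5320) (XT.lf (nat_lit 0) (nat_lit 6407320310646) (nat_lit 152) (nat_lit 1748580920060) (nat_lit 0) (nat_lit 5537824008287) (nat_lit 11) (nat_lit 5) (nat_lit 13) (nat_lit 4) (nat_lit 11) (nat_lit 4) (nat_lit 529) (nat_lit 460) (nat_lit 211)) (XT.lf (nat_lit 0) (nat_lit 215232897364) (nat_lit 532) (nat_lit 3407506660) (nat_lit 532) (nat_lit 3407506660) (nat_lit 81) (nat_lit 3) (nat_lit 88) (nat_lit 3) (nat_lit 88) (nat_lit 5) (nat_lit 461) (nat_lit 461) (nat_lit 278)))) (XT.nd (nat_lit 78) (nat_lit 456) (nat_lit 0)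 (XT.lf (nat_lit 76) (nat_lit 224698198223) (nat_lit 0) (nat_lit 228390538206) (nat_lit 532) (nat_lit 8338572920) (nat_lit 82) (nat_lit 5) (nat_lit 81) (nat_lit 3) (nat_lit 88) (nat_lit 5) (nat_lit 462) (nat_lit 461) (nat_lit 277)) (XT.nd (nat_lit 78) (nat_lit 456) (nat_lit 0) (XT.lf (nat_lit 76) (nat_lit 475120024742) (nat_lit 0) (nat_lit 2587791537) (nat_lit 532) (nat_lit 2422595869) (nat_lit 82) (nat_lit 5) (nat_lit 81) (nat_lit 3) (nat_lit 88) (nat_lit 5) (nat_lit 463) (nat_lit 461) (nat_lit 276)) (XT.lf (nat_lit 0) (nat_lit 15940992279) (nat_lit 532) (nat_lit 247732473864) (nat_lit 608) (nat_lit 235674844272) (nat_lit 75) (nat_lit 5) (nat_lit 82) (nat_lit 5) (nat_lit 83) (nat_lit 5) (nat_lit 464) (nat_lit 461) (nat_lit 275)))))) (XT.nd (nat_lit 468) (nat_lit 912) (nat_lit 0) (XT.nd (nat_lit 234) (nat_lit 304) (nat_lit 0) (XT.nd (nat_lit 78) (nat_lit 0) (nat_lit 76) (XT.lf (nat_lit 76)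 (nat_lit 9295713380) (nat_lit 0) (nat_lit 26778371541) (nat_lit 608) (nat_lit 483990017621) (nat_lit 76) (nat_lit 5) (nat_lit 75) (nat_lit 5) (nat_lit 83) (nat_lit 5) (nat_lit 465) (nat_lit 461) (nat_lit 274)) (XT.nd (nat_lit 78) (nat_lit 0) (nat_lit 0) (XT.lf (nat_lit 0) (nat_lit 70276276015) (nat_lit 532) (nat_lit 246605415965) (nat_lit 608) (nat_lit 224558789981) (nat_lit 76) (nat_lit 5) (nat_lit 83) (nat_lit 5) (nat_lit 84) (nat_lit 5) (nat_lit 466) (nat_lit 461) (nat_lit 273)) (XT.lf (nat_lit 76) (nat_lit 39995783756) (nat_lit 0) (nat_lit 68876275959) (nat_lit 608) (nat_lit 455522318637) (nat_lit 77) (nat_lit 5) (nat_lit 76) (nat_lit 5) (nat_lit 84) (nat_lit 5) (nat_lit 467) (nat_lit 461) (nat_lit 272)))) (XT.nd (nat_lit 78) (nat_lit 456) (nat_lit 0) (XT.lf (nat_lit 0) (nat_lit 162258468503) (nat_lit 532) (nat_lit 230055806117) (nat_lit 76) (nat_lit 195934074851) (nat_lit 77) (nat_lit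 5) (nat_lit 84) (nat_lit 5) (nat_lit 78) (nat_lit 5) (nat_lit 468) (nat_lit 461) (nat_lit 271)) (XT.nd (nat_lit 78) (nat_lit 0) (nat_lit 0) (XT.lf (nat_lit 0) (nat_lit 90576388970) (nat_lit 456) (nat_lit 133306738285) (nat_lit 532) (nat_lit 389810124048) (nat_lit 71) (nat_lit 5) (nat_lit 77) (nat_lit 5) (nat_lit 78) (nat_lit 5) (nat_lit 469) (nat_lit 461) (nat_lit 270)) (XT.lf (nat_lit 0) (nat_lit 300412690308) (nat_lit 532) (nat_lit 194412736930) (nat_lit 76) (nat_lit 145550323519) (nat_lit 71) (nat_lit 5) (nat_lit 78) (nat_lit 5) (nat_lit 72) (nat_lit 5) (nat_lit 470) (nat_lit 461) (nat_lit 269))))) (XT.nd (nat_lit 234) (nat_lit 456) (nat_lit 0) (XT.nd (nat_lit 78) (nat_lit 228) (nat_lit 0) (XT.lf (nat_lit 0) (nat_lit 165399120023) (nat_lit 228) (nat_lit 225105845234) (nat_lit 304) (nat_lit 278092657167) (nat_lit 68) (nat_lit 5) (nat_lit 71) (nat_lit 5) (nat_lit 72) (nat_lit 5) (nat_lit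 471) (nat_lit 461) (nat_lit 268)) (XT.nd (nat_lit 78) (nat_lit 228) (nat_lit 0) (XT.lf (nat_lit 0) (nat_lit 494850162878) (nat_lit 304) (nat_lit 135329636796) (nat_lit 76) (nat_lit 68333800899) (nat_lit 68) (nat_lit 5) (nat_lit 72) (nat_lit 5) (nat_lit 69) (nat_lit 5) (nat_lit 472) (nat_lit 461) (nat_lit 267)) (XT.lf (nat_lit 0) (nat_lit 269608734800) (nat_lit 228) (nat_lit 350265226692) (nat_lit 304) (nat_lit 109962416672) (nat_lit 65) (nat_lit 5) (nat_lit 68) (nat_lit 5) (nat_lit 69) (nat_lit 5) (nat_lit 473) (nat_lit 461) (nat_lit 266)))) (XT.nd (nat_lit 156) (nat_lit 228) (nat_lit 0) (XT.nd (nat_lit 78) (nat_lit 228) (nat_lit 0) (XT.lf (nat_lit 0) (nat_lit 714638473943) (nat_lit 228) (nat_lit 43961326477) (nat_lit 304) (nat_lit 4769166631) (nat_lit 65) (nat_lit 5) (nat_lit 68) (nat_lit 5) (nat_lit 69) (nat_lit 5) (nat_lit 474) (nat_lit 461) (nat_lit 265)) (XT.lf (nat_lit 0) (nat_lit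 120571177307) (nat_lit 228) (nat_lit 392036677321) (nat_lit 76) (nat_lit 285392802641) (nat_lit 62) (nat_lit 5) (nat_lit 65) (nat_lit 5) (nat_lit 63) (nat_lit 5) (nat_lit 475) (nat_lit 461) (nat_lit 264))) (XT.nd (nat_lit 78) (nat_lit 0) (nat_lit 0) (XT.lf (nat_lit 0) (nat_lit 66537170588) (nat_lit 228) (nat_lit 193252963464) (nat_lit 304) (nat_lit 575274115166) (nat_lit 59) (nat_lit 5) (nat_lit 62) (nat_lit 5) (nat_lit 63) (nat_lit 5) (nat_lit 476) (nat_lit 461) (nat_lit 263)) (XT.lf (nat_lit 0) (nat_lit 424791179892) (nat_lit 304) (nat_lit 294068638675) (nat_lit 76) (nat_lit 155061544153) (nat_lit 59) (nat_lit 5) (nat_lit 63) (nat_lit 5) (nat_lit 60) (nat_lit 5) (nat_lit 477) (nat_lit 461) (nat_lit 262))))))) (XT.nd (nat_lit 936) (nat_lit 912) (nat_lit 0) (XT.nd (nat_lit 468) (nat_lit 456) (nat_lit 0) (XT.nd (nat_lit 234) (nat_lit 304) (nat_lit 0) (XT.nd (nat_lit 78) (nat_lit 228) (nat_lit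 0) (XT.lf (nat_lit 0) (nat_lit 224560317895) (nat_lit 152) (nat_lit 388852217292) (nat_lit 228) (nat_lit 301640892053) (nat_lit 57) (nat_lit 5) (nat_lit 59) (nat_lit 5) (nat_lit 60) (nat_lit 5) (nat_lit 478) (nat_lit 461) (nat_lit 261)) (XT.nd (nat_lit 78) (nat_lit 228) (nat_lit 0) (XT.lf (nat_lit 0) (nat_lit 801403517822) (nat_lit 152) (nat_lit 23760426580) (nat_lit 228) (nat_lit 133668884883) (nat_lit 57) (nat_lit 5) (nat_lit 59) (nat_lit 5) (nat_lit 60) (nat_lit 5) (nat_lit 479) (nat_lit 461) (nat_lit 260)) (XT.lf (nat_lit 0) (nat_lit 65128548154) (nat_lit 228) (nat_lit 575296683435) (nat_lit 76) (nat_lit 364015429749) (nat_lit 54) (nat_lit 5) (nat_lit 57) (nat_lit 5) (nat_lit 55) (nat_lit 5) (nat_lit 480) (nat_lit 461) (nat_lit 259)))) (XT.nd (nat_lit 78) (nat_lit 152) (nat_lit 0) (XT.lf (nat_lit 0) (nat_lit 14782073352) (nat_lit 152) (nat_lit 263214961545) (nat_lit 228) (nat_lit 774991223470)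 (nat_lit 52) (nat_lit 5) (nat_lit 54) (nat_lit 5) (nat_lit 55) (nat_lit 5) (nat_lit 481) (nat_lit 461) (nat_lit 258)) (XT.nd (nat_lit 78) (nat_lit 152) (nat_lit 0) (XT.lf (nat_lit 0) (nat_lit 527500525497) (nat_lit 228) (nat_lit 423252452114) (nat_lit 76) (nat_lit 153098243555) (nat_lit 52) (nat_lit 5) (nat_lit 55) (nat_lit 5) (nat_lit 53) (nat_lit 5) (nat_lit 482) (nat_lit 461) (nat_lit 257)) (XT.lf (nat_lit 0) (nat_lit 246386038763) (nat_lit 152) (nat_lit 563340588842) (nat_lit 228) (nat_lit 348035606805) (nat_lit 50) (nat_lit 5) (nat_lit 52) (nat_lit 5) (nat_lit 53) (nat_lit 5) (nat_lit 483) (nat_lit 461) (nat_lit 256))))) (XT.nd (nat_lit 234) (nat_lit 152) (nat_lit 0) (XT.nd (nat_lit 78) (nat_lit 304) (nat_lit 0) (XT.lf (nat_lit 0) (nat_lit 993666335363) (nat_lit 152) (nat_lit 132436944861) (nat_lit 228) (nat_lit 88957051504) (nat_lit 50) (nat_lit 5) (nat_lit 52) (nat_lit 5) (nat_lit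 53) (nat_lit 5) (nat_lit 484) (nat_lit 461) (nat_lit 255)) (XT.nd (nat_lit 78) (nat_lit 152) (nat_lit 0) (XT.lf (nat_lit 0) (nat_lit 202912841244) (nat_lit 152) (nat_lit 737454507978) (nat_lit 76) (nat_lit 334478773512) (nat_lit 48) (nat_lit 5) (nat_lit 50) (nat_lit 5) (nat_lit 49) (nat_lit 5) (nat_lit 485) (nat_lit 461) (nat_lit 254)) (XT.lf (nat_lit 0) (nat_lit 25929811864) (nat_lit 152) (nat_lit 497670579250) (nat_lit 228) (nat_lit 814807615522) (nat_lit 46) (nat_lit 5) (nat_lit 48) (nat_lit 5) (nat_lit 49) (nat_lit 5) (nat_lit 486) (nat_lit 461) (nat_lit 253)))) (XT.nd (nat_lit 78) (nat_lit 152) (nat_lit 0) (XT.lf (nat_lit 0) (nat_lit 890159599627) (nat_lit 228) (nat_lit 513170573273) (nat_lit 76) (nat_lit 2107335979) (nat_lit 46) (nat_lit 5) (nat_lit 49) (nat_lit 5) (nat_lit 47) (nat_lit 4) (nat_lit 487) (nat_lit 461) (nat_lit 252)) (XT.nd (nat_lit 78) (nat_lit 76) (nat_lit 0) (XT.lf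 (nat_lit 0) (nat_lit 354909127201) (nat_lit 76) (nat_lit 952596490975) (nat_lit 152) (nat_lit 168606787258) (nat_lit 45) (nat_lit 5) (nat_lit 46) (nat_lit 5) (nat_lit 47) (nat_lit 4) (nat_lit 488) (nat_lit 461) (nat_lit 251)) (XT.lf (nat_lit 0) (nat_lit 209898599918) (nat_lit 152) (nat_lit 235013048370) (nat_lit 76) (nat_lit 1105982055543) (nat_lit 44) (nat_lit 5) (nat_lit 46) (nat_lit 5) (nat_lit 45) (nat_lit 5) (nat_lit 489) (nat_lit 461) (nat_lit 250)))))) (XT.nd (nat_lit 468) (nat_lit 456) (nat_lit 0) (XT.nd (nat_lit 234) (nat_lit 228) (nat_lit 0) (XT.nd (nat_lit 78) (nat_lit 76) (nat_lit 0) (XT.lf (nat_lit 0) (nat_lit 630816874840) (nat_lit 228) (nat_lit 877440336348) (nat_lit 76) (nat_lit 121350614933) (nat_lit 42) (nat_lit 5) (nat_lit 45) (nat_lit 5) (nat_lit 43) (nat_lit 4) (nat_lit 490) (nat_lit 461) (nat_lit 249)) (XT.nd (nat_lit 78) (nat_lit 0) (nat_lit 0) (XT.lf (nat_lit 0)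 (nat_lit 111434175103) (nat_lit 76) (nat_lit 994803144334) (nat_lit 152) (nat_lit 606715462143) (nat_lit 41) (nat_lit 5) (nat_lit 42) (nat_lit 5) (nat_lit 43) (nat_lit 4) (nat_lit 491) (nat_lit 461) (nat_lit 248)) (XT.lf (nat_lit 0) (nat_lit 1229319443947) (nat_lit 76) (nat_lit 414362722205) (nat_lit 152) (nat_lit 157363906000) (nat_lit 41) (nat_lit 5) (nat_lit 42) (nat_lit 5) (nat_lit 43) (nat_lit 4) (nat_lit 492) (nat_lit 461) (nat_lit 247)))) (XT.nd (nat_lit 78) (nat_lit 76) (nat_lit 0) (XT.lf (nat_lit 0) (nat_lit 330679661697) (nat_lit 152) (nat_lit 1339537667617) (nat_lit 76) (nat_lit 223806662584) (nat_lit 39) (nat_lit 5) (nat_lit 41) (nat_lit 5) (nat_lit 40) (nat_lit 4) (nat_lit 493) (nat_lit 461) (nat_lit 246)) (XT.nd (nat_lit 78) (nat_lit 76) (nat_lit 0) (XT.lf (nat_lit 0) (nat_lit 876065683540) (nat_lit 152) (nat_lit 205134751965) (nat_lit 76) (nat_lit 910768663220) (nat_lit 39)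 (nat_lit 5) (nat_lit 41) (nat_lit 5) (nat_lit 40) (nat_lit 4) (nat_lit 494) (nat_lit 461) (nat_lit 245)) (XT.lf (nat_lit 0) (nat_lit 1073732851301) (nat_lit 76) (nat_lit 417173030473) (nat_lit 152) (nat_lit 604778068755) (nat_lit 38) (nat_lit 5) (nat_lit 39) (nat_lit 5) (nat_lit 40) (nat_lit 4) (nat_lit 495) (nat_lit 461) (nat_lit 244))))) (XT.nd (nat_lit 234) (nat_lit 228) (nat_lit 0) (XT.nd (nat_lit 78) (nat_lit 152) (nat_lit 0) (XT.lf (nat_lit 0) (nat_lit 265236851837) (nat_lit 76) (nat_lit 1909044263564) (nat_lit 76) (nat_lit 31867049512) (nat_lit 37) (nat_lit 4) (nat_lit 38) (nat_lit 5) (nat_lit 38) (nat_lit 4) (nat_lit 496) (nat_lit 461) (nat_lit 243)) (XT.nd (nat_lit 78) (nat_lit 76) (nat_lit 0) (XT.lf (nat_lit 0) (nat_lit 597022270426) (nat_lit 152) (nat_lit 635370898756) (nat_lit 76) (nat_lit 1088766924987) (nat_lit 36) (nat_lit 5) (nat_lit 38) (nat_lit 5) (nat_lit 37) (nat_lit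 4) (nat_lit 497) (nat_lit 461) (nat_lit 242)) (XT.lf (nat_lit 0) (nat_lit 814531170408) (nat_lit 76) (nat_lit 479559405702) (nat_lit 152) (nat_lit 1149649025326) (nat_lit 35) (nat_lit 5) (nat_lit 36) (nat_lit 5) (nat_lit 37) (nat_lit 4) (nat_lit 498) (nat_lit 461) (nat_lit 241)))) (XT.nd (nat_lit 156) (nat_lit 76) (nat_lit 0) (XT.nd (nat_lit 78) (nat_lit 152) (nat_lit 0) (XT.lf (nat_lit 0) (nat_lit 2072768440534) (nat_lit 152) (nat_lit 166648129254) (nat_lit 0) (nat_lit 334641371953) (nat_lit 35) (nat_lit 5) (nat_lit 37) (nat_lit 4) (nat_lit 35) (nat_lit 4) (nat_lit 499) (nat_lit 461) (nat_lit 240)) (XT.lf (nat_lit 0) (nat_lit 238142286719) (nat_lit 152) (nat_lit 1242791117490) (nat_lit 76) (nat_lit 1229553168411) (nat_lit 33) (nat_lit 5) (nat_lit 35) (nat_lit 5) (nat_lit 34) (nat_lit 4) (nat_lit 500) (nat_lit 461) (nat_lit 239))) (XT.nd (nat_lit 78) (nat_lit 0) (nat_lit 0) (XT.lf (nat_lit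 0) (nat_lit 391231072184) (nat_lit 76) (nat_lit 632498808077) (nat_lit 152) (nat_lit 1831931259893) (nat_lit 32) (nat_lit 5) (nat_lit 33) (nat_lit 5) (nat_lit 34) (nat_lit 4) (nat_lit 501) (nat_lit 461) (nat_lit 238)) (XT.lf (nat_lit 0) (nat_lit 1913852838676) (nat_lit 152) (nat_lit 790785856123) (nat_lit 0) (nat_lit 304475909701) (nat_lit 32) (nat_lit 5) (nat_lit 34) (nat_lit 4) (nat_lit 32) (nat_lit 4) (nat_lit 502) (nat_lit 461) (nat_lit 237))))))))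
noncomputable def xc218 : XT := (XT.nd (nat_lit 1950) (nat_lit 152) (nat_lit 0) (XT.nd (nat_lit 936) (nat_lit 684) (nat_lit 0) (XT.nd (nat_lit 468) (nat_lit 304) (nat_lit 0) (XT.nd (nat_lit 234) (nat_lit 228) (nat_lit 0) (XT.nd (nat_lit 78) (nat_lit 152) (nat_lit 0) (XT.lf (nat_lit 0) (nat_lit 1052996492087) (nat_lit 76) (nat_lit 1863942268317) (nat_lit 76) (nat_lit 254565335458) (nat_lit 31) (nat_lit 4) (nat_lit 32) (nat_lit 5) (nat_lit 32) (nat_lit 4) (nat_lit 503) (nat_lit 461) (nat_lit 236)) (XT.nd (nat_lit 78) (nat_lit 76) (nat_lit 0) (XT.lf (nat_lit 0) (nat_lit 642884833886) (nat_lit 152) (nat_lit 272176481972) (nat_lit 76) (nat_lit 2428791666879) (nat_lit 30) (nat_lit 5) (nat_lit 32) (nat_lit 5) (nat_lit 31) (nat_lit 4) (nat_lit 504) (nat_lit 461) (nat_lit 235)) (XT.lf (nat_lit 0) (nat_lit 1645740549388) (nat_lit 152) (nat_lit 1724354534166) (nat_lit 0) (nat_lit 155576716252) (nat_lit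 29) (nat_lit 5) (nat_lit 31) (nat_lit 4) (nat_lit 29) (nat_lit 4) (nat_lit 505) (nat_lit 461) (nat_lit 234)))) (XT.nd (nat_lit 78) (nat_lit 152) (nat_lit 0) (XT.lf (nat_lit 0) (nat_lit 327131990331) (nat_lit 76) (nat_lit 2440963166560) (nat_lit 76) (nat_lit 950799330568) (nat_lit 28) (nat_lit 4) (nat_lit 29) (nat_lit 5) (nat_lit 29) (nat_lit 4) (nat_lit 506) (nat_lit 461) (nat_lit 233)) (XT.nd (nat_lit 78) (nat_lit 76) (nat_lit 0) (XT.lf (nat_lit 0) (nat_lit 98400218610) (nat_lit 152) (nat_lit 1285491383926) (nat_lit 76) (nat_lit 2539712343647) (nat_lit 27) (nat_lit 5) (nat_lit 29) (nat_lit 5) (nat_lit 28) (nat_lit 4) (nat_lit 507) (nat_lit 461) (nat_lit 232)) (XT.lf (nat_lit 0) (nat_lit 1015378677551) (nat_lit 76) (nat_lit 189209071792) (nat_lit 152) (nat_lit 2936173135135) (nat_lit 26) (nat_lit 5) (nat_lit 27) (nat_lit 5) (nat_lit 28) (nat_lit 4) (nat_lit 508) (nat_lit 461) (nat_lit 231)))))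 (XT.nd (nat_lit 234) (nat_lit 152) (nat_lit 0) (XT.nd (nat_lit 78) (nat_lit 152) (nat_lit 0) (XT.lf (nat_lit 0) (nat_lit 2461811048379) (nat_lit 152) (nat_lit 826446356249) (nat_lit 0) (nat_lit 1082029711942) (nat_lit 26) (nat_lit 5) (nat_lit 28) (nat_lit 4) (nat_lit 26) (nat_lit 4) (nat_lit 509) (nat_lit 461) (nat_lit 230)) (XT.nd (nat_lit 78) (nat_lit 76) (nat_lit 0) (XT.lf (nat_lit 0) (nat_lit 1738454361634) (nat_lit 76) (nat_lit 2127882236516) (nat_lit 76) (nat_lit 748100898136) (nat_lit 25) (nat_lit 4) (nat_lit 26) (nat_lit 5) (nat_lit 26) (nat_lit 4) (nat_lit 510) (nat_lit 461) (nat_lit 229)) (XT.lf (nat_lit 0) (nat_lit 503020350000) (nat_lit 152) (nat_lit 333499012178) (nat_lit 76) (nat_lit 4038774048461) (nat_lit 24) (nat_lit 5) (nat_lit 26) (nat_lit 5) (nat_lit 25) (nat_lit 4) (nat_lit 511) (nat_lit 461) (nat_lit 228)))) (XT.nd (nat_lit 78) (nat_lit 76) (nat_lit 0) (XT.lf (nat_lit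 0) (nat_lit 1889897317162) (nat_lit 152) (nat_lit 2647157353058) (nat_lit 0) (nat_lit 612322000638) (nat_lit 23) (nat_lit 5) (nat_lit 25) (nat_lit 4) (nat_lit 23) (nat_lit 4) (nat_lit 512) (nat_lit 461) (nat_lit 227)) (XT.nd (nat_lit 78) (nat_lit 0) (nat_lit 0) (XT.lf (nat_lit 0) (nat_lit 123308129442) (nat_lit 76) (nat_lit 3298464944897) (nat_lit 76) (nat_lit 2020889626944) (nat_lit 22) (nat_lit 4) (nat_lit 23) (nat_lit 5) (nat_lit 23) (nat_lit 4) (nat_lit 513) (nat_lit 461) (nat_lit 226)) (XT.lf (nat_lit 0) (nat_lit 3265957028048) (nat_lit 76) (nat_lit 1882619833891) (nat_lit 76) (nat_lit 605044514616) (nat_lit 22) (nat_lit 4) (nat_lit 23) (nat_lit 5) (nat_lit 23) (nat_lit 4) (nat_lit 514) (nat_lit 461) (nat_lit 225)))))) (XT.nd (nat_lit 468) (nat_lit 304) (nat_lit 0) (XT.nd (nat_lit 234) (nat_lit 152) (nat_lit 0) (XT.nd (nat_lit 78) (nat_lit 76) (nat_lit 0) (XT.lf (nat_lit 0) (nat_lit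 577211690144) (nat_lit 76) (nat_lit 314512834203) (nat_lit 152) (nat_lit 5194843756346) (nat_lit 20) (nat_lit 5) (nat_lit 21) (nat_lit 5) (nat_lit 22) (nat_lit 4) (nat_lit 515) (nat_lit 461) (nat_lit 224)) (XT.nd (nat_lit 78) (nat_lit 76) (nat_lit 0) (XT.lf (nat_lit 0) (nat_lit 2578496805815) (nat_lit 152) (nat_lit 2462604215712) (nat_lit 0) (nat_lit 1395556693191) (nat_lit 20) (nat_lit 5) (nat_lit 22) (nat_lit 4) (nat_lit 20) (nat_lit 4) (nat_lit 516) (nat_lit 461) (nat_lit 223)) (XT.lf (nat_lit 0) (nat_lit 862884137919) (nat_lit 76) (nat_lit 3566248277737) (nat_lit 76) (nat_lit 2383308164141) (nat_lit 19) (nat_lit 4) (nat_lit 20) (nat_lit 5) (nat_lit 20) (nat_lit 4) (nat_lit 517) (nat_lit 461) (nat_lit 222)))) (XT.nd (nat_lit 78) (nat_lit 152) (nat_lit 0) (XT.lf (nat_lit 0) (nat_lit 4594462037845) (nat_lit 76) (nat_lit 1900688796946) (nat_lit 76) (nat_lit 717748682450) (nat_lit 19) (nat_lit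 4) (nat_lit 20) (nat_lit 5) (nat_lit 20) (nat_lit 4) (nat_lit 518) (nat_lit 461) (nat_lit 221)) (XT.nd (nat_lit 78) (nat_lit 0) (nat_lit 0) (XT.lf (nat_lit 0) (nat_lit 1003363908774) (nat_lit 76) (nat_lit 47743795122) (nat_lit 152) (nat_lit 6590277038939) (nat_lit 17) (nat_lit 5) (nat_lit 18) (nat_lit 5) (nat_lit 19) (nat_lit 4) (nat_lit 519) (nat_lit 461) (nat_lit 220)) (XT.lf (nat_lit 0) (nat_lit 3043128001099) (nat_lit 152) (nat_lit 3102081683029) (nat_lit 0) (nat_lit 1947813078783) (nat_lit 17) (nat_lit 5) (nat_lit 19) (nat_lit 4) (nat_lit 17) (nat_lit 4) (nat_lit 520) (nat_lit 461) (nat_lit 219))))) (XT.nd (nat_lit 234) (nat_lit 76) (nat_lit 0) (XT.nd (nat_lit 78) (nat_lit 152) (nat_lit 0) (XT.lf (nat_lit 0) (nat_lit 753169063300) (nat_lit 76) (nat_lit 4460694688930) (nat_lit 76) (nat_lit 3365379765952) (nat_lit 16) (nat_lit 4) (nat_lit 17) (nat_lit 5) (nat_lit 17) (nat_lit 4) (nat_lit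 521) (nat_lit 461) (nat_lit 218)) (XT.nd (nat_lit 78) (nat_lit 152) (nat_lit 0) (XT.lf (nat_lit 0) (nat_lit 5093257998350) (nat_lit 76) (nat_lit 2549816773233) (nat_lit 76) (nat_lit 1454501849642) (nat_lit 16) (nat_lit 4) (nat_lit 17) (nat_lit 5) (nat_lit 17) (nat_lit 4) (nat_lit 522) (nat_lit 461) (nat_lit 217)) (XT.lf (nat_lit 0) (nat_lit 114240031862) (nat_lit 76) (nat_lit 467276773916) (nat_lit 152) (nat_lit 9074467577823) (nat_lit 14) (nat_lit 5) (nat_lit 15) (nat_lit 5) (nat_lit 16) (nat_lit 4) (nat_lit 523) (nat_lit 461) (nat_lit 216)))) (XT.nd (nat_lit 156) (nat_lit 76) (nat_lit 0) (XT.nd (nat_lit 78) (nat_lit 0) (nat_lit 0) (XT.lf (nat_lit 0) (nat_lit 2857018940544) (nat_lit 152) (nat_lit 5543770400907) (nat_lit 0) (nat_lit 1842838454726) (nat_lit 14) (nat_lit 5) (nat_lit 16) (nat_lit 4) (nat_lit 14) (nat_lit 4) (nat_lit 524) (nat_lit 461) (nat_lit 215)) (XT.lf (nat_lit 0) (nat_lit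 5326698303008) (nat_lit 152) (nat_lit 1238095597458) (nat_lit 0) (nat_lit 4312517816740) (nat_lit 14) (nat_lit 5) (nat_lit 16) (nat_lit 4) (nat_lit 14) (nat_lit 4) (nat_lit 525) (nat_lit 461) (nat_lit 214))) (XT.nd (nat_lit 78) (nat_lit 0) (nat_lit 0) (XT.lf (nat_lit 0) (nat_lit 3591704807149) (nat_lit 76) (nat_lit 4488627792327) (nat_lit 76) (nat_lit 3474447305642) (nat_lit 13) (nat_lit 4) (nat_lit 14) (nat_lit 5) (nat_lit 14) (nat_lit 4) (nat_lit 526) (nat_lit 461) (nat_lit 213)) (XT.lf (nat_lit 0) (nat_lit 8878300833841) (nat_lit 76) (nat_lit 2209808531614) (nat_lit 76) (nat_lit 1195628044543) (nat_lit 13) (nat_lit 4) (nat_lit 14) (nat_lit 5) (nat_lit 14) (nat_lit 4) (nat_lit 527) (nat_lit 461) (nat_lit 212))))))) (XT.nd (nat_lit 58110) (nat_lit 0) (nat_lit 2964) (XT.nd (nat_lit 57642) (nat_lit 0) (nat_lit 4560) (XT.nd (nat_lit 57408) (nat_lit 0) (nat_lit 4864) (XT.nd (nat_lit 78) (nat_lit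 0) (nat_lit 0) (XT.lf (nat_lit 0) (nat_lit 1247633385670) (nat_lit 152) (nat_lit 11508730580505) (nat_lit 0) (nat_lit 308577378791) (nat_lit 11) (nat_lit 5) (nat_lit 13) (nat_lit 4) (nat_lit 11) (nat_lit 4) (nat_lit 528) (nat_lit 461) (nat_lit 211)) (XT.nd (nat_lit 57252) (nat_lit 0) (nat_lit 5320) (XT.lf (nat_lit 0) (nat_lit 3974687512914) (nat_lit 152) (nat_lit 6883604013997) (nat_lit 0) (nat_lit 3035631505728) (nat_lit 11) (nat_lit 5) (nat_lit 13) (nat_lit 4) (nat_lit 11) (nat_lit 4) (nat_lit 529) (nat_lit 461) (nat_lit 210)) (XT.lf (nat_lit 0) (nat_lit 232451834469) (nat_lit 532) (nat_lit 3679942282) (nat_lit 532) (nat_lit 3679942282) (nat_lit 81) (nat_lit 3) (nat_lit 88) (nat_lit 3) (nat_lit 88) (nat_lit 5) (nat_lit 462) (nat_lit 462) (nat_lit 276)))) (XT.nd (nat_lit 78) (nat_lit 456) (nat_lit 0) (XT.lf (nat_lit 76) (nat_lit 242674375554) (nat_lit 0) (nat_lit 246662032920) (nat_lit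 532) (nat_lit 9005039621) (nat_lit 82) (nat_lit 5) (nat_lit 81) (nat_lit 3) (nat_lit 88) (nat_lit 5) (nat_lit 463) (nat_lit 462) (nat_lit 275)) (XT.nd (nat_lit 78) (nat_lit 456) (nat_lit 0) (XT.lf (nat_lit 76) (nat_lit 513129924382) (nat_lit 0) (nat_lit 2795047877) (nat_lit 532) (nat_lit 2615830268) (nat_lit 82) (nat_lit 5) (nat_lit 81) (nat_lit 3) (nat_lit 88) (nat_lit 5) (nat_lit 464) (nat_lit 462) (nat_lit 274)) (XT.lf (nat_lit 0) (nat_lit 17216778909) (nat_lit 532) (nat_lit 267550707841) (nat_lit 608) (nat_lit 254528647800) (nat_lit 75) (nat_lit 5) (nat_lit 82) (nat_lit 5) (nat_lit 83) (nat_lit 5) (nat_lit 465) (nat_lit 462) (nat_lit 273))))) (XT.nd (nat_lit 234) (nat_lit 304) (nat_lit 0) (XT.nd (nat_lit 78) (nat_lit 0) (nat_lit 76) (XT.lf (nat_lit 76) (nat_lit 10039725170) (nat_lit 0) (nat_lit 28920764749) (nat_lit 608) (nat_lit 522708702459) (nat_lit 76) (nat_lit 5) (nat_lit 75) (nat_lit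 5) (nat_lit 83) (nat_lit 5) (nat_lit 466) (nat_lit 462) (nat_lit 272)) (XT.nd (nat_lit 78) (nat_lit 0) (nat_lit 0) (XT.lf (nat_lit 0) (nat_lit 75898818128) (nat_lit 532) (nat_lit 266333482523) (nat_lit 608) (nat_lit 242523384561) (nat_lit 76) (nat_lit 5) (nat_lit 83) (nat_lit 5) (nat_lit 84) (nat_lit 5) (nat_lit 467) (nat_lit 462) (nat_lit 271)) (XT.lf (nat_lit 76) (nat_lit 43195803892) (nat_lit 0) (nat_lit 74386436635) (nat_lit 608) (nat_lit 491963654717) (nat_lit 77) (nat_lit 5) (nat_lit 76) (nat_lit 5) (nat_lit 84) (nat_lit 5) (nat_lit 468) (nat_lit 462) (nat_lit 270)))) (XT.nd (nat_lit 78) (nat_lit 456) (nat_lit 0) (XT.lf (nat_lit 0) (nat_lit 175239529895) (nat_lit 532) (nat_lit 248459907437) (nat_lit 76) (nat_lit 211608749296) (nat_lit 77) (nat_lit 5) (nat_lit 84) (nat_lit 5) (nat_lit 78) (nat_lit 5) (nat_lit 469) (nat_lit 462) (nat_lit 269)) (XT.nd (nat_lit 78) (nat_lit 0) (nat_lit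 0) (XT.lf (nat_lit 0) (nat_lit 97822854062) (nat_lit 456) (nat_lit 143971287359) (nat_lit 532) (nat_lit 420994540784) (nat_lit 71) (nat_lit 5) (nat_lit 77) (nat_lit 5) (nat_lit 78) (nat_lit 5) (nat_lit 470) (nat_lit 462) (nat_lit 268)) (XT.lf (nat_lit 0) (nat_lit 324446042334) (nat_lit 532) (nat_lit 209965400869) (nat_lit 76) (nat_lit 157194340594) (nat_lit 71) (nat_lit 5) (nat_lit 78) (nat_lit 5) (nat_lit 72) (nat_lit 5) (nat_lit 471) (nat_lit 462) (nat_lit 267)))))) (XT.nd (nat_lit 468) (nat_lit 684) (nat_lit 0) (XT.nd (nat_lit 234) (nat_lit 456) (nat_lit 0) (XT.nd (nat_lit 78) (nat_lit 228) (nat_lit 0) (XT.lf (nat_lit 0) (nat_lit 178631395653) (nat_lit 228) (nat_lit 243114287000) (nat_lit 304) (nat_lit 300339723881) (nat_lit 68) (nat_lit 5) (nat_lit 71) (nat_lit 5) (nat_lit 72) (nat_lit 5) (nat_lit 472) (nat_lit 462) (nat_lit 266)) (XT.nd (nat_lit 78) (nat_lit 228) (nat_lit 0) (XT.lf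 (nat_lit 0) (nat_lit 534438472943) (nat_lit 304) (nat_lit 146155664138) (nat_lit 76) (nat_lit 73800527710) (nat_lit 68) (nat_lit 5) (nat_lit 72) (nat_lit 5) (nat_lit 69) (nat_lit 5) (nat_lit 473) (nat_lit 462) (nat_lit 265)) (XT.lf (nat_lit 0) (nat_lit 291177768487) (nat_lit 228) (nat_lit 378286393011) (nat_lit 304) (nat_lit 118759104212) (nat_lit 65) (nat_lit 5) (nat_lit 68) (nat_lit 5) (nat_lit 69) (nat_lit 5) (nat_lit 474) (nat_lit 462) (nat_lit 264)))) (XT.nd (nat_lit 78) (nat_lit 456) (nat_lit 0) (XT.lf (nat_lit 0) (nat_lit 771809861954) (nat_lit 228) (nat_lit 47478184617) (nat_lit 304) (nat_lit 5150416820) (nat_lit 65) (nat_lit 5) (nat_lit 68) (nat_lit 5) (nat_lit 69) (nat_lit 5) (nat_lit 475) (nat_lit 462) (nat_lit 263)) (XT.nd (nat_lit 78) (nat_lit 228) (nat_lit 0) (XT.lf (nat_lit 0) (nat_lit 130217129577) (nat_lit 228) (nat_lit 423399276256) (nat_lit 76) (nat_lit 308224283323)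 (nat_lit 62) (nat_lit 5) (nat_lit 65) (nat_lit 5) (nat_lit 63) (nat_lit 5) (nat_lit 476) (nat_lit 462) (nat_lit 262)) (XT.lf (nat_lit 0) (nat_lit 71860470998) (nat_lit 228) (nat_lit 208713120604) (nat_lit 304) (nat_lit 621295777762) (nat_lit 59) (nat_lit 5) (nat_lit 62) (nat_lit 5) (nat_lit 63) (nat_lit 5) (nat_lit 477) (nat_lit 462) (nat_lit 261))))) (XT.nd (nat_lit 234) (nat_lit 532) (nat_lit 0) (XT.nd (nat_lit 78) (nat_lit 152) (nat_lit 0) (XT.lf (nat_lit 0) (nat_lit 458774704607) (nat_lit 304) (nat_lit 317593810666) (nat_lit 76) (nat_lit 167466537998) (nat_lit 59) (nat_lit 5) (nat_lit 63) (nat_lit 5) (nat_lit 60) (nat_lit 5) (nat_lit 478) (nat_lit 462) (nat_lit 260)) (XT.nd (nat_lit 78) (nat_lit 0) (nat_lit 0) (XT.lf (nat_lit 0) (nat_lit 242525454351) (nat_lit 152) (nat_lit 419960304394) (nat_lit 228) (nat_lit 325771924978) (nat_lit 57) (nat_lit 5) (nat_lit 59) (nat_lit 5) (nat_lit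 60) (nat_lit 5) (nat_lit 479) (nat_lit 462) (nat_lit 259)) (XT.lf (nat_lit 0) (nat_lit 865516087234) (nat_lit 152) (nat_lit 25661177112) (nat_lit 228) (nat_lit 144362174896) (nat_lit 57) (nat_lit 5) (nat_lit 59) (nat_lit 5) (nat_lit 60) (nat_lit 5) (nat_lit 480) (nat_lit 462) (nat_lit 258)))) (XT.nd (nat_lit 156) (nat_lit 152) (nat_lit 0) (XT.nd (nat_lit 78) (nat_lit 152) (nat_lit 0) (XT.lf (nat_lit 0) (nat_lit 70339035385) (nat_lit 228) (nat_lit 621320112664) (nat_lit 76) (nat_lit 393136749895) (nat_lit 54) (nat_lit 5) (nat_lit 57) (nat_lit 5) (nat_lit 55) (nat_lit 5) (nat_lit 481) (nat_lit 462) (nat_lit 257)) (XT.lf (nat_lit 0) (nat_lit 15964936933) (nat_lit 152) (nat_lit 284272056229) (nat_lit 228) (nat_lit 836990310208) (nat_lit 52) (nat_lit 5) (nat_lit 54) (nat_lit 5) (nat_lit 55) (nat_lit 5) (nat_lit 482) (nat_lit 462) (nat_lit 256))) (XT.nd (nat_lit 78) (nat_lit 152) (nat_lit 0)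 (XT.lf (nat_lit 0) (nat_lit 569700750808) (nat_lit 228) (nat_lit 457112360393) (nat_lit 76) (nat_lit 165346192970) (nat_lit 52) (nat_lit 5) (nat_lit 55) (nat_lit 5) (nat_lit 53) (nat_lit 5) (nat_lit 483) (nat_lit 462) (nat_lit 255)) (XT.lf (nat_lit 0) (nat_lit 266097202465) (nat_lit 152) (nat_lit 608407731793) (nat_lit 228) (nat_lit 375878264766) (nat_lit 50) (nat_lit 5) (nat_lit 52) (nat_lit 5) (nat_lit 53) (nat_lit 5) (nat_lit 484) (nat_lit 462) (nat_lit 254))))))))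
noncomputable def xc219 : XT := (XT.nd (nat_lit 1950) (nat_lit 988) (nat_lit 0) (XT.nd (nat_lit 936) (nat_lit 912) (nat_lit 0) (XT.nd (nat_lit 468) (nat_lit 456) (nat_lit 0) (XT.nd (nat_lit 234) (nat_lit 152) (nat_lit 0) (XT.nd (nat_lit 78) (nat_lit 304) (nat_lit 0) (XT.lf (nat_lit 0) (nat_lit 1073159902007) (nat_lit 152) (nat_lit 143031804008) (nat_lit 228) (nat_lit 96073439159) (nat_lit 50) (nat_lit 5) (nat_lit 52) (nat_lit 5) (nat_lit 53) (nat_lit 5) (nat_lit 485) (nat_lit 462) (nat_lit 253)) (XT.nd (nat_lit 78) (nat_lit 152) (nat_lit 0) (XT.lf (nat_lit 0) (nat_lit 219146032476) (nat_lit 152) (nat_lit 796450596227) (nat_lit 76) (nat_lit 361237170717) (nat_lit 48) (nat_lit 5) (nat_lit 50) (nat_lit 5) (nat_lit 49) (nat_lit 5) (nat_lit 486) (nat_lit 462) (nat_lit 252)) (XT.lf (nat_lit 0) (nat_lit 28004462307) (nat_lit 152) (nat_lit 537484118271) (nat_lit 228) (nat_lit 879992053918) (nat_lit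 46) (nat_lit 5) (nat_lit 48) (nat_lit 5) (nat_lit 49) (nat_lit 5) (nat_lit 487) (nat_lit 462) (nat_lit 251)))) (XT.nd (nat_lit 78) (nat_lit 152) (nat_lit 0) (XT.lf (nat_lit 0) (nat_lit 961372516444) (nat_lit 228) (nat_lit 554223963965) (nat_lit 76) (nat_lit 2276017257) (nat_lit 46) (nat_lit 5) (nat_lit 49) (nat_lit 5) (nat_lit 47) (nat_lit 4) (nat_lit 488) (nat_lit 462) (nat_lit 250)) (XT.nd (nat_lit 78) (nat_lit 76) (nat_lit 0) (XT.lf (nat_lit 0) (nat_lit 383302106087) (nat_lit 76) (nat_lit 1028804105346) (nat_lit 152) (nat_lit 182095174917) (nat_lit 45) (nat_lit 5) (nat_lit 46) (nat_lit 5) (nat_lit 47) (nat_lit 4) (nat_lit 489) (nat_lit 462) (nat_lit 249)) (XT.lf (nat_lit 0) (nat_lit 226690624534) (nat_lit 152) (nat_lit 253813854745) (nat_lit 76) (nat_lit 1194460709916) (nat_lit 44) (nat_lit 5) (nat_lit 46) (nat_lit 5) (nat_lit 45) (nat_lit 5) (nat_lit 490) (nat_lit 462) (nat_lit 248)))))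 (XT.nd (nat_lit 234) (nat_lit 228) (nat_lit 0) (XT.nd (nat_lit 78) (nat_lit 76) (nat_lit 0) (XT.lf (nat_lit 0) (nat_lit 681282359288) (nat_lit 228) (nat_lit 947635323587) (nat_lit 76) (nat_lit 131058758567) (nat_lit 42) (nat_lit 5) (nat_lit 45) (nat_lit 5) (nat_lit 43) (nat_lit 4) (nat_lit 491) (nat_lit 462) (nat_lit 247)) (XT.nd (nat_lit 78) (nat_lit 0) (nat_lit 0) (XT.lf (nat_lit 0) (nat_lit 120349142713) (nat_lit 76) (nat_lit 1074387292398) (nat_lit 152) (nat_lit 655252558576) (nat_lit 41) (nat_lit 5) (nat_lit 42) (nat_lit 5) (nat_lit 43) (nat_lit 4) (nat_lit 492) (nat_lit 462) (nat_lit 246)) (XT.lf (nat_lit 0) (nat_lit 1327665215760) (nat_lit 76) (nat_lit 447511644165) (nat_lit 152) (nat_lit 169952888351) (nat_lit 41) (nat_lit 5) (nat_lit 42) (nat_lit 5) (nat_lit 43) (nat_lit 4) (nat_lit 493) (nat_lit 462) (nat_lit 245)))) (XT.nd (nat_lit 78) (nat_lit 76) (nat_lit 0) (XT.lf (nat_lit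 0) (nat_lit 357134156662) (nat_lit 152) (nat_lit 1446700456612) (nat_lit 76) (nat_lit 241711288204) (nat_lit 39) (nat_lit 5) (nat_lit 41) (nat_lit 5) (nat_lit 40) (nat_lit 4) (nat_lit 494) (nat_lit 462) (nat_lit 244)) (XT.nd (nat_lit 78) (nat_lit 76) (nat_lit 0) (XT.lf (nat_lit 0) (nat_lit 946151051214) (nat_lit 152) (nat_lit 221545324332) (nat_lit 76) (nat_lit 983630242030) (nat_lit 39) (nat_lit 5) (nat_lit 41) (nat_lit 5) (nat_lit 40) (nat_lit 4) (nat_lit 495) (nat_lit 462) (nat_lit 243)) (XT.lf (nat_lit 0) (nat_lit 1159631681935) (nat_lit 76) (nat_lit 450546779872) (nat_lit 152) (nat_lit 653160195997) (nat_lit 38) (nat_lit 5) (nat_lit 39) (nat_lit 5) (nat_lit 40) (nat_lit 4) (nat_lit 496) (nat_lit 462) (nat_lit 242)))))) (XT.nd (nat_lit 468) (nat_lit 456) (nat_lit 0) (XT.nd (nat_lit 234) (nat_lit 228) (nat_lit 0) (XT.nd (nat_lit 78) (nat_lit 152) (nat_lit 0) (XT.lf (nat_lit 0) (nat_lit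 286456003751) (nat_lit 76) (nat_lit 2061767709236) (nat_lit 76) (nat_lit 34416296444) (nat_lit 37) (nat_lit 4) (nat_lit 38) (nat_lit 5) (nat_lit 38) (nat_lit 4) (nat_lit 497) (nat_lit 462) (nat_lit 241)) (XT.nd (nat_lit 78) (nat_lit 76) (nat_lit 0) (XT.lf (nat_lit 0) (nat_lit 644784155000) (nat_lit 152) (nat_lit 686200376556) (nat_lit 76) (nat_lit 1175868361905) (nat_lit 36) (nat_lit 5) (nat_lit 38) (nat_lit 5) (nat_lit 37) (nat_lit 4) (nat_lit 498) (nat_lit 462) (nat_lit 240)) (XT.lf (nat_lit 0) (nat_lit 879693853227) (nat_lit 76) (nat_lit 517924068836) (nat_lit 152) (nat_lit 1241620839493) (nat_lit 35) (nat_lit 5) (nat_lit 36) (nat_lit 5) (nat_lit 37) (nat_lit 4) (nat_lit 499) (nat_lit 462) (nat_lit 239)))) (XT.nd (nat_lit 78) (nat_lit 228) (nat_lit 0) (XT.lf (nat_lit 0) (nat_lit 2238590010233) (nat_lit 152) (nat_lit 179979799009) (nat_lit 0) (nat_lit 361412760278) (nat_lit 35) (nat_lit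 5) (nat_lit 37) (nat_lit 4) (nat_lit 35) (nat_lit 4) (nat_lit 500) (nat_lit 462) (nat_lit 238)) (XT.nd (nat_lit 78) (nat_lit 76) (nat_lit 0) (XT.lf (nat_lit 0) (nat_lit 257193763735) (nat_lit 152) (nat_lit 1342214225917) (nat_lit 76) (nat_lit 1327917501247) (nat_lit 33) (nat_lit 5) (nat_lit 35) (nat_lit 5) (nat_lit 34) (nat_lit 4) (nat_lit 501) (nat_lit 462) (nat_lit 237)) (XT.lf (nat_lit 0) (nat_lit 422529734349) (nat_lit 76) (nat_lit 683098627685) (nat_lit 152) (nat_lit 1978485662020) (nat_lit 32) (nat_lit 5) (nat_lit 33) (nat_lit 5) (nat_lit 34) (nat_lit 4) (nat_lit 502) (nat_lit 462) (nat_lit 236))))) (XT.nd (nat_lit 234) (nat_lit 304) (nat_lit 0) (XT.nd (nat_lit 78) (nat_lit 152) (nat_lit 0) (XT.lf (nat_lit 0) (nat_lit 2066961152249) (nat_lit 152) (nat_lit 854048556411) (nat_lit 0) (nat_lit 328834057278) (nat_lit 32) (nat_lit 5) (nat_lit 34) (nat_lit 4) (nat_lit 32) (nat_lit 4) (nat_lit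 503) (nat_lit 462) (nat_lit 235)) (XT.nd (nat_lit 78) (nat_lit 76) (nat_lit 0) (XT.lf (nat_lit 0) (nat_lit 1137236375397) (nat_lit 76) (nat_lit 2013057569855) (nat_lit 76) (nat_lit 274930471554) (nat_lit 31) (nat_lit 4) (nat_lit 32) (nat_lit 5) (nat_lit 32) (nat_lit 4) (nat_lit 504) (nat_lit 462) (nat_lit 234)) (XT.lf (nat_lit 0) (nat_lit 694315700413) (nat_lit 152) (nat_lit 293950444524) (nat_lit 76) (nat_lit 2623095070030) (nat_lit 30) (nat_lit 5) (nat_lit 32) (nat_lit 5) (nat_lit 31) (nat_lit 4) (nat_lit 505) (nat_lit 462) (nat_lit 233)))) (XT.nd (nat_lit 156) (nat_lit 152) (nat_lit 0) (XT.nd (nat_lit 78) (nat_lit 76) (nat_lit 0) (XT.lf (nat_lit 0) (nat_lit 1777399872692) (nat_lit 152) (nat_lit 1862302740427) (nat_lit 0) (nat_lit 168022924320) (nat_lit 29) (nat_lit 5) (nat_lit 31) (nat_lit 4) (nat_lit 29) (nat_lit 4) (nat_lit 506) (nat_lit 462) (nat_lit 232)) (XT.lf (nat_lit 0) (nat_lit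 353302702068) (nat_lit 76) (nat_lit 2636240144517) (nat_lit 76) (nat_lit 1026863193697) (nat_lit 28) (nat_lit 4) (nat_lit 29) (nat_lit 5) (nat_lit 29) (nat_lit 4) (nat_lit 507) (nat_lit 462) (nat_lit 231))) (XT.nd (nat_lit 78) (nat_lit 76) (nat_lit 0) (XT.lf (nat_lit 0) (nat_lit 106272309384) (nat_lit 152) (nat_lit 1388330549566) (nat_lit 76) (nat_lit 2742889397062) (nat_lit 27) (nat_lit 5) (nat_lit 29) (nat_lit 5) (nat_lit 28) (nat_lit 4) (nat_lit 508) (nat_lit 462) (nat_lit 230)) (XT.lf (nat_lit 0) (nat_lit 1096609113157) (nat_lit 76) (nat_lit 204345727391) (nat_lit 152) (nat_lit 3171066908986) (nat_lit 26) (nat_lit 5) (nat_lit 27) (nat_lit 5) (nat_lit 28) (nat_lit 4) (nat_lit 509) (nat_lit 462) (nat_lit 229))))))) (XT.nd (nat_lit 936) (nat_lit 304) (nat_lit 0) (XT.nd (nat_lit 468) (nat_lit 380) (nat_lit 0) (XT.nd (nat_lit 234) (nat_lit 152) (nat_lit 0) (XT.nd (nat_lit 78) (nat_lit 152)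 (nat_lit 0) (XT.lf (nat_lit 0) (nat_lit 2658755999791) (nat_lit 152) (nat_lit 892561930104) (nat_lit 0) (nat_lit 1168592150597) (nat_lit 26) (nat_lit 5) (nat_lit 28) (nat_lit 4) (nat_lit 26) (nat_lit 4) (nat_lit 510) (nat_lit 462) (nat_lit 228)) (XT.nd (nat_lit 78) (nat_lit 76) (nat_lit 0) (XT.lf (nat_lit 0) (nat_lit 1877530841802) (nat_lit 76) (nat_lit 2298112749895) (nat_lit 76) (nat_lit 807948899035) (nat_lit 25) (nat_lit 4) (nat_lit 26) (nat_lit 5) (nat_lit 26) (nat_lit 4) (nat_lit 511) (nat_lit 462) (nat_lit 227)) (XT.lf (nat_lit 0) (nat_lit 543262040410) (nat_lit 152) (nat_lit 360178808348) (nat_lit 76) (nat_lit 4361876029737) (nat_lit 24) (nat_lit 5) (nat_lit 26) (nat_lit 5) (nat_lit 25) (nat_lit 4) (nat_lit 512) (nat_lit 462) (nat_lit 226)))) (XT.nd (nat_lit 78) (nat_lit 76) (nat_lit 0) (XT.lf (nat_lit 0) (nat_lit 2041089164713) (nat_lit 152) (nat_lit 2858929816265) (nat_lit 0)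 (nat_lit 661307818573) (nat_lit 23) (nat_lit 5) (nat_lit 25) (nat_lit 4) (nat_lit 23) (nat_lit 4) (nat_lit 513) (nat_lit 462) (nat_lit 225)) (XT.nd (nat_lit 78) (nat_lit 0) (nat_lit 0) (XT.lf (nat_lit 0) (nat_lit 133172901669) (nat_lit 76) (nat_lit 3562342079120) (nat_lit 76) (nat_lit 2182560731755) (nat_lit 22) (nat_lit 4) (nat_lit 23) (nat_lit 5) (nat_lit 23) (nat_lit 4) (nat_lit 514) (nat_lit 462) (nat_lit 224)) (XT.lf (nat_lit 0) (nat_lit 3527233703136) (nat_lit 76) (nat_lit 2033229363780) (nat_lit 76) (nat_lit 653448015281) (nat_lit 22) (nat_lit 4) (nat_lit 23) (nat_lit 5) (nat_lit 23) (nat_lit 4) (nat_lit 515) (nat_lit 462) (nat_lit 223))))) (XT.nd (nat_lit 234) (nat_lit 152) (nat_lit 0) (XT.nd (nat_lit 78) (nat_lit 76) (nat_lit 0) (XT.lf (nat_lit 0) (nat_lit 623388738294) (nat_lit 76) (nat_lit 339673803937) (nat_lit 152) (nat_lit 5610431196442) (nat_lit 20) (nat_lit 5) (nat_lit 21)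 (nat_lit 5) (nat_lit 22) (nat_lit 4) (nat_lit 516) (nat_lit 462) (nat_lit 222)) (XT.nd (nat_lit 78) (nat_lit 76) (nat_lit 0) (XT.lf (nat_lit 0) (nat_lit 2784776603343) (nat_lit 152) (nat_lit 2659612445522) (nat_lit 0) (nat_lit 1507201278786) (nat_lit 20) (nat_lit 5) (nat_lit 22) (nat_lit 4) (nat_lit 20) (nat_lit 4) (nat_lit 517) (nat_lit 462) (nat_lit 221)) (XT.lf (nat_lit 0) (nat_lit 931914973679) (nat_lit 76) (nat_lit 3851548086879) (nat_lit 76) (nat_lit 2573972761489) (nat_lit 19) (nat_lit 4) (nat_lit 20) (nat_lit 5) (nat_lit 20) (nat_lit 4) (nat_lit 518) (nat_lit 462) (nat_lit 220)))) (XT.nd (nat_lit 78) (nat_lit 152) (nat_lit 0) (XT.lf (nat_lit 0) (nat_lit 4962019097843) (nat_lit 76) (nat_lit 2052743851556) (nat_lit 76) (nat_lit 775168525394) (nat_lit 19) (nat_lit 4) (nat_lit 20) (nat_lit 5) (nat_lit 20) (nat_lit 4) (nat_lit 519) (nat_lit 462) (nat_lit 219)) (XT.nd (nat_lit 78) (nat_lit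 0) (nat_lit 0) (XT.lf (nat_lit 0) (nat_lit 1083633118510) (nat_lit 76) (nat_lit 51563249464) (nat_lit 152) (nat_lit 7117499150466) (nat_lit 17) (nat_lit 5) (nat_lit 18) (nat_lit 5) (nat_lit 19) (nat_lit 4) (nat_lit 520) (nat_lit 462) (nat_lit 218)) (XT.lf (nat_lit 0) (nat_lit 3286578286512) (nat_lit 152) (nat_lit 3350248125384) (nat_lit 0) (nat_lit 2103638168421) (nat_lit 17) (nat_lit 5) (nat_lit 19) (nat_lit 4) (nat_lit 17) (nat_lit 4) (nat_lit 521) (nat_lit 462) (nat_lit 217)))))) (XT.nd (nat_lit 468) (nat_lit 0) (nat_lit 0) (XT.nd (nat_lit 234) (nat_lit 76) (nat_lit 0) (XT.nd (nat_lit 78) (nat_lit 152) (nat_lit 0) (XT.lf (nat_lit 0) (nat_lit 813422678315) (nat_lit 76) (nat_lit 4817550218224) (nat_lit 76) (nat_lit 3634610099566) (nat_lit 16) (nat_lit 4) (nat_lit 17) (nat_lit 5) (nat_lit 17) (nat_lit 4) (nat_lit 522) (nat_lit 462) (nat_lit 216)) (XT.nd (nat_lit 78) (nat_lit 152) (nat_lit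 0) (XT.lf (nat_lit 0) (nat_lit 5500718721507) (nat_lit 76) (nat_lit 2753802072665) (nat_lit 76) (nat_lit 1570861953481) (nat_lit 16) (nat_lit 4) (nat_lit 17) (nat_lit 5) (nat_lit 17) (nat_lit 4) (nat_lit 523) (nat_lit 462) (nat_lit 215)) (XT.lf (nat_lit 0) (nat_lit 123379317744) (nat_lit 76) (nat_lit 504658873320) (nat_lit 152) (nat_lit 9800424939959) (nat_lit 14) (nat_lit 5) (nat_lit 15) (nat_lit 5) (nat_lit 16) (nat_lit 4) (nat_lit 524) (nat_lit 462) (nat_lit 214)))) (XT.nd (nat_lit 78) (nat_lit 76) (nat_lit 0) (XT.lf (nat_lit 0) (nat_lit 3085580494533) (nat_lit 152) (nat_lit 5987271953743) (nat_lit 0) (nat_lit 1990265568496) (nat_lit 14) (nat_lit 5) (nat_lit 16) (nat_lit 4) (nat_lit 14) (nat_lit 4) (nat_lit 525) (nat_lit 462) (nat_lit 213)) (XT.nd (nat_lit 78) (nat_lit 76) (nat_lit 0) (XT.lf (nat_lit 0) (nat_lit 5752834203125) (nat_lit 152) (nat_lit 1337143171887) (nat_lit 0) (nat_lit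 4657519276701) (nat_lit 14) (nat_lit 5) (nat_lit 16) (nat_lit 4) (nat_lit 14) (nat_lit 4) (nat_lit 526) (nat_lit 462) (nat_lit 212)) (XT.lf (nat_lit 0) (nat_lit 3879041263231) (nat_lit 76) (nat_lit 4847717979141) (nat_lit 76) (nat_lit 3752403052360) (nat_lit 13) (nat_lit 4) (nat_lit 14) (nat_lit 5) (nat_lit 14) (nat_lit 4) (nat_lit 527) (nat_lit 462) (nat_lit 211))))) (XT.nd (nat_lit 57564) (nat_lit 0) (nat_lit 4712) (XT.nd (nat_lit 57408) (nat_lit 0) (nat_lit 5168) (XT.lf (nat_lit 0) (nat_lit 9588564966762) (nat_lit 76) (nat_lit 2386593180280) (nat_lit 76) (nat_lit 1291278253168) (nat_lit 13) (nat_lit 4) (nat_lit 14) (nat_lit 5) (nat_lit 14) (nat_lit 4) (nat_lit 528) (nat_lit 462) (nat_lit 210)) (XT.nd (nat_lit 78) (nat_lit 0) (nat_lit 0) (XT.lf (nat_lit 0) (nat_lit 251048242986) (nat_lit 532) (nat_lit 3974196279) (nat_lit 532) (nat_lit 3974196279) (nat_lit 81) (nat_lit 3) (nat_lit 88)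 (nat_lit 3) (nat_lit 88) (nat_lit 5) (nat_lit 463) (nat_lit 463) (nat_lit 274)) (XT.lf (nat_lit 76) (nat_lit 262088601210) (nat_lit 0) (nat_lit 266395211311) (nat_lit 532) (nat_lit 9724911984) (nat_lit 82) (nat_lit 5) (nat_lit 81) (nat_lit 3) (nat_lit 88) (nat_lit 5) (nat_lit 464) (nat_lit 463) (nat_lit 273)))) (XT.nd (nat_lit 156) (nat_lit 0) (nat_lit 0) (XT.nd (nat_lit 78) (nat_lit 456) (nat_lit 0) (XT.lf (nat_lit 76) (nat_lit 554180573528) (nat_lit 0) (nat_lit 3018851482) (nat_lit 532) (nat_lit 2824605201) (nat_lit 82) (nat_lit 5) (nat_lit 81) (nat_lit 3) (nat_lit 88) (nat_lit 5) (nat_lit 465) (nat_lit 463) (nat_lit 272)) (XT.lf (nat_lit 0) (nat_lit 18594556105) (nat_lit 532) (nat_lit 288954452454) (nat_lit 608) (nat_lit 274890781861) (nat_lit 75) (nat_lit 5) (nat_lit 82) (nat_lit 5) (nat_lit 83) (nat_lit 5) (nat_lit 466) (nat_lit 463) (nat_lit 271))) (XT.nd (nat_lit 78) (nat_lit 0)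 (nat_lit 76) (XT.lf (nat_lit 76) (nat_lit 10843207298) (nat_lit 0) (nat_lit 31234531798) (nat_lit 608) (nat_lit 564524955778) (nat_lit 76) (nat_lit 5) (nat_lit 75) (nat_lit 5) (nat_lit 83) (nat_lit 5) (nat_lit 467) (nat_lit 463) (nat_lit 270)) (XT.lf (nat_lit 0) (nat_lit 81971100835) (nat_lit 532) (nat_lit 287639846722) (nat_lit 608) (nat_lit 261925162203) (nat_lit 76) (nat_lit 5) (nat_lit 83) (nat_lit 5) (nat_lit 84) (nat_lit 5) (nat_lit 468) (nat_lit 463) (nat_lit 269))))))))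
noncomputable def xc220 : XT := (XT.nd (nat_lit 1950) (nat_lit 1596) (nat_lit 0) (XT.nd (nat_lit 936) (nat_lit 1216) (nat_lit 0) (XT.nd (nat_lit 468) (nat_lit 836) (nat_lit 0) (XT.nd (nat_lit 234) (nat_lit 228) (nat_lit 0) (XT.nd (nat_lit 78) (nat_lit 380) (nat_lit 0) (XT.lf (nat_lit 76) (nat_lit 46651774647) (nat_lit 0) (nat_lit 80337401804) (nat_lit 608) (nat_lit 531320361796) (nat_lit 77) (nat_lit 5) (nat_lit 76) (nat_lit 5) (nat_lit 84) (nat_lit 5) (nat_lit 469) (nat_lit 463) (nat_lit 268)) (XT.nd (nat_lit 78) (nat_lit 456) (nat_lit 0) (XT.lf (nat_lit 0) (nat_lit 189259021429) (nat_lit 532) (nat_lit 268336388673) (nat_lit 76) (nat_lit 228537405049) (nat_lit 77) (nat_lit 5) (nat_lit 84) (nat_lit 5) (nat_lit 78) (nat_lit 5) (nat_lit 470) (nat_lit 463) (nat_lit 267)) (XT.lf (nat_lit 0) (nat_lit 105648985864) (nat_lit 456) (nat_lit 155488998932) (nat_lit 532) (nat_lit 454673766952) (nat_lit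 71) (nat_lit 5) (nat_lit 77) (nat_lit 5) (nat_lit 78) (nat_lit 5) (nat_lit 471) (nat_lit 463) (nat_lit 266)))) (XT.nd (nat_lit 78) (nat_lit 228) (nat_lit 0) (XT.lf (nat_lit 0) (nat_lit 350402014474) (nat_lit 532) (nat_lit 226762328570) (nat_lit 76) (nat_lit 169769880292) (nat_lit 71) (nat_lit 5) (nat_lit 78) (nat_lit 5) (nat_lit 72) (nat_lit 5) (nat_lit 472) (nat_lit 463) (nat_lit 265)) (XT.nd (nat_lit 78) (nat_lit 0) (nat_lit 0) (XT.lf (nat_lit 0) (nat_lit 192922203968) (nat_lit 228) (nat_lit 262563407797) (nat_lit 304) (nat_lit 324366605272) (nat_lit 68) (nat_lit 5) (nat_lit 71) (nat_lit 5) (nat_lit 72) (nat_lit 5) (nat_lit 473) (nat_lit 463) (nat_lit 264)) (XT.lf (nat_lit 0) (nat_lit 577193805438) (nat_lit 304) (nat_lit 157847822687) (nat_lit 76) (nat_lit 79704589423) (nat_lit 68) (nat_lit 5) (nat_lit 72) (nat_lit 5) (nat_lit 69) (nat_lit 5) (nat_lit 474) (nat_lit 463) (nat_lit 263)))))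 (XT.nd (nat_lit 234) (nat_lit 380) (nat_lit 0) (XT.nd (nat_lit 78) (nat_lit 228) (nat_lit 0) (XT.lf (nat_lit 0) (nat_lit 314472277091) (nat_lit 228) (nat_lit 408549260028) (nat_lit 304) (nat_lit 128259570381) (nat_lit 65) (nat_lit 5) (nat_lit 68) (nat_lit 5) (nat_lit 69) (nat_lit 5) (nat_lit 475) (nat_lit 463) (nat_lit 262)) (XT.nd (nat_lit 78) (nat_lit 228) (nat_lit 0) (XT.lf (nat_lit 0) (nat_lit 833554916767) (nat_lit 228) (nat_lit 51276398253) (nat_lit 304) (nat_lit 5562207417) (nat_lit 65) (nat_lit 5) (nat_lit 68) (nat_lit 5) (nat_lit 69) (nat_lit 5) (nat_lit 476) (nat_lit 463) (nat_lit 261)) (XT.lf (nat_lit 0) (nat_lit 140634721210) (nat_lit 228) (nat_lit 457270930933) (nat_lit 76) (nat_lit 332882274404) (nat_lit 62) (nat_lit 5) (nat_lit 65) (nat_lit 5) (nat_lit 63) (nat_lit 5) (nat_lit 477) (nat_lit 463) (nat_lit 260)))) (XT.nd (nat_lit 78) (nat_lit 152) (nat_lit 0) (XT.lf (nat_lit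 0) (nat_lit 77609588825) (nat_lit 228) (nat_lit 225410101720) (nat_lit 304) (nat_lit 670999211402) (nat_lit 59) (nat_lit 5) (nat_lit 62) (nat_lit 5) (nat_lit 63) (nat_lit 5) (nat_lit 478) (nat_lit 463) (nat_lit 259)) (XT.nd (nat_lit 78) (nat_lit 152) (nat_lit 0) (XT.lf (nat_lit 0) (nat_lit 495476878440) (nat_lit 304) (nat_lit 343001041940) (nat_lit 76) (nat_lit 180863921319) (nat_lit 59) (nat_lit 5) (nat_lit 63) (nat_lit 5) (nat_lit 60) (nat_lit 5) (nat_lit 479) (nat_lit 463) (nat_lit 258)) (XT.lf (nat_lit 0) (nat_lit 261927757352) (nat_lit 152) (nat_lit 453557051343) (nat_lit 228) (nat_lit 351833474552) (nat_lit 57) (nat_lit 5) (nat_lit 59) (nat_lit 5) (nat_lit 60) (nat_lit 5) (nat_lit 480) (nat_lit 463) (nat_lit 257)))))) (XT.nd (nat_lit 468) (nat_lit 684) (nat_lit 0) (XT.nd (nat_lit 234) (nat_lit 152) (nat_lit 0) (XT.nd (nat_lit 78) (nat_lit 380) (nat_lit 0) (XT.lf (nat_lit 0) (nat_lit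 934757621113) (nat_lit 152) (nat_lit 27713999613) (nat_lit 228) (nat_lit 155910959607) (nat_lit 57) (nat_lit 5) (nat_lit 59) (nat_lit 5) (nat_lit 60) (nat_lit 5) (nat_lit 481) (nat_lit 463) (nat_lit 256)) (XT.nd (nat_lit 78) (nat_lit 152) (nat_lit 0) (XT.lf (nat_lit 0) (nat_lit 75966332581) (nat_lit 228) (nat_lit 671025459806) (nat_lit 76) (nat_lit 424587763418) (nat_lit 54) (nat_lit 5) (nat_lit 57) (nat_lit 5) (nat_lit 55) (nat_lit 5) (nat_lit 482) (nat_lit 463) (nat_lit 255)) (XT.lf (nat_lit 0) (nat_lit 17242387129) (nat_lit 152) (nat_lit 307013733074) (nat_lit 228) (nat_lit 903949354006) (nat_lit 52) (nat_lit 5) (nat_lit 54) (nat_lit 5) (nat_lit 55) (nat_lit 5) (nat_lit 483) (nat_lit 463) (nat_lit 254)))) (XT.nd (nat_lit 78) (nat_lit 152) (nat_lit 0) (XT.lf (nat_lit 0) (nat_lit 615276967999) (nat_lit 228) (nat_lit 493681102406) (nat_lit 76) (nat_lit 178573965509) (nat_lit 52) (nat_lit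 5) (nat_lit 55) (nat_lit 5) (nat_lit 53) (nat_lit 5) (nat_lit 484) (nat_lit 463) (nat_lit 253)) (XT.nd (nat_lit 78) (nat_lit 0) (nat_lit 0) (XT.lf (nat_lit 0) (nat_lit 287385219232) (nat_lit 152) (nat_lit 657080261039) (nat_lit 228) (nat_lit 405948362553) (nat_lit 50) (nat_lit 5) (nat_lit 52) (nat_lit 5) (nat_lit 53) (nat_lit 5) (nat_lit 485) (nat_lit 463) (nat_lit 252)) (XT.lf (nat_lit 0) (nat_lit 1159012916918) (nat_lit 152) (nat_lit 154474265646) (nat_lit 228) (nat_lit 103759163000) (nat_lit 50) (nat_lit 5) (nat_lit 52) (nat_lit 5) (nat_lit 53) (nat_lit 5) (nat_lit 486) (nat_lit 463) (nat_lit 251))))) (XT.nd (nat_lit 234) (nat_lit 380) (nat_lit 0) (XT.nd (nat_lit 78) (nat_lit 152) (nat_lit 0) (XT.lf (nat_lit 0) (nat_lit 236677855619) (nat_lit 152) (nat_lit 860166410395) (nat_lit 76) (nat_lit 390136226099) (nat_lit 48) (nat_lit 5) (nat_lit 50) (nat_lit 5) (nat_lit 49) (nat_lit 5) (nat_lit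 487) (nat_lit 463) (nat_lit 250)) (XT.nd (nat_lit 78) (nat_lit 0) (nat_lit 0) (XT.lf (nat_lit 0) (nat_lit 30245046909) (nat_lit 152) (nat_lit 580482755724) (nat_lit 228) (nat_lit 950391271759) (nat_lit 46) (nat_lit 5) (nat_lit 48) (nat_lit 5) (nat_lit 49) (nat_lit 5) (nat_lit 488) (nat_lit 463) (nat_lit 249)) (XT.lf (nat_lit 0) (nat_lit 1038282445372) (nat_lit 228) (nat_lit 598561662315) (nat_lit 76) (nat_lit 2458179569) (nat_lit 46) (nat_lit 5) (nat_lit 49) (nat_lit 5) (nat_lit 47) (nat_lit 4) (nat_lit 489) (nat_lit 463) (nat_lit 248)))) (XT.nd (nat_lit 156) (nat_lit 228) (nat_lit 0) (XT.nd (nat_lit 78) (nat_lit 76) (nat_lit 0) (XT.lf (nat_lit 0) (nat_lit 413966487803) (nat_lit 76) (nat_lit 1111108343833) (nat_lit 152) (nat_lit 196662655746) (nat_lit 45) (nat_lit 5) (nat_lit 46) (nat_lit 5) (nat_lit 47) (nat_lit 4) (nat_lit 490) (nat_lit 463) (nat_lit 247)) (XT.lf (nat_lit 0) (nat_lit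 244825991629) (nat_lit 152) (nat_lit 274118759512) (nat_lit 76) (nat_lit 1290017643809) (nat_lit 44) (nat_lit 5) (nat_lit 46) (nat_lit 5) (nat_lit 45) (nat_lit 5) (nat_lit 491) (nat_lit 463) (nat_lit 246))) (XT.nd (nat_lit 78) (nat_lit 76) (nat_lit 0) (XT.lf (nat_lit 0) (nat_lit 735785063309) (nat_lit 228) (nat_lit 1023445943997) (nat_lit 76) (nat_lit 141543540219) (nat_lit 42) (nat_lit 5) (nat_lit 45) (nat_lit 5) (nat_lit 43) (nat_lit 4) (nat_lit 492) (nat_lit 463) (nat_lit 245)) (XT.lf (nat_lit 0) (nat_lit 129977274405) (nat_lit 76) (nat_lit 1160338187071) (nat_lit 152) (nat_lit 707672642772) (nat_lit 41) (nat_lit 5) (nat_lit 42) (nat_lit 5) (nat_lit 43) (nat_lit 4) (nat_lit 493) (nat_lit 463) (nat_lit 244))))))) (XT.nd (nat_lit 936) (nat_lit 836) (nat_lit 0) (XT.nd (nat_lit 468) (nat_lit 380) (nat_lit 0) (XT.nd (nat_lit 234) (nat_lit 228) (nat_lit 0) (XT.nd (nat_lit 78) (nat_lit 152)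 (nat_lit 0) (XT.lf (nat_lit 0) (nat_lit 1433878618461) (nat_lit 76) (nat_lit 483312493551) (nat_lit 152) (nat_lit 183549007855) (nat_lit 41) (nat_lit 5) (nat_lit 42) (nat_lit 5) (nat_lit 43) (nat_lit 4) (nat_lit 494) (nat_lit 463) (nat_lit 243)) (XT.nd (nat_lit 78) (nat_lit 0) (nat_lit 0) (XT.lf (nat_lit 0) (nat_lit 385704993816) (nat_lit 152) (nat_lit 1562436300742) (nat_lit 76) (nat_lit 261048270661) (nat_lit 39) (nat_lit 5) (nat_lit 41) (nat_lit 5) (nat_lit 40) (nat_lit 4) (nat_lit 495) (nat_lit 463) (nat_lit 242)) (XT.lf (nat_lit 0) (nat_lit 1021843232183) (nat_lit 152) (nat_lit 239268772131) (nat_lit 76) (nat_lit 1062320734912) (nat_lit 39) (nat_lit 5) (nat_lit 41) (nat_lit 5) (nat_lit 40) (nat_lit 4) (nat_lit 496) (nat_lit 463) (nat_lit 241)))) (XT.nd (nat_lit 78) (nat_lit 152) (nat_lit 0) (XT.lf (nat_lit 0) (nat_lit 1252402390127) (nat_lit 76) (nat_lit 486590442496) (nat_lit 152)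 (nat_lit 705412910289) (nat_lit 38) (nat_lit 5) (nat_lit 39) (nat_lit 5) (nat_lit 40) (nat_lit 4) (nat_lit 497) (nat_lit 463) (nat_lit 240)) (XT.nd (nat_lit 78) (nat_lit 76) (nat_lit 0) (XT.lf (nat_lit 0) (nat_lit 309372658749) (nat_lit 76) (nat_lit 2226709044174) (nat_lit 76) (nat_lit 37169499826) (nat_lit 37) (nat_lit 4) (nat_lit 38) (nat_lit 5) (nat_lit 38) (nat_lit 4) (nat_lit 498) (nat_lit 463) (nat_lit 239)) (XT.lf (nat_lit 0) (nat_lit 696366975654) (nat_lit 152) (nat_lit 741096240272) (nat_lit 76) (nat_lit 1269937901947) (nat_lit 36) (nat_lit 5) (nat_lit 38) (nat_lit 5) (nat_lit 37) (nat_lit 4) (nat_lit 499) (nat_lit 463) (nat_lit 238))))) (XT.nd (nat_lit 234) (nat_lit 152) (nat_lit 0) (XT.nd (nat_lit 78) (nat_lit 152) (nat_lit 0) (XT.lf (nat_lit 0) (nat_lit 950069523681) (nat_lit 76) (nat_lit 559357917765) (nat_lit 152) (nat_lit 1340950414181) (nat_lit 35) (nat_lit 5) (nat_lit 36)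 (nat_lit 5) (nat_lit 37) (nat_lit 4) (nat_lit 500) (nat_lit 463) (nat_lit 237)) (XT.nd (nat_lit 78) (nat_lit 152) (nat_lit 0) (XT.lf (nat_lit 0) (nat_lit 2417677292033) (nat_lit 152) (nat_lit 194378028107) (nat_lit 0) (nat_lit 390325848459) (nat_lit 35) (nat_lit 5) (nat_lit 37) (nat_lit 4) (nat_lit 35) (nat_lit 4) (nat_lit 501) (nat_lit 463) (nat_lit 236)) (XT.lf (nat_lit 0) (nat_lit 277769345491) (nat_lit 152) (nat_lit 1449591208836) (nat_lit 76) (nat_lit 1434150969388) (nat_lit 33) (nat_lit 5) (nat_lit 35) (nat_lit 5) (nat_lit 34) (nat_lit 4) (nat_lit 502) (nat_lit 463) (nat_lit 235)))) (XT.nd (nat_lit 78) (nat_lit 76) (nat_lit 0) (XT.lf (nat_lit 0) (nat_lit 456332264323) (nat_lit 76) (nat_lit 737746444993) (nat_lit 152) (nat_lit 2136764430393) (nat_lit 32) (nat_lit 5) (nat_lit 33) (nat_lit 5) (nat_lit 34) (nat_lit 4) (nat_lit 503) (nat_lit 463) (nat_lit 234)) (XT.nd (nat_lit 78) (nat_lit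 76) (nat_lit 0) (XT.lf (nat_lit 0) (nat_lit 2232318118570) (nat_lit 152) (nat_lit 922372296718) (nat_lit 0) (nat_lit 355140845990) (nat_lit 32) (nat_lit 5) (nat_lit 34) (nat_lit 4) (nat_lit 32) (nat_lit 4) (nat_lit 504) (nat_lit 463) (nat_lit 233)) (XT.lf (nat_lit 0) (nat_lit 1228215425984) (nat_lit 76) (nat_lit 2174102106919) (nat_lit 76) (nat_lit 296924831483) (nat_lit 31) (nat_lit 4) (nat_lit 32) (nat_lit 5) (nat_lit 32) (nat_lit 4) (nat_lit 505) (nat_lit 463) (nat_lit 232)))))) (XT.nd (nat_lit 468) (nat_lit 456) (nat_lit 0) (XT.nd (nat_lit 234) (nat_lit 152) (nat_lit 0) (XT.nd (nat_lit 78) (nat_lit 152) (nat_lit 0) (XT.lf (nat_lit 0) (nat_lit 749861024876) (nat_lit 152) (nat_lit 317466346337) (nat_lit 76) (nat_lit 2832942735475) (nat_lit 30) (nat_lit 5) (nat_lit 32) (nat_lit 5) (nat_lit 31) (nat_lit 4) (nat_lit 506) (nat_lit 463) (nat_lit 231)) (XT.nd (nat_lit 78) (nat_lit 76) (nat_lit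 0) (XT.lf (nat_lit 0) (nat_lit 1919591930539) (nat_lit 152) (nat_lit 2011286825512) (nat_lit 0) (nat_lit 181464818938) (nat_lit 29) (nat_lit 5) (nat_lit 31) (nat_lit 4) (nat_lit 29) (nat_lit 4) (nat_lit 507) (nat_lit 463) (nat_lit 230)) (XT.lf (nat_lit 0) (nat_lit 381567048987) (nat_lit 76) (nat_lit 2847139291462) (nat_lit 76) (nat_lit 1109012177763) (nat_lit 28) (nat_lit 4) (nat_lit 29) (nat_lit 5) (nat_lit 29) (nat_lit 4) (nat_lit 508) (nat_lit 463) (nat_lit 229)))) (XT.nd (nat_lit 78) (nat_lit 76) (nat_lit 0) (XT.lf (nat_lit 0) (nat_lit 114774156966) (nat_lit 152) (nat_lit 1499396869153) (nat_lit 76) (nat_lit 2962320605347) (nat_lit 27) (nat_lit 5) (nat_lit 29) (nat_lit 5) (nat_lit 28) (nat_lit 4) (nat_lit 509) (nat_lit 463) (nat_lit 228)) (XT.nd (nat_lit 78) (nat_lit 0) (nat_lit 0) (XT.lf (nat_lit 0) (nat_lit 1184337963439) (nat_lit 76) (nat_lit 220693325446) (nat_lit 152) (nat_lit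 3424752195723) (nat_lit 26) (nat_lit 5) (nat_lit 27) (nat_lit 5) (nat_lit 28) (nat_lit 4) (nat_lit 510) (nat_lit 463) (nat_lit 227)) (XT.lf (nat_lit 0) (nat_lit 2871456537680) (nat_lit 152) (nat_lit 963966769075) (nat_lit 0) (nat_lit 1262079575542) (nat_lit 26) (nat_lit 5) (nat_lit 28) (nat_lit 4) (nat_lit 26) (nat_lit 4) (nat_lit 511) (nat_lit 463) (nat_lit 226))))) (XT.nd (nat_lit 234) (nat_lit 228) (nat_lit 0) (XT.nd (nat_lit 78) (nat_lit 152) (nat_lit 0) (XT.lf (nat_lit 0) (nat_lit 2027733421661) (nat_lit 76) (nat_lit 2481961713694) (nat_lit 76) (nat_lit 872584750128) (nat_lit 25) (nat_lit 4) (nat_lit 26) (nat_lit 5) (nat_lit 26) (nat_lit 4) (nat_lit 512) (nat_lit 463) (nat_lit 225)) (XT.nd (nat_lit 78) (nat_lit 76) (nat_lit 0) (XT.lf (nat_lit 0) (nat_lit 586723057149) (nat_lit 152) (nat_lit 388993006017) (nat_lit 76) (nat_lit 4710826161327) (nat_lit 24) (nat_lit 5) (nat_lit 26) (nat_lit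 5) (nat_lit 25) (nat_lit 4) (nat_lit 513) (nat_lit 463) (nat_lit 224)) (XT.lf (nat_lit 0) (nat_lit 2204376351197) (nat_lit 152) (nat_lit 3087644094368) (nat_lit 0) (nat_lit 714212493685) (nat_lit 23) (nat_lit 5) (nat_lit 25) (nat_lit 4) (nat_lit 23) (nat_lit 4) (nat_lit 514) (nat_lit 463) (nat_lit 223)))) (XT.nd (nat_lit 156) (nat_lit 152) (nat_lit 0) (XT.nd (nat_lit 78) (nat_lit 0) (nat_lit 0) (XT.lf (nat_lit 0) (nat_lit 143826838288) (nat_lit 76) (nat_lit 3847329392836) (nat_lit 76) (nat_lit 2357165534273) (nat_lit 22) (nat_lit 4) (nat_lit 23) (nat_lit 5) (nat_lit 23) (nat_lit 4) (nat_lit 515) (nat_lit 463) (nat_lit 222)) (XT.lf (nat_lit 0) (nat_lit 3809412496132) (nat_lit 76) (nat_lit 2195887664166) (nat_lit 76) (nat_lit 705723804631) (nat_lit 22) (nat_lit 4) (nat_lit 23) (nat_lit 5) (nat_lit 23) (nat_lit 4) (nat_lit 516) (nat_lit 463) (nat_lit 221))) (XT.nd (nat_lit 78) (nat_lit 0)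 (nat_lit 0) (XT.lf (nat_lit 0) (nat_lit 673259934184) (nat_lit 76) (nat_lit 366847659382) (nat_lit 152) (nat_lit 6059265640363) (nat_lit 20) (nat_lit 5) (nat_lit 21) (nat_lit 5) (nat_lit 22) (nat_lit 4) (nat_lit 517) (nat_lit 463) (nat_lit 220)) (XT.lf (nat_lit 0) (nat_lit 3007558777102) (nat_lit 152) (nat_lit 2872381349045) (nat_lit 0) (nat_lit 1627777424075) (nat_lit 20) (nat_lit 5) (nat_lit 22) (nat_lit 4) (nat_lit 20) (nat_lit 4) (nat_lit 518) (nat_lit 463) (nat_lit 219))))))))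
noncomputable def xc221 : XT := (XT.nd (nat_lit 59358) (nat_lit 0) (nat_lit 1520) (XT.nd (nat_lit 58344) (nat_lit 0) (nat_lit 3724) (XT.nd (nat_lit 468) (nat_lit 228) (nat_lit 0) (XT.nd (nat_lit 234) (nat_lit 76) (nat_lit 0) (XT.nd (nat_lit 78) (nat_lit 152) (nat_lit 0) (XT.lf (nat_lit 0) (nat_lit 1006468261361) (nat_lit 76) (nat_lit 4159671888325) (nat_lit 76) (nat_lit 2779890534583) (nat_lit 19) (nat_lit 4) (nat_lit 20) (nat_lit 5) (nat_lit 20) (nat_lit 4) (nat_lit 519) (nat_lit 463) (nat_lit 218)) (XT.nd (nat_lit 78) (nat_lit 152) (nat_lit 0) (XT.lf (nat_lit 0) (nat_lit 5358980708806) (nat_lit 76) (nat_lit 2216963317547) (nat_lit 76) (nat_lit 837181963144) (nat_lit 19) (nat_lit 4) (nat_lit 20) (nat_lit 5) (nat_lit 20) (nat_lit 4) (nat_lit 520) (nat_lit 463) (nat_lit 217)) (XT.lf (nat_lit 0) (nat_lit 1170323851182) (nat_lit 76) (nat_lit 55688267182) (nat_lit 152) (nat_lit 7686899038274)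 (nat_lit 17) (nat_lit 5) (nat_lit 18) (nat_lit 5) (nat_lit 19) (nat_lit 4) (nat_lit 521) (nat_lit 463) (nat_lit 216)))) (XT.nd (nat_lit 78) (nat_lit 76) (nat_lit 0) (XT.lf (nat_lit 0) (nat_lit 3549504588292) (nat_lit 152) (nat_lit 3618267896292) (nat_lit 0) (nat_lit 2271929259049) (nat_lit 17) (nat_lit 5) (nat_lit 19) (nat_lit 4) (nat_lit 17) (nat_lit 4) (nat_lit 522) (nat_lit 463) (nat_lit 215)) (XT.nd (nat_lit 78) (nat_lit 0) (nat_lit 0) (XT.lf (nat_lit 0) (nat_lit 878496569699) (nat_lit 76) (nat_lit 5202954196399) (nat_lit 76) (nat_lit 3925378866669) (nat_lit 16) (nat_lit 4) (nat_lit 17) (nat_lit 5) (nat_lit 17) (nat_lit 4) (nat_lit 523) (nat_lit 463) (nat_lit 214)) (XT.lf (nat_lit 0) (nat_lit 5940776290634) (nat_lit 76) (nat_lit 2974106202104) (nat_lit 76) (nat_lit 1696530871924) (nat_lit 16) (nat_lit 4) (nat_lit 17) (nat_lit 5) (nat_lit 17) (nat_lit 4) (nat_lit 524) (nat_lit 463) (nat_lit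 213))))) (XT.nd (nat_lit 234) (nat_lit 76) (nat_lit 0) (XT.nd (nat_lit 78) (nat_lit 0) (nat_lit 0) (XT.lf (nat_lit 0) (nat_lit 133249734607) (nat_lit 76) (nat_lit 545031546740) (nat_lit 152) (nat_lit 10584458897357) (nat_lit 14) (nat_lit 5) (nat_lit 15) (nat_lit 5) (nat_lit 16) (nat_lit 4) (nat_lit 525) (nat_lit 463) (nat_lit 212)) (XT.nd (nat_lit 78) (nat_lit 0) (nat_lit 0) (XT.lf (nat_lit 0) (nat_lit 3332426967314) (nat_lit 152) (nat_lit 6466253642109) (nat_lit 0) (nat_lit 2149486846033) (nat_lit 14) (nat_lit 5) (nat_lit 16) (nat_lit 4) (nat_lit 14) (nat_lit 4) (nat_lit 526) (nat_lit 463) (nat_lit 211)) (XT.lf (nat_lit 0) (nat_lit 6213060970132) (nat_lit 152) (nat_lit 1444114562737) (nat_lit 0) (nat_lit 5030120848520) (nat_lit 14) (nat_lit 5) (nat_lit 16) (nat_lit 4) (nat_lit 14) (nat_lit 4) (nat_lit 527) (nat_lit 463) (nat_lit 210)))) (XT.nd (nat_lit 57486) (nat_lit 0) (nat_lit 5168)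 (XT.lf (nat_lit 0) (nat_lit 4189364625598) (nat_lit 76) (nat_lit 5235535386117) (nat_lit 76) (nat_lit 4052595264199) (nat_lit 13) (nat_lit 4) (nat_lit 14) (nat_lit 5) (nat_lit 14) (nat_lit 4) (nat_lit 528) (nat_lit 463) (nat_lit 209)) (XT.nd (nat_lit 78) (nat_lit 0) (nat_lit 0) (XT.lf (nat_lit 0) (nat_lit 271132326841) (nat_lit 532) (nat_lit 4292010767) (nat_lit 532) (nat_lit 4292010767) (nat_lit 81) (nat_lit 3) (nat_lit 88) (nat_lit 3) (nat_lit 88) (nat_lit 5) (nat_lit 464) (nat_lit 464) (nat_lit 272)) (XT.lf (nat_lit 76) (nat_lit 283055925599) (nat_lit 0) (nat_lit 287707013192) (nat_lit 532) (nat_lit 10502449861) (nat_lit 82) (nat_lit 5) (nat_lit 81) (nat_lit 3) (nat_lit 88) (nat_lit 5) (nat_lit 465) (nat_lit 464) (nat_lit 271)))))) (XT.nd (nat_lit 468) (nat_lit 988) (nat_lit 0) (XT.nd (nat_lit 234) (nat_lit 0) (nat_lit 76) (XT.nd (nat_lit 78) (nat_lit 456) (nat_lit 0) (XT.lf (nat_lit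 76) (nat_lit 598515238199) (nat_lit 0) (nat_lit 3260530875) (nat_lit 532) (nat_lit 3050152246) (nat_lit 82) (nat_lit 5) (nat_lit 81) (nat_lit 3) (nat_lit 88) (nat_lit 5) (nat_lit 466) (nat_lit 464) (nat_lit 270)) (XT.nd (nat_lit 78) (nat_lit 0) (nat_lit 0) (XT.lf (nat_lit 0) (nat_lit 20082493436) (nat_lit 532) (nat_lit 312070541148) (nat_lit 608) (nat_lit 296881909154) (nat_lit 75) (nat_lit 5) (nat_lit 82) (nat_lit 5) (nat_lit 83) (nat_lit 5) (nat_lit 467) (nat_lit 464) (nat_lit 269)) (XT.lf (nat_lit 76) (nat_lit 11710924612) (nat_lit 0) (nat_lit 33733385107) (nat_lit 608) (nat_lit 609686572544) (nat_lit 76) (nat_lit 5) (nat_lit 75) (nat_lit 5) (nat_lit 83) (nat_lit 5) (nat_lit 468) (nat_lit 464) (nat_lit 268)))) (XT.nd (nat_lit 78) (nat_lit 0) (nat_lit 0) (XT.lf (nat_lit 0) (nat_lit 88529112339) (nat_lit 532) (nat_lit 310650764910) (nat_lit 608) (nat_lit 282879095341) (nat_lit 76) (nat_lit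 5) (nat_lit 83) (nat_lit 5) (nat_lit 84) (nat_lit 5) (nat_lit 469) (nat_lit 464) (nat_lit 267)) (XT.nd (nat_lit 78) (nat_lit 0) (nat_lit 76) (XT.lf (nat_lit 76) (nat_lit 50384179344) (nat_lit 0) (nat_lit 86764437020) (nat_lit 608) (nat_lit 573825660409) (nat_lit 77) (nat_lit 5) (nat_lit 76) (nat_lit 5) (nat_lit 84) (nat_lit 5) (nat_lit 470) (nat_lit 464) (nat_lit 266)) (XT.lf (nat_lit 0) (nat_lit 204400025330) (nat_lit 532) (nat_lit 289803032826) (nat_lit 76) (nat_lit 246820359567) (nat_lit 77) (nat_lit 5) (nat_lit 84) (nat_lit 5) (nat_lit 78) (nat_lit 5) (nat_lit 471) (nat_lit 464) (nat_lit 265))))) (XT.nd (nat_lit 234) (nat_lit 456) (nat_lit 0) (XT.nd (nat_lit 78) (nat_lit 228) (nat_lit 0) (XT.lf (nat_lit 0) (nat_lit 114101164915) (nat_lit 456) (nat_lit 167928126205) (nat_lit 532) (nat_lit 491047379304) (nat_lit 71) (nat_lit 5) (nat_lit 77) (nat_lit 5) (nat_lit 78) (nat_lit 5) (nat_lit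 472) (nat_lit 464) (nat_lit 264)) (XT.nd (nat_lit 78) (nat_lit 228) (nat_lit 0) (XT.lf (nat_lit 0) (nat_lit 378434423192) (nat_lit 532) (nat_lit 244903053909) (nat_lit 76) (nat_lit 183351464242) (nat_lit 71) (nat_lit 5) (nat_lit 78) (nat_lit 5) (nat_lit 72) (nat_lit 5) (nat_lit 473) (nat_lit 464) (nat_lit 263)) (XT.lf (nat_lit 0) (nat_lit 208356234625) (nat_lit 228) (nat_lit 283568461419) (nat_lit 304) (nat_lit 350315679477) (nat_lit 68) (nat_lit 5) (nat_lit 71) (nat_lit 5) (nat_lit 72) (nat_lit 5) (nat_lit 474) (nat_lit 464) (nat_lit 262)))) (XT.nd (nat_lit 156) (nat_lit 228) (nat_lit 0) (XT.nd (nat_lit 78) (nat_lit 228) (nat_lit 0) (XT.lf (nat_lit 0) (nat_lit 623369528202) (nat_lit 304) (nat_lit 170475395944) (nat_lit 76) (nat_lit 86080973291) (nat_lit 68) (nat_lit 5) (nat_lit 72) (nat_lit 5) (nat_lit 69) (nat_lit 5) (nat_lit 475) (nat_lit 464) (nat_lit 261)) (XT.lf (nat_lit 0) (nat_lit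 339630305422) (nat_lit 228) (nat_lit 441233162744) (nat_lit 304) (nat_lit 138520111244) (nat_lit 65) (nat_lit 5) (nat_lit 68) (nat_lit 5) (nat_lit 69) (nat_lit 5) (nat_lit 476) (nat_lit 464) (nat_lit 260))) (XT.nd (nat_lit 78) (nat_lit 228) (nat_lit 0) (XT.lf (nat_lit 0) (nat_lit 900239538038) (nat_lit 228) (nat_lit 55378474848) (nat_lit 304) (nat_lit 6006975893) (nat_lit 65) (nat_lit 5) (nat_lit 68) (nat_lit 5) (nat_lit 69) (nat_lit 5) (nat_lit 477) (nat_lit 464) (nat_lit 259)) (XT.lf (nat_lit 0) (nat_lit 151885688608) (nat_lit 228) (nat_lit 493852358989) (nat_lit 76) (nat_lit 359512897864) (nat_lit 62) (nat_lit 5) (nat_lit 65) (nat_lit 5) (nat_lit 63) (nat_lit 5) (nat_lit 478) (nat_lit 464) (nat_lit 258))))))) (XT.nd (nat_lit 936) (nat_lit 988) (nat_lit 0) (XT.nd (nat_lit 468) (nat_lit 456) (nat_lit 0) (XT.nd (nat_lit 234) (nat_lit 380) (nat_lit 0) (XT.nd (nat_lit 78) (nat_lit 152) (nat_lit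 0) (XT.lf (nat_lit 0) (nat_lit 83818596112) (nat_lit 228) (nat_lit 243442851102) (nat_lit 304) (nat_lit 724678952343) (nat_lit 59) (nat_lit 5) (nat_lit 62) (nat_lit 5) (nat_lit 63) (nat_lit 5) (nat_lit 479) (nat_lit 464) (nat_lit 257)) (XT.nd (nat_lit 78) (nat_lit 152) (nat_lit 0) (XT.lf (nat_lit 0) (nat_lit 535115198010) (nat_lit 304) (nat_lit 370440890745) (nat_lit 76) (nat_lit 195333086707) (nat_lit 59) (nat_lit 5) (nat_lit 63) (nat_lit 5) (nat_lit 60) (nat_lit 5) (nat_lit 480) (nat_lit 464) (nat_lit 256)) (XT.lf (nat_lit 0) (nat_lit 282882206553) (nat_lit 152) (nat_lit 489841549091) (nat_lit 228) (nat_lit 379979977256) (nat_lit 57) (nat_lit 5) (nat_lit 59) (nat_lit 5) (nat_lit 60) (nat_lit 5) (nat_lit 481) (nat_lit 464) (nat_lit 255)))) (XT.nd (nat_lit 78) (nat_lit 380) (nat_lit 0) (XT.lf (nat_lit 0) (nat_lit 1009538442481) (nat_lit 152) (nat_lit 29931058137) (nat_lit 228) (nat_lit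 168383674097) (nat_lit 57) (nat_lit 5) (nat_lit 59) (nat_lit 5) (nat_lit 60) (nat_lit 5) (nat_lit 482) (nat_lit 464) (nat_lit 254)) (XT.nd (nat_lit 78) (nat_lit 152) (nat_lit 0) (XT.lf (nat_lit 0) (nat_lit 82043788677) (nat_lit 228) (nat_lit 724707272078) (nat_lit 76) (nat_lit 458554847532) (nat_lit 54) (nat_lit 5) (nat_lit 57) (nat_lit 5) (nat_lit 55) (nat_lit 5) (nat_lit 483) (nat_lit 464) (nat_lit 253)) (XT.lf (nat_lit 0) (nat_lit 18621996928) (nat_lit 152) (nat_lit 331574756571) (nat_lit 228) (nat_lit 976265147132) (nat_lit 52) (nat_lit 5) (nat_lit 54) (nat_lit 5) (nat_lit 55) (nat_lit 5) (nat_lit 484) (nat_lit 464) (nat_lit 252))))) (XT.nd (nat_lit 234) (nat_lit 304) (nat_lit 0) (XT.nd (nat_lit 78) (nat_lit 152) (nat_lit 0) (XT.lf (nat_lit 0) (nat_lit 664499260148) (nat_lit 228) (nat_lit 533175378992) (nat_lit 76) (nat_lit 192859948851) (nat_lit 52) (nat_lit 5) (nat_lit 55) (nat_lit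 5) (nat_lit 53) (nat_lit 5) (nat_lit 485) (nat_lit 464) (nat_lit 251)) (XT.nd (nat_lit 78) (nat_lit 0) (nat_lit 0) (XT.lf (nat_lit 0) (nat_lit 310376243021) (nat_lit 152) (nat_lit 709646605364) (nat_lit 228) (nat_lit 438424091472) (nat_lit 50) (nat_lit 5) (nat_lit 52) (nat_lit 5) (nat_lit 53) (nat_lit 5) (nat_lit 486) (nat_lit 464) (nat_lit 250)) (XT.lf (nat_lit 0) (nat_lit 1251734141244) (nat_lit 152) (nat_lit 166832136010) (nat_lit 228) (nat_lit 112059766332) (nat_lit 50) (nat_lit 5) (nat_lit 52) (nat_lit 5) (nat_lit 53) (nat_lit 5) (nat_lit 487) (nat_lit 464) (nat_lit 249)))) (XT.nd (nat_lit 78) (nat_lit 152) (nat_lit 0) (XT.lf (nat_lit 0) (nat_lit 255612204564) (nat_lit 152) (nat_lit 928979523013) (nat_lit 76) (nat_lit 421347194253) (nat_lit 48) (nat_lit 5) (nat_lit 50) (nat_lit 5) (nat_lit 49) (nat_lit 5) (nat_lit 488) (nat_lit 464) (nat_lit 248)) (XT.nd (nat_lit 78) (nat_lit 0) (nat_lit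 0) (XT.lf (nat_lit 0) (nat_lit 32664845807) (nat_lit 152) (nat_lit 626921297299) (nat_lit 228) (nat_lit 1026422447923) (nat_lit 46) (nat_lit 5) (nat_lit 48) (nat_lit 5) (nat_lit 49) (nat_lit 5) (nat_lit 489) (nat_lit 464) (nat_lit 247)) (XT.lf (nat_lit 0) (nat_lit 1121345150409) (nat_lit 228) (nat_lit 646446407743) (nat_lit 76) (nat_lit 2654903320) (nat_lit 46) (nat_lit 5) (nat_lit 49) (nat_lit 5) (nat_lit 47) (nat_lit 4) (nat_lit 490) (nat_lit 464) (nat_lit 246)))))) (XT.nd (nat_lit 468) (nat_lit 456) (nat_lit 0) (XT.nd (nat_lit 234) (nat_lit 228) (nat_lit 0) (XT.nd (nat_lit 78) (nat_lit 228) (nat_lit 0) (XT.lf (nat_lit 0) (nat_lit 447083989636) (nat_lit 76) (nat_lit 1199996934230) (nat_lit 152) (nat_lit 212395554039) (nat_lit 45) (nat_lit 5) (nat_lit 46) (nat_lit 5) (nat_lit 47) (nat_lit 4) (nat_lit 491) (nat_lit 464) (nat_lit 245)) (XT.nd (nat_lit 78) (nat_lit 152) (nat_lit 0) (XT.lf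 (nat_lit 0) (nat_lit 264412171381) (nat_lit 152) (nat_lit 296048085708) (nat_lit 76) (nat_lit 1393219121414) (nat_lit 44) (nat_lit 5) (nat_lit 46) (nat_lit 5) (nat_lit 45) (nat_lit 5) (nat_lit 492) (nat_lit 464) (nat_lit 244)) (XT.lf (nat_lit 0) (nat_lit 794647967207) (nat_lit 228) (nat_lit 1105321443353) (nat_lit 76) (nat_lit 152867092852) (nat_lit 42) (nat_lit 5) (nat_lit 45) (nat_lit 5) (nat_lit 43) (nat_lit 4) (nat_lit 493) (nat_lit 464) (nat_lit 243)))) (XT.nd (nat_lit 78) (nat_lit 152) (nat_lit 0) (XT.lf (nat_lit 0) (nat_lit 140375628061) (nat_lit 76) (nat_lit 1253165165974) (nat_lit 152) (nat_lit 764286350893) (nat_lit 41) (nat_lit 5) (nat_lit 42) (nat_lit 5) (nat_lit 43) (nat_lit 4) (nat_lit 494) (nat_lit 464) (nat_lit 242)) (XT.nd (nat_lit 78) (nat_lit 152) (nat_lit 0) (XT.lf (nat_lit 0) (nat_lit 1548589066923) (nat_lit 76) (nat_lit 521977422606) (nat_lit 152) (nat_lit 198232832835)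 (nat_lit 41) (nat_lit 5) (nat_lit 42) (nat_lit 5) (nat_lit 43) (nat_lit 4) (nat_lit 495) (nat_lit 464) (nat_lit 241)) (XT.lf (nat_lit 0) (nat_lit 416561483017) (nat_lit 152) (nat_lit 1687431039850) (nat_lit 76) (nat_lit 281932200387) (nat_lit 39) (nat_lit 5) (nat_lit 41) (nat_lit 5) (nat_lit 40) (nat_lit 4) (nat_lit 496) (nat_lit 464) (nat_lit 240))))) (XT.nd (nat_lit 234) (nat_lit 304) (nat_lit 0) (XT.nd (nat_lit 78) (nat_lit 152) (nat_lit 0) (XT.lf (nat_lit 0) (nat_lit 1103590773809) (nat_lit 152) (nat_lit 258410121169) (nat_lit 76) (nat_lit 1147306456736) (nat_lit 39) (nat_lit 5) (nat_lit 41) (nat_lit 5) (nat_lit 40) (nat_lit 4) (nat_lit 497) (nat_lit 464) (nat_lit 239)) (XT.nd (nat_lit 78) (nat_lit 76) (nat_lit 0) (XT.lf (nat_lit 0) (nat_lit 1352594730203) (nat_lit 76) (nat_lit 525517609510) (nat_lit 152) (nat_lit 761845856188) (nat_lit 38) (nat_lit 5) (nat_lit 39) (nat_lit 5) (nat_lit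 40) (nat_lit 4) (nat_lit 498) (nat_lit 464) (nat_lit 238)) (XT.lf (nat_lit 0) (nat_lit 334122621224) (nat_lit 76) (nat_lit 2404845697576) (nat_lit 76) (nat_lit 40142973792) (nat_lit 37) (nat_lit 4) (nat_lit 38) (nat_lit 5) (nat_lit 38) (nat_lit 4) (nat_lit 499) (nat_lit 464) (nat_lit 237)))) (XT.nd (nat_lit 156) (nat_lit 152) (nat_lit 0) (XT.nd (nat_lit 78) (nat_lit 76) (nat_lit 0) (XT.lf (nat_lit 0) (nat_lit 752076409370) (nat_lit 152) (nat_lit 800383796824) (nat_lit 76) (nat_lit 1371532995051) (nat_lit 36) (nat_lit 5) (nat_lit 38) (nat_lit 5) (nat_lit 37) (nat_lit 4) (nat_lit 500) (nat_lit 464) (nat_lit 236)) (XT.lf (nat_lit 0) (nat_lit 1026075224633) (nat_lit 76) (nat_lit 604106485532) (nat_lit 152) (nat_lit 1448226368036) (nat_lit 35) (nat_lit 5) (nat_lit 36) (nat_lit 5) (nat_lit 37) (nat_lit 4) (nat_lit 501) (nat_lit 464) (nat_lit 235))) (XT.nd (nat_lit 78) (nat_lit 152) (nat_lit 0)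 (XT.lf (nat_lit 0) (nat_lit 2611091544823) (nat_lit 152) (nat_lit 209928137620) (nat_lit 0) (nat_lit 421551974086) (nat_lit 35) (nat_lit 5) (nat_lit 37) (nat_lit 4) (nat_lit 35) (nat_lit 4) (nat_lit 502) (nat_lit 464) (nat_lit 234)) (XT.lf (nat_lit 0) (nat_lit 299990962281) (nat_lit 152) (nat_lit 1565558372523) (nat_lit 76) (nat_lit 1548883105273) (nat_lit 33) (nat_lit 5) (nat_lit 35) (nat_lit 5) (nat_lit 34) (nat_lit 4) (nat_lit 503) (nat_lit 464) (nat_lit 233))))))))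
noncomputable def xc222 : XT := (XT.nd (nat_lit 59436) (nat_lit 0) (nat_lit 2584) (XT.nd (nat_lit 936) (nat_lit 684) (nat_lit 0) (XT.nd (nat_lit 468) (nat_lit 380) (nat_lit 0) (XT.nd (nat_lit 234) (nat_lit 228) (nat_lit 0) (XT.nd (nat_lit 78) (nat_lit 76) (nat_lit 0) (XT.lf (nat_lit 0) (nat_lit 492838975121) (nat_lit 76) (nat_lit 796766098087) (nat_lit 152) (nat_lit 2307705512304) (nat_lit 32) (nat_lit 5) (nat_lit 33) (nat_lit 5) (nat_lit 34) (nat_lit 4) (nat_lit 504) (nat_lit 464) (nat_lit 232)) (XT.nd (nat_lit 78) (nat_lit 76) (nat_lit 0) (XT.lf (nat_lit 0) (nat_lit 2410903631620) (nat_lit 152) (nat_lit 996161956823) (nat_lit 0) (nat_lit 383552168650) (nat_lit 32) (nat_lit 5) (nat_lit 34) (nat_lit 4) (nat_lit 32) (nat_lit 4) (nat_lit 505) (nat_lit 464) (nat_lit 231)) (XT.lf (nat_lit 0) (nat_lit 1326472780566) (nat_lit 76) (nat_lit 2348030216724) (nat_lit 76) (nat_lit 320678751304) (nat_lit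 31) (nat_lit 4) (nat_lit 32) (nat_lit 5) (nat_lit 32) (nat_lit 4) (nat_lit 506) (nat_lit 464) (nat_lit 230)))) (XT.nd (nat_lit 78) (nat_lit 152) (nat_lit 0) (XT.lf (nat_lit 0) (nat_lit 809849965533) (nat_lit 152) (nat_lit 342863539376) (nat_lit 76) (nat_lit 3059578205619) (nat_lit 30) (nat_lit 5) (nat_lit 32) (nat_lit 5) (nat_lit 31) (nat_lit 4) (nat_lit 507) (nat_lit 464) (nat_lit 229)) (XT.nd (nat_lit 78) (nat_lit 76) (nat_lit 0) (XT.lf (nat_lit 0) (nat_lit 2073159343308) (nat_lit 152) (nat_lit 2172189656542) (nat_lit 0) (nat_lit 195982056470) (nat_lit 29) (nat_lit 5) (nat_lit 31) (nat_lit 4) (nat_lit 29) (nat_lit 4) (nat_lit 508) (nat_lit 464) (nat_lit 228)) (XT.lf (nat_lit 0) (nat_lit 412092525006) (nat_lit 76) (nat_lit 3074910379381) (nat_lit 76) (nat_lit 1197733090744) (nat_lit 28) (nat_lit 4) (nat_lit 29) (nat_lit 5) (nat_lit 29) (nat_lit 4) (nat_lit 509) (nat_lit 464) (nat_lit 227)))))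 (XT.nd (nat_lit 234) (nat_lit 228) (nat_lit 0) (XT.nd (nat_lit 78) (nat_lit 76) (nat_lit 0) (XT.lf (nat_lit 0) (nat_lit 123956143390) (nat_lit 152) (nat_lit 1619348512051) (nat_lit 76) (nat_lit 3199306302230) (nat_lit 27) (nat_lit 5) (nat_lit 29) (nat_lit 5) (nat_lit 28) (nat_lit 4) (nat_lit 510) (nat_lit 464) (nat_lit 226)) (XT.nd (nat_lit 78) (nat_lit 0) (nat_lit 0) (XT.lf (nat_lit 0) (nat_lit 1279085104449) (nat_lit 76) (nat_lit 238348739923) (nat_lit 152) (nat_lit 3698732314813) (nat_lit 26) (nat_lit 5) (nat_lit 27) (nat_lit 5) (nat_lit 28) (nat_lit 4) (nat_lit 511) (nat_lit 464) (nat_lit 225)) (XT.lf (nat_lit 0) (nat_lit 3101173110339) (nat_lit 152) (nat_lit 1041084011632) (nat_lit 0) (nat_lit 1363045986936) (nat_lit 26) (nat_lit 5) (nat_lit 28) (nat_lit 4) (nat_lit 26) (nat_lit 4) (nat_lit 512) (nat_lit 464) (nat_lit 224)))) (XT.nd (nat_lit 78) (nat_lit 152) (nat_lit 0) (XT.lf (nat_lit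 0) (nat_lit 2189952191857) (nat_lit 76) (nat_lit 2680518602614) (nat_lit 76) (nat_lit 942391477986) (nat_lit 25) (nat_lit 4) (nat_lit 26) (nat_lit 5) (nat_lit 26) (nat_lit 4) (nat_lit 513) (nat_lit 464) (nat_lit 223)) (XT.nd (nat_lit 78) (nat_lit 76) (nat_lit 0) (XT.lf (nat_lit 0) (nat_lit 633660947594) (nat_lit 152) (nat_lit 420112354764) (nat_lit 76) (nat_lit 5087692296424) (nat_lit 24) (nat_lit 5) (nat_lit 26) (nat_lit 5) (nat_lit 25) (nat_lit 4) (nat_lit 514) (nat_lit 464) (nat_lit 222)) (XT.lf (nat_lit 0) (nat_lit 2380726504996) (nat_lit 152) (nat_lit 3334655530011) (nat_lit 0) (nat_lit 771349535726) (nat_lit 23) (nat_lit 5) (nat_lit 25) (nat_lit 4) (nat_lit 23) (nat_lit 4) (nat_lit 515) (nat_lit 464) (nat_lit 221)))))) (XT.nd (nat_lit 468) (nat_lit 380) (nat_lit 0) (XT.nd (nat_lit 234) (nat_lit 76) (nat_lit 0) (XT.nd (nat_lit 78) (nat_lit 152) (nat_lit 0) (XT.lf (nat_lit 0) (nat_lit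 155333074930) (nat_lit 76) (nat_lit 4155115699155) (nat_lit 76) (nat_lit 2545738728985) (nat_lit 22) (nat_lit 4) (nat_lit 23) (nat_lit 5) (nat_lit 23) (nat_lit 4) (nat_lit 516) (nat_lit 464) (nat_lit 220)) (XT.nd (nat_lit 78) (nat_lit 152) (nat_lit 0) (XT.lf (nat_lit 0) (nat_lit 4114165578767) (nat_lit 76) (nat_lit 2371558635533) (nat_lit 76) (nat_lit 762181664529) (nat_lit 22) (nat_lit 4) (nat_lit 23) (nat_lit 5) (nat_lit 23) (nat_lit 4) (nat_lit 517) (nat_lit 464) (nat_lit 219)) (XT.lf (nat_lit 0) (nat_lit 727120811932) (nat_lit 76) (nat_lit 396195430234) (nat_lit 152) (nat_lit 6544006847188) (nat_lit 20) (nat_lit 5) (nat_lit 21) (nat_lit 5) (nat_lit 22) (nat_lit 4) (nat_lit 518) (nat_lit 464) (nat_lit 218)))) (XT.nd (nat_lit 78) (nat_lit 76) (nat_lit 0) (XT.lf (nat_lit 0) (nat_lit 3248163518273) (nat_lit 152) (nat_lit 3102171777991) (nat_lit 0) (nat_lit 1757999654856) (nat_lit 20) (nat_lit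 5) (nat_lit 22) (nat_lit 4) (nat_lit 20) (nat_lit 4) (nat_lit 519) (nat_lit 464) (nat_lit 217)) (XT.nd (nat_lit 78) (nat_lit 0) (nat_lit 0) (XT.lf (nat_lit 0) (nat_lit 1086985799247) (nat_lit 76) (nat_lit 4492445600377) (nat_lit 76) (nat_lit 3002281736348) (nat_lit 19) (nat_lit 4) (nat_lit 20) (nat_lit 5) (nat_lit 20) (nat_lit 4) (nat_lit 520) (nat_lit 464) (nat_lit 216)) (XT.lf (nat_lit 0) (nat_lit 5787699236787) (nat_lit 76) (nat_lit 2394320346827) (nat_lit 76) (nat_lit 904156482230) (nat_lit 19) (nat_lit 4) (nat_lit 20) (nat_lit 5) (nat_lit 20) (nat_lit 4) (nat_lit 521) (nat_lit 464) (nat_lit 215))))) (XT.nd (nat_lit 234) (nat_lit 152) (nat_lit 0) (XT.nd (nat_lit 78) (nat_lit 76) (nat_lit 0) (XT.lf (nat_lit 0) (nat_lit 1263949830599) (nat_lit 76) (nat_lit 60143292343) (nat_lit 152) (nat_lit 8301850923417) (nat_lit 17) (nat_lit 5) (nat_lit 18) (nat_lit 5) (nat_lit 19) (nat_lit 4) (nat_lit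 522) (nat_lit 464) (nat_lit 214)) (XT.nd (nat_lit 78) (nat_lit 76) (nat_lit 0) (XT.lf (nat_lit 0) (nat_lit 3833464988671) (nat_lit 152) (nat_lit 3907729260161) (nat_lit 0) (nat_lit 2453683631626) (nat_lit 17) (nat_lit 5) (nat_lit 19) (nat_lit 4) (nat_lit 17) (nat_lit 4) (nat_lit 523) (nat_lit 464) (nat_lit 213)) (XT.lf (nat_lit 0) (nat_lit 948776361392) (nat_lit 76) (nat_lit 5619190498431) (nat_lit 76) (nat_lit 4239409140969) (nat_lit 16) (nat_lit 4) (nat_lit 17) (nat_lit 5) (nat_lit 17) (nat_lit 4) (nat_lit 524) (nat_lit 464) (nat_lit 212)))) (XT.nd (nat_lit 156) (nat_lit 0) (nat_lit 0) (XT.nd (nat_lit 78) (nat_lit 152) (nat_lit 0) (XT.lf (nat_lit 0) (nat_lit 6416038455104) (nat_lit 76) (nat_lit 3212034667088) (nat_lit 76) (nat_lit 1832253309240) (nat_lit 16) (nat_lit 4) (nat_lit 17) (nat_lit 5) (nat_lit 17) (nat_lit 4) (nat_lit 525) (nat_lit 464) (nat_lit 211)) (XT.lf (nat_lit 0) (nat_lit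 143909774627) (nat_lit 76) (nat_lit 588634039234) (nat_lit 152) (nat_lit 11431215576739) (nat_lit 14) (nat_lit 5) (nat_lit 15) (nat_lit 5) (nat_lit 16) (nat_lit 4) (nat_lit 526) (nat_lit 464) (nat_lit 210))) (XT.nd (nat_lit 78) (nat_lit 0) (nat_lit 0) (XT.lf (nat_lit 0) (nat_lit 3599021153178) (nat_lit 152) (nat_lit 6983553875236) (nat_lit 0) (nat_lit 2321445821200) (nat_lit 14) (nat_lit 5) (nat_lit 16) (nat_lit 4) (nat_lit 14) (nat_lit 4) (nat_lit 527) (nat_lit 464) (nat_lit 209)) (XT.lf (nat_lit 0) (nat_lit 6710105874112) (nat_lit 152) (nat_lit 1559643673829) (nat_lit 0) (nat_lit 5432530541850) (nat_lit 14) (nat_lit 5) (nat_lit 16) (nat_lit 4) (nat_lit 14) (nat_lit 4) (nat_lit 528) (nat_lit 464) (nat_lit 208))))))) (XT.nd (nat_lit 936) (nat_lit 1520) (nat_lit 0) (XT.nd (nat_lit 468) (nat_lit 532) (nat_lit 0) (XT.nd (nat_lit 234) (nat_lit 456) (nat_lit 0) (XT.nd (nat_lit 78) (nat_lit 0)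 (nat_lit 0) (XT.lf (nat_lit 0) (nat_lit 292823105390) (nat_lit 532) (nat_lit 4635267706) (nat_lit 532) (nat_lit 4635267706) (nat_lit 81) (nat_lit 3) (nat_lit 88) (nat_lit 3) (nat_lit 88) (nat_lit 5) (nat_lit 465) (nat_lit 465) (nat_lit 270)) (XT.nd (nat_lit 78) (nat_lit 0) (nat_lit 0) (XT.lf (nat_lit 76) (nat_lit 305700602229) (nat_lit 0) (nat_lit 310723732835) (nat_lit 532) (nat_lit 11342255691) (nat_lit 82) (nat_lit 5) (nat_lit 81) (nat_lit 3) (nat_lit 88) (nat_lit 5) (nat_lit 466) (nat_lit 465) (nat_lit 269)) (XT.lf (nat_lit 76) (nat_lit 646396644831) (nat_lit 0) (nat_lit 3521520185) (nat_lit 532) (nat_lit 3293803168) (nat_lit 82) (nat_lit 5) (nat_lit 81) (nat_lit 3) (nat_lit 88) (nat_lit 5) (nat_lit 467) (nat_lit 465) (nat_lit 268)))) (XT.nd (nat_lit 78) (nat_lit 0) (nat_lit 0) (XT.lf (nat_lit 0) (nat_lit 21689412563) (nat_lit 532) (nat_lit 337035955101) (nat_lit 608) (nat_lit 320632345926)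 (nat_lit 75) (nat_lit 5) (nat_lit 82) (nat_lit 5) (nat_lit 83) (nat_lit 5) (nat_lit 468) (nat_lit 465) (nat_lit 267)) (XT.nd (nat_lit 78) (nat_lit 0) (nat_lit 76) (XT.lf (nat_lit 76) (nat_lit 12648022114) (nat_lit 0) (nat_lit 36432133732) (nat_lit 608) (nat_lit 658461172819) (nat_lit 76) (nat_lit 5) (nat_lit 75) (nat_lit 5) (nat_lit 83) (nat_lit 5) (nat_lit 469) (nat_lit 465) (nat_lit 266)) (XT.lf (nat_lit 0) (nat_lit 95611718622) (nat_lit 532) (nat_lit 335502595007) (nat_lit 608) (nat_lit 305509354521) (nat_lit 76) (nat_lit 5) (nat_lit 83) (nat_lit 5) (nat_lit 84) (nat_lit 5) (nat_lit 470) (nat_lit 465) (nat_lit 265))))) (XT.nd (nat_lit 234) (nat_lit 228) (nat_lit 0) (XT.nd (nat_lit 78) (nat_lit 380) (nat_lit 0) (XT.lf (nat_lit 76) (nat_lit 54415138937) (nat_lit 0) (nat_lit 93705628909) (nat_lit 608) (nat_lit 619731430036) (nat_lit 77) (nat_lit 5) (nat_lit 76) (nat_lit 5) (nat_lit 84)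 (nat_lit 5) (nat_lit 471) (nat_lit 465) (nat_lit 264)) (XT.nd (nat_lit 78) (nat_lit 456) (nat_lit 0) (XT.lf (nat_lit 0) (nat_lit 220752269286) (nat_lit 532) (nat_lit 312987046594) (nat_lit 76) (nat_lit 266565955851) (nat_lit 77) (nat_lit 5) (nat_lit 84) (nat_lit 5) (nat_lit 78) (nat_lit 5) (nat_lit 472) (nat_lit 465) (nat_lit 263)) (XT.lf (nat_lit 0) (nat_lit 123229481173) (nat_lit 456) (nat_lit 181362382611) (nat_lit 532) (nat_lit 530330921874) (nat_lit 71) (nat_lit 5) (nat_lit 77) (nat_lit 5) (nat_lit 78) (nat_lit 5) (nat_lit 473) (nat_lit 465) (nat_lit 262)))) (XT.nd (nat_lit 78) (nat_lit 228) (nat_lit 0) (XT.lf (nat_lit 0) (nat_lit 408709389289) (nat_lit 532) (nat_lit 264495074502) (nat_lit 76) (nat_lit 198019575832) (nat_lit 71) (nat_lit 5) (nat_lit 78) (nat_lit 5) (nat_lit 72) (nat_lit 5) (nat_lit 474) (nat_lit 465) (nat_lit 261)) (XT.nd (nat_lit 78) (nat_lit 0) (nat_lit 0) (XT.lf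 (nat_lit 0) (nat_lit 225024951452) (nat_lit 228) (nat_lit 306253922041) (nat_lit 304) (nat_lit 378340715885) (nat_lit 68) (nat_lit 5) (nat_lit 71) (nat_lit 5) (nat_lit 72) (nat_lit 5) (nat_lit 475) (nat_lit 465) (nat_lit 260)) (XT.lf (nat_lit 0) (nat_lit 673239277641) (nat_lit 304) (nat_lit 184113211092) (nat_lit 76) (nat_lit 92967465484) (nat_lit 68) (nat_lit 5) (nat_lit 72) (nat_lit 5) (nat_lit 69) (nat_lit 5) (nat_lit 476) (nat_lit 465) (nat_lit 259)))))) (XT.nd (nat_lit 468) (nat_lit 684) (nat_lit 0) (XT.nd (nat_lit 234) (nat_lit 380) (nat_lit 0) (XT.nd (nat_lit 78) (nat_lit 228) (nat_lit 0) (XT.lf (nat_lit 0) (nat_lit 366800940902) (nat_lit 228) (nat_lit 476531783110) (nat_lit 304) (nat_lit 149601527442) (nat_lit 65) (nat_lit 5) (nat_lit 68) (nat_lit 5) (nat_lit 69) (nat_lit 5) (nat_lit 477) (nat_lit 465) (nat_lit 258)) (XT.nd (nat_lit 78) (nat_lit 228) (nat_lit 0) (XT.lf (nat_lit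 0) (nat_lit 972258896494) (nat_lit 228) (nat_lit 59808722601) (nat_lit 304) (nat_lit 6487355537) (nat_lit 65) (nat_lit 5) (nat_lit 68) (nat_lit 5) (nat_lit 69) (nat_lit 5) (nat_lit 478) (nat_lit 465) (nat_lit 257)) (XT.lf (nat_lit 0) (nat_lit 164036706334) (nat_lit 228) (nat_lit 533360336443) (nat_lit 76) (nat_lit 388273965279) (nat_lit 62) (nat_lit 5) (nat_lit 65) (nat_lit 5) (nat_lit 63) (nat_lit 5) (nat_lit 479) (nat_lit 465) (nat_lit 256)))) (XT.nd (nat_lit 78) (nat_lit 152) (nat_lit 0) (XT.lf (nat_lit 0) (nat_lit 90524289717) (nat_lit 228) (nat_lit 262918228816) (nat_lit 304) (nat_lit 782653100516) (nat_lit 59) (nat_lit 5) (nat_lit 62) (nat_lit 5) (nat_lit 63) (nat_lit 5) (nat_lit 480) (nat_lit 465) (nat_lit 255)) (XT.nd (nat_lit 78) (nat_lit 152) (nat_lit 0) (XT.lf (nat_lit 0) (nat_lit 577924558994) (nat_lit 304) (nat_lit 400075960916) (nat_lit 76) (nat_lit 210959777953) (nat_lit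 59) (nat_lit 5) (nat_lit 63) (nat_lit 5) (nat_lit 60) (nat_lit 5) (nat_lit 481) (nat_lit 465) (nat_lit 254)) (XT.lf (nat_lit 0) (nat_lit 305512979075) (nat_lit 152) (nat_lit 529028816125) (nat_lit 228) (nat_lit 410378225179) (nat_lit 57) (nat_lit 5) (nat_lit 59) (nat_lit 5) (nat_lit 60) (nat_lit 5) (nat_lit 482) (nat_lit 465) (nat_lit 253))))) (XT.nd (nat_lit 234) (nat_lit 304) (nat_lit 0) (XT.nd (nat_lit 78) (nat_lit 380) (nat_lit 0) (XT.lf (nat_lit 0) (nat_lit 1090301699359) (nat_lit 152) (nat_lit 32325490110) (nat_lit 228) (nat_lit 181854228898) (nat_lit 57) (nat_lit 5) (nat_lit 59) (nat_lit 5) (nat_lit 60) (nat_lit 5) (nat_lit 483) (nat_lit 465) (nat_lit 252)) (XT.nd (nat_lit 78) (nat_lit 152) (nat_lit 0) (XT.lf (nat_lit 0) (nat_lit 88607419935) (nat_lit 228) (nat_lit 782683661361) (nat_lit 76) (nat_lit 495239289383) (nat_lit 54) (nat_lit 5) (nat_lit 57) (nat_lit 5) (nat_lit 55) (nat_lit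 5) (nat_lit 484) (nat_lit 465) (nat_lit 251)) (XT.lf (nat_lit 0) (nat_lit 20111944292) (nat_lit 152) (nat_lit 358100672668) (nat_lit 228) (nat_lit 1054366225849) (nat_lit 52) (nat_lit 5) (nat_lit 54) (nat_lit 5) (nat_lit 55) (nat_lit 5) (nat_lit 485) (nat_lit 465) (nat_lit 250)))) (XT.nd (nat_lit 156) (nat_lit 152) (nat_lit 0) (XT.nd (nat_lit 78) (nat_lit 152) (nat_lit 0) (XT.lf (nat_lit 0) (nat_lit 717659316452) (nat_lit 228) (nat_lit 575829227892) (nat_lit 76) (nat_lit 208288801431) (nat_lit 52) (nat_lit 5) (nat_lit 55) (nat_lit 5) (nat_lit 53) (nat_lit 5) (nat_lit 486) (nat_lit 465) (nat_lit 249)) (XT.lf (nat_lit 0) (nat_lit 335206519289) (nat_lit 152) (nat_lit 766418268156) (nat_lit 228) (nat_lit 473497898690) (nat_lit 50) (nat_lit 5) (nat_lit 52) (nat_lit 5) (nat_lit 53) (nat_lit 5) (nat_lit 487) (nat_lit 465) (nat_lit 248))) (XT.nd (nat_lit 78) (nat_lit 152) (nat_lit 0) (XT.lf (nat_lit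 0) (nat_lit 1351873036271) (nat_lit 152) (nat_lit 180178646117) (nat_lit 228) (nat_lit 121024436435) (nat_lit 50) (nat_lit 5) (nat_lit 52) (nat_lit 5) (nat_lit 53) (nat_lit 5) (nat_lit 488) (nat_lit 465) (nat_lit 247)) (XT.lf (nat_lit 0) (nat_lit 276061284234) (nat_lit 152) (nat_lit 1003297713202) (nat_lit 76) (nat_lit 455055029863) (nat_lit 48) (nat_lit 5) (nat_lit 50) (nat_lit 5) (nat_lit 49) (nat_lit 5) (nat_lit 489) (nat_lit 465) (nat_lit 246))))))))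
noncomputable def xc223 : XT := (XT.nd (nat_lit 1950) (nat_lit 836) (nat_lit 0) (XT.nd (nat_lit 936) (nat_lit 836) (nat_lit 0) (XT.nd (nat_lit 468) (nat_lit 380) (nat_lit 0) (XT.nd (nat_lit 234) (nat_lit 304) (nat_lit 0) (XT.nd (nat_lit 78) (nat_lit 76) (nat_lit 0) (XT.lf (nat_lit 0) (nat_lit 35278200777) (nat_lit 152) (nat_lit 677074933454) (nat_lit 228) (nat_lit 1108536136096) (nat_lit 46) (nat_lit 5) (nat_lit 48) (nat_lit 5) (nat_lit 49) (nat_lit 5) (nat_lit 490) (nat_lit 465) (nat_lit 245)) (XT.nd (nat_lit 78) (nat_lit 76) (nat_lit 0) (XT.lf (nat_lit 0) (nat_lit 1211052856241) (nat_lit 228) (nat_lit 698161959562) (nat_lit 76) (nat_lit 2867355073) (nat_lit 46) (nat_lit 5) (nat_lit 49) (nat_lit 5) (nat_lit 47) (nat_lit 4) (nat_lit 491) (nat_lit 465) (nat_lit 244)) (XT.lf (nat_lit 0) (nat_lit 482850865537) (nat_lit 76) (nat_lit 1295996622859) (nat_lit 152) (nat_lit 229387100483) (nat_lit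 45) (nat_lit 5) (nat_lit 46) (nat_lit 5) (nat_lit 47) (nat_lit 4) (nat_lit 492) (nat_lit 465) (nat_lit 243)))) (XT.nd (nat_lit 78) (nat_lit 228) (nat_lit 0) (XT.lf (nat_lit 0) (nat_lit 285565231187) (nat_lit 152) (nat_lit 319731782902) (nat_lit 76) (nat_lit 1504676707798) (nat_lit 44) (nat_lit 5) (nat_lit 46) (nat_lit 5) (nat_lit 45) (nat_lit 5) (nat_lit 493) (nat_lit 465) (nat_lit 242)) (XT.nd (nat_lit 78) (nat_lit 76) (nat_lit 0) (XT.lf (nat_lit 0) (nat_lit 858219889316) (nat_lit 228) (nat_lit 1193747007790) (nat_lit 76) (nat_lit 165096519793) (nat_lit 42) (nat_lit 5) (nat_lit 45) (nat_lit 5) (nat_lit 43) (nat_lit 4) (nat_lit 494) (nat_lit 465) (nat_lit 241)) (XT.lf (nat_lit 0) (nat_lit 151605825514) (nat_lit 76) (nat_lit 1353418314040) (nat_lit 152) (nat_lit 825429170402) (nat_lit 41) (nat_lit 5) (nat_lit 42) (nat_lit 5) (nat_lit 43) (nat_lit 4) (nat_lit 495) (nat_lit 465) (nat_lit 240)))))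 (XT.nd (nat_lit 234) (nat_lit 228) (nat_lit 0) (XT.nd (nat_lit 78) (nat_lit 152) (nat_lit 0) (XT.lf (nat_lit 0) (nat_lit 1672476328580) (nat_lit 76) (nat_lit 563735556034) (nat_lit 152) (nat_lit 214091377459) (nat_lit 41) (nat_lit 5) (nat_lit 42) (nat_lit 5) (nat_lit 43) (nat_lit 4) (nat_lit 496) (nat_lit 465) (nat_lit 239)) (XT.nd (nat_lit 78) (nat_lit 0) (nat_lit 0) (XT.lf (nat_lit 0) (nat_lit 449886478558) (nat_lit 152) (nat_lit 1822425381619) (nat_lit 76) (nat_lit 304486834780) (nat_lit 39) (nat_lit 5) (nat_lit 41) (nat_lit 5) (nat_lit 40) (nat_lit 4) (nat_lit 497) (nat_lit 465) (nat_lit 238)) (XT.lf (nat_lit 0) (nat_lit 1191878106917) (nat_lit 152) (nat_lit 279082799919) (nat_lit 76) (nat_lit 1239091027314) (nat_lit 39) (nat_lit 5) (nat_lit 41) (nat_lit 5) (nat_lit 40) (nat_lit 4) (nat_lit 498) (nat_lit 465) (nat_lit 237)))) (XT.nd (nat_lit 78) (nat_lit 152) (nat_lit 0) (XT.lf (nat_lit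 0) (nat_lit 1460802436248) (nat_lit 76) (nat_lit 567558959641) (nat_lit 152) (nat_lit 822793450161) (nat_lit 38) (nat_lit 5) (nat_lit 39) (nat_lit 5) (nat_lit 40) (nat_lit 4) (nat_lit 499) (nat_lit 465) (nat_lit 236)) (XT.nd (nat_lit 78) (nat_lit 76) (nat_lit 0) (XT.lf (nat_lit 0) (nat_lit 360852559329) (nat_lit 76) (nat_lit 2597233293256) (nat_lit 76) (nat_lit 43354337947) (nat_lit 37) (nat_lit 4) (nat_lit 38) (nat_lit 5) (nat_lit 38) (nat_lit 4) (nat_lit 500) (nat_lit 465) (nat_lit 235)) (XT.lf (nat_lit 0) (nat_lit 812242586989) (nat_lit 152) (nat_lit 864414378254) (nat_lit 76) (nat_lit 1481255686908) (nat_lit 36) (nat_lit 5) (nat_lit 38) (nat_lit 5) (nat_lit 37) (nat_lit 4) (nat_lit 501) (nat_lit 465) (nat_lit 234)))))) (XT.nd (nat_lit 468) (nat_lit 456) (nat_lit 0) (XT.nd (nat_lit 234) (nat_lit 152) (nat_lit 0) (XT.nd (nat_lit 78) (nat_lit 152) (nat_lit 0) (XT.lf (nat_lit 0) (nat_lit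 1108161361823) (nat_lit 76) (nat_lit 652434948087) (nat_lit 152) (nat_lit 1564084409509) (nat_lit 35) (nat_lit 5) (nat_lit 36) (nat_lit 5) (nat_lit 37) (nat_lit 4) (nat_lit 502) (nat_lit 465) (nat_lit 233)) (XT.nd (nat_lit 78) (nat_lit 152) (nat_lit 0) (XT.lf (nat_lit 0) (nat_lit 2819978927933) (nat_lit 152) (nat_lit 226722274830) (nat_lit 0) (nat_lit 455276181523) (nat_lit 35) (nat_lit 5) (nat_lit 37) (nat_lit 4) (nat_lit 35) (nat_lit 4) (nat_lit 503) (nat_lit 465) (nat_lit 232)) (XT.lf (nat_lit 0) (nat_lit 323990298549) (nat_lit 152) (nat_lit 1690802928282) (nat_lit 76) (nat_lit 1672793803707) (nat_lit 33) (nat_lit 5) (nat_lit 35) (nat_lit 5) (nat_lit 34) (nat_lit 4) (nat_lit 504) (nat_lit 465) (nat_lit 231)))) (XT.nd (nat_lit 78) (nat_lit 76) (nat_lit 0) (XT.lf (nat_lit 0) (nat_lit 532266204287) (nat_lit 76) (nat_lit 860507332345) (nat_lit 152) (nat_lit 2492321891113) (nat_lit 32) (nat_lit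 5) (nat_lit 33) (nat_lit 5) (nat_lit 34) (nat_lit 4) (nat_lit 505) (nat_lit 465) (nat_lit 230)) (XT.nd (nat_lit 78) (nat_lit 76) (nat_lit 0) (XT.lf (nat_lit 0) (nat_lit 2603775976647) (nat_lit 152) (nat_lit 1075854807373) (nat_lit 0) (nat_lit 414236389279) (nat_lit 32) (nat_lit 5) (nat_lit 34) (nat_lit 4) (nat_lit 32) (nat_lit 4) (nat_lit 506) (nat_lit 465) (nat_lit 229)) (XT.lf (nat_lit 0) (nat_lit 1432590706323) (nat_lit 76) (nat_lit 2535872583694) (nat_lit 76) (nat_lit 346332994227) (nat_lit 31) (nat_lit 4) (nat_lit 32) (nat_lit 5) (nat_lit 32) (nat_lit 4) (nat_lit 507) (nat_lit 465) (nat_lit 228))))) (XT.nd (nat_lit 234) (nat_lit 228) (nat_lit 0) (XT.nd (nat_lit 78) (nat_lit 152) (nat_lit 0) (XT.lf (nat_lit 0) (nat_lit 874638013073) (nat_lit 152) (nat_lit 370292524216) (nat_lit 76) (nat_lit 3304344506055) (nat_lit 30) (nat_lit 5) (nat_lit 32) (nat_lit 5) (nat_lit 31) (nat_lit 4) (nat_lit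 508) (nat_lit 465) (nat_lit 227)) (XT.nd (nat_lit 78) (nat_lit 76) (nat_lit 0) (XT.lf (nat_lit 0) (nat_lit 2239012140779) (nat_lit 152) (nat_lit 2345964730462) (nat_lit 0) (nat_lit 211660665584) (nat_lit 29) (nat_lit 5) (nat_lit 31) (nat_lit 4) (nat_lit 29) (nat_lit 4) (nat_lit 509) (nat_lit 465) (nat_lit 226)) (XT.lf (nat_lit 0) (nat_lit 445060023114) (nat_lit 76) (nat_lit 3320903162237) (nat_lit 76) (nat_lit 1293551685500) (nat_lit 28) (nat_lit 4) (nat_lit 29) (nat_lit 5) (nat_lit 29) (nat_lit 4) (nat_lit 510) (nat_lit 465) (nat_lit 225)))) (XT.nd (nat_lit 156) (nat_lit 76) (nat_lit 0) (XT.nd (nat_lit 78) (nat_lit 76) (nat_lit 0) (XT.lf (nat_lit 0) (nat_lit 133872681044) (nat_lit 152) (nat_lit 1748896301593) (nat_lit 76) (nat_lit 3455250847952) (nat_lit 27) (nat_lit 5) (nat_lit 29) (nat_lit 5) (nat_lit 28) (nat_lit 4) (nat_lit 511) (nat_lit 465) (nat_lit 224)) (XT.lf (nat_lit 0) (nat_lit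 1381412001912) (nat_lit 76) (nat_lit 257416594914) (nat_lit 152) (nat_lit 3994630851500) (nat_lit 26) (nat_lit 5) (nat_lit 27) (nat_lit 5) (nat_lit 28) (nat_lit 4) (nat_lit 512) (nat_lit 465) (nat_lit 223))) (XT.nd (nat_lit 78) (nat_lit 76) (nat_lit 0) (XT.lf (nat_lit 0) (nat_lit 3349267001729) (nat_lit 152) (nat_lit 1124370647713) (nat_lit 0) (nat_lit 1472089704772) (nat_lit 26) (nat_lit 5) (nat_lit 28) (nat_lit 4) (nat_lit 26) (nat_lit 4) (nat_lit 513) (nat_lit 465) (nat_lit 222)) (XT.lf (nat_lit 0) (nat_lit 2365148449907) (nat_lit 76) (nat_lit 2894960049520) (nat_lit 76) (nat_lit 1017782751513) (nat_lit 25) (nat_lit 4) (nat_lit 26) (nat_lit 5) (nat_lit 26) (nat_lit 4) (nat_lit 514) (nat_lit 465) (nat_lit 221))))))) (XT.nd (nat_lit 58656) (nat_lit 0) (nat_lit 3876) (XT.nd (nat_lit 468) (nat_lit 456) (nat_lit 0) (XT.nd (nat_lit 234) (nat_lit 152) (nat_lit 0) (XT.nd (nat_lit 78) (nat_lit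 152) (nat_lit 0) (XT.lf (nat_lit 0) (nat_lit 684353862730) (nat_lit 152) (nat_lit 453721264498) (nat_lit 76) (nat_lit 5494707716309) (nat_lit 24) (nat_lit 5) (nat_lit 26) (nat_lit 5) (nat_lit 25) (nat_lit 4) (nat_lit 515) (nat_lit 465) (nat_lit 220)) (XT.nd (nat_lit 78) (nat_lit 76) (nat_lit 0) (XT.lf (nat_lit 0) (nat_lit 2571184664578) (nat_lit 152) (nat_lit 3601427893617) (nat_lit 0) (nat_lit 833057535060) (nat_lit 23) (nat_lit 5) (nat_lit 25) (nat_lit 4) (nat_lit 23) (nat_lit 4) (nat_lit 516) (nat_lit 465) (nat_lit 219)) (XT.lf (nat_lit 0) (nat_lit 167759797725) (nat_lit 76) (nat_lit 4487524916415) (nat_lit 76) (nat_lit 2749397786126) (nat_lit 22) (nat_lit 4) (nat_lit 23) (nat_lit 5) (nat_lit 23) (nat_lit 4) (nat_lit 517) (nat_lit 465) (nat_lit 218)))) (XT.nd (nat_lit 78) (nat_lit 152) (nat_lit 0) (XT.lf (nat_lit 0) (nat_lit 4443298896179) (nat_lit 76) (nat_lit 2561283290568) (nat_lit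 76) (nat_lit 823156159564) (nat_lit 22) (nat_lit 4) (nat_lit 23) (nat_lit 5) (nat_lit 23) (nat_lit 4) (nat_lit 518) (nat_lit 465) (nat_lit 217)) (XT.nd (nat_lit 78) (nat_lit 0) (nat_lit 0) (XT.lf (nat_lit 0) (nat_lit 785290548057) (nat_lit 76) (nat_lit 427891028732) (nat_lit 152) (nat_lit 7067527356893) (nat_lit 20) (nat_lit 5) (nat_lit 21) (nat_lit 5) (nat_lit 22) (nat_lit 4) (nat_lit 519) (nat_lit 465) (nat_lit 216)) (XT.lf (nat_lit 0) (nat_lit 3508016633173) (nat_lit 152) (nat_lit 3350345452520) (nat_lit 0) (nat_lit 1898639658841) (nat_lit 20) (nat_lit 5) (nat_lit 22) (nat_lit 4) (nat_lit 20) (nat_lit 4) (nat_lit 520) (nat_lit 465) (nat_lit 215))))) (XT.nd (nat_lit 234) (nat_lit 228) (nat_lit 0) (XT.nd (nat_lit 78) (nat_lit 152) (nat_lit 0) (XT.lf (nat_lit 0) (nat_lit 1173944729183) (nat_lit 76) (nat_lit 4851841214960) (nat_lit 76) (nat_lit 3242464240103) (nat_lit 19) (nat_lit 4) (nat_lit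 20) (nat_lit 5) (nat_lit 20) (nat_lit 4) (nat_lit 521) (nat_lit 465) (nat_lit 214)) (XT.nd (nat_lit 78) (nat_lit 152) (nat_lit 0) (XT.lf (nat_lit 0) (nat_lit 6250715236837) (nat_lit 76) (nat_lit 2585865943603) (nat_lit 76) (nat_lit 976488968260) (nat_lit 19) (nat_lit 4) (nat_lit 20) (nat_lit 5) (nat_lit 20) (nat_lit 4) (nat_lit 522) (nat_lit 465) (nat_lit 213)) (XT.lf (nat_lit 0) (nat_lit 1365065878195) (nat_lit 76) (nat_lit 64954724684) (nat_lit 152) (nat_lit 8965998964781) (nat_lit 17) (nat_lit 5) (nat_lit 18) (nat_lit 5) (nat_lit 19) (nat_lit 4) (nat_lit 523) (nat_lit 465) (nat_lit 212)))) (XT.nd (nat_lit 156) (nat_lit 152) (nat_lit 0) (XT.nd (nat_lit 78) (nat_lit 76) (nat_lit 0) (XT.lf (nat_lit 0) (nat_lit 4140142216328) (nat_lit 152) (nat_lit 4220347542817) (nat_lit 0) (nat_lit 2649978349466) (nat_lit 17) (nat_lit 5) (nat_lit 19) (nat_lit 4) (nat_lit 17) (nat_lit 4) (nat_lit 524) (nat_lit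 465) (nat_lit 211)) (XT.lf (nat_lit 0) (nat_lit 1024678526989) (nat_lit 76) (nat_lit 6068725709431) (nat_lit 76) (nat_lit 4578561842212) (nat_lit 16) (nat_lit 4) (nat_lit 17) (nat_lit 5) (nat_lit 17) (nat_lit 4) (nat_lit 525) (nat_lit 465) (nat_lit 210))) (XT.nd (nat_lit 78) (nat_lit 152) (nat_lit 0) (XT.lf (nat_lit 0) (nat_lit 6929321583998) (nat_lit 76) (nat_lit 3468997413719) (nat_lit 76) (nat_lit 1978833546169) (nat_lit 16) (nat_lit 4) (nat_lit 17) (nat_lit 5) (nat_lit 17) (nat_lit 4) (nat_lit 526) (nat_lit 465) (nat_lit 209)) (XT.lf (nat_lit 0) (nat_lit 155422609111) (nat_lit 76) (nat_lit 635724735584) (nat_lit 152) (nat_lit 12345712795095) (nat_lit 14) (nat_lit 5) (nat_lit 15) (nat_lit 5) (nat_lit 16) (nat_lit 4) (nat_lit 527) (nat_lit 465) (nat_lit 208)))))) (XT.nd (nat_lit 468) (nat_lit 760) (nat_lit 0) (XT.nd (nat_lit 234) (nat_lit 456) (nat_lit 0) (XT.nd (nat_lit 78) (nat_lit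 0) (nat_lit 0) (XT.lf (nat_lit 0) (nat_lit 316249118774) (nat_lit 532) (nat_lit 5006000026) (nat_lit 532) (nat_lit 5006000026) (nat_lit 81) (nat_lit 3) (nat_lit 88) (nat_lit 3) (nat_lit 88) (nat_lit 5) (nat_lit 466) (nat_lit 466) (nat_lit 268)) (XT.nd (nat_lit 78) (nat_lit 0) (nat_lit 0) (XT.lf (nat_lit 76) (nat_lit 330156824089) (nat_lit 0) (nat_lit 335581767425) (nat_lit 532) (nat_lit 12249301649) (nat_lit 82) (nat_lit 5) (nat_lit 81) (nat_lit 3) (nat_lit 88) (nat_lit 5) (nat_lit 467) (nat_lit 466) (nat_lit 267)) (XT.lf (nat_lit 76) (nat_lit 698108537234) (nat_lit 0) (nat_lit 3803367692) (nat_lit 532) (nat_lit 3556997701) (nat_lit 82) (nat_lit 5) (nat_lit 81) (nat_lit 3) (nat_lit 88) (nat_lit 5) (nat_lit 468) (nat_lit 466) (nat_lit 266)))) (XT.nd (nat_lit 78) (nat_lit 0) (nat_lit 0) (XT.lf (nat_lit 0) (nat_lit 23424839618) (nat_lit 532) (nat_lit 363998634887) (nat_lit 608) (nat_lit 346282834183)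 (nat_lit 75) (nat_lit 5) (nat_lit 82) (nat_lit 5) (nat_lit 83) (nat_lit 5) (nat_lit 469) (nat_lit 466) (nat_lit 265)) (XT.nd (nat_lit 78) (nat_lit 0) (nat_lit 76) (XT.lf (nat_lit 76) (nat_lit 13660055527) (nat_lit 0) (nat_lit 39346771146) (nat_lit 608) (nat_lit 711137787557) (nat_lit 76) (nat_lit 5) (nat_lit 75) (nat_lit 5) (nat_lit 83) (nat_lit 5) (nat_lit 470) (nat_lit 466) (nat_lit 264)) (XT.lf (nat_lit 0) (nat_lit 103260893847) (nat_lit 532) (nat_lit 362342604481) (nat_lit 608) (nat_lit 329950044199) (nat_lit 76) (nat_lit 5) (nat_lit 83) (nat_lit 5) (nat_lit 84) (nat_lit 5) (nat_lit 471) (nat_lit 466) (nat_lit 263))))) (XT.nd (nat_lit 234) (nat_lit 456) (nat_lit 0) (XT.nd (nat_lit 78) (nat_lit 380) (nat_lit 0) (XT.lf (nat_lit 76) (nat_lit 58768543163) (nat_lit 0) (nat_lit 101202110880) (nat_lit 608) (nat_lit 669309701635) (nat_lit 77) (nat_lit 5) (nat_lit 76) (nat_lit 5) (nat_lit 84)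 (nat_lit 5) (nat_lit 472) (nat_lit 466) (nat_lit 262)) (XT.nd (nat_lit 78) (nat_lit 456) (nat_lit 0) (XT.lf (nat_lit 0) (nat_lit 238412658244) (nat_lit 532) (nat_lit 338025814113) (nat_lit 76) (nat_lit 287891204472) (nat_lit 77) (nat_lit 5) (nat_lit 84) (nat_lit 5) (nat_lit 78) (nat_lit 5) (nat_lit 473) (nat_lit 466) (nat_lit 261)) (XT.lf (nat_lit 0) (nat_lit 133088030908) (nat_lit 456) (nat_lit 195871378629) (nat_lit 532) (nat_lit 572757183197) (nat_lit 71) (nat_lit 5) (nat_lit 77) (nat_lit 5) (nat_lit 78) (nat_lit 5) (nat_lit 474) (nat_lit 466) (nat_lit 260)))) (XT.nd (nat_lit 156) (nat_lit 228) (nat_lit 0) (XT.nd (nat_lit 78) (nat_lit 228) (nat_lit 0) (XT.lf (nat_lit 0) (nat_lit 441406322396) (nat_lit 532) (nat_lit 285654488659) (nat_lit 76) (nat_lit 213861137141) (nat_lit 71) (nat_lit 5) (nat_lit 78) (nat_lit 5) (nat_lit 72) (nat_lit 5) (nat_lit 475) (nat_lit 466) (nat_lit 259)) (XT.lf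 (nat_lit 0) (nat_lit 243027134516) (nat_lit 228) (nat_lit 330754221837) (nat_lit 304) (nat_lit 408607786299) (nat_lit 68) (nat_lit 5) (nat_lit 71) (nat_lit 5) (nat_lit 72) (nat_lit 5) (nat_lit 476) (nat_lit 466) (nat_lit 258))) (XT.nd (nat_lit 78) (nat_lit 228) (nat_lit 0) (XT.lf (nat_lit 0) (nat_lit 727098580330) (nat_lit 304) (nat_lit 198842082343) (nat_lit 76) (nat_lit 100404875008) (nat_lit 68) (nat_lit 5) (nat_lit 72) (nat_lit 5) (nat_lit 69) (nat_lit 5) (nat_lit 477) (nat_lit 466) (nat_lit 257)) (XT.lf (nat_lit 0) (nat_lit 396145197112) (nat_lit 228) (nat_lit 514654297764) (nat_lit 304) (nat_lit 161569484427) (nat_lit 65) (nat_lit 5) (nat_lit 68) (nat_lit 5) (nat_lit 69) (nat_lit 5) (nat_lit 478) (nat_lit 466) (nat_lit 256))))))))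
noncomputable def xc224 : XT := (XT.nd (nat_lit 1950) (nat_lit 1444) (nat_lit 0) (XT.nd (nat_lit 936) (nat_lit 988) (nat_lit 0) (XT.nd (nat_lit 468) (nat_lit 684) (nat_lit 0) (XT.nd (nat_lit 234) (nat_lit 152) (nat_lit 0) (XT.nd (nat_lit 78) (nat_lit 456) (nat_lit 0) (XT.lf (nat_lit 0) (nat_lit 1050039775748) (nat_lit 228) (nat_lit 64593394488) (nat_lit 304) (nat_lit 7006191007) (nat_lit 65) (nat_lit 5) (nat_lit 68) (nat_lit 5) (nat_lit 69) (nat_lit 5) (nat_lit 479) (nat_lit 466) (nat_lit 255)) (XT.nd (nat_lit 78) (nat_lit 228) (nat_lit 0) (XT.lf (nat_lit 0) (nat_lit 177159782276) (nat_lit 228) (nat_lit 576028982233) (nat_lit 76) (nat_lit 419335913011) (nat_lit 62) (nat_lit 5) (nat_lit 65) (nat_lit 5) (nat_lit 63) (nat_lit 5) (nat_lit 480) (nat_lit 466) (nat_lit 254)) (XT.lf (nat_lit 0) (nat_lit 97766409434) (nat_lit 228) (nat_lit 283951643935) (nat_lit 304) (nat_lit 845265204513) (nat_lit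 59) (nat_lit 5) (nat_lit 62) (nat_lit 5) (nat_lit 63) (nat_lit 5) (nat_lit 481) (nat_lit 466) (nat_lit 253)))) (XT.nd (nat_lit 78) (nat_lit 152) (nat_lit 0) (XT.lf (nat_lit 0) (nat_lit 624158648150) (nat_lit 304) (nat_lit 432081865387) (nat_lit 76) (nat_lit 227836598177) (nat_lit 59) (nat_lit 5) (nat_lit 63) (nat_lit 5) (nat_lit 60) (nat_lit 5) (nat_lit 482) (nat_lit 466) (nat_lit 252)) (XT.nd (nat_lit 78) (nat_lit 0) (nat_lit 0) (XT.lf (nat_lit 0) (nat_lit 329954185438) (nat_lit 152) (nat_lit 571351072639) (nat_lit 228) (nat_lit 443208354372) (nat_lit 57) (nat_lit 5) (nat_lit 59) (nat_lit 5) (nat_lit 60) (nat_lit 5) (nat_lit 483) (nat_lit 466) (nat_lit 251)) (XT.lf (nat_lit 0) (nat_lit 1177525990897) (nat_lit 152) (nat_lit 34911484155) (nat_lit 228) (nat_lit 196402447930) (nat_lit 57) (nat_lit 5) (nat_lit 59) (nat_lit 5) (nat_lit 60) (nat_lit 5) (nat_lit 484) (nat_lit 466) (nat_lit 250)))))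 (XT.nd (nat_lit 234) (nat_lit 304) (nat_lit 0) (XT.nd (nat_lit 78) (nat_lit 152) (nat_lit 0) (XT.lf (nat_lit 0) (nat_lit 95696123409) (nat_lit 228) (nat_lit 845298189247) (nat_lit 76) (nat_lit 534858478870) (nat_lit 54) (nat_lit 5) (nat_lit 57) (nat_lit 5) (nat_lit 55) (nat_lit 5) (nat_lit 485) (nat_lit 466) (nat_lit 249)) (XT.nd (nat_lit 78) (nat_lit 0) (nat_lit 0) (XT.lf (nat_lit 0) (nat_lit 21721060681) (nat_lit 152) (nat_lit 386748671245) (nat_lit 228) (nat_lit 1138715409845) (nat_lit 52) (nat_lit 5) (nat_lit 54) (nat_lit 5) (nat_lit 55) (nat_lit 5) (nat_lit 486) (nat_lit 466) (nat_lit 248)) (XT.lf (nat_lit 0) (nat_lit 775072160784) (nat_lit 228) (nat_lit 621895410586) (nat_lit 76) (nat_lit 224951954132) (nat_lit 52) (nat_lit 5) (nat_lit 55) (nat_lit 5) (nat_lit 53) (nat_lit 5) (nat_lit 487) (nat_lit 466) (nat_lit 247)))) (XT.nd (nat_lit 78) (nat_lit 152) (nat_lit 0) (XT.lf (nat_lit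 0) (nat_lit 362023192432) (nat_lit 152) (nat_lit 827731673336) (nat_lit 228) (nat_lit 511377627619) (nat_lit 50) (nat_lit 5) (nat_lit 52) (nat_lit 5) (nat_lit 53) (nat_lit 5) (nat_lit 488) (nat_lit 466) (nat_lit 246)) (XT.nd (nat_lit 78) (nat_lit 152) (nat_lit 0) (XT.lf (nat_lit 0) (nat_lit 1460023019543) (nat_lit 152) (nat_lit 194592885702) (nat_lit 228) (nat_lit 130706296011) (nat_lit 50) (nat_lit 5) (nat_lit 52) (nat_lit 5) (nat_lit 53) (nat_lit 5) (nat_lit 489) (nat_lit 466) (nat_lit 245)) (XT.lf (nat_lit 0) (nat_lit 298146275540) (nat_lit 152) (nat_lit 1083561383095) (nat_lit 76) (nat_lit 491459483753) (nat_lit 48) (nat_lit 5) (nat_lit 50) (nat_lit 5) (nat_lit 49) (nat_lit 5) (nat_lit 490) (nat_lit 466) (nat_lit 244)))))) (XT.nd (nat_lit 468) (nat_lit 456) (nat_lit 0) (XT.nd (nat_lit 234) (nat_lit 304) (nat_lit 0) (XT.nd (nat_lit 78) (nat_lit 76) (nat_lit 0) (XT.lf (nat_lit 0) (nat_lit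 38100600277) (nat_lit 152) (nat_lit 731240870149) (nat_lit 228) (nat_lit 1197218934681) (nat_lit 46) (nat_lit 5) (nat_lit 48) (nat_lit 5) (nat_lit 49) (nat_lit 5) (nat_lit 491) (nat_lit 466) (nat_lit 243)) (XT.nd (nat_lit 78) (nat_lit 76) (nat_lit 0) (XT.lf (nat_lit 0) (nat_lit 1307937165158) (nat_lit 228) (nat_lit 754014778466) (nat_lit 76) (nat_lit 3096794480) (nat_lit 46) (nat_lit 5) (nat_lit 49) (nat_lit 5) (nat_lit 47) (nat_lit 4) (nat_lit 492) (nat_lit 466) (nat_lit 242)) (XT.lf (nat_lit 0) (nat_lit 521479069150) (nat_lit 76) (nat_lit 1399676296010) (nat_lit 152) (nat_lit 247737984606) (nat_lit 45) (nat_lit 5) (nat_lit 46) (nat_lit 5) (nat_lit 47) (nat_lit 4) (nat_lit 493) (nat_lit 466) (nat_lit 241)))) (XT.nd (nat_lit 78) (nat_lit 228) (nat_lit 0) (XT.lf (nat_lit 0) (nat_lit 308410523495) (nat_lit 152) (nat_lit 345310197224) (nat_lit 76) (nat_lit 1625050893007) (nat_lit 44) (nat_lit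 5) (nat_lit 46) (nat_lit 5) (nat_lit 45) (nat_lit 5) (nat_lit 494) (nat_lit 466) (nat_lit 240)) (XT.nd (nat_lit 78) (nat_lit 76) (nat_lit 0) (XT.lf (nat_lit 0) (nat_lit 926877553106) (nat_lit 228) (nat_lit 1289246638928) (nat_lit 76) (nat_lit 178304292399) (nat_lit 42) (nat_lit 5) (nat_lit 45) (nat_lit 5) (nat_lit 43) (nat_lit 4) (nat_lit 495) (nat_lit 466) (nat_lit 239)) (XT.lf (nat_lit 0) (nat_lit 163734417762) (nat_lit 76) (nat_lit 1461691723255) (nat_lit 152) (nat_lit 891463428105) (nat_lit 41) (nat_lit 5) (nat_lit 42) (nat_lit 5) (nat_lit 43) (nat_lit 4) (nat_lit 496) (nat_lit 466) (nat_lit 238))))) (XT.nd (nat_lit 234) (nat_lit 304) (nat_lit 0) (XT.nd (nat_lit 78) (nat_lit 152) (nat_lit 0) (XT.lf (nat_lit 0) (nat_lit 1806274551725) (nat_lit 76) (nat_lit 608834348750) (nat_lit 152) (nat_lit 231218617351) (nat_lit 41) (nat_lit 5) (nat_lit 42) (nat_lit 5) (nat_lit 43) (nat_lit 4) (nat_lit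 497) (nat_lit 466) (nat_lit 237)) (XT.nd (nat_lit 78) (nat_lit 0) (nat_lit 0) (XT.lf (nat_lit 0) (nat_lit 485877462772) (nat_lit 152) (nat_lit 1968219290905) (nat_lit 76) (nat_lit 328845831599) (nat_lit 39) (nat_lit 5) (nat_lit 41) (nat_lit 5) (nat_lit 40) (nat_lit 4) (nat_lit 498) (nat_lit 466) (nat_lit 236)) (XT.lf (nat_lit 0) (nat_lit 1287228416516) (nat_lit 152) (nat_lit 301409311650) (nat_lit 76) (nat_lit 1338218355828) (nat_lit 39) (nat_lit 5) (nat_lit 41) (nat_lit 5) (nat_lit 40) (nat_lit 4) (nat_lit 499) (nat_lit 466) (nat_lit 235)))) (XT.nd (nat_lit 156) (nat_lit 152) (nat_lit 0) (XT.nd (nat_lit 78) (nat_lit 76) (nat_lit 0) (XT.lf (nat_lit 0) (nat_lit 1577666740569) (nat_lit 76) (nat_lit 612963626146) (nat_lit 152) (nat_lit 888616862282) (nat_lit 38) (nat_lit 5) (nat_lit 39) (nat_lit 5) (nat_lit 40) (nat_lit 4) (nat_lit 500) (nat_lit 466) (nat_lit 234)) (XT.lf (nat_lit 0) (nat_lit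 389720874165) (nat_lit 76) (nat_lit 2805011905168) (nat_lit 76) (nat_lit 46822621756) (nat_lit 37) (nat_lit 4) (nat_lit 38) (nat_lit 5) (nat_lit 38) (nat_lit 4) (nat_lit 501) (nat_lit 466) (nat_lit 233))) (XT.nd (nat_lit 78) (nat_lit 76) (nat_lit 0) (XT.lf (nat_lit 0) (nat_lit 877222049564) (nat_lit 152) (nat_lit 933567423649) (nat_lit 76) (nat_lit 1599756186659) (nat_lit 36) (nat_lit 5) (nat_lit 38) (nat_lit 5) (nat_lit 37) (nat_lit 4) (nat_lit 502) (nat_lit 466) (nat_lit 232)) (XT.lf (nat_lit 0) (nat_lit 1196814372980) (nat_lit 76) (nat_lit 704629695676) (nat_lit 152) (nat_lit 1689211103997) (nat_lit 35) (nat_lit 5) (nat_lit 36) (nat_lit 5) (nat_lit 37) (nat_lit 4) (nat_lit 503) (nat_lit 466) (nat_lit 231))))))) (XT.nd (nat_lit 936) (nat_lit 684) (nat_lit 0) (XT.nd (nat_lit 468) (nat_lit 380) (nat_lit 0) (XT.nd (nat_lit 234) (nat_lit 152) (nat_lit 0) (XT.nd (nat_lit 78) (nat_lit 228)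 (nat_lit 0) (XT.lf (nat_lit 0) (nat_lit 3045577293199) (nat_lit 152) (nat_lit 244859959252) (nat_lit 0) (nat_lit 491698318493) (nat_lit 35) (nat_lit 5) (nat_lit 37) (nat_lit 4) (nat_lit 35) (nat_lit 4) (nat_lit 504) (nat_lit 466) (nat_lit 230)) (XT.nd (nat_lit 78) (nat_lit 76) (nat_lit 0) (XT.lf (nat_lit 0) (nat_lit 349909573260) (nat_lit 152) (nat_lit 1826067064771) (nat_lit 76) (nat_lit 1806617350880) (nat_lit 33) (nat_lit 5) (nat_lit 35) (nat_lit 5) (nat_lit 34) (nat_lit 4) (nat_lit 505) (nat_lit 466) (nat_lit 229)) (XT.lf (nat_lit 0) (nat_lit 574847595928) (nat_lit 76) (nat_lit 929347872989) (nat_lit 152) (nat_lit 2691707589097) (nat_lit 32) (nat_lit 5) (nat_lit 33) (nat_lit 5) (nat_lit 34) (nat_lit 4) (nat_lit 506) (nat_lit 466) (nat_lit 228)))) (XT.nd (nat_lit 78) (nat_lit 152) (nat_lit 0) (XT.lf (nat_lit 0) (nat_lit 2812078101500) (nat_lit 152) (nat_lit 1161923101089) (nat_lit 0)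 (nat_lit 447375340833) (nat_lit 32) (nat_lit 5) (nat_lit 34) (nat_lit 4) (nat_lit 32) (nat_lit 4) (nat_lit 507) (nat_lit 466) (nat_lit 227)) (XT.nd (nat_lit 78) (nat_lit 76) (nat_lit 0) (XT.lf (nat_lit 0) (nat_lit 1547198051403) (nat_lit 76) (nat_lit 2738742347207) (nat_lit 76) (nat_lit 374039584741) (nat_lit 31) (nat_lit 4) (nat_lit 32) (nat_lit 5) (nat_lit 32) (nat_lit 4) (nat_lit 508) (nat_lit 466) (nat_lit 226)) (XT.lf (nat_lit 0) (nat_lit 944609097242) (nat_lit 152) (nat_lit 399915841869) (nat_lit 76) (nat_lit 3568692104250) (nat_lit 30) (nat_lit 5) (nat_lit 32) (nat_lit 5) (nat_lit 31) (nat_lit 4) (nat_lit 509) (nat_lit 466) (nat_lit 225))))) (XT.nd (nat_lit 234) (nat_lit 152) (nat_lit 0) (XT.nd (nat_lit 78) (nat_lit 152) (nat_lit 0) (XT.lf (nat_lit 0) (nat_lit 2418133154913) (nat_lit 152) (nat_lit 2533641824362) (nat_lit 0) (nat_lit 228593557065) (nat_lit 29) (nat_lit 5) (nat_lit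 31) (nat_lit 4) (nat_lit 29) (nat_lit 4) (nat_lit 510) (nat_lit 466) (nat_lit 224)) (XT.nd (nat_lit 78) (nat_lit 76) (nat_lit 0) (XT.lf (nat_lit 0) (nat_lit 480664907359) (nat_lit 76) (nat_lit 3586575374497) (nat_lit 76) (nat_lit 1397035775327) (nat_lit 28) (nat_lit 4) (nat_lit 29) (nat_lit 5) (nat_lit 29) (nat_lit 4) (nat_lit 511) (nat_lit 466) (nat_lit 223)) (XT.lf (nat_lit 0) (nat_lit 144582535121) (nat_lit 152) (nat_lit 1888807927342) (nat_lit 76) (nat_lit 3731670951405) (nat_lit 27) (nat_lit 5) (nat_lit 29) (nat_lit 5) (nat_lit 28) (nat_lit 4) (nat_lit 512) (nat_lit 466) (nat_lit 222)))) (XT.nd (nat_lit 78) (nat_lit 76) (nat_lit 0) (XT.lf (nat_lit 0) (nat_lit 1491925038460) (nat_lit 76) (nat_lit 278009884611) (nat_lit 152) (nat_lit 4314201278041) (nat_lit 26) (nat_lit 5) (nat_lit 27) (nat_lit 5) (nat_lit 28) (nat_lit 4) (nat_lit 513) (nat_lit 466) (nat_lit 221)) (XT.nd (nat_lit 78)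 (nat_lit 76) (nat_lit 0) (XT.lf (nat_lit 0) (nat_lit 3617208398358) (nat_lit 152) (nat_lit 1214320226785) (nat_lit 0) (nat_lit 1589856914488) (nat_lit 26) (nat_lit 5) (nat_lit 28) (nat_lit 4) (nat_lit 26) (nat_lit 4) (nat_lit 514) (nat_lit 466) (nat_lit 220)) (XT.lf (nat_lit 0) (nat_lit 2554360396803) (nat_lit 76) (nat_lit 3126556818071) (nat_lit 76) (nat_lit 1099205333301) (nat_lit 25) (nat_lit 4) (nat_lit 26) (nat_lit 5) (nat_lit 26) (nat_lit 4) (nat_lit 515) (nat_lit 466) (nat_lit 219)))))) (XT.nd (nat_lit 468) (nat_lit 304) (nat_lit 0) (XT.nd (nat_lit 234) (nat_lit 152) (nat_lit 0) (XT.nd (nat_lit 78) (nat_lit 152) (nat_lit 0) (XT.lf (nat_lit 0) (nat_lit 739102205467) (nat_lit 152) (nat_lit 490018898230) (nat_lit 76) (nat_lit 5934284364625) (nat_lit 24) (nat_lit 5) (nat_lit 26) (nat_lit 5) (nat_lit 25) (nat_lit 4) (nat_lit 516) (nat_lit 466) (nat_lit 218)) (XT.nd (nat_lit 78) (nat_lit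 76) (nat_lit 0) (XT.lf (nat_lit 0) (nat_lit 2776879471337) (nat_lit 152) (nat_lit 3889542057553) (nat_lit 0) (nat_lit 899702169138) (nat_lit 23) (nat_lit 5) (nat_lit 25) (nat_lit 4) (nat_lit 23) (nat_lit 4) (nat_lit 517) (nat_lit 466) (nat_lit 217)) (XT.lf (nat_lit 0) (nat_lit 181180647386) (nat_lit 76) (nat_lit 4846526876573) (nat_lit 76) (nat_lit 2969349573712) (nat_lit 22) (nat_lit 4) (nat_lit 23) (nat_lit 5) (nat_lit 23) (nat_lit 4) (nat_lit 518) (nat_lit 466) (nat_lit 216)))) (XT.nd (nat_lit 78) (nat_lit 152) (nat_lit 0) (XT.lf (nat_lit 0) (nat_lit 4798762868839) (nat_lit 76) (nat_lit 2766185923114) (nat_lit 76) (nat_lit 889008619640) (nat_lit 22) (nat_lit 4) (nat_lit 23) (nat_lit 5) (nat_lit 23) (nat_lit 4) (nat_lit 519) (nat_lit 466) (nat_lit 215)) (XT.nd (nat_lit 78) (nat_lit 0) (nat_lit 0) (XT.lf (nat_lit 0) (nat_lit 848113852919) (nat_lit 76) (nat_lit 462122280234) (nat_lit 152)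 (nat_lit 7632929512806) (nat_lit 20) (nat_lit 5) (nat_lit 21) (nat_lit 5) (nat_lit 22) (nat_lit 4) (nat_lit 520) (nat_lit 466) (nat_lit 214)) (XT.lf (nat_lit 0) (nat_lit 3788657992494) (nat_lit 152) (nat_lit 3618373030671) (nat_lit 0) (nat_lit 2050530858637) (nat_lit 20) (nat_lit 5) (nat_lit 22) (nat_lit 4) (nat_lit 20) (nat_lit 4) (nat_lit 521) (nat_lit 466) (nat_lit 213))))) (XT.nd (nat_lit 234) (nat_lit 76) (nat_lit 0) (XT.nd (nat_lit 78) (nat_lit 152) (nat_lit 0) (XT.lf (nat_lit 0) (nat_lit 1267860364099) (nat_lit 76) (nat_lit 5239988483481) (nat_lit 76) (nat_lit 3501861349173) (nat_lit 19) (nat_lit 4) (nat_lit 20) (nat_lit 5) (nat_lit 20) (nat_lit 4) (nat_lit 522) (nat_lit 466) (nat_lit 212)) (XT.nd (nat_lit 78) (nat_lit 152) (nat_lit 0) (XT.lf (nat_lit 0) (nat_lit 6750772508174) (nat_lit 76) (nat_lit 2792735192540) (nat_lit 76) (nat_lit 1054608057815) (nat_lit 19) (nat_lit 4) (nat_lit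 20) (nat_lit 5) (nat_lit 20) (nat_lit 4) (nat_lit 523) (nat_lit 466) (nat_lit 211)) (XT.lf (nat_lit 0) (nat_lit 1474271200875) (nat_lit 76) (nat_lit 70151076041) (nat_lit 152) (nat_lit 9683278854092) (nat_lit 17) (nat_lit 5) (nat_lit 18) (nat_lit 5) (nat_lit 19) (nat_lit 4) (nat_lit 524) (nat_lit 466) (nat_lit 210)))) (XT.nd (nat_lit 156) (nat_lit 0) (nat_lit 0) (XT.nd (nat_lit 78) (nat_lit 76) (nat_lit 0) (XT.lf (nat_lit 0) (nat_lit 4471353618122) (nat_lit 152) (nat_lit 4557975296382) (nat_lit 0) (nat_lit 2861976640836) (nat_lit 17) (nat_lit 5) (nat_lit 19) (nat_lit 4) (nat_lit 17) (nat_lit 4) (nat_lit 525) (nat_lit 466) (nat_lit 209)) (XT.lf (nat_lit 0) (nat_lit 1106652857746) (nat_lit 76) (nat_lit 6554223741430) (nat_lit 76) (nat_lit 4944846763838) (nat_lit 16) (nat_lit 4) (nat_lit 17) (nat_lit 5) (nat_lit 17) (nat_lit 4) (nat_lit 526) (nat_lit 466) (nat_lit 208))) (XT.nd (nat_lit 57798)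 (nat_lit 0) (nat_lit 4940) (XT.lf (nat_lit 0) (nat_lit 7483667355716) (nat_lit 76) (nat_lit 3746517183895) (nat_lit 76) (nat_lit 2137140206019) (nat_lit 16) (nat_lit 4) (nat_lit 17) (nat_lit 5) (nat_lit 17) (nat_lit 4) (nat_lit 527) (nat_lit 466) (nat_lit 207)) (XT.lf (nat_lit 0) (nat_lit 341549189696) (nat_lit 532) (nat_lit 5406403642) (nat_lit 532) (nat_lit 5406403642) (nat_lit 81) (nat_lit 3) (nat_lit 88) (nat_lit 3) (nat_lit 88) (nat_lit 5) (nat_lit 467) (nat_lit 467) (nat_lit 266))))))))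
noncomputable def xc225 : XT := (XT.nd (nat_lit 1950) (nat_lit 1672) (nat_lit 0) (XT.nd (nat_lit 936) (nat_lit 1444) (nat_lit 0) (XT.nd (nat_lit 468) (nat_lit 760) (nat_lit 0) (XT.nd (nat_lit 234) (nat_lit 0) (nat_lit 0) (XT.nd (nat_lit 78) (nat_lit 456) (nat_lit 0) (XT.lf (nat_lit 76) (nat_lit 356569518920) (nat_lit 0) (nat_lit 362428425385) (nat_lit 532) (nat_lit 13228959002) (nat_lit 82) (nat_lit 5) (nat_lit 81) (nat_lit 3) (nat_lit 88) (nat_lit 5) (nat_lit 468) (nat_lit 467) (nat_lit 265)) (XT.nd (nat_lit 78) (nat_lit 456) (nat_lit 0) (XT.lf (nat_lit 76) (nat_lit 753957358087) (nat_lit 0) (nat_lit 4107745040) (nat_lit 532) (nat_lit 3841291981) (nat_lit 82) (nat_lit 5) (nat_lit 81) (nat_lit 3) (nat_lit 88) (nat_lit 5) (nat_lit 469) (nat_lit 467) (nat_lit 264)) (XT.lf (nat_lit 0) (nat_lit 25299061741) (nat_lit 532) (nat_lit 393118357107) (nat_lit 608) (nat_lit 373985375683) (nat_lit 75)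 (nat_lit 5) (nat_lit 82) (nat_lit 5) (nat_lit 83) (nat_lit 5) (nat_lit 470) (nat_lit 467) (nat_lit 263)))) (XT.nd (nat_lit 78) (nat_lit 0) (nat_lit 76) (XT.lf (nat_lit 76) (nat_lit 14753024273) (nat_lit 0) (nat_lit 42494570035) (nat_lit 608) (nat_lit 768028571289) (nat_lit 76) (nat_lit 5) (nat_lit 75) (nat_lit 5) (nat_lit 83) (nat_lit 5) (nat_lit 471) (nat_lit 467) (nat_lit 262)) (XT.nd (nat_lit 78) (nat_lit 0) (nat_lit 0) (XT.lf (nat_lit 0) (nat_lit 111521969175) (nat_lit 532) (nat_lit 391329842977) (nat_lit 608) (nat_lit 356345997424) (nat_lit 76) (nat_lit 5) (nat_lit 83) (nat_lit 5) (nat_lit 84) (nat_lit 5) (nat_lit 472) (nat_lit 467) (nat_lit 261)) (XT.lf (nat_lit 76) (nat_lit 63470192178) (nat_lit 0) (nat_lit 109298306893) (nat_lit 608) (nat_lit 722854269602) (nat_lit 77) (nat_lit 5) (nat_lit 76) (nat_lit 5) (nat_lit 84) (nat_lit 5) (nat_lit 473) (nat_lit 467) (nat_lit 260))))) (XT.nd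 (nat_lit 234) (nat_lit 456) (nat_lit 0) (XT.nd (nat_lit 78) (nat_lit 456) (nat_lit 0) (XT.lf (nat_lit 0) (nat_lit 257485848729) (nat_lit 532) (nat_lit 365067711025) (nat_lit 76) (nat_lit 310922476955) (nat_lit 77) (nat_lit 5) (nat_lit 84) (nat_lit 5) (nat_lit 78) (nat_lit 5) (nat_lit 474) (nat_lit 467) (nat_lit 259)) (XT.nd (nat_lit 78) (nat_lit 0) (nat_lit 0) (XT.lf (nat_lit 0) (nat_lit 143735237340) (nat_lit 456) (nat_lit 211541093557) (nat_lit 532) (nat_lit 618577575731) (nat_lit 71) (nat_lit 5) (nat_lit 77) (nat_lit 5) (nat_lit 78) (nat_lit 5) (nat_lit 475) (nat_lit 467) (nat_lit 258)) (XT.lf (nat_lit 0) (nat_lit 476718984192) (nat_lit 532) (nat_lit 308506683311) (nat_lit 76) (nat_lit 230970024033) (nat_lit 71) (nat_lit 5) (nat_lit 78) (nat_lit 5) (nat_lit 72) (nat_lit 5) (nat_lit 476) (nat_lit 467) (nat_lit 257)))) (XT.nd (nat_lit 78) (nat_lit 228) (nat_lit 0) (XT.lf (nat_lit 0) (nat_lit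 262469465554) (nat_lit 228) (nat_lit 357214547610) (nat_lit 304) (nat_lit 441296249003) (nat_lit 68) (nat_lit 5) (nat_lit 71) (nat_lit 5) (nat_lit 72) (nat_lit 5) (nat_lit 477) (nat_lit 467) (nat_lit 256)) (XT.nd (nat_lit 78) (nat_lit 228) (nat_lit 0) (XT.lf (nat_lit 0) (nat_lit 785266604341) (nat_lit 304) (nat_lit 214749289776) (nat_lit 76) (nat_lit 108437275541) (nat_lit 68) (nat_lit 5) (nat_lit 72) (nat_lit 5) (nat_lit 69) (nat_lit 5) (nat_lit 478) (nat_lit 467) (nat_lit 255)) (XT.lf (nat_lit 0) (nat_lit 427836968005) (nat_lit 228) (nat_lit 555826617584) (nat_lit 304) (nat_lit 174494901539) (nat_lit 65) (nat_lit 5) (nat_lit 68) (nat_lit 5) (nat_lit 69) (nat_lit 5) (nat_lit 479) (nat_lit 467) (nat_lit 254)))))) (XT.nd (nat_lit 468) (nat_lit 836) (nat_lit 0) (XT.nd (nat_lit 234) (nat_lit 152) (nat_lit 0) (XT.nd (nat_lit 78) (nat_lit 456) (nat_lit 0) (XT.lf (nat_lit 0) (nat_lit 1134043101442)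 (nat_lit 228) (nat_lit 69760843824) (nat_lit 304) (nat_lit 7566555138) (nat_lit 65) (nat_lit 5) (nat_lit 68) (nat_lit 5) (nat_lit 69) (nat_lit 5) (nat_lit 480) (nat_lit 467) (nat_lit 253)) (XT.nd (nat_lit 78) (nat_lit 228) (nat_lit 0) (XT.lf (nat_lit 0) (nat_lit 191332684402) (nat_lit 228) (nat_lit 622111145525) (nat_lit 76) (nat_lit 452882812208) (nat_lit 62) (nat_lit 5) (nat_lit 65) (nat_lit 5) (nat_lit 63) (nat_lit 5) (nat_lit 481) (nat_lit 467) (nat_lit 252)) (XT.lf (nat_lit 0) (nat_lit 105587873544) (nat_lit 228) (nat_lit 306667738423) (nat_lit 304) (nat_lit 912886297379) (nat_lit 59) (nat_lit 5) (nat_lit 62) (nat_lit 5) (nat_lit 63) (nat_lit 5) (nat_lit 482) (nat_lit 467) (nat_lit 251)))) (XT.nd (nat_lit 78) (nat_lit 152) (nat_lit 0) (XT.lf (nat_lit 0) (nat_lit 674091446686) (nat_lit 304) (nat_lit 466648266812) (nat_lit 76) (nat_lit 246063558599) (nat_lit 59) (nat_lit 5) (nat_lit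 63) (nat_lit 5) (nat_lit 60) (nat_lit 5) (nat_lit 483) (nat_lit 467) (nat_lit 250)) (XT.nd (nat_lit 78) (nat_lit 0) (nat_lit 0) (XT.lf (nat_lit 0) (nat_lit 356350664337) (nat_lit 152) (nat_lit 617059116632) (nat_lit 228) (nat_lit 478664912278) (nat_lit 57) (nat_lit 5) (nat_lit 59) (nat_lit 5) (nat_lit 60) (nat_lit 5) (nat_lit 484) (nat_lit 467) (nat_lit 249)) (XT.lf (nat_lit 0) (nat_lit 1271728203562) (nat_lit 152) (nat_lit 37704364167) (nat_lit 228) (nat_lit 212114541502) (nat_lit 57) (nat_lit 5) (nat_lit 59) (nat_lit 5) (nat_lit 60) (nat_lit 5) (nat_lit 485) (nat_lit 467) (nat_lit 248))))) (XT.nd (nat_lit 234) (nat_lit 456) (nat_lit 0) (XT.nd (nat_lit 78) (nat_lit 152) (nat_lit 0) (XT.lf (nat_lit 0) (nat_lit 103351907486) (nat_lit 228) (nat_lit 912921902906) (nat_lit 76) (nat_lit 577647196907) (nat_lit 54) (nat_lit 5) (nat_lit 57) (nat_lit 5) (nat_lit 55) (nat_lit 5) (nat_lit 486) (nat_lit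 467) (nat_lit 247)) (XT.nd (nat_lit 78) (nat_lit 0) (nat_lit 0) (XT.lf (nat_lit 0) (nat_lit 23458883434) (nat_lit 152) (nat_lit 417688517588) (nat_lit 228) (nat_lit 1229812544834) (nat_lit 52) (nat_lit 5) (nat_lit 54) (nat_lit 5) (nat_lit 55) (nat_lit 5) (nat_lit 487) (nat_lit 467) (nat_lit 246)) (XT.lf (nat_lit 0) (nat_lit 837078018537) (nat_lit 228) (nat_lit 671646910084) (nat_lit 76) (nat_lit 242948152118) (nat_lit 52) (nat_lit 5) (nat_lit 55) (nat_lit 5) (nat_lit 53) (nat_lit 5) (nat_lit 488) (nat_lit 467) (nat_lit 245)))) (XT.nd (nat_lit 156) (nat_lit 304) (nat_lit 0) (XT.nd (nat_lit 78) (nat_lit 0) (nat_lit 0) (XT.lf (nat_lit 0) (nat_lit 390985177799) (nat_lit 152) (nat_lit 893950158958) (nat_lit 228) (nat_lit 552287749552) (nat_lit 50) (nat_lit 5) (nat_lit 52) (nat_lit 5) (nat_lit 53) (nat_lit 5) (nat_lit 489) (nat_lit 467) (nat_lit 244)) (XT.lf (nat_lit 0) (nat_lit 1576824981452)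 (nat_lit 152) (nat_lit 210160271887) (nat_lit 228) (nat_lit 141162717954) (nat_lit 50) (nat_lit 5) (nat_lit 52) (nat_lit 5) (nat_lit 53) (nat_lit 5) (nat_lit 490) (nat_lit 467) (nat_lit 243))) (XT.nd (nat_lit 78) (nat_lit 152) (nat_lit 0) (XT.lf (nat_lit 0) (nat_lit 321998053516) (nat_lit 152) (nat_lit 1170246167574) (nat_lit 76) (nat_lit 530776286606) (nat_lit 48) (nat_lit 5) (nat_lit 50) (nat_lit 5) (nat_lit 49) (nat_lit 5) (nat_lit 491) (nat_lit 467) (nat_lit 242)) (XT.lf (nat_lit 0) (nat_lit 41148771274) (nat_lit 152) (nat_lit 789740090051) (nat_lit 228) (nat_lit 1292996370321) (nat_lit 46) (nat_lit 5) (nat_lit 48) (nat_lit 5) (nat_lit 49) (nat_lit 5) (nat_lit 492) (nat_lit 467) (nat_lit 241))))))) (XT.nd (nat_lit 936) (nat_lit 836) (nat_lit 0) (XT.nd (nat_lit 468) (nat_lit 456) (nat_lit 0) (XT.nd (nat_lit 234) (nat_lit 228) (nat_lit 0) (XT.nd (nat_lit 78) (nat_lit 152) (nat_lit 0)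 (XT.lf (nat_lit 0) (nat_lit 1412572207316) (nat_lit 228) (nat_lit 814335842550) (nat_lit 76) (nat_lit 3344581763) (nat_lit 46) (nat_lit 5) (nat_lit 49) (nat_lit 5) (nat_lit 47) (nat_lit 4) (nat_lit 493) (nat_lit 467) (nat_lit 240)) (XT.nd (nat_lit 78) (nat_lit 76) (nat_lit 0) (XT.lf (nat_lit 0) (nat_lit 563197509883) (nat_lit 76) (nat_lit 1511650351098) (nat_lit 152) (nat_lit 267556951430) (nat_lit 45) (nat_lit 5) (nat_lit 46) (nat_lit 5) (nat_lit 47) (nat_lit 4) (nat_lit 494) (nat_lit 467) (nat_lit 239)) (XT.lf (nat_lit 0) (nat_lit 333083428657) (nat_lit 152) (nat_lit 372934902996) (nat_lit 76) (nat_lit 1755055006103) (nat_lit 44) (nat_lit 5) (nat_lit 46) (nat_lit 5) (nat_lit 45) (nat_lit 5) (nat_lit 495) (nat_lit 467) (nat_lit 238)))) (XT.nd (nat_lit 78) (nat_lit 76) (nat_lit 0) (XT.lf (nat_lit 0) (nat_lit 1001027819636) (nat_lit 228) (nat_lit 1392386259029) (nat_lit 76) (nat_lit 192568679534)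 (nat_lit 42) (nat_lit 5) (nat_lit 45) (nat_lit 5) (nat_lit 43) (nat_lit 4) (nat_lit 496) (nat_lit 467) (nat_lit 237)) (XT.nd (nat_lit 78) (nat_lit 0) (nat_lit 0) (XT.lf (nat_lit 0) (nat_lit 176833279386) (nat_lit 76) (nat_lit 1578627013183) (nat_lit 152) (nat_lit 962780437256) (nat_lit 41) (nat_lit 5) (nat_lit 42) (nat_lit 5) (nat_lit 43) (nat_lit 4) (nat_lit 497) (nat_lit 467) (nat_lit 236)) (XT.lf (nat_lit 0) (nat_lit 1950776616051) (nat_lit 76) (nat_lit 657541052268) (nat_lit 152) (nat_lit 249716046464) (nat_lit 41) (nat_lit 5) (nat_lit 42) (nat_lit 5) (nat_lit 43) (nat_lit 4) (nat_lit 498) (nat_lit 467) (nat_lit 235))))) (XT.nd (nat_lit 234) (nat_lit 228) (nat_lit 0) (XT.nd (nat_lit 78) (nat_lit 76) (nat_lit 0) (XT.lf (nat_lit 0) (nat_lit 524747716317) (nat_lit 152) (nat_lit 2125676730230) (nat_lit 76) (nat_lit 355153541024) (nat_lit 39) (nat_lit 5) (nat_lit 41) (nat_lit 5) (nat_lit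 40) (nat_lit 4) (nat_lit 499) (nat_lit 467) (nat_lit 234)) (XT.nd (nat_lit 78) (nat_lit 76) (nat_lit 0) (XT.lf (nat_lit 0) (nat_lit 1390206742173) (nat_lit 152) (nat_lit 325521960334) (nat_lit 76) (nat_lit 1445275864015) (nat_lit 39) (nat_lit 5) (nat_lit 41) (nat_lit 5) (nat_lit 40) (nat_lit 4) (nat_lit 500) (nat_lit 467) (nat_lit 233)) (XT.lf (nat_lit 0) (nat_lit 1703880173625) (nat_lit 76) (nat_lit 662000673143) (nat_lit 152) (nat_lit 959706156488) (nat_lit 38) (nat_lit 5) (nat_lit 39) (nat_lit 5) (nat_lit 40) (nat_lit 4) (nat_lit 501) (nat_lit 467) (nat_lit 232)))) (XT.nd (nat_lit 78) (nat_lit 152) (nat_lit 0) (XT.lf (nat_lit 0) (nat_lit 420898638481) (nat_lit 76) (nat_lit 3029412813386) (nat_lit 76) (nat_lit 50568377289) (nat_lit 37) (nat_lit 4) (nat_lit 38) (nat_lit 5) (nat_lit 38) (nat_lit 4) (nat_lit 502) (nat_lit 467) (nat_lit 231)) (XT.nd (nat_lit 78) (nat_lit 76) (nat_lit 0) (XT.lf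 (nat_lit 0) (nat_lit 947399861210) (nat_lit 152) (nat_lit 1008252727635) (nat_lit 76) (nat_lit 1727736720000) (nat_lit 36) (nat_lit 5) (nat_lit 38) (nat_lit 5) (nat_lit 37) (nat_lit 4) (nat_lit 503) (nat_lit 467) (nat_lit 230)) (XT.lf (nat_lit 0) (nat_lit 1292559610448) (nat_lit 76) (nat_lit 761000029957) (nat_lit 152) (nat_lit 1824347942357) (nat_lit 35) (nat_lit 5) (nat_lit 36) (nat_lit 5) (nat_lit 37) (nat_lit 4) (nat_lit 504) (nat_lit 467) (nat_lit 229)))))) (XT.nd (nat_lit 468) (nat_lit 456) (nat_lit 0) (XT.nd (nat_lit 234) (nat_lit 152) (nat_lit 0) (XT.nd (nat_lit 78) (nat_lit 228) (nat_lit 0) (XT.lf (nat_lit 0) (nat_lit 3289223520406) (nat_lit 152) (nat_lit 264448672346) (nat_lit 0) (nat_lit 531034220365) (nat_lit 35) (nat_lit 5) (nat_lit 37) (nat_lit 4) (nat_lit 35) (nat_lit 4) (nat_lit 505) (nat_lit 467) (nat_lit 228)) (XT.nd (nat_lit 78) (nat_lit 76) (nat_lit 0) (XT.lf (nat_lit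 0) (nat_lit 377902382698) (nat_lit 152) (nat_lit 1972152346128) (nat_lit 76) (nat_lit 1951146775711) (nat_lit 33) (nat_lit 5) (nat_lit 35) (nat_lit 5) (nat_lit 34) (nat_lit 4) (nat_lit 506) (nat_lit 467) (nat_lit 227)) (XT.lf (nat_lit 0) (nat_lit 620835485305) (nat_lit 76) (nat_lit 1003695663439) (nat_lit 152) (nat_lit 2907044150524) (nat_lit 32) (nat_lit 5) (nat_lit 33) (nat_lit 5) (nat_lit 34) (nat_lit 4) (nat_lit 507) (nat_lit 467) (nat_lit 226)))) (XT.nd (nat_lit 78) (nat_lit 152) (nat_lit 0) (XT.lf (nat_lit 0) (nat_lit 3037044389677) (nat_lit 152) (nat_lit 1254876871266) (nat_lit 0) (nat_lit 483165402747) (nat_lit 32) (nat_lit 5) (nat_lit 34) (nat_lit 4) (nat_lit 32) (nat_lit 4) (nat_lit 508) (nat_lit 467) (nat_lit 225)) (XT.nd (nat_lit 78) (nat_lit 76) (nat_lit 0) (XT.lf (nat_lit 0) (nat_lit 1670973971452) (nat_lit 76) (nat_lit 2957841697962) (nat_lit 76) (nat_lit 403962709490) (nat_lit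 31) (nat_lit 4) (nat_lit 32) (nat_lit 5) (nat_lit 32) (nat_lit 4) (nat_lit 509) (nat_lit 467) (nat_lit 224)) (XT.lf (nat_lit 0) (nat_lit 1020177861991) (nat_lit 152) (nat_lit 431909036958) (nat_lit 76) (nat_lit 3854187504922) (nat_lit 30) (nat_lit 5) (nat_lit 32) (nat_lit 5) (nat_lit 31) (nat_lit 4) (nat_lit 510) (nat_lit 467) (nat_lit 223))))) (XT.nd (nat_lit 234) (nat_lit 228) (nat_lit 0) (XT.nd (nat_lit 78) (nat_lit 152) (nat_lit 0) (XT.lf (nat_lit 0) (nat_lit 2611583844061) (nat_lit 152) (nat_lit 2736333097834) (nat_lit 0) (nat_lit 246881074410) (nat_lit 29) (nat_lit 5) (nat_lit 31) (nat_lit 4) (nat_lit 29) (nat_lit 4) (nat_lit 511) (nat_lit 467) (nat_lit 222)) (XT.nd (nat_lit 78) (nat_lit 76) (nat_lit 0) (XT.lf (nat_lit 0) (nat_lit 519118170590) (nat_lit 76) (nat_lit 3873501369547) (nat_lit 76) (nat_lit 1508798598762) (nat_lit 28) (nat_lit 4) (nat_lit 29) (nat_lit 5) (nat_lit 29) (nat_lit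 4) (nat_lit 512) (nat_lit 467) (nat_lit 221)) (XT.lf (nat_lit 0) (nat_lit 156149171876) (nat_lit 152) (nat_lit 2039912494331) (nat_lit 76) (nat_lit 4030204658053) (nat_lit 27) (nat_lit 5) (nat_lit 29) (nat_lit 5) (nat_lit 28) (nat_lit 4) (nat_lit 513) (nat_lit 467) (nat_lit 220)))) (XT.nd (nat_lit 156) (nat_lit 152) (nat_lit 0) (XT.nd (nat_lit 78) (nat_lit 0) (nat_lit 0) (XT.lf (nat_lit 0) (nat_lit 1611279107033) (nat_lit 76) (nat_lit 300250642889) (nat_lit 152) (nat_lit 4659337344637) (nat_lit 26) (nat_lit 5) (nat_lit 27) (nat_lit 5) (nat_lit 28) (nat_lit 4) (nat_lit 514) (nat_lit 467) (nat_lit 219)) (XT.lf (nat_lit 0) (nat_lit 3906585101511) (nat_lit 152) (nat_lit 1311465782561) (nat_lit 0) (nat_lit 1717045496226) (nat_lit 26) (nat_lit 5) (nat_lit 28) (nat_lit 4) (nat_lit 26) (nat_lit 4) (nat_lit 515) (nat_lit 467) (nat_lit 218))) (XT.nd (nat_lit 78) (nat_lit 76) (nat_lit 0) (XT.lf (nat_lit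 0) (nat_lit 2758709289335) (nat_lit 76) (nat_lit 3376681333158) (nat_lit 76) (nat_lit 1187141727101) (nat_lit 25) (nat_lit 4) (nat_lit 26) (nat_lit 5) (nat_lit 26) (nat_lit 4) (nat_lit 516) (nat_lit 467) (nat_lit 217)) (XT.lf (nat_lit 0) (nat_lit 798230410812) (nat_lit 152) (nat_lit 529220352281) (nat_lit 76) (nat_lit 6409027140382) (nat_lit 24) (nat_lit 5) (nat_lit 26) (nat_lit 5) (nat_lit 25) (nat_lit 4) (nat_lit 517) (nat_lit 467) (nat_lit 216))))))))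
noncomputable def xc226 : XT := (XT.nd (nat_lit 59748) (nat_lit 0) (nat_lit 1292) (XT.nd (nat_lit 58734) (nat_lit 0) (nat_lit 3496) (XT.nd (nat_lit 468) (nat_lit 228) (nat_lit 0) (XT.nd (nat_lit 234) (nat_lit 228) (nat_lit 0) (XT.nd (nat_lit 78) (nat_lit 76) (nat_lit 0) (XT.lf (nat_lit 0) (nat_lit 2999029857844) (nat_lit 152) (nat_lit 4200705364241) (nat_lit 0) (nat_lit 971678369480) (nat_lit 23) (nat_lit 5) (nat_lit 25) (nat_lit 4) (nat_lit 23) (nat_lit 4) (nat_lit 518) (nat_lit 467) (nat_lit 215)) (XT.nd (nat_lit 78) (nat_lit 0) (nat_lit 0) (XT.lf (nat_lit 0) (nat_lit 195675155627) (nat_lit 76) (nat_lit 5234248998273) (nat_lit 76) (nat_lit 3206897509342) (nat_lit 22) (nat_lit 4) (nat_lit 23) (nat_lit 5) (nat_lit 23) (nat_lit 4) (nat_lit 519) (nat_lit 467) (nat_lit 214)) (XT.lf (nat_lit 0) (nat_lit 5182663950615) (nat_lit 76) (nat_lit 2987480770643) (nat_lit 76) (nat_lit 960129281186)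 (nat_lit 22) (nat_lit 4) (nat_lit 23) (nat_lit 5) (nat_lit 23) (nat_lit 4) (nat_lit 520) (nat_lit 467) (nat_lit 213)))) (XT.nd (nat_lit 78) (nat_lit 76) (nat_lit 0) (XT.lf (nat_lit 0) (nat_lit 915963013465) (nat_lit 76) (nat_lit 499092036250) (nat_lit 152) (nat_lit 8243563845848) (nat_lit 20) (nat_lit 5) (nat_lit 21) (nat_lit 5) (nat_lit 22) (nat_lit 4) (nat_lit 521) (nat_lit 467) (nat_lit 212)) (XT.nd (nat_lit 78) (nat_lit 76) (nat_lit 0) (XT.lf (nat_lit 0) (nat_lit 4091750656472) (nat_lit 152) (nat_lit 3907842823356) (nat_lit 0) (nat_lit 2214573350552) (nat_lit 20) (nat_lit 5) (nat_lit 22) (nat_lit 4) (nat_lit 20) (nat_lit 4) (nat_lit 522) (nat_lit 467) (nat_lit 211)) (XT.lf (nat_lit 0) (nat_lit 1369289241736) (nat_lit 76) (nat_lit 5659187537574) (nat_lit 76) (nat_lit 3782010231269) (nat_lit 19) (nat_lit 4) (nat_lit 20) (nat_lit 5) (nat_lit 20) (nat_lit 4) (nat_lit 523) (nat_lit 467)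 (nat_lit 210))))) (XT.nd (nat_lit 234) (nat_lit 76) (nat_lit 0) (XT.nd (nat_lit 78) (nat_lit 152) (nat_lit 0) (XT.lf (nat_lit 0) (nat_lit 7290834353743) (nat_lit 76) (nat_lit 3016153985179) (nat_lit 76) (nat_lit 1138976678516) (nat_lit 19) (nat_lit 4) (nat_lit 20) (nat_lit 5) (nat_lit 20) (nat_lit 4) (nat_lit 524) (nat_lit 467) (nat_lit 209)) (XT.nd (nat_lit 78) (nat_lit 0) (nat_lit 0) (XT.lf (nat_lit 0) (nat_lit 1592212941890) (nat_lit 76) (nat_lit 75763139303) (nat_lit 152) (nat_lit 10457941138524) (nat_lit 17) (nat_lit 5) (nat_lit 18) (nat_lit 5) (nat_lit 19) (nat_lit 4) (nat_lit 525) (nat_lit 467) (nat_lit 208)) (XT.lf (nat_lit 0) (nat_lit 4829061928566) (nat_lit 152) (nat_lit 4922613277346) (nat_lit 0) (nat_lit 3090934792176) (nat_lit 17) (nat_lit 5) (nat_lit 19) (nat_lit 4) (nat_lit 17) (nat_lit 4) (nat_lit 526) (nat_lit 467) (nat_lit 207)))) (XT.nd (nat_lit 57876) (nat_lit 0) (nat_lit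 4940) (XT.lf (nat_lit 0) (nat_lit 1195185128031) (nat_lit 76) (nat_lit 7078561619521) (nat_lit 76) (nat_lit 5340434482868) (nat_lit 16) (nat_lit 4) (nat_lit 17) (nat_lit 5) (nat_lit 17) (nat_lit 4) (nat_lit 527) (nat_lit 467) (nat_lit 206)) (XT.nd (nat_lit 78) (nat_lit 0) (nat_lit 0) (XT.lf (nat_lit 0) (nat_lit 368873246117) (nat_lit 532) (nat_lit 5838850445) (nat_lit 532) (nat_lit 5838850445) (nat_lit 81) (nat_lit 3) (nat_lit 88) (nat_lit 3) (nat_lit 88) (nat_lit 5) (nat_lit 468) (nat_lit 468) (nat_lit 264)) (XT.lf (nat_lit 76) (nat_lit 385095208095) (nat_lit 0) (nat_lit 391422799353) (nat_lit 532) (nat_lit 14287029856) (nat_lit 82) (nat_lit 5) (nat_lit 81) (nat_lit 3) (nat_lit 88) (nat_lit 5) (nat_lit 469) (nat_lit 468) (nat_lit 263)))))) (XT.nd (nat_lit 468) (nat_lit 988) (nat_lit 0) (XT.nd (nat_lit 234) (nat_lit 0) (nat_lit 76) (XT.nd (nat_lit 78) (nat_lit 456) (nat_lit 0) (XT.lf (nat_lit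 76) (nat_lit 814274064939) (nat_lit 0) (nat_lit 4436457177) (nat_lit 532) (nat_lit 4148367686) (nat_lit 82) (nat_lit 5) (nat_lit 81) (nat_lit 3) (nat_lit 88) (nat_lit 5) (nat_lit 470) (nat_lit 468) (nat_lit 262)) (XT.nd (nat_lit 78) (nat_lit 0) (nat_lit 0) (XT.lf (nat_lit 0) (nat_lit 27323188116) (nat_lit 532) (nat_lit 424567681152) (nat_lit 608) (nat_lit 403904132663) (nat_lit 75) (nat_lit 5) (nat_lit 82) (nat_lit 5) (nat_lit 83) (nat_lit 5) (nat_lit 471) (nat_lit 468) (nat_lit 261)) (XT.lf (nat_lit 76) (nat_lit 15933407079) (nat_lit 0) (nat_lit 45894184676) (nat_lit 608) (nat_lit 829470651854) (nat_lit 76) (nat_lit 5) (nat_lit 75) (nat_lit 5) (nat_lit 83) (nat_lit 5) (nat_lit 472) (nat_lit 468) (nat_lit 260)))) (XT.nd (nat_lit 78) (nat_lit 0) (nat_lit 0) (XT.lf (nat_lit 0) (nat_lit 120443901452) (nat_lit 532) (nat_lit 422636084786) (nat_lit 608) (nat_lit 384853634084) (nat_lit 76) (nat_lit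 5) (nat_lit 83) (nat_lit 5) (nat_lit 84) (nat_lit 5) (nat_lit 473) (nat_lit 468) (nat_lit 259)) (XT.nd (nat_lit 78) (nat_lit 0) (nat_lit 76) (XT.lf (nat_lit 76) (nat_lit 68547949494) (nat_lit 0) (nat_lit 118042194715) (nat_lit 608) (nat_lit 780682432702) (nat_lit 77) (nat_lit 5) (nat_lit 76) (nat_lit 5) (nat_lit 84) (nat_lit 5) (nat_lit 474) (nat_lit 468) (nat_lit 258)) (XT.lf (nat_lit 0) (nat_lit 278084869084) (nat_lit 532) (nat_lit 394272983687) (nat_lit 76) (nat_lit 335796254643) (nat_lit 77) (nat_lit 5) (nat_lit 84) (nat_lit 5) (nat_lit 78) (nat_lit 5) (nat_lit 475) (nat_lit 468) (nat_lit 257))))) (XT.nd (nat_lit 234) (nat_lit 456) (nat_lit 0) (XT.nd (nat_lit 78) (nat_lit 228) (nat_lit 0) (XT.lf (nat_lit 0) (nat_lit 155234196895) (nat_lit 456) (nat_lit 228464385017) (nat_lit 532) (nat_lit 668063625649) (nat_lit 71) (nat_lit 5) (nat_lit 77) (nat_lit 5) (nat_lit 78) (nat_lit 5) (nat_lit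 476) (nat_lit 468) (nat_lit 256)) (XT.nd (nat_lit 78) (nat_lit 228) (nat_lit 0) (XT.lf (nat_lit 0) (nat_lit 514856636676) (nat_lit 532) (nat_lit 333187076995) (nat_lit 76) (nat_lit 249447622458) (nat_lit 71) (nat_lit 5) (nat_lit 78) (nat_lit 5) (nat_lit 72) (nat_lit 5) (nat_lit 477) (nat_lit 468) (nat_lit 255)) (XT.lf (nat_lit 0) (nat_lit 283467160211) (nat_lit 228) (nat_lit 385791701153) (nat_lit 304) (nat_lit 476599811577) (nat_lit 68) (nat_lit 5) (nat_lit 71) (nat_lit 5) (nat_lit 72) (nat_lit 5) (nat_lit 478) (nat_lit 468) (nat_lit 254)))) (XT.nd (nat_lit 156) (nat_lit 228) (nat_lit 0) (XT.nd (nat_lit 78) (nat_lit 228) (nat_lit 0) (XT.lf (nat_lit 0) (nat_lit 848088050645) (nat_lit 304) (nat_lit 231929096509) (nat_lit 76) (nat_lit 117112266615) (nat_lit 68) (nat_lit 5) (nat_lit 72) (nat_lit 5) (nat_lit 69) (nat_lit 5) (nat_lit 479) (nat_lit 468) (nat_lit 253)) (XT.lf (nat_lit 0) (nat_lit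 462064058440) (nat_lit 228) (nat_lit 600292726414) (nat_lit 304) (nat_lit 188454372228) (nat_lit 65) (nat_lit 5) (nat_lit 68) (nat_lit 5) (nat_lit 69) (nat_lit 5) (nat_lit 480) (nat_lit 468) (nat_lit 252))) (XT.nd (nat_lit 78) (nat_lit 228) (nat_lit 0) (XT.lf (nat_lit 0) (nat_lit 1224766672700) (nat_lit 228) (nat_lit 75341692277) (nat_lit 304) (nat_lit 8171767109) (nat_lit 65) (nat_lit 5) (nat_lit 68) (nat_lit 5) (nat_lit 69) (nat_lit 5) (nat_lit 481) (nat_lit 468) (nat_lit 251)) (XT.lf (nat_lit 0) (nat_lit 206639401644) (nat_lit 228) (nat_lit 671879904035) (nat_lit 76) (nat_lit 489113459610) (nat_lit 62) (nat_lit 5) (nat_lit 65) (nat_lit 5) (nat_lit 63) (nat_lit 5) (nat_lit 482) (nat_lit 468) (nat_lit 250))))))) (XT.nd (nat_lit 936) (nat_lit 988) (nat_lit 0) (XT.nd (nat_lit 468) (nat_lit 456) (nat_lit 0) (XT.nd (nat_lit 234) (nat_lit 380) (nat_lit 0) (XT.nd (nat_lit 78) (nat_lit 152) (nat_lit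 0) (XT.lf (nat_lit 0) (nat_lit 114035033190) (nat_lit 228) (nat_lit 331201125753) (nat_lit 304) (nat_lit 985917095292) (nat_lit 59) (nat_lit 5) (nat_lit 62) (nat_lit 5) (nat_lit 63) (nat_lit 5) (nat_lit 483) (nat_lit 468) (nat_lit 249)) (XT.nd (nat_lit 78) (nat_lit 152) (nat_lit 0) (XT.lf (nat_lit 0) (nat_lit 728018853886) (nat_lit 304) (nat_lit 503980001437) (nat_lit 76) (nat_lit 265748671209) (nat_lit 59) (nat_lit 5) (nat_lit 63) (nat_lit 5) (nat_lit 60) (nat_lit 5) (nat_lit 484) (nat_lit 468) (nat_lit 248)) (XT.lf (nat_lit 0) (nat_lit 384858840996) (nat_lit 152) (nat_lit 666423810111) (nat_lit 228) (nat_lit 516958010573) (nat_lit 57) (nat_lit 5) (nat_lit 59) (nat_lit 5) (nat_lit 60) (nat_lit 5) (nat_lit 485) (nat_lit 468) (nat_lit 247)))) (XT.nd (nat_lit 78) (nat_lit 380) (nat_lit 0) (XT.lf (nat_lit 0) (nat_lit 1373466574210) (nat_lit 152) (nat_lit 40720680104) (nat_lit 228) (nat_lit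 229083617149) (nat_lit 57) (nat_lit 5) (nat_lit 59) (nat_lit 5) (nat_lit 60) (nat_lit 5) (nat_lit 486) (nat_lit 468) (nat_lit 246)) (XT.nd (nat_lit 78) (nat_lit 152) (nat_lit 0) (XT.lf (nat_lit 0) (nat_lit 111620140850) (nat_lit 228) (nat_lit 985955533842) (nat_lit 76) (nat_lit 623859006718) (nat_lit 54) (nat_lit 5) (nat_lit 57) (nat_lit 5) (nat_lit 55) (nat_lit 5) (nat_lit 487) (nat_lit 468) (nat_lit 245)) (XT.lf (nat_lit 0) (nat_lit 25335712335) (nat_lit 152) (nat_lit 451103558394) (nat_lit 228) (nat_lit 1328197464574) (nat_lit 52) (nat_lit 5) (nat_lit 54) (nat_lit 5) (nat_lit 55) (nat_lit 5) (nat_lit 488) (nat_lit 468) (nat_lit 244))))) (XT.nd (nat_lit 234) (nat_lit 304) (nat_lit 0) (XT.nd (nat_lit 78) (nat_lit 152) (nat_lit 0) (XT.lf (nat_lit 0) (nat_lit 904044332800) (nat_lit 228) (nat_lit 725378548566) (nat_lit 76) (nat_lit 262384040000) (nat_lit 52) (nat_lit 5) (nat_lit 55) (nat_lit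 5) (nat_lit 53) (nat_lit 5) (nat_lit 489) (nat_lit 468) (nat_lit 243)) (XT.nd (nat_lit 78) (nat_lit 0) (nat_lit 0) (XT.lf (nat_lit 0) (nat_lit 422264103453) (nat_lit 152) (nat_lit 965466130313) (nat_lit 228) (nat_lit 596470693832) (nat_lit 50) (nat_lit 5) (nat_lit 52) (nat_lit 5) (nat_lit 53) (nat_lit 5) (nat_lit 490) (nat_lit 468) (nat_lit 242)) (XT.lf (nat_lit 0) (nat_lit 1702971083144) (nat_lit 152) (nat_lit 226973055340) (nat_lit 228) (nat_lit 152455665313) (nat_lit 50) (nat_lit 5) (nat_lit 52) (nat_lit 5) (nat_lit 53) (nat_lit 5) (nat_lit 491) (nat_lit 468) (nat_lit 241)))) (XT.nd (nat_lit 78) (nat_lit 152) (nat_lit 0) (XT.lf (nat_lit 0) (nat_lit 347757962897) (nat_lit 152) (nat_lit 1263865752810) (nat_lit 76) (nat_lit 573238427389) (nat_lit 48) (nat_lit 5) (nat_lit 50) (nat_lit 5) (nat_lit 49) (nat_lit 5) (nat_lit 492) (nat_lit 468) (nat_lit 240)) (XT.nd (nat_lit 78) (nat_lit 0) (nat_lit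 0) (XT.lf (nat_lit 0) (nat_lit 44440778407) (nat_lit 152) (nat_lit 852919254637) (nat_lit 228) (nat_lit 1396436012101) (nat_lit 46) (nat_lit 5) (nat_lit 48) (nat_lit 5) (nat_lit 49) (nat_lit 5) (nat_lit 493) (nat_lit 468) (nat_lit 239)) (XT.lf (nat_lit 0) (nat_lit 1525578043011) (nat_lit 228) (nat_lit 879482608623) (nat_lit 76) (nat_lit 3612185791) (nat_lit 46) (nat_lit 5) (nat_lit 49) (nat_lit 5) (nat_lit 47) (nat_lit 4) (nat_lit 494) (nat_lit 468) (nat_lit 238)))))) (XT.nd (nat_lit 468) (nat_lit 456) (nat_lit 0) (XT.nd (nat_lit 234) (nat_lit 228) (nat_lit 0) (XT.nd (nat_lit 78) (nat_lit 228) (nat_lit 0) (XT.lf (nat_lit 0) (nat_lit 608253409440) (nat_lit 76) (nat_lit 1632582337526) (nat_lit 152) (nat_lit 288961445864) (nat_lit 45) (nat_lit 5) (nat_lit 46) (nat_lit 5) (nat_lit 47) (nat_lit 4) (nat_lit 495) (nat_lit 468) (nat_lit 237)) (XT.nd (nat_lit 78) (nat_lit 152) (nat_lit 0) (XT.lf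 (nat_lit 0) (nat_lit 359730157204) (nat_lit 152) (nat_lit 402769600924) (nat_lit 76) (nat_lit 1895459442303) (nat_lit 44) (nat_lit 5) (nat_lit 46) (nat_lit 5) (nat_lit 45) (nat_lit 5) (nat_lit 496) (nat_lit 468) (nat_lit 236)) (XT.lf (nat_lit 0) (nat_lit 1081110098603) (nat_lit 228) (nat_lit 1503777064576) (nat_lit 76) (nat_lit 207974211400) (nat_lit 42) (nat_lit 5) (nat_lit 45) (nat_lit 5) (nat_lit 43) (nat_lit 4) (nat_lit 497) (nat_lit 468) (nat_lit 235)))) (XT.nd (nat_lit 78) (nat_lit 152) (nat_lit 0) (XT.lf (nat_lit 0) (nat_lit 190980034503) (nat_lit 76) (nat_lit 1704917133144) (nat_lit 152) (nat_lit 1039802816427) (nat_lit 41) (nat_lit 5) (nat_lit 42) (nat_lit 5) (nat_lit 43) (nat_lit 4) (nat_lit 498) (nat_lit 468) (nat_lit 234)) (XT.nd (nat_lit 78) (nat_lit 152) (nat_lit 0) (XT.lf (nat_lit 0) (nat_lit 2106838831229) (nat_lit 76) (nat_lit 710144298399) (nat_lit 152) (nat_lit 269693278506)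 (nat_lit 41) (nat_lit 5) (nat_lit 42) (nat_lit 5) (nat_lit 43) (nat_lit 4) (nat_lit 499) (nat_lit 468) (nat_lit 233)) (XT.lf (nat_lit 0) (nat_lit 566727582082) (nat_lit 152) (nat_lit 2295730779531) (nat_lit 76) (nat_lit 383565861084) (nat_lit 39) (nat_lit 5) (nat_lit 41) (nat_lit 5) (nat_lit 40) (nat_lit 4) (nat_lit 500) (nat_lit 468) (nat_lit 232))))) (XT.nd (nat_lit 234) (nat_lit 304) (nat_lit 0) (XT.nd (nat_lit 78) (nat_lit 152) (nat_lit 0) (XT.lf (nat_lit 0) (nat_lit 1501423326418) (nat_lit 152) (nat_lit 351563634644) (nat_lit 76) (nat_lit 1560897967190) (nat_lit 39) (nat_lit 5) (nat_lit 41) (nat_lit 5) (nat_lit 40) (nat_lit 4) (nat_lit 501) (nat_lit 468) (nat_lit 231)) (XT.nd (nat_lit 78) (nat_lit 76) (nat_lit 0) (XT.lf (nat_lit 0) (nat_lit 1840190667943) (nat_lit 76) (nat_lit 714960690047) (nat_lit 152) (nat_lit 1036482602045) (nat_lit 38) (nat_lit 5) (nat_lit 39) (nat_lit 5) (nat_lit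 40) (nat_lit 4) (nat_lit 502) (nat_lit 468) (nat_lit 230)) (XT.lf (nat_lit 0) (nat_lit 454570610479) (nat_lit 76) (nat_lit 3271765800567) (nat_lit 76) (nat_lit 54613800999) (nat_lit 37) (nat_lit 4) (nat_lit 38) (nat_lit 5) (nat_lit 38) (nat_lit 4) (nat_lit 503) (nat_lit 468) (nat_lit 229)))) (XT.nd (nat_lit 156) (nat_lit 152) (nat_lit 0) (XT.nd (nat_lit 78) (nat_lit 76) (nat_lit 0) (XT.lf (nat_lit 0) (nat_lit 1023191890985) (nat_lit 152) (nat_lit 1088912868766) (nat_lit 76) (nat_lit 1865955690528) (nat_lit 36) (nat_lit 5) (nat_lit 38) (nat_lit 5) (nat_lit 37) (nat_lit 4) (nat_lit 504) (nat_lit 468) (nat_lit 228)) (XT.lf (nat_lit 0) (nat_lit 1395964454412) (nat_lit 76) (nat_lit 821879996883) (nat_lit 152) (nat_lit 1970295734914) (nat_lit 35) (nat_lit 5) (nat_lit 36) (nat_lit 5) (nat_lit 37) (nat_lit 4) (nat_lit 505) (nat_lit 468) (nat_lit 227))) (XT.nd (nat_lit 78) (nat_lit 152) (nat_lit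 0) (XT.lf (nat_lit 0) (nat_lit 3552361439549) (nat_lit 152) (nat_lit 285604494421) (nat_lit 0) (nat_lit 573516989194) (nat_lit 35) (nat_lit 5) (nat_lit 37) (nat_lit 4) (nat_lit 35) (nat_lit 4) (nat_lit 506) (nat_lit 468) (nat_lit 226)) (XT.lf (nat_lit 0) (nat_lit 408134610674) (nat_lit 152) (nat_lit 2129924461951) (nat_lit 76) (nat_lit 2107238549284) (nat_lit 33) (nat_lit 5) (nat_lit 35) (nat_lit 5) (nat_lit 34) (nat_lit 4) (nat_lit 507) (nat_lit 468) (nat_lit 225))))))))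
noncomputable def xc227 : XT := (XT.nd (nat_lit 59826) (nat_lit 0) (nat_lit 1900) (XT.nd (nat_lit 936) (nat_lit 456) (nat_lit 0) (XT.nd (nat_lit 468) (nat_lit 380) (nat_lit 0) (XT.nd (nat_lit 234) (nat_lit 228) (nat_lit 0) (XT.nd (nat_lit 78) (nat_lit 76) (nat_lit 0) (XT.lf (nat_lit 0) (nat_lit 670502394177) (nat_lit 76) (nat_lit 1083991282744) (nat_lit 152) (nat_lit 3139607643385) (nat_lit 32) (nat_lit 5) (nat_lit 33) (nat_lit 5) (nat_lit 34) (nat_lit 4) (nat_lit 508) (nat_lit 468) (nat_lit 224)) (XT.nd (nat_lit 78) (nat_lit 76) (nat_lit 0) (XT.lf (nat_lit 0) (nat_lit 3280007975193) (nat_lit 152) (nat_lit 1355266954173) (nat_lit 0) (nat_lit 521818664671) (nat_lit 32) (nat_lit 5) (nat_lit 34) (nat_lit 4) (nat_lit 32) (nat_lit 4) (nat_lit 509) (nat_lit 468) (nat_lit 223)) (XT.lf (nat_lit 0) (nat_lit 1804651954272) (nat_lit 76) (nat_lit 3194469002058) (nat_lit 76) (nat_lit 436279690214) (nat_lit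 31) (nat_lit 4) (nat_lit 32) (nat_lit 5) (nat_lit 32) (nat_lit 4) (nat_lit 510) (nat_lit 468) (nat_lit 222)))) (XT.nd (nat_lit 78) (nat_lit 152) (nat_lit 0) (XT.lf (nat_lit 0) (nat_lit 1101792122647) (nat_lit 152) (nat_lit 466461697962) (nat_lit 76) (nat_lit 4162522533034) (nat_lit 30) (nat_lit 5) (nat_lit 32) (nat_lit 5) (nat_lit 31) (nat_lit 4) (nat_lit 511) (nat_lit 468) (nat_lit 221)) (XT.nd (nat_lit 78) (nat_lit 76) (nat_lit 0) (XT.lf (nat_lit 0) (nat_lit 2820510583098) (nat_lit 152) (nat_lit 2955239683524) (nat_lit 0) (nat_lit 266631588466) (nat_lit 29) (nat_lit 5) (nat_lit 31) (nat_lit 4) (nat_lit 29) (nat_lit 4) (nat_lit 512) (nat_lit 468) (nat_lit 220)) (XT.lf (nat_lit 0) (nat_lit 560647684801) (nat_lit 76) (nat_lit 4183381449181) (nat_lit 76) (nat_lit 1629502453577) (nat_lit 28) (nat_lit 4) (nat_lit 29) (nat_lit 5) (nat_lit 29) (nat_lit 4) (nat_lit 513) (nat_lit 468) (nat_lit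 219))))) (XT.nd (nat_lit 234) (nat_lit 228) (nat_lit 0) (XT.nd (nat_lit 78) (nat_lit 76) (nat_lit 0) (XT.lf (nat_lit 0) (nat_lit 168641134729) (nat_lit 152) (nat_lit 2203105436267) (nat_lit 76) (nat_lit 4352621056877) (nat_lit 27) (nat_lit 5) (nat_lit 29) (nat_lit 5) (nat_lit 28) (nat_lit 4) (nat_lit 514) (nat_lit 468) (nat_lit 218)) (XT.nd (nat_lit 78) (nat_lit 0) (nat_lit 0) (XT.lf (nat_lit 0) (nat_lit 1740181491749) (nat_lit 76) (nat_lit 324270666465) (nat_lit 152) (nat_lit 5032084301646) (nat_lit 26) (nat_lit 5) (nat_lit 27) (nat_lit 5) (nat_lit 28) (nat_lit 4) (nat_lit 515) (nat_lit 468) (nat_lit 217)) (XT.lf (nat_lit 0) (nat_lit 4219111936454) (nat_lit 152) (nat_lit 1416382991696) (nat_lit 0) (nat_lit 1854409160426) (nat_lit 26) (nat_lit 5) (nat_lit 28) (nat_lit 4) (nat_lit 26) (nat_lit 4) (nat_lit 516) (nat_lit 468) (nat_lit 216)))) (XT.nd (nat_lit 78) (nat_lit 152) (nat_lit 0) (XT.lf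 (nat_lit 0) (nat_lit 2979406084598) (nat_lit 76) (nat_lit 3646815813783) (nat_lit 76) (nat_lit 1282113037093) (nat_lit 25) (nat_lit 4) (nat_lit 26) (nat_lit 5) (nat_lit 26) (nat_lit 4) (nat_lit 517) (nat_lit 468) (nat_lit 215)) (XT.nd (nat_lit 78) (nat_lit 76) (nat_lit 0) (XT.lf (nat_lit 0) (nat_lit 862088868461) (nat_lit 152) (nat_lit 571557930902) (nat_lit 76) (nat_lit 6921749334407) (nat_lit 24) (nat_lit 5) (nat_lit 26) (nat_lit 5) (nat_lit 25) (nat_lit 4) (nat_lit 518) (nat_lit 468) (nat_lit 214)) (XT.lf (nat_lit 0) (nat_lit 3238952271164) (nat_lit 152) (nat_lit 4536761743726) (nat_lit 0) (nat_lit 1049412662025) (nat_lit 23) (nat_lit 5) (nat_lit 25) (nat_lit 4) (nat_lit 23) (nat_lit 4) (nat_lit 519) (nat_lit 468) (nat_lit 213)))))) (XT.nd (nat_lit 468) (nat_lit 152) (nat_lit 0) (XT.nd (nat_lit 234) (nat_lit 76) (nat_lit 0) (XT.nd (nat_lit 78) (nat_lit 152) (nat_lit 0) (XT.lf (nat_lit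 0) (nat_lit 211329216474) (nat_lit 76) (nat_lit 5652988893765) (nat_lit 76) (nat_lit 3463449284140) (nat_lit 22) (nat_lit 4) (nat_lit 23) (nat_lit 5) (nat_lit 23) (nat_lit 4) (nat_lit 520) (nat_lit 468) (nat_lit 212)) (XT.nd (nat_lit 78) (nat_lit 152) (nat_lit 0) (XT.lf (nat_lit 0) (nat_lit 5597277111476) (nat_lit 76) (nat_lit 3226479209729) (nat_lit 76) (nat_lit 1036939599654) (nat_lit 22) (nat_lit 4) (nat_lit 23) (nat_lit 5) (nat_lit 23) (nat_lit 4) (nat_lit 521) (nat_lit 468) (nat_lit 211)) (XT.lf (nat_lit 0) (nat_lit 989240099391) (nat_lit 76) (nat_lit 539019376513) (nat_lit 152) (nat_lit 8903048929525) (nat_lit 20) (nat_lit 5) (nat_lit 21) (nat_lit 5) (nat_lit 22) (nat_lit 4) (nat_lit 522) (nat_lit 468) (nat_lit 210)))) (XT.nd (nat_lit 78) (nat_lit 76) (nat_lit 0) (XT.lf (nat_lit 0) (nat_lit 4419090730061) (nat_lit 152) (nat_lit 4220470206555) (nat_lit 0) (nat_lit 2391739238507) (nat_lit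 20) (nat_lit 5) (nat_lit 22) (nat_lit 4) (nat_lit 20) (nat_lit 4) (nat_lit 523) (nat_lit 468) (nat_lit 209)) (XT.nd (nat_lit 78) (nat_lit 0) (nat_lit 0) (XT.lf (nat_lit 0) (nat_lit 1478832422663) (nat_lit 76) (nat_lit 6111922519503) (nat_lit 76) (nat_lit 4084571027618) (nat_lit 19) (nat_lit 4) (nat_lit 20) (nat_lit 5) (nat_lit 20) (nat_lit 4) (nat_lit 524) (nat_lit 468) (nat_lit 208)) (XT.lf (nat_lit 0) (nat_lit 7874101140551) (nat_lit 76) (nat_lit 3257446284477) (nat_lit 76) (nat_lit 1230094792286) (nat_lit 19) (nat_lit 4) (nat_lit 20) (nat_lit 5) (nat_lit 20) (nat_lit 4) (nat_lit 525) (nat_lit 468) (nat_lit 207))))) (XT.nd (nat_lit 58110) (nat_lit 0) (nat_lit 4408) (XT.nd (nat_lit 78) (nat_lit 0) (nat_lit 0) (XT.lf (nat_lit 0) (nat_lit 1719590015775) (nat_lit 76) (nat_lit 81824170883) (nat_lit 152) (nat_lit 11294576409120) (nat_lit 17) (nat_lit 5) (nat_lit 18) (nat_lit 5) (nat_lit 19)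 (nat_lit 4) (nat_lit 526) (nat_lit 468) (nat_lit 206)) (XT.nd (nat_lit 57954) (nat_lit 0) (nat_lit 4864) (XT.lf (nat_lit 0) (nat_lit 5215386900850) (nat_lit 152) (nat_lit 5316422302884) (nat_lit 0) (nat_lit 3338209592760) (nat_lit 17) (nat_lit 5) (nat_lit 19) (nat_lit 4) (nat_lit 17) (nat_lit 4) (nat_lit 527) (nat_lit 468) (nat_lit 205)) (XT.lf (nat_lit 0) (nat_lit 398383209754) (nat_lit 532) (nat_lit 6305902335) (nat_lit 532) (nat_lit 6305902335) (nat_lit 81) (nat_lit 3) (nat_lit 88) (nat_lit 3) (nat_lit 88) (nat_lit 5) (nat_lit 469) (nat_lit 469) (nat_lit 262)))) (XT.nd (nat_lit 156) (nat_lit 456) (nat_lit 0) (XT.nd (nat_lit 78) (nat_lit 0) (nat_lit 0) (XT.lf (nat_lit 76) (nat_lit 415902934192) (nat_lit 0) (nat_lit 422736708981) (nat_lit 532) (nat_lit 15429781454) (nat_lit 82) (nat_lit 5) (nat_lit 81) (nat_lit 3) (nat_lit 88) (nat_lit 5) (nat_lit 470) (nat_lit 469) (nat_lit 261)) (XT.lf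 (nat_lit 76) (nat_lit 879416091476) (nat_lit 0) (nat_lit 4791453084) (nat_lit 532) (nat_lit 4480041924) (nat_lit 82) (nat_lit 5) (nat_lit 81) (nat_lit 3) (nat_lit 88) (nat_lit 5) (nat_lit 471) (nat_lit 469) (nat_lit 260))) (XT.nd (nat_lit 78) (nat_lit 0) (nat_lit 0) (XT.lf (nat_lit 0) (nat_lit 29509215863) (nat_lit 532) (nat_lit 458532971740) (nat_lit 608) (nat_lit 436216400626) (nat_lit 75) (nat_lit 5) (nat_lit 82) (nat_lit 5) (nat_lit 83) (nat_lit 5) (nat_lit 472) (nat_lit 469) (nat_lit 259)) (XT.lf (nat_lit 76) (nat_lit 17208200414) (nat_lit 0) (nat_lit 49565761492) (nat_lit 608) (nat_lit 895828128129) (nat_lit 76) (nat_lit 5) (nat_lit 75) (nat_lit 5) (nat_lit 83) (nat_lit 5) (nat_lit 473) (nat_lit 469) (nat_lit 258))))))) (XT.nd (nat_lit 936) (nat_lit 1292) (nat_lit 0) (XT.nd (nat_lit 468) (nat_lit 684) (nat_lit 0) (XT.nd (nat_lit 234) (nat_lit 608) (nat_lit 0) (XT.nd (nat_lit 78) (nat_lit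 0) (nat_lit 0) (XT.lf (nat_lit 0) (nat_lit 130079563382) (nat_lit 532) (nat_lit 456446846716) (nat_lit 608) (nat_lit 415641887830) (nat_lit 76) (nat_lit 5) (nat_lit 83) (nat_lit 5) (nat_lit 84) (nat_lit 5) (nat_lit 474) (nat_lit 469) (nat_lit 257)) (XT.nd (nat_lit 78) (nat_lit 0) (nat_lit 76) (XT.lf (nat_lit 76) (nat_lit 74031907147) (nat_lit 0) (nat_lit 127485590243) (nat_lit 608) (nat_lit 843136874311) (nat_lit 77) (nat_lit 5) (nat_lit 76) (nat_lit 5) (nat_lit 84) (nat_lit 5) (nat_lit 475) (nat_lit 469) (nat_lit 256)) (XT.lf (nat_lit 0) (nat_lit 300331789318) (nat_lit 532) (nat_lit 425814698737) (nat_lit 76) (nat_lit 362659937466) (nat_lit 77) (nat_lit 5) (nat_lit 84) (nat_lit 5) (nat_lit 78) (nat_lit 5) (nat_lit 476) (nat_lit 469) (nat_lit 255)))) (XT.nd (nat_lit 78) (nat_lit 228) (nat_lit 0) (XT.lf (nat_lit 0) (nat_lit 167653053162) (nat_lit 456) (nat_lit 246741539227) (nat_lit 532)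 (nat_lit 721508581836) (nat_lit 71) (nat_lit 5) (nat_lit 77) (nat_lit 5) (nat_lit 78) (nat_lit 5) (nat_lit 477) (nat_lit 469) (nat_lit 254)) (XT.nd (nat_lit 78) (nat_lit 228) (nat_lit 0) (XT.lf (nat_lit 0) (nat_lit 556045282279) (nat_lit 532) (nat_lit 359841922285) (nat_lit 76) (nat_lit 269403429257) (nat_lit 71) (nat_lit 5) (nat_lit 78) (nat_lit 5) (nat_lit 72) (nat_lit 5) (nat_lit 478) (nat_lit 469) (nat_lit 253)) (XT.lf (nat_lit 0) (nat_lit 306144650837) (nat_lit 228) (nat_lit 416655028443) (nat_lit 304) (nat_lit 514727678752) (nat_lit 68) (nat_lit 5) (nat_lit 71) (nat_lit 5) (nat_lit 72) (nat_lit 5) (nat_lit 479) (nat_lit 469) (nat_lit 252))))) (XT.nd (nat_lit 234) (nat_lit 456) (nat_lit 0) (XT.nd (nat_lit 78) (nat_lit 228) (nat_lit 0) (XT.lf (nat_lit 0) (nat_lit 915935195826) (nat_lit 304) (nat_lit 250483307247) (nat_lit 76) (nat_lit 126481255686) (nat_lit 68) (nat_lit 5) (nat_lit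 72) (nat_lit 5) (nat_lit 69) (nat_lit 5) (nat_lit 480) (nat_lit 469) (nat_lit 251)) (XT.nd (nat_lit 78) (nat_lit 0) (nat_lit 0) (XT.lf (nat_lit 0) (nat_lit 499029297137) (nat_lit 228) (nat_lit 648316126886) (nat_lit 304) (nat_lit 203530617895) (nat_lit 65) (nat_lit 5) (nat_lit 68) (nat_lit 5) (nat_lit 69) (nat_lit 5) (nat_lit 481) (nat_lit 469) (nat_lit 250)) (XT.lf (nat_lit 0) (nat_lit 1322748112092) (nat_lit 228) (nat_lit 81369011325) (nat_lit 304) (nat_lit 8825412079) (nat_lit 65) (nat_lit 5) (nat_lit 68) (nat_lit 5) (nat_lit 69) (nat_lit 5) (nat_lit 482) (nat_lit 469) (nat_lit 249)))) (XT.nd (nat_lit 78) (nat_lit 228) (nat_lit 0) (XT.lf (nat_lit 0) (nat_lit 223170641643) (nat_lit 228) (nat_lit 725630182218) (nat_lit 76) (nat_lit 528242555605) (nat_lit 62) (nat_lit 5) (nat_lit 65) (nat_lit 5) (nat_lit 63) (nat_lit 5) (nat_lit 483) (nat_lit 469) (nat_lit 248)) (XT.nd (nat_lit 78) (nat_lit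 0) (nat_lit 0) (XT.lf (nat_lit 0) (nat_lit 123157947095) (nat_lit 228) (nat_lit 357697188598) (nat_lit 304) (nat_lit 1064790372142) (nat_lit 59) (nat_lit 5) (nat_lit 62) (nat_lit 5) (nat_lit 63) (nat_lit 5) (nat_lit 484) (nat_lit 469) (nat_lit 247)) (XT.lf (nat_lit 0) (nat_lit 786260440613) (nat_lit 304) (nat_lit 544298292910) (nat_lit 76) (nat_lit 287008588845) (nat_lit 59) (nat_lit 5) (nat_lit 63) (nat_lit 5) (nat_lit 60) (nat_lit 5) (nat_lit 485) (nat_lit 469) (nat_lit 246)))))) (XT.nd (nat_lit 468) (nat_lit 608) (nat_lit 0) (XT.nd (nat_lit 234) (nat_lit 304) (nat_lit 0) (XT.nd (nat_lit 78) (nat_lit 228) (nat_lit 0) (XT.lf (nat_lit 0) (nat_lit 415647654168) (nat_lit 152) (nat_lit 719737684182) (nat_lit 228) (nat_lit 558314570239) (nat_lit 57) (nat_lit 5) (nat_lit 59) (nat_lit 5) (nat_lit 60) (nat_lit 5) (nat_lit 486) (nat_lit 469) (nat_lit 245)) (XT.nd (nat_lit 78) (nat_lit 228) (nat_lit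 0) (XT.lf (nat_lit 0) (nat_lit 1483343998195) (nat_lit 152) (nat_lit 43978306052) (nat_lit 228) (nat_lit 247410231354) (nat_lit 57) (nat_lit 5) (nat_lit 59) (nat_lit 5) (nat_lit 60) (nat_lit 5) (nat_lit 487) (nat_lit 469) (nat_lit 244)) (XT.lf (nat_lit 0) (nat_lit 120549821360) (nat_lit 228) (nat_lit 1064831872557) (nat_lit 76) (nat_lit 673767756456) (nat_lit 54) (nat_lit 5) (nat_lit 57) (nat_lit 5) (nat_lit 55) (nat_lit 5) (nat_lit 488) (nat_lit 469) (nat_lit 243)))) (XT.nd (nat_lit 78) (nat_lit 152) (nat_lit 0) (XT.lf (nat_lit 0) (nat_lit 27362670682) (nat_lit 152) (nat_lit 487191808258) (nat_lit 228) (nat_lit 1434453189855) (nat_lit 52) (nat_lit 5) (nat_lit 54) (nat_lit 5) (nat_lit 55) (nat_lit 5) (nat_lit 489) (nat_lit 469) (nat_lit 242)) (XT.nd (nat_lit 78) (nat_lit 152) (nat_lit 0) (XT.lf (nat_lit 0) (nat_lit 976367941820) (nat_lit 228) (nat_lit 783408734437) (nat_lit 76) (nat_lit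 283374793818) (nat_lit 52) (nat_lit 5) (nat_lit 55) (nat_lit 5) (nat_lit 53) (nat_lit 5) (nat_lit 490) (nat_lit 469) (nat_lit 241)) (XT.lf (nat_lit 0) (nat_lit 456045327263) (nat_lit 152) (nat_lit 1042703385277) (nat_lit 228) (nat_lit 644188284453) (nat_lit 50) (nat_lit 5) (nat_lit 52) (nat_lit 5) (nat_lit 53) (nat_lit 5) (nat_lit 491) (nat_lit 469) (nat_lit 240))))) (XT.nd (nat_lit 234) (nat_lit 304) (nat_lit 0) (XT.nd (nat_lit 78) (nat_lit 304) (nat_lit 0) (XT.lf (nat_lit 0) (nat_lit 1839208858253) (nat_lit 152) (nat_lit 245130866932) (nat_lit 228) (nat_lit 164652058458) (nat_lit 50) (nat_lit 5) (nat_lit 52) (nat_lit 5) (nat_lit 53) (nat_lit 5) (nat_lit 492) (nat_lit 469) (nat_lit 239)) (XT.nd (nat_lit 78) (nat_lit 152) (nat_lit 0) (XT.lf (nat_lit 0) (nat_lit 375578655741) (nat_lit 152) (nat_lit 1364974920297) (nat_lit 76) (nat_lit 619097534034) (nat_lit 48) (nat_lit 5) (nat_lit 50) (nat_lit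 5) (nat_lit 49) (nat_lit 5) (nat_lit 493) (nat_lit 469) (nat_lit 238)) (XT.lf (nat_lit 0) (nat_lit 47996131070) (nat_lit 152) (nat_lit 921152758470) (nat_lit 228) (nat_lit 1508150834903) (nat_lit 46) (nat_lit 5) (nat_lit 48) (nat_lit 5) (nat_lit 49) (nat_lit 5) (nat_lit 494) (nat_lit 469) (nat_lit 237)))) (XT.nd (nat_lit 156) (nat_lit 228) (nat_lit 0) (XT.nd (nat_lit 78) (nat_lit 76) (nat_lit 0) (XT.lf (nat_lit 0) (nat_lit 1647624337128) (nat_lit 228) (nat_lit 949841130437) (nat_lit 76) (nat_lit 3901192794) (nat_lit 46) (nat_lit 5) (nat_lit 49) (nat_lit 5) (nat_lit 47) (nat_lit 4) (nat_lit 495) (nat_lit 469) (nat_lit 236)) (XT.lf (nat_lit 0) (nat_lit 656913766871) (nat_lit 76) (nat_lit 1763188888812) (nat_lit 152) (nat_lit 312078308652) (nat_lit 45) (nat_lit 5) (nat_lit 46) (nat_lit 5) (nat_lit 47) (nat_lit 4) (nat_lit 496) (nat_lit 469) (nat_lit 235))) (XT.nd (nat_lit 78) (nat_lit 152)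 (nat_lit 0) (XT.lf (nat_lit 0) (nat_lit 388508616296) (nat_lit 152) (nat_lit 434991088140) (nat_lit 76) (nat_lit 2047096228304) (nat_lit 44) (nat_lit 5) (nat_lit 46) (nat_lit 5) (nat_lit 45) (nat_lit 5) (nat_lit 497) (nat_lit 469) (nat_lit 234)) (XT.lf (nat_lit 0) (nat_lit 1167598952270) (nat_lit 228) (nat_lit 1624079148145) (nat_lit 76) (nat_lit 224612180465) (nat_lit 42) (nat_lit 5) (nat_lit 45) (nat_lit 5) (nat_lit 43) (nat_lit 4) (nat_lit 498) (nat_lit 469) (nat_lit 233))))))))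
noncomputable def xc228 : XT := (XT.nd (nat_lit 1950) (nat_lit 76) (nat_lit 0) (XT.nd (nat_lit 936) (nat_lit 912) (nat_lit 0) (XT.nd (nat_lit 468) (nat_lit 380) (nat_lit 0) (XT.nd (nat_lit 234) (nat_lit 152) (nat_lit 0) (XT.nd (nat_lit 78) (nat_lit 152) (nat_lit 0) (XT.lf (nat_lit 0) (nat_lit 206258516795) (nat_lit 76) (nat_lit 1841310468564) (nat_lit 152) (nat_lit 1122986993893) (nat_lit 41) (nat_lit 5) (nat_lit 42) (nat_lit 5) (nat_lit 43) (nat_lit 4) (nat_lit 499) (nat_lit 469) (nat_lit 232)) (XT.nd (nat_lit 78) (nat_lit 152) (nat_lit 0) (XT.lf (nat_lit 0) (nat_lit 2275386011368) (nat_lit 76) (nat_lit 766955809649) (nat_lit 152) (nat_lit 291268696482) (nat_lit 41) (nat_lit 5) (nat_lit 42) (nat_lit 5) (nat_lit 43) (nat_lit 4) (nat_lit 500) (nat_lit 469) (nat_lit 231)) (XT.lf (nat_lit 0) (nat_lit 612065830195) (nat_lit 152) (nat_lit 2479389165489) (nat_lit 76) (nat_lit 414251161502) (nat_lit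 39) (nat_lit 5) (nat_lit 41) (nat_lit 5) (nat_lit 40) (nat_lit 4) (nat_lit 501) (nat_lit 469) (nat_lit 230)))) (XT.nd (nat_lit 78) (nat_lit 152) (nat_lit 0) (XT.lf (nat_lit 0) (nat_lit 1621537231000) (nat_lit 152) (nat_lit 379688654671) (nat_lit 76) (nat_lit 1685769833760) (nat_lit 39) (nat_lit 5) (nat_lit 41) (nat_lit 5) (nat_lit 40) (nat_lit 4) (nat_lit 502) (nat_lit 469) (nat_lit 229)) (XT.nd (nat_lit 78) (nat_lit 76) (nat_lit 0) (XT.lf (nat_lit 0) (nat_lit 1987405990332) (nat_lit 76) (nat_lit 772157513575) (nat_lit 152) (nat_lit 1119401169946) (nat_lit 38) (nat_lit 5) (nat_lit 39) (nat_lit 5) (nat_lit 40) (nat_lit 4) (nat_lit 503) (nat_lit 469) (nat_lit 228)) (XT.lf (nat_lit 0) (nat_lit 490936328692) (nat_lit 76) (nat_lit 3533507032128) (nat_lit 76) (nat_lit 58982865235) (nat_lit 37) (nat_lit 4) (nat_lit 38) (nat_lit 5) (nat_lit 38) (nat_lit 4) (nat_lit 504) (nat_lit 469) (nat_lit 227)))))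 (XT.nd (nat_lit 234) (nat_lit 228) (nat_lit 0) (XT.nd (nat_lit 78) (nat_lit 76) (nat_lit 0) (XT.lf (nat_lit 0) (nat_lit 1105047277311) (nat_lit 152) (nat_lit 1176025832184) (nat_lit 76) (nat_lit 2015232174001) (nat_lit 36) (nat_lit 5) (nat_lit 38) (nat_lit 5) (nat_lit 37) (nat_lit 4) (nat_lit 505) (nat_lit 469) (nat_lit 226)) (XT.nd (nat_lit 78) (nat_lit 0) (nat_lit 0) (XT.lf (nat_lit 0) (nat_lit 1507641675176) (nat_lit 76) (nat_lit 887630366223) (nat_lit 152) (nat_lit 2127919356985) (nat_lit 35) (nat_lit 5) (nat_lit 36) (nat_lit 5) (nat_lit 37) (nat_lit 4) (nat_lit 506) (nat_lit 469) (nat_lit 225)) (XT.lf (nat_lit 0) (nat_lit 3836550386871) (nat_lit 152) (nat_lit 308452792492) (nat_lit 0) (nat_lit 619398375079) (nat_lit 35) (nat_lit 5) (nat_lit 37) (nat_lit 4) (nat_lit 35) (nat_lit 4) (nat_lit 507) (nat_lit 469) (nat_lit 224)))) (XT.nd (nat_lit 78) (nat_lit 76) (nat_lit 0) (XT.lf (nat_lit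 0) (nat_lit 440785411558) (nat_lit 152) (nat_lit 2300318357294) (nat_lit 76) (nat_lit 2275817660247) (nat_lit 33) (nat_lit 5) (nat_lit 35) (nat_lit 5) (nat_lit 34) (nat_lit 4) (nat_lit 508) (nat_lit 469) (nat_lit 223)) (XT.nd (nat_lit 78) (nat_lit 0) (nat_lit 0) (XT.lf (nat_lit 0) (nat_lit 724142645765) (nat_lit 76) (nat_lit 1170710556411) (nat_lit 152) (nat_lit 3390776221265) (nat_lit 32) (nat_lit 5) (nat_lit 33) (nat_lit 5) (nat_lit 34) (nat_lit 4) (nat_lit 509) (nat_lit 469) (nat_lit 222)) (XT.lf (nat_lit 0) (nat_lit 3542408642651) (nat_lit 152) (nat_lit 1463688253241) (nat_lit 0) (nat_lit 563564183312) (nat_lit 32) (nat_lit 5) (nat_lit 34) (nat_lit 4) (nat_lit 32) (nat_lit 4) (nat_lit 510) (nat_lit 469) (nat_lit 221)))))) (XT.nd (nat_lit 468) (nat_lit 456) (nat_lit 0) (XT.nd (nat_lit 234) (nat_lit 228) (nat_lit 0) (XT.nd (nat_lit 78) (nat_lit 152) (nat_lit 0) (XT.lf (nat_lit 0) (nat_lit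 1949024166431) (nat_lit 76) (nat_lit 3450026495011) (nat_lit 76) (nat_lit 471182034538) (nat_lit 31) (nat_lit 4) (nat_lit 32) (nat_lit 5) (nat_lit 32) (nat_lit 4) (nat_lit 511) (nat_lit 469) (nat_lit 220)) (XT.nd (nat_lit 78) (nat_lit 76) (nat_lit 0) (XT.lf (nat_lit 0) (nat_lit 1189935519633) (nat_lit 152) (nat_lit 503778580686) (nat_lit 76) (nat_lit 4495524359442) (nat_lit 30) (nat_lit 5) (nat_lit 32) (nat_lit 5) (nat_lit 31) (nat_lit 4) (nat_lit 512) (nat_lit 469) (nat_lit 219)) (XT.lf (nat_lit 0) (nat_lit 3046151456762) (nat_lit 152) (nat_lit 3191658804933) (nat_lit 0) (nat_lit 287962139637) (nat_lit 29) (nat_lit 5) (nat_lit 31) (nat_lit 4) (nat_lit 29) (nat_lit 4) (nat_lit 513) (nat_lit 469) (nat_lit 218)))) (XT.nd (nat_lit 78) (nat_lit 152) (nat_lit 0) (XT.lf (nat_lit 0) (nat_lit 605499551509) (nat_lit 76) (nat_lit 4518051939456) (nat_lit 76) (nat_lit 1759862621497) (nat_lit 28) (nat_lit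 4) (nat_lit 29) (nat_lit 5) (nat_lit 29) (nat_lit 4) (nat_lit 514) (nat_lit 469) (nat_lit 217)) (XT.nd (nat_lit 78) (nat_lit 76) (nat_lit 0) (XT.lf (nat_lit 0) (nat_lit 182132450458) (nat_lit 152) (nat_lit 2379353821776) (nat_lit 76) (nat_lit 4700830763872) (nat_lit 27) (nat_lit 5) (nat_lit 29) (nat_lit 5) (nat_lit 28) (nat_lit 4) (nat_lit 515) (nat_lit 469) (nat_lit 216)) (XT.lf (nat_lit 0) (nat_lit 1879396059230) (nat_lit 76) (nat_lit 350212295901) (nat_lit 152) (nat_lit 5434651019575) (nat_lit 26) (nat_lit 5) (nat_lit 27) (nat_lit 5) (nat_lit 28) (nat_lit 4) (nat_lit 516) (nat_lit 469) (nat_lit 215))))) (XT.nd (nat_lit 234) (nat_lit 304) (nat_lit 0) (XT.nd (nat_lit 78) (nat_lit 152) (nat_lit 0) (XT.lf (nat_lit 0) (nat_lit 4556640914365) (nat_lit 152) (nat_lit 1529693585190) (nat_lit 0) (nat_lit 2002761914266) (nat_lit 26) (nat_lit 5) (nat_lit 28) (nat_lit 4) (nat_lit 26) (nat_lit 4)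 (nat_lit 517) (nat_lit 469) (nat_lit 214)) (XT.nd (nat_lit 78) (nat_lit 76) (nat_lit 0) (XT.lf (nat_lit 0) (nat_lit 3217758616047) (nat_lit 76) (nat_lit 3938561056571) (nat_lit 76) (nat_lit 1384682055905) (nat_lit 25) (nat_lit 4) (nat_lit 26) (nat_lit 5) (nat_lit 26) (nat_lit 4) (nat_lit 518) (nat_lit 469) (nat_lit 213)) (XT.lf (nat_lit 0) (nat_lit 931055999186) (nat_lit 152) (nat_lit 617282522883) (nat_lit 76) (nat_lit 7475489300702) (nat_lit 24) (nat_lit 5) (nat_lit 26) (nat_lit 5) (nat_lit 25) (nat_lit 4) (nat_lit 519) (nat_lit 469) (nat_lit 212)))) (XT.nd (nat_lit 156) (nat_lit 152) (nat_lit 0) (XT.nd (nat_lit 78) (nat_lit 76) (nat_lit 0) (XT.lf (nat_lit 0) (nat_lit 3498068474026) (nat_lit 152) (nat_lit 4899702640654) (nat_lit 0) (nat_lit 1133365694694) (nat_lit 23) (nat_lit 5) (nat_lit 25) (nat_lit 4) (nat_lit 23) (nat_lit 4) (nat_lit 520) (nat_lit 469) (nat_lit 211)) (XT.lf (nat_lit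 0) (nat_lit 228235595285) (nat_lit 76) (nat_lit 6105227984373) (nat_lit 76) (nat_lit 3740525204624) (nat_lit 22) (nat_lit 4) (nat_lit 23) (nat_lit 5) (nat_lit 23) (nat_lit 4) (nat_lit 521) (nat_lit 469) (nat_lit 210))) (XT.nd (nat_lit 78) (nat_lit 152) (nat_lit 0) (XT.lf (nat_lit 0) (nat_lit 6045059318814) (nat_lit 76) (nat_lit 3484597527162) (nat_lit 76) (nat_lit 1119894747027) (nat_lit 22) (nat_lit 4) (nat_lit 23) (nat_lit 5) (nat_lit 23) (nat_lit 4) (nat_lit 522) (nat_lit 469) (nat_lit 209)) (XT.lf (nat_lit 0) (nat_lit 1068379345794) (nat_lit 76) (nat_lit 582140907227) (nat_lit 152) (nat_lit 9615292823319) (nat_lit 20) (nat_lit 5) (nat_lit 21) (nat_lit 5) (nat_lit 22) (nat_lit 4) (nat_lit 523) (nat_lit 469) (nat_lit 208))))))) (XT.nd (nat_lit 58968) (nat_lit 0) (nat_lit 2508) (XT.nd (nat_lit 58500) (nat_lit 0) (nat_lit 3952) (XT.nd (nat_lit 58266) (nat_lit 0) (nat_lit 4712) (XT.nd (nat_lit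 78) (nat_lit 76) (nat_lit 0) (XT.lf (nat_lit 0) (nat_lit 4772618006532) (nat_lit 152) (nat_lit 4558107786498) (nat_lit 0) (nat_lit 2583078394658) (nat_lit 20) (nat_lit 5) (nat_lit 22) (nat_lit 4) (nat_lit 20) (nat_lit 4) (nat_lit 524) (nat_lit 469) (nat_lit 207)) (XT.nd (nat_lit 78) (nat_lit 0) (nat_lit 0) (XT.lf (nat_lit 0) (nat_lit 1597139052132) (nat_lit 76) (nat_lit 6600876302992) (nat_lit 76) (nat_lit 4411336690835) (nat_lit 19) (nat_lit 4) (nat_lit 20) (nat_lit 5) (nat_lit 20) (nat_lit 4) (nat_lit 525) (nat_lit 469) (nat_lit 206)) (XT.lf (nat_lit 0) (nat_lit 8504029264809) (nat_lit 76) (nat_lit 3518041970503) (nat_lit 76) (nat_lit 1328502358083) (nat_lit 19) (nat_lit 4) (nat_lit 20) (nat_lit 5) (nat_lit 20) (nat_lit 4) (nat_lit 526) (nat_lit 469) (nat_lit 205)))) (XT.nd (nat_lit 78) (nat_lit 0) (nat_lit 0) (XT.lf (nat_lit 0) (nat_lit 430253955653) (nat_lit 532) (nat_lit 6810326385)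 (nat_lit 532) (nat_lit 6810326385) (nat_lit 81) (nat_lit 3) (nat_lit 88) (nat_lit 3) (nat_lit 88) (nat_lit 5) (nat_lit 470) (nat_lit 470) (nat_lit 260)) (XT.nd (nat_lit 78) (nat_lit 0) (nat_lit 0) (XT.lf (nat_lit 76) (nat_lit 449175262762) (nat_lit 0) (nat_lit 456555719157) (nat_lit 532) (nat_lit 16663983251) (nat_lit 82) (nat_lit 5) (nat_lit 81) (nat_lit 3) (nat_lit 88) (nat_lit 5) (nat_lit 471) (nat_lit 470) (nat_lit 259)) (XT.lf (nat_lit 76) (nat_lit 949769465679) (nat_lit 0) (nat_lit 5174837347) (nat_lit 532) (nat_lit 4838277946) (nat_lit 82) (nat_lit 5) (nat_lit 81) (nat_lit 3) (nat_lit 88) (nat_lit 5) (nat_lit 472) (nat_lit 470) (nat_lit 258))))) (XT.nd (nat_lit 234) (nat_lit 304) (nat_lit 0) (XT.nd (nat_lit 78) (nat_lit 0) (nat_lit 0) (XT.lf (nat_lit 0) (nat_lit 31870101193) (nat_lit 532) (nat_lit 495215503250) (nat_lit 608) (nat_lit 471113658964) (nat_lit 75) (nat_lit 5) (nat_lit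 82) (nat_lit 5) (nat_lit 83) (nat_lit 5) (nat_lit 473) (nat_lit 470) (nat_lit 257)) (XT.nd (nat_lit 78) (nat_lit 0) (nat_lit 76) (XT.lf (nat_lit 76) (nat_lit 18584959986) (nat_lit 0) (nat_lit 53531058455) (nat_lit 608) (nat_lit 967494227597) (nat_lit 76) (nat_lit 5) (nat_lit 75) (nat_lit 5) (nat_lit 83) (nat_lit 5) (nat_lit 474) (nat_lit 470) (nat_lit 256)) (XT.lf (nat_lit 0) (nat_lit 140486056894) (nat_lit 532) (nat_lit 492962487411) (nat_lit 608) (nat_lit 448893207152) (nat_lit 76) (nat_lit 5) (nat_lit 83) (nat_lit 5) (nat_lit 84) (nat_lit 5) (nat_lit 475) (nat_lit 470) (nat_lit 255)))) (XT.nd (nat_lit 78) (nat_lit 380) (nat_lit 0) (XT.lf (nat_lit 76) (nat_lit 79954564051) (nat_lit 0) (nat_lit 137684454566) (nat_lit 608) (nat_lit 910587693077) (nat_lit 77) (nat_lit 5) (nat_lit 76) (nat_lit 5) (nat_lit 84) (nat_lit 5) (nat_lit 476) (nat_lit 470) (nat_lit 254)) (XT.nd (nat_lit 78) (nat_lit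 456) (nat_lit 0) (XT.lf (nat_lit 0) (nat_lit 324358444523) (nat_lit 532) (nat_lit 459879768631) (nat_lit 76) (nat_lit 391672717418) (nat_lit 77) (nat_lit 5) (nat_lit 84) (nat_lit 5) (nat_lit 78) (nat_lit 5) (nat_lit 477) (nat_lit 470) (nat_lit 253)) (XT.lf (nat_lit 0) (nat_lit 181065400737) (nat_lit 456) (nat_lit 266480865288) (nat_lit 532) (nat_lit 779229153615) (nat_lit 71) (nat_lit 5) (nat_lit 77) (nat_lit 5) (nat_lit 78) (nat_lit 5) (nat_lit 478) (nat_lit 470) (nat_lit 252)))))) (XT.nd (nat_lit 468) (nat_lit 760) (nat_lit 0) (XT.nd (nat_lit 234) (nat_lit 456) (nat_lit 0) (XT.nd (nat_lit 78) (nat_lit 228) (nat_lit 0) (XT.lf (nat_lit 0) (nat_lit 600529003170) (nat_lit 532) (nat_lit 388629172443) (nat_lit 76) (nat_lit 290955701027) (nat_lit 71) (nat_lit 5) (nat_lit 78) (nat_lit 5) (nat_lit 72) (nat_lit 5) (nat_lit 479) (nat_lit 470) (nat_lit 251)) (XT.nd (nat_lit 78) (nat_lit 0) (nat_lit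 0) (XT.lf (nat_lit 0) (nat_lit 330636323906) (nat_lit 228) (nat_lit 449987423173) (nat_lit 304) (nat_lit 555905792099) (nat_lit 68) (nat_lit 5) (nat_lit 71) (nat_lit 5) (nat_lit 72) (nat_lit 5) (nat_lit 480) (nat_lit 470) (nat_lit 250)) (XT.lf (nat_lit 0) (nat_lit 989210098193) (nat_lit 304) (nat_lit 270521871533) (nat_lit 76) (nat_lit 136599762778) (nat_lit 68) (nat_lit 5) (nat_lit 72) (nat_lit 5) (nat_lit 69) (nat_lit 5) (nat_lit 481) (nat_lit 470) (nat_lit 249)))) (XT.nd (nat_lit 78) (nat_lit 228) (nat_lit 0) (XT.lf (nat_lit 0) (nat_lit 538951738663) (nat_lit 228) (nat_lit 700181401912) (nat_lit 304) (nat_lit 219812978069) (nat_lit 65) (nat_lit 5) (nat_lit 68) (nat_lit 5) (nat_lit 69) (nat_lit 5) (nat_lit 482) (nat_lit 470) (nat_lit 248)) (XT.nd (nat_lit 78) (nat_lit 228) (nat_lit 0) (XT.lf (nat_lit 0) (nat_lit 1428568051573) (nat_lit 228) (nat_lit 87878518226) (nat_lit 304) (nat_lit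 9531362399) (nat_lit 65) (nat_lit 5) (nat_lit 68) (nat_lit 5) (nat_lit 69) (nat_lit 5) (nat_lit 483) (nat_lit 470) (nat_lit 247)) (XT.lf (nat_lit 0) (nat_lit 241024368308) (nat_lit 228) (nat_lit 783680498939) (nat_lit 76) (nat_lit 570501976537) (nat_lit 62) (nat_lit 5) (nat_lit 65) (nat_lit 5) (nat_lit 63) (nat_lit 5) (nat_lit 484) (nat_lit 470) (nat_lit 246))))) (XT.nd (nat_lit 234) (nat_lit 380) (nat_lit 0) (XT.nd (nat_lit 78) (nat_lit 152) (nat_lit 0) (XT.lf (nat_lit 0) (nat_lit 133010678242) (nat_lit 228) (nat_lit 386312940354) (nat_lit 304) (nat_lit 1149973524091) (nat_lit 59) (nat_lit 5) (nat_lit 62) (nat_lit 5) (nat_lit 63) (nat_lit 5) (nat_lit 485) (nat_lit 470) (nat_lit 245)) (XT.nd (nat_lit 78) (nat_lit 152) (nat_lit 0) (XT.lf (nat_lit 0) (nat_lit 849161343091) (nat_lit 304) (nat_lit 587842063200) (nat_lit 76) (nat_lit 309969296476) (nat_lit 59) (nat_lit 5) (nat_lit 63) (nat_lit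 5) (nat_lit 60) (nat_lit 5) (nat_lit 486) (nat_lit 470) (nat_lit 244)) (XT.lf (nat_lit 0) (nat_lit 448899557286) (nat_lit 152) (nat_lit 777316672564) (nat_lit 228) (nat_lit 602979666260) (nat_lit 57) (nat_lit 5) (nat_lit 59) (nat_lit 5) (nat_lit 60) (nat_lit 5) (nat_lit 487) (nat_lit 470) (nat_lit 243)))) (XT.nd (nat_lit 156) (nat_lit 152) (nat_lit 0) (XT.nd (nat_lit 78) (nat_lit 228) (nat_lit 0) (XT.lf (nat_lit 0) (nat_lit 1602011602110) (nat_lit 152) (nat_lit 47496546136) (nat_lit 228) (nat_lit 267202985420) (nat_lit 57) (nat_lit 5) (nat_lit 59) (nat_lit 5) (nat_lit 60) (nat_lit 5) (nat_lit 488) (nat_lit 470) (nat_lit 242)) (XT.lf (nat_lit 0) (nat_lit 130193866434) (nat_lit 228) (nat_lit 1150018333204) (nat_lit 76) (nat_lit 727669202007) (nat_lit 54) (nat_lit 5) (nat_lit 57) (nat_lit 5) (nat_lit 55) (nat_lit 5) (nat_lit 489) (nat_lit 470) (nat_lit 241))) (XT.nd (nat_lit 78) (nat_lit 0)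 (nat_lit 0) (XT.lf (nat_lit 0) (nat_lit 29551771236) (nat_lit 152) (nat_lit 526167123076) (nat_lit 228) (nat_lit 1549209383413) (nat_lit 52) (nat_lit 5) (nat_lit 54) (nat_lit 5) (nat_lit 55) (nat_lit 5) (nat_lit 490) (nat_lit 470) (nat_lit 240)) (XT.lf (nat_lit 0) (nat_lit 1054477430661) (nat_lit 228) (nat_lit 846081349159) (nat_lit 76) (nat_lit 306044803573) (nat_lit 52) (nat_lit 5) (nat_lit 55) (nat_lit 5) (nat_lit 53) (nat_lit 5) (nat_lit 491) (nat_lit 470) (nat_lit 239))))))))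
noncomputable def xc229 : XT := (XT.nd (nat_lit 1950) (nat_lit 608) (nat_lit 0) (XT.nd (nat_lit 936) (nat_lit 912) (nat_lit 0) (XT.nd (nat_lit 468) (nat_lit 456) (nat_lit 0) (XT.nd (nat_lit 234) (nat_lit 228) (nat_lit 0) (XT.nd (nat_lit 78) (nat_lit 152) (nat_lit 0) (XT.lf (nat_lit 0) (nat_lit 492529035349) (nat_lit 152) (nat_lit 1126119625697) (nat_lit 228) (nat_lit 695723291580) (nat_lit 50) (nat_lit 5) (nat_lit 52) (nat_lit 5) (nat_lit 53) (nat_lit 5) (nat_lit 492) (nat_lit 470) (nat_lit 238)) (XT.nd (nat_lit 78) (nat_lit 152) (nat_lit 0) (XT.lf (nat_lit 0) (nat_lit 1986345642751) (nat_lit 152) (nat_lit 264741308136) (nat_lit 228) (nat_lit 177824171626) (nat_lit 50) (nat_lit 5) (nat_lit 52) (nat_lit 5) (nat_lit 53) (nat_lit 5) (nat_lit 493) (nat_lit 470) (nat_lit 237)) (XT.lf (nat_lit 0) (nat_lit 405624996050) (nat_lit 152) (nat_lit 1474172834413) (nat_lit 76) (nat_lit 668625364581)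 (nat_lit 48) (nat_lit 5) (nat_lit 50) (nat_lit 5) (nat_lit 49) (nat_lit 5) (nat_lit 494) (nat_lit 470) (nat_lit 236)))) (XT.nd (nat_lit 78) (nat_lit 76) (nat_lit 0) (XT.lf (nat_lit 0) (nat_lit 51835899051) (nat_lit 152) (nat_lit 994844947823) (nat_lit 228) (nat_lit 1628802851827) (nat_lit 46) (nat_lit 5) (nat_lit 48) (nat_lit 5) (nat_lit 49) (nat_lit 5) (nat_lit 495) (nat_lit 470) (nat_lit 235)) (XT.nd (nat_lit 78) (nat_lit 76) (nat_lit 0) (XT.lf (nat_lit 0) (nat_lit 1779434327545) (nat_lit 228) (nat_lit 1025828346391) (nat_lit 76) (nat_lit 4213315772) (nat_lit 46) (nat_lit 5) (nat_lit 49) (nat_lit 5) (nat_lit 47) (nat_lit 4) (nat_lit 496) (nat_lit 470) (nat_lit 234)) (XT.lf (nat_lit 0) (nat_lit 709466940817) (nat_lit 76) (nat_lit 1904243969295) (nat_lit 152) (nat_lit 337044528007) (nat_lit 45) (nat_lit 5) (nat_lit 46) (nat_lit 5) (nat_lit 47) (nat_lit 4) (nat_lit 497) (nat_lit 470) (nat_lit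 233))))) (XT.nd (nat_lit 234) (nat_lit 152) (nat_lit 0) (XT.nd (nat_lit 78) (nat_lit 228) (nat_lit 0) (XT.lf (nat_lit 0) (nat_lit 419589345478) (nat_lit 152) (nat_lit 469790305869) (nat_lit 76) (nat_lit 2210863952818) (nat_lit 44) (nat_lit 5) (nat_lit 46) (nat_lit 5) (nat_lit 45) (nat_lit 5) (nat_lit 498) (nat_lit 470) (nat_lit 232)) (XT.nd (nat_lit 78) (nat_lit 76) (nat_lit 0) (XT.lf (nat_lit 0) (nat_lit 1261006907699) (nat_lit 228) (nat_lit 1754005410039) (nat_lit 76) (nat_lit 242581182468) (nat_lit 42) (nat_lit 5) (nat_lit 45) (nat_lit 5) (nat_lit 43) (nat_lit 4) (nat_lit 499) (nat_lit 470) (nat_lit 231)) (XT.lf (nat_lit 0) (nat_lit 222759266324) (nat_lit 76) (nat_lit 1988615275843) (nat_lit 152) (nat_lit 1212825912383) (nat_lit 41) (nat_lit 5) (nat_lit 42) (nat_lit 5) (nat_lit 43) (nat_lit 4) (nat_lit 500) (nat_lit 470) (nat_lit 230)))) (XT.nd (nat_lit 78) (nat_lit 152) (nat_lit 0)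 (XT.lf (nat_lit 0) (nat_lit 2457416955413) (nat_lit 76) (nat_lit 828312246453) (nat_lit 152) (nat_lit 314570154218) (nat_lit 41) (nat_lit 5) (nat_lit 42) (nat_lit 5) (nat_lit 43) (nat_lit 4) (nat_lit 501) (nat_lit 470) (nat_lit 229)) (XT.nd (nat_lit 78) (nat_lit 0) (nat_lit 0) (XT.lf (nat_lit 0) (nat_lit 661031132230) (nat_lit 152) (nat_lit 2677740233224) (nat_lit 76) (nat_lit 447391281455) (nat_lit 39) (nat_lit 5) (nat_lit 41) (nat_lit 5) (nat_lit 40) (nat_lit 4) (nat_lit 502) (nat_lit 470) (nat_lit 228)) (XT.lf (nat_lit 0) (nat_lit 1751260242461) (nat_lit 152) (nat_lit 410063686393) (nat_lit 76) (nat_lit 1820631445492) (nat_lit 39) (nat_lit 5) (nat_lit 41) (nat_lit 5) (nat_lit 40) (nat_lit 4) (nat_lit 503) (nat_lit 470) (nat_lit 227)))))) (XT.nd (nat_lit 468) (nat_lit 456) (nat_lit 0) (XT.nd (nat_lit 234) (nat_lit 228) (nat_lit 0) (XT.nd (nat_lit 78) (nat_lit 152) (nat_lit 0) (XT.lf (nat_lit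 0) (nat_lit 2146398528675) (nat_lit 76) (nat_lit 833930087504) (nat_lit 152) (nat_lit 1208953229023) (nat_lit 38) (nat_lit 5) (nat_lit 39) (nat_lit 5) (nat_lit 40) (nat_lit 4) (nat_lit 504) (nat_lit 470) (nat_lit 226)) (XT.nd (nat_lit 78) (nat_lit 76) (nat_lit 0) (XT.lf (nat_lit 0) (nat_lit 530211294465) (nat_lit 76) (nat_lit 3816187566848) (nat_lit 76) (nat_lit 63701460294) (nat_lit 37) (nat_lit 4) (nat_lit 38) (nat_lit 5) (nat_lit 38) (nat_lit 4) (nat_lit 505) (nat_lit 470) (nat_lit 225)) (XT.lf (nat_lit 0) (nat_lit 1193451089543) (nat_lit 152) (nat_lit 1270107842103) (nat_lit 76) (nat_lit 2176450772124) (nat_lit 36) (nat_lit 5) (nat_lit 38) (nat_lit 5) (nat_lit 37) (nat_lit 4) (nat_lit 506) (nat_lit 470) (nat_lit 224)))) (XT.nd (nat_lit 78) (nat_lit 152) (nat_lit 0) (XT.lf (nat_lit 0) (nat_lit 1628253064412) (nat_lit 76) (nat_lit 958640769449) (nat_lit 152) (nat_lit 2298152874061) (nat_lit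 35) (nat_lit 5) (nat_lit 36) (nat_lit 5) (nat_lit 37) (nat_lit 4) (nat_lit 507) (nat_lit 470) (nat_lit 223)) (XT.nd (nat_lit 78) (nat_lit 152) (nat_lit 0) (XT.lf (nat_lit 0) (nat_lit 4143474445392) (nat_lit 152) (nat_lit 333128963181) (nat_lit 0) (nat_lit 668950268019) (nat_lit 35) (nat_lit 5) (nat_lit 37) (nat_lit 4) (nat_lit 35) (nat_lit 4) (nat_lit 508) (nat_lit 470) (nat_lit 222)) (XT.lf (nat_lit 0) (nat_lit 476048271943) (nat_lit 152) (nat_lit 2484343773053) (nat_lit 76) (nat_lit 2457883096232) (nat_lit 33) (nat_lit 5) (nat_lit 35) (nat_lit 5) (nat_lit 34) (nat_lit 4) (nat_lit 509) (nat_lit 470) (nat_lit 221))))) (XT.nd (nat_lit 234) (nat_lit 304) (nat_lit 0) (XT.nd (nat_lit 78) (nat_lit 76) (nat_lit 0) (XT.lf (nat_lit 0) (nat_lit 782074108913) (nat_lit 76) (nat_lit 1264367376102) (nat_lit 152) (nat_lit 3662038290167) (nat_lit 32) (nat_lit 5) (nat_lit 33) (nat_lit 5) (nat_lit 34) (nat_lit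 4) (nat_lit 510) (nat_lit 470) (nat_lit 220)) (XT.nd (nat_lit 78) (nat_lit 76) (nat_lit 0) (XT.lf (nat_lit 0) (nat_lit 3825801359305) (nat_lit 152) (nat_lit 1580783264403) (nat_lit 0) (nat_lit 608649339810) (nat_lit 32) (nat_lit 5) (nat_lit 34) (nat_lit 4) (nat_lit 32) (nat_lit 4) (nat_lit 511) (nat_lit 470) (nat_lit 219)) (XT.lf (nat_lit 0) (nat_lit 2104946147599) (nat_lit 76) (nat_lit 3726028591282) (nat_lit 76) (nat_lit 508876570815) (nat_lit 31) (nat_lit 4) (nat_lit 32) (nat_lit 5) (nat_lit 32) (nat_lit 4) (nat_lit 512) (nat_lit 470) (nat_lit 218)))) (XT.nd (nat_lit 156) (nat_lit 152) (nat_lit 0) (XT.nd (nat_lit 78) (nat_lit 76) (nat_lit 0) (XT.lf (nat_lit 0) (nat_lit 1285130384501) (nat_lit 152) (nat_lit 544080821604) (nat_lit 76) (nat_lit 4855166328571) (nat_lit 30) (nat_lit 5) (nat_lit 32) (nat_lit 5) (nat_lit 31) (nat_lit 4) (nat_lit 513) (nat_lit 470) (nat_lit 217)) (XT.lf (nat_lit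 0) (nat_lit 3289843596465) (nat_lit 152) (nat_lit 3446991463655) (nat_lit 0) (nat_lit 310999131464) (nat_lit 29) (nat_lit 5) (nat_lit 31) (nat_lit 4) (nat_lit 29) (nat_lit 4) (nat_lit 514) (nat_lit 470) (nat_lit 216))) (XT.nd (nat_lit 78) (nat_lit 76) (nat_lit 0) (XT.lf (nat_lit 0) (nat_lit 653939560146) (nat_lit 76) (nat_lit 4879496072613) (nat_lit 76) (nat_lit 1900651606897) (nat_lit 28) (nat_lit 4) (nat_lit 29) (nat_lit 5) (nat_lit 29) (nat_lit 4) (nat_lit 515) (nat_lit 470) (nat_lit 215)) (XT.lf (nat_lit 0) (nat_lit 196703067886) (nat_lit 152) (nat_lit 2569702085172) (nat_lit 76) (nat_lit 5076897244224) (nat_lit 27) (nat_lit 5) (nat_lit 29) (nat_lit 5) (nat_lit 28) (nat_lit 4) (nat_lit 516) (nat_lit 470) (nat_lit 214))))))) (XT.nd (nat_lit 59046) (nat_lit 0) (nat_lit 3268) (XT.nd (nat_lit 468) (nat_lit 228) (nat_lit 0) (XT.nd (nat_lit 234) (nat_lit 228) (nat_lit 0) (XT.nd (nat_lit 78)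 (nat_lit 76) (nat_lit 0) (XT.lf (nat_lit 0) (nat_lit 2029747785243) (nat_lit 76) (nat_lit 378229259099) (nat_lit 152) (nat_lit 5869423078677) (nat_lit 26) (nat_lit 5) (nat_lit 27) (nat_lit 5) (nat_lit 28) (nat_lit 4) (nat_lit 517) (nat_lit 470) (nat_lit 213)) (XT.nd (nat_lit 78) (nat_lit 76) (nat_lit 0) (XT.lf (nat_lit 0) (nat_lit 4921172207229) (nat_lit 152) (nat_lit 1652069032704) (nat_lit 0) (nat_lit 2162982885417) (nat_lit 26) (nat_lit 5) (nat_lit 28) (nat_lit 4) (nat_lit 26) (nat_lit 4) (nat_lit 518) (nat_lit 470) (nat_lit 212)) (XT.lf (nat_lit 0) (nat_lit 3475179343638) (nat_lit 76) (nat_lit 4253645921965) (nat_lit 76) (nat_lit 1495456599667) (nat_lit 25) (nat_lit 4) (nat_lit 26) (nat_lit 5) (nat_lit 26) (nat_lit 4) (nat_lit 519) (nat_lit 470) (nat_lit 211)))) (XT.nd (nat_lit 78) (nat_lit 152) (nat_lit 0) (XT.lf (nat_lit 0) (nat_lit 1005540497338) (nat_lit 152) (nat_lit 666665088285)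 (nat_lit 76) (nat_lit 8073528461513) (nat_lit 24) (nat_lit 5) (nat_lit 26) (nat_lit 5) (nat_lit 25) (nat_lit 4) (nat_lit 520) (nat_lit 470) (nat_lit 210)) (XT.nd (nat_lit 78) (nat_lit 76) (nat_lit 0) (XT.lf (nat_lit 0) (nat_lit 3777913970097) (nat_lit 152) (nat_lit 5291678815410) (nat_lit 0) (nat_lit 1224034967166) (nat_lit 23) (nat_lit 5) (nat_lit 25) (nat_lit 4) (nat_lit 23) (nat_lit 4) (nat_lit 521) (nat_lit 470) (nat_lit 209)) (XT.lf (nat_lit 0) (nat_lit 246494478481) (nat_lit 76) (nat_lit 6593646205210) (nat_lit 76) (nat_lit 4039767201921) (nat_lit 22) (nat_lit 4) (nat_lit 23) (nat_lit 5) (nat_lit 23) (nat_lit 4) (nat_lit 522) (nat_lit 470) (nat_lit 208))))) (XT.nd (nat_lit 234) (nat_lit 76) (nat_lit 0) (XT.nd (nat_lit 78) (nat_lit 152) (nat_lit 0) (XT.lf (nat_lit 0) (nat_lit 6528664097257) (nat_lit 76) (nat_lit 3763365312749) (nat_lit 76) (nat_lit 1209486309129) (nat_lit 22) (nat_lit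 4) (nat_lit 23) (nat_lit 5) (nat_lit 23) (nat_lit 4) (nat_lit 523) (nat_lit 470) (nat_lit 207)) (XT.nd (nat_lit 78) (nat_lit 0) (nat_lit 0) (XT.lf (nat_lit 0) (nat_lit 1153849726423) (nat_lit 76) (nat_lit 628712163167) (nat_lit 152) (nat_lit 10384516231551) (nat_lit 20) (nat_lit 5) (nat_lit 21) (nat_lit 5) (nat_lit 22) (nat_lit 4) (nat_lit 524) (nat_lit 470) (nat_lit 206)) (XT.lf (nat_lit 0) (nat_lit 5154427462543) (nat_lit 152) (nat_lit 4922756378055) (nat_lit 0) (nat_lit 2789724680867) (nat_lit 20) (nat_lit 5) (nat_lit 22) (nat_lit 4) (nat_lit 20) (nat_lit 4) (nat_lit 525) (nat_lit 470) (nat_lit 205)))) (XT.nd (nat_lit 58188) (nat_lit 0) (nat_lit 4712) (XT.lf (nat_lit 0) (nat_lit 1724910206872) (nat_lit 76) (nat_lit 7128946391739) (nat_lit 76) (nat_lit 4764243609820) (nat_lit 19) (nat_lit 4) (nat_lit 20) (nat_lit 5) (nat_lit 20) (nat_lit 4) (nat_lit 526) (nat_lit 470) (nat_lit 204)) (XT.nd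 (nat_lit 78) (nat_lit 0) (nat_lit 0) (XT.lf (nat_lit 0) (nat_lit 464674348511) (nat_lit 532) (nat_lit 7355111227) (nat_lit 532) (nat_lit 7355111227) (nat_lit 81) (nat_lit 3) (nat_lit 88) (nat_lit 3) (nat_lit 88) (nat_lit 5) (nat_lit 471) (nat_lit 471) (nat_lit 258)) (XT.lf (nat_lit 76) (nat_lit 485109364232) (nat_lit 0) (nat_lit 493080239666) (nat_lit 532) (nat_lit 17996946974) (nat_lit 82) (nat_lit 5) (nat_lit 81) (nat_lit 3) (nat_lit 88) (nat_lit 5) (nat_lit 472) (nat_lit 471) (nat_lit 257)))))) (XT.nd (nat_lit 468) (nat_lit 988) (nat_lit 0) (XT.nd (nat_lit 234) (nat_lit 0) (nat_lit 76) (XT.nd (nat_lit 78) (nat_lit 456) (nat_lit 0) (XT.lf (nat_lit 76) (nat_lit 1025751097422) (nat_lit 0) (nat_lit 5588882647) (nat_lit 532) (nat_lit 5225196721) (nat_lit 82) (nat_lit 5) (nat_lit 81) (nat_lit 3) (nat_lit 88) (nat_lit 5) (nat_lit 473) (nat_lit 471) (nat_lit 256)) (XT.nd (nat_lit 78) (nat_lit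 0) (nat_lit 0) (XT.lf (nat_lit 0) (nat_lit 34419836227) (nat_lit 532) (nat_lit 534832652436) (nat_lit 608) (nat_lit 508802705632) (nat_lit 75) (nat_lit 5) (nat_lit 82) (nat_lit 5) (nat_lit 83) (nat_lit 5) (nat_lit 474) (nat_lit 471) (nat_lit 255)) (XT.lf (nat_lit 76) (nat_lit 20071845553) (nat_lit 0) (nat_lit 57813574034) (nat_lit 608) (nat_lit 1044893636533) (nat_lit 76) (nat_lit 5) (nat_lit 75) (nat_lit 5) (nat_lit 83) (nat_lit 5) (nat_lit 475) (nat_lit 471) (nat_lit 254)))) (XT.nd (nat_lit 78) (nat_lit 0) (nat_lit 0) (XT.lf (nat_lit 0) (nat_lit 151725051563) (nat_lit 532) (nat_lit 532399394633) (nat_lit 608) (nat_lit 484804636542) (nat_lit 76) (nat_lit 5) (nat_lit 83) (nat_lit 5) (nat_lit 84) (nat_lit 5) (nat_lit 476) (nat_lit 471) (nat_lit 253)) (XT.nd (nat_lit 78) (nat_lit 0) (nat_lit 76) (XT.lf (nat_lit 76) (nat_lit 86351018622) (nat_lit 0) (nat_lit 148699225596) (nat_lit 608) (nat_lit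 983434596059) (nat_lit 77) (nat_lit 5) (nat_lit 76) (nat_lit 5) (nat_lit 84) (nat_lit 5) (nat_lit 477) (nat_lit 471) (nat_lit 252)) (XT.lf (nat_lit 0) (nat_lit 350307216159) (nat_lit 532) (nat_lit 496670059238) (nat_lit 76) (nat_lit 423006521913) (nat_lit 77) (nat_lit 5) (nat_lit 84) (nat_lit 5) (nat_lit 78) (nat_lit 5) (nat_lit 478) (nat_lit 471) (nat_lit 251))))) (XT.nd (nat_lit 234) (nat_lit 456) (nat_lit 0) (XT.nd (nat_lit 78) (nat_lit 228) (nat_lit 0) (XT.lf (nat_lit 0) (nat_lit 195550721378) (nat_lit 456) (nat_lit 287799337016) (nat_lit 532) (nat_lit 841567387510) (nat_lit 71) (nat_lit 5) (nat_lit 77) (nat_lit 5) (nat_lit 78) (nat_lit 5) (nat_lit 479) (nat_lit 471) (nat_lit 250)) (XT.nd (nat_lit 78) (nat_lit 228) (nat_lit 0) (XT.lf (nat_lit 0) (nat_lit 648571407708) (nat_lit 532) (nat_lit 419719417396) (nat_lit 76) (nat_lit 314232154905) (nat_lit 71) (nat_lit 5) (nat_lit 78) (nat_lit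 5) (nat_lit 72) (nat_lit 5) (nat_lit 480) (nat_lit 471) (nat_lit 249)) (XT.lf (nat_lit 0) (nat_lit 357087316412) (nat_lit 228) (nat_lit 485986410557) (nat_lit 304) (nat_lit 600378168916) (nat_lit 68) (nat_lit 5) (nat_lit 71) (nat_lit 5) (nat_lit 72) (nat_lit 5) (nat_lit 481) (nat_lit 471) (nat_lit 248)))) (XT.nd (nat_lit 156) (nat_lit 228) (nat_lit 0) (XT.nd (nat_lit 78) (nat_lit 228) (nat_lit 0) (XT.lf (nat_lit 0) (nat_lit 1068346980381) (nat_lit 304) (nat_lit 292163535269) (nat_lit 76) (nat_lit 147527749491) (nat_lit 68) (nat_lit 5) (nat_lit 72) (nat_lit 5) (nat_lit 69) (nat_lit 5) (nat_lit 482) (nat_lit 471) (nat_lit 247)) (XT.lf (nat_lit 0) (nat_lit 582067961565) (nat_lit 228) (nat_lit 756195901098) (nat_lit 304) (nat_lit 237397939790) (nat_lit 65) (nat_lit 5) (nat_lit 68) (nat_lit 5) (nat_lit 69) (nat_lit 5) (nat_lit 483) (nat_lit 471) (nat_lit 246))) (XT.nd (nat_lit 78) (nat_lit 228)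 (nat_lit 0) (XT.lf (nat_lit 0) (nat_lit 1542853573300) (nat_lit 228) (nat_lit 94908787678) (nat_lit 304) (nat_lit 10293800535) (nat_lit 65) (nat_lit 5) (nat_lit 68) (nat_lit 5) (nat_lit 69) (nat_lit 5) (nat_lit 484) (nat_lit 471) (nat_lit 245)) (XT.lf (nat_lit 0) (nat_lit 260306382358) (nat_lit 228) (nat_lit 846374854958) (nat_lit 76) (nat_lit 616142148792) (nat_lit 62) (nat_lit 5) (nat_lit 65) (nat_lit 5) (nat_lit 63) (nat_lit 5) (nat_lit 485) (nat_lit 471) (nat_lit 244))))))))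
noncomputable def xc230 : XT := (XT.nd (nat_lit 1950) (nat_lit 988) (nat_lit 0) (XT.nd (nat_lit 936) (nat_lit 988) (nat_lit 0) (XT.nd (nat_lit 468) (nat_lit 456) (nat_lit 0) (XT.nd (nat_lit 234) (nat_lit 380) (nat_lit 0) (XT.nd (nat_lit 78) (nat_lit 152) (nat_lit 0) (XT.lf (nat_lit 0) (nat_lit 143651614273) (nat_lit 228) (nat_lit 417217955578) (nat_lit 304) (nat_lit 1241971339297) (nat_lit 59) (nat_lit 5) (nat_lit 62) (nat_lit 5) (nat_lit 63) (nat_lit 5) (nat_lit 486) (nat_lit 471) (nat_lit 243)) (XT.nd (nat_lit 78) (nat_lit 152) (nat_lit 0) (XT.lf (nat_lit 0) (nat_lit 917094308177) (nat_lit 304) (nat_lit 634869348400) (nat_lit 76) (nat_lit 334766857790) (nat_lit 59) (nat_lit 5) (nat_lit 63) (nat_lit 5) (nat_lit 60) (nat_lit 5) (nat_lit 487) (nat_lit 471) (nat_lit 242)) (XT.lf (nat_lit 0) (nat_lit 484811599703) (nat_lit 152) (nat_lit 839501983776) (nat_lit 228) (nat_lit 651217979891) (nat_lit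 57) (nat_lit 5) (nat_lit 59) (nat_lit 5) (nat_lit 60) (nat_lit 5) (nat_lit 488) (nat_lit 471) (nat_lit 241)))) (XT.nd (nat_lit 78) (nat_lit 380) (nat_lit 0) (XT.lf (nat_lit 0) (nat_lit 1730172602347) (nat_lit 152) (nat_lit 51296248908) (nat_lit 228) (nat_lit 288579169004) (nat_lit 57) (nat_lit 5) (nat_lit 59) (nat_lit 5) (nat_lit 60) (nat_lit 5) (nat_lit 489) (nat_lit 471) (nat_lit 240)) (XT.nd (nat_lit 78) (nat_lit 152) (nat_lit 0) (XT.lf (nat_lit 0) (nat_lit 140609426644) (nat_lit 228) (nat_lit 1242019723423) (nat_lit 76) (nat_lit 785882759631) (nat_lit 54) (nat_lit 5) (nat_lit 57) (nat_lit 5) (nat_lit 55) (nat_lit 5) (nat_lit 490) (nat_lit 471) (nat_lit 239)) (XT.lf (nat_lit 0) (nat_lit 31915987438) (nat_lit 152) (nat_lit 568260467336) (nat_lit 228) (nat_lit 1673146081249) (nat_lit 52) (nat_lit 5) (nat_lit 54) (nat_lit 5) (nat_lit 55) (nat_lit 5) (nat_lit 491) (nat_lit 471) (nat_lit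 238))))) (XT.nd (nat_lit 234) (nat_lit 304) (nat_lit 0) (XT.nd (nat_lit 78) (nat_lit 152) (nat_lit 0) (XT.lf (nat_lit 0) (nat_lit 1138835670978) (nat_lit 228) (nat_lit 913767785048) (nat_lit 76) (nat_lit 330528410364) (nat_lit 52) (nat_lit 5) (nat_lit 55) (nat_lit 5) (nat_lit 53) (nat_lit 5) (nat_lit 492) (nat_lit 471) (nat_lit 237)) (XT.nd (nat_lit 78) (nat_lit 0) (nat_lit 0) (XT.lf (nat_lit 0) (nat_lit 531931428397) (nat_lit 152) (nat_lit 1216209169687) (nat_lit 228) (nat_lit 751381107213) (nat_lit 50) (nat_lit 5) (nat_lit 52) (nat_lit 5) (nat_lit 53) (nat_lit 5) (nat_lit 493) (nat_lit 471) (nat_lit 236)) (XT.lf (nat_lit 0) (nat_lit 2145253359190) (nat_lit 152) (nat_lit 285920588653) (nat_lit 228) (nat_lit 192050061196) (nat_lit 50) (nat_lit 5) (nat_lit 52) (nat_lit 5) (nat_lit 53) (nat_lit 5) (nat_lit 494) (nat_lit 471) (nat_lit 235)))) (XT.nd (nat_lit 78) (nat_lit 152) (nat_lit 0) (XT.lf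 (nat_lit 0) (nat_lit 438075036758) (nat_lit 152) (nat_lit 1592106593001) (nat_lit 76) (nat_lit 722115417602) (nat_lit 48) (nat_lit 5) (nat_lit 50) (nat_lit 5) (nat_lit 49) (nat_lit 5) (nat_lit 495) (nat_lit 471) (nat_lit 234)) (XT.nd (nat_lit 78) (nat_lit 0) (nat_lit 0) (XT.lf (nat_lit 0) (nat_lit 55982837414) (nat_lit 152) (nat_lit 1074432516792) (nat_lit 228) (nat_lit 1759107037220) (nat_lit 46) (nat_lit 5) (nat_lit 48) (nat_lit 5) (nat_lit 49) (nat_lit 5) (nat_lit 496) (nat_lit 471) (nat_lit 233)) (XT.lf (nat_lit 0) (nat_lit 1921789110998) (nat_lit 228) (nat_lit 1107894550246) (nat_lit 76) (nat_lit 4550404656) (nat_lit 46) (nat_lit 5) (nat_lit 49) (nat_lit 5) (nat_lit 47) (nat_lit 4) (nat_lit 497) (nat_lit 471) (nat_lit 232)))))) (XT.nd (nat_lit 468) (nat_lit 456) (nat_lit 0) (XT.nd (nat_lit 234) (nat_lit 228) (nat_lit 0) (XT.nd (nat_lit 78) (nat_lit 228) (nat_lit 0) (XT.lf (nat_lit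 0) (nat_lit 766224358322) (nat_lit 76) (nat_lit 2056583460586) (nat_lit 152) (nat_lit 364008051379) (nat_lit 45) (nat_lit 5) (nat_lit 46) (nat_lit 5) (nat_lit 47) (nat_lit 4) (nat_lit 498) (nat_lit 471) (nat_lit 231)) (XT.nd (nat_lit 78) (nat_lit 152) (nat_lit 0) (XT.lf (nat_lit 0) (nat_lit 453156527306) (nat_lit 152) (nat_lit 507373470906) (nat_lit 76) (nat_lit 2387733091548) (nat_lit 44) (nat_lit 5) (nat_lit 46) (nat_lit 5) (nat_lit 45) (nat_lit 5) (nat_lit 499) (nat_lit 471) (nat_lit 230)) (XT.lf (nat_lit 0) (nat_lit 1361887493964) (nat_lit 228) (nat_lit 1894325782866) (nat_lit 76) (nat_lit 261987700699) (nat_lit 42) (nat_lit 5) (nat_lit 45) (nat_lit 5) (nat_lit 43) (nat_lit 4) (nat_lit 500) (nat_lit 471) (nat_lit 229)))) (XT.nd (nat_lit 78) (nat_lit 152) (nat_lit 0) (XT.lf (nat_lit 0) (nat_lit 240580066089) (nat_lit 76) (nat_lit 2147704472014) (nat_lit 152) (nat_lit 1309851950204) (nat_lit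 41) (nat_lit 5) (nat_lit 42) (nat_lit 5) (nat_lit 43) (nat_lit 4) (nat_lit 501) (nat_lit 471) (nat_lit 228)) (XT.nd (nat_lit 78) (nat_lit 152) (nat_lit 0) (XT.lf (nat_lit 0) (nat_lit 2654010365974) (nat_lit 76) (nat_lit 894577202191) (nat_lit 152) (nat_lit 339735733990) (nat_lit 41) (nat_lit 5) (nat_lit 42) (nat_lit 5) (nat_lit 43) (nat_lit 4) (nat_lit 502) (nat_lit 471) (nat_lit 227)) (XT.lf (nat_lit 0) (nat_lit 713913653347) (nat_lit 152) (nat_lit 2891959395722) (nat_lit 76) (nat_lit 483182607148) (nat_lit 39) (nat_lit 5) (nat_lit 41) (nat_lit 5) (nat_lit 40) (nat_lit 4) (nat_lit 503) (nat_lit 471) (nat_lit 226))))) (XT.nd (nat_lit 234) (nat_lit 304) (nat_lit 0) (XT.nd (nat_lit 78) (nat_lit 152) (nat_lit 0) (XT.lf (nat_lit 0) (nat_lit 1891361090134) (nat_lit 152) (nat_lit 442868729305) (nat_lit 76) (nat_lit 1966281982591) (nat_lit 39) (nat_lit 5) (nat_lit 41) (nat_lit 5) (nat_lit 40)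 (nat_lit 4) (nat_lit 504) (nat_lit 471) (nat_lit 225)) (XT.nd (nat_lit 78) (nat_lit 76) (nat_lit 0) (XT.lf (nat_lit 0) (nat_lit 2318110461652) (nat_lit 76) (nat_lit 900644471222) (nat_lit 152) (nat_lit 1305669457751) (nat_lit 38) (nat_lit 5) (nat_lit 39) (nat_lit 5) (nat_lit 40) (nat_lit 4) (nat_lit 505) (nat_lit 471) (nat_lit 224)) (XT.lf (nat_lit 0) (nat_lit 572628249014) (nat_lit 76) (nat_lit 4121482548319) (nat_lit 76) (nat_lit 68797547831) (nat_lit 37) (nat_lit 4) (nat_lit 38) (nat_lit 5) (nat_lit 38) (nat_lit 4) (nat_lit 506) (nat_lit 471) (nat_lit 223)))) (XT.nd (nat_lit 156) (nat_lit 152) (nat_lit 0) (XT.nd (nat_lit 78) (nat_lit 76) (nat_lit 0) (XT.lf (nat_lit 0) (nat_lit 1288927202467) (nat_lit 152) (nat_lit 1371716420898) (nat_lit 76) (nat_lit 2350566854645) (nat_lit 36) (nat_lit 5) (nat_lit 38) (nat_lit 5) (nat_lit 37) (nat_lit 4) (nat_lit 507) (nat_lit 471) (nat_lit 222)) (XT.lf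 (nat_lit 0) (nat_lit 1758513356908) (nat_lit 76) (nat_lit 1035332008652) (nat_lit 152) (nat_lit 2482005076994) (nat_lit 35) (nat_lit 5) (nat_lit 36) (nat_lit 5) (nat_lit 37) (nat_lit 4) (nat_lit 508) (nat_lit 471) (nat_lit 221))) (XT.nd (nat_lit 78) (nat_lit 152) (nat_lit 0) (XT.lf (nat_lit 0) (nat_lit 4474952424661) (nat_lit 152) (nat_lit 359779235044) (nat_lit 0) (nat_lit 722466309122) (nat_lit 35) (nat_lit 5) (nat_lit 37) (nat_lit 4) (nat_lit 35) (nat_lit 4) (nat_lit 509) (nat_lit 471) (nat_lit 220)) (XT.lf (nat_lit 0) (nat_lit 514132157241) (nat_lit 152) (nat_lit 2683091229609) (nat_lit 76) (nat_lit 2654513763791) (nat_lit 33) (nat_lit 5) (nat_lit 35) (nat_lit 5) (nat_lit 34) (nat_lit 4) (nat_lit 510) (nat_lit 471) (nat_lit 219))))))) (XT.nd (nat_lit 936) (nat_lit 228) (nat_lit 0) (XT.nd (nat_lit 468) (nat_lit 380) (nat_lit 0) (XT.nd (nat_lit 234) (nat_lit 228) (nat_lit 0) (XT.nd (nat_lit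 78) (nat_lit 76) (nat_lit 0) (XT.lf (nat_lit 0) (nat_lit 844640081768) (nat_lit 76) (nat_lit 1365516744910) (nat_lit 152) (nat_lit 3955001328689) (nat_lit 32) (nat_lit 5) (nat_lit 33) (nat_lit 5) (nat_lit 34) (nat_lit 4) (nat_lit 511) (nat_lit 471) (nat_lit 218)) (XT.nd (nat_lit 78) (nat_lit 76) (nat_lit 0) (XT.lf (nat_lit 0) (nat_lit 4131865489691) (nat_lit 152) (nat_lit 1707245883463) (nat_lit 0) (nat_lit 657341305714) (nat_lit 32) (nat_lit 5) (nat_lit 34) (nat_lit 4) (nat_lit 32) (nat_lit 4) (nat_lit 512) (nat_lit 471) (nat_lit 217)) (XT.lf (nat_lit 0) (nat_lit 2273341880433) (nat_lit 76) (nat_lit 4024110858583) (nat_lit 76) (nat_lit 549586673772) (nat_lit 31) (nat_lit 4) (nat_lit 32) (nat_lit 5) (nat_lit 32) (nat_lit 4) (nat_lit 513) (nat_lit 471) (nat_lit 216)))) (XT.nd (nat_lit 78) (nat_lit 152) (nat_lit 0) (XT.lf (nat_lit 0) (nat_lit 1387940835235) (nat_lit 152) (nat_lit 587607248292)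 (nat_lit 76) (nat_lit 5243579652325) (nat_lit 30) (nat_lit 5) (nat_lit 32) (nat_lit 5) (nat_lit 31) (nat_lit 4) (nat_lit 514) (nat_lit 471) (nat_lit 215)) (XT.nd (nat_lit 78) (nat_lit 76) (nat_lit 0) (XT.lf (nat_lit 0) (nat_lit 3553031104041) (nat_lit 152) (nat_lit 3722750741591) (nat_lit 0) (nat_lit 335879079691) (nat_lit 29) (nat_lit 5) (nat_lit 31) (nat_lit 4) (nat_lit 29) (nat_lit 4) (nat_lit 515) (nat_lit 471) (nat_lit 214)) (XT.lf (nat_lit 0) (nat_lit 706254763124) (nat_lit 76) (nat_lit 5269855739561) (nat_lit 76) (nat_lit 2052703714599) (nat_lit 28) (nat_lit 4) (nat_lit 29) (nat_lit 5) (nat_lit 29) (nat_lit 4) (nat_lit 516) (nat_lit 471) (nat_lit 213))))) (XT.nd (nat_lit 234) (nat_lit 228) (nat_lit 0) (XT.nd (nat_lit 78) (nat_lit 76) (nat_lit 0) (XT.lf (nat_lit 0) (nat_lit 212439331657) (nat_lit 152) (nat_lit 2775278215681) (nat_lit 76) (nat_lit 5483049040259) (nat_lit 27) (nat_lit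 5) (nat_lit 29) (nat_lit 5) (nat_lit 28) (nat_lit 4) (nat_lit 517) (nat_lit 471) (nat_lit 212)) (XT.nd (nat_lit 78) (nat_lit 0) (nat_lit 0) (XT.lf (nat_lit 0) (nat_lit 2192127643448) (nat_lit 76) (nat_lit 408487582274) (nat_lit 152) (nat_lit 6338976905712) (nat_lit 26) (nat_lit 5) (nat_lit 27) (nat_lit 5) (nat_lit 28) (nat_lit 4) (nat_lit 518) (nat_lit 471) (nat_lit 211)) (XT.lf (nat_lit 0) (nat_lit 5314866000710) (nat_lit 152) (nat_lit 1784234521625) (nat_lit 0) (nat_lit 2336021531691) (nat_lit 26) (nat_lit 5) (nat_lit 28) (nat_lit 4) (nat_lit 26) (nat_lit 4) (nat_lit 519) (nat_lit 471) (nat_lit 210)))) (XT.nd (nat_lit 78) (nat_lit 152) (nat_lit 0) (XT.lf (nat_lit 0) (nat_lit 3753193723971) (nat_lit 76) (nat_lit 4593937579321) (nat_lit 76) (nat_lit 1615093109884) (nat_lit 25) (nat_lit 4) (nat_lit 26) (nat_lit 5) (nat_lit 26) (nat_lit 4) (nat_lit 520) (nat_lit 471) (nat_lit 209)) (XT.nd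 (nat_lit 78) (nat_lit 76) (nat_lit 0) (XT.lf (nat_lit 0) (nat_lit 1085983752743) (nat_lit 152) (nat_lit 719998264116) (nat_lit 76) (nat_lit 8719410752798) (nat_lit 24) (nat_lit 5) (nat_lit 26) (nat_lit 5) (nat_lit 25) (nat_lit 4) (nat_lit 521) (nat_lit 471) (nat_lit 208)) (XT.lf (nat_lit 0) (nat_lit 4080147103265) (nat_lit 152) (nat_lit 5715013089352) (nat_lit 0) (nat_lit 1321957779024) (nat_lit 23) (nat_lit 5) (nat_lit 25) (nat_lit 4) (nat_lit 23) (nat_lit 4) (nat_lit 522) (nat_lit 471) (nat_lit 207)))))) (XT.nd (nat_lit 58656) (nat_lit 0) (nat_lit 3876) (XT.nd (nat_lit 234) (nat_lit 0) (nat_lit 0) (XT.nd (nat_lit 78) (nat_lit 152) (nat_lit 0) (XT.lf (nat_lit 0) (nat_lit 266214067257) (nat_lit 76) (nat_lit 7121137886269) (nat_lit 76) (nat_lit 4362948561722) (nat_lit 22) (nat_lit 4) (nat_lit 23) (nat_lit 5) (nat_lit 23) (nat_lit 4) (nat_lit 523) (nat_lit 471) (nat_lit 206)) (XT.nd (nat_lit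 78) (nat_lit 152) (nat_lit 0) (XT.lf (nat_lit 0) (nat_lit 7050957253276) (nat_lit 76) (nat_lit 4064434523549) (nat_lit 76) (nat_lit 1306245198718) (nat_lit 22) (nat_lit 4) (nat_lit 23) (nat_lit 5) (nat_lit 23) (nat_lit 4) (nat_lit 524) (nat_lit 471) (nat_lit 205)) (XT.lf (nat_lit 0) (nat_lit 1246157732800) (nat_lit 76) (nat_lit 679009121956) (nat_lit 152) (nat_lit 11215277514957) (nat_lit 20) (nat_lit 5) (nat_lit 21) (nat_lit 5) (nat_lit 22) (nat_lit 4) (nat_lit 525) (nat_lit 471) (nat_lit 204)))) (XT.nd (nat_lit 58266) (nat_lit 0) (nat_lit 4636) (XT.lf (nat_lit 0) (nat_lit 5566781672825) (nat_lit 152) (nat_lit 5316576861411) (nat_lit 0) (nat_lit 3012902667883) (nat_lit 20) (nat_lit 5) (nat_lit 22) (nat_lit 4) (nat_lit 20) (nat_lit 4) (nat_lit 526) (nat_lit 471) (nat_lit 203)) (XT.nd (nat_lit 78) (nat_lit 0) (nat_lit 0) (XT.lf (nat_lit 0) (nat_lit 501848361897) (nat_lit 532) (nat_lit 7943484744)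 (nat_lit 532) (nat_lit 7943484744) (nat_lit 81) (nat_lit 3) (nat_lit 88) (nat_lit 3) (nat_lit 88) (nat_lit 5) (nat_lit 472) (nat_lit 472) (nat_lit 256)) (XT.lf (nat_lit 76) (nat_lit 523918182342) (nat_lit 0) (nat_lit 532526712833) (nat_lit 532) (nat_lit 19436569898) (nat_lit 82) (nat_lit 5) (nat_lit 81) (nat_lit 3) (nat_lit 88) (nat_lit 5) (nat_lit 473) (nat_lit 472) (nat_lit 255))))) (XT.nd (nat_lit 234) (nat_lit 304) (nat_lit 0) (XT.nd (nat_lit 78) (nat_lit 456) (nat_lit 0) (XT.lf (nat_lit 76) (nat_lit 1107811249078) (nat_lit 0) (nat_lit 6036043252) (nat_lit 532) (nat_lit 5643089464) (nat_lit 82) (nat_lit 5) (nat_lit 81) (nat_lit 3) (nat_lit 88) (nat_lit 5) (nat_lit 474) (nat_lit 472) (nat_lit 254)) (XT.nd (nat_lit 78) (nat_lit 0) (nat_lit 0) (XT.lf (nat_lit 0) (nat_lit 37173531954) (nat_lit 532) (nat_lit 577619186550) (nat_lit 608) (nat_lit 549506882603) (nat_lit 75) (nat_lit 5) (nat_lit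 82) (nat_lit 5) (nat_lit 83) (nat_lit 5) (nat_lit 475) (nat_lit 472) (nat_lit 253)) (XT.lf (nat_lit 76) (nat_lit 21677669302) (nat_lit 0) (nat_lit 62438686450) (nat_lit 608) (nat_lit 1128485016626) (nat_lit 76) (nat_lit 5) (nat_lit 75) (nat_lit 5) (nat_lit 83) (nat_lit 5) (nat_lit 476) (nat_lit 472) (nat_lit 252)))) (XT.nd (nat_lit 156) (nat_lit 380) (nat_lit 0) (XT.nd (nat_lit 78) (nat_lit 0) (nat_lit 0) (XT.lf (nat_lit 0) (nat_lit 163863150097) (nat_lit 532) (nat_lit 574991267524) (nat_lit 608) (nat_lit 523588984162) (nat_lit 76) (nat_lit 5) (nat_lit 83) (nat_lit 5) (nat_lit 84) (nat_lit 5) (nat_lit 477) (nat_lit 472) (nat_lit 251)) (XT.lf (nat_lit 76) (nat_lit 93259176799) (nat_lit 0) (nat_lit 160595176216) (nat_lit 608) (nat_lit 1062109267323) (nat_lit 77) (nat_lit 5) (nat_lit 76) (nat_lit 5) (nat_lit 84) (nat_lit 5) (nat_lit 478) (nat_lit 472) (nat_lit 250))) (XT.nd (nat_lit 78) (nat_lit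 456) (nat_lit 0) (XT.lf (nat_lit 0) (nat_lit 378331875819) (nat_lit 532) (nat_lit 536403586060) (nat_lit 76) (nat_lit 456847032607) (nat_lit 77) (nat_lit 5) (nat_lit 84) (nat_lit 5) (nat_lit 78) (nat_lit 5) (nat_lit 479) (nat_lit 472) (nat_lit 249)) (XT.lf (nat_lit 0) (nat_lit 211194855033) (nat_lit 456) (nat_lit 310823286126) (nat_lit 532) (nat_lit 908892694153) (nat_lit 71) (nat_lit 5) (nat_lit 77) (nat_lit 5) (nat_lit 78) (nat_lit 5) (nat_lit 480) (nat_lit 472) (nat_lit 248))))))))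
noncomputable def xc231 : XT := (XT.nd (nat_lit 1950) (nat_lit 1292) (nat_lit 0) (XT.nd (nat_lit 936) (nat_lit 988) (nat_lit 0) (XT.nd (nat_lit 468) (nat_lit 760) (nat_lit 0) (XT.nd (nat_lit 234) (nat_lit 456) (nat_lit 0) (XT.nd (nat_lit 78) (nat_lit 228) (nat_lit 0) (XT.lf (nat_lit 0) (nat_lit 700457192585) (nat_lit 532) (nat_lit 453296894620) (nat_lit 76) (nat_lit 339370725408) (nat_lit 71) (nat_lit 5) (nat_lit 78) (nat_lit 5) (nat_lit 72) (nat_lit 5) (nat_lit 481) (nat_lit 472) (nat_lit 247)) (XT.nd (nat_lit 78) (nat_lit 0) (nat_lit 0) (XT.lf (nat_lit 0) (nat_lit 385654375964) (nat_lit 228) (nat_lit 524865317856) (nat_lit 304) (nat_lit 648408348225) (nat_lit 68) (nat_lit 5) (nat_lit 71) (nat_lit 5) (nat_lit 72) (nat_lit 5) (nat_lit 482) (nat_lit 472) (nat_lit 246)) (XT.lf (nat_lit 0) (nat_lit 1153814802540) (nat_lit 304) (nat_lit 315536544372) (nat_lit 76) (nat_lit 159329974329) (nat_lit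 68) (nat_lit 5) (nat_lit 72) (nat_lit 5) (nat_lit 69) (nat_lit 5) (nat_lit 483) (nat_lit 472) (nat_lit 245)))) (XT.nd (nat_lit 78) (nat_lit 228) (nat_lit 0) (XT.lf (nat_lit 0) (nat_lit 628633470343) (nat_lit 228) (nat_lit 816691562068) (nat_lit 304) (nat_lit 256389709366) (nat_lit 65) (nat_lit 5) (nat_lit 68) (nat_lit 5) (nat_lit 69) (nat_lit 5) (nat_lit 484) (nat_lit 472) (nat_lit 244)) (XT.nd (nat_lit 78) (nat_lit 228) (nat_lit 0) (XT.lf (nat_lit 0) (nat_lit 1666281925694) (nat_lit 228) (nat_lit 102501480399) (nat_lit 304) (nat_lit 11117243830) (nat_lit 65) (nat_lit 5) (nat_lit 68) (nat_lit 5) (nat_lit 69) (nat_lit 5) (nat_lit 485) (nat_lit 472) (nat_lit 243)) (XT.lf (nat_lit 0) (nat_lit 281130948318) (nat_lit 228) (nat_lit 914084771427) (nat_lit 76) (nat_lit 665433532811) (nat_lit 62) (nat_lit 5) (nat_lit 65) (nat_lit 5) (nat_lit 63) (nat_lit 5) (nat_lit 486) (nat_lit 472) (nat_lit 242)))))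 (XT.nd (nat_lit 234) (nat_lit 380) (nat_lit 0) (XT.nd (nat_lit 78) (nat_lit 152) (nat_lit 0) (XT.lf (nat_lit 0) (nat_lit 155143813522) (nat_lit 228) (nat_lit 450595374874) (nat_lit 304) (nat_lit 1341328989239) (nat_lit 59) (nat_lit 5) (nat_lit 62) (nat_lit 5) (nat_lit 63) (nat_lit 5) (nat_lit 487) (nat_lit 472) (nat_lit 241)) (XT.nd (nat_lit 78) (nat_lit 152) (nat_lit 0) (XT.lf (nat_lit 0) (nat_lit 990461902246) (nat_lit 304) (nat_lit 685658827809) (nat_lit 76) (nat_lit 361548221499) (nat_lit 59) (nat_lit 5) (nat_lit 63) (nat_lit 5) (nat_lit 60) (nat_lit 5) (nat_lit 488) (nat_lit 472) (nat_lit 240)) (XT.lf (nat_lit 0) (nat_lit 523596594409) (nat_lit 152) (nat_lit 906662123109) (nat_lit 228) (nat_lit 703315367126) (nat_lit 57) (nat_lit 5) (nat_lit 59) (nat_lit 5) (nat_lit 60) (nat_lit 5) (nat_lit 489) (nat_lit 472) (nat_lit 239)))) (XT.nd (nat_lit 78) (nat_lit 380) (nat_lit 0) (XT.lf (nat_lit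 0) (nat_lit 1868586472322) (nat_lit 152) (nat_lit 55399930885) (nat_lit 228) (nat_lit 311665455157) (nat_lit 57) (nat_lit 5) (nat_lit 59) (nat_lit 5) (nat_lit 60) (nat_lit 5) (nat_lit 490) (nat_lit 472) (nat_lit 238)) (XT.nd (nat_lit 78) (nat_lit 152) (nat_lit 0) (XT.lf (nat_lit 0) (nat_lit 151858224410) (nat_lit 228) (nat_lit 1341381235764) (nat_lit 76) (nat_lit 848753398802) (nat_lit 54) (nat_lit 5) (nat_lit 57) (nat_lit 5) (nat_lit 55) (nat_lit 5) (nat_lit 491) (nat_lit 472) (nat_lit 237)) (XT.lf (nat_lit 0) (nat_lit 34469330307) (nat_lit 152) (nat_lit 613721282788) (nat_lit 228) (nat_lit 1806997722449) (nat_lit 52) (nat_lit 5) (nat_lit 54) (nat_lit 5) (nat_lit 55) (nat_lit 5) (nat_lit 492) (nat_lit 472) (nat_lit 236)))))) (XT.nd (nat_lit 468) (nat_lit 532) (nat_lit 0) (XT.nd (nat_lit 234) (nat_lit 304) (nat_lit 0) (XT.nd (nat_lit 78) (nat_lit 152) (nat_lit 0) (XT.lf (nat_lit 0) (nat_lit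 1229942563977) (nat_lit 228) (nat_lit 986869146086) (nat_lit 76) (nat_lit 356970702487) (nat_lit 52) (nat_lit 5) (nat_lit 55) (nat_lit 5) (nat_lit 53) (nat_lit 5) (nat_lit 493) (nat_lit 472) (nat_lit 235)) (XT.nd (nat_lit 78) (nat_lit 0) (nat_lit 0) (XT.lf (nat_lit 0) (nat_lit 574486002871) (nat_lit 152) (nat_lit 1313505880916) (nat_lit 228) (nat_lit 811491554900) (nat_lit 50) (nat_lit 5) (nat_lit 52) (nat_lit 5) (nat_lit 53) (nat_lit 5) (nat_lit 494) (nat_lit 472) (nat_lit 234)) (XT.lf (nat_lit 0) (nat_lit 2316873683668) (nat_lit 152) (nat_lit 308794215054) (nat_lit 228) (nat_lit 207414028231) (nat_lit 50) (nat_lit 5) (nat_lit 52) (nat_lit 5) (nat_lit 53) (nat_lit 5) (nat_lit 495) (nat_lit 472) (nat_lit 233)))) (XT.nd (nat_lit 78) (nat_lit 152) (nat_lit 0) (XT.lf (nat_lit 0) (nat_lit 473121074870) (nat_lit 152) (nat_lit 1719475062001) (nat_lit 76) (nat_lit 779884671462) (nat_lit 48) (nat_lit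 5) (nat_lit 50) (nat_lit 5) (nat_lit 49) (nat_lit 5) (nat_lit 496) (nat_lit 472) (nat_lit 232)) (XT.nd (nat_lit 78) (nat_lit 0) (nat_lit 0) (XT.lf (nat_lit 0) (nat_lit 60461521369) (nat_lit 152) (nat_lit 1160387095110) (nat_lit 228) (nat_lit 1899835563543) (nat_lit 46) (nat_lit 5) (nat_lit 48) (nat_lit 5) (nat_lit 49) (nat_lit 5) (nat_lit 497) (nat_lit 472) (nat_lit 231)) (XT.lf (nat_lit 0) (nat_lit 2075532271813) (nat_lit 228) (nat_lit 1196526059519) (nat_lit 76) (nat_lit 4914457282) (nat_lit 46) (nat_lit 5) (nat_lit 49) (nat_lit 5) (nat_lit 47) (nat_lit 4) (nat_lit 498) (nat_lit 472) (nat_lit 230))))) (XT.nd (nat_lit 234) (nat_lit 228) (nat_lit 0) (XT.nd (nat_lit 78) (nat_lit 228) (nat_lit 0) (XT.lf (nat_lit 0) (nat_lit 827522360348) (nat_lit 76) (nat_lit 2221110114925) (nat_lit 152) (nat_lit 393128662165) (nat_lit 45) (nat_lit 5) (nat_lit 46) (nat_lit 5) (nat_lit 47) (nat_lit 4) (nat_lit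 499) (nat_lit 472) (nat_lit 229)) (XT.nd (nat_lit 78) (nat_lit 152) (nat_lit 0) (XT.lf (nat_lit 0) (nat_lit 489409078803) (nat_lit 152) (nat_lit 547963297624) (nat_lit 76) (nat_lit 2578751758166) (nat_lit 44) (nat_lit 5) (nat_lit 46) (nat_lit 5) (nat_lit 45) (nat_lit 5) (nat_lit 500) (nat_lit 472) (nat_lit 228)) (XT.lf (nat_lit 0) (nat_lit 1470838522329) (nat_lit 228) (nat_lit 2045871794074) (nat_lit 76) (nat_lit 282946737017) (nat_lit 42) (nat_lit 5) (nat_lit 45) (nat_lit 5) (nat_lit 43) (nat_lit 4) (nat_lit 501) (nat_lit 472) (nat_lit 227)))) (XT.nd (nat_lit 156) (nat_lit 152) (nat_lit 0) (XT.nd (nat_lit 78) (nat_lit 0) (nat_lit 0) (XT.lf (nat_lit 0) (nat_lit 259826521495) (nat_lit 76) (nat_lit 2319520807574) (nat_lit 152) (nat_lit 1414640076068) (nat_lit 41) (nat_lit 5) (nat_lit 42) (nat_lit 5) (nat_lit 43) (nat_lit 4) (nat_lit 502) (nat_lit 472) (nat_lit 226)) (XT.lf (nat_lit 0) (nat_lit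 2866331241658) (nat_lit 76) (nat_lit 966143357809) (nat_lit 152) (nat_lit 366914564791) (nat_lit 41) (nat_lit 5) (nat_lit 42) (nat_lit 5) (nat_lit 43) (nat_lit 4) (nat_lit 503) (nat_lit 472) (nat_lit 225))) (XT.nd (nat_lit 78) (nat_lit 0) (nat_lit 0) (XT.lf (nat_lit 0) (nat_lit 771026771796) (nat_lit 152) (nat_lit 3123316099232) (nat_lit 76) (nat_lit 521837235590) (nat_lit 39) (nat_lit 5) (nat_lit 41) (nat_lit 5) (nat_lit 40) (nat_lit 4) (nat_lit 504) (nat_lit 472) (nat_lit 224)) (XT.lf (nat_lit 0) (nat_lit 2042670001586) (nat_lit 152) (nat_lit 478298183068) (nat_lit 76) (nat_lit 2123584559596) (nat_lit 39) (nat_lit 5) (nat_lit 41) (nat_lit 5) (nat_lit 40) (nat_lit 4) (nat_lit 505) (nat_lit 472) (nat_lit 223))))))) (XT.nd (nat_lit 1014) (nat_lit 380) (nat_lit 0) (XT.nd (nat_lit 468) (nat_lit 456) (nat_lit 0) (XT.nd (nat_lit 234) (nat_lit 228) (nat_lit 0) (XT.nd (nat_lit 78) (nat_lit 152)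 (nat_lit 0) (XT.lf (nat_lit 0) (nat_lit 2503559342037) (nat_lit 76) (nat_lit 972696008958) (nat_lit 152) (nat_lit 1410122988999) (nat_lit 38) (nat_lit 5) (nat_lit 39) (nat_lit 5) (nat_lit 40) (nat_lit 4) (nat_lit 506) (nat_lit 472) (nat_lit 222)) (XT.nd (nat_lit 78) (nat_lit 76) (nat_lit 0) (XT.lf (nat_lit 0) (nat_lit 618438552653) (nat_lit 76) (nat_lit 4451201131714) (nat_lit 76) (nat_lit 74301326549) (nat_lit 37) (nat_lit 4) (nat_lit 38) (nat_lit 5) (nat_lit 38) (nat_lit 4) (nat_lit 507) (nat_lit 472) (nat_lit 221)) (XT.lf (nat_lit 0) (nat_lit 1392041400750) (nat_lit 152) (nat_lit 1481453692926) (nat_lit 76) (nat_lit 2538612220806) (nat_lit 36) (nat_lit 5) (nat_lit 38) (nat_lit 5) (nat_lit 37) (nat_lit 4) (nat_lit 508) (nat_lit 472) (nat_lit 220)))) (XT.nd (nat_lit 78) (nat_lit 152) (nat_lit 0) (XT.lf (nat_lit 0) (nat_lit 1899194466050) (nat_lit 76) (nat_lit 1118158550181) (nat_lit 152)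 (nat_lit 2680565460013) (nat_lit 35) (nat_lit 5) (nat_lit 36) (nat_lit 5) (nat_lit 37) (nat_lit 4) (nat_lit 509) (nat_lit 472) (nat_lit 219)) (XT.nd (nat_lit 78) (nat_lit 152) (nat_lit 0) (XT.lf (nat_lit 0) (nat_lit 4832948638899) (nat_lit 152) (nat_lit 388561535103) (nat_lit 0) (nat_lit 780263630708) (nat_lit 35) (nat_lit 5) (nat_lit 37) (nat_lit 4) (nat_lit 35) (nat_lit 4) (nat_lit 510) (nat_lit 472) (nat_lit 218)) (XT.lf (nat_lit 0) (nat_lit 555262750005) (nat_lit 152) (nat_lit 2897738489151) (nat_lit 76) (nat_lit 2866874881922) (nat_lit 33) (nat_lit 5) (nat_lit 35) (nat_lit 5) (nat_lit 34) (nat_lit 4) (nat_lit 511) (nat_lit 472) (nat_lit 217))))) (XT.nd (nat_lit 234) (nat_lit 304) (nat_lit 0) (XT.nd (nat_lit 78) (nat_lit 76) (nat_lit 0) (XT.lf (nat_lit 0) (nat_lit 912211326154) (nat_lit 76) (nat_lit 1474758066258) (nat_lit 152) (nat_lit 4271401413816) (nat_lit 32) (nat_lit 5) (nat_lit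 33) (nat_lit 5) (nat_lit 34) (nat_lit 4) (nat_lit 512) (nat_lit 472) (nat_lit 216)) (XT.nd (nat_lit 78) (nat_lit 76) (nat_lit 0) (XT.lf (nat_lit 0) (nat_lit 4462414747420) (nat_lit 152) (nat_lit 1843825518053) (nat_lit 0) (nat_lit 709928626219) (nat_lit 32) (nat_lit 5) (nat_lit 34) (nat_lit 4) (nat_lit 32) (nat_lit 4) (nat_lit 513) (nat_lit 472) (nat_lit 215)) (XT.lf (nat_lit 0) (nat_lit 2455209266041) (nat_lit 76) (nat_lit 4346039710121) (nat_lit 76) (nat_lit 593553588206) (nat_lit 31) (nat_lit 4) (nat_lit 32) (nat_lit 5) (nat_lit 32) (nat_lit 4) (nat_lit 514) (nat_lit 472) (nat_lit 214)))) (XT.nd (nat_lit 156) (nat_lit 152) (nat_lit 0) (XT.nd (nat_lit 78) (nat_lit 76) (nat_lit 0) (XT.lf (nat_lit 0) (nat_lit 1498976119178) (nat_lit 152) (nat_lit 634615794685) (nat_lit 76) (nat_lit 5663066039486) (nat_lit 30) (nat_lit 5) (nat_lit 32) (nat_lit 5) (nat_lit 31) (nat_lit 4) (nat_lit 515) (nat_lit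 472) (nat_lit 213)) (XT.lf (nat_lit 0) (nat_lit 3837273609389) (nat_lit 152) (nat_lit 4020570767347) (nat_lit 0) (nat_lit 362749421250) (nat_lit 29) (nat_lit 5) (nat_lit 31) (nat_lit 4) (nat_lit 29) (nat_lit 4) (nat_lit 516) (nat_lit 472) (nat_lit 212))) (XT.nd (nat_lit 78) (nat_lit 76) (nat_lit 0) (XT.lf (nat_lit 0) (nat_lit 762755176894) (nat_lit 76) (nat_lit 5691444182556) (nat_lit 76) (nat_lit 2216919993892) (nat_lit 28) (nat_lit 4) (nat_lit 29) (nat_lit 5) (nat_lit 29) (nat_lit 4) (nat_lit 517) (nat_lit 472) (nat_lit 211)) (XT.lf (nat_lit 0) (nat_lit 229434493913) (nat_lit 152) (nat_lit 2997300441810) (nat_lit 76) (nat_lit 5921692977624) (nat_lit 27) (nat_lit 5) (nat_lit 29) (nat_lit 5) (nat_lit 28) (nat_lit 4) (nat_lit 518) (nat_lit 472) (nat_lit 210)))))) (XT.nd (nat_lit 468) (nat_lit 0) (nat_lit 0) (XT.nd (nat_lit 234) (nat_lit 228) (nat_lit 0) (XT.nd (nat_lit 78) (nat_lit 76) (nat_lit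 0) (XT.lf (nat_lit 0) (nat_lit 2367497885261) (nat_lit 76) (nat_lit 441166573806) (nat_lit 152) (nat_lit 6846095041658) (nat_lit 26) (nat_lit 5) (nat_lit 27) (nat_lit 5) (nat_lit 28) (nat_lit 4) (nat_lit 519) (nat_lit 472) (nat_lit 209)) (XT.nd (nat_lit 78) (nat_lit 76) (nat_lit 0) (XT.lf (nat_lit 0) (nat_lit 5740055295258) (nat_lit 152) (nat_lit 1926973254467) (nat_lit 0) (nat_lit 2522903267463) (nat_lit 26) (nat_lit 5) (nat_lit 28) (nat_lit 4) (nat_lit 26) (nat_lit 4) (nat_lit 520) (nat_lit 472) (nat_lit 208)) (XT.lf (nat_lit 0) (nat_lit 4053449250046) (nat_lit 76) (nat_lit 4961452571604) (nat_lit 76) (nat_lit 1744300543453) (nat_lit 25) (nat_lit 4) (nat_lit 26) (nat_lit 5) (nat_lit 26) (nat_lit 4) (nat_lit 521) (nat_lit 472) (nat_lit 207)))) (XT.nd (nat_lit 78) (nat_lit 152) (nat_lit 0) (XT.lf (nat_lit 0) (nat_lit 1172862466352) (nat_lit 152) (nat_lit 777598098469) (nat_lit 76) (nat_lit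 9416963625337) (nat_lit 24) (nat_lit 5) (nat_lit 26) (nat_lit 5) (nat_lit 25) (nat_lit 4) (nat_lit 522) (nat_lit 472) (nat_lit 206)) (XT.nd (nat_lit 78) (nat_lit 76) (nat_lit 0) (XT.lf (nat_lit 0) (nat_lit 4406558884866) (nat_lit 152) (nat_lit 6172214109674) (nat_lit 0) (nat_lit 1427714413765) (nat_lit 23) (nat_lit 5) (nat_lit 25) (nat_lit 4) (nat_lit 23) (nat_lit 4) (nat_lit 523) (nat_lit 472) (nat_lit 205)) (XT.lf (nat_lit 0) (nat_lit 287511218785) (nat_lit 76) (nat_lit 7690828904004) (nat_lit 76) (nat_lit 4711984432640) (nat_lit 22) (nat_lit 4) (nat_lit 23) (nat_lit 5) (nat_lit 23) (nat_lit 4) (nat_lit 524) (nat_lit 472) (nat_lit 204))))) (XT.nd (nat_lit 58578) (nat_lit 0) (nat_lit 4028) (XT.nd (nat_lit 58422) (nat_lit 0) (nat_lit 4484) (XT.lf (nat_lit 0) (nat_lit 7615033857749) (nat_lit 76) (nat_lit 4389589273242) (nat_lit 76) (nat_lit 1410744801634) (nat_lit 22) (nat_lit 4) (nat_lit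 23) (nat_lit 5) (nat_lit 23) (nat_lit 4) (nat_lit 525) (nat_lit 472) (nat_lit 203)) (XT.nd (nat_lit 78) (nat_lit 0) (nat_lit 0) (XT.lf (nat_lit 0) (nat_lit 541996287008) (nat_lit 532) (nat_lit 8578933190) (nat_lit 532) (nat_lit 8578933190) (nat_lit 81) (nat_lit 3) (nat_lit 88) (nat_lit 3) (nat_lit 88) (nat_lit 5) (nat_lit 473) (nat_lit 473) (nat_lit 254)) (XT.lf (nat_lit 76) (nat_lit 565831696061) (nat_lit 0) (nat_lit 575128896149) (nat_lit 532) (nat_lit 20991381607) (nat_lit 82) (nat_lit 5) (nat_lit 81) (nat_lit 3) (nat_lit 88) (nat_lit 5) (nat_lit 474) (nat_lit 473) (nat_lit 253)))) (XT.nd (nat_lit 156) (nat_lit 0) (nat_lit 0) (XT.nd (nat_lit 78) (nat_lit 456) (nat_lit 0) (XT.lf (nat_lit 76) (nat_lit 1196436203756) (nat_lit 0) (nat_lit 6518969573) (nat_lit 532) (nat_lit 6094431174) (nat_lit 82) (nat_lit 5) (nat_lit 81) (nat_lit 3) (nat_lit 88) (nat_lit 5) (nat_lit 475) (nat_lit 473) (nat_lit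 252)) (XT.lf (nat_lit 0) (nat_lit 40147507814) (nat_lit 532) (nat_lit 623828654532) (nat_lit 608) (nat_lit 593467399363) (nat_lit 75) (nat_lit 5) (nat_lit 82) (nat_lit 5) (nat_lit 83) (nat_lit 5) (nat_lit 476) (nat_lit 473) (nat_lit 251))) (XT.nd (nat_lit 78) (nat_lit 0) (nat_lit 76) (XT.lf (nat_lit 76) (nat_lit 23411948094) (nat_lit 0) (nat_lit 67433804080) (nat_lit 608) (nat_lit 1218763722938) (nat_lit 76) (nat_lit 5) (nat_lit 75) (nat_lit 5) (nat_lit 83) (nat_lit 5) (nat_lit 477) (nat_lit 473) (nat_lit 250)) (XT.lf (nat_lit 0) (nat_lit 176972283044) (nat_lit 532) (nat_lit 620990501472) (nat_lit 608) (nat_lit 565476082916) (nat_lit 76) (nat_lit 5) (nat_lit 83) (nat_lit 5) (nat_lit 84) (nat_lit 5) (nat_lit 478) (nat_lit 473) (nat_lit 249))))))))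
noncomputable def xc232 : XT := (XT.nd (nat_lit 1950) (nat_lit 1444) (nat_lit 0) (XT.nd (nat_lit 936) (nat_lit 1216) (nat_lit 0) (XT.nd (nat_lit 468) (nat_lit 836) (nat_lit 0) (XT.nd (nat_lit 234) (nat_lit 228) (nat_lit 0) (XT.nd (nat_lit 78) (nat_lit 380) (nat_lit 0) (XT.lf (nat_lit 76) (nat_lit 100719976690) (nat_lit 0) (nat_lit 173442801092) (nat_lit 608) (nat_lit 1147077926044) (nat_lit 77) (nat_lit 5) (nat_lit 76) (nat_lit 5) (nat_lit 84) (nat_lit 5) (nat_lit 479) (nat_lit 473) (nat_lit 248)) (XT.nd (nat_lit 78) (nat_lit 456) (nat_lit 0) (XT.lf (nat_lit 0) (nat_lit 408598496502) (nat_lit 532) (nat_lit 579315806144) (nat_lit 76) (nat_lit 493394785735) (nat_lit 77) (nat_lit 5) (nat_lit 84) (nat_lit 5) (nat_lit 78) (nat_lit 5) (nat_lit 480) (nat_lit 473) (nat_lit 247)) (XT.lf (nat_lit 0) (nat_lit 228090508545) (nat_lit 456) (nat_lit 335689150857) (nat_lit 532) (nat_lit 981604037362) (nat_lit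 71) (nat_lit 5) (nat_lit 77) (nat_lit 5) (nat_lit 78) (nat_lit 5) (nat_lit 481) (nat_lit 473) (nat_lit 246)))) (XT.nd (nat_lit 78) (nat_lit 228) (nat_lit 0) (XT.lf (nat_lit 0) (nat_lit 756493829943) (nat_lit 532) (nat_lit 489560580888) (nat_lit 76) (nat_lit 366520381821) (nat_lit 71) (nat_lit 5) (nat_lit 78) (nat_lit 5) (nat_lit 72) (nat_lit 5) (nat_lit 482) (nat_lit 473) (nat_lit 245)) (XT.nd (nat_lit 78) (nat_lit 0) (nat_lit 0) (XT.lf (nat_lit 0) (nat_lit 416506789690) (nat_lit 228) (nat_lit 566854538529) (nat_lit 304) (nat_lit 700280952466) (nat_lit 68) (nat_lit 5) (nat_lit 71) (nat_lit 5) (nat_lit 72) (nat_lit 5) (nat_lit 483) (nat_lit 473) (nat_lit 244)) (XT.lf (nat_lit 0) (nat_lit 1246120041380) (nat_lit 304) (nat_lit 340779404719) (nat_lit 76) (nat_lit 172076376458) (nat_lit 68) (nat_lit 5) (nat_lit 72) (nat_lit 5) (nat_lit 69) (nat_lit 5) (nat_lit 484) (nat_lit 473) (nat_lit 243)))))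 (XT.nd (nat_lit 234) (nat_lit 380) (nat_lit 0) (XT.nd (nat_lit 78) (nat_lit 228) (nat_lit 0) (XT.lf (nat_lit 0) (nat_lit 678924209573) (nat_lit 228) (nat_lit 882026877503) (nat_lit 304) (nat_lit 276900829867) (nat_lit 65) (nat_lit 5) (nat_lit 68) (nat_lit 5) (nat_lit 69) (nat_lit 5) (nat_lit 485) (nat_lit 473) (nat_lit 242)) (XT.nd (nat_lit 78) (nat_lit 228) (nat_lit 0) (XT.lf (nat_lit 0) (nat_lit 1799584536789) (nat_lit 228) (nat_lit 110701590005) (nat_lit 304) (nat_lit 12006571256) (nat_lit 65) (nat_lit 5) (nat_lit 68) (nat_lit 5) (nat_lit 69) (nat_lit 5) (nat_lit 486) (nat_lit 473) (nat_lit 241)) (XT.lf (nat_lit 0) (nat_lit 303621471656) (nat_lit 228) (nat_lit 987211491475) (nat_lit 76) (nat_lit 718668225823) (nat_lit 62) (nat_lit 5) (nat_lit 65) (nat_lit 5) (nat_lit 63) (nat_lit 5) (nat_lit 487) (nat_lit 473) (nat_lit 240)))) (XT.nd (nat_lit 78) (nat_lit 152) (nat_lit 0) (XT.lf (nat_lit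 0) (nat_lit 167555378708) (nat_lit 228) (nat_lit 486642990160) (nat_lit 304) (nat_lit 1448635259336) (nat_lit 59) (nat_lit 5) (nat_lit 62) (nat_lit 5) (nat_lit 63) (nat_lit 5) (nat_lit 488) (nat_lit 473) (nat_lit 239)) (XT.nd (nat_lit 78) (nat_lit 152) (nat_lit 0) (XT.lf (nat_lit 0) (nat_lit 1069698896792) (nat_lit 304) (nat_lit 740511475338) (nat_lit 76) (nat_lit 390472092152) (nat_lit 59) (nat_lit 5) (nat_lit 63) (nat_lit 5) (nat_lit 60) (nat_lit 5) (nat_lit 489) (nat_lit 473) (nat_lit 238)) (XT.lf (nat_lit 0) (nat_lit 565484379172) (nat_lit 152) (nat_lit 979195076351) (nat_lit 228) (nat_lit 759580552637) (nat_lit 57) (nat_lit 5) (nat_lit 59) (nat_lit 5) (nat_lit 60) (nat_lit 5) (nat_lit 490) (nat_lit 473) (nat_lit 237)))))) (XT.nd (nat_lit 468) (nat_lit 684) (nat_lit 0) (XT.nd (nat_lit 234) (nat_lit 152) (nat_lit 0) (XT.nd (nat_lit 78) (nat_lit 380) (nat_lit 0) (XT.lf (nat_lit 0) (nat_lit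 2018073443080) (nat_lit 152) (nat_lit 59831909980) (nat_lit 228) (nat_lit 336598650960) (nat_lit 57) (nat_lit 5) (nat_lit 59) (nat_lit 5) (nat_lit 60) (nat_lit 5) (nat_lit 491) (nat_lit 473) (nat_lit 236)) (XT.nd (nat_lit 78) (nat_lit 152) (nat_lit 0) (XT.lf (nat_lit 0) (nat_lit 164006919773) (nat_lit 228) (nat_lit 1448691678441) (nat_lit 76) (nat_lit 916653686482) (nat_lit 54) (nat_lit 5) (nat_lit 57) (nat_lit 5) (nat_lit 55) (nat_lit 5) (nat_lit 492) (nat_lit 473) (nat_lit 235)) (XT.lf (nat_lit 0) (nat_lit 37226931493) (nat_lit 152) (nat_lit 662818966605) (nat_lit 228) (nat_lit 1951557501408) (nat_lit 52) (nat_lit 5) (nat_lit 54) (nat_lit 5) (nat_lit 55) (nat_lit 5) (nat_lit 493) (nat_lit 473) (nat_lit 234)))) (XT.nd (nat_lit 78) (nat_lit 152) (nat_lit 0) (XT.lf (nat_lit 0) (nat_lit 1328338002806) (nat_lit 228) (nat_lit 1065818624818) (nat_lit 76) (nat_lit 385528375228) (nat_lit 52) (nat_lit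 5) (nat_lit 55) (nat_lit 5) (nat_lit 53) (nat_lit 5) (nat_lit 494) (nat_lit 473) (nat_lit 233)) (XT.nd (nat_lit 78) (nat_lit 0) (nat_lit 0) (XT.lf (nat_lit 0) (nat_lit 620444934715) (nat_lit 152) (nat_lit 1418586332230) (nat_lit 228) (nat_lit 876410844236) (nat_lit 50) (nat_lit 5) (nat_lit 52) (nat_lit 5) (nat_lit 53) (nat_lit 5) (nat_lit 495) (nat_lit 473) (nat_lit 232)) (XT.lf (nat_lit 0) (nat_lit 2502223626152) (nat_lit 152) (nat_lit 333497734519) (nat_lit 228) (nat_lit 224007118030) (nat_lit 50) (nat_lit 5) (nat_lit 52) (nat_lit 5) (nat_lit 53) (nat_lit 5) (nat_lit 496) (nat_lit 473) (nat_lit 231))))) (XT.nd (nat_lit 234) (nat_lit 380) (nat_lit 0) (XT.nd (nat_lit 78) (nat_lit 152) (nat_lit 0) (XT.lf (nat_lit 0) (nat_lit 510970791014) (nat_lit 152) (nat_lit 1857033016857) (nat_lit 76) (nat_lit 842275462713) (nat_lit 48) (nat_lit 5) (nat_lit 50) (nat_lit 5) (nat_lit 49) (nat_lit 5) (nat_lit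 497) (nat_lit 473) (nat_lit 230)) (XT.nd (nat_lit 78) (nat_lit 0) (nat_lit 0) (XT.lf (nat_lit 0) (nat_lit 65298491913) (nat_lit 152) (nat_lit 1253218042979) (nat_lit 228) (nat_lit 2051822377201) (nat_lit 46) (nat_lit 5) (nat_lit 48) (nat_lit 5) (nat_lit 49) (nat_lit 5) (nat_lit 498) (nat_lit 473) (nat_lit 229)) (XT.lf (nat_lit 0) (nat_lit 2241574880937) (nat_lit 228) (nat_lit 1292248097345) (nat_lit 76) (nat_lit 5307631229) (nat_lit 46) (nat_lit 5) (nat_lit 49) (nat_lit 5) (nat_lit 47) (nat_lit 4) (nat_lit 499) (nat_lit 473) (nat_lit 228)))) (XT.nd (nat_lit 156) (nat_lit 228) (nat_lit 0) (XT.nd (nat_lit 78) (nat_lit 76) (nat_lit 0) (XT.lf (nat_lit 0) (nat_lit 893724194924) (nat_lit 76) (nat_lit 2398798904823) (nat_lit 152) (nat_lit 424578926568) (nat_lit 45) (nat_lit 5) (nat_lit 46) (nat_lit 5) (nat_lit 47) (nat_lit 4) (nat_lit 500) (nat_lit 473) (nat_lit 227)) (XT.lf (nat_lit 0) (nat_lit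 528561830237) (nat_lit 152) (nat_lit 591800317749) (nat_lit 76) (nat_lit 2785051915361) (nat_lit 44) (nat_lit 5) (nat_lit 46) (nat_lit 5) (nat_lit 45) (nat_lit 5) (nat_lit 501) (nat_lit 473) (nat_lit 226))) (XT.nd (nat_lit 78) (nat_lit 76) (nat_lit 0) (XT.lf (nat_lit 0) (nat_lit 1588505628848) (nat_lit 228) (nat_lit 2209541493516) (nat_lit 76) (nat_lit 305582493350) (nat_lit 42) (nat_lit 5) (nat_lit 45) (nat_lit 5) (nat_lit 43) (nat_lit 4) (nat_lit 502) (nat_lit 473) (nat_lit 225)) (XT.lf (nat_lit 0) (nat_lit 280612686183) (nat_lit 76) (nat_lit 2505082453145) (nat_lit 152) (nat_lit 1527811256302) (nat_lit 41) (nat_lit 5) (nat_lit 42) (nat_lit 5) (nat_lit 43) (nat_lit 4) (nat_lit 503) (nat_lit 473) (nat_lit 224))))))) (XT.nd (nat_lit 936) (nat_lit 684) (nat_lit 0) (XT.nd (nat_lit 468) (nat_lit 380) (nat_lit 0) (XT.nd (nat_lit 234) (nat_lit 228) (nat_lit 0) (XT.nd (nat_lit 78) (nat_lit 152)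 (nat_lit 0) (XT.lf (nat_lit 0) (nat_lit 3095637780777) (nat_lit 76) (nat_lit 1043434808809) (nat_lit 152) (nat_lit 396267706038) (nat_lit 41) (nat_lit 5) (nat_lit 42) (nat_lit 5) (nat_lit 43) (nat_lit 4) (nat_lit 504) (nat_lit 473) (nat_lit 223)) (XT.nd (nat_lit 78) (nat_lit 0) (nat_lit 0) (XT.lf (nat_lit 0) (nat_lit 832708935986) (nat_lit 152) (nat_lit 3373181345892) (nat_lit 76) (nat_lit 563584231473) (nat_lit 39) (nat_lit 5) (nat_lit 41) (nat_lit 5) (nat_lit 40) (nat_lit 4) (nat_lit 505) (nat_lit 473) (nat_lit 222)) (XT.lf (nat_lit 0) (nat_lit 2206083622497) (nat_lit 152) (nat_lit 516561999492) (nat_lit 76) (nat_lit 2293471340137) (nat_lit 39) (nat_lit 5) (nat_lit 41) (nat_lit 5) (nat_lit 40) (nat_lit 4) (nat_lit 506) (nat_lit 473) (nat_lit 221)))) (XT.nd (nat_lit 78) (nat_lit 152) (nat_lit 0) (XT.lf (nat_lit 0) (nat_lit 2703844126654) (nat_lit 76) (nat_lit 1050511672562) (nat_lit 152)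 (nat_lit 1522932806366) (nat_lit 38) (nat_lit 5) (nat_lit 39) (nat_lit 5) (nat_lit 40) (nat_lit 4) (nat_lit 507) (nat_lit 473) (nat_lit 220)) (XT.nd (nat_lit 78) (nat_lit 76) (nat_lit 0) (XT.lf (nat_lit 0) (nat_lit 667913674347) (nat_lit 76) (nat_lit 4807297204701) (nat_lit 76) (nat_lit 80245411147) (nat_lit 37) (nat_lit 4) (nat_lit 38) (nat_lit 5) (nat_lit 38) (nat_lit 4) (nat_lit 508) (nat_lit 473) (nat_lit 219)) (XT.lf (nat_lit 0) (nat_lit 1503404731745) (nat_lit 152) (nat_lit 1599969952658) (nat_lit 76) (nat_lit 2741701213723) (nat_lit 36) (nat_lit 5) (nat_lit 38) (nat_lit 5) (nat_lit 37) (nat_lit 4) (nat_lit 509) (nat_lit 473) (nat_lit 218))))) (XT.nd (nat_lit 234) (nat_lit 152) (nat_lit 0) (XT.nd (nat_lit 78) (nat_lit 152) (nat_lit 0) (XT.lf (nat_lit 0) (nat_lit 2051130058133) (nat_lit 76) (nat_lit 1207611217766) (nat_lit 152) (nat_lit 2895010676974) (nat_lit 35) (nat_lit 5) (nat_lit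 36) (nat_lit 5) (nat_lit 37) (nat_lit 4) (nat_lit 510) (nat_lit 473) (nat_lit 217)) (XT.nd (nat_lit 78) (nat_lit 152) (nat_lit 0) (XT.lf (nat_lit 0) (nat_lit 5219584547385) (nat_lit 152) (nat_lit 419646424695) (nat_lit 0) (nat_lit 842684735617) (nat_lit 35) (nat_lit 5) (nat_lit 37) (nat_lit 4) (nat_lit 35) (nat_lit 4) (nat_lit 511) (nat_lit 473) (nat_lit 216)) (XT.lf (nat_lit 0) (nat_lit 599683787310) (nat_lit 152) (nat_lit 3129557534995) (nat_lit 76) (nat_lit 3096224887073) (nat_lit 33) (nat_lit 5) (nat_lit 35) (nat_lit 5) (nat_lit 34) (nat_lit 4) (nat_lit 512) (nat_lit 473) (nat_lit 215)))) (XT.nd (nat_lit 78) (nat_lit 76) (nat_lit 0) (XT.lf (nat_lit 0) (nat_lit 985188264691) (nat_lit 76) (nat_lit 1592738695916) (nat_lit 152) (nat_lit 4613113508773) (nat_lit 32) (nat_lit 5) (nat_lit 33) (nat_lit 5) (nat_lit 34) (nat_lit 4) (nat_lit 513) (nat_lit 473) (nat_lit 214)) (XT.nd (nat_lit 78)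 (nat_lit 76) (nat_lit 0) (XT.lf (nat_lit 0) (nat_lit 4819407943121) (nat_lit 152) (nat_lit 1991331528559) (nat_lit 0) (nat_lit 766722930076) (nat_lit 32) (nat_lit 5) (nat_lit 34) (nat_lit 4) (nat_lit 32) (nat_lit 4) (nat_lit 514) (nat_lit 473) (nat_lit 213)) (XT.lf (nat_lit 0) (nat_lit 2651626037481) (nat_lit 76) (nat_lit 4693722872229) (nat_lit 76) (nat_lit 641037858571) (nat_lit 31) (nat_lit 4) (nat_lit 32) (nat_lit 5) (nat_lit 32) (nat_lit 4) (nat_lit 515) (nat_lit 473) (nat_lit 212)))))) (XT.nd (nat_lit 468) (nat_lit 304) (nat_lit 0) (XT.nd (nat_lit 234) (nat_lit 152) (nat_lit 0) (XT.nd (nat_lit 78) (nat_lit 152) (nat_lit 0) (XT.lf (nat_lit 0) (nat_lit 1618894223394) (nat_lit 152) (nat_lit 685385029564) (nat_lit 76) (nat_lit 6116111335484) (nat_lit 30) (nat_lit 5) (nat_lit 32) (nat_lit 5) (nat_lit 31) (nat_lit 4) (nat_lit 516) (nat_lit 473) (nat_lit 211)) (XT.nd (nat_lit 78) (nat_lit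 76) (nat_lit 0) (XT.lf (nat_lit 0) (nat_lit 4144255512736) (nat_lit 152) (nat_lit 4342216399954) (nat_lit 0) (nat_lit 391769387967) (nat_lit 29) (nat_lit 5) (nat_lit 31) (nat_lit 4) (nat_lit 29) (nat_lit 4) (nat_lit 517) (nat_lit 473) (nat_lit 210)) (XT.lf (nat_lit 0) (nat_lit 823775619099) (nat_lit 76) (nat_lit 6146759703297) (nat_lit 76) (nat_lit 2394273578078) (nat_lit 28) (nat_lit 4) (nat_lit 29) (nat_lit 5) (nat_lit 29) (nat_lit 4) (nat_lit 518) (nat_lit 473) (nat_lit 209)))) (XT.nd (nat_lit 78) (nat_lit 76) (nat_lit 0) (XT.lf (nat_lit 0) (nat_lit 247789266906) (nat_lit 152) (nat_lit 3237084450470) (nat_lit 76) (nat_lit 6395428427960) (nat_lit 27) (nat_lit 5) (nat_lit 29) (nat_lit 5) (nat_lit 28) (nat_lit 4) (nat_lit 519) (nat_lit 473) (nat_lit 208)) (XT.nd (nat_lit 78) (nat_lit 0) (nat_lit 0) (XT.lf (nat_lit 0) (nat_lit 2556897742092) (nat_lit 76) (nat_lit 476459886808) (nat_lit 152)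 (nat_lit 7393782630834) (nat_lit 26) (nat_lit 5) (nat_lit 27) (nat_lit 5) (nat_lit 28) (nat_lit 4) (nat_lit 520) (nat_lit 473) (nat_lit 207)) (XT.lf (nat_lit 0) (nat_lit 6199259731302) (nat_lit 152) (nat_lit 2081131090057) (nat_lit 0) (nat_lit 2724735540209) (nat_lit 26) (nat_lit 5) (nat_lit 28) (nat_lit 4) (nat_lit 26) (nat_lit 4) (nat_lit 521) (nat_lit 473) (nat_lit 206))))) (XT.nd (nat_lit 234) (nat_lit 76) (nat_lit 0) (XT.nd (nat_lit 78) (nat_lit 152) (nat_lit 0) (XT.lf (nat_lit 0) (nat_lit 4377725214189) (nat_lit 76) (nat_lit 5358368765277) (nat_lit 76) (nat_lit 1883844573878) (nat_lit 25) (nat_lit 4) (nat_lit 26) (nat_lit 5) (nat_lit 26) (nat_lit 4) (nat_lit 522) (nat_lit 473) (nat_lit 205)) (XT.nd (nat_lit 78) (nat_lit 76) (nat_lit 0) (XT.lf (nat_lit 0) (nat_lit 1266691475140) (nat_lit 152) (nat_lit 839805923390) (nat_lit 76) (nat_lit 10170320725922) (nat_lit 24) (nat_lit 5) (nat_lit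 26) (nat_lit 5) (nat_lit 25) (nat_lit 4) (nat_lit 523) (nat_lit 473) (nat_lit 204)) (XT.lf (nat_lit 0) (nat_lit 4759083607092) (nat_lit 152) (nat_lit 6665991215448) (nat_lit 0) (nat_lit 1541931577513) (nat_lit 23) (nat_lit 5) (nat_lit 25) (nat_lit 4) (nat_lit 23) (nat_lit 4) (nat_lit 524) (nat_lit 473) (nat_lit 203)))) (XT.nd (nat_lit 58578) (nat_lit 0) (nat_lit 4484) (XT.nd (nat_lit 58500) (nat_lit 0) (nat_lit 4484) (XT.lf (nat_lit 0) (nat_lit 310512138705) (nat_lit 76) (nat_lit 8306095205036) (nat_lit 76) (nat_lit 5088943175232) (nat_lit 22) (nat_lit 4) (nat_lit 23) (nat_lit 5) (nat_lit 23) (nat_lit 4) (nat_lit 525) (nat_lit 473) (nat_lit 202)) (XT.lf (nat_lit 0) (nat_lit 585356038117) (nat_lit 532) (nat_lit 9265221839) (nat_lit 532) (nat_lit 9265221839) (nat_lit 81) (nat_lit 3) (nat_lit 88) (nat_lit 3) (nat_lit 88) (nat_lit 5) (nat_lit 474) (nat_lit 474) (nat_lit 252))) (XT.nd (nat_lit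 78) (nat_lit 0) (nat_lit 0) (XT.lf (nat_lit 76) (nat_lit 611098282442) (nat_lit 0) (nat_lit 621139247528) (nat_lit 532) (nat_lit 22670594498) (nat_lit 82) (nat_lit 5) (nat_lit 81) (nat_lit 3) (nat_lit 88) (nat_lit 5) (nat_lit 475) (nat_lit 474) (nat_lit 251)) (XT.lf (nat_lit 76) (nat_lit 1292151146998) (nat_lit 0) (nat_lit 7040523886) (nat_lit 532) (nat_lit 6581895263) (nat_lit 82) (nat_lit 5) (nat_lit 81) (nat_lit 3) (nat_lit 88) (nat_lit 5) (nat_lit 476) (nat_lit 474) (nat_lit 250))))))))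
noncomputable def xc233 : XT := (XT.nd (nat_lit 1950) (nat_lit 1672) (nat_lit 0) (XT.nd (nat_lit 936) (nat_lit 1292) (nat_lit 0) (XT.nd (nat_lit 468) (nat_lit 684) (nat_lit 0) (XT.nd (nat_lit 234) (nat_lit 304) (nat_lit 0) (XT.nd (nat_lit 78) (nat_lit 0) (nat_lit 0) (XT.lf (nat_lit 0) (nat_lit 43359388431) (nat_lit 532) (nat_lit 673734889503) (nat_lit 608) (nat_lit 640944762293) (nat_lit 75) (nat_lit 5) (nat_lit 82) (nat_lit 5) (nat_lit 83) (nat_lit 5) (nat_lit 477) (nat_lit 474) (nat_lit 249)) (XT.nd (nat_lit 78) (nat_lit 0) (nat_lit 76) (XT.lf (nat_lit 76) (nat_lit 25284959880) (nat_lit 0) (nat_lit 72828527880) (nat_lit 608) (nat_lit 1316264739310) (nat_lit 76) (nat_lit 5) (nat_lit 75) (nat_lit 5) (nat_lit 83) (nat_lit 5) (nat_lit 478) (nat_lit 474) (nat_lit 248)) (XT.lf (nat_lit 0) (nat_lit 191130135081) (nat_lit 532) (nat_lit 670669683758) (nat_lit 608) (nat_lit 610714152420) (nat_lit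 76) (nat_lit 5) (nat_lit 83) (nat_lit 5) (nat_lit 84) (nat_lit 5) (nat_lit 479) (nat_lit 474) (nat_lit 247)))) (XT.nd (nat_lit 78) (nat_lit 380) (nat_lit 0) (XT.lf (nat_lit 76) (nat_lit 108777631193) (nat_lit 0) (nat_lit 187318234420) (nat_lit 608) (nat_lit 1238844089255) (nat_lit 77) (nat_lit 5) (nat_lit 76) (nat_lit 5) (nat_lit 84) (nat_lit 5) (nat_lit 480) (nat_lit 474) (nat_lit 246)) (XT.nd (nat_lit 78) (nat_lit 456) (nat_lit 0) (XT.lf (nat_lit 0) (nat_lit 441286436764) (nat_lit 532) (nat_lit 625661013364) (nat_lit 76) (nat_lit 532866360465) (nat_lit 77) (nat_lit 5) (nat_lit 84) (nat_lit 5) (nat_lit 78) (nat_lit 5) (nat_lit 481) (nat_lit 474) (nat_lit 245)) (XT.lf (nat_lit 0) (nat_lit 246337805051) (nat_lit 456) (nat_lit 362544284505) (nat_lit 532) (nat_lit 1060132298346) (nat_lit 71) (nat_lit 5) (nat_lit 77) (nat_lit 5) (nat_lit 78) (nat_lit 5) (nat_lit 482) (nat_lit 474) (nat_lit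 244))))) (XT.nd (nat_lit 234) (nat_lit 456) (nat_lit 0) (XT.nd (nat_lit 78) (nat_lit 228) (nat_lit 0) (XT.lf (nat_lit 0) (nat_lit 817013389452) (nat_lit 532) (nat_lit 528725371373) (nat_lit 76) (nat_lit 395842010978) (nat_lit 71) (nat_lit 5) (nat_lit 78) (nat_lit 5) (nat_lit 72) (nat_lit 5) (nat_lit 483) (nat_lit 474) (nat_lit 243)) (XT.nd (nat_lit 78) (nat_lit 0) (nat_lit 0) (XT.lf (nat_lit 0) (nat_lit 449827387433) (nat_lit 228) (nat_lit 612202897534) (nat_lit 304) (nat_lit 756303374121) (nat_lit 68) (nat_lit 5) (nat_lit 71) (nat_lit 5) (nat_lit 72) (nat_lit 5) (nat_lit 484) (nat_lit 474) (nat_lit 242)) (XT.lf (nat_lit 0) (nat_lit 1345809691533) (nat_lit 304) (nat_lit 368041702911) (nat_lit 76) (nat_lit 185842490161) (nat_lit 68) (nat_lit 5) (nat_lit 72) (nat_lit 5) (nat_lit 69) (nat_lit 5) (nat_lit 485) (nat_lit 474) (nat_lit 241)))) (XT.nd (nat_lit 78) (nat_lit 228) (nat_lit 0) (XT.lf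 (nat_lit 0) (nat_lit 733238199153) (nat_lit 228) (nat_lit 952589019532) (nat_lit 304) (nat_lit 299052848033) (nat_lit 65) (nat_lit 5) (nat_lit 68) (nat_lit 5) (nat_lit 69) (nat_lit 5) (nat_lit 486) (nat_lit 474) (nat_lit 240)) (XT.nd (nat_lit 78) (nat_lit 228) (nat_lit 0) (XT.lf (nat_lit 0) (nat_lit 1943551348634) (nat_lit 228) (nat_lit 119557709640) (nat_lit 304) (nat_lit 12967052305) (nat_lit 65) (nat_lit 5) (nat_lit 68) (nat_lit 5) (nat_lit 69) (nat_lit 5) (nat_lit 487) (nat_lit 474) (nat_lit 239)) (XT.lf (nat_lit 0) (nat_lit 327911230089) (nat_lit 228) (nat_lit 1066188357924) (nat_lit 76) (nat_lit 776161692794) (nat_lit 62) (nat_lit 5) (nat_lit 65) (nat_lit 5) (nat_lit 63) (nat_lit 5) (nat_lit 488) (nat_lit 474) (nat_lit 238)))))) (XT.nd (nat_lit 468) (nat_lit 532) (nat_lit 0) (XT.nd (nat_lit 234) (nat_lit 380) (nat_lit 0) (XT.nd (nat_lit 78) (nat_lit 152) (nat_lit 0) (XT.lf (nat_lit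 0) (nat_lit 180959860536) (nat_lit 228) (nat_lit 525574416767) (nat_lit 304) (nat_lit 1564526038038) (nat_lit 59) (nat_lit 5) (nat_lit 62) (nat_lit 5) (nat_lit 63) (nat_lit 5) (nat_lit 489) (nat_lit 474) (nat_lit 237)) (XT.nd (nat_lit 78) (nat_lit 152) (nat_lit 0) (XT.lf (nat_lit 0) (nat_lit 1155274844857) (nat_lit 304) (nat_lit 799752343043) (nat_lit 76) (nat_lit 421709870613) (nat_lit 59) (nat_lit 5) (nat_lit 63) (nat_lit 5) (nat_lit 60) (nat_lit 5) (nat_lit 490) (nat_lit 474) (nat_lit 236)) (XT.lf (nat_lit 0) (nat_lit 610723178554) (nat_lit 152) (nat_lit 1057530668222) (nat_lit 228) (nat_lit 820346959247) (nat_lit 57) (nat_lit 5) (nat_lit 59) (nat_lit 5) (nat_lit 60) (nat_lit 5) (nat_lit 491) (nat_lit 474) (nat_lit 235)))) (XT.nd (nat_lit 78) (nat_lit 380) (nat_lit 0) (XT.lf (nat_lit 0) (nat_lit 2179519363942) (nat_lit 152) (nat_lit 64618449596) (nat_lit 228) (nat_lit 363526508220) (nat_lit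 57) (nat_lit 5) (nat_lit 59) (nat_lit 5) (nat_lit 60) (nat_lit 5) (nat_lit 492) (nat_lit 474) (nat_lit 234)) (XT.nd (nat_lit 78) (nat_lit 152) (nat_lit 0) (XT.lf (nat_lit 0) (nat_lit 177127505427) (nat_lit 228) (nat_lit 1564586964548) (nat_lit 76) (nat_lit 989985994926) (nat_lit 54) (nat_lit 5) (nat_lit 57) (nat_lit 5) (nat_lit 55) (nat_lit 5) (nat_lit 493) (nat_lit 474) (nat_lit 233)) (XT.lf (nat_lit 0) (nat_lit 40205132962) (nat_lit 152) (nat_lit 715844467811) (nat_lit 228) (nat_lit 2107682068224) (nat_lit 52) (nat_lit 5) (nat_lit 54) (nat_lit 5) (nat_lit 55) (nat_lit 5) (nat_lit 494) (nat_lit 474) (nat_lit 232))))) (XT.nd (nat_lit 234) (nat_lit 380) (nat_lit 0) (XT.nd (nat_lit 78) (nat_lit 152) (nat_lit 0) (XT.lf (nat_lit 0) (nat_lit 1434605071932) (nat_lit 228) (nat_lit 1151084069404) (nat_lit 76) (nat_lit 416370659428) (nat_lit 52) (nat_lit 5) (nat_lit 55) (nat_lit 5) (nat_lit 53)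 (nat_lit 5) (nat_lit 495) (nat_lit 474) (nat_lit 231)) (XT.nd (nat_lit 78) (nat_lit 0) (nat_lit 0) (XT.lf (nat_lit 0) (nat_lit 670080573743) (nat_lit 152) (nat_lit 1532073222383) (nat_lit 228) (nat_lit 946523681721) (nat_lit 50) (nat_lit 5) (nat_lit 52) (nat_lit 5) (nat_lit 53) (nat_lit 5) (nat_lit 496) (nat_lit 474) (nat_lit 230)) (XT.lf (nat_lit 0) (nat_lit 2702401557217) (nat_lit 152) (nat_lit 360177538072) (nat_lit 228) (nat_lit 241927659644) (nat_lit 50) (nat_lit 5) (nat_lit 52) (nat_lit 5) (nat_lit 53) (nat_lit 5) (nat_lit 497) (nat_lit 474) (nat_lit 229)))) (XT.nd (nat_lit 156) (nat_lit 76) (nat_lit 0) (XT.nd (nat_lit 78) (nat_lit 152) (nat_lit 0) (XT.lf (nat_lit 0) (nat_lit 551848480147) (nat_lit 152) (nat_lit 2005595615250) (nat_lit 76) (nat_lit 909657514762) (nat_lit 48) (nat_lit 5) (nat_lit 50) (nat_lit 5) (nat_lit 49) (nat_lit 5) (nat_lit 498) (nat_lit 474) (nat_lit 228)) (XT.lf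 (nat_lit 0) (nat_lit 70522413134) (nat_lit 152) (nat_lit 1353475469493) (nat_lit 228) (nat_lit 2215968140435) (nat_lit 46) (nat_lit 5) (nat_lit 48) (nat_lit 5) (nat_lit 49) (nat_lit 5) (nat_lit 499) (nat_lit 474) (nat_lit 227))) (XT.nd (nat_lit 78) (nat_lit 76) (nat_lit 0) (XT.lf (nat_lit 0) (nat_lit 2420900894885) (nat_lit 228) (nat_lit 1395627904892) (nat_lit 76) (nat_lit 5732256613) (nat_lit 46) (nat_lit 5) (nat_lit 49) (nat_lit 5) (nat_lit 47) (nat_lit 4) (nat_lit 500) (nat_lit 474) (nat_lit 226)) (XT.lf (nat_lit 0) (nat_lit 965222169739) (nat_lit 76) (nat_lit 2590702800665) (nat_lit 152) (nat_lit 458545216199) (nat_lit 45) (nat_lit 5) (nat_lit 46) (nat_lit 5) (nat_lit 47) (nat_lit 4) (nat_lit 501) (nat_lit 474) (nat_lit 225))))))) (XT.nd (nat_lit 936) (nat_lit 760) (nat_lit 0) (XT.nd (nat_lit 468) (nat_lit 456) (nat_lit 0) (XT.nd (nat_lit 234) (nat_lit 152) (nat_lit 0) (XT.nd (nat_lit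 78) (nat_lit 228) (nat_lit 0) (XT.lf (nat_lit 0) (nat_lit 570846798202) (nat_lit 152) (nat_lit 639144305717) (nat_lit 76) (nat_lit 3007856082772) (nat_lit 44) (nat_lit 5) (nat_lit 46) (nat_lit 5) (nat_lit 45) (nat_lit 5) (nat_lit 502) (nat_lit 474) (nat_lit 224)) (XT.nd (nat_lit 78) (nat_lit 76) (nat_lit 0) (XT.lf (nat_lit 0) (nat_lit 1715586100360) (nat_lit 228) (nat_lit 2386304775201) (nat_lit 76) (nat_lit 330029107711) (nat_lit 42) (nat_lit 5) (nat_lit 45) (nat_lit 5) (nat_lit 43) (nat_lit 4) (nat_lit 503) (nat_lit 474) (nat_lit 223)) (XT.lf (nat_lit 0) (nat_lit 303061737916) (nat_lit 76) (nat_lit 2705489033077) (nat_lit 152) (nat_lit 1650036134643) (nat_lit 41) (nat_lit 5) (nat_lit 42) (nat_lit 5) (nat_lit 43) (nat_lit 4) (nat_lit 504) (nat_lit 474) (nat_lit 222)))) (XT.nd (nat_lit 78) (nat_lit 152) (nat_lit 0) (XT.lf (nat_lit 0) (nat_lit 3343288837349) (nat_lit 76) (nat_lit 1126909578404)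 (nat_lit 152) (nat_lit 427969102000) (nat_lit 41) (nat_lit 5) (nat_lit 42) (nat_lit 5) (nat_lit 43) (nat_lit 4) (nat_lit 505) (nat_lit 474) (nat_lit 221)) (XT.nd (nat_lit 78) (nat_lit 0) (nat_lit 0) (XT.lf (nat_lit 0) (nat_lit 899325670109) (nat_lit 152) (nat_lit 3643035818174) (nat_lit 76) (nat_lit 608670984596) (nat_lit 39) (nat_lit 5) (nat_lit 41) (nat_lit 5) (nat_lit 40) (nat_lit 4) (nat_lit 506) (nat_lit 474) (nat_lit 220)) (XT.lf (nat_lit 0) (nat_lit 2382570330115) (nat_lit 152) (nat_lit 557886926683) (nat_lit 76) (nat_lit 2476949060871) (nat_lit 39) (nat_lit 5) (nat_lit 41) (nat_lit 5) (nat_lit 40) (nat_lit 4) (nat_lit 507) (nat_lit 474) (nat_lit 219))))) (XT.nd (nat_lit 234) (nat_lit 228) (nat_lit 0) (XT.nd (nat_lit 78) (nat_lit 152) (nat_lit 0) (XT.lf (nat_lit 0) (nat_lit 2920151688725) (nat_lit 76) (nat_lit 1134552591694) (nat_lit 152) (nat_lit 1644767412226) (nat_lit 38) (nat_lit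 5) (nat_lit 39) (nat_lit 5) (nat_lit 40) (nat_lit 4) (nat_lit 508) (nat_lit 474) (nat_lit 218)) (XT.nd (nat_lit 78) (nat_lit 76) (nat_lit 0) (XT.lf (nat_lit 0) (nat_lit 721346800428) (nat_lit 76) (nat_lit 5191880966030) (nat_lit 76) (nat_lit 86665025583) (nat_lit 37) (nat_lit 4) (nat_lit 38) (nat_lit 5) (nat_lit 38) (nat_lit 4) (nat_lit 509) (nat_lit 474) (nat_lit 217)) (XT.lf (nat_lit 0) (nat_lit 1623677126518) (nat_lit 152) (nat_lit 1727967518261) (nat_lit 76) (nat_lit 2961037323897) (nat_lit 36) (nat_lit 5) (nat_lit 38) (nat_lit 5) (nat_lit 37) (nat_lit 4) (nat_lit 510) (nat_lit 474) (nat_lit 216)))) (XT.nd (nat_lit 78) (nat_lit 152) (nat_lit 0) (XT.lf (nat_lit 0) (nat_lit 2215220492618) (nat_lit 76) (nat_lit 1304220101101) (nat_lit 152) (nat_lit 3126611514123) (nat_lit 35) (nat_lit 5) (nat_lit 36) (nat_lit 5) (nat_lit 37) (nat_lit 4) (nat_lit 511) (nat_lit 474) (nat_lit 215)) (XT.nd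 (nat_lit 78) (nat_lit 152) (nat_lit 0) (XT.lf (nat_lit 0) (nat_lit 5637151326072) (nat_lit 152) (nat_lit 453218110192) (nat_lit 0) (nat_lit 910099526856) (nat_lit 35) (nat_lit 5) (nat_lit 37) (nat_lit 4) (nat_lit 35) (nat_lit 4) (nat_lit 512) (nat_lit 474) (nat_lit 214)) (XT.lf (nat_lit 0) (nat_lit 647658505131) (nat_lit 152) (nat_lit 3379922109255) (nat_lit 76) (nat_lit 3343922890555) (nat_lit 33) (nat_lit 5) (nat_lit 35) (nat_lit 5) (nat_lit 34) (nat_lit 4) (nat_lit 513) (nat_lit 474) (nat_lit 213)))))) (XT.nd (nat_lit 468) (nat_lit 380) (nat_lit 0) (XT.nd (nat_lit 234) (nat_lit 228) (nat_lit 0) (XT.nd (nat_lit 78) (nat_lit 76) (nat_lit 0) (XT.lf (nat_lit 0) (nat_lit 1064003353683) (nat_lit 76) (nat_lit 1720157778179) (nat_lit 152) (nat_lit 4982162573916) (nat_lit 32) (nat_lit 5) (nat_lit 33) (nat_lit 5) (nat_lit 34) (nat_lit 4) (nat_lit 514) (nat_lit 474) (nat_lit 212)) (XT.nd (nat_lit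 78) (nat_lit 76) (nat_lit 0) (XT.lf (nat_lit 0) (nat_lit 5204960592208) (nat_lit 152) (nat_lit 2150638024318) (nat_lit 0) (nat_lit 828060776278) (nat_lit 32) (nat_lit 5) (nat_lit 34) (nat_lit 4) (nat_lit 32) (nat_lit 4) (nat_lit 515) (nat_lit 474) (nat_lit 211)) (XT.lf (nat_lit 0) (nat_lit 2863756146333) (nat_lit 76) (nat_lit 5069220689403) (nat_lit 76) (nat_lit 692320872947) (nat_lit 31) (nat_lit 4) (nat_lit 32) (nat_lit 5) (nat_lit 32) (nat_lit 4) (nat_lit 516) (nat_lit 474) (nat_lit 210)))) (XT.nd (nat_lit 78) (nat_lit 152) (nat_lit 0) (XT.lf (nat_lit 0) (nat_lit 1748405773852) (nat_lit 152) (nat_lit 740215807328) (nat_lit 76) (nat_lit 6605400253331) (nat_lit 30) (nat_lit 5) (nat_lit 32) (nat_lit 5) (nat_lit 31) (nat_lit 4) (nat_lit 517) (nat_lit 474) (nat_lit 209)) (XT.nd (nat_lit 78) (nat_lit 76) (nat_lit 0) (XT.lf (nat_lit 0) (nat_lit 4475795966269) (nat_lit 152) (nat_lit 4689593687275)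 (nat_lit 0) (nat_lit 423110950165) (nat_lit 29) (nat_lit 5) (nat_lit 31) (nat_lit 4) (nat_lit 29) (nat_lit 4) (nat_lit 518) (nat_lit 474) (nat_lit 208)) (XT.lf (nat_lit 0) (nat_lit 889677692678) (nat_lit 76) (nat_lit 6638500467676) (nat_lit 76) (nat_lit 2585815451186) (nat_lit 28) (nat_lit 4) (nat_lit 29) (nat_lit 5) (nat_lit 29) (nat_lit 4) (nat_lit 519) (nat_lit 474) (nat_lit 207))))) (XT.nd (nat_lit 234) (nat_lit 228) (nat_lit 0) (XT.nd (nat_lit 78) (nat_lit 76) (nat_lit 0) (XT.lf (nat_lit 0) (nat_lit 267612419816) (nat_lit 152) (nat_lit 3496051183630) (nat_lit 76) (nat_lit 6907062712593) (nat_lit 27) (nat_lit 5) (nat_lit 29) (nat_lit 5) (nat_lit 28) (nat_lit 4) (nat_lit 520) (nat_lit 474) (nat_lit 206)) (XT.nd (nat_lit 78) (nat_lit 0) (nat_lit 0) (XT.lf (nat_lit 0) (nat_lit 2761449583758) (nat_lit 76) (nat_lit 514576666691) (nat_lit 152) (nat_lit 7985285229164) (nat_lit 26) (nat_lit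 5) (nat_lit 27) (nat_lit 5) (nat_lit 28) (nat_lit 4) (nat_lit 521) (nat_lit 474) (nat_lit 205)) (XT.lf (nat_lit 0) (nat_lit 6695200520457) (nat_lit 152) (nat_lit 2247621556029) (nat_lit 0) (nat_lit 2942714393156) (nat_lit 26) (nat_lit 5) (nat_lit 28) (nat_lit 4) (nat_lit 26) (nat_lit 4) (nat_lit 522) (nat_lit 474) (nat_lit 204)))) (XT.nd (nat_lit 156) (nat_lit 76) (nat_lit 0) (XT.nd (nat_lit 78) (nat_lit 76) (nat_lit 0) (XT.lf (nat_lit 0) (nat_lit 4727943252020) (nat_lit 76) (nat_lit 5787038256163) (nat_lit 76) (nat_lit 2034552128599) (nat_lit 25) (nat_lit 4) (nat_lit 26) (nat_lit 5) (nat_lit 26) (nat_lit 4) (nat_lit 523) (nat_lit 474) (nat_lit 203)) (XT.lf (nat_lit 0) (nat_lit 1368026802993) (nat_lit 152) (nat_lit 906990377579) (nat_lit 76) (nat_lit 10983946393048) (nat_lit 24) (nat_lit 5) (nat_lit 26) (nat_lit 5) (nat_lit 25) (nat_lit 4) (nat_lit 524) (nat_lit 474) (nat_lit 202))) (XT.nd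 (nat_lit 58578) (nat_lit 0) (nat_lit 4408) (XT.lf (nat_lit 0) (nat_lit 5139810305465) (nat_lit 152) (nat_lit 7199270492966) (nat_lit 0) (nat_lit 1665286112843) (nat_lit 23) (nat_lit 5) (nat_lit 25) (nat_lit 4) (nat_lit 23) (nat_lit 4) (nat_lit 525) (nat_lit 474) (nat_lit 201)) (XT.lf (nat_lit 0) (nat_lit 632184562446) (nat_lit 532) (nat_lit 10006417290) (nat_lit 532) (nat_lit 10006417290) (nat_lit 81) (nat_lit 3) (nat_lit 88) (nat_lit 3) (nat_lit 88) (nat_lit 5) (nat_lit 475) (nat_lit 475) (nat_lit 250))))))))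
noncomputable def xc234 : XT := (XT.nd (nat_lit 1950) (nat_lit 1672) (nat_lit 0) (XT.nd (nat_lit 936) (nat_lit 1444) (nat_lit 0) (XT.nd (nat_lit 468) (nat_lit 760) (nat_lit 0) (XT.nd (nat_lit 234) (nat_lit 0) (nat_lit 0) (XT.nd (nat_lit 78) (nat_lit 456) (nat_lit 0) (XT.lf (nat_lit 76) (nat_lit 659986188501) (nat_lit 0) (nat_lit 670830421355) (nat_lit 532) (nat_lit 24484158350) (nat_lit 82) (nat_lit 5) (nat_lit 81) (nat_lit 3) (nat_lit 88) (nat_lit 5) (nat_lit 476) (nat_lit 475) (nat_lit 249)) (XT.nd (nat_lit 78) (nat_lit 456) (nat_lit 0) (XT.lf (nat_lit 76) (nat_lit 1395523279002) (nat_lit 0) (nat_lit 7603797301) (nat_lit 532) (nat_lit 7108369377) (nat_lit 82) (nat_lit 5) (nat_lit 81) (nat_lit 3) (nat_lit 88) (nat_lit 5) (nat_lit 477) (nat_lit 475) (nat_lit 248)) (XT.lf (nat_lit 0) (nat_lit 46828208087) (nat_lit 532) (nat_lit 727633631458) (nat_lit 608) (nat_lit 692220318398) (nat_lit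 75) (nat_lit 5) (nat_lit 82) (nat_lit 5) (nat_lit 83) (nat_lit 5) (nat_lit 478) (nat_lit 475) (nat_lit 247)))) (XT.nd (nat_lit 78) (nat_lit 0) (nat_lit 76) (XT.lf (nat_lit 76) (nat_lit 27307804629) (nat_lit 0) (nat_lit 78654826806) (nat_lit 608) (nat_lit 1421565848613) (nat_lit 76) (nat_lit 5) (nat_lit 75) (nat_lit 5) (nat_lit 83) (nat_lit 5) (nat_lit 479) (nat_lit 475) (nat_lit 246)) (XT.nd (nat_lit 78) (nat_lit 0) (nat_lit 0) (XT.lf (nat_lit 0) (nat_lit 206420605380) (nat_lit 532) (nat_lit 724323208878) (nat_lit 608) (nat_lit 659571269928) (nat_lit 76) (nat_lit 5) (nat_lit 83) (nat_lit 5) (nat_lit 84) (nat_lit 5) (nat_lit 480) (nat_lit 475) (nat_lit 245)) (XT.lf (nat_lit 76) (nat_lit 117479890014) (nat_lit 0) (nat_lit 202303701096) (nat_lit 608) (nat_lit 1337951555634) (nat_lit 77) (nat_lit 5) (nat_lit 76) (nat_lit 5) (nat_lit 84) (nat_lit 5) (nat_lit 481) (nat_lit 475) (nat_lit 244)))))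 (XT.nd (nat_lit 234) (nat_lit 456) (nat_lit 0) (XT.nd (nat_lit 78) (nat_lit 456) (nat_lit 0) (XT.lf (nat_lit 0) (nat_lit 476589403611) (nat_lit 532) (nat_lit 675713845332) (nat_lit 76) (nat_lit 575495662334) (nat_lit 77) (nat_lit 5) (nat_lit 84) (nat_lit 5) (nat_lit 78) (nat_lit 5) (nat_lit 482) (nat_lit 475) (nat_lit 243)) (XT.nd (nat_lit 78) (nat_lit 0) (nat_lit 0) (XT.lf (nat_lit 0) (nat_lit 266044877313) (nat_lit 456) (nat_lit 391547828619) (nat_lit 532) (nat_lit 1144942829054) (nat_lit 71) (nat_lit 5) (nat_lit 77) (nat_lit 5) (nat_lit 78) (nat_lit 5) (nat_lit 483) (nat_lit 475) (nat_lit 242)) (XT.lf (nat_lit 0) (nat_lit 882374506145) (nat_lit 532) (nat_lit 571023353084) (nat_lit 76) (nat_lit 427509370666) (nat_lit 71) (nat_lit 5) (nat_lit 78) (nat_lit 5) (nat_lit 72) (nat_lit 5) (nat_lit 484) (nat_lit 475) (nat_lit 241)))) (XT.nd (nat_lit 78) (nat_lit 228) (nat_lit 0) (XT.lf (nat_lit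 0) (nat_lit 485813625211) (nat_lit 228) (nat_lit 661179125842) (nat_lit 304) (nat_lit 816807597290) (nat_lit 68) (nat_lit 5) (nat_lit 71) (nat_lit 5) (nat_lit 72) (nat_lit 5) (nat_lit 485) (nat_lit 475) (nat_lit 240)) (XT.nd (nat_lit 78) (nat_lit 228) (nat_lit 0) (XT.lf (nat_lit 0) (nat_lit 1453474507015) (nat_lit 304) (nat_lit 397484992689) (nat_lit 76) (nat_lit 200709892449) (nat_lit 68) (nat_lit 5) (nat_lit 72) (nat_lit 5) (nat_lit 69) (nat_lit 5) (nat_lit 486) (nat_lit 475) (nat_lit 239)) (XT.lf (nat_lit 0) (nat_lit 791897300364) (nat_lit 228) (nat_lit 1028796134089) (nat_lit 304) (nat_lit 322977034532) (nat_lit 65) (nat_lit 5) (nat_lit 68) (nat_lit 5) (nat_lit 69) (nat_lit 5) (nat_lit 487) (nat_lit 475) (nat_lit 238)))))) (XT.nd (nat_lit 468) (nat_lit 836) (nat_lit 0) (XT.nd (nat_lit 234) (nat_lit 152) (nat_lit 0) (XT.nd (nat_lit 78) (nat_lit 456) (nat_lit 0) (XT.lf (nat_lit 0) (nat_lit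 2099035498450) (nat_lit 228) (nat_lit 129122319924) (nat_lit 304) (nat_lit 14004378208) (nat_lit 65) (nat_lit 5) (nat_lit 68) (nat_lit 5) (nat_lit 69) (nat_lit 5) (nat_lit 488) (nat_lit 475) (nat_lit 237)) (XT.nd (nat_lit 78) (nat_lit 228) (nat_lit 0) (XT.lf (nat_lit 0) (nat_lit 354144163389) (nat_lit 228) (nat_lit 1151483381232) (nat_lit 76) (nat_lit 838254635852) (nat_lit 62) (nat_lit 5) (nat_lit 65) (nat_lit 5) (nat_lit 63) (nat_lit 5) (nat_lit 489) (nat_lit 475) (nat_lit 236)) (XT.lf (nat_lit 0) (nat_lit 195436693557) (nat_lit 228) (nat_lit 567620359301) (nat_lit 304) (nat_lit 1689688085034) (nat_lit 59) (nat_lit 5) (nat_lit 62) (nat_lit 5) (nat_lit 63) (nat_lit 5) (nat_lit 490) (nat_lit 475) (nat_lit 235)))) (XT.nd (nat_lit 78) (nat_lit 152) (nat_lit 0) (XT.lf (nat_lit 0) (nat_lit 1247696863586) (nat_lit 304) (nat_lit 863732487343) (nat_lit 76) (nat_lit 455446669768) (nat_lit 59) (nat_lit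 5) (nat_lit 63) (nat_lit 5) (nat_lit 60) (nat_lit 5) (nat_lit 491) (nat_lit 475) (nat_lit 234)) (XT.nd (nat_lit 78) (nat_lit 0) (nat_lit 0) (XT.lf (nat_lit 0) (nat_lit 659581074889) (nat_lit 152) (nat_lit 1142133109473) (nat_lit 228) (nat_lit 885974683749) (nat_lit 57) (nat_lit 5) (nat_lit 59) (nat_lit 5) (nat_lit 60) (nat_lit 5) (nat_lit 492) (nat_lit 475) (nat_lit 233)) (XT.lf (nat_lit 0) (nat_lit 2353880951993) (nat_lit 152) (nat_lit 69787914261) (nat_lit 228) (nat_lit 392608599028) (nat_lit 57) (nat_lit 5) (nat_lit 59) (nat_lit 5) (nat_lit 60) (nat_lit 5) (nat_lit 493) (nat_lit 475) (nat_lit 232))))) (XT.nd (nat_lit 234) (nat_lit 456) (nat_lit 0) (XT.nd (nat_lit 78) (nat_lit 152) (nat_lit 0) (XT.lf (nat_lit 0) (nat_lit 191297733359) (nat_lit 228) (nat_lit 1689753880415) (nat_lit 76) (nat_lit 1069184886116) (nat_lit 54) (nat_lit 5) (nat_lit 57) (nat_lit 5) (nat_lit 55) (nat_lit 5) (nat_lit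 494) (nat_lit 475) (nat_lit 231)) (XT.nd (nat_lit 78) (nat_lit 0) (nat_lit 0) (XT.lf (nat_lit 0) (nat_lit 43421583850) (nat_lit 152) (nat_lit 773112011412) (nat_lit 228) (nat_lit 2276296605136) (nat_lit 52) (nat_lit 5) (nat_lit 54) (nat_lit 5) (nat_lit 55) (nat_lit 5) (nat_lit 495) (nat_lit 475) (nat_lit 230)) (XT.lf (nat_lit 0) (nat_lit 1549373502465) (nat_lit 228) (nat_lit 1243170756033) (nat_lit 76) (nat_lit 449680324341) (nat_lit 52) (nat_lit 5) (nat_lit 55) (nat_lit 5) (nat_lit 53) (nat_lit 5) (nat_lit 496) (nat_lit 475) (nat_lit 229)))) (XT.nd (nat_lit 156) (nat_lit 304) (nat_lit 0) (XT.nd (nat_lit 78) (nat_lit 0) (nat_lit 0) (XT.lf (nat_lit 0) (nat_lit 723687057580) (nat_lit 152) (nat_lit 1654639066092) (nat_lit 228) (nat_lit 1022245550491) (nat_lit 50) (nat_lit 5) (nat_lit 52) (nat_lit 5) (nat_lit 53) (nat_lit 5) (nat_lit 497) (nat_lit 475) (nat_lit 228)) (XT.lf (nat_lit 0) (nat_lit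 2918593716922) (nat_lit 152) (nat_lit 388991728078) (nat_lit 228) (nat_lit 261281848557) (nat_lit 50) (nat_lit 5) (nat_lit 52) (nat_lit 5) (nat_lit 53) (nat_lit 5) (nat_lit 498) (nat_lit 475) (nat_lit 227))) (XT.nd (nat_lit 78) (nat_lit 152) (nat_lit 0) (XT.lf (nat_lit 0) (nat_lit 595996380722) (nat_lit 152) (nat_lit 2166043227643) (nat_lit 76) (nat_lit 982430128831) (nat_lit 48) (nat_lit 5) (nat_lit 50) (nat_lit 5) (nat_lit 49) (nat_lit 5) (nat_lit 499) (nat_lit 475) (nat_lit 226)) (XT.lf (nat_lit 0) (nat_lit 76164242080) (nat_lit 152) (nat_lit 1461753492543) (nat_lit 228) (nat_lit 2393245568571) (nat_lit 46) (nat_lit 5) (nat_lit 48) (nat_lit 5) (nat_lit 49) (nat_lit 5) (nat_lit 500) (nat_lit 475) (nat_lit 225))))))) (XT.nd (nat_lit 936) (nat_lit 836) (nat_lit 0) (XT.nd (nat_lit 468) (nat_lit 456) (nat_lit 0) (XT.nd (nat_lit 234) (nat_lit 228) (nat_lit 0) (XT.nd (nat_lit 78) (nat_lit 152)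 (nat_lit 0) (XT.lf (nat_lit 0) (nat_lit 2614572986600) (nat_lit 228) (nat_lit 1507278102784) (nat_lit 76) (nat_lit 6190849905) (nat_lit 46) (nat_lit 5) (nat_lit 49) (nat_lit 5) (nat_lit 47) (nat_lit 4) (nat_lit 501) (nat_lit 475) (nat_lit 224)) (XT.nd (nat_lit 78) (nat_lit 76) (nat_lit 0) (XT.lf (nat_lit 0) (nat_lit 1042439976944) (nat_lit 76) (nat_lit 2797959010535) (nat_lit 152) (nat_lit 495228812495) (nat_lit 45) (nat_lit 5) (nat_lit 46) (nat_lit 5) (nat_lit 47) (nat_lit 4) (nat_lit 502) (nat_lit 475) (nat_lit 223)) (XT.lf (nat_lit 0) (nat_lit 616514560530) (nat_lit 152) (nat_lit 690275818064) (nat_lit 76) (nat_lit 3248484581552) (nat_lit 44) (nat_lit 5) (nat_lit 46) (nat_lit 5) (nat_lit 45) (nat_lit 5) (nat_lit 503) (nat_lit 475) (nat_lit 222)))) (XT.nd (nat_lit 78) (nat_lit 76) (nat_lit 0) (XT.lf (nat_lit 0) (nat_lit 1852833006569) (nat_lit 228) (nat_lit 2577209124814) (nat_lit 76)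 (nat_lit 356431449096) (nat_lit 42) (nat_lit 5) (nat_lit 45) (nat_lit 5) (nat_lit 43) (nat_lit 4) (nat_lit 504) (nat_lit 475) (nat_lit 221)) (XT.nd (nat_lit 78) (nat_lit 0) (nat_lit 0) (XT.lf (nat_lit 0) (nat_lit 327306708533) (nat_lit 76) (nat_lit 2921928141733) (nat_lit 152) (nat_lit 1782039006414) (nat_lit 41) (nat_lit 5) (nat_lit 42) (nat_lit 5) (nat_lit 43) (nat_lit 4) (nat_lit 505) (nat_lit 475) (nat_lit 220)) (XT.lf (nat_lit 0) (nat_lit 3610751973581) (nat_lit 76) (nat_lit 1217062331722) (nat_lit 152) (nat_lit 462206612566) (nat_lit 41) (nat_lit 5) (nat_lit 42) (nat_lit 5) (nat_lit 43) (nat_lit 4) (nat_lit 506) (nat_lit 475) (nat_lit 219))))) (XT.nd (nat_lit 234) (nat_lit 228) (nat_lit 0) (XT.nd (nat_lit 78) (nat_lit 76) (nat_lit 0) (XT.lf (nat_lit 0) (nat_lit 971271740216) (nat_lit 152) (nat_lit 3934478653286) (nat_lit 76) (nat_lit 657364675885) (nat_lit 39) (nat_lit 5) (nat_lit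 41) (nat_lit 5) (nat_lit 40) (nat_lit 4) (nat_lit 507) (nat_lit 475) (nat_lit 218)) (XT.nd (nat_lit 78) (nat_lit 76) (nat_lit 0) (XT.lf (nat_lit 0) (nat_lit 2573175971801) (nat_lit 152) (nat_lit 602517852724) (nat_lit 76) (nat_lit 2675104997335) (nat_lit 39) (nat_lit 5) (nat_lit 41) (nat_lit 5) (nat_lit 40) (nat_lit 4) (nat_lit 508) (nat_lit 475) (nat_lit 217)) (XT.lf (nat_lit 0) (nat_lit 3153763851205) (nat_lit 76) (nat_lit 1225316786451) (nat_lit 152) (nat_lit 1776348789215) (nat_lit 38) (nat_lit 5) (nat_lit 39) (nat_lit 5) (nat_lit 40) (nat_lit 4) (nat_lit 509) (nat_lit 475) (nat_lit 216)))) (XT.nd (nat_lit 78) (nat_lit 152) (nat_lit 0) (XT.lf (nat_lit 0) (nat_lit 779054572012) (nat_lit 76) (nat_lit 5607231430413) (nat_lit 76) (nat_lit 93598211807) (nat_lit 37) (nat_lit 4) (nat_lit 38) (nat_lit 5) (nat_lit 38) (nat_lit 4) (nat_lit 510) (nat_lit 475) (nat_lit 215)) (XT.nd (nat_lit 78)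 (nat_lit 76) (nat_lit 0) (XT.lf (nat_lit 0) (nat_lit 1753571310557) (nat_lit 152) (nat_lit 1866204893479) (nat_lit 76) (nat_lit 3197920321020) (nat_lit 36) (nat_lit 5) (nat_lit 38) (nat_lit 5) (nat_lit 37) (nat_lit 4) (nat_lit 511) (nat_lit 475) (nat_lit 214)) (XT.lf (nat_lit 0) (nat_lit 2392438157606) (nat_lit 76) (nat_lit 1408557697113) (nat_lit 152) (nat_lit 3376740420670) (nat_lit 35) (nat_lit 5) (nat_lit 36) (nat_lit 5) (nat_lit 37) (nat_lit 4) (nat_lit 512) (nat_lit 475) (nat_lit 213)))))) (XT.nd (nat_lit 468) (nat_lit 456) (nat_lit 0) (XT.nd (nat_lit 234) (nat_lit 152) (nat_lit 0) (XT.nd (nat_lit 78) (nat_lit 228) (nat_lit 0) (XT.lf (nat_lit 0) (nat_lit 6088123444928) (nat_lit 152) (nat_lit 489475534592) (nat_lit 0) (nat_lit 982907499627) (nat_lit 35) (nat_lit 5) (nat_lit 37) (nat_lit 4) (nat_lit 35) (nat_lit 4) (nat_lit 513) (nat_lit 475) (nat_lit 212)) (XT.nd (nat_lit 78) (nat_lit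 76) (nat_lit 0) (XT.lf (nat_lit 0) (nat_lit 699471198262) (nat_lit 152) (nat_lit 3650315853528) (nat_lit 76) (nat_lit 3611436732529) (nat_lit 33) (nat_lit 5) (nat_lit 35) (nat_lit 5) (nat_lit 34) (nat_lit 4) (nat_lit 514) (nat_lit 475) (nat_lit 211)) (XT.lf (nat_lit 0) (nat_lit 1149123645826) (nat_lit 76) (nat_lit 1857770388936) (nat_lit 152) (nat_lit 5380735566490) (nat_lit 32) (nat_lit 5) (nat_lit 33) (nat_lit 5) (nat_lit 34) (nat_lit 4) (nat_lit 515) (nat_lit 475) (nat_lit 210)))) (XT.nd (nat_lit 78) (nat_lit 152) (nat_lit 0) (XT.lf (nat_lit 0) (nat_lit 5621357451277) (nat_lit 152) (nat_lit 2322689043522) (nat_lit 0) (nat_lit 894305648493) (nat_lit 32) (nat_lit 5) (nat_lit 34) (nat_lit 4) (nat_lit 32) (nat_lit 4) (nat_lit 516) (nat_lit 475) (nat_lit 209)) (XT.nd (nat_lit 78) (nat_lit 76) (nat_lit 0) (XT.lf (nat_lit 0) (nat_lit 3092856660205) (nat_lit 76) (nat_lit 5474758333749) (nat_lit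 76) (nat_lit 747706530515) (nat_lit 31) (nat_lit 4) (nat_lit 32) (nat_lit 5) (nat_lit 32) (nat_lit 4) (nat_lit 517) (nat_lit 475) (nat_lit 208)) (XT.lf (nat_lit 0) (nat_lit 1888278246552) (nat_lit 152) (nat_lit 799433050822) (nat_lit 76) (nat_lit 7133832283034) (nat_lit 30) (nat_lit 5) (nat_lit 32) (nat_lit 5) (nat_lit 31) (nat_lit 4) (nat_lit 518) (nat_lit 475) (nat_lit 207))))) (XT.nd (nat_lit 234) (nat_lit 228) (nat_lit 0) (XT.nd (nat_lit 78) (nat_lit 152) (nat_lit 0) (XT.lf (nat_lit 0) (nat_lit 4833859654299) (nat_lit 152) (nat_lit 5064761161101) (nat_lit 0) (nat_lit 456959835746) (nat_lit 29) (nat_lit 5) (nat_lit 31) (nat_lit 4) (nat_lit 29) (nat_lit 4) (nat_lit 519) (nat_lit 475) (nat_lit 206)) (XT.nd (nat_lit 78) (nat_lit 76) (nat_lit 0) (XT.lf (nat_lit 0) (nat_lit 960851928711) (nat_lit 76) (nat_lit 7169580494900) (nat_lit 76) (nat_lit 2792680676016) (nat_lit 28) (nat_lit 4) (nat_lit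 29) (nat_lit 5) (nat_lit 29) (nat_lit 4) (nat_lit 520) (nat_lit 475) (nat_lit 205)) (XT.lf (nat_lit 0) (nat_lit 289021423309) (nat_lit 152) (nat_lit 3775735258706) (nat_lit 76) (nat_lit 7459627738514) (nat_lit 27) (nat_lit 5) (nat_lit 29) (nat_lit 5) (nat_lit 28) (nat_lit 4) (nat_lit 521) (nat_lit 475) (nat_lit 204)))) (XT.nd (nat_lit 156) (nat_lit 152) (nat_lit 0) (XT.nd (nat_lit 78) (nat_lit 0) (nat_lit 0) (XT.lf (nat_lit 0) (nat_lit 2982365569577) (nat_lit 76) (nat_lit 555742790543) (nat_lit 152) (nat_lit 8624108037092) (nat_lit 26) (nat_lit 5) (nat_lit 27) (nat_lit 5) (nat_lit 28) (nat_lit 4) (nat_lit 522) (nat_lit 475) (nat_lit 203)) (XT.lf (nat_lit 0) (nat_lit 7230816571225) (nat_lit 152) (nat_lit 2427431262307) (nat_lit 0) (nat_lit 3178131552951) (nat_lit 26) (nat_lit 5) (nat_lit 28) (nat_lit 4) (nat_lit 26) (nat_lit 4) (nat_lit 523) (nat_lit 475) (nat_lit 202))) (XT.nd (nat_lit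 78) (nat_lit 76) (nat_lit 0) (XT.lf (nat_lit 0) (nat_lit 5106178729925) (nat_lit 76) (nat_lit 6250001307795) (nat_lit 76) (nat_lit 2197316289294) (nat_lit 25) (nat_lit 4) (nat_lit 26) (nat_lit 5) (nat_lit 26) (nat_lit 4) (nat_lit 524) (nat_lit 475) (nat_lit 201)) (XT.lf (nat_lit 0) (nat_lit 1477468955671) (nat_lit 152) (nat_lit 979549590912) (nat_lit 76) (nat_lit 11862662112252) (nat_lit 24) (nat_lit 5) (nat_lit 26) (nat_lit 5) (nat_lit 25) (nat_lit 4) (nat_lit 525) (nat_lit 475) (nat_lit 200))))))))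
noncomputable def xc235 : XT := (XT.nd (nat_lit 1950) (nat_lit 1672) (nat_lit 0) (XT.nd (nat_lit 936) (nat_lit 1520) (nat_lit 0) (XT.nd (nat_lit 468) (nat_lit 532) (nat_lit 0) (XT.nd (nat_lit 234) (nat_lit 456) (nat_lit 0) (XT.nd (nat_lit 78) (nat_lit 0) (nat_lit 0) (XT.lf (nat_lit 0) (nat_lit 682759362832) (nat_lit 532) (nat_lit 10806911557) (nat_lit 532) (nat_lit 10806911557) (nat_lit 81) (nat_lit 3) (nat_lit 88) (nat_lit 3) (nat_lit 88) (nat_lit 5) (nat_lit 476) (nat_lit 476) (nat_lit 248)) (XT.nd (nat_lit 78) (nat_lit 0) (nat_lit 0) (XT.lf (nat_lit 76) (nat_lit 712785120844) (nat_lit 0) (nat_lit 724496884234) (nat_lit 532) (nat_lit 26442819252) (nat_lit 82) (nat_lit 5) (nat_lit 81) (nat_lit 3) (nat_lit 88) (nat_lit 5) (nat_lit 477) (nat_lit 476) (nat_lit 247)) (XT.lf (nat_lit 76) (nat_lit 1507165175825) (nat_lit 0) (nat_lit 8212128095) (nat_lit 532) (nat_lit 7676972477) (nat_lit 82)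 (nat_lit 5) (nat_lit 81) (nat_lit 3) (nat_lit 88) (nat_lit 5) (nat_lit 478) (nat_lit 476) (nat_lit 246)))) (XT.nd (nat_lit 78) (nat_lit 0) (nat_lit 0) (XT.lf (nat_lit 0) (nat_lit 50574523531) (nat_lit 532) (nat_lit 785844279790) (nat_lit 608) (nat_lit 747597922540) (nat_lit 75) (nat_lit 5) (nat_lit 82) (nat_lit 5) (nat_lit 83) (nat_lit 5) (nat_lit 479) (nat_lit 476) (nat_lit 245)) (XT.nd (nat_lit 78) (nat_lit 0) (nat_lit 76) (XT.lf (nat_lit 76) (nat_lit 29492470117) (nat_lit 0) (nat_lit 84947227264) (nat_lit 608) (nat_lit 1535291056624) (nat_lit 76) (nat_lit 5) (nat_lit 75) (nat_lit 5) (nat_lit 83) (nat_lit 5) (nat_lit 480) (nat_lit 476) (nat_lit 244)) (XT.lf (nat_lit 0) (nat_lit 222934304816) (nat_lit 532) (nat_lit 782269023080) (nat_lit 608) (nat_lit 712336958932) (nat_lit 76) (nat_lit 5) (nat_lit 83) (nat_lit 5) (nat_lit 84) (nat_lit 5) (nat_lit 481) (nat_lit 476) (nat_lit 243))))) (XT.nd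 (nat_lit 234) (nat_lit 228) (nat_lit 0) (XT.nd (nat_lit 78) (nat_lit 380) (nat_lit 0) (XT.lf (nat_lit 76) (nat_lit 126878322647) (nat_lit 0) (nat_lit 218488003976) (nat_lit 608) (nat_lit 1444987627992) (nat_lit 77) (nat_lit 5) (nat_lit 76) (nat_lit 5) (nat_lit 84) (nat_lit 5) (nat_lit 482) (nat_lit 476) (nat_lit 242)) (XT.nd (nat_lit 78) (nat_lit 456) (nat_lit 0) (XT.lf (nat_lit 0) (nat_lit 514716600400) (nat_lit 532) (nat_lit 729770910862) (nat_lit 76) (nat_lit 621535309346) (nat_lit 77) (nat_lit 5) (nat_lit 84) (nat_lit 5) (nat_lit 78) (nat_lit 5) (nat_lit 483) (nat_lit 476) (nat_lit 241)) (XT.lf (nat_lit 0) (nat_lit 287328508529) (nat_lit 456) (nat_lit 422871656069) (nat_lit 532) (nat_lit 1236538209802) (nat_lit 71) (nat_lit 5) (nat_lit 77) (nat_lit 5) (nat_lit 78) (nat_lit 5) (nat_lit 484) (nat_lit 476) (nat_lit 240)))) (XT.nd (nat_lit 78) (nat_lit 228) (nat_lit 0) (XT.lf (nat_lit 0)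 (nat_lit 952964505676) (nat_lit 532) (nat_lit 616705180180) (nat_lit 76) (nat_lit 461710119298) (nat_lit 71) (nat_lit 5) (nat_lit 78) (nat_lit 5) (nat_lit 72) (nat_lit 5) (nat_lit 485) (nat_lit 476) (nat_lit 239)) (XT.nd (nat_lit 78) (nat_lit 0) (nat_lit 0) (XT.lf (nat_lit 0) (nat_lit 524678755338) (nat_lit 228) (nat_lit 714073452913) (nat_lit 304) (nat_lit 882152164984) (nat_lit 68) (nat_lit 5) (nat_lit 71) (nat_lit 5) (nat_lit 72) (nat_lit 5) (nat_lit 486) (nat_lit 476) (nat_lit 238)) (XT.lf (nat_lit 0) (nat_lit 1569752502006) (nat_lit 304) (nat_lit 429283752276) (nat_lit 76) (nat_lit 216766686480) (nat_lit 68) (nat_lit 5) (nat_lit 72) (nat_lit 5) (nat_lit 69) (nat_lit 5) (nat_lit 487) (nat_lit 476) (nat_lit 237)))))) (XT.nd (nat_lit 468) (nat_lit 684) (nat_lit 0) (XT.nd (nat_lit 234) (nat_lit 380) (nat_lit 0) (XT.nd (nat_lit 78) (nat_lit 228) (nat_lit 0) (XT.lf (nat_lit 0) (nat_lit 855249123214)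 (nat_lit 228) (nat_lit 1111099818809) (nat_lit 304) (nat_lit 348815161849) (nat_lit 65) (nat_lit 5) (nat_lit 68) (nat_lit 5) (nat_lit 69) (nat_lit 5) (nat_lit 488) (nat_lit 476) (nat_lit 236)) (XT.nd (nat_lit 78) (nat_lit 228) (nat_lit 0) (XT.lf (nat_lit 0) (nat_lit 2266958374270) (nat_lit 228) (nat_lit 139452099957) (nat_lit 304) (nat_lit 15124695645) (nat_lit 65) (nat_lit 5) (nat_lit 68) (nat_lit 5) (nat_lit 69) (nat_lit 5) (nat_lit 489) (nat_lit 476) (nat_lit 235)) (XT.lf (nat_lit 0) (nat_lit 382475726376) (nat_lit 228) (nat_lit 1243602012870) (nat_lit 76) (nat_lit 905315013266) (nat_lit 62) (nat_lit 5) (nat_lit 65) (nat_lit 5) (nat_lit 63) (nat_lit 5) (nat_lit 490) (nat_lit 476) (nat_lit 234)))) (XT.nd (nat_lit 78) (nat_lit 152) (nat_lit 0) (XT.lf (nat_lit 0) (nat_lit 211071666918) (nat_lit 228) (nat_lit 613029978779) (nat_lit 304) (nat_lit 1824863100932) (nat_lit 59) (nat_lit 5) (nat_lit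 62) (nat_lit 5) (nat_lit 63) (nat_lit 5) (nat_lit 491) (nat_lit 476) (nat_lit 233)) (XT.nd (nat_lit 78) (nat_lit 152) (nat_lit 0) (XT.lf (nat_lit 0) (nat_lit 1347512639370) (nat_lit 304) (nat_lit 932831049342) (nat_lit 76) (nat_lit 491882411500) (nat_lit 59) (nat_lit 5) (nat_lit 63) (nat_lit 5) (nat_lit 60) (nat_lit 5) (nat_lit 492) (nat_lit 476) (nat_lit 232)) (XT.lf (nat_lit 0) (nat_lit 712347596932) (nat_lit 152) (nat_lit 1233503747766) (nat_lit 228) (nat_lit 956852630810) (nat_lit 57) (nat_lit 5) (nat_lit 59) (nat_lit 5) (nat_lit 60) (nat_lit 5) (nat_lit 493) (nat_lit 476) (nat_lit 231))))) (XT.nd (nat_lit 234) (nat_lit 304) (nat_lit 0) (XT.nd (nat_lit 78) (nat_lit 380) (nat_lit 0) (XT.lf (nat_lit 0) (nat_lit 2542191461534) (nat_lit 152) (nat_lit 75370937712) (nat_lit 228) (nat_lit 424017261359) (nat_lit 57) (nat_lit 5) (nat_lit 59) (nat_lit 5) (nat_lit 60) (nat_lit 5) (nat_lit 494)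 (nat_lit 476) (nat_lit 230)) (XT.nd (nat_lit 78) (nat_lit 152) (nat_lit 0) (XT.lf (nat_lit 0) (nat_lit 206601575602) (nat_lit 228) (nat_lit 1824934155443) (nat_lit 76) (nat_lit 1154719686947) (nat_lit 54) (nat_lit 5) (nat_lit 57) (nat_lit 5) (nat_lit 55) (nat_lit 5) (nat_lit 495) (nat_lit 476) (nat_lit 229)) (XT.lf (nat_lit 0) (nat_lit 46895345067) (nat_lit 152) (nat_lit 834960960475) (nat_lit 228) (nat_lit 2458400309073) (nat_lit 52) (nat_lit 5) (nat_lit 54) (nat_lit 5) (nat_lit 55) (nat_lit 5) (nat_lit 496) (nat_lit 476) (nat_lit 228)))) (XT.nd (nat_lit 156) (nat_lit 152) (nat_lit 0) (XT.nd (nat_lit 78) (nat_lit 152) (nat_lit 0) (XT.lf (nat_lit 0) (nat_lit 1673323403906) (nat_lit 228) (nat_lit 1342624383146) (nat_lit 76) (nat_lit 485654760713) (nat_lit 52) (nat_lit 5) (nat_lit 55) (nat_lit 5) (nat_lit 53) (nat_lit 5) (nat_lit 497) (nat_lit 476) (nat_lit 227)) (XT.lf (nat_lit 0) (nat_lit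 781582054712) (nat_lit 152) (nat_lit 1787010179306) (nat_lit 228) (nat_lit 1104025172439) (nat_lit 50) (nat_lit 5) (nat_lit 52) (nat_lit 5) (nat_lit 53) (nat_lit 5) (nat_lit 498) (nat_lit 476) (nat_lit 226))) (XT.nd (nat_lit 78) (nat_lit 152) (nat_lit 0) (XT.lf (nat_lit 0) (nat_lit 3152081244392) (nat_lit 152) (nat_lit 420111055146) (nat_lit 228) (nat_lit 282184375987) (nat_lit 50) (nat_lit 5) (nat_lit 52) (nat_lit 5) (nat_lit 53) (nat_lit 5) (nat_lit 499) (nat_lit 476) (nat_lit 225)) (XT.lf (nat_lit 0) (nat_lit 643676110182) (nat_lit 152) (nat_lit 2339326654281) (nat_lit 76) (nat_lit 1061024550187) (nat_lit 48) (nat_lit 5) (nat_lit 50) (nat_lit 5) (nat_lit 49) (nat_lit 5) (nat_lit 500) (nat_lit 476) (nat_lit 224))))))) (XT.nd (nat_lit 936) (nat_lit 760) (nat_lit 0) (XT.nd (nat_lit 468) (nat_lit 380) (nat_lit 0) (XT.nd (nat_lit 234) (nat_lit 304) (nat_lit 0) (XT.nd (nat_lit 78) (nat_lit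 76) (nat_lit 0) (XT.lf (nat_lit 0) (nat_lit 82257412221) (nat_lit 152) (nat_lit 1578693759506) (nat_lit 228) (nat_lit 2584705194253) (nat_lit 46) (nat_lit 5) (nat_lit 48) (nat_lit 5) (nat_lit 49) (nat_lit 5) (nat_lit 501) (nat_lit 476) (nat_lit 223)) (XT.nd (nat_lit 78) (nat_lit 76) (nat_lit 0) (XT.lf (nat_lit 0) (nat_lit 2823738842782) (nat_lit 228) (nat_lit 1627860321429) (nat_lit 76) (nat_lit 6686128840) (nat_lit 46) (nat_lit 5) (nat_lit 49) (nat_lit 5) (nat_lit 47) (nat_lit 4) (nat_lit 502) (nat_lit 476) (nat_lit 222)) (XT.lf (nat_lit 0) (nat_lit 1125835203929) (nat_lit 76) (nat_lit 3021795719217) (nat_lit 152) (nat_lit 534847099491) (nat_lit 45) (nat_lit 5) (nat_lit 46) (nat_lit 5) (nat_lit 47) (nat_lit 4) (nat_lit 503) (nat_lit 476) (nat_lit 221)))) (XT.nd (nat_lit 78) (nat_lit 228) (nat_lit 0) (XT.lf (nat_lit 0) (nat_lit 665835741208) (nat_lit 152) (nat_lit 745497855981) (nat_lit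 76) (nat_lit 3508363358501) (nat_lit 44) (nat_lit 5) (nat_lit 46) (nat_lit 5) (nat_lit 45) (nat_lit 5) (nat_lit 504) (nat_lit 476) (nat_lit 220)) (XT.nd (nat_lit 78) (nat_lit 76) (nat_lit 0) (XT.lf (nat_lit 0) (nat_lit 2001059662680) (nat_lit 228) (nat_lit 2783385827018) (nat_lit 76) (nat_lit 384945975970) (nat_lit 42) (nat_lit 5) (nat_lit 45) (nat_lit 5) (nat_lit 43) (nat_lit 4) (nat_lit 505) (nat_lit 476) (nat_lit 219)) (XT.lf (nat_lit 0) (nat_lit 353491272293) (nat_lit 76) (nat_lit 3155682381076) (nat_lit 152) (nat_lit 1924602110637) (nat_lit 41) (nat_lit 5) (nat_lit 42) (nat_lit 5) (nat_lit 43) (nat_lit 4) (nat_lit 506) (nat_lit 476) (nat_lit 218))))) (XT.nd (nat_lit 234) (nat_lit 228) (nat_lit 0) (XT.nd (nat_lit 78) (nat_lit 152) (nat_lit 0) (XT.lf (nat_lit 0) (nat_lit 3899612156539) (nat_lit 76) (nat_lit 1314427307153) (nat_lit 152) (nat_lit 499183126488) (nat_lit 41) (nat_lit 5)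 (nat_lit 42) (nat_lit 5) (nat_lit 43) (nat_lit 4) (nat_lit 507) (nat_lit 476) (nat_lit 217)) (XT.nd (nat_lit 78) (nat_lit 0) (nat_lit 0) (XT.lf (nat_lit 0) (nat_lit 1048973493578) (nat_lit 152) (nat_lit 4249236919537) (nat_lit 76) (nat_lit 709953860691) (nat_lit 39) (nat_lit 5) (nat_lit 41) (nat_lit 5) (nat_lit 40) (nat_lit 4) (nat_lit 508) (nat_lit 476) (nat_lit 216)) (XT.lf (nat_lit 0) (nat_lit 2779030062642) (nat_lit 152) (nat_lit 650719256856) (nat_lit 76) (nat_lit 2889113407062) (nat_lit 39) (nat_lit 5) (nat_lit 41) (nat_lit 5) (nat_lit 40) (nat_lit 4) (nat_lit 509) (nat_lit 476) (nat_lit 215)))) (XT.nd (nat_lit 78) (nat_lit 152) (nat_lit 0) (XT.lf (nat_lit 0) (nat_lit 3406064982778) (nat_lit 76) (nat_lit 1323342118583) (nat_lit 152) (nat_lit 1918456678645) (nat_lit 38) (nat_lit 5) (nat_lit 39) (nat_lit 5) (nat_lit 40) (nat_lit 4) (nat_lit 510) (nat_lit 476) (nat_lit 214)) (XT.nd (nat_lit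 78) (nat_lit 76) (nat_lit 0) (XT.lf (nat_lit 0) (nat_lit 841378961393) (nat_lit 76) (nat_lit 6055809933786) (nat_lit 76) (nat_lit 101086055187) (nat_lit 37) (nat_lit 4) (nat_lit 38) (nat_lit 5) (nat_lit 38) (nat_lit 4) (nat_lit 511) (nat_lit 476) (nat_lit 213)) (XT.lf (nat_lit 0) (nat_lit 1893857027333) (nat_lit 152) (nat_lit 2015501262459) (nat_lit 76) (nat_lit 3453753956313) (nat_lit 36) (nat_lit 5) (nat_lit 38) (nat_lit 5) (nat_lit 37) (nat_lit 4) (nat_lit 512) (nat_lit 476) (nat_lit 212)))))) (XT.nd (nat_lit 468) (nat_lit 380) (nat_lit 0) (XT.nd (nat_lit 234) (nat_lit 152) (nat_lit 0) (XT.nd (nat_lit 78) (nat_lit 152) (nat_lit 0) (XT.lf (nat_lit 0) (nat_lit 2583833232144) (nat_lit 76) (nat_lit 1521242302528) (nat_lit 152) (nat_lit 3646879641821) (nat_lit 35) (nat_lit 5) (nat_lit 36) (nat_lit 5) (nat_lit 37) (nat_lit 4) (nat_lit 513) (nat_lit 476) (nat_lit 211)) (XT.nd (nat_lit 78) (nat_lit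 152) (nat_lit 0) (XT.lf (nat_lit 0) (nat_lit 6575173331471) (nat_lit 152) (nat_lit 528633556427) (nat_lit 0) (nat_lit 1061540108704) (nat_lit 35) (nat_lit 5) (nat_lit 37) (nat_lit 4) (nat_lit 35) (nat_lit 4) (nat_lit 514) (nat_lit 476) (nat_lit 210)) (XT.lf (nat_lit 0) (nat_lit 755428905027) (nat_lit 152) (nat_lit 3942341100833) (nat_lit 76) (nat_lit 3900351680331) (nat_lit 33) (nat_lit 5) (nat_lit 35) (nat_lit 5) (nat_lit 34) (nat_lit 4) (nat_lit 515) (nat_lit 476) (nat_lit 209)))) (XT.nd (nat_lit 78) (nat_lit 76) (nat_lit 0) (XT.lf (nat_lit 0) (nat_lit 1241053557939) (nat_lit 76) (nat_lit 2006392010194) (nat_lit 152) (nat_lit 5811194400372) (nat_lit 32) (nat_lit 5) (nat_lit 33) (nat_lit 5) (nat_lit 34) (nat_lit 4) (nat_lit 516) (nat_lit 476) (nat_lit 208)) (XT.nd (nat_lit 78) (nat_lit 76) (nat_lit 0) (XT.lf (nat_lit 0) (nat_lit 6071066057403) (nat_lit 152) (nat_lit 2508504147507) (nat_lit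 0) (nat_lit 965850109043) (nat_lit 32) (nat_lit 5) (nat_lit 34) (nat_lit 4) (nat_lit 32) (nat_lit 4) (nat_lit 517) (nat_lit 476) (nat_lit 207)) (XT.lf (nat_lit 0) (nat_lit 3340285212024) (nat_lit 76) (nat_lit 5912738991184) (nat_lit 76) (nat_lit 807523042438) (nat_lit 31) (nat_lit 4) (nat_lit 32) (nat_lit 5) (nat_lit 32) (nat_lit 4) (nat_lit 518) (nat_lit 476) (nat_lit 206))))) (XT.nd (nat_lit 234) (nat_lit 152) (nat_lit 0) (XT.nd (nat_lit 78) (nat_lit 152) (nat_lit 0) (XT.lf (nat_lit 0) (nat_lit 2039340515528) (nat_lit 152) (nat_lit 863387676804) (nat_lit 76) (nat_lit 7704538873768) (nat_lit 30) (nat_lit 5) (nat_lit 32) (nat_lit 5) (nat_lit 31) (nat_lit 4) (nat_lit 519) (nat_lit 476) (nat_lit 205)) (XT.nd (nat_lit 78) (nat_lit 76) (nat_lit 0) (XT.lf (nat_lit 0) (nat_lit 5220568435841) (nat_lit 152) (nat_lit 5469942035852) (nat_lit 0) (nat_lit 493516630809) (nat_lit 29) (nat_lit 5) (nat_lit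 31) (nat_lit 4) (nat_lit 29) (nat_lit 4) (nat_lit 520) (nat_lit 476) (nat_lit 204)) (XT.lf (nat_lit 0) (nat_lit 1037720100686) (nat_lit 76) (nat_lit 7743146925756) (nat_lit 76) (nat_lit 3016095120440) (nat_lit 28) (nat_lit 4) (nat_lit 29) (nat_lit 5) (nat_lit 29) (nat_lit 4) (nat_lit 521) (nat_lit 476) (nat_lit 203)))) (XT.nd (nat_lit 156) (nat_lit 0) (nat_lit 0) (XT.nd (nat_lit 78) (nat_lit 76) (nat_lit 0) (XT.lf (nat_lit 0) (nat_lit 312143145669) (nat_lit 152) (nat_lit 4077794062586) (nat_lit 76) (nat_lit 8056397965236) (nat_lit 27) (nat_lit 5) (nat_lit 29) (nat_lit 5) (nat_lit 28) (nat_lit 4) (nat_lit 522) (nat_lit 476) (nat_lit 202)) (XT.lf (nat_lit 0) (nat_lit 3220954831533) (nat_lit 76) (nat_lit 600202205656) (nat_lit 152) (nat_lit 9314036671139) (nat_lit 26) (nat_lit 5) (nat_lit 27) (nat_lit 5) (nat_lit 28) (nat_lit 4) (nat_lit 523) (nat_lit 476) (nat_lit 201))) (XT.nd (nat_lit 58812)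 (nat_lit 0) (nat_lit 4180) (XT.lf (nat_lit 0) (nat_lit 7809281904752) (nat_lit 152) (nat_lit 2621625747684) (nat_lit 0) (nat_lit 3432382084338) (nat_lit 26) (nat_lit 5) (nat_lit 28) (nat_lit 4) (nat_lit 26) (nat_lit 4) (nat_lit 524) (nat_lit 476) (nat_lit 200)) (XT.lf (nat_lit 0) (nat_lit 737380142200) (nat_lit 532) (nat_lit 11671448093) (nat_lit 532) (nat_lit 11671448093) (nat_lit 81) (nat_lit 3) (nat_lit 88) (nat_lit 3) (nat_lit 88) (nat_lit 5) (nat_lit 477) (nat_lit 477) (nat_lit 246))))))))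
noncomputable def xc236 : XT := (XT.nd (nat_lit 1950) (nat_lit 1520) (nat_lit 0) (XT.nd (nat_lit 936) (nat_lit 1444) (nat_lit 0) (XT.nd (nat_lit 468) (nat_lit 760) (nat_lit 0) (XT.nd (nat_lit 234) (nat_lit 0) (nat_lit 0) (XT.nd (nat_lit 78) (nat_lit 456) (nat_lit 0) (XT.lf (nat_lit 76) (nat_lit 769807962459) (nat_lit 0) (nat_lit 782456659982) (nat_lit 532) (nat_lit 28558183265) (nat_lit 82) (nat_lit 5) (nat_lit 81) (nat_lit 3) (nat_lit 88) (nat_lit 5) (nat_lit 478) (nat_lit 477) (nat_lit 245)) (XT.nd (nat_lit 78) (nat_lit 456) (nat_lit 0) (XT.lf (nat_lit 76) (nat_lit 1627738419471) (nat_lit 0) (nat_lit 8869121499) (nat_lit 532) (nat_lit 8291073305) (nat_lit 82) (nat_lit 5) (nat_lit 81) (nat_lit 3) (nat_lit 88) (nat_lit 5) (nat_lit 479) (nat_lit 477) (nat_lit 244)) (XT.lf (nat_lit 0) (nat_lit 54620535822) (nat_lit 532) (nat_lit 848711786007) (nat_lit 608) (nat_lit 807405738056) (nat_lit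 75) (nat_lit 5) (nat_lit 82) (nat_lit 5) (nat_lit 83) (nat_lit 5) (nat_lit 480) (nat_lit 477) (nat_lit 243)))) (XT.nd (nat_lit 78) (nat_lit 0) (nat_lit 76) (XT.lf (nat_lit 76) (nat_lit 31851902977) (nat_lit 0) (nat_lit 91743017717) (nat_lit 608) (nat_lit 1658114289819) (nat_lit 76) (nat_lit 5) (nat_lit 75) (nat_lit 5) (nat_lit 83) (nat_lit 5) (nat_lit 481) (nat_lit 477) (nat_lit 242)) (XT.nd (nat_lit 78) (nat_lit 0) (nat_lit 0) (XT.lf (nat_lit 0) (nat_lit 240769092931) (nat_lit 532) (nat_lit 844850508483) (nat_lit 608) (nat_lit 769323904852) (nat_lit 76) (nat_lit 5) (nat_lit 83) (nat_lit 5) (nat_lit 84) (nat_lit 5) (nat_lit 482) (nat_lit 477) (nat_lit 241)) (XT.lf (nat_lit 76) (nat_lit 137028623980) (nat_lit 0) (nat_lit 235967050118) (nat_lit 608) (nat_lit 1560586593570) (nat_lit 77) (nat_lit 5) (nat_lit 76) (nat_lit 5) (nat_lit 84) (nat_lit 5) (nat_lit 483) (nat_lit 477) (nat_lit 240)))))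 (XT.nd (nat_lit 234) (nat_lit 456) (nat_lit 0) (XT.nd (nat_lit 78) (nat_lit 456) (nat_lit 0) (XT.lf (nat_lit 0) (nat_lit 555893966585) (nat_lit 532) (nat_lit 788152547640) (nat_lit 76) (nat_lit 671258128971) (nat_lit 77) (nat_lit 5) (nat_lit 84) (nat_lit 5) (nat_lit 78) (nat_lit 5) (nat_lit 484) (nat_lit 477) (nat_lit 239)) (XT.nd (nat_lit 78) (nat_lit 0) (nat_lit 0) (XT.lf (nat_lit 0) (nat_lit 310314824388) (nat_lit 456) (nat_lit 456701389549) (nat_lit 532) (nat_lit 1335461227512) (nat_lit 71) (nat_lit 5) (nat_lit 77) (nat_lit 5) (nat_lit 78) (nat_lit 5) (nat_lit 485) (nat_lit 477) (nat_lit 238)) (XT.lf (nat_lit 0) (nat_lit 1029201699601) (nat_lit 532) (nat_lit 666041559314) (nat_lit 76) (nat_lit 498646927967) (nat_lit 71) (nat_lit 5) (nat_lit 78) (nat_lit 5) (nat_lit 72) (nat_lit 5) (nat_lit 486) (nat_lit 477) (nat_lit 237)))) (XT.nd (nat_lit 78) (nat_lit 228) (nat_lit 0) (XT.lf (nat_lit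 0) (nat_lit 566653090152) (nat_lit 228) (nat_lit 771199326577) (nat_lit 304) (nat_lit 952724303812) (nat_lit 68) (nat_lit 5) (nat_lit 71) (nat_lit 5) (nat_lit 72) (nat_lit 5) (nat_lit 487) (nat_lit 477) (nat_lit 236)) (XT.nd (nat_lit 78) (nat_lit 228) (nat_lit 0) (XT.lf (nat_lit 0) (nat_lit 1695332731685) (nat_lit 304) (nat_lit 463626418311) (nat_lit 76) (nat_lit 234108023659) (nat_lit 68) (nat_lit 5) (nat_lit 72) (nat_lit 5) (nat_lit 69) (nat_lit 5) (nat_lit 488) (nat_lit 477) (nat_lit 235)) (XT.lf (nat_lit 0) (nat_lit 923669086352) (nat_lit 228) (nat_lit 1199987799165) (nat_lit 304) (nat_lit 376720344408) (nat_lit 65) (nat_lit 5) (nat_lit 68) (nat_lit 5) (nat_lit 69) (nat_lit 5) (nat_lit 489) (nat_lit 477) (nat_lit 234)))))) (XT.nd (nat_lit 468) (nat_lit 836) (nat_lit 0) (XT.nd (nat_lit 234) (nat_lit 152) (nat_lit 0) (XT.nd (nat_lit 78) (nat_lit 456) (nat_lit 0) (XT.lf (nat_lit 0) (nat_lit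 2448315075029) (nat_lit 228) (nat_lit 150608263186) (nat_lit 304) (nat_lit 16334643158) (nat_lit 65) (nat_lit 5) (nat_lit 68) (nat_lit 5) (nat_lit 69) (nat_lit 5) (nat_lit 490) (nat_lit 477) (nat_lit 233)) (XT.nd (nat_lit 78) (nat_lit 228) (nat_lit 0) (XT.lf (nat_lit 0) (nat_lit 413073810134) (nat_lit 228) (nat_lit 1343090140584) (nat_lit 76) (nat_lit 977740219940) (nat_lit 62) (nat_lit 5) (nat_lit 65) (nat_lit 5) (nat_lit 63) (nat_lit 5) (nat_lit 491) (nat_lit 477) (nat_lit 232)) (XT.lf (nat_lit 0) (nat_lit 227957432745) (nat_lit 228) (nat_lit 662072369138) (nat_lit 304) (nat_lit 1970852122511) (nat_lit 59) (nat_lit 5) (nat_lit 62) (nat_lit 5) (nat_lit 63) (nat_lit 5) (nat_lit 492) (nat_lit 477) (nat_lit 231)))) (XT.nd (nat_lit 78) (nat_lit 152) (nat_lit 0) (XT.lf (nat_lit 0) (nat_lit 1455313673409) (nat_lit 304) (nat_lit 1007457501578) (nat_lit 76) (nat_lit 531233011407) (nat_lit 59)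 (nat_lit 5) (nat_lit 63) (nat_lit 5) (nat_lit 60) (nat_lit 5) (nat_lit 493) (nat_lit 477) (nat_lit 230)) (XT.nd (nat_lit 78) (nat_lit 0) (nat_lit 0) (XT.lf (nat_lit 0) (nat_lit 769335435596) (nat_lit 152) (nat_lit 1332184038616) (nat_lit 228) (nat_lit 1033400817580) (nat_lit 57) (nat_lit 5) (nat_lit 59) (nat_lit 5) (nat_lit 60) (nat_lit 5) (nat_lit 494) (nat_lit 477) (nat_lit 229)) (XT.lf (nat_lit 0) (nat_lit 2745566807076) (nat_lit 152) (nat_lit 81400604422) (nat_lit 228) (nat_lit 457938620328) (nat_lit 57) (nat_lit 5) (nat_lit 59) (nat_lit 5) (nat_lit 60) (nat_lit 5) (nat_lit 495) (nat_lit 477) (nat_lit 228))))) (XT.nd (nat_lit 234) (nat_lit 456) (nat_lit 0) (XT.nd (nat_lit 78) (nat_lit 152) (nat_lit 0) (XT.lf (nat_lit 0) (nat_lit 223129721861) (nat_lit 228) (nat_lit 1970928857524) (nat_lit 76) (nat_lit 1247097270426) (nat_lit 54) (nat_lit 5) (nat_lit 57) (nat_lit 5) (nat_lit 55) (nat_lit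 5) (nat_lit 496) (nat_lit 477) (nat_lit 227)) (XT.nd (nat_lit 78) (nat_lit 0) (nat_lit 0) (XT.lf (nat_lit 0) (nat_lit 50647002259) (nat_lit 152) (nat_lit 901757827152) (nat_lit 228) (nat_lit 2655072312816) (nat_lit 52) (nat_lit 5) (nat_lit 54) (nat_lit 5) (nat_lit 55) (nat_lit 5) (nat_lit 497) (nat_lit 477) (nat_lit 226)) (XT.lf (nat_lit 0) (nat_lit 1807189294432) (nat_lit 228) (nat_lit 1450034305188) (nat_lit 76) (nat_lit 524507150507) (nat_lit 52) (nat_lit 5) (nat_lit 55) (nat_lit 5) (nat_lit 53) (nat_lit 5) (nat_lit 498) (nat_lit 477) (nat_lit 225)))) (XT.nd (nat_lit 156) (nat_lit 304) (nat_lit 0) (XT.nd (nat_lit 78) (nat_lit 0) (nat_lit 0) (XT.lf (nat_lit 0) (nat_lit 844108646974) (nat_lit 152) (nat_lit 1929970983300) (nat_lit 228) (nat_lit 1192347167295) (nat_lit 50) (nat_lit 5) (nat_lit 52) (nat_lit 5) (nat_lit 53) (nat_lit 5) (nat_lit 499) (nat_lit 477) (nat_lit 224)) (XT.lf (nat_lit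 0) (nat_lit 3404247769763) (nat_lit 152) (nat_lit 453719929973) (nat_lit 228) (nat_lit 304759108529) (nat_lit 50) (nat_lit 5) (nat_lit 52) (nat_lit 5) (nat_lit 53) (nat_lit 5) (nat_lit 500) (nat_lit 477) (nat_lit 223))) (XT.nd (nat_lit 78) (nat_lit 152) (nat_lit 0) (XT.lf (nat_lit 0) (nat_lit 695170215288) (nat_lit 152) (nat_lit 2526472759554) (nat_lit 76) (nat_lit 1145906523675) (nat_lit 48) (nat_lit 5) (nat_lit 50) (nat_lit 5) (nat_lit 49) (nat_lit 5) (nat_lit 501) (nat_lit 477) (nat_lit 222)) (XT.lf (nat_lit 0) (nat_lit 88838031583) (nat_lit 152) (nat_lit 1704989249602) (nat_lit 228) (nat_lit 2791481592816) (nat_lit 46) (nat_lit 5) (nat_lit 48) (nat_lit 5) (nat_lit 49) (nat_lit 5) (nat_lit 502) (nat_lit 477) (nat_lit 221))))))) (XT.nd (nat_lit 936) (nat_lit 684) (nat_lit 0) (XT.nd (nat_lit 468) (nat_lit 456) (nat_lit 0) (XT.nd (nat_lit 234) (nat_lit 228) (nat_lit 0) (XT.nd (nat_lit 78)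 (nat_lit 152) (nat_lit 0) (XT.lf (nat_lit 0) (nat_lit 3049637964996) (nat_lit 228) (nat_lit 1758089121786) (nat_lit 76) (nat_lit 7221028528) (nat_lit 46) (nat_lit 5) (nat_lit 49) (nat_lit 5) (nat_lit 47) (nat_lit 4) (nat_lit 503) (nat_lit 477) (nat_lit 220)) (XT.nd (nat_lit 78) (nat_lit 76) (nat_lit 0) (XT.lf (nat_lit 0) (nat_lit 1215902044959) (nat_lit 76) (nat_lit 3263539366329) (nat_lit 152) (nat_lit 577634852015) (nat_lit 45) (nat_lit 5) (nat_lit 46) (nat_lit 5) (nat_lit 47) (nat_lit 4) (nat_lit 504) (nat_lit 477) (nat_lit 219)) (XT.lf (nat_lit 0) (nat_lit 719102614082) (nat_lit 152) (nat_lit 805137660858) (nat_lit 76) (nat_lit 3789032436118) (nat_lit 44) (nat_lit 5) (nat_lit 46) (nat_lit 5) (nat_lit 45) (nat_lit 5) (nat_lit 505) (nat_lit 477) (nat_lit 218)))) (XT.nd (nat_lit 78) (nat_lit 76) (nat_lit 0) (XT.lf (nat_lit 0) (nat_lit 2161144449057) (nat_lit 228) (nat_lit 3006056669362)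 (nat_lit 76) (nat_lit 415741663433) (nat_lit 42) (nat_lit 5) (nat_lit 45) (nat_lit 5) (nat_lit 43) (nat_lit 4) (nat_lit 506) (nat_lit 477) (nat_lit 217)) (XT.nd (nat_lit 78) (nat_lit 0) (nat_lit 0) (XT.lf (nat_lit 0) (nat_lit 381770597291) (nat_lit 76) (nat_lit 3408136961279) (nat_lit 152) (nat_lit 2078570265521) (nat_lit 41) (nat_lit 5) (nat_lit 42) (nat_lit 5) (nat_lit 43) (nat_lit 4) (nat_lit 507) (nat_lit 477) (nat_lit 216)) (XT.lf (nat_lit 0) (nat_lit 4211581150557) (nat_lit 76) (nat_lit 1419581482203) (nat_lit 152) (nat_lit 539117763675) (nat_lit 41) (nat_lit 5) (nat_lit 42) (nat_lit 5) (nat_lit 43) (nat_lit 4) (nat_lit 508) (nat_lit 477) (nat_lit 215))))) (XT.nd (nat_lit 234) (nat_lit 228) (nat_lit 0) (XT.nd (nat_lit 78) (nat_lit 76) (nat_lit 0) (XT.lf (nat_lit 0) (nat_lit 1132891385192) (nat_lit 152) (nat_lit 4589175850798) (nat_lit 76) (nat_lit 766750178750) (nat_lit 39) (nat_lit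 5) (nat_lit 41) (nat_lit 5) (nat_lit 40) (nat_lit 4) (nat_lit 509) (nat_lit 477) (nat_lit 214)) (XT.nd (nat_lit 78) (nat_lit 76) (nat_lit 0) (XT.lf (nat_lit 0) (nat_lit 3001352478882) (nat_lit 152) (nat_lit 702776776755) (nat_lit 76) (nat_lit 3120242488149) (nat_lit 39) (nat_lit 5) (nat_lit 41) (nat_lit 5) (nat_lit 40) (nat_lit 4) (nat_lit 510) (nat_lit 477) (nat_lit 213)) (XT.lf (nat_lit 0) (nat_lit 3678550201527) (nat_lit 76) (nat_lit 1429209478823) (nat_lit 152) (nat_lit 2071933201184) (nat_lit 38) (nat_lit 5) (nat_lit 39) (nat_lit 5) (nat_lit 40) (nat_lit 4) (nat_lit 511) (nat_lit 477) (nat_lit 212)))) (XT.nd (nat_lit 78) (nat_lit 152) (nat_lit 0) (XT.lf (nat_lit 0) (nat_lit 908689298554) (nat_lit 76) (nat_lit 6540274719007) (nat_lit 76) (nat_lit 109172927972) (nat_lit 37) (nat_lit 4) (nat_lit 38) (nat_lit 5) (nat_lit 38) (nat_lit 4) (nat_lit 512) (nat_lit 477) (nat_lit 211)) (XT.nd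 (nat_lit 78) (nat_lit 76) (nat_lit 0) (XT.lf (nat_lit 0) (nat_lit 2045365599750) (nat_lit 152) (nat_lit 2176741344166) (nat_lit 76) (nat_lit 3730054281058) (nat_lit 36) (nat_lit 5) (nat_lit 38) (nat_lit 5) (nat_lit 37) (nat_lit 4) (nat_lit 513) (nat_lit 477) (nat_lit 210)) (XT.lf (nat_lit 0) (nat_lit 2790539909516) (nat_lit 76) (nat_lit 1642941677854) (nat_lit 152) (nat_lit 3938630002448) (nat_lit 35) (nat_lit 5) (nat_lit 36) (nat_lit 5) (nat_lit 37) (nat_lit 4) (nat_lit 514) (nat_lit 477) (nat_lit 209)))))) (XT.nd (nat_lit 468) (nat_lit 304) (nat_lit 0) (XT.nd (nat_lit 234) (nat_lit 152) (nat_lit 0) (XT.nd (nat_lit 78) (nat_lit 228) (nat_lit 0) (XT.lf (nat_lit 0) (nat_lit 7101187207376) (nat_lit 152) (nat_lit 570924222995) (nat_lit 0) (nat_lit 1146463325209) (nat_lit 35) (nat_lit 5) (nat_lit 37) (nat_lit 4) (nat_lit 35) (nat_lit 4) (nat_lit 515) (nat_lit 477) (nat_lit 208)) (XT.nd (nat_lit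 78) (nat_lit 76) (nat_lit 0) (XT.lf (nat_lit 0) (nat_lit 815863226779) (nat_lit 152) (nat_lit 4257728370916) (nat_lit 76) (nat_lit 4212379822644) (nat_lit 33) (nat_lit 5) (nat_lit 35) (nat_lit 5) (nat_lit 34) (nat_lit 4) (nat_lit 516) (nat_lit 477) (nat_lit 207)) (XT.lf (nat_lit 0) (nat_lit 1340337860103) (nat_lit 76) (nat_lit 2166903362558) (nat_lit 152) (nat_lit 6276089942597) (nat_lit 32) (nat_lit 5) (nat_lit 33) (nat_lit 5) (nat_lit 34) (nat_lit 4) (nat_lit 517) (nat_lit 477) (nat_lit 206)))) (XT.nd (nat_lit 78) (nat_lit 152) (nat_lit 0) (XT.lf (nat_lit 0) (nat_lit 6556751350590) (nat_lit 152) (nat_lit 2709184462593) (nat_lit 0) (nat_lit 1043118125200) (nat_lit 32) (nat_lit 5) (nat_lit 34) (nat_lit 4) (nat_lit 32) (nat_lit 4) (nat_lit 518) (nat_lit 477) (nat_lit 205)) (XT.nd (nat_lit 78) (nat_lit 76) (nat_lit 0) (XT.lf (nat_lit 0) (nat_lit 3607508045279) (nat_lit 76) (nat_lit 6385758102536)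 (nat_lit 76) (nat_lit 872124876816) (nat_lit 31) (nat_lit 4) (nat_lit 32) (nat_lit 5) (nat_lit 32) (nat_lit 4) (nat_lit 519) (nat_lit 477) (nat_lit 204)) (XT.lf (nat_lit 0) (nat_lit 2202487764702) (nat_lit 152) (nat_lit 932458675445) (nat_lit 76) (nat_lit 8320901990606) (nat_lit 30) (nat_lit 5) (nat_lit 32) (nat_lit 5) (nat_lit 31) (nat_lit 4) (nat_lit 520) (nat_lit 477) (nat_lit 203))))) (XT.nd (nat_lit 234) (nat_lit 76) (nat_lit 0) (XT.nd (nat_lit 78) (nat_lit 152) (nat_lit 0) (XT.lf (nat_lit 0) (nat_lit 5638213918594) (nat_lit 152) (nat_lit 5907537383171) (nat_lit 0) (nat_lit 532997968306) (nat_lit 29) (nat_lit 5) (nat_lit 31) (nat_lit 4) (nat_lit 29) (nat_lit 4) (nat_lit 521) (nat_lit 477) (nat_lit 202)) (XT.nd (nat_lit 78) (nat_lit 76) (nat_lit 0) (XT.lf (nat_lit 0) (nat_lit 1120737723897) (nat_lit 76) (nat_lit 8362598672326) (nat_lit 76) (nat_lit 3257382721795) (nat_lit 28) (nat_lit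 4) (nat_lit 29) (nat_lit 5) (nat_lit 29) (nat_lit 4) (nat_lit 522) (nat_lit 477) (nat_lit 201)) (XT.lf (nat_lit 0) (nat_lit 337114604605) (nat_lit 152) (nat_lit 4404017573176) (nat_lit 76) (nat_lit 8700909809006) (nat_lit 27) (nat_lit 5) (nat_lit 29) (nat_lit 5) (nat_lit 28) (nat_lit 4) (nat_lit 523) (nat_lit 477) (nat_lit 200)))) (XT.nd (nat_lit 58968) (nat_lit 0) (nat_lit 4180) (XT.nd (nat_lit 58890) (nat_lit 0) (nat_lit 4180) (XT.lf (nat_lit 0) (nat_lit 3478631232108) (nat_lit 76) (nat_lit 648218375138) (nat_lit 152) (nat_lit 10059159597182) (nat_lit 26) (nat_lit 5) (nat_lit 27) (nat_lit 5) (nat_lit 28) (nat_lit 4) (nat_lit 524) (nat_lit 477) (nat_lit 199)) (XT.lf (nat_lit 0) (nat_lit 796370579589) (nat_lit 532) (nat_lit 12605149890) (nat_lit 532) (nat_lit 12605149890) (nat_lit 81) (nat_lit 3) (nat_lit 88) (nat_lit 3) (nat_lit 88) (nat_lit 5) (nat_lit 478) (nat_lit 478) (nat_lit 244)))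 (XT.nd (nat_lit 78) (nat_lit 0) (nat_lit 0) (XT.lf (nat_lit 76) (nat_lit 831392626845) (nat_lit 0) (nat_lit 845053214222) (nat_lit 532) (nat_lit 30842785176) (nat_lit 82) (nat_lit 5) (nat_lit 81) (nat_lit 3) (nat_lit 88) (nat_lit 5) (nat_lit 479) (nat_lit 478) (nat_lit 243)) (XT.lf (nat_lit 76) (nat_lit 1757957518390) (nat_lit 0) (nat_lit 9578671072) (nat_lit 532) (nat_lit 8954310327) (nat_lit 82) (nat_lit 5) (nat_lit 81) (nat_lit 3) (nat_lit 88) (nat_lit 5) (nat_lit 480) (nat_lit 478) (nat_lit 242))))))))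
noncomputable def xc237 : XT := (XT.nd (nat_lit 1950) (nat_lit 1368) (nat_lit 0) (XT.nd (nat_lit 936) (nat_lit 1292) (nat_lit 0) (XT.nd (nat_lit 468) (nat_lit 684) (nat_lit 0) (XT.nd (nat_lit 234) (nat_lit 304) (nat_lit 0) (XT.nd (nat_lit 78) (nat_lit 0) (nat_lit 0) (XT.lf (nat_lit 0) (nat_lit 58990221905) (nat_lit 532) (nat_lit 916608697880) (nat_lit 608) (nat_lit 871998181423) (nat_lit 75) (nat_lit 5) (nat_lit 82) (nat_lit 5) (nat_lit 83) (nat_lit 5) (nat_lit 481) (nat_lit 478) (nat_lit 241)) (XT.nd (nat_lit 78) (nat_lit 0) (nat_lit 76) (XT.lf (nat_lit 76) (nat_lit 34400085438) (nat_lit 0) (nat_lit 99082469656) (nat_lit 608) (nat_lit 1790763388992) (nat_lit 76) (nat_lit 5) (nat_lit 75) (nat_lit 5) (nat_lit 83) (nat_lit 5) (nat_lit 482) (nat_lit 478) (nat_lit 240)) (XT.lf (nat_lit 0) (nat_lit 260030657856) (nat_lit 532) (nat_lit 912438517917) (nat_lit 608) (nat_lit 830869807986) (nat_lit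 76) (nat_lit 5) (nat_lit 83) (nat_lit 5) (nat_lit 84) (nat_lit 5) (nat_lit 483) (nat_lit 478) (nat_lit 239)))) (XT.nd (nat_lit 78) (nat_lit 380) (nat_lit 0) (XT.lf (nat_lit 76) (nat_lit 147990944352) (nat_lit 0) (nat_lit 254844419120) (nat_lit 608) (nat_lit 1685433482766) (nat_lit 77) (nat_lit 5) (nat_lit 76) (nat_lit 5) (nat_lit 84) (nat_lit 5) (nat_lit 484) (nat_lit 478) (nat_lit 238)) (XT.nd (nat_lit 78) (nat_lit 456) (nat_lit 0) (XT.lf (nat_lit 0) (nat_lit 600365516621) (nat_lit 532) (nat_lit 851204720509) (nat_lit 76) (nat_lit 724958774898) (nat_lit 77) (nat_lit 5) (nat_lit 84) (nat_lit 5) (nat_lit 78) (nat_lit 5) (nat_lit 485) (nat_lit 478) (nat_lit 237)) (XT.lf (nat_lit 0) (nat_lit 335140040498) (nat_lit 456) (nat_lit 493237501566) (nat_lit 532) (nat_lit 1442298092214) (nat_lit 71) (nat_lit 5) (nat_lit 77) (nat_lit 5) (nat_lit 78) (nat_lit 5) (nat_lit 486) (nat_lit 478) (nat_lit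 236))))) (XT.nd (nat_lit 234) (nat_lit 456) (nat_lit 0) (XT.nd (nat_lit 78) (nat_lit 228) (nat_lit 0) (XT.lf (nat_lit 0) (nat_lit 1111537864265) (nat_lit 532) (nat_lit 719324853812) (nat_lit 76) (nat_lit 538538681454) (nat_lit 71) (nat_lit 5) (nat_lit 78) (nat_lit 5) (nat_lit 72) (nat_lit 5) (nat_lit 487) (nat_lit 478) (nat_lit 235)) (XT.nd (nat_lit 78) (nat_lit 0) (nat_lit 0) (XT.lf (nat_lit 0) (nat_lit 611985366846) (nat_lit 228) (nat_lit 832895270500) (nat_lit 304) (nat_lit 1028942218650) (nat_lit 68) (nat_lit 5) (nat_lit 71) (nat_lit 5) (nat_lit 72) (nat_lit 5) (nat_lit 488) (nat_lit 478) (nat_lit 234)) (XT.lf (nat_lit 0) (nat_lit 1830959375528) (nat_lit 304) (nat_lit 500716502502) (nat_lit 76) (nat_lit 252836667489) (nat_lit 68) (nat_lit 5) (nat_lit 72) (nat_lit 5) (nat_lit 69) (nat_lit 5) (nat_lit 489) (nat_lit 478) (nat_lit 233)))) (XT.nd (nat_lit 78) (nat_lit 228) (nat_lit 0) (XT.lf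 (nat_lit 0) (nat_lit 997562641794) (nat_lit 228) (nat_lit 1295986818683) (nat_lit 304) (nat_lit 406857945907) (nat_lit 65) (nat_lit 5) (nat_lit 68) (nat_lit 5) (nat_lit 69) (nat_lit 5) (nat_lit 490) (nat_lit 478) (nat_lit 232)) (XT.nd (nat_lit 78) (nat_lit 228) (nat_lit 0) (XT.lf (nat_lit 0) (nat_lit 2644180307451) (nat_lit 228) (nat_lit 162656920153) (nat_lit 304) (nat_lit 17641390487) (nat_lit 65) (nat_lit 5) (nat_lit 68) (nat_lit 5) (nat_lit 69) (nat_lit 5) (nat_lit 491) (nat_lit 478) (nat_lit 231)) (XT.lf (nat_lit 0) (nat_lit 446119736934) (nat_lit 228) (nat_lit 1450537323267) (nat_lit 76) (nat_lit 1055959442346) (nat_lit 62) (nat_lit 5) (nat_lit 65) (nat_lit 5) (nat_lit 63) (nat_lit 5) (nat_lit 492) (nat_lit 478) (nat_lit 230)))))) (XT.nd (nat_lit 468) (nat_lit 532) (nat_lit 0) (XT.nd (nat_lit 234) (nat_lit 380) (nat_lit 0) (XT.nd (nat_lit 78) (nat_lit 152) (nat_lit 0) (XT.lf (nat_lit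 0) (nat_lit 246194055205) (nat_lit 228) (nat_lit 715038151858) (nat_lit 304) (nat_lit 2128520269596) (nat_lit 59) (nat_lit 5) (nat_lit 62) (nat_lit 5) (nat_lit 63) (nat_lit 5) (nat_lit 493) (nat_lit 478) (nat_lit 229)) (XT.nd (nat_lit 78) (nat_lit 152) (nat_lit 0) (XT.lf (nat_lit 0) (nat_lit 1571738786905) (nat_lit 304) (nat_lit 1088054074517) (nat_lit 76) (nat_lit 573731658311) (nat_lit 59) (nat_lit 5) (nat_lit 63) (nat_lit 5) (nat_lit 60) (nat_lit 5) (nat_lit 494) (nat_lit 478) (nat_lit 228)) (XT.lf (nat_lit 0) (nat_lit 830882296943) (nat_lit 152) (nat_lit 1438758754013) (nat_lit 228) (nat_lit 1116072862671) (nat_lit 57) (nat_lit 5) (nat_lit 59) (nat_lit 5) (nat_lit 60) (nat_lit 5) (nat_lit 495) (nat_lit 478) (nat_lit 227)))) (XT.nd (nat_lit 78) (nat_lit 380) (nat_lit 0) (XT.lf (nat_lit 0) (nat_lit 2965212176179) (nat_lit 152) (nat_lit 87912645654) (nat_lit 228) (nat_lit 494573691144)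 (nat_lit 57) (nat_lit 5) (nat_lit 59) (nat_lit 5) (nat_lit 60) (nat_lit 5) (nat_lit 496) (nat_lit 478) (nat_lit 226)) (XT.nd (nat_lit 78) (nat_lit 152) (nat_lit 0) (XT.lf (nat_lit 0) (nat_lit 240980116938) (nat_lit 228) (nat_lit 2128603140102) (nat_lit 76) (nat_lit 1346865059368) (nat_lit 54) (nat_lit 5) (nat_lit 57) (nat_lit 5) (nat_lit 55) (nat_lit 5) (nat_lit 497) (nat_lit 478) (nat_lit 225)) (XT.lf (nat_lit 0) (nat_lit 54698787805) (nat_lit 152) (nat_lit 973898444614) (nat_lit 228) (nat_lit 2867478079852) (nat_lit 52) (nat_lit 5) (nat_lit 54) (nat_lit 5) (nat_lit 55) (nat_lit 5) (nat_lit 498) (nat_lit 478) (nat_lit 224))))) (XT.nd (nat_lit 234) (nat_lit 380) (nat_lit 0) (XT.nd (nat_lit 78) (nat_lit 152) (nat_lit 0) (XT.lf (nat_lit 0) (nat_lit 1951764453601) (nat_lit 228) (nat_lit 1566037025075) (nat_lit 76) (nat_lit 566467730210) (nat_lit 52) (nat_lit 5) (nat_lit 55) (nat_lit 5) (nat_lit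 53) (nat_lit 5) (nat_lit 499) (nat_lit 478) (nat_lit 223)) (XT.nd (nat_lit 78) (nat_lit 0) (nat_lit 0) (XT.lf (nat_lit 0) (nat_lit 911637362639) (nat_lit 152) (nat_lit 2084368653089) (nat_lit 228) (nat_lit 1287734924440) (nat_lit 50) (nat_lit 5) (nat_lit 52) (nat_lit 5) (nat_lit 53) (nat_lit 5) (nat_lit 500) (nat_lit 478) (nat_lit 222)) (XT.lf (nat_lit 0) (nat_lit 3676587613481) (nat_lit 152) (nat_lit 490017516154) (nat_lit 228) (nat_lit 329139822176) (nat_lit 50) (nat_lit 5) (nat_lit 52) (nat_lit 5) (nat_lit 53) (nat_lit 5) (nat_lit 501) (nat_lit 478) (nat_lit 221)))) (XT.nd (nat_lit 156) (nat_lit 76) (nat_lit 0) (XT.nd (nat_lit 78) (nat_lit 152) (nat_lit 0) (XT.lf (nat_lit 0) (nat_lit 750783846478) (nat_lit 152) (nat_lit 2728590557111) (nat_lit 76) (nat_lit 1237579053691) (nat_lit 48) (nat_lit 5) (nat_lit 50) (nat_lit 5) (nat_lit 49) (nat_lit 5) (nat_lit 502) (nat_lit 478) (nat_lit 220))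 (XT.lf (nat_lit 0) (nat_lit 95945096730) (nat_lit 152) (nat_lit 1841388380426) (nat_lit 228) (nat_lit 3014800105685) (nat_lit 46) (nat_lit 5) (nat_lit 48) (nat_lit 5) (nat_lit 49) (nat_lit 5) (nat_lit 503) (nat_lit 478) (nat_lit 219))) (XT.nd (nat_lit 78) (nat_lit 76) (nat_lit 0) (XT.lf (nat_lit 0) (nat_lit 3293609014878) (nat_lit 228) (nat_lit 1898736229788) (nat_lit 76) (nat_lit 7798718853) (nat_lit 46) (nat_lit 5) (nat_lit 49) (nat_lit 5) (nat_lit 47) (nat_lit 4) (nat_lit 504) (nat_lit 478) (nat_lit 218)) (XT.lf (nat_lit 0) (nat_lit 1313174229746) (nat_lit 76) (nat_lit 3524622506698) (nat_lit 152) (nat_lit 623845626943) (nat_lit 45) (nat_lit 5) (nat_lit 46) (nat_lit 5) (nat_lit 47) (nat_lit 4) (nat_lit 505) (nat_lit 478) (nat_lit 217))))))) (XT.nd (nat_lit 936) (nat_lit 456) (nat_lit 0) (XT.nd (nat_lit 468) (nat_lit 456) (nat_lit 0) (XT.nd (nat_lit 234) (nat_lit 152) (nat_lit 0) (XT.nd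 (nat_lit 78) (nat_lit 228) (nat_lit 0) (XT.lf (nat_lit 0) (nat_lit 776630834849) (nat_lit 152) (nat_lit 869548653492) (nat_lit 76) (nat_lit 4092155038669) (nat_lit 44) (nat_lit 5) (nat_lit 46) (nat_lit 5) (nat_lit 45) (nat_lit 5) (nat_lit 506) (nat_lit 478) (nat_lit 216)) (XT.nd (nat_lit 78) (nat_lit 76) (nat_lit 0) (XT.lf (nat_lit 0) (nat_lit 2334036016437) (nat_lit 228) (nat_lit 3246541182491) (nat_lit 76) (nat_lit 449001004554) (nat_lit 42) (nat_lit 5) (nat_lit 45) (nat_lit 5) (nat_lit 43) (nat_lit 4) (nat_lit 507) (nat_lit 478) (nat_lit 215)) (XT.lf (nat_lit 0) (nat_lit 412312264977) (nat_lit 76) (nat_lit 3680787909364) (nat_lit 152) (nat_lit 2244855874789) (nat_lit 41) (nat_lit 5) (nat_lit 42) (nat_lit 5) (nat_lit 43) (nat_lit 4) (nat_lit 508) (nat_lit 478) (nat_lit 214)))) (XT.nd (nat_lit 78) (nat_lit 152) (nat_lit 0) (XT.lf (nat_lit 0) (nat_lit 4548507661030) (nat_lit 76) (nat_lit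 1533147992616) (nat_lit 152) (nat_lit 582247173682) (nat_lit 41) (nat_lit 5) (nat_lit 42) (nat_lit 5) (nat_lit 43) (nat_lit 4) (nat_lit 509) (nat_lit 478) (nat_lit 213)) (XT.nd (nat_lit 78) (nat_lit 0) (nat_lit 0) (XT.lf (nat_lit 0) (nat_lit 1223522706404) (nat_lit 152) (nat_lit 4956309899742) (nat_lit 76) (nat_lit 828090200940) (nat_lit 39) (nat_lit 5) (nat_lit 41) (nat_lit 5) (nat_lit 40) (nat_lit 4) (nat_lit 510) (nat_lit 478) (nat_lit 212)) (XT.lf (nat_lit 0) (nat_lit 3241460686820) (nat_lit 152) (nat_lit 758998901192) (nat_lit 76) (nat_lit 3369861894507) (nat_lit 39) (nat_lit 5) (nat_lit 41) (nat_lit 5) (nat_lit 40) (nat_lit 4) (nat_lit 511) (nat_lit 478) (nat_lit 211))))) (XT.nd (nat_lit 234) (nat_lit 228) (nat_lit 0) (XT.nd (nat_lit 78) (nat_lit 152) (nat_lit 0) (XT.lf (nat_lit 0) (nat_lit 3972834234905) (nat_lit 76) (nat_lit 1543546229202) (nat_lit 152) (nat_lit 2237687847203) (nat_lit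 38) (nat_lit 5) (nat_lit 39) (nat_lit 5) (nat_lit 40) (nat_lit 4) (nat_lit 512) (nat_lit 478) (nat_lit 210)) (XT.nd (nat_lit 78) (nat_lit 76) (nat_lit 0) (XT.lf (nat_lit 0) (nat_lit 981384459799) (nat_lit 76) (nat_lit 7063496688398) (nat_lit 76) (nat_lit 117906752239) (nat_lit 37) (nat_lit 4) (nat_lit 38) (nat_lit 5) (nat_lit 38) (nat_lit 4) (nat_lit 513) (nat_lit 478) (nat_lit 209)) (XT.lf (nat_lit 0) (nat_lit 2208994856501) (nat_lit 152) (nat_lit 2350880635162) (nat_lit 76) (nat_lit 4028458630608) (nat_lit 36) (nat_lit 5) (nat_lit 38) (nat_lit 5) (nat_lit 37) (nat_lit 4) (nat_lit 514) (nat_lit 478) (nat_lit 208)))) (XT.nd (nat_lit 78) (nat_lit 152) (nat_lit 0) (XT.lf (nat_lit 0) (nat_lit 3013783118396) (nat_lit 76) (nat_lit 1774377004472) (nat_lit 152) (nat_lit 4253720393454) (nat_lit 35) (nat_lit 5) (nat_lit 36) (nat_lit 5) (nat_lit 37) (nat_lit 4) (nat_lit 515) (nat_lit 478) (nat_lit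 207)) (XT.nd (nat_lit 78) (nat_lit 152) (nat_lit 0) (XT.lf (nat_lit 0) (nat_lit 7669282192013) (nat_lit 152) (nat_lit 616598145449) (nat_lit 0) (nat_lit 1238180397919) (nat_lit 35) (nat_lit 5) (nat_lit 37) (nat_lit 4) (nat_lit 35) (nat_lit 4) (nat_lit 516) (nat_lit 478) (nat_lit 206)) (XT.lf (nat_lit 0) (nat_lit 881132292937) (nat_lit 152) (nat_lit 4598346625170) (nat_lit 76) (nat_lit 4549370215218) (nat_lit 33) (nat_lit 5) (nat_lit 35) (nat_lit 5) (nat_lit 34) (nat_lit 4) (nat_lit 517) (nat_lit 478) (nat_lit 205)))))) (XT.nd (nat_lit 468) (nat_lit 76) (nat_lit 0) (XT.nd (nat_lit 234) (nat_lit 228) (nat_lit 0) (XT.nd (nat_lit 78) (nat_lit 76) (nat_lit 0) (XT.lf (nat_lit 0) (nat_lit 1447564903940) (nat_lit 76) (nat_lit 2340255624318) (nat_lit 152) (nat_lit 6778177129599) (nat_lit 32) (nat_lit 5) (nat_lit 33) (nat_lit 5) (nat_lit 34) (nat_lit 4) (nat_lit 518) (nat_lit 478) (nat_lit 204))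 (XT.nd (nat_lit 78) (nat_lit 76) (nat_lit 0) (XT.lf (nat_lit 0) (nat_lit 7081291466005) (nat_lit 152) (nat_lit 2925919205269) (nat_lit 0) (nat_lit 1126567581589) (nat_lit 32) (nat_lit 5) (nat_lit 34) (nat_lit 4) (nat_lit 32) (nat_lit 4) (nat_lit 519) (nat_lit 478) (nat_lit 203)) (XT.lf (nat_lit 0) (nat_lit 3896108702869) (nat_lit 76) (nat_lit 6896618743929) (nat_lit 76) (nat_lit 941894859230) (nat_lit 31) (nat_lit 4) (nat_lit 32) (nat_lit 5) (nat_lit 32) (nat_lit 4) (nat_lit 520) (nat_lit 478) (nat_lit 202)))) (XT.nd (nat_lit 78) (nat_lit 152) (nat_lit 0) (XT.lf (nat_lit 0) (nat_lit 2378686792678) (nat_lit 152) (nat_lit 1007055356189) (nat_lit 76) (nat_lit 8986574155802) (nat_lit 30) (nat_lit 5) (nat_lit 32) (nat_lit 5) (nat_lit 31) (nat_lit 4) (nat_lit 521) (nat_lit 478) (nat_lit 201)) (XT.nd (nat_lit 78) (nat_lit 76) (nat_lit 0) (XT.lf (nat_lit 0) (nat_lit 6089271038842) (nat_lit 152)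 (nat_lit 6380140360493) (nat_lit 0) (nat_lit 575637811800) (nat_lit 29) (nat_lit 5) (nat_lit 31) (nat_lit 4) (nat_lit 29) (nat_lit 4) (nat_lit 522) (nat_lit 478) (nat_lit 200)) (XT.lf (nat_lit 0) (nat_lit 1210396754803) (nat_lit 76) (nat_lit 9031606559691) (nat_lit 76) (nat_lit 3517973332440) (nat_lit 28) (nat_lit 4) (nat_lit 29) (nat_lit 5) (nat_lit 29) (nat_lit 4) (nat_lit 523) (nat_lit 478) (nat_lit 199))))) (XT.nd (nat_lit 59124) (nat_lit 0) (nat_lit 3648) (XT.nd (nat_lit 58968) (nat_lit 0) (nat_lit 4104) (XT.lf (nat_lit 0) (nat_lit 364083779218) (nat_lit 152) (nat_lit 4756338966670) (nat_lit 76) (nat_lit 9396982599344) (nat_lit 27) (nat_lit 5) (nat_lit 29) (nat_lit 5) (nat_lit 28) (nat_lit 4) (nat_lit 524) (nat_lit 478) (nat_lit 198)) (XT.nd (nat_lit 78) (nat_lit 0) (nat_lit 0) (XT.lf (nat_lit 0) (nat_lit 860080248258) (nat_lit 532) (nat_lit 13613549836) (nat_lit 532) (nat_lit 13613549836)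 (nat_lit 81) (nat_lit 3) (nat_lit 88) (nat_lit 3) (nat_lit 88) (nat_lit 5) (nat_lit 479) (nat_lit 479) (nat_lit 242)) (XT.lf (nat_lit 76) (nat_lit 897904060475) (nat_lit 0) (nat_lit 912657489742) (nat_lit 532) (nat_lit 33310162765) (nat_lit 82) (nat_lit 5) (nat_lit 81) (nat_lit 3) (nat_lit 88) (nat_lit 5) (nat_lit 480) (nat_lit 479) (nat_lit 241)))) (XT.nd (nat_lit 156) (nat_lit 0) (nat_lit 0) (XT.nd (nat_lit 78) (nat_lit 456) (nat_lit 0) (XT.lf (nat_lit 76) (nat_lit 1898594141604) (nat_lit 0) (nat_lit 10344981779) (nat_lit 532) (nat_lit 9670613278) (nat_lit 82) (nat_lit 5) (nat_lit 81) (nat_lit 3) (nat_lit 88) (nat_lit 5) (nat_lit 481) (nat_lit 479) (nat_lit 240)) (XT.lf (nat_lit 0) (nat_lit 63709476710) (nat_lit 532) (nat_lit 989937367127) (nat_lit 608) (nat_lit 941758022495) (nat_lit 75) (nat_lit 5) (nat_lit 82) (nat_lit 5) (nat_lit 83) (nat_lit 5) (nat_lit 482) (nat_lit 479) (nat_lit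 239))) (XT.nd (nat_lit 78) (nat_lit 0) (nat_lit 76) (XT.lf (nat_lit 76) (nat_lit 37152118183) (nat_lit 0) (nat_lit 107009076248) (nat_lit 608) (nat_lit 1934024422379) (nat_lit 76) (nat_lit 5) (nat_lit 75) (nat_lit 5) (nat_lit 83) (nat_lit 5) (nat_lit 483) (nat_lit 479) (nat_lit 238)) (XT.lf (nat_lit 0) (nat_lit 280833142627) (nat_lit 532) (nat_lit 985433572563) (nat_lit 608) (nat_lit 897339384691) (nat_lit 76) (nat_lit 5) (nat_lit 83) (nat_lit 5) (nat_lit 84) (nat_lit 5) (nat_lit 484) (nat_lit 479) (nat_lit 237))))))))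
noncomputable def xc238 : XT := (XT.nd (nat_lit 1950) (nat_lit 912) (nat_lit 0) (XT.nd (nat_lit 936) (nat_lit 1216) (nat_lit 0) (XT.nd (nat_lit 468) (nat_lit 836) (nat_lit 0) (XT.nd (nat_lit 234) (nat_lit 228) (nat_lit 0) (XT.nd (nat_lit 78) (nat_lit 380) (nat_lit 0) (XT.lf (nat_lit 76) (nat_lit 159830246009) (nat_lit 0) (nat_lit 275231976930) (nat_lit 608) (nat_lit 1820268128560) (nat_lit 77) (nat_lit 5) (nat_lit 76) (nat_lit 5) (nat_lit 84) (nat_lit 5) (nat_lit 485) (nat_lit 479) (nat_lit 236)) (XT.nd (nat_lit 78) (nat_lit 456) (nat_lit 0) (XT.lf (nat_lit 0) (nat_lit 648394785993) (nat_lit 532) (nat_lit 919301071622) (nat_lit 76) (nat_lit 782955473124) (nat_lit 77) (nat_lit 5) (nat_lit 84) (nat_lit 5) (nat_lit 78) (nat_lit 5) (nat_lit 486) (nat_lit 479) (nat_lit 235)) (XT.lf (nat_lit 0) (nat_lit 361951269594) (nat_lit 456) (nat_lit 532696502423) (nat_lit 532) (nat_lit 1557681910871) (nat_lit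 71) (nat_lit 5) (nat_lit 77) (nat_lit 5) (nat_lit 78) (nat_lit 5) (nat_lit 487) (nat_lit 479) (nat_lit 234)))) (XT.nd (nat_lit 78) (nat_lit 228) (nat_lit 0) (XT.lf (nat_lit 0) (nat_lit 1200460918008) (nat_lit 532) (nat_lit 776870816185) (nat_lit 76) (nat_lit 581621775327) (nat_lit 71) (nat_lit 5) (nat_lit 78) (nat_lit 5) (nat_lit 72) (nat_lit 5) (nat_lit 488) (nat_lit 479) (nat_lit 233)) (XT.nd (nat_lit 78) (nat_lit 0) (nat_lit 0) (XT.lf (nat_lit 0) (nat_lit 660944221469) (nat_lit 228) (nat_lit 899526890252) (nat_lit 304) (nat_lit 1111257570878) (nat_lit 68) (nat_lit 5) (nat_lit 71) (nat_lit 5) (nat_lit 72) (nat_lit 5) (nat_lit 489) (nat_lit 479) (nat_lit 232)) (XT.lf (nat_lit 0) (nat_lit 1977436147267) (nat_lit 304) (nat_lit 540773797603) (nat_lit 76) (nat_lit 273063602549) (nat_lit 68) (nat_lit 5) (nat_lit 72) (nat_lit 5) (nat_lit 69) (nat_lit 5) (nat_lit 490) (nat_lit 479) (nat_lit 231)))))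 (XT.nd (nat_lit 234) (nat_lit 380) (nat_lit 0) (XT.nd (nat_lit 78) (nat_lit 228) (nat_lit 0) (XT.lf (nat_lit 0) (nat_lit 1077367677601) (nat_lit 228) (nat_lit 1399665760393) (nat_lit 304) (nat_lit 439406559243) (nat_lit 65) (nat_lit 5) (nat_lit 68) (nat_lit 5) (nat_lit 69) (nat_lit 5) (nat_lit 491) (nat_lit 479) (nat_lit 230)) (XT.nd (nat_lit 78) (nat_lit 228) (nat_lit 0) (XT.lf (nat_lit 0) (nat_lit 2855714754698) (nat_lit 228) (nat_lit 175669470260) (nat_lit 304) (nat_lit 19052681044) (nat_lit 65) (nat_lit 5) (nat_lit 68) (nat_lit 5) (nat_lit 69) (nat_lit 5) (nat_lit 492) (nat_lit 479) (nat_lit 229)) (XT.lf (nat_lit 0) (nat_lit 481809334741) (nat_lit 228) (nat_lit 1566580284640) (nat_lit 76) (nat_lit 1140436201859) (nat_lit 62) (nat_lit 5) (nat_lit 65) (nat_lit 5) (nat_lit 63) (nat_lit 5) (nat_lit 493) (nat_lit 479) (nat_lit 228)))) (XT.nd (nat_lit 78) (nat_lit 152) (nat_lit 0) (XT.lf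 (nat_lit 0) (nat_lit 265889603490) (nat_lit 228) (nat_lit 772241198168) (nat_lit 304) (nat_lit 2298801871689) (nat_lit 59) (nat_lit 5) (nat_lit 62) (nat_lit 5) (nat_lit 63) (nat_lit 5) (nat_lit 494) (nat_lit 479) (nat_lit 227)) (XT.nd (nat_lit 78) (nat_lit 152) (nat_lit 0) (XT.lf (nat_lit 0) (nat_lit 1697477906682) (nat_lit 304) (nat_lit 1175098377169) (nat_lit 76) (nat_lit 619630196111) (nat_lit 59) (nat_lit 5) (nat_lit 63) (nat_lit 5) (nat_lit 60) (nat_lit 5) (nat_lit 495) (nat_lit 479) (nat_lit 226)) (XT.lf (nat_lit 0) (nat_lit 897352903417) (nat_lit 152) (nat_lit 1553859447739) (nat_lit 228) (nat_lit 1205358674268) (nat_lit 57) (nat_lit 5) (nat_lit 59) (nat_lit 5) (nat_lit 60) (nat_lit 5) (nat_lit 496) (nat_lit 479) (nat_lit 225)))))) (XT.nd (nat_lit 468) (nat_lit 684) (nat_lit 0) (XT.nd (nat_lit 234) (nat_lit 152) (nat_lit 0) (XT.nd (nat_lit 78) (nat_lit 380) (nat_lit 0) (XT.lf (nat_lit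 0) (nat_lit 3202429171309) (nat_lit 152) (nat_lit 94945651200) (nat_lit 228) (nat_lit 534139570309) (nat_lit 57) (nat_lit 5) (nat_lit 59) (nat_lit 5) (nat_lit 60) (nat_lit 5) (nat_lit 497) (nat_lit 479) (nat_lit 224)) (XT.nd (nat_lit 78) (nat_lit 152) (nat_lit 0) (XT.lf (nat_lit 0) (nat_lit 260258541149) (nat_lit 228) (nat_lit 2298891368998) (nat_lit 76) (nat_lit 1454614270382) (nat_lit 54) (nat_lit 5) (nat_lit 57) (nat_lit 5) (nat_lit 55) (nat_lit 5) (nat_lit 498) (nat_lit 479) (nat_lit 223)) (XT.lf (nat_lit 0) (nat_lit 59074712576) (nat_lit 152) (nat_lit 1051810312715) (nat_lit 228) (nat_lit 3096876310818) (nat_lit 52) (nat_lit 5) (nat_lit 54) (nat_lit 5) (nat_lit 55) (nat_lit 5) (nat_lit 499) (nat_lit 479) (nat_lit 222)))) (XT.nd (nat_lit 78) (nat_lit 152) (nat_lit 0) (XT.lf (nat_lit 0) (nat_lit 2107905623276) (nat_lit 228) (nat_lit 1691319966052) (nat_lit 76) (nat_lit 611785155196)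 (nat_lit 52) (nat_lit 5) (nat_lit 55) (nat_lit 5) (nat_lit 53) (nat_lit 5) (nat_lit 500) (nat_lit 479) (nat_lit 221)) (XT.nd (nat_lit 78) (nat_lit 0) (nat_lit 0) (XT.lf (nat_lit 0) (nat_lit 984568372147) (nat_lit 152) (nat_lit 2251118137728) (nat_lit 228) (nat_lit 1390753704474) (nat_lit 50) (nat_lit 5) (nat_lit 52) (nat_lit 5) (nat_lit 53) (nat_lit 5) (nat_lit 501) (nat_lit 479) (nat_lit 220)) (XT.lf (nat_lit 0) (nat_lit 3970714641538) (nat_lit 152) (nat_lit 529218910402) (nat_lit 228) (nat_lit 355470995060) (nat_lit 50) (nat_lit 5) (nat_lit 52) (nat_lit 5) (nat_lit 53) (nat_lit 5) (nat_lit 502) (nat_lit 479) (nat_lit 219))))) (XT.nd (nat_lit 234) (nat_lit 380) (nat_lit 0) (XT.nd (nat_lit 78) (nat_lit 152) (nat_lit 0) (XT.lf (nat_lit 0) (nat_lit 810846566171) (nat_lit 152) (nat_lit 2946877781783) (nat_lit 76) (nat_lit 1336585384949) (nat_lit 48) (nat_lit 5) (nat_lit 50) (nat_lit 5) (nat_lit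 49) (nat_lit 5) (nat_lit 503) (nat_lit 479) (nat_lit 218)) (XT.nd (nat_lit 78) (nat_lit 0) (nat_lit 0) (XT.lf (nat_lit 0) (nat_lit 103620723861) (nat_lit 152) (nat_lit 1988699443021) (nat_lit 228) (nat_lit 3255984101660) (nat_lit 46) (nat_lit 5) (nat_lit 48) (nat_lit 5) (nat_lit 49) (nat_lit 5) (nat_lit 504) (nat_lit 479) (nat_lit 217)) (XT.lf (nat_lit 0) (nat_lit 3557097746941) (nat_lit 228) (nat_lit 2050635109532) (nat_lit 76) (nat_lit 8422623257) (nat_lit 46) (nat_lit 5) (nat_lit 49) (nat_lit 5) (nat_lit 47) (nat_lit 4) (nat_lit 505) (nat_lit 479) (nat_lit 216)))) (XT.nd (nat_lit 156) (nat_lit 228) (nat_lit 0) (XT.nd (nat_lit 78) (nat_lit 76) (nat_lit 0) (XT.lf (nat_lit 0) (nat_lit 1418228186293) (nat_lit 76) (nat_lit 3806592299570) (nat_lit 152) (nat_lit 673753265753) (nat_lit 45) (nat_lit 5) (nat_lit 46) (nat_lit 5) (nat_lit 47) (nat_lit 4) (nat_lit 506) (nat_lit 479) (nat_lit 215))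 (XT.lf (nat_lit 0) (nat_lit 838761311617) (nat_lit 152) (nat_lit 939112528423) (nat_lit 76) (nat_lit 4419527448332) (nat_lit 44) (nat_lit 5) (nat_lit 46) (nat_lit 5) (nat_lit 45) (nat_lit 5) (nat_lit 507) (nat_lit 479) (nat_lit 214))) (XT.nd (nat_lit 78) (nat_lit 76) (nat_lit 0) (XT.lf (nat_lit 0) (nat_lit 2520758907574) (nat_lit 228) (nat_lit 3506264459584) (nat_lit 76) (nat_lit 484921091817) (nat_lit 42) (nat_lit 5) (nat_lit 45) (nat_lit 5) (nat_lit 43) (nat_lit 4) (nat_lit 508) (nat_lit 479) (nat_lit 213)) (XT.lf (nat_lit 0) (nat_lit 445297263239) (nat_lit 76) (nat_lit 3975250934555) (nat_lit 152) (nat_lit 2424444334506) (nat_lit 41) (nat_lit 5) (nat_lit 42) (nat_lit 5) (nat_lit 43) (nat_lit 4) (nat_lit 509) (nat_lit 479) (nat_lit 212))))))) (XT.nd (nat_lit 936) (nat_lit 152) (nat_lit 0) (XT.nd (nat_lit 468) (nat_lit 380) (nat_lit 0) (XT.nd (nat_lit 234) (nat_lit 228) (nat_lit 0) (XT.nd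 (nat_lit 78) (nat_lit 152) (nat_lit 0) (XT.lf (nat_lit 0) (nat_lit 4912388289712) (nat_lit 76) (nat_lit 1655799825026) (nat_lit 152) (nat_lit 628826938072) (nat_lit 41) (nat_lit 5) (nat_lit 42) (nat_lit 5) (nat_lit 43) (nat_lit 4) (nat_lit 510) (nat_lit 479) (nat_lit 211)) (XT.nd (nat_lit 78) (nat_lit 0) (nat_lit 0) (XT.lf (nat_lit 0) (nat_lit 1321404531830) (nat_lit 152) (nat_lit 5352814675329) (nat_lit 76) (nat_lit 894337423780) (nat_lit 39) (nat_lit 5) (nat_lit 41) (nat_lit 5) (nat_lit 40) (nat_lit 4) (nat_lit 511) (nat_lit 479) (nat_lit 210)) (XT.lf (nat_lit 0) (nat_lit 3500777550019) (nat_lit 152) (nat_lit 819718798109) (nat_lit 76) (nat_lit 3639450852331) (nat_lit 39) (nat_lit 5) (nat_lit 41) (nat_lit 5) (nat_lit 40) (nat_lit 4) (nat_lit 512) (nat_lit 479) (nat_lit 209)))) (XT.nd (nat_lit 78) (nat_lit 152) (nat_lit 0) (XT.lf (nat_lit 0) (nat_lit 4290660988491) (nat_lit 76) (nat_lit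 1667029920743) (nat_lit 152) (nat_lit 2416702866341) (nat_lit 38) (nat_lit 5) (nat_lit 39) (nat_lit 5) (nat_lit 40) (nat_lit 4) (nat_lit 513) (nat_lit 479) (nat_lit 208)) (XT.nd (nat_lit 78) (nat_lit 76) (nat_lit 0) (XT.lf (nat_lit 0) (nat_lit 1059895231468) (nat_lit 76) (nat_lit 7628576416501) (nat_lit 76) (nat_lit 127339283869) (nat_lit 37) (nat_lit 4) (nat_lit 38) (nat_lit 5) (nat_lit 38) (nat_lit 4) (nat_lit 514) (nat_lit 479) (nat_lit 207)) (XT.lf (nat_lit 0) (nat_lit 2385714452540) (nat_lit 152) (nat_lit 2538951071797) (nat_lit 76) (nat_lit 4350735327113) (nat_lit 36) (nat_lit 5) (nat_lit 38) (nat_lit 5) (nat_lit 37) (nat_lit 4) (nat_lit 515) (nat_lit 479) (nat_lit 206))))) (XT.nd (nat_lit 234) (nat_lit 152) (nat_lit 0) (XT.nd (nat_lit 78) (nat_lit 152) (nat_lit 0) (XT.lf (nat_lit 0) (nat_lit 3254885781687) (nat_lit 76) (nat_lit 1916327158305) (nat_lit 152) (nat_lit 4594018017052)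 (nat_lit 35) (nat_lit 5) (nat_lit 36) (nat_lit 5) (nat_lit 37) (nat_lit 4) (nat_lit 516) (nat_lit 479) (nat_lit 205)) (XT.nd (nat_lit 78) (nat_lit 152) (nat_lit 0) (XT.lf (nat_lit 0) (nat_lit 8282824774274) (nat_lit 152) (nat_lit 665925983894) (nat_lit 0) (nat_lit 1337234835492) (nat_lit 35) (nat_lit 5) (nat_lit 37) (nat_lit 4) (nat_lit 35) (nat_lit 4) (nat_lit 517) (nat_lit 479) (nat_lit 204)) (XT.lf (nat_lit 0) (nat_lit 951622883244) (nat_lit 152) (nat_lit 4966214341965) (nat_lit 76) (nat_lit 4913319838232) (nat_lit 33) (nat_lit 5) (nat_lit 35) (nat_lit 5) (nat_lit 34) (nat_lit 4) (nat_lit 518) (nat_lit 479) (nat_lit 203)))) (XT.nd (nat_lit 78) (nat_lit 76) (nat_lit 0) (XT.lf (nat_lit 0) (nat_lit 1563370109140) (nat_lit 76) (nat_lit 2527476068052) (nat_lit 152) (nat_lit 7320431292760) (nat_lit 32) (nat_lit 5) (nat_lit 33) (nat_lit 5) (nat_lit 34) (nat_lit 4) (nat_lit 519) (nat_lit 479)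 (nat_lit 202)) (XT.nd (nat_lit 78) (nat_lit 76) (nat_lit 0) (XT.lf (nat_lit 0) (nat_lit 7647794789602) (nat_lit 152) (nat_lit 3159992729404) (nat_lit 0) (nat_lit 1216692993580) (nat_lit 32) (nat_lit 5) (nat_lit 34) (nat_lit 4) (nat_lit 32) (nat_lit 4) (nat_lit 520) (nat_lit 479) (nat_lit 201)) (XT.lf (nat_lit 0) (nat_lit 4207797411074) (nat_lit 76) (nat_lit 7448348237605) (nat_lit 76) (nat_lit 1017246441340) (nat_lit 31) (nat_lit 4) (nat_lit 32) (nat_lit 5) (nat_lit 32) (nat_lit 4) (nat_lit 521) (nat_lit 479) (nat_lit 200)))))) (XT.nd (nat_lit 59514) (nat_lit 0) (nat_lit 2964) (XT.nd (nat_lit 59280) (nat_lit 0) (nat_lit 3496) (XT.nd (nat_lit 78) (nat_lit 76) (nat_lit 0) (XT.lf (nat_lit 0) (nat_lit 2568981741923) (nat_lit 152) (nat_lit 1087619773289) (nat_lit 76) (nat_lit 9705500093365) (nat_lit 30) (nat_lit 5) (nat_lit 32) (nat_lit 5) (nat_lit 31) (nat_lit 4) (nat_lit 522) (nat_lit 479)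 (nat_lit 199)) (XT.nd (nat_lit 59124) (nat_lit 0) (nat_lit 3952) (XT.lf (nat_lit 0) (nat_lit 6576412727746) (nat_lit 152) (nat_lit 6890551577903) (nat_lit 0) (nat_lit 621688841914) (nat_lit 29) (nat_lit 5) (nat_lit 31) (nat_lit 4) (nat_lit 29) (nat_lit 4) (nat_lit 523) (nat_lit 479) (nat_lit 198)) (XT.lf (nat_lit 0) (nat_lit 928886687239) (nat_lit 532) (nat_lit 14702623495) (nat_lit 532) (nat_lit 14702623495) (nat_lit 81) (nat_lit 3) (nat_lit 88) (nat_lit 3) (nat_lit 88) (nat_lit 5) (nat_lit 480) (nat_lit 480) (nat_lit 240)))) (XT.nd (nat_lit 78) (nat_lit 456) (nat_lit 0) (XT.lf (nat_lit 76) (nat_lit 969736405445) (nat_lit 0) (nat_lit 985670104681) (nat_lit 532) (nat_lit 35974937014) (nat_lit 82) (nat_lit 5) (nat_lit 81) (nat_lit 3) (nat_lit 88) (nat_lit 5) (nat_lit 481) (nat_lit 480) (nat_lit 239)) (XT.nd (nat_lit 78) (nat_lit 456) (nat_lit 0) (XT.lf (nat_lit 76) (nat_lit 2050481691573)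 (nat_lit 0) (nat_lit 11172594914) (nat_lit 532) (nat_lit 10444226440) (nat_lit 82) (nat_lit 5) (nat_lit 81) (nat_lit 3) (nat_lit 88) (nat_lit 5) (nat_lit 482) (nat_lit 480) (nat_lit 238)) (XT.lf (nat_lit 0) (nat_lit 68806266613) (nat_lit 532) (nat_lit 1069132333706) (nat_lit 608) (nat_lit 1017098652771) (nat_lit 75) (nat_lit 5) (nat_lit 82) (nat_lit 5) (nat_lit 83) (nat_lit 5) (nat_lit 483) (nat_lit 480) (nat_lit 237))))) (XT.nd (nat_lit 234) (nat_lit 532) (nat_lit 0) (XT.nd (nat_lit 78) (nat_lit 0) (nat_lit 76) (XT.lf (nat_lit 76) (nat_lit 40124309852) (nat_lit 0) (nat_lit 115569810081) (nat_lit 608) (nat_lit 2088746343819) (nat_lit 76) (nat_lit 5) (nat_lit 75) (nat_lit 5) (nat_lit 83) (nat_lit 5) (nat_lit 484) (nat_lit 480) (nat_lit 236)) (XT.nd (nat_lit 78) (nat_lit 0) (nat_lit 0) (XT.lf (nat_lit 0) (nat_lit 303299821594) (nat_lit 532) (nat_lit 1064268235403) (nat_lit 608) (nat_lit 969126528664)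 (nat_lit 76) (nat_lit 5) (nat_lit 83) (nat_lit 5) (nat_lit 84) (nat_lit 5) (nat_lit 485) (nat_lit 480) (nat_lit 235)) (XT.lf (nat_lit 76) (nat_lit 172616688074) (nat_lit 0) (nat_lit 297250538754) (nat_lit 608) (nat_lit 1965889550701) (nat_lit 77) (nat_lit 5) (nat_lit 76) (nat_lit 5) (nat_lit 84) (nat_lit 5) (nat_lit 486) (nat_lit 480) (nat_lit 234)))) (XT.nd (nat_lit 156) (nat_lit 228) (nat_lit 0) (XT.nd (nat_lit 78) (nat_lit 456) (nat_lit 0) (XT.lf (nat_lit 0) (nat_lit 700266392915) (nat_lit 532) (nat_lit 992845134609) (nat_lit 76) (nat_lit 845591907747) (nat_lit 77) (nat_lit 5) (nat_lit 84) (nat_lit 5) (nat_lit 78) (nat_lit 5) (nat_lit 487) (nat_lit 480) (nat_lit 233)) (XT.lf (nat_lit 0) (nat_lit 390907393329) (nat_lit 456) (nat_lit 575312223244) (nat_lit 532) (nat_lit 1682296439117) (nat_lit 71) (nat_lit 5) (nat_lit 77) (nat_lit 5) (nat_lit 78) (nat_lit 5) (nat_lit 488) (nat_lit 480)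 (nat_lit 232))) (XT.nd (nat_lit 78) (nat_lit 228) (nat_lit 0) (XT.lf (nat_lit 0) (nat_lit 1296497812540) (nat_lit 532) (nat_lit 839020459247) (nat_lit 76) (nat_lit 628151516802) (nat_lit 71) (nat_lit 5) (nat_lit 78) (nat_lit 5) (nat_lit 72) (nat_lit 5) (nat_lit 489) (nat_lit 480) (nat_lit 231)) (XT.lf (nat_lit 0) (nat_lit 713819780857) (nat_lit 228) (nat_lit 971489039853) (nat_lit 304) (nat_lit 1200158154889) (nat_lit 68) (nat_lit 5) (nat_lit 71) (nat_lit 5) (nat_lit 72) (nat_lit 5) (nat_lit 490) (nat_lit 480) (nat_lit 230))))))))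
noncomputable def xc239 : XT := (XT.nd (nat_lit 1950) (nat_lit 532) (nat_lit 0) (XT.nd (nat_lit 936) (nat_lit 988) (nat_lit 0) (XT.nd (nat_lit 468) (nat_lit 684) (nat_lit 0) (XT.nd (nat_lit 234) (nat_lit 456) (nat_lit 0) (XT.nd (nat_lit 78) (nat_lit 228) (nat_lit 0) (XT.lf (nat_lit 0) (nat_lit 2135631057650) (nat_lit 304) (nat_lit 584035679894) (nat_lit 76) (nat_lit 294908692177) (nat_lit 68) (nat_lit 5) (nat_lit 72) (nat_lit 5) (nat_lit 69) (nat_lit 5) (nat_lit 491) (nat_lit 480) (nat_lit 229)) (XT.nd (nat_lit 78) (nat_lit 0) (nat_lit 0) (XT.lf (nat_lit 0) (nat_lit 1163557112782) (nat_lit 228) (nat_lit 1511639017980) (nat_lit 304) (nat_lit 474559064832) (nat_lit 65) (nat_lit 5) (nat_lit 68) (nat_lit 5) (nat_lit 69) (nat_lit 5) (nat_lit 492) (nat_lit 480) (nat_lit 228)) (XT.lf (nat_lit 0) (nat_lit 3084171954494) (nat_lit 228) (nat_lit 189723024877) (nat_lit 304) (nat_lit 20576877796) (nat_lit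 65) (nat_lit 5) (nat_lit 68) (nat_lit 5) (nat_lit 69) (nat_lit 5) (nat_lit 493) (nat_lit 480) (nat_lit 227)))) (XT.nd (nat_lit 78) (nat_lit 228) (nat_lit 0) (XT.lf (nat_lit 0) (nat_lit 520354097682) (nat_lit 228) (nat_lit 1691906686416) (nat_lit 76) (nat_lit 1231671101544) (nat_lit 62) (nat_lit 5) (nat_lit 65) (nat_lit 5) (nat_lit 63) (nat_lit 5) (nat_lit 494) (nat_lit 480) (nat_lit 226)) (XT.nd (nat_lit 78) (nat_lit 0) (nat_lit 0) (XT.lf (nat_lit 0) (nat_lit 287160792232) (nat_lit 228) (nat_lit 834020489016) (nat_lit 304) (nat_lit 2482706004727) (nat_lit 59) (nat_lit 5) (nat_lit 62) (nat_lit 5) (nat_lit 63) (nat_lit 5) (nat_lit 495) (nat_lit 480) (nat_lit 225)) (XT.lf (nat_lit 0) (nat_lit 1833276153640) (nat_lit 304) (nat_lit 1269106227359) (nat_lit 76) (nat_lit 669200616204) (nat_lit 59) (nat_lit 5) (nat_lit 63) (nat_lit 5) (nat_lit 60) (nat_lit 5) (nat_lit 496) (nat_lit 480) (nat_lit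 224))))) (XT.nd (nat_lit 234) (nat_lit 304) (nat_lit 0) (XT.nd (nat_lit 78) (nat_lit 228) (nat_lit 0) (XT.lf (nat_lit 0) (nat_lit 969141155168) (nat_lit 152) (nat_lit 1678168197905) (nat_lit 228) (nat_lit 1301787353277) (nat_lit 57) (nat_lit 5) (nat_lit 59) (nat_lit 5) (nat_lit 60) (nat_lit 5) (nat_lit 497) (nat_lit 480) (nat_lit 223)) (XT.nd (nat_lit 78) (nat_lit 228) (nat_lit 0) (XT.lf (nat_lit 0) (nat_lit 3458623523049) (nat_lit 152) (nat_lit 102541298061) (nat_lit 228) (nat_lit 576870722107) (nat_lit 57) (nat_lit 5) (nat_lit 59) (nat_lit 5) (nat_lit 60) (nat_lit 5) (nat_lit 498) (nat_lit 480) (nat_lit 222)) (XT.lf (nat_lit 0) (nat_lit 281079237178) (nat_lit 228) (nat_lit 2482802659390) (nat_lit 76) (nat_lit 1570983417384) (nat_lit 54) (nat_lit 5) (nat_lit 57) (nat_lit 5) (nat_lit 55) (nat_lit 5) (nat_lit 499) (nat_lit 480) (nat_lit 221)))) (XT.nd (nat_lit 78) (nat_lit 152) (nat_lit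 0) (XT.lf (nat_lit 0) (nat_lit 63800708226) (nat_lit 152) (nat_lit 1135955131329) (nat_lit 228) (nat_lit 3344626402460) (nat_lit 52) (nat_lit 5) (nat_lit 54) (nat_lit 5) (nat_lit 55) (nat_lit 5) (nat_lit 500) (nat_lit 480) (nat_lit 220)) (XT.nd (nat_lit 78) (nat_lit 152) (nat_lit 0) (XT.lf (nat_lit 0) (nat_lit 2276538084616) (nat_lit 228) (nat_lit 1826625545307) (nat_lit 76) (nat_lit 660727973243) (nat_lit 52) (nat_lit 5) (nat_lit 55) (nat_lit 5) (nat_lit 53) (nat_lit 5) (nat_lit 501) (nat_lit 480) (nat_lit 219)) (XT.lf (nat_lit 0) (nat_lit 1063333859492) (nat_lit 152) (nat_lit 2431207582224) (nat_lit 228) (nat_lit 1502013988897) (nat_lit 50) (nat_lit 5) (nat_lit 52) (nat_lit 5) (nat_lit 53) (nat_lit 5) (nat_lit 502) (nat_lit 480) (nat_lit 218)))))) (XT.nd (nat_lit 468) (nat_lit 532) (nat_lit 0) (XT.nd (nat_lit 234) (nat_lit 152) (nat_lit 0) (XT.nd (nat_lit 78) (nat_lit 304) (nat_lit 0)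 (XT.lf (nat_lit 0) (nat_lit 4288371829131) (nat_lit 152) (nat_lit 571556417195) (nat_lit 228) (nat_lit 383908663614) (nat_lit 50) (nat_lit 5) (nat_lit 52) (nat_lit 5) (nat_lit 53) (nat_lit 5) (nat_lit 503) (nat_lit 480) (nat_lit 217)) (XT.nd (nat_lit 78) (nat_lit 152) (nat_lit 0) (XT.lf (nat_lit 0) (nat_lit 875714301730) (nat_lit 152) (nat_lit 3182627987267) (nat_lit 76) (nat_lit 1443512221715) (nat_lit 48) (nat_lit 5) (nat_lit 50) (nat_lit 5) (nat_lit 49) (nat_lit 5) (nat_lit 504) (nat_lit 480) (nat_lit 216)) (XT.lf (nat_lit 0) (nat_lit 111910398396) (nat_lit 152) (nat_lit 2147795391742) (nat_lit 228) (nat_lit 3516462819094) (nat_lit 46) (nat_lit 5) (nat_lit 48) (nat_lit 5) (nat_lit 49) (nat_lit 5) (nat_lit 505) (nat_lit 480) (nat_lit 215)))) (XT.nd (nat_lit 78) (nat_lit 152) (nat_lit 0) (XT.lf (nat_lit 0) (nat_lit 3841665576018) (nat_lit 228) (nat_lit 2214685902315) (nat_lit 76) (nat_lit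 9096439030) (nat_lit 46) (nat_lit 5) (nat_lit 49) (nat_lit 5) (nat_lit 47) (nat_lit 4) (nat_lit 506) (nat_lit 480) (nat_lit 214)) (XT.nd (nat_lit 78) (nat_lit 76) (nat_lit 0) (XT.lf (nat_lit 0) (nat_lit 1531686456772) (nat_lit 76) (nat_lit 4111119676966) (nat_lit 152) (nat_lit 727653517286) (nat_lit 45) (nat_lit 5) (nat_lit 46) (nat_lit 5) (nat_lit 47) (nat_lit 4) (nat_lit 507) (nat_lit 480) (nat_lit 213)) (XT.lf (nat_lit 0) (nat_lit 905862225102) (nat_lit 152) (nat_lit 1014241515824) (nat_lit 76) (nat_lit 4773089649830) (nat_lit 44) (nat_lit 5) (nat_lit 46) (nat_lit 5) (nat_lit 45) (nat_lit 5) (nat_lit 508) (nat_lit 480) (nat_lit 212))))) (XT.nd (nat_lit 234) (nat_lit 304) (nat_lit 0) (XT.nd (nat_lit 78) (nat_lit 76) (nat_lit 0) (XT.lf (nat_lit 0) (nat_lit 2722419628601) (nat_lit 228) (nat_lit 3786765601342) (nat_lit 76) (nat_lit 523714785076) (nat_lit 42) (nat_lit 5) (nat_lit 45) (nat_lit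 5) (nat_lit 43) (nat_lit 4) (nat_lit 509) (nat_lit 480) (nat_lit 211)) (XT.nd (nat_lit 78) (nat_lit 0) (nat_lit 0) (XT.lf (nat_lit 0) (nat_lit 480921058927) (nat_lit 76) (nat_lit 4293271002839) (nat_lit 152) (nat_lit 2618399872466) (nat_lit 41) (nat_lit 5) (nat_lit 42) (nat_lit 5) (nat_lit 43) (nat_lit 4) (nat_lit 510) (nat_lit 480) (nat_lit 210)) (XT.lf (nat_lit 0) (nat_lit 5305379366435) (nat_lit 76) (nat_lit 1788263805028) (nat_lit 152) (nat_lit 679133084968) (nat_lit 41) (nat_lit 5) (nat_lit 42) (nat_lit 5) (nat_lit 43) (nat_lit 4) (nat_lit 511) (nat_lit 480) (nat_lit 209)))) (XT.nd (nat_lit 156) (nat_lit 152) (nat_lit 0) (XT.nd (nat_lit 78) (nat_lit 0) (nat_lit 0) (XT.lf (nat_lit 0) (nat_lit 1427116902019) (nat_lit 152) (nat_lit 5781039835301) (nat_lit 76) (nat_lit 965884423483) (nat_lit 39) (nat_lit 5) (nat_lit 41) (nat_lit 5) (nat_lit 40) (nat_lit 4) (nat_lit 512) (nat_lit 480) (nat_lit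 208)) (XT.lf (nat_lit 0) (nat_lit 3780839761096) (nat_lit 152) (nat_lit 885296288945) (nat_lit 76) (nat_lit 3930606925888) (nat_lit 39) (nat_lit 5) (nat_lit 41) (nat_lit 5) (nat_lit 40) (nat_lit 4) (nat_lit 513) (nat_lit 480) (nat_lit 207))) (XT.nd (nat_lit 78) (nat_lit 76) (nat_lit 0) (XT.lf (nat_lit 0) (nat_lit 4633913880254) (nat_lit 76) (nat_lit 1800392308576) (nat_lit 152) (nat_lit 2610039088243) (nat_lit 38) (nat_lit 5) (nat_lit 39) (nat_lit 5) (nat_lit 40) (nat_lit 4) (nat_lit 514) (nat_lit 480) (nat_lit 206)) (XT.lf (nat_lit 0) (nat_lit 1144686862746) (nat_lit 76) (nat_lit 8238862523846) (nat_lit 76) (nat_lit 137526419250) (nat_lit 37) (nat_lit 4) (nat_lit 38) (nat_lit 5) (nat_lit 38) (nat_lit 4) (nat_lit 515) (nat_lit 480) (nat_lit 205))))))) (XT.nd (nat_lit 60138) (nat_lit 0) (nat_lit 2052) (XT.nd (nat_lit 468) (nat_lit 152) (nat_lit 0) (XT.nd (nat_lit 234) (nat_lit 228) (nat_lit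 0) (XT.nd (nat_lit 78) (nat_lit 76) (nat_lit 0) (XT.lf (nat_lit 0) (nat_lit 2576571615190) (nat_lit 152) (nat_lit 2742067145386) (nat_lit 76) (nat_lit 4698794158475) (nat_lit 36) (nat_lit 5) (nat_lit 38) (nat_lit 5) (nat_lit 37) (nat_lit 4) (nat_lit 516) (nat_lit 480) (nat_lit 204)) (XT.nd (nat_lit 78) (nat_lit 0) (nat_lit 0) (XT.lf (nat_lit 0) (nat_lit 3515276656070) (nat_lit 76) (nat_lit 2069633325376) (nat_lit 152) (nat_lit 4961539451662) (nat_lit 35) (nat_lit 5) (nat_lit 36) (nat_lit 5) (nat_lit 37) (nat_lit 4) (nat_lit 517) (nat_lit 480) (nat_lit 203)) (XT.lf (nat_lit 0) (nat_lit 8945450762131) (nat_lit 152) (nat_lit 719200051296) (nat_lit 0) (nat_lit 1444213627252) (nat_lit 35) (nat_lit 5) (nat_lit 37) (nat_lit 4) (nat_lit 35) (nat_lit 4) (nat_lit 518) (nat_lit 480) (nat_lit 202)))) (XT.nd (nat_lit 78) (nat_lit 76) (nat_lit 0) (XT.lf (nat_lit 0) (nat_lit 1027752719795) (nat_lit 152)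 (nat_lit 5363511477988) (nat_lit 76) (nat_lit 5306385430261) (nat_lit 33) (nat_lit 5) (nat_lit 35) (nat_lit 5) (nat_lit 34) (nat_lit 4) (nat_lit 519) (nat_lit 480) (nat_lit 201)) (XT.nd (nat_lit 78) (nat_lit 0) (nat_lit 0) (XT.lf (nat_lit 0) (nat_lit 1688439728917) (nat_lit 76) (nat_lit 2729674148170) (nat_lit 152) (nat_lit 7906065790002) (nat_lit 32) (nat_lit 5) (nat_lit 33) (nat_lit 5) (nat_lit 34) (nat_lit 4) (nat_lit 520) (nat_lit 480) (nat_lit 200)) (XT.lf (nat_lit 0) (nat_lit 8259618378186) (nat_lit 152) (nat_lit 3412792137223) (nat_lit 0) (nat_lit 1314028437751) (nat_lit 32) (nat_lit 5) (nat_lit 34) (nat_lit 4) (nat_lit 32) (nat_lit 4) (nat_lit 521) (nat_lit 480) (nat_lit 199))))) (XT.nd (nat_lit 59358) (nat_lit 0) (nat_lit 3420) (XT.nd (nat_lit 78) (nat_lit 76) (nat_lit 0) (XT.lf (nat_lit 0) (nat_lit 4544421214227) (nat_lit 76) (nat_lit 8044216091608) (nat_lit 76) (nat_lit 1098626150965)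 (nat_lit 31) (nat_lit 4) (nat_lit 32) (nat_lit 5) (nat_lit 32) (nat_lit 4) (nat_lit 522) (nat_lit 480) (nat_lit 198)) (XT.nd (nat_lit 59202) (nat_lit 0) (nat_lit 3876) (XT.lf (nat_lit 0) (nat_lit 2774500286275) (nat_lit 152) (nat_lit 1174629345383) (nat_lit 76) (nat_lit 10481940105205) (nat_lit 30) (nat_lit 5) (nat_lit 32) (nat_lit 5) (nat_lit 31) (nat_lit 4) (nat_lit 523) (nat_lit 480) (nat_lit 197)) (XT.lf (nat_lit 0) (nat_lit 1003197638610) (nat_lit 532) (nat_lit 15878824521) (nat_lit 532) (nat_lit 15878824521) (nat_lit 81) (nat_lit 3) (nat_lit 88) (nat_lit 3) (nat_lit 88) (nat_lit 5) (nat_lit 481) (nat_lit 481) (nat_lit 238)))) (XT.nd (nat_lit 156) (nat_lit 456) (nat_lit 0) (XT.nd (nat_lit 78) (nat_lit 0) (nat_lit 0) (XT.lf (nat_lit 76) (nat_lit 1047315335141) (nat_lit 0) (nat_lit 1064523726567) (nat_lit 532) (nat_lit 38852898733) (nat_lit 82) (nat_lit 5) (nat_lit 81) (nat_lit 3) (nat_lit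 88) (nat_lit 5) (nat_lit 482) (nat_lit 481) (nat_lit 237)) (XT.lf (nat_lit 76) (nat_lit 2214520242880) (nat_lit 0) (nat_lit 12066415018) (nat_lit 532) (nat_lit 11279733776) (nat_lit 82) (nat_lit 5) (nat_lit 81) (nat_lit 3) (nat_lit 88) (nat_lit 5) (nat_lit 483) (nat_lit 481) (nat_lit 236))) (XT.nd (nat_lit 78) (nat_lit 0) (nat_lit 0) (XT.lf (nat_lit 0) (nat_lit 74310795176) (nat_lit 532) (nat_lit 1154662900863) (nat_lit 608) (nat_lit 1098466535113) (nat_lit 75) (nat_lit 5) (nat_lit 82) (nat_lit 5) (nat_lit 83) (nat_lit 5) (nat_lit 484) (nat_lit 481) (nat_lit 235)) (XT.lf (nat_lit 76) (nat_lit 43334273685) (nat_lit 0) (nat_lit 124815401518) (nat_lit 608) (nat_lit 2255846023589) (nat_lit 76) (nat_lit 5) (nat_lit 75) (nat_lit 5) (nat_lit 83) (nat_lit 5) (nat_lit 485) (nat_lit 481) (nat_lit 234)))))) (XT.nd (nat_lit 468) (nat_lit 836) (nat_lit 0) (XT.nd (nat_lit 234) (nat_lit 608) (nat_lit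 0) (XT.nd (nat_lit 78) (nat_lit 0) (nat_lit 0) (XT.lf (nat_lit 0) (nat_lit 327563830947) (nat_lit 532) (nat_lit 1149409674546) (nat_lit 608) (nat_lit 1046656645126) (nat_lit 76) (nat_lit 5) (nat_lit 83) (nat_lit 5) (nat_lit 84) (nat_lit 5) (nat_lit 486) (nat_lit 481) (nat_lit 233)) (XT.nd (nat_lit 78) (nat_lit 0) (nat_lit 76) (XT.lf (nat_lit 76) (nat_lit 186426042311) (nat_lit 0) (nat_lit 321030585001) (nat_lit 608) (nat_lit 2123160690628) (nat_lit 77) (nat_lit 5) (nat_lit 76) (nat_lit 5) (nat_lit 84) (nat_lit 5) (nat_lit 487) (nat_lit 481) (nat_lit 232)) (XT.lf (nat_lit 0) (nat_lit 756287724961) (nat_lit 532) (nat_lit 1072272725879) (nat_lit 76) (nat_lit 913239257599) (nat_lit 77) (nat_lit 5) (nat_lit 84) (nat_lit 5) (nat_lit 78) (nat_lit 5) (nat_lit 488) (nat_lit 481) (nat_lit 231)))) (XT.nd (nat_lit 78) (nat_lit 228) (nat_lit 0) (XT.lf (nat_lit 0) (nat_lit 422180003800) (nat_lit 456)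 (nat_lit 621337201641) (nat_lit 532) (nat_lit 1816880133136) (nat_lit 71) (nat_lit 5) (nat_lit 77) (nat_lit 5) (nat_lit 78) (nat_lit 5) (nat_lit 489) (nat_lit 481) (nat_lit 230)) (XT.nd (nat_lit 78) (nat_lit 228) (nat_lit 0) (XT.lf (nat_lit 0) (nat_lit 1400217655627) (nat_lit 532) (nat_lit 906142076926) (nat_lit 76) (nat_lit 678403637674) (nat_lit 71) (nat_lit 5) (nat_lit 78) (nat_lit 5) (nat_lit 72) (nat_lit 5) (nat_lit 490) (nat_lit 481) (nat_lit 229)) (XT.lf (nat_lit 0) (nat_lit 770925381904) (nat_lit 228) (nat_lit 1049208161654) (nat_lit 304) (nat_lit 1296170788711) (nat_lit 68) (nat_lit 5) (nat_lit 71) (nat_lit 5) (nat_lit 72) (nat_lit 5) (nat_lit 491) (nat_lit 481) (nat_lit 228))))) (XT.nd (nat_lit 234) (nat_lit 608) (nat_lit 0) (XT.nd (nat_lit 78) (nat_lit 228) (nat_lit 0) (XT.lf (nat_lit 0) (nat_lit 2306481558210) (nat_lit 304) (nat_lit 630758515837) (nat_lit 76) (nat_lit 318501388772)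 (nat_lit 68) (nat_lit 5) (nat_lit 72) (nat_lit 5) (nat_lit 69) (nat_lit 5) (nat_lit 492) (nat_lit 481) (nat_lit 227)) (XT.nd (nat_lit 78) (nat_lit 0) (nat_lit 0) (XT.lf (nat_lit 0) (nat_lit 1256641699786) (nat_lit 228) (nat_lit 1632570136636) (nat_lit 304) (nat_lit 512523773601) (nat_lit 65) (nat_lit 5) (nat_lit 68) (nat_lit 5) (nat_lit 69) (nat_lit 5) (nat_lit 493) (nat_lit 481) (nat_lit 226)) (XT.lf (nat_lit 0) (nat_lit 3330905727502) (nat_lit 228) (nat_lit 204900864291) (nat_lit 304) (nat_lit 22223012818) (nat_lit 65) (nat_lit 5) (nat_lit 68) (nat_lit 5) (nat_lit 69) (nat_lit 5) (nat_lit 494) (nat_lit 481) (nat_lit 225)))) (XT.nd (nat_lit 156) (nat_lit 152) (nat_lit 0) (XT.nd (nat_lit 78) (nat_lit 228) (nat_lit 0) (XT.lf (nat_lit 0) (nat_lit 561982439354) (nat_lit 228) (nat_lit 1827259203330) (nat_lit 76) (nat_lit 1330204792699) (nat_lit 62) (nat_lit 5) (nat_lit 65) (nat_lit 5) (nat_lit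 63) (nat_lit 5) (nat_lit 495) (nat_lit 481) (nat_lit 224)) (XT.lf (nat_lit 0) (nat_lit 310133673155) (nat_lit 228) (nat_lit 900742123845) (nat_lit 304) (nat_lit 2681322470791) (nat_lit 59) (nat_lit 5) (nat_lit 62) (nat_lit 5) (nat_lit 63) (nat_lit 5) (nat_lit 496) (nat_lit 481) (nat_lit 223))) (XT.nd (nat_lit 78) (nat_lit 152) (nat_lit 0) (XT.lf (nat_lit 0) (nat_lit 1979938258298) (nat_lit 304) (nat_lit 1370634708415) (nat_lit 76) (nat_lit 722736669275) (nat_lit 59) (nat_lit 5) (nat_lit 63) (nat_lit 5) (nat_lit 60) (nat_lit 5) (nat_lit 497) (nat_lit 481) (nat_lit 222)) (XT.lf (nat_lit 0) (nat_lit 1046672464281) (nat_lit 152) (nat_lit 1812421648890) (nat_lit 228) (nat_lit 1405930328737) (nat_lit 57) (nat_lit 5) (nat_lit 59) (nat_lit 5) (nat_lit 60) (nat_lit 5) (nat_lit 498) (nat_lit 481) (nat_lit 221))))))))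
noncomputable def xc240 : XT := (XT.nd (nat_lit 61152) (nat_lit 0) (nat_lit 1292) (XT.nd (nat_lit 936) (nat_lit 836) (nat_lit 0) (XT.nd (nat_lit 468) (nat_lit 608) (nat_lit 0) (XT.nd (nat_lit 234) (nat_lit 152) (nat_lit 0) (XT.nd (nat_lit 78) (nat_lit 380) (nat_lit 0) (XT.lf (nat_lit 0) (nat_lit 3735313420355) (nat_lit 152) (nat_lit 110744597417) (nat_lit 228) (nat_lit 623020368022) (nat_lit 57) (nat_lit 5) (nat_lit 59) (nat_lit 5) (nat_lit 60) (nat_lit 5) (nat_lit 499) (nat_lit 481) (nat_lit 220)) (XT.nd (nat_lit 78) (nat_lit 152) (nat_lit 0) (XT.lf (nat_lit 0) (nat_lit 303565587072) (nat_lit 228) (nat_lit 2681426855741) (nat_lit 76) (nat_lit 1696662095379) (nat_lit 54) (nat_lit 5) (nat_lit 57) (nat_lit 5) (nat_lit 55) (nat_lit 5) (nat_lit 500) (nat_lit 481) (nat_lit 219)) (XT.lf (nat_lit 0) (nat_lit 68904780868) (nat_lit 152) (nat_lit 1226831536346) (nat_lit 228) (nat_lit 3612196503321)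 (nat_lit 52) (nat_lit 5) (nat_lit 54) (nat_lit 5) (nat_lit 55) (nat_lit 5) (nat_lit 501) (nat_lit 481) (nat_lit 218)))) (XT.nd (nat_lit 78) (nat_lit 152) (nat_lit 0) (XT.lf (nat_lit 0) (nat_lit 2458661141225) (nat_lit 228) (nat_lit 1972755573475) (nat_lit 76) (nat_lit 713586215931) (nat_lit 52) (nat_lit 5) (nat_lit 55) (nat_lit 5) (nat_lit 53) (nat_lit 5) (nat_lit 502) (nat_lit 481) (nat_lit 217)) (XT.nd (nat_lit 78) (nat_lit 0) (nat_lit 0) (XT.lf (nat_lit 0) (nat_lit 1148400583317) (nat_lit 152) (nat_lit 2625704183210) (nat_lit 228) (nat_lit 1622175097777) (nat_lit 50) (nat_lit 5) (nat_lit 52) (nat_lit 5) (nat_lit 53) (nat_lit 5) (nat_lit 503) (nat_lit 481) (nat_lit 216)) (XT.lf (nat_lit 0) (nat_lit 4631441589412) (nat_lit 152) (nat_lit 617280925393) (nat_lit 228) (nat_lit 414621347229) (nat_lit 50) (nat_lit 5) (nat_lit 52) (nat_lit 5) (nat_lit 53) (nat_lit 5) (nat_lit 504) (nat_lit 481)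 (nat_lit 215))))) (XT.nd (nat_lit 234) (nat_lit 304) (nat_lit 0) (XT.nd (nat_lit 78) (nat_lit 152) (nat_lit 0) (XT.lf (nat_lit 0) (nat_lit 945771454671) (nat_lit 152) (nat_lit 3437238211624) (nat_lit 76) (nat_lit 1558993204570) (nat_lit 48) (nat_lit 5) (nat_lit 50) (nat_lit 5) (nat_lit 49) (nat_lit 5) (nat_lit 505) (nat_lit 481) (nat_lit 214)) (XT.nd (nat_lit 78) (nat_lit 0) (nat_lit 0) (XT.lf (nat_lit 0) (nat_lit 120863244523) (nat_lit 152) (nat_lit 2319619017319) (nat_lit 228) (nat_lit 3797779835449) (nat_lit 46) (nat_lit 5) (nat_lit 48) (nat_lit 5) (nat_lit 49) (nat_lit 5) (nat_lit 506) (nat_lit 481) (nat_lit 213)) (XT.lf (nat_lit 0) (nat_lit 4148998830091) (nat_lit 228) (nat_lit 2391860760800) (nat_lit 76) (nat_lit 9824159220) (nat_lit 46) (nat_lit 5) (nat_lit 49) (nat_lit 5) (nat_lit 47) (nat_lit 4) (nat_lit 507) (nat_lit 481) (nat_lit 212)))) (XT.nd (nat_lit 78) (nat_lit 228) (nat_lit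 0) (XT.lf (nat_lit 0) (nat_lit 1654221386667) (nat_lit 76) (nat_lit 4440009245491) (nat_lit 152) (nat_lit 785865790329) (nat_lit 45) (nat_lit 5) (nat_lit 46) (nat_lit 5) (nat_lit 47) (nat_lit 4) (nat_lit 508) (nat_lit 481) (nat_lit 211)) (XT.nd (nat_lit 78) (nat_lit 152) (nat_lit 0) (XT.lf (nat_lit 0) (nat_lit 978331210446) (nat_lit 152) (nat_lit 1095380824339) (nat_lit 76) (nat_lit 5154936826645) (nat_lit 44) (nat_lit 5) (nat_lit 46) (nat_lit 5) (nat_lit 45) (nat_lit 5) (nat_lit 509) (nat_lit 481) (nat_lit 210)) (XT.lf (nat_lit 0) (nat_lit 2940213206108) (nat_lit 228) (nat_lit 4089706836581) (nat_lit 76) (nat_lit 565611972953) (nat_lit 42) (nat_lit 5) (nat_lit 45) (nat_lit 5) (nat_lit 43) (nat_lit 4) (nat_lit 510) (nat_lit 481) (nat_lit 209)))))) (XT.nd (nat_lit 468) (nat_lit 456) (nat_lit 0) (XT.nd (nat_lit 234) (nat_lit 152) (nat_lit 0) (XT.nd (nat_lit 78) (nat_lit 152) (nat_lit 0) (XT.lf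 (nat_lit 0) (nat_lit 519394756184) (nat_lit 76) (nat_lit 4636732677510) (nat_lit 152) (nat_lit 2827871854717) (nat_lit 41) (nat_lit 5) (nat_lit 42) (nat_lit 5) (nat_lit 43) (nat_lit 4) (nat_lit 511) (nat_lit 481) (nat_lit 208)) (XT.nd (nat_lit 78) (nat_lit 152) (nat_lit 0) (XT.lf (nat_lit 0) (nat_lit 5729809727363) (nat_lit 76) (nat_lit 1931324904285) (nat_lit 152) (nat_lit 733463724779) (nat_lit 41) (nat_lit 5) (nat_lit 42) (nat_lit 5) (nat_lit 43) (nat_lit 4) (nat_lit 512) (nat_lit 481) (nat_lit 207)) (XT.lf (nat_lit 0) (nat_lit 1541286260732) (nat_lit 152) (nat_lit 6243523010076) (nat_lit 76) (nat_lit 1043155182334) (nat_lit 39) (nat_lit 5) (nat_lit 41) (nat_lit 5) (nat_lit 40) (nat_lit 4) (nat_lit 513) (nat_lit 481) (nat_lit 206)))) (XT.nd (nat_lit 78) (nat_lit 152) (nat_lit 0) (XT.lf (nat_lit 0) (nat_lit 4083306948050) (nat_lit 152) (nat_lit 956119980904) (nat_lit 76) (nat_lit 4245055484563)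 (nat_lit 39) (nat_lit 5) (nat_lit 41) (nat_lit 5) (nat_lit 40) (nat_lit 4) (nat_lit 514) (nat_lit 481) (nat_lit 205)) (XT.nd (nat_lit 78) (nat_lit 76) (nat_lit 0) (XT.lf (nat_lit 0) (nat_lit 5004627001548) (nat_lit 76) (nat_lit 1944423688266) (nat_lit 152) (nat_lit 2818842208953) (nat_lit 38) (nat_lit 5) (nat_lit 39) (nat_lit 5) (nat_lit 40) (nat_lit 4) (nat_lit 515) (nat_lit 481) (nat_lit 204)) (XT.lf (nat_lit 0) (nat_lit 1236261822706) (nat_lit 76) (nat_lit 8897971520631) (nat_lit 76) (nat_lit 148528526507) (nat_lit 37) (nat_lit 4) (nat_lit 38) (nat_lit 5) (nat_lit 38) (nat_lit 4) (nat_lit 516) (nat_lit 481) (nat_lit 203))))) (XT.nd (nat_lit 234) (nat_lit 304) (nat_lit 0) (XT.nd (nat_lit 78) (nat_lit 76) (nat_lit 0) (XT.lf (nat_lit 0) (nat_lit 2782697349932) (nat_lit 152) (nat_lit 2961432506595) (nat_lit 76) (nat_lit 5074697695605) (nat_lit 36) (nat_lit 5) (nat_lit 38) (nat_lit 5) (nat_lit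 37) (nat_lit 4) (nat_lit 517) (nat_lit 481) (nat_lit 202)) (XT.nd (nat_lit 78) (nat_lit 0) (nat_lit 0) (XT.lf (nat_lit 0) (nat_lit 3796498798713) (nat_lit 76) (nat_lit 2235203986611) (nat_lit 152) (nat_lit 5358462602004) (nat_lit 35) (nat_lit 5) (nat_lit 36) (nat_lit 5) (nat_lit 37) (nat_lit 4) (nat_lit 518) (nat_lit 481) (nat_lit 201)) (XT.lf (nat_lit 0) (nat_lit 9661086828173) (nat_lit 152) (nat_lit 776736045704) (nat_lit 0) (nat_lit 1559750721650) (nat_lit 35) (nat_lit 5) (nat_lit 37) (nat_lit 4) (nat_lit 35) (nat_lit 4) (nat_lit 519) (nat_lit 481) (nat_lit 200)))) (XT.nd (nat_lit 156) (nat_lit 76) (nat_lit 0) (XT.nd (nat_lit 78) (nat_lit 76) (nat_lit 0) (XT.lf (nat_lit 0) (nat_lit 1109972942430) (nat_lit 152) (nat_lit 5792592386511) (nat_lit 76) (nat_lit 5730896268943) (nat_lit 33) (nat_lit 5) (nat_lit 35) (nat_lit 5) (nat_lit 34) (nat_lit 4) (nat_lit 520) (nat_lit 481) (nat_lit 199))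 (XT.lf (nat_lit 0) (nat_lit 1823514916701) (nat_lit 76) (nat_lit 2948048075458) (nat_lit 152) (nat_lit 8538551047905) (nat_lit 32) (nat_lit 5) (nat_lit 33) (nat_lit 5) (nat_lit 34) (nat_lit 4) (nat_lit 521) (nat_lit 481) (nat_lit 198))) (XT.nd (nat_lit 78) (nat_lit 76) (nat_lit 0) (XT.lf (nat_lit 0) (nat_lit 8920387853084) (nat_lit 152) (nat_lit 3685815499170) (nat_lit 0) (nat_lit 1419150716787) (nat_lit 32) (nat_lit 5) (nat_lit 34) (nat_lit 4) (nat_lit 32) (nat_lit 4) (nat_lit 522) (nat_lit 481) (nat_lit 197)) (XT.lf (nat_lit 0) (nat_lit 4907974920167) (nat_lit 76) (nat_lit 8687753374646) (nat_lit 76) (nat_lit 1186516238170) (nat_lit 31) (nat_lit 4) (nat_lit 32) (nat_lit 5) (nat_lit 32) (nat_lit 4) (nat_lit 523) (nat_lit 481) (nat_lit 196))))))) (XT.nd (nat_lit 936) (nat_lit 1520) (nat_lit 0) (XT.nd (nat_lit 468) (nat_lit 532) (nat_lit 0) (XT.nd (nat_lit 234) (nat_lit 456) (nat_lit 0)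 (XT.nd (nat_lit 78) (nat_lit 0) (nat_lit 0) (XT.lf (nat_lit 0) (nat_lit 1083453463753) (nat_lit 532) (nat_lit 17149122891) (nat_lit 532) (nat_lit 17149122891) (nat_lit 81) (nat_lit 3) (nat_lit 88) (nat_lit 3) (nat_lit 88) (nat_lit 5) (nat_lit 482) (nat_lit 482) (nat_lit 236)) (XT.nd (nat_lit 78) (nat_lit 0) (nat_lit 0) (XT.lf (nat_lit 76) (nat_lit 1131100576750) (nat_lit 0) (nat_lit 1149685636277) (nat_lit 532) (nat_lit 41961102133) (nat_lit 82) (nat_lit 5) (nat_lit 81) (nat_lit 3) (nat_lit 88) (nat_lit 5) (nat_lit 483) (nat_lit 482) (nat_lit 235)) (XT.lf (nat_lit 76) (nat_lit 2391681876012) (nat_lit 0) (nat_lit 13031738945) (nat_lit 532) (nat_lit 12182086089) (nat_lit 82) (nat_lit 5) (nat_lit 81) (nat_lit 3) (nat_lit 88) (nat_lit 5) (nat_lit 484) (nat_lit 482) (nat_lit 234)))) (XT.nd (nat_lit 78) (nat_lit 0) (nat_lit 0) (XT.lf (nat_lit 0) (nat_lit 80255682140) (nat_lit 532) (nat_lit 1247035916180)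 (nat_lit 608) (nat_lit 1186343849451) (nat_lit 75) (nat_lit 5) (nat_lit 82) (nat_lit 5) (nat_lit 83) (nat_lit 5) (nat_lit 485) (nat_lit 482) (nat_lit 233)) (XT.nd (nat_lit 78) (nat_lit 0) (nat_lit 76) (XT.lf (nat_lit 76) (nat_lit 46801031908) (nat_lit 0) (nat_lit 134800639323) (nat_lit 608) (nat_lit 2436313681698) (nat_lit 76) (nat_lit 5) (nat_lit 75) (nat_lit 5) (nat_lit 83) (nat_lit 5) (nat_lit 486) (nat_lit 482) (nat_lit 232)) (XT.lf (nat_lit 0) (nat_lit 353768957678) (nat_lit 532) (nat_lit 1241362431629) (nat_lit 608) (nat_lit 1130389171736) (nat_lit 76) (nat_lit 5) (nat_lit 83) (nat_lit 5) (nat_lit 84) (nat_lit 5) (nat_lit 487) (nat_lit 482) (nat_lit 231))))) (XT.nd (nat_lit 234) (nat_lit 228) (nat_lit 0) (XT.nd (nat_lit 78) (nat_lit 380) (nat_lit 0) (XT.lf (nat_lit 76) (nat_lit 201340142149) (nat_lit 0) (nat_lit 346713034498) (nat_lit 608) (nat_lit 2293013525191) (nat_lit 77) (nat_lit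 5) (nat_lit 76) (nat_lit 5) (nat_lit 84) (nat_lit 5) (nat_lit 488) (nat_lit 482) (nat_lit 230)) (XT.nd (nat_lit 78) (nat_lit 456) (nat_lit 0) (XT.lf (nat_lit 0) (nat_lit 816790760630) (nat_lit 532) (nat_lit 1158054527232) (nat_lit 76) (nat_lit 986298395834) (nat_lit 77) (nat_lit 5) (nat_lit 84) (nat_lit 5) (nat_lit 78) (nat_lit 5) (nat_lit 489) (nat_lit 482) (nat_lit 229)) (XT.lf (nat_lit 0) (nat_lit 455954420398) (nat_lit 456) (nat_lit 671044178233) (nat_lit 532) (nat_lit 1962230525688) (nat_lit 71) (nat_lit 5) (nat_lit 77) (nat_lit 5) (nat_lit 78) (nat_lit 5) (nat_lit 490) (nat_lit 482) (nat_lit 228)))) (XT.nd (nat_lit 78) (nat_lit 228) (nat_lit 0) (XT.lf (nat_lit 0) (nat_lit 1512235083580) (nat_lit 532) (nat_lit 978633426738) (nat_lit 76) (nat_lit 732675928282) (nat_lit 71) (nat_lit 5) (nat_lit 78) (nat_lit 5) (nat_lit 72) (nat_lit 5) (nat_lit 491) (nat_lit 482) (nat_lit 227)) (XT.nd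 (nat_lit 78) (nat_lit 0) (nat_lit 0) (XT.lf (nat_lit 0) (nat_lit 832599428384) (nat_lit 228) (nat_lit 1133144813396) (nat_lit 304) (nat_lit 1399864435888) (nat_lit 68) (nat_lit 5) (nat_lit 71) (nat_lit 5) (nat_lit 72) (nat_lit 5) (nat_lit 492) (nat_lit 482) (nat_lit 226)) (XT.lf (nat_lit 0) (nat_lit 2491000096539) (nat_lit 304) (nat_lit 681219181288) (nat_lit 76) (nat_lit 343981500920) (nat_lit 68) (nat_lit 5) (nat_lit 72) (nat_lit 5) (nat_lit 69) (nat_lit 5) (nat_lit 493) (nat_lit 482) (nat_lit 225)))))) (XT.nd (nat_lit 468) (nat_lit 684) (nat_lit 0) (XT.nd (nat_lit 234) (nat_lit 380) (nat_lit 0) (XT.nd (nat_lit 78) (nat_lit 228) (nat_lit 0) (XT.lf (nat_lit 0) (nat_lit 1357173051185) (nat_lit 228) (nat_lit 1763175745182) (nat_lit 304) (nat_lit 553525661413) (nat_lit 65) (nat_lit 5) (nat_lit 68) (nat_lit 5) (nat_lit 69) (nat_lit 5) (nat_lit 494) (nat_lit 482) (nat_lit 224)) (XT.nd (nat_lit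 78) (nat_lit 228) (nat_lit 0) (XT.lf (nat_lit 0) (nat_lit 3597378199976) (nat_lit 228) (nat_lit 221292931226) (nat_lit 304) (nat_lit 24000840810) (nat_lit 65) (nat_lit 5) (nat_lit 68) (nat_lit 5) (nat_lit 69) (nat_lit 5) (nat_lit 495) (nat_lit 482) (nat_lit 223)) (XT.lf (nat_lit 0) (nat_lit 606941046382) (nat_lit 228) (nat_lit 1973439924164) (nat_lit 76) (nat_lit 1436621178715) (nat_lit 62) (nat_lit 5) (nat_lit 65) (nat_lit 5) (nat_lit 63) (nat_lit 5) (nat_lit 496) (nat_lit 482) (nat_lit 222)))) (XT.nd (nat_lit 78) (nat_lit 152) (nat_lit 0) (XT.lf (nat_lit 0) (nat_lit 334944382049) (nat_lit 228) (nat_lit 972801490073) (nat_lit 304) (nat_lit 2895828256181) (nat_lit 59) (nat_lit 5) (nat_lit 62) (nat_lit 5) (nat_lit 63) (nat_lit 5) (nat_lit 497) (nat_lit 482) (nat_lit 221)) (XT.nd (nat_lit 78) (nat_lit 152) (nat_lit 0) (XT.lf (nat_lit 0) (nat_lit 2138333329564) (nat_lit 304) (nat_lit 1480285470400)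 (nat_lit 76) (nat_lit 780555606054) (nat_lit 59) (nat_lit 5) (nat_lit 63) (nat_lit 5) (nat_lit 60) (nat_lit 5) (nat_lit 498) (nat_lit 482) (nat_lit 220)) (XT.lf (nat_lit 0) (nat_lit 1130406275740) (nat_lit 152) (nat_lit 1957415376645) (nat_lit 228) (nat_lit 1518404744061) (nat_lit 57) (nat_lit 5) (nat_lit 59) (nat_lit 5) (nat_lit 60) (nat_lit 5) (nat_lit 499) (nat_lit 482) (nat_lit 219))))) (XT.nd (nat_lit 234) (nat_lit 304) (nat_lit 0) (XT.nd (nat_lit 78) (nat_lit 380) (nat_lit 0) (XT.lf (nat_lit 0) (nat_lit 4034138507239) (nat_lit 152) (nat_lit 119604161363) (nat_lit 228) (nat_lit 672861987301) (nat_lit 57) (nat_lit 5) (nat_lit 59) (nat_lit 5) (nat_lit 60) (nat_lit 5) (nat_lit 500) (nat_lit 482) (nat_lit 218)) (XT.nd (nat_lit 78) (nat_lit 152) (nat_lit 0) (XT.lf (nat_lit 0) (nat_lit 327850843399) (nat_lit 228) (nat_lit 2895940990141) (nat_lit 76) (nat_lit 1832395066958) (nat_lit 54) (nat_lit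 5) (nat_lit 57) (nat_lit 5) (nat_lit 55) (nat_lit 5) (nat_lit 501) (nat_lit 482) (nat_lit 217)) (XT.lf (nat_lit 0) (nat_lit 74417177042) (nat_lit 152) (nat_lit 1324978054548) (nat_lit 228) (nat_lit 3901172213868) (nat_lit 52) (nat_lit 5) (nat_lit 54) (nat_lit 5) (nat_lit 55) (nat_lit 5) (nat_lit 502) (nat_lit 482) (nat_lit 216)))) (XT.nd (nat_lit 156) (nat_lit 152) (nat_lit 0) (XT.nd (nat_lit 78) (nat_lit 152) (nat_lit 0) (XT.lf (nat_lit 0) (nat_lit 2655354040959) (nat_lit 228) (nat_lit 2130576006101) (nat_lit 76) (nat_lit 770673117345) (nat_lit 52) (nat_lit 5) (nat_lit 55) (nat_lit 5) (nat_lit 53) (nat_lit 5) (nat_lit 503) (nat_lit 482) (nat_lit 215)) (XT.lf (nat_lit 0) (nat_lit 1240272642898) (nat_lit 152) (nat_lit 2835760513072) (nat_lit 228) (nat_lit 1751949096826) (nat_lit 50) (nat_lit 5) (nat_lit 52) (nat_lit 5) (nat_lit 53) (nat_lit 5) (nat_lit 504) (nat_lit 482) (nat_lit 214)))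 (XT.nd (nat_lit 78) (nat_lit 152) (nat_lit 0) (XT.lf (nat_lit 0) (nat_lit 5001956928524) (nat_lit 152) (nat_lit 666663394985) (nat_lit 228) (nat_lit 447791046884) (nat_lit 50) (nat_lit 5) (nat_lit 52) (nat_lit 5) (nat_lit 53) (nat_lit 5) (nat_lit 505) (nat_lit 482) (nat_lit 213)) (XT.lf (nat_lit 0) (nat_lit 1021433178590) (nat_lit 152) (nat_lit 3712217256016) (nat_lit 76) (nat_lit 1683712665323) (nat_lit 48) (nat_lit 5) (nat_lit 50) (nat_lit 5) (nat_lit 49) (nat_lit 5) (nat_lit 506) (nat_lit 482) (nat_lit 212))))))))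
noncomputable def xc241 : XT := (XT.nd (nat_lit 61230) (nat_lit 0) (nat_lit 532) (XT.nd (nat_lit 936) (nat_lit 304) (nat_lit 0) (XT.nd (nat_lit 468) (nat_lit 380) (nat_lit 0) (XT.nd (nat_lit 234) (nat_lit 304) (nat_lit 0) (XT.nd (nat_lit 78) (nat_lit 76) (nat_lit 0) (XT.lf (nat_lit 0) (nat_lit 130532316305) (nat_lit 152) (nat_lit 2505188533765) (nat_lit 228) (nat_lit 4101602214420) (nat_lit 46) (nat_lit 5) (nat_lit 48) (nat_lit 5) (nat_lit 49) (nat_lit 5) (nat_lit 507) (nat_lit 482) (nat_lit 211)) (XT.nd (nat_lit 78) (nat_lit 76) (nat_lit 0) (XT.lf (nat_lit 0) (nat_lit 4480918743350) (nat_lit 228) (nat_lit 2583209609918) (nat_lit 76) (nat_lit 10610096303) (nat_lit 46) (nat_lit 5) (nat_lit 49) (nat_lit 5) (nat_lit 47) (nat_lit 4) (nat_lit 508) (nat_lit 482) (nat_lit 210)) (XT.lf (nat_lit 0) (nat_lit 1786559109049) (nat_lit 76) (nat_lit 4795209980302) (nat_lit 152) (nat_lit 848735046406)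 (nat_lit 45) (nat_lit 5) (nat_lit 46) (nat_lit 5) (nat_lit 47) (nat_lit 4) (nat_lit 509) (nat_lit 482) (nat_lit 209)))) (XT.nd (nat_lit 78) (nat_lit 228) (nat_lit 0) (XT.lf (nat_lit 0) (nat_lit 1056597713570) (nat_lit 152) (nat_lit 1183011279354) (nat_lit 76) (nat_lit 5567331776916) (nat_lit 44) (nat_lit 5) (nat_lit 46) (nat_lit 5) (nat_lit 45) (nat_lit 5) (nat_lit 510) (nat_lit 482) (nat_lit 208)) (XT.nd (nat_lit 78) (nat_lit 76) (nat_lit 0) (XT.lf (nat_lit 0) (nat_lit 3175430268786) (nat_lit 228) (nat_lit 4416883372476) (nat_lit 76) (nat_lit 610860935137) (nat_lit 42) (nat_lit 5) (nat_lit 45) (nat_lit 5) (nat_lit 43) (nat_lit 4) (nat_lit 511) (nat_lit 482) (nat_lit 207)) (XT.lf (nat_lit 0) (nat_lit 560946347431) (nat_lit 76) (nat_lit 5007671286947) (nat_lit 152) (nat_lit 3054101596626) (nat_lit 41) (nat_lit 5) (nat_lit 42) (nat_lit 5) (nat_lit 43) (nat_lit 4) (nat_lit 512) (nat_lit 482)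 (nat_lit 206))))) (XT.nd (nat_lit 234) (nat_lit 228) (nat_lit 0) (XT.nd (nat_lit 78) (nat_lit 152) (nat_lit 0) (XT.lf (nat_lit 0) (nat_lit 6188194515508) (nat_lit 76) (nat_lit 2085830892218) (nat_lit 152) (nat_lit 792140816772) (nat_lit 41) (nat_lit 5) (nat_lit 42) (nat_lit 5) (nat_lit 43) (nat_lit 4) (nat_lit 513) (nat_lit 482) (nat_lit 205)) (XT.nd (nat_lit 78) (nat_lit 0) (nat_lit 0) (XT.lf (nat_lit 0) (nat_lit 1664589167208) (nat_lit 152) (nat_lit 6743004840553) (nat_lit 76) (nat_lit 1126607601184) (nat_lit 39) (nat_lit 5) (nat_lit 41) (nat_lit 5) (nat_lit 40) (nat_lit 4) (nat_lit 514) (nat_lit 482) (nat_lit 204)) (XT.lf (nat_lit 0) (nat_lit 4409971509095) (nat_lit 152) (nat_lit 1032609569812) (nat_lit 76) (nat_lit 4584659927276) (nat_lit 39) (nat_lit 5) (nat_lit 41) (nat_lit 5) (nat_lit 40) (nat_lit 4) (nat_lit 515) (nat_lit 482) (nat_lit 203)))) (XT.nd (nat_lit 78) (nat_lit 152) (nat_lit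 0) (XT.lf (nat_lit 0) (nat_lit 5404997170995) (nat_lit 76) (nat_lit 2099977579045) (nat_lit 152) (nat_lit 3044349580226) (nat_lit 38) (nat_lit 5) (nat_lit 39) (nat_lit 5) (nat_lit 40) (nat_lit 4) (nat_lit 516) (nat_lit 482) (nat_lit 202)) (XT.nd (nat_lit 78) (nat_lit 76) (nat_lit 0) (XT.lf (nat_lit 0) (nat_lit 1335162777902) (nat_lit 76) (nat_lit 9609809237889) (nat_lit 76) (nat_lit 160410803240) (nat_lit 37) (nat_lit 4) (nat_lit 38) (nat_lit 5) (nat_lit 38) (nat_lit 4) (nat_lit 517) (nat_lit 482) (nat_lit 201)) (XT.lf (nat_lit 0) (nat_lit 3005313142665) (nat_lit 152) (nat_lit 3198347098188) (nat_lit 76) (nat_lit 5480673515070) (nat_lit 36) (nat_lit 5) (nat_lit 38) (nat_lit 5) (nat_lit 37) (nat_lit 4) (nat_lit 518) (nat_lit 482) (nat_lit 200)))))) (XT.nd (nat_lit 59748) (nat_lit 0) (nat_lit 3268) (XT.nd (nat_lit 234) (nat_lit 76) (nat_lit 0) (XT.nd (nat_lit 78) (nat_lit 152) (nat_lit 0)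 (XT.lf (nat_lit 0) (nat_lit 4100218711318) (nat_lit 76) (nat_lit 2414020301428) (nat_lit 152) (nat_lit 5787139605199) (nat_lit 35) (nat_lit 5) (nat_lit 36) (nat_lit 5) (nat_lit 37) (nat_lit 4) (nat_lit 519) (nat_lit 482) (nat_lit 199)) (XT.nd (nat_lit 78) (nat_lit 152) (nat_lit 0) (XT.lf (nat_lit 0) (nat_lit 10433973778775) (nat_lit 152) (nat_lit 838874921048) (nat_lit 0) (nat_lit 1684530782999) (nat_lit 35) (nat_lit 5) (nat_lit 37) (nat_lit 4) (nat_lit 35) (nat_lit 4) (nat_lit 520) (nat_lit 482) (nat_lit 198)) (XT.lf (nat_lit 0) (nat_lit 1198770782155) (nat_lit 152) (nat_lit 6255999769102) (nat_lit 76) (nat_lit 6189367974111) (nat_lit 33) (nat_lit 5) (nat_lit 35) (nat_lit 5) (nat_lit 34) (nat_lit 4) (nat_lit 521) (nat_lit 482) (nat_lit 197)))) (XT.nd (nat_lit 78) (nat_lit 0) (nat_lit 0) (XT.lf (nat_lit 0) (nat_lit 1969396118156) (nat_lit 76) (nat_lit 3183891917581) (nat_lit 152) (nat_lit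 9221635127195) (nat_lit 32) (nat_lit 5) (nat_lit 33) (nat_lit 5) (nat_lit 34) (nat_lit 4) (nat_lit 522) (nat_lit 482) (nat_lit 196)) (XT.nd (nat_lit 59358) (nat_lit 0) (nat_lit 3724) (XT.lf (nat_lit 0) (nat_lit 9634018885311) (nat_lit 152) (nat_lit 3980680731362) (nat_lit 0) (nat_lit 1532682777573) (nat_lit 32) (nat_lit 5) (nat_lit 34) (nat_lit 4) (nat_lit 32) (nat_lit 4) (nat_lit 523) (nat_lit 482) (nat_lit 195)) (XT.lf (nat_lit 0) (nat_lit 1170129752903) (nat_lit 532) (nat_lit 18521046215) (nat_lit 532) (nat_lit 18521046215) (nat_lit 81) (nat_lit 3) (nat_lit 88) (nat_lit 3) (nat_lit 88) (nat_lit 5) (nat_lit 483) (nat_lit 483) (nat_lit 234))))) (XT.nd (nat_lit 234) (nat_lit 0) (nat_lit 0) (XT.nd (nat_lit 78) (nat_lit 456) (nat_lit 0) (XT.lf (nat_lit 76) (nat_lit 1221588635576) (nat_lit 0) (nat_lit 1241660497111) (nat_lit 532) (nat_lit 45317965870) (nat_lit 82) (nat_lit 5) (nat_lit 81)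 (nat_lit 3) (nat_lit 88) (nat_lit 5) (nat_lit 484) (nat_lit 483) (nat_lit 233)) (XT.nd (nat_lit 78) (nat_lit 456) (nat_lit 0) (XT.lf (nat_lit 76) (nat_lit 2583016437840) (nat_lit 0) (nat_lit 14074287257) (nat_lit 532) (nat_lit 13156630353) (nat_lit 82) (nat_lit 5) (nat_lit 81) (nat_lit 3) (nat_lit 88) (nat_lit 5) (nat_lit 485) (nat_lit 483) (nat_lit 232)) (XT.lf (nat_lit 0) (nat_lit 86676156729) (nat_lit 532) (nat_lit 1346798775112) (nat_lit 608) (nat_lit 1281251350146) (nat_lit 75) (nat_lit 5) (nat_lit 82) (nat_lit 5) (nat_lit 83) (nat_lit 5) (nat_lit 486) (nat_lit 483) (nat_lit 231)))) (XT.nd (nat_lit 156) (nat_lit 0) (nat_lit 76) (XT.nd (nat_lit 78) (nat_lit 0) (nat_lit 76) (XT.lf (nat_lit 76) (nat_lit 50545128460) (nat_lit 0) (nat_lit 145584695342) (nat_lit 608) (nat_lit 2631218755848) (nat_lit 76) (nat_lit 5) (nat_lit 75) (nat_lit 5) (nat_lit 83) (nat_lit 5) (nat_lit 487) (nat_lit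 483) (nat_lit 230)) (XT.lf (nat_lit 0) (nat_lit 382070491658) (nat_lit 532) (nat_lit 1340671411687) (nat_lit 608) (nat_lit 1220820301188) (nat_lit 76) (nat_lit 5) (nat_lit 83) (nat_lit 5) (nat_lit 84) (nat_lit 5) (nat_lit 488) (nat_lit 483) (nat_lit 229))) (XT.nd (nat_lit 78) (nat_lit 0) (nat_lit 76) (XT.lf (nat_lit 76) (nat_lit 217447367627) (nat_lit 0) (nat_lit 374450079570) (nat_lit 608) (nat_lit 2476454589471) (nat_lit 77) (nat_lit 5) (nat_lit 76) (nat_lit 5) (nat_lit 84) (nat_lit 5) (nat_lit 489) (nat_lit 483) (nat_lit 228)) (XT.lf (nat_lit 0) (nat_lit 882134036631) (nat_lit 532) (nat_lit 1250698875079) (nat_lit 76) (nat_lit 1065202265467) (nat_lit 77) (nat_lit 5) (nat_lit 84) (nat_lit 5) (nat_lit 78) (nat_lit 5) (nat_lit 490) (nat_lit 483) (nat_lit 227))))))) (XT.nd (nat_lit 936) (nat_lit 1140) (nat_lit 0) (XT.nd (nat_lit 468) (nat_lit 836) (nat_lit 0) (XT.nd (nat_lit 234) (nat_lit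 228) (nat_lit 0) (XT.nd (nat_lit 78) (nat_lit 228) (nat_lit 0) (XT.lf (nat_lit 0) (nat_lit 492430787999) (nat_lit 456) (nat_lit 724727712887) (nat_lit 532) (nat_lit 2119208952227) (nat_lit 71) (nat_lit 5) (nat_lit 77) (nat_lit 5) (nat_lit 78) (nat_lit 5) (nat_lit 491) (nat_lit 483) (nat_lit 226)) (XT.nd (nat_lit 78) (nat_lit 228) (nat_lit 0) (XT.lf (nat_lit 0) (nat_lit 1633213903558) (nat_lit 532) (nat_lit 1056924086867) (nat_lit 76) (nat_lit 791290002197) (nat_lit 71) (nat_lit 5) (nat_lit 78) (nat_lit 5) (nat_lit 72) (nat_lit 5) (nat_lit 492) (nat_lit 483) (nat_lit 225)) (XT.lf (nat_lit 0) (nat_lit 899207396310) (nat_lit 228) (nat_lit 1223796397447) (nat_lit 304) (nat_lit 1511853577110) (nat_lit 68) (nat_lit 5) (nat_lit 71) (nat_lit 5) (nat_lit 72) (nat_lit 5) (nat_lit 493) (nat_lit 483) (nat_lit 224)))) (XT.nd (nat_lit 78) (nat_lit 228) (nat_lit 0) (XT.lf (nat_lit 0) (nat_lit 2690280115985)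 (nat_lit 304) (nat_lit 735716702231) (nat_lit 76) (nat_lit 371500021891) (nat_lit 68) (nat_lit 5) (nat_lit 72) (nat_lit 5) (nat_lit 69) (nat_lit 5) (nat_lit 494) (nat_lit 483) (nat_lit 223)) (XT.nd (nat_lit 78) (nat_lit 0) (nat_lit 0) (XT.lf (nat_lit 0) (nat_lit 1465746908496) (nat_lit 228) (nat_lit 1904229802751) (nat_lit 304) (nat_lit 597807702258) (nat_lit 65) (nat_lit 5) (nat_lit 68) (nat_lit 5) (nat_lit 69) (nat_lit 5) (nat_lit 495) (nat_lit 483) (nat_lit 222)) (XT.lf (nat_lit 0) (nat_lit 3885168468212) (nat_lit 228) (nat_lit 238996363830) (nat_lit 304) (nat_lit 25920896901) (nat_lit 65) (nat_lit 5) (nat_lit 68) (nat_lit 5) (nat_lit 69) (nat_lit 5) (nat_lit 496) (nat_lit 483) (nat_lit 221))))) (XT.nd (nat_lit 234) (nat_lit 380) (nat_lit 0) (XT.nd (nat_lit 78) (nat_lit 228) (nat_lit 0) (XT.lf (nat_lit 0) (nat_lit 655496340278) (nat_lit 228) (nat_lit 2131315104867) (nat_lit 76) (nat_lit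 1551550875240) (nat_lit 62) (nat_lit 5) (nat_lit 65) (nat_lit 5) (nat_lit 63) (nat_lit 5) (nat_lit 497) (nat_lit 483) (nat_lit 220)) (XT.nd (nat_lit 78) (nat_lit 0) (nat_lit 0) (XT.lf (nat_lit 0) (nat_lit 361739945508) (nat_lit 228) (nat_lit 1050625606125) (nat_lit 304) (nat_lit 3127494506154) (nat_lit 59) (nat_lit 5) (nat_lit 62) (nat_lit 5) (nat_lit 63) (nat_lit 5) (nat_lit 498) (nat_lit 483) (nat_lit 219)) (XT.lf (nat_lit 0) (nat_lit 2309400005018) (nat_lit 304) (nat_lit 1598708295439) (nat_lit 76) (nat_lit 843000057313) (nat_lit 59) (nat_lit 5) (nat_lit 63) (nat_lit 5) (nat_lit 60) (nat_lit 5) (nat_lit 499) (nat_lit 483) (nat_lit 218)))) (XT.nd (nat_lit 78) (nat_lit 228) (nat_lit 0) (XT.lf (nat_lit 0) (nat_lit 1220838790073) (nat_lit 152) (nat_lit 2114008603214) (nat_lit 228) (nat_lit 1639877114176) (nat_lit 57) (nat_lit 5) (nat_lit 59) (nat_lit 5) (nat_lit 60) (nat_lit 5) (nat_lit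 500) (nat_lit 483) (nat_lit 217)) (XT.nd (nat_lit 78) (nat_lit 228) (nat_lit 0) (XT.lf (nat_lit 0) (nat_lit 4356869599184) (nat_lit 152) (nat_lit 129172490973) (nat_lit 228) (nat_lit 726690937573) (nat_lit 57) (nat_lit 5) (nat_lit 59) (nat_lit 5) (nat_lit 60) (nat_lit 5) (nat_lit 501) (nat_lit 483) (nat_lit 216)) (XT.lf (nat_lit 0) (nat_lit 354078918897) (nat_lit 228) (nat_lit 3127616257298) (nat_lit 76) (nat_lit 1978986675699) (nat_lit 54) (nat_lit 5) (nat_lit 57) (nat_lit 5) (nat_lit 55) (nat_lit 5) (nat_lit 502) (nat_lit 483) (nat_lit 215)))))) (XT.nd (nat_lit 468) (nat_lit 532) (nat_lit 0) (XT.nd (nat_lit 234) (nat_lit 304) (nat_lit 0) (XT.nd (nat_lit 78) (nat_lit 152) (nat_lit 0) (XT.lf (nat_lit 0) (nat_lit 80370562954) (nat_lit 152) (nat_lit 1430976294877) (nat_lit 228) (nat_lit 4213265982645) (nat_lit 52) (nat_lit 5) (nat_lit 54) (nat_lit 5) (nat_lit 55) (nat_lit 5) (nat_lit 503)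 (nat_lit 483) (nat_lit 214)) (XT.nd (nat_lit 78) (nat_lit 152) (nat_lit 0) (XT.lf (nat_lit 0) (nat_lit 2867782371468) (nat_lit 228) (nat_lit 2301022075228) (nat_lit 76) (nat_lit 832326970282) (nat_lit 52) (nat_lit 5) (nat_lit 55) (nat_lit 5) (nat_lit 53) (nat_lit 5) (nat_lit 504) (nat_lit 483) (nat_lit 213)) (XT.lf (nat_lit 0) (nat_lit 1339494465404) (nat_lit 152) (nat_lit 3062621350008) (nat_lit 228) (nat_lit 1892105017051) (nat_lit 50) (nat_lit 5) (nat_lit 52) (nat_lit 5) (nat_lit 53) (nat_lit 5) (nat_lit 505) (nat_lit 483) (nat_lit 212)))) (XT.nd (nat_lit 78) (nat_lit 304) (nat_lit 0) (XT.lf (nat_lit 0) (nat_lit 5402113493060) (nat_lit 152) (nat_lit 719996462777) (nat_lit 228) (nat_lit 483614323671) (nat_lit 50) (nat_lit 5) (nat_lit 52) (nat_lit 5) (nat_lit 53) (nat_lit 5) (nat_lit 506) (nat_lit 483) (nat_lit 211)) (XT.nd (nat_lit 78) (nat_lit 152) (nat_lit 0) (XT.lf (nat_lit 0) (nat_lit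 1103147839347) (nat_lit 152) (nat_lit 4009194625747) (nat_lit 76) (nat_lit 1818409682311) (nat_lit 48) (nat_lit 5) (nat_lit 50) (nat_lit 5) (nat_lit 49) (nat_lit 5) (nat_lit 507) (nat_lit 483) (nat_lit 210)) (XT.lf (nat_lit 0) (nat_lit 140974912087) (nat_lit 152) (nat_lit 2705603612231) (nat_lit 228) (nat_lit 4429730384832) (nat_lit 46) (nat_lit 5) (nat_lit 48) (nat_lit 5) (nat_lit 49) (nat_lit 5) (nat_lit 508) (nat_lit 483) (nat_lit 209))))) (XT.nd (nat_lit 234) (nat_lit 380) (nat_lit 0) (XT.nd (nat_lit 78) (nat_lit 152) (nat_lit 0) (XT.lf (nat_lit 0) (nat_lit 4839392248692) (nat_lit 228) (nat_lit 2789866368642) (nat_lit 76) (nat_lit 11458907733) (nat_lit 46) (nat_lit 5) (nat_lit 49) (nat_lit 5) (nat_lit 47) (nat_lit 4) (nat_lit 509) (nat_lit 483) (nat_lit 208)) (XT.nd (nat_lit 78) (nat_lit 76) (nat_lit 0) (XT.lf (nat_lit 0) (nat_lit 1929483847588) (nat_lit 76) (nat_lit 5178826774586)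 (nat_lit 152) (nat_lit 916633843989) (nat_lit 45) (nat_lit 5) (nat_lit 46) (nat_lit 5) (nat_lit 47) (nat_lit 4) (nat_lit 510) (nat_lit 483) (nat_lit 207)) (XT.lf (nat_lit 0) (nat_lit 1141125536048) (nat_lit 152) (nat_lit 1277652172330) (nat_lit 76) (nat_lit 6012718322618) (nat_lit 44) (nat_lit 5) (nat_lit 46) (nat_lit 5) (nat_lit 45) (nat_lit 5) (nat_lit 511) (nat_lit 483) (nat_lit 206)))) (XT.nd (nat_lit 156) (nat_lit 152) (nat_lit 0) (XT.nd (nat_lit 78) (nat_lit 76) (nat_lit 0) (XT.lf (nat_lit 0) (nat_lit 3429464695595) (nat_lit 228) (nat_lit 4770234032815) (nat_lit 76) (nat_lit 659729813674) (nat_lit 42) (nat_lit 5) (nat_lit 45) (nat_lit 5) (nat_lit 43) (nat_lit 4) (nat_lit 512) (nat_lit 483) (nat_lit 205)) (XT.lf (nat_lit 0) (nat_lit 605822064445) (nat_lit 76) (nat_lit 5408284985819) (nat_lit 152) (nat_lit 3298429718810) (nat_lit 41) (nat_lit 5) (nat_lit 42) (nat_lit 5) (nat_lit 43)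 (nat_lit 4) (nat_lit 513) (nat_lit 483) (nat_lit 204))) (XT.nd (nat_lit 78) (nat_lit 152) (nat_lit 0) (XT.lf (nat_lit 0) (nat_lit 6683250085285) (nat_lit 76) (nat_lit 2252697359814) (nat_lit 152) (nat_lit 855512076978) (nat_lit 41) (nat_lit 5) (nat_lit 42) (nat_lit 5) (nat_lit 43) (nat_lit 4) (nat_lit 514) (nat_lit 483) (nat_lit 203)) (XT.lf (nat_lit 0) (nat_lit 1797756305400) (nat_lit 152) (nat_lit 7282445218940) (nat_lit 76) (nat_lit 1216736212933) (nat_lit 39) (nat_lit 5) (nat_lit 41) (nat_lit 5) (nat_lit 40) (nat_lit 4) (nat_lit 515) (nat_lit 483) (nat_lit 202))))))))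
noncomputable def xc242 : XT := (XT.nd (nat_lit 61386) (nat_lit 0) (nat_lit 152) (XT.nd (nat_lit 60372) (nat_lit 0) (nat_lit 1824) (XT.nd (nat_lit 468) (nat_lit 152) (nat_lit 0) (XT.nd (nat_lit 234) (nat_lit 152) (nat_lit 0) (XT.nd (nat_lit 78) (nat_lit 152) (nat_lit 0) (XT.lf (nat_lit 0) (nat_lit 4762769234282) (nat_lit 152) (nat_lit 1115218327197) (nat_lit 76) (nat_lit 4951432724842) (nat_lit 39) (nat_lit 5) (nat_lit 41) (nat_lit 5) (nat_lit 40) (nat_lit 4) (nat_lit 516) (nat_lit 483) (nat_lit 201)) (XT.nd (nat_lit 78) (nat_lit 76) (nat_lit 0) (XT.lf (nat_lit 0) (nat_lit 5837396952667) (nat_lit 76) (nat_lit 2267975781697) (nat_lit 152) (nat_lit 3287897541977) (nat_lit 38) (nat_lit 5) (nat_lit 39) (nat_lit 5) (nat_lit 40) (nat_lit 4) (nat_lit 517) (nat_lit 483) (nat_lit 200)) (XT.lf (nat_lit 0) (nat_lit 1441975808176) (nat_lit 76) (nat_lit 10378593973155) (nat_lit 76) (nat_lit 173243662881)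 (nat_lit 37) (nat_lit 4) (nat_lit 38) (nat_lit 5) (nat_lit 38) (nat_lit 4) (nat_lit 518) (nat_lit 483) (nat_lit 199)))) (XT.nd (nat_lit 78) (nat_lit 76) (nat_lit 0) (XT.lf (nat_lit 0) (nat_lit 3245738198140) (nat_lit 152) (nat_lit 3454214858383) (nat_lit 76) (nat_lit 5919127399548) (nat_lit 36) (nat_lit 5) (nat_lit 38) (nat_lit 5) (nat_lit 37) (nat_lit 4) (nat_lit 519) (nat_lit 483) (nat_lit 198)) (XT.nd (nat_lit 78) (nat_lit 0) (nat_lit 0) (XT.lf (nat_lit 0) (nat_lit 4428236215690) (nat_lit 76) (nat_lit 2607141922017) (nat_lit 152) (nat_lit 6250110769358) (nat_lit 35) (nat_lit 5) (nat_lit 36) (nat_lit 5) (nat_lit 37) (nat_lit 4) (nat_lit 520) (nat_lit 483) (nat_lit 197)) (XT.lf (nat_lit 0) (nat_lit 11268691684805) (nat_lit 152) (nat_lit 905984907605) (nat_lit 0) (nat_lit 1819293248739) (nat_lit 35) (nat_lit 5) (nat_lit 37) (nat_lit 4) (nat_lit 35) (nat_lit 4) (nat_lit 521) (nat_lit 483)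 (nat_lit 196))))) (XT.nd (nat_lit 59670) (nat_lit 0) (nat_lit 3192) (XT.nd (nat_lit 59514) (nat_lit 0) (nat_lit 3648) (XT.lf (nat_lit 0) (nat_lit 1294672448440) (nat_lit 152) (nat_lit 6756479743488) (nat_lit 76) (nat_lit 6684517415172) (nat_lit 33) (nat_lit 5) (nat_lit 35) (nat_lit 5) (nat_lit 34) (nat_lit 4) (nat_lit 522) (nat_lit 483) (nat_lit 195)) (XT.nd (nat_lit 78) (nat_lit 0) (nat_lit 0) (XT.lf (nat_lit 0) (nat_lit 1263740143465) (nat_lit 532) (nat_lit 20002724332) (nat_lit 532) (nat_lit 20002724332) (nat_lit 81) (nat_lit 3) (nat_lit 88) (nat_lit 3) (nat_lit 88) (nat_lit 5) (nat_lit 484) (nat_lit 484) (nat_lit 232)) (XT.lf (nat_lit 76) (nat_lit 1319315737299) (nat_lit 0) (nat_lit 1340993345394) (nat_lit 532) (nat_lit 48943382192) (nat_lit 82) (nat_lit 5) (nat_lit 81) (nat_lit 3) (nat_lit 88) (nat_lit 5) (nat_lit 485) (nat_lit 484) (nat_lit 231)))) (XT.nd (nat_lit 78) (nat_lit 456)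 (nat_lit 0) (XT.lf (nat_lit 76) (nat_lit 2789657762938) (nat_lit 0) (nat_lit 15200238121) (nat_lit 532) (nat_lit 14209141385) (nat_lit 82) (nat_lit 5) (nat_lit 81) (nat_lit 3) (nat_lit 88) (nat_lit 5) (nat_lit 486) (nat_lit 484) (nat_lit 230)) (XT.nd (nat_lit 78) (nat_lit 0) (nat_lit 0) (XT.lf (nat_lit 0) (nat_lit 93610266429) (nat_lit 532) (nat_lit 1454542664808) (nat_lit 608) (nat_lit 1383751451931) (nat_lit 75) (nat_lit 5) (nat_lit 82) (nat_lit 5) (nat_lit 83) (nat_lit 5) (nat_lit 487) (nat_lit 484) (nat_lit 229)) (XT.lf (nat_lit 76) (nat_lit 54588750738) (nat_lit 0) (nat_lit 157231475148) (nat_lit 608) (nat_lit 2841716238838) (nat_lit 76) (nat_lit 5) (nat_lit 75) (nat_lit 5) (nat_lit 83) (nat_lit 5) (nat_lit 488) (nat_lit 484) (nat_lit 228)))))) (XT.nd (nat_lit 468) (nat_lit 836) (nat_lit 0) (XT.nd (nat_lit 234) (nat_lit 608) (nat_lit 0) (XT.nd (nat_lit 78) (nat_lit 0) (nat_lit 0) (XT.lf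 (nat_lit 0) (nat_lit 412636145879) (nat_lit 532) (nat_lit 1447925112215) (nat_lit 608) (nat_lit 1318485921608) (nat_lit 76) (nat_lit 5) (nat_lit 83) (nat_lit 5) (nat_lit 84) (nat_lit 5) (nat_lit 489) (nat_lit 484) (nat_lit 227)) (XT.nd (nat_lit 78) (nat_lit 0) (nat_lit 76) (XT.lf (nat_lit 76) (nat_lit 234843169130) (nat_lit 0) (nat_lit 404406087919) (nat_lit 608) (nat_lit 2674570941423) (nat_lit 77) (nat_lit 5) (nat_lit 76) (nat_lit 5) (nat_lit 84) (nat_lit 5) (nat_lit 490) (nat_lit 484) (nat_lit 226)) (XT.lf (nat_lit 0) (nat_lit 952704772551) (nat_lit 532) (nat_lit 1350754772798) (nat_lit 76) (nat_lit 1150418444960) (nat_lit 77) (nat_lit 5) (nat_lit 84) (nat_lit 5) (nat_lit 78) (nat_lit 5) (nat_lit 491) (nat_lit 484) (nat_lit 225)))) (XT.nd (nat_lit 78) (nat_lit 228) (nat_lit 0) (XT.lf (nat_lit 0) (nat_lit 531825263016) (nat_lit 456) (nat_lit 782705930257) (nat_lit 532) (nat_lit 2288745655102)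 (nat_lit 71) (nat_lit 5) (nat_lit 77) (nat_lit 5) (nat_lit 78) (nat_lit 5) (nat_lit 492) (nat_lit 484) (nat_lit 224)) (XT.nd (nat_lit 78) (nat_lit 228) (nat_lit 0) (XT.lf (nat_lit 0) (nat_lit 1763871027238) (nat_lit 532) (nat_lit 1141478001805) (nat_lit 76) (nat_lit 854593202075) (nat_lit 71) (nat_lit 5) (nat_lit 78) (nat_lit 5) (nat_lit 72) (nat_lit 5) (nat_lit 493) (nat_lit 484) (nat_lit 223)) (XT.lf (nat_lit 0) (nat_lit 971143999723) (nat_lit 228) (nat_lit 1321700108369) (nat_lit 304) (nat_lit 1632801851577) (nat_lit 68) (nat_lit 5) (nat_lit 71) (nat_lit 5) (nat_lit 72) (nat_lit 5) (nat_lit 494) (nat_lit 484) (nat_lit 222))))) (XT.nd (nat_lit 234) (nat_lit 608) (nat_lit 0) (XT.nd (nat_lit 78) (nat_lit 228) (nat_lit 0) (XT.lf (nat_lit 0) (nat_lit 2905502535314) (nat_lit 304) (nat_lit 794574026784) (nat_lit 76) (nat_lit 401220024412) (nat_lit 68) (nat_lit 5) (nat_lit 72) (nat_lit 5) (nat_lit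 69) (nat_lit 5) (nat_lit 495) (nat_lit 484) (nat_lit 221)) (XT.nd (nat_lit 78) (nat_lit 0) (nat_lit 0) (XT.lf (nat_lit 0) (nat_lit 1583006672507) (nat_lit 228) (nat_lit 2056568185218) (nat_lit 304) (nat_lit 645632308092) (nat_lit 65) (nat_lit 5) (nat_lit 68) (nat_lit 5) (nat_lit 69) (nat_lit 5) (nat_lit 496) (nat_lit 484) (nat_lit 220)) (XT.lf (nat_lit 0) (nat_lit 4195981956161) (nat_lit 228) (nat_lit 258116071314) (nat_lit 304) (nat_lit 27994559073) (nat_lit 65) (nat_lit 5) (nat_lit 68) (nat_lit 5) (nat_lit 69) (nat_lit 5) (nat_lit 497) (nat_lit 484) (nat_lit 219)))) (XT.nd (nat_lit 156) (nat_lit 152) (nat_lit 0) (XT.nd (nat_lit 78) (nat_lit 228) (nat_lit 0) (XT.lf (nat_lit 0) (nat_lit 707936056232) (nat_lit 228) (nat_lit 2301820301914) (nat_lit 76) (nat_lit 1675674947170) (nat_lit 62) (nat_lit 5) (nat_lit 65) (nat_lit 5) (nat_lit 63) (nat_lit 5) (nat_lit 498) (nat_lit 484) (nat_lit 218))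 (XT.lf (nat_lit 0) (nat_lit 390679152204) (nat_lit 228) (nat_lit 1134675651910) (nat_lit 304) (nat_lit 3377694057626) (nat_lit 59) (nat_lit 5) (nat_lit 62) (nat_lit 5) (nat_lit 63) (nat_lit 5) (nat_lit 499) (nat_lit 484) (nat_lit 217))) (XT.nd (nat_lit 78) (nat_lit 152) (nat_lit 0) (XT.lf (nat_lit 0) (nat_lit 2494152013213) (nat_lit 304) (nat_lit 1726604948278) (nat_lit 76) (nat_lit 910440064277) (nat_lit 59) (nat_lit 5) (nat_lit 63) (nat_lit 5) (nat_lit 60) (nat_lit 5) (nat_lit 500) (nat_lit 484) (nat_lit 216)) (XT.lf (nat_lit 0) (nat_lit 1318505903802) (nat_lit 152) (nat_lit 2283129288417) (nat_lit 228) (nat_lit 1771067275243) (nat_lit 57) (nat_lit 5) (nat_lit 59) (nat_lit 5) (nat_lit 60) (nat_lit 5) (nat_lit 501) (nat_lit 484) (nat_lit 215))))))) (XT.nd (nat_lit 936) (nat_lit 532) (nat_lit 0) (XT.nd (nat_lit 468) (nat_lit 608) (nat_lit 0) (XT.nd (nat_lit 234) (nat_lit 152) (nat_lit 0)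 (XT.nd (nat_lit 78) (nat_lit 380) (nat_lit 0) (XT.lf (nat_lit 0) (nat_lit 4705419176862) (nat_lit 152) (nat_lit 139506287423) (nat_lit 228) (nat_lit 784826205109) (nat_lit 57) (nat_lit 5) (nat_lit 59) (nat_lit 5) (nat_lit 60) (nat_lit 5) (nat_lit 502) (nat_lit 484) (nat_lit 214)) (XT.nd (nat_lit 78) (nat_lit 152) (nat_lit 0) (XT.lf (nat_lit 0) (nat_lit 382405239290) (nat_lit 228) (nat_lit 3377825547547) (nat_lit 76) (nat_lit 2137305612657) (nat_lit 54) (nat_lit 5) (nat_lit 57) (nat_lit 5) (nat_lit 55) (nat_lit 5) (nat_lit 503) (nat_lit 484) (nat_lit 213)) (XT.lf (nat_lit 0) (nat_lit 86800218063) (nat_lit 152) (nat_lit 1545454395008) (nat_lit 228) (nat_lit 4550327254113) (nat_lit 52) (nat_lit 5) (nat_lit 54) (nat_lit 5) (nat_lit 55) (nat_lit 5) (nat_lit 504) (nat_lit 484) (nat_lit 212)))) (XT.nd (nat_lit 78) (nat_lit 152) (nat_lit 0) (XT.lf (nat_lit 0) (nat_lit 3097204967387) (nat_lit 228)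 (nat_lit 2485103831505) (nat_lit 76) (nat_lit 898913130947) (nat_lit 52) (nat_lit 5) (nat_lit 55) (nat_lit 5) (nat_lit 53) (nat_lit 5) (nat_lit 505) (nat_lit 484) (nat_lit 211)) (XT.nd (nat_lit 78) (nat_lit 0) (nat_lit 0) (XT.lf (nat_lit 0) (nat_lit 1446654032130) (nat_lit 152) (nat_lit 3307631054484) (nat_lit 228) (nat_lit 2043473411967) (nat_lit 50) (nat_lit 5) (nat_lit 52) (nat_lit 5) (nat_lit 53) (nat_lit 5) (nat_lit 506) (nat_lit 484) (nat_lit 210)) (XT.lf (nat_lit 0) (nat_lit 5834282581295) (nat_lit 152) (nat_lit 777596176537) (nat_lit 228) (nat_lit 522303463594) (nat_lit 50) (nat_lit 5) (nat_lit 52) (nat_lit 5) (nat_lit 53) (nat_lit 5) (nat_lit 507) (nat_lit 484) (nat_lit 209))))) (XT.nd (nat_lit 234) (nat_lit 304) (nat_lit 0) (XT.nd (nat_lit 78) (nat_lit 152) (nat_lit 0) (XT.lf (nat_lit 0) (nat_lit 1191399672041) (nat_lit 152) (nat_lit 4329930186591) (nat_lit 76) (nat_lit 1963882460121)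 (nat_lit 48) (nat_lit 5) (nat_lit 50) (nat_lit 5) (nat_lit 49) (nat_lit 5) (nat_lit 508) (nat_lit 484) (nat_lit 208)) (XT.nd (nat_lit 78) (nat_lit 0) (nat_lit 0) (XT.lf (nat_lit 0) (nat_lit 152252914037) (nat_lit 152) (nat_lit 2922051897578) (nat_lit 228) (nat_lit 4784108809838) (nat_lit 46) (nat_lit 5) (nat_lit 48) (nat_lit 5) (nat_lit 49) (nat_lit 5) (nat_lit 509) (nat_lit 484) (nat_lit 207)) (XT.lf (nat_lit 0) (nat_lit 5226543633623) (nat_lit 228) (nat_lit 3013055669499) (nat_lit 76) (nat_lit 12375623545) (nat_lit 46) (nat_lit 5) (nat_lit 49) (nat_lit 5) (nat_lit 47) (nat_lit 4) (nat_lit 510) (nat_lit 484) (nat_lit 206)))) (XT.nd (nat_lit 78) (nat_lit 228) (nat_lit 0) (XT.lf (nat_lit 0) (nat_lit 2083842563810) (nat_lit 76) (nat_lit 5593132913003) (nat_lit 152) (nat_lit 989964546253) (nat_lit 45) (nat_lit 5) (nat_lit 46) (nat_lit 5) (nat_lit 47) (nat_lit 4) (nat_lit 511) (nat_lit 484)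 (nat_lit 205)) (XT.nd (nat_lit 78) (nat_lit 152) (nat_lit 0) (XT.lf (nat_lit 0) (nat_lit 1232415583554) (nat_lit 152) (nat_lit 1379864338081) (nat_lit 76) (nat_lit 6493735791470) (nat_lit 44) (nat_lit 5) (nat_lit 46) (nat_lit 5) (nat_lit 45) (nat_lit 5) (nat_lit 512) (nat_lit 484) (nat_lit 204)) (XT.lf (nat_lit 0) (nat_lit 3703821875792) (nat_lit 228) (nat_lit 5151852747332) (nat_lit 76) (nat_lit 712508201964) (nat_lit 42) (nat_lit 5) (nat_lit 45) (nat_lit 5) (nat_lit 43) (nat_lit 4) (nat_lit 513) (nat_lit 484) (nat_lit 203)))))) (XT.nd (nat_lit 468) (nat_lit 152) (nat_lit 0) (XT.nd (nat_lit 234) (nat_lit 152) (nat_lit 0) (XT.nd (nat_lit 78) (nat_lit 152) (nat_lit 0) (XT.lf (nat_lit 0) (nat_lit 654287837504) (nat_lit 76) (nat_lit 5840947781183) (nat_lit 152) (nat_lit 3562304091559) (nat_lit 41) (nat_lit 5) (nat_lit 42) (nat_lit 5) (nat_lit 43) (nat_lit 4) (nat_lit 514) (nat_lit 484) (nat_lit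 202)) (XT.nd (nat_lit 78) (nat_lit 152) (nat_lit 0) (XT.lf (nat_lit 0) (nat_lit 7217910099426) (nat_lit 76) (nat_lit 2432913145357) (nat_lit 152) (nat_lit 923953038733) (nat_lit 41) (nat_lit 5) (nat_lit 42) (nat_lit 5) (nat_lit 43) (nat_lit 4) (nat_lit 515) (nat_lit 484) (nat_lit 201)) (XT.lf (nat_lit 0) (nat_lit 1941576813961) (nat_lit 152) (nat_lit 7865040828863) (nat_lit 76) (nat_lit 1314075113101) (nat_lit 39) (nat_lit 5) (nat_lit 41) (nat_lit 5) (nat_lit 40) (nat_lit 4) (nat_lit 516) (nat_lit 484) (nat_lit 200)))) (XT.nd (nat_lit 78) (nat_lit 152) (nat_lit 0) (XT.lf (nat_lit 0) (nat_lit 5143790776848) (nat_lit 152) (nat_lit 1204435786342) (nat_lit 76) (nat_lit 5347547345731) (nat_lit 39) (nat_lit 5) (nat_lit 41) (nat_lit 5) (nat_lit 40) (nat_lit 4) (nat_lit 517) (nat_lit 484) (nat_lit 199)) (XT.nd (nat_lit 78) (nat_lit 76) (nat_lit 0) (XT.lf (nat_lit 0) (nat_lit 6304388715733) (nat_lit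 76) (nat_lit 2449413841085) (nat_lit 152) (nat_lit 3550929341334) (nat_lit 38) (nat_lit 5) (nat_lit 39) (nat_lit 5) (nat_lit 40) (nat_lit 4) (nat_lit 518) (nat_lit 484) (nat_lit 198)) (XT.lf (nat_lit 0) (nat_lit 1557333879724) (nat_lit 76) (nat_lit 11208881487779) (nat_lit 76) (nat_lit 187103151952) (nat_lit 37) (nat_lit 4) (nat_lit 38) (nat_lit 5) (nat_lit 38) (nat_lit 4) (nat_lit 519) (nat_lit 484) (nat_lit 197))))) (XT.nd (nat_lit 59748) (nat_lit 0) (nat_lit 3040) (XT.nd (nat_lit 78) (nat_lit 76) (nat_lit 0) (XT.lf (nat_lit 0) (nat_lit 3505397257475) (nat_lit 152) (nat_lit 3730552040487) (nat_lit 76) (nat_lit 6392657594318) (nat_lit 36) (nat_lit 5) (nat_lit 38) (nat_lit 5) (nat_lit 37) (nat_lit 4) (nat_lit 520) (nat_lit 484) (nat_lit 196)) (XT.nd (nat_lit 78) (nat_lit 0) (nat_lit 0) (XT.lf (nat_lit 0) (nat_lit 4782495119346) (nat_lit 76) (nat_lit 2815713272756) (nat_lit 152) (nat_lit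 6750119627258) (nat_lit 35) (nat_lit 5) (nat_lit 36) (nat_lit 5) (nat_lit 37) (nat_lit 4) (nat_lit 521) (nat_lit 484) (nat_lit 195)) (XT.lf (nat_lit 0) (nat_lit 12170187022785) (nat_lit 152) (nat_lit 978463694104) (nat_lit 0) (nat_lit 1964836711297) (nat_lit 35) (nat_lit 5) (nat_lit 37) (nat_lit 4) (nat_lit 35) (nat_lit 4) (nat_lit 522) (nat_lit 484) (nat_lit 194)))) (XT.nd (nat_lit 156) (nat_lit 456) (nat_lit 0) (XT.nd (nat_lit 78) (nat_lit 0) (nat_lit 0) (XT.lf (nat_lit 0) (nat_lit 1364839363798) (nat_lit 532) (nat_lit 21602937495) (nat_lit 532) (nat_lit 21602937495) (nat_lit 81) (nat_lit 3) (nat_lit 88) (nat_lit 3) (nat_lit 88) (nat_lit 5) (nat_lit 485) (nat_lit 485) (nat_lit 230)) (XT.lf (nat_lit 76) (nat_lit 1424861005608) (nat_lit 0) (nat_lit 1448272820326) (nat_lit 532) (nat_lit 52858834808) (nat_lit 82) (nat_lit 5) (nat_lit 81) (nat_lit 3) (nat_lit 88) (nat_lit 5) (nat_lit 486)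 (nat_lit 485) (nat_lit 229))) (XT.nd (nat_lit 78) (nat_lit 456) (nat_lit 0) (XT.lf (nat_lit 76) (nat_lit 3012830392608) (nat_lit 0) (nat_lit 16416263930) (nat_lit 532) (nat_lit 15345856067) (nat_lit 82) (nat_lit 5) (nat_lit 81) (nat_lit 3) (nat_lit 88) (nat_lit 5) (nat_lit 487) (nat_lit 485) (nat_lit 228)) (XT.lf (nat_lit 0) (nat_lit 101099102458) (nat_lit 532) (nat_lit 1570906067436) (nat_lit 608) (nat_lit 1494451562748) (nat_lit 75) (nat_lit 5) (nat_lit 82) (nat_lit 5) (nat_lit 83) (nat_lit 5) (nat_lit 488) (nat_lit 485) (nat_lit 227))))))))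
noncomputable def xc243 : XT := (XT.nd (nat_lit 1950) (nat_lit 684) (nat_lit 0) (XT.nd (nat_lit 936) (nat_lit 1140) (nat_lit 0) (XT.nd (nat_lit 468) (nat_lit 912) (nat_lit 0) (XT.nd (nat_lit 234) (nat_lit 304) (nat_lit 0) (XT.nd (nat_lit 78) (nat_lit 0) (nat_lit 76) (XT.lf (nat_lit 76) (nat_lit 58955861087) (nat_lit 0) (nat_lit 169809996742) (nat_lit 608) (nat_lit 3069053522961) (nat_lit 76) (nat_lit 5) (nat_lit 75) (nat_lit 5) (nat_lit 83) (nat_lit 5) (nat_lit 489) (nat_lit 485) (nat_lit 226)) (XT.nd (nat_lit 78) (nat_lit 0) (nat_lit 0) (XT.lf (nat_lit 0) (nat_lit 445647050314) (nat_lit 532) (nat_lit 1563759110554) (nat_lit 608) (nat_lit 1423964792186) (nat_lit 76) (nat_lit 5) (nat_lit 83) (nat_lit 5) (nat_lit 84) (nat_lit 5) (nat_lit 490) (nat_lit 485) (nat_lit 225)) (XT.lf (nat_lit 76) (nat_lit 253630633029) (nat_lit 0) (nat_lit 436758576652) (nat_lit 608) (nat_lit 2888536603701) (nat_lit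 77) (nat_lit 5) (nat_lit 76) (nat_lit 5) (nat_lit 84) (nat_lit 5) (nat_lit 491) (nat_lit 485) (nat_lit 224)))) (XT.nd (nat_lit 78) (nat_lit 456) (nat_lit 0) (XT.lf (nat_lit 0) (nat_lit 1028921165491) (nat_lit 532) (nat_lit 1458815144087) (nat_lit 76) (nat_lit 1242451919062) (nat_lit 77) (nat_lit 5) (nat_lit 84) (nat_lit 5) (nat_lit 78) (nat_lit 5) (nat_lit 492) (nat_lit 485) (nat_lit 223)) (XT.nd (nat_lit 78) (nat_lit 0) (nat_lit 0) (XT.lf (nat_lit 0) (nat_lit 574371294325) (nat_lit 456) (nat_lit 845322404968) (nat_lit 532) (nat_lit 2471845296104) (nat_lit 71) (nat_lit 5) (nat_lit 77) (nat_lit 5) (nat_lit 78) (nat_lit 5) (nat_lit 493) (nat_lit 485) (nat_lit 222)) (XT.lf (nat_lit 0) (nat_lit 1904980719187) (nat_lit 532) (nat_lit 1232796231651) (nat_lit 76) (nat_lit 922960657986) (nat_lit 71) (nat_lit 5) (nat_lit 78) (nat_lit 5) (nat_lit 72) (nat_lit 5) (nat_lit 494) (nat_lit 485) (nat_lit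 221))))) (XT.nd (nat_lit 234) (nat_lit 456) (nat_lit 0) (XT.nd (nat_lit 78) (nat_lit 228) (nat_lit 0) (XT.lf (nat_lit 0) (nat_lit 1048835529738) (nat_lit 228) (nat_lit 1427436116288) (nat_lit 304) (nat_lit 1763425989670) (nat_lit 68) (nat_lit 5) (nat_lit 71) (nat_lit 5) (nat_lit 72) (nat_lit 5) (nat_lit 495) (nat_lit 485) (nat_lit 220)) (XT.nd (nat_lit 78) (nat_lit 228) (nat_lit 0) (XT.lf (nat_lit 0) (nat_lit 3137942746755) (nat_lit 304) (nat_lit 858139938960) (nat_lit 76) (nat_lit 433317627025) (nat_lit 68) (nat_lit 5) (nat_lit 72) (nat_lit 5) (nat_lit 69) (nat_lit 5) (nat_lit 496) (nat_lit 485) (nat_lit 219)) (XT.lf (nat_lit 0) (nat_lit 1709647216022) (nat_lit 228) (nat_lit 2221093638533) (nat_lit 304) (nat_lit 697282883870) (nat_lit 65) (nat_lit 5) (nat_lit 68) (nat_lit 5) (nat_lit 69) (nat_lit 5) (nat_lit 497) (nat_lit 485) (nat_lit 218)))) (XT.nd (nat_lit 78) (nat_lit 456) (nat_lit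 0) (XT.lf (nat_lit 0) (nat_lit 4531660521649) (nat_lit 228) (nat_lit 278765355627) (nat_lit 304) (nat_lit 30234115586) (nat_lit 65) (nat_lit 5) (nat_lit 68) (nat_lit 5) (nat_lit 69) (nat_lit 5) (nat_lit 498) (nat_lit 485) (nat_lit 217)) (XT.nd (nat_lit 78) (nat_lit 228) (nat_lit 0) (XT.lf (nat_lit 0) (nat_lit 764570948217) (nat_lit 228) (nat_lit 2485965916342) (nat_lit 76) (nat_lit 1809728944582) (nat_lit 62) (nat_lit 5) (nat_lit 65) (nat_lit 5) (nat_lit 63) (nat_lit 5) (nat_lit 499) (nat_lit 485) (nat_lit 216)) (XT.lf (nat_lit 0) (nat_lit 421933493859) (nat_lit 228) (nat_lit 1225449701744) (nat_lit 304) (nat_lit 3647909574502) (nat_lit 59) (nat_lit 5) (nat_lit 62) (nat_lit 5) (nat_lit 63) (nat_lit 5) (nat_lit 500) (nat_lit 485) (nat_lit 215)))))) (XT.nd (nat_lit 468) (nat_lit 608) (nat_lit 0) (XT.nd (nat_lit 234) (nat_lit 380) (nat_lit 0) (XT.nd (nat_lit 78) (nat_lit 152) (nat_lit 0) (XT.lf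 (nat_lit 0) (nat_lit 2693684180951) (nat_lit 304) (nat_lit 1864733334883) (nat_lit 76) (nat_lit 983275271459) (nat_lit 59) (nat_lit 5) (nat_lit 63) (nat_lit 5) (nat_lit 60) (nat_lit 5) (nat_lit 501) (nat_lit 485) (nat_lit 214)) (XT.nd (nat_lit 78) (nat_lit 0) (nat_lit 0) (XT.lf (nat_lit 0) (nat_lit 1423986385129) (nat_lit 152) (nat_lit 2465779628871) (nat_lit 228) (nat_lit 1912752650346) (nat_lit 57) (nat_lit 5) (nat_lit 59) (nat_lit 5) (nat_lit 60) (nat_lit 5) (nat_lit 502) (nat_lit 485) (nat_lit 213)) (XT.lf (nat_lit 0) (nat_lit 5081852719365) (nat_lit 152) (nat_lit 150666787992) (nat_lit 228) (nat_lit 847612295113) (nat_lit 57) (nat_lit 5) (nat_lit 59) (nat_lit 5) (nat_lit 60) (nat_lit 5) (nat_lit 503) (nat_lit 485) (nat_lit 212)))) (XT.nd (nat_lit 78) (nat_lit 152) (nat_lit 0) (XT.lf (nat_lit 0) (nat_lit 412997664333) (nat_lit 228) (nat_lit 3648051582491) (nat_lit 76) (nat_lit 2308290064157)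 (nat_lit 54) (nat_lit 5) (nat_lit 57) (nat_lit 5) (nat_lit 55) (nat_lit 5) (nat_lit 504) (nat_lit 485) (nat_lit 211)) (XT.nd (nat_lit 78) (nat_lit 0) (nat_lit 0) (XT.lf (nat_lit 0) (nat_lit 93744244144) (nat_lit 152) (nat_lit 1669090743643) (nat_lit 228) (nat_lit 4914353428317) (nat_lit 52) (nat_lit 5) (nat_lit 54) (nat_lit 5) (nat_lit 55) (nat_lit 5) (nat_lit 505) (nat_lit 485) (nat_lit 210)) (XT.lf (nat_lit 0) (nat_lit 3344981370094) (nat_lit 228) (nat_lit 2683912129675) (nat_lit 76) (nat_lit 970826184032) (nat_lit 52) (nat_lit 5) (nat_lit 55) (nat_lit 5) (nat_lit 53) (nat_lit 5) (nat_lit 506) (nat_lit 485) (nat_lit 209))))) (XT.nd (nat_lit 234) (nat_lit 304) (nat_lit 0) (XT.nd (nat_lit 78) (nat_lit 152) (nat_lit 0) (XT.lf (nat_lit 0) (nat_lit 1562386362840) (nat_lit 152) (nat_lit 3572241535822) (nat_lit 228) (nat_lit 2206951279396) (nat_lit 50) (nat_lit 5) (nat_lit 52) (nat_lit 5) (nat_lit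 53) (nat_lit 5) (nat_lit 507) (nat_lit 485) (nat_lit 208)) (XT.nd (nat_lit 78) (nat_lit 152) (nat_lit 0) (XT.lf (nat_lit 0) (nat_lit 6301025195335) (nat_lit 152) (nat_lit 839803867862) (nat_lit 228) (nat_lit 564087735563) (nat_lit 50) (nat_lit 5) (nat_lit 52) (nat_lit 5) (nat_lit 53) (nat_lit 5) (nat_lit 508) (nat_lit 485) (nat_lit 207)) (XT.lf (nat_lit 0) (nat_lit 1286711650560) (nat_lit 152) (nat_lit 4676324593617) (nat_lit 76) (nat_lit 2120993059696) (nat_lit 48) (nat_lit 5) (nat_lit 50) (nat_lit 5) (nat_lit 49) (nat_lit 5) (nat_lit 509) (nat_lit 485) (nat_lit 206)))) (XT.nd (nat_lit 156) (nat_lit 152) (nat_lit 0) (XT.nd (nat_lit 78) (nat_lit 0) (nat_lit 0) (XT.lf (nat_lit 0) (nat_lit 164433154861) (nat_lit 152) (nat_lit 3155816046272) (nat_lit 228) (nat_lit 5166837509669) (nat_lit 46) (nat_lit 5) (nat_lit 48) (nat_lit 5) (nat_lit 49) (nat_lit 5) (nat_lit 510) (nat_lit 485) (nat_lit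 205)) (XT.lf (nat_lit 0) (nat_lit 5644667128631) (nat_lit 228) (nat_lit 3254100115658) (nat_lit 76) (nat_lit 13365676167) (nat_lit 46) (nat_lit 5) (nat_lit 49) (nat_lit 5) (nat_lit 47) (nat_lit 4) (nat_lit 511) (nat_lit 485) (nat_lit 204))) (XT.nd (nat_lit 78) (nat_lit 76) (nat_lit 0) (XT.lf (nat_lit 0) (nat_lit 2250549976129) (nat_lit 76) (nat_lit 6040583543000) (nat_lit 152) (nat_lit 1069161705448) (nat_lit 45) (nat_lit 5) (nat_lit 46) (nat_lit 5) (nat_lit 47) (nat_lit 4) (nat_lit 512) (nat_lit 485) (nat_lit 203)) (XT.lf (nat_lit 0) (nat_lit 1331008834201) (nat_lit 152) (nat_lit 1490253478238) (nat_lit 76) (nat_lit 7013234657396) (nat_lit 44) (nat_lit 5) (nat_lit 46) (nat_lit 5) (nat_lit 45) (nat_lit 5) (nat_lit 513) (nat_lit 485) (nat_lit 202))))))) (XT.nd (nat_lit 60528) (nat_lit 0) (nat_lit 1824) (XT.nd (nat_lit 468) (nat_lit 228) (nat_lit 0) (XT.nd (nat_lit 234) (nat_lit 228) (nat_lit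 0) (XT.nd (nat_lit 78) (nat_lit 76) (nat_lit 0) (XT.lf (nat_lit 0) (nat_lit 4000127629756) (nat_lit 228) (nat_lit 5564000960166) (nat_lit 76) (nat_lit 769508860860) (nat_lit 42) (nat_lit 5) (nat_lit 45) (nat_lit 5) (nat_lit 43) (nat_lit 4) (nat_lit 514) (nat_lit 485) (nat_lit 201)) (XT.nd (nat_lit 78) (nat_lit 0) (nat_lit 0) (XT.lf (nat_lit 0) (nat_lit 706630871280) (nat_lit 76) (nat_lit 6308223600676) (nat_lit 152) (nat_lit 3847288414807) (nat_lit 41) (nat_lit 5) (nat_lit 42) (nat_lit 5) (nat_lit 43) (nat_lit 4) (nat_lit 515) (nat_lit 485) (nat_lit 200)) (XT.lf (nat_lit 0) (nat_lit 7795342913654) (nat_lit 76) (nat_lit 2627546194206) (nat_lit 152) (nat_lit 997869278058) (nat_lit 41) (nat_lit 5) (nat_lit 42) (nat_lit 5) (nat_lit 43) (nat_lit 4) (nat_lit 516) (nat_lit 485) (nat_lit 199)))) (XT.nd (nat_lit 78) (nat_lit 76) (nat_lit 0) (XT.lf (nat_lit 0) (nat_lit 2096902962618) (nat_lit 152)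 (nat_lit 8494244088662) (nat_lit 76) (nat_lit 1419201124836) (nat_lit 39) (nat_lit 5) (nat_lit 41) (nat_lit 5) (nat_lit 40) (nat_lit 4) (nat_lit 517) (nat_lit 485) (nat_lit 198)) (XT.nd (nat_lit 78) (nat_lit 76) (nat_lit 0) (XT.lf (nat_lit 0) (nat_lit 5555294042273) (nat_lit 152) (nat_lit 1300790643222) (nat_lit 76) (nat_lit 5775351135877) (nat_lit 39) (nat_lit 5) (nat_lit 41) (nat_lit 5) (nat_lit 40) (nat_lit 4) (nat_lit 518) (nat_lit 485) (nat_lit 197)) (XT.lf (nat_lit 0) (nat_lit 6808739818866) (nat_lit 76) (nat_lit 2645366945673) (nat_lit 152) (nat_lit 3835003685210) (nat_lit 38) (nat_lit 5) (nat_lit 39) (nat_lit 5) (nat_lit 40) (nat_lit 4) (nat_lit 519) (nat_lit 485) (nat_lit 196))))) (XT.nd (nat_lit 59826) (nat_lit 0) (nat_lit 3496) (XT.nd (nat_lit 78) (nat_lit 152) (nat_lit 0) (XT.lf (nat_lit 0) (nat_lit 1681920596013) (nat_lit 76) (nat_lit 12105592004034) (nat_lit 76) (nat_lit 202071400714)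 (nat_lit 37) (nat_lit 4) (nat_lit 38) (nat_lit 5) (nat_lit 38) (nat_lit 4) (nat_lit 520) (nat_lit 485) (nat_lit 195)) (XT.nd (nat_lit 78) (nat_lit 76) (nat_lit 0) (XT.lf (nat_lit 0) (nat_lit 3785829041059) (nat_lit 152) (nat_lit 4028996198096) (nat_lit 76) (nat_lit 6904070204268) (nat_lit 36) (nat_lit 5) (nat_lit 38) (nat_lit 5) (nat_lit 37) (nat_lit 4) (nat_lit 521) (nat_lit 485) (nat_lit 194)) (XT.lf (nat_lit 0) (nat_lit 5165094734382) (nat_lit 76) (nat_lit 3040970331986) (nat_lit 152) (nat_lit 7290129194310) (nat_lit 35) (nat_lit 5) (nat_lit 36) (nat_lit 5) (nat_lit 37) (nat_lit 4) (nat_lit 522) (nat_lit 485) (nat_lit 193)))) (XT.nd (nat_lit 78) (nat_lit 0) (nat_lit 0) (XT.lf (nat_lit 0) (nat_lit 1474026520495) (nat_lit 532) (nat_lit 23331168394) (nat_lit 532) (nat_lit 23331168394) (nat_lit 81) (nat_lit 3) (nat_lit 88) (nat_lit 3) (nat_lit 88) (nat_lit 5) (nat_lit 486) (nat_lit 486)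 (nat_lit 228)) (XT.nd (nat_lit 78) (nat_lit 0) (nat_lit 0) (XT.lf (nat_lit 76) (nat_lit 1538849894052) (nat_lit 0) (nat_lit 1564134652210) (nat_lit 532) (nat_lit 57087526195) (nat_lit 82) (nat_lit 5) (nat_lit 81) (nat_lit 3) (nat_lit 88) (nat_lit 5) (nat_lit 487) (nat_lit 486) (nat_lit 227)) (XT.lf (nat_lit 76) (nat_lit 3253856831419) (nat_lit 0) (nat_lit 17729570840) (nat_lit 532) (nat_lit 16573510296) (nat_lit 82) (nat_lit 5) (nat_lit 81) (nat_lit 3) (nat_lit 88) (nat_lit 5) (nat_lit 488) (nat_lit 486) (nat_lit 226)))))) (XT.nd (nat_lit 468) (nat_lit 912) (nat_lit 0) (XT.nd (nat_lit 234) (nat_lit 304) (nat_lit 0) (XT.nd (nat_lit 78) (nat_lit 0) (nat_lit 0) (XT.lf (nat_lit 0) (nat_lit 109187043269) (nat_lit 532) (nat_lit 1696578543780) (nat_lit 608) (nat_lit 1614007683192) (nat_lit 75) (nat_lit 5) (nat_lit 82) (nat_lit 5) (nat_lit 83) (nat_lit 5) (nat_lit 489) (nat_lit 486) (nat_lit 225))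 (XT.nd (nat_lit 78) (nat_lit 0) (nat_lit 76) (XT.lf (nat_lit 76) (nat_lit 63672338795) (nat_lit 0) (nat_lit 183394799552) (nat_lit 608) (nat_lit 3314577791951) (nat_lit 76) (nat_lit 5) (nat_lit 75) (nat_lit 5) (nat_lit 83) (nat_lit 5) (nat_lit 490) (nat_lit 486) (nat_lit 224)) (XT.lf (nat_lit 0) (nat_lit 481298825282) (nat_lit 532) (nat_lit 1688859830279) (nat_lit 608) (nat_lit 1537881972860) (nat_lit 76) (nat_lit 5) (nat_lit 83) (nat_lit 5) (nat_lit 84) (nat_lit 5) (nat_lit 491) (nat_lit 486) (nat_lit 223)))) (XT.nd (nat_lit 78) (nat_lit 380) (nat_lit 0) (XT.lf (nat_lit 76) (nat_lit 273921092560) (nat_lit 0) (nat_lit 471699264242) (nat_lit 608) (nat_lit 3119619520820) (nat_lit 77) (nat_lit 5) (nat_lit 76) (nat_lit 5) (nat_lit 84) (nat_lit 5) (nat_lit 492) (nat_lit 486) (nat_lit 222)) (XT.nd (nat_lit 78) (nat_lit 456) (nat_lit 0) (XT.lf (nat_lit 0) (nat_lit 1111234868278) (nat_lit 532)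 (nat_lit 1575520346582) (nat_lit 76) (nat_lit 1341848071305) (nat_lit 77) (nat_lit 5) (nat_lit 84) (nat_lit 5) (nat_lit 78) (nat_lit 5) (nat_lit 493) (nat_lit 486) (nat_lit 221)) (XT.lf (nat_lit 0) (nat_lit 620321006674) (nat_lit 456) (nat_lit 912948197614) (nat_lit 532) (nat_lit 2669592910015) (nat_lit 71) (nat_lit 5) (nat_lit 77) (nat_lit 5) (nat_lit 78) (nat_lit 5) (nat_lit 494) (nat_lit 486) (nat_lit 220))))) (XT.nd (nat_lit 234) (nat_lit 684) (nat_lit 0) (XT.nd (nat_lit 78) (nat_lit 228) (nat_lit 0) (XT.lf (nat_lit 0) (nat_lit 2057379185098) (nat_lit 532) (nat_lit 1331419921354) (nat_lit 76) (nat_lit 996797510405) (nat_lit 71) (nat_lit 5) (nat_lit 78) (nat_lit 5) (nat_lit 72) (nat_lit 5) (nat_lit 495) (nat_lit 486) (nat_lit 219)) (XT.nd (nat_lit 78) (nat_lit 0) (nat_lit 0) (XT.lf (nat_lit 0) (nat_lit 1132742380722) (nat_lit 228) (nat_lit 1541631004948) (nat_lit 304) (nat_lit 1904500060243)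 (nat_lit 68) (nat_lit 5) (nat_lit 71) (nat_lit 5) (nat_lit 72) (nat_lit 5) (nat_lit 496) (nat_lit 486) (nat_lit 218)) (XT.lf (nat_lit 0) (nat_lit 3388978173882) (nat_lit 304) (nat_lit 926791125531) (nat_lit 76) (nat_lit 467983037752) (nat_lit 68) (nat_lit 5) (nat_lit 72) (nat_lit 5) (nat_lit 69) (nat_lit 5) (nat_lit 497) (nat_lit 486) (nat_lit 217)))) (XT.nd (nat_lit 156) (nat_lit 456) (nat_lit 0) (XT.nd (nat_lit 78) (nat_lit 0) (nat_lit 0) (XT.lf (nat_lit 0) (nat_lit 1846419001633) (nat_lit 228) (nat_lit 2398781128327) (nat_lit 304) (nat_lit 753065506974) (nat_lit 65) (nat_lit 5) (nat_lit 68) (nat_lit 5) (nat_lit 69) (nat_lit 5) (nat_lit 498) (nat_lit 486) (nat_lit 216)) (XT.lf (nat_lit 0) (nat_lit 4894193371093) (nat_lit 228) (nat_lit 301066582884) (nat_lit 304) (nat_lit 32652837791) (nat_lit 65) (nat_lit 5) (nat_lit 68) (nat_lit 5) (nat_lit 69) (nat_lit 5) (nat_lit 499) (nat_lit 486)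 (nat_lit 215))) (XT.nd (nat_lit 78) (nat_lit 228) (nat_lit 0) (XT.lf (nat_lit 0) (nat_lit 825736630493) (nat_lit 228) (nat_lit 2684843181312) (nat_lit 76) (nat_lit 1954507261553) (nat_lit 62) (nat_lit 5) (nat_lit 65) (nat_lit 5) (nat_lit 63) (nat_lit 5) (nat_lit 500) (nat_lit 486) (nat_lit 214)) (XT.lf (nat_lit 0) (nat_lit 455688181494) (nat_lit 228) (nat_lit 1323485675896) (nat_lit 304) (nat_lit 3939742333832) (nat_lit 59) (nat_lit 5) (nat_lit 62) (nat_lit 5) (nat_lit 63) (nat_lit 5) (nat_lit 501) (nat_lit 486) (nat_lit 213))))))))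
noncomputable def xc244 : XT := (XT.nd (nat_lit 61620) (nat_lit 0) (nat_lit 608) (XT.nd (nat_lit 936) (nat_lit 684) (nat_lit 0) (XT.nd (nat_lit 468) (nat_lit 532) (nat_lit 0) (XT.nd (nat_lit 234) (nat_lit 380) (nat_lit 0) (XT.nd (nat_lit 78) (nat_lit 152) (nat_lit 0) (XT.lf (nat_lit 0) (nat_lit 2909178921155) (nat_lit 304) (nat_lit 2013911993738) (nat_lit 76) (nat_lit 1061937294924) (nat_lit 59) (nat_lit 5) (nat_lit 63) (nat_lit 5) (nat_lit 60) (nat_lit 5) (nat_lit 502) (nat_lit 486) (nat_lit 212)) (XT.nd (nat_lit 78) (nat_lit 0) (nat_lit 0) (XT.lf (nat_lit 0) (nat_lit 1537905303674) (nat_lit 152) (nat_lit 2663041996936) (nat_lit 228) (nat_lit 2065772856444) (nat_lit 57) (nat_lit 5) (nat_lit 59) (nat_lit 5) (nat_lit 60) (nat_lit 5) (nat_lit 503) (nat_lit 486) (nat_lit 211)) (XT.lf (nat_lit 0) (nat_lit 5488400944076) (nat_lit 152) (nat_lit 162720128952) (nat_lit 228) (nat_lit 915421273232)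 (nat_lit 57) (nat_lit 5) (nat_lit 59) (nat_lit 5) (nat_lit 60) (nat_lit 5) (nat_lit 504) (nat_lit 486) (nat_lit 210)))) (XT.nd (nat_lit 78) (nat_lit 152) (nat_lit 0) (XT.lf (nat_lit 0) (nat_lit 446037482538) (nat_lit 228) (nat_lit 3939895701494) (nat_lit 76) (nat_lit 2492953271423) (nat_lit 54) (nat_lit 5) (nat_lit 57) (nat_lit 5) (nat_lit 55) (nat_lit 5) (nat_lit 505) (nat_lit 486) (nat_lit 209)) (XT.nd (nat_lit 78) (nat_lit 0) (nat_lit 0) (XT.lf (nat_lit 0) (nat_lit 101243791080) (nat_lit 152) (nat_lit 1802618000592) (nat_lit 228) (nat_lit 5307501697332) (nat_lit 52) (nat_lit 5) (nat_lit 54) (nat_lit 5) (nat_lit 55) (nat_lit 5) (nat_lit 506) (nat_lit 486) (nat_lit 208)) (XT.lf (nat_lit 0) (nat_lit 3612579884259) (nat_lit 228) (nat_lit 2898625092889) (nat_lit 76) (nat_lit 1048492280991) (nat_lit 52) (nat_lit 5) (nat_lit 55) (nat_lit 5) (nat_lit 53) (nat_lit 5) (nat_lit 507) (nat_lit 486)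 (nat_lit 207))))) (XT.nd (nat_lit 234) (nat_lit 228) (nat_lit 0) (XT.nd (nat_lit 78) (nat_lit 152) (nat_lit 0) (XT.lf (nat_lit 0) (nat_lit 1687377278845) (nat_lit 152) (nat_lit 3858020856097) (nat_lit 228) (nat_lit 2383507377008) (nat_lit 50) (nat_lit 5) (nat_lit 52) (nat_lit 5) (nat_lit 53) (nat_lit 5) (nat_lit 508) (nat_lit 486) (nat_lit 206)) (XT.nd (nat_lit 78) (nat_lit 152) (nat_lit 0) (XT.lf (nat_lit 0) (nat_lit 6805107217423) (nat_lit 152) (nat_lit 906988174893) (nat_lit 228) (nat_lit 609214750019) (nat_lit 50) (nat_lit 5) (nat_lit 52) (nat_lit 5) (nat_lit 53) (nat_lit 5) (nat_lit 509) (nat_lit 486) (nat_lit 205)) (XT.lf (nat_lit 0) (nat_lit 1389648586681) (nat_lit 152) (nat_lit 5050430554333) (nat_lit 76) (nat_lit 2290672506843) (nat_lit 48) (nat_lit 5) (nat_lit 50) (nat_lit 5) (nat_lit 49) (nat_lit 5) (nat_lit 510) (nat_lit 486) (nat_lit 204)))) (XT.nd (nat_lit 78) (nat_lit 76)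 (nat_lit 0) (XT.lf (nat_lit 0) (nat_lit 177587813853) (nat_lit 152) (nat_lit 3408281327305) (nat_lit 228) (nat_lit 5580184506194) (nat_lit 46) (nat_lit 5) (nat_lit 48) (nat_lit 5) (nat_lit 49) (nat_lit 5) (nat_lit 511) (nat_lit 486) (nat_lit 203)) (XT.nd (nat_lit 78) (nat_lit 76) (nat_lit 0) (XT.lf (nat_lit 0) (nat_lit 6096240502623) (nat_lit 228) (nat_lit 3514428118564) (nat_lit 76) (nat_lit 14434932608) (nat_lit 46) (nat_lit 5) (nat_lit 49) (nat_lit 5) (nat_lit 47) (nat_lit 4) (nat_lit 512) (nat_lit 486) (nat_lit 202)) (XT.lf (nat_lit 0) (nat_lit 2430593980405) (nat_lit 76) (nat_lit 6523830223831) (nat_lit 152) (nat_lit 1154694638021) (nat_lit 45) (nat_lit 5) (nat_lit 46) (nat_lit 5) (nat_lit 47) (nat_lit 4) (nat_lit 513) (nat_lit 486) (nat_lit 201)))))) (XT.nd (nat_lit 468) (nat_lit 228) (nat_lit 0) (XT.nd (nat_lit 234) (nat_lit 152) (nat_lit 0) (XT.nd (nat_lit 78) (nat_lit 228) (nat_lit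 0) (XT.lf (nat_lit 0) (nat_lit 1437489544335) (nat_lit 152) (nat_lit 1609473750591) (nat_lit 76) (nat_lit 7574293432225) (nat_lit 44) (nat_lit 5) (nat_lit 46) (nat_lit 5) (nat_lit 45) (nat_lit 5) (nat_lit 514) (nat_lit 486) (nat_lit 200)) (XT.nd (nat_lit 78) (nat_lit 76) (nat_lit 0) (XT.lf (nat_lit 0) (nat_lit 4320137843480) (nat_lit 228) (nat_lit 6009121031019) (nat_lit 76) (nat_lit 831069572078) (nat_lit 42) (nat_lit 5) (nat_lit 45) (nat_lit 5) (nat_lit 43) (nat_lit 4) (nat_lit 515) (nat_lit 486) (nat_lit 199)) (XT.lf (nat_lit 0) (nat_lit 763161346792) (nat_lit 76) (nat_lit 6812881486157) (nat_lit 152) (nat_lit 4155071484497) (nat_lit 41) (nat_lit 5) (nat_lit 42) (nat_lit 5) (nat_lit 43) (nat_lit 4) (nat_lit 516) (nat_lit 486) (nat_lit 198)))) (XT.nd (nat_lit 78) (nat_lit 152) (nat_lit 0) (XT.lf (nat_lit 0) (nat_lit 8418970352126) (nat_lit 76) (nat_lit 2837749887360) (nat_lit 152) (nat_lit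 1077698817066) (nat_lit 41) (nat_lit 5) (nat_lit 42) (nat_lit 5) (nat_lit 43) (nat_lit 4) (nat_lit 517) (nat_lit 486) (nat_lit 197)) (XT.nd (nat_lit 78) (nat_lit 0) (nat_lit 0) (XT.lf (nat_lit 0) (nat_lit 2264655202662) (nat_lit 152) (nat_lit 9173783610174) (nat_lit 76) (nat_lit 1532737217126) (nat_lit 39) (nat_lit 5) (nat_lit 41) (nat_lit 5) (nat_lit 40) (nat_lit 4) (nat_lit 518) (nat_lit 486) (nat_lit 196)) (XT.lf (nat_lit 0) (nat_lit 5999717568465) (nat_lit 152) (nat_lit 1404853889512) (nat_lit 76) (nat_lit 6237379228880) (nat_lit 39) (nat_lit 5) (nat_lit 41) (nat_lit 5) (nat_lit 40) (nat_lit 4) (nat_lit 519) (nat_lit 486) (nat_lit 195))))) (XT.nd (nat_lit 59904) (nat_lit 0) (nat_lit 2964) (XT.nd (nat_lit 78) (nat_lit 152) (nat_lit 0) (XT.lf (nat_lit 0) (nat_lit 7353439009412) (nat_lit 76) (nat_lit 2856996299013) (nat_lit 152) (nat_lit 4141803977086) (nat_lit 38) (nat_lit 5) (nat_lit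 39) (nat_lit 5) (nat_lit 40) (nat_lit 4) (nat_lit 520) (nat_lit 486) (nat_lit 194)) (XT.nd (nat_lit 78) (nat_lit 76) (nat_lit 0) (XT.lf (nat_lit 0) (nat_lit 1816474248761) (nat_lit 76) (nat_lit 13074039361984) (nat_lit 76) (nat_lit 218237109860) (nat_lit 37) (nat_lit 4) (nat_lit 38) (nat_lit 5) (nat_lit 38) (nat_lit 4) (nat_lit 521) (nat_lit 486) (nat_lit 193)) (XT.lf (nat_lit 0) (nat_lit 4088695366903) (nat_lit 152) (nat_lit 4351315889116) (nat_lit 76) (nat_lit 7456395822672) (nat_lit 36) (nat_lit 5) (nat_lit 38) (nat_lit 5) (nat_lit 37) (nat_lit 4) (nat_lit 522) (nat_lit 486) (nat_lit 192)))) (XT.nd (nat_lit 156) (nat_lit 456) (nat_lit 0) (XT.nd (nat_lit 78) (nat_lit 0) (nat_lit 0) (XT.lf (nat_lit 0) (nat_lit 1591948648645) (nat_lit 532) (nat_lit 25197658349) (nat_lit 532) (nat_lit 25197658349) (nat_lit 81) (nat_lit 3) (nat_lit 88) (nat_lit 3) (nat_lit 88) (nat_lit 5) (nat_lit 487) (nat_lit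 487) (nat_lit 226)) (XT.lf (nat_lit 76) (nat_lit 1661957892430) (nat_lit 0) (nat_lit 1689265429753) (nat_lit 532) (nat_lit 61654515090) (nat_lit 82) (nat_lit 5) (nat_lit 81) (nat_lit 3) (nat_lit 88) (nat_lit 5) (nat_lit 488) (nat_lit 487) (nat_lit 225))) (XT.nd (nat_lit 78) (nat_lit 456) (nat_lit 0) (XT.lf (nat_lit 76) (nat_lit 3514165384279) (nat_lit 0) (nat_lit 19147941475) (nat_lit 532) (nat_lit 17899378896) (nat_lit 82) (nat_lit 5) (nat_lit 81) (nat_lit 3) (nat_lit 88) (nat_lit 5) (nat_lit 489) (nat_lit 487) (nat_lit 224)) (XT.lf (nat_lit 0) (nat_lit 117922017546) (nat_lit 532) (nat_lit 1832304819523) (nat_lit 608) (nat_lit 1743128293924) (nat_lit 75) (nat_lit 5) (nat_lit 82) (nat_lit 5) (nat_lit 83) (nat_lit 5) (nat_lit 490) (nat_lit 487) (nat_lit 223))))))) (XT.nd (nat_lit 936) (nat_lit 1140) (nat_lit 0) (XT.nd (nat_lit 468) (nat_lit 912) (nat_lit 0) (XT.nd (nat_lit 234) (nat_lit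 304) (nat_lit 0) (XT.nd (nat_lit 78) (nat_lit 0) (nat_lit 76) (XT.lf (nat_lit 76) (nat_lit 68766133462) (nat_lit 0) (nat_lit 198066386149) (nat_lit 608) (nat_lit 3579744004293) (nat_lit 76) (nat_lit 5) (nat_lit 75) (nat_lit 5) (nat_lit 83) (nat_lit 5) (nat_lit 491) (nat_lit 487) (nat_lit 222)) (XT.nd (nat_lit 78) (nat_lit 0) (nat_lit 0) (XT.lf (nat_lit 0) (nat_lit 519802740686) (nat_lit 532) (nat_lit 1823968608882) (nat_lit 608) (nat_lit 1660912528373) (nat_lit 76) (nat_lit 5) (nat_lit 83) (nat_lit 5) (nat_lit 84) (nat_lit 5) (nat_lit 492) (nat_lit 487) (nat_lit 221)) (XT.lf (nat_lit 76) (nat_lit 295834787586) (nat_lit 0) (nat_lit 509435206630) (nat_lit 608) (nat_lit 3369189072904) (nat_lit 77) (nat_lit 5) (nat_lit 76) (nat_lit 5) (nat_lit 84) (nat_lit 5) (nat_lit 493) (nat_lit 487) (nat_lit 220)))) (XT.nd (nat_lit 78) (nat_lit 456) (nat_lit 0) (XT.lf (nat_lit 0) (nat_lit 1200133665925)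 (nat_lit 532) (nat_lit 1701561966566) (nat_lit 76) (nat_lit 1449195915911) (nat_lit 77) (nat_lit 5) (nat_lit 84) (nat_lit 5) (nat_lit 78) (nat_lit 5) (nat_lit 494) (nat_lit 487) (nat_lit 219)) (XT.nd (nat_lit 78) (nat_lit 0) (nat_lit 0) (XT.lf (nat_lit 0) (nat_lit 669946694755) (nat_lit 456) (nat_lit 985984053637) (nat_lit 532) (nat_lit 2883160334433) (nat_lit 71) (nat_lit 5) (nat_lit 77) (nat_lit 5) (nat_lit 78) (nat_lit 5) (nat_lit 495) (nat_lit 487) (nat_lit 218)) (XT.lf (nat_lit 0) (nat_lit 2221969527087) (nat_lit 532) (nat_lit 1437933507493) (nat_lit 76) (nat_lit 1076541311050) (nat_lit 71) (nat_lit 5) (nat_lit 78) (nat_lit 5) (nat_lit 72) (nat_lit 5) (nat_lit 496) (nat_lit 487) (nat_lit 217))))) (XT.nd (nat_lit 234) (nat_lit 456) (nat_lit 0) (XT.nd (nat_lit 78) (nat_lit 228) (nat_lit 0) (XT.lf (nat_lit 0) (nat_lit 1223361778558) (nat_lit 228) (nat_lit 1664961484793) (nat_lit 304)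 (nat_lit 2056860057688) (nat_lit 68) (nat_lit 5) (nat_lit 71) (nat_lit 5) (nat_lit 72) (nat_lit 5) (nat_lit 497) (nat_lit 487) (nat_lit 216)) (XT.nd (nat_lit 78) (nat_lit 228) (nat_lit 0) (XT.lf (nat_lit 0) (nat_lit 3660096434126) (nat_lit 304) (nat_lit 1000934408248) (nat_lit 76) (nat_lit 505421681257) (nat_lit 68) (nat_lit 5) (nat_lit 72) (nat_lit 5) (nat_lit 69) (nat_lit 5) (nat_lit 498) (nat_lit 487) (nat_lit 215)) (XT.lf (nat_lit 0) (nat_lit 1994132528904) (nat_lit 228) (nat_lit 2590683617488) (nat_lit 304) (nat_lit 813310741013) (nat_lit 65) (nat_lit 5) (nat_lit 68) (nat_lit 5) (nat_lit 69) (nat_lit 5) (nat_lit 499) (nat_lit 487) (nat_lit 214)))) (XT.nd (nat_lit 78) (nat_lit 456) (nat_lit 0) (XT.lf (nat_lit 0) (nat_lit 5285728847392) (nat_lit 228) (nat_lit 325151908492) (nat_lit 304) (nat_lit 35265058777) (nat_lit 65) (nat_lit 5) (nat_lit 68) (nat_lit 5) (nat_lit 69) (nat_lit 5) (nat_lit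 500) (nat_lit 487) (nat_lit 213)) (XT.nd (nat_lit 78) (nat_lit 228) (nat_lit 0) (XT.lf (nat_lit 0) (nat_lit 891795566435) (nat_lit 228) (nat_lit 2899630628669) (nat_lit 76) (nat_lit 2110867843681) (nat_lit 62) (nat_lit 5) (nat_lit 65) (nat_lit 5) (nat_lit 63) (nat_lit 5) (nat_lit 501) (nat_lit 487) (nat_lit 212)) (XT.lf (nat_lit 0) (nat_lit 492143242981) (nat_lit 228) (nat_lit 1429364528263) (nat_lit 304) (nat_lit 4254921714854) (nat_lit 59) (nat_lit 5) (nat_lit 62) (nat_lit 5) (nat_lit 63) (nat_lit 5) (nat_lit 502) (nat_lit 487) (nat_lit 211)))))) (XT.nd (nat_lit 468) (nat_lit 608) (nat_lit 0) (XT.nd (nat_lit 234) (nat_lit 380) (nat_lit 0) (XT.nd (nat_lit 78) (nat_lit 152) (nat_lit 0) (XT.lf (nat_lit 0) (nat_lit 3141913239758) (nat_lit 304) (nat_lit 2175024946434) (nat_lit 76) (nat_lit 1146892280017) (nat_lit 59) (nat_lit 5) (nat_lit 63) (nat_lit 5) (nat_lit 60) (nat_lit 5) (nat_lit 503)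 (nat_lit 487) (nat_lit 210)) (XT.nd (nat_lit 78) (nat_lit 0) (nat_lit 0) (XT.lf (nat_lit 0) (nat_lit 1660937734599) (nat_lit 152) (nat_lit 2876085354766) (nat_lit 228) (nat_lit 2231034679875) (nat_lit 57) (nat_lit 5) (nat_lit 59) (nat_lit 5) (nat_lit 60) (nat_lit 5) (nat_lit 504) (nat_lit 487) (nat_lit 209)) (XT.lf (nat_lit 0) (nat_lit 5927473025742) (nat_lit 152) (nat_lit 175737737486) (nat_lit 228) (nat_lit 988654970383) (nat_lit 57) (nat_lit 5) (nat_lit 59) (nat_lit 5) (nat_lit 60) (nat_lit 5) (nat_lit 505) (nat_lit 487) (nat_lit 208)))) (XT.nd (nat_lit 78) (nat_lit 152) (nat_lit 0) (XT.lf (nat_lit 0) (nat_lit 481720485477) (nat_lit 228) (nat_lit 4255087351101) (nat_lit 76) (nat_lit 2692389534965) (nat_lit 54) (nat_lit 5) (nat_lit 57) (nat_lit 5) (nat_lit 55) (nat_lit 5) (nat_lit 506) (nat_lit 487) (nat_lit 207)) (XT.nd (nat_lit 78) (nat_lit 0) (nat_lit 0) (XT.lf (nat_lit 0) (nat_lit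 109343300714) (nat_lit 152) (nat_lit 1946827438459) (nat_lit 228) (nat_lit 5732101828617) (nat_lit 52) (nat_lit 5) (nat_lit 54) (nat_lit 5) (nat_lit 55) (nat_lit 5) (nat_lit 507) (nat_lit 487) (nat_lit 206)) (XT.lf (nat_lit 0) (nat_lit 3901586278908) (nat_lit 228) (nat_lit 3130515094182) (nat_lit 76) (nat_lit 1132371665387) (nat_lit 52) (nat_lit 5) (nat_lit 55) (nat_lit 5) (nat_lit 53) (nat_lit 5) (nat_lit 508) (nat_lit 487) (nat_lit 205))))) (XT.nd (nat_lit 234) (nat_lit 304) (nat_lit 0) (XT.nd (nat_lit 78) (nat_lit 152) (nat_lit 0) (XT.lf (nat_lit 0) (nat_lit 1822367467136) (nat_lit 152) (nat_lit 4166662522364) (nat_lit 228) (nat_lit 2574187963105) (nat_lit 50) (nat_lit 5) (nat_lit 52) (nat_lit 5) (nat_lit 53) (nat_lit 5) (nat_lit 509) (nat_lit 487) (nat_lit 204)) (XT.nd (nat_lit 78) (nat_lit 152) (nat_lit 0) (XT.lf (nat_lit 0) (nat_lit 7349515800357) (nat_lit 152) (nat_lit 979547226828)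 (nat_lit 228) (nat_lit 657951926259) (nat_lit 50) (nat_lit 5) (nat_lit 52) (nat_lit 5) (nat_lit 53) (nat_lit 5) (nat_lit 510) (nat_lit 487) (nat_lit 203)) (XT.lf (nat_lit 0) (nat_lit 1500820477111) (nat_lit 152) (nat_lit 5454464992872) (nat_lit 76) (nat_lit 2473926309422) (nat_lit 48) (nat_lit 5) (nat_lit 50) (nat_lit 5) (nat_lit 49) (nat_lit 5) (nat_lit 511) (nat_lit 487) (nat_lit 202)))) (XT.nd (nat_lit 156) (nat_lit 152) (nat_lit 0) (XT.nd (nat_lit 78) (nat_lit 0) (nat_lit 0) (XT.lf (nat_lit 0) (nat_lit 191794844622) (nat_lit 152) (nat_lit 3680943831201) (nat_lit 228) (nat_lit 6026599263047) (nat_lit 46) (nat_lit 5) (nat_lit 48) (nat_lit 5) (nat_lit 49) (nat_lit 5) (nat_lit 512) (nat_lit 487) (nat_lit 201)) (XT.lf (nat_lit 0) (nat_lit 6583939746007) (nat_lit 228) (nat_lit 3795582362609) (nat_lit 76) (nat_lit 15589729230) (nat_lit 46) (nat_lit 5) (nat_lit 49) (nat_lit 5) (nat_lit 47)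 (nat_lit 4) (nat_lit 513) (nat_lit 487) (nat_lit 200))) (XT.nd (nat_lit 78) (nat_lit 76) (nat_lit 0) (XT.lf (nat_lit 0) (nat_lit 2625041504140) (nat_lit 76) (nat_lit 7045736639501) (nat_lit 152) (nat_lit 1247070205751) (nat_lit 45) (nat_lit 5) (nat_lit 46) (nat_lit 5) (nat_lit 47) (nat_lit 4) (nat_lit 514) (nat_lit 487) (nat_lit 199)) (XT.lf (nat_lit 0) (nat_lit 1552488710795) (nat_lit 152) (nat_lit 1738231645575) (nat_lit 76) (nat_lit 8180236908720) (nat_lit 44) (nat_lit 5) (nat_lit 46) (nat_lit 5) (nat_lit 45) (nat_lit 5) (nat_lit 515) (nat_lit 487) (nat_lit 198))))))))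
noncomputable def xc245 : XT := (XT.nd (nat_lit 61698) (nat_lit 0) (nat_lit 152) (XT.nd (nat_lit 60684) (nat_lit 0) (nat_lit 1520) (XT.nd (nat_lit 468) (nat_lit 76) (nat_lit 0) (XT.nd (nat_lit 234) (nat_lit 228) (nat_lit 0) (XT.nd (nat_lit 78) (nat_lit 76) (nat_lit 0) (XT.lf (nat_lit 0) (nat_lit 4665748873826) (nat_lit 228) (nat_lit 6489850708391) (nat_lit 76) (nat_lit 897555139858) (nat_lit 42) (nat_lit 5) (nat_lit 45) (nat_lit 5) (nat_lit 43) (nat_lit 4) (nat_lit 516) (nat_lit 487) (nat_lit 197)) (XT.nd (nat_lit 78) (nat_lit 0) (nat_lit 0) (XT.lf (nat_lit 0) (nat_lit 824214259516) (nat_lit 76) (nat_lit 7357912002843) (nat_lit 152) (nat_lit 4487477200260) (nat_lit 41) (nat_lit 5) (nat_lit 42) (nat_lit 5) (nat_lit 43) (nat_lit 4) (nat_lit 517) (nat_lit 487) (nat_lit 196)) (XT.lf (nat_lit 0) (nat_lit 9092487984907) (nat_lit 76) (nat_lit 3064769876306) (nat_lit 152) (nat_lit 1163914719657)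 (nat_lit 41) (nat_lit 5) (nat_lit 42) (nat_lit 5) (nat_lit 43) (nat_lit 4) (nat_lit 518) (nat_lit 487) (nat_lit 195)))) (XT.nd (nat_lit 78) (nat_lit 76) (nat_lit 0) (XT.lf (nat_lit 0) (nat_lit 2445827621477) (nat_lit 152) (nat_lit 9907686294203) (nat_lit 76) (nat_lit 1655356196471) (nat_lit 39) (nat_lit 5) (nat_lit 41) (nat_lit 5) (nat_lit 40) (nat_lit 4) (nat_lit 519) (nat_lit 487) (nat_lit 194)) (XT.nd (nat_lit 78) (nat_lit 76) (nat_lit 0) (XT.lf (nat_lit 0) (nat_lit 6479694976351) (nat_lit 152) (nat_lit 1517242196243) (nat_lit 76) (nat_lit 6736369569018) (nat_lit 39) (nat_lit 5) (nat_lit 41) (nat_lit 5) (nat_lit 40) (nat_lit 4) (nat_lit 520) (nat_lit 487) (nat_lit 193)) (XT.lf (nat_lit 0) (nat_lit 7941714134483) (nat_lit 76) (nat_lit 3085556000951) (nat_lit 152) (nat_lit 4473148292732) (nat_lit 38) (nat_lit 5) (nat_lit 39) (nat_lit 5) (nat_lit 40) (nat_lit 4) (nat_lit 521) (nat_lit 487)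 (nat_lit 192))))) (XT.nd (nat_lit 59982) (nat_lit 0) (nat_lit 2888) (XT.nd (nat_lit 59826) (nat_lit 0) (nat_lit 3344) (XT.lf (nat_lit 0) (nat_lit 1961792193007) (nat_lit 76) (nat_lit 14119962508908) (nat_lit 76) (nat_lit 235696076154) (nat_lit 37) (nat_lit 4) (nat_lit 38) (nat_lit 5) (nat_lit 38) (nat_lit 4) (nat_lit 522) (nat_lit 487) (nat_lit 191)) (XT.nd (nat_lit 78) (nat_lit 0) (nat_lit 0) (XT.lf (nat_lit 0) (nat_lit 1719304546117) (nat_lit 532) (nat_lit 27213468002) (nat_lit 532) (nat_lit 27213468002) (nat_lit 81) (nat_lit 3) (nat_lit 88) (nat_lit 3) (nat_lit 88) (nat_lit 5) (nat_lit 488) (nat_lit 488) (nat_lit 224)) (XT.lf (nat_lit 76) (nat_lit 1794914529701) (nat_lit 0) (nat_lit 1824406668733) (nat_lit 532) (nat_lit 66586864980) (nat_lit 82) (nat_lit 5) (nat_lit 81) (nat_lit 3) (nat_lit 88) (nat_lit 5) (nat_lit 489) (nat_lit 488) (nat_lit 223)))) (XT.nd (nat_lit 78) (nat_lit 456)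 (nat_lit 0) (XT.lf (nat_lit 76) (nat_lit 3795298620462) (nat_lit 0) (nat_lit 20679781053) (nat_lit 532) (nat_lit 19331318729) (nat_lit 82) (nat_lit 5) (nat_lit 81) (nat_lit 3) (nat_lit 88) (nat_lit 5) (nat_lit 490) (nat_lit 488) (nat_lit 222)) (XT.nd (nat_lit 78) (nat_lit 0) (nat_lit 0) (XT.lf (nat_lit 0) (nat_lit 127355788222) (nat_lit 532) (nat_lit 1978889198432) (nat_lit 608) (nat_lit 1882578554074) (nat_lit 75) (nat_lit 5) (nat_lit 82) (nat_lit 5) (nat_lit 83) (nat_lit 5) (nat_lit 491) (nat_lit 488) (nat_lit 221)) (XT.lf (nat_lit 76) (nat_lit 74267430623) (nat_lit 0) (nat_lit 213911699298) (nat_lit 608) (nat_lit 3866123515194) (nat_lit 76) (nat_lit 5) (nat_lit 75) (nat_lit 5) (nat_lit 83) (nat_lit 5) (nat_lit 492) (nat_lit 488) (nat_lit 220)))))) (XT.nd (nat_lit 468) (nat_lit 836) (nat_lit 0) (XT.nd (nat_lit 234) (nat_lit 608) (nat_lit 0) (XT.nd (nat_lit 78) (nat_lit 0) (nat_lit 0)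 (XT.lf (nat_lit 0) (nat_lit 561386967985) (nat_lit 532) (nat_lit 1969886090889) (nat_lit 608) (nat_lit 1793785528657) (nat_lit 76) (nat_lit 5) (nat_lit 83) (nat_lit 5) (nat_lit 84) (nat_lit 5) (nat_lit 493) (nat_lit 488) (nat_lit 219)) (XT.nd (nat_lit 78) (nat_lit 0) (nat_lit 76) (XT.lf (nat_lit 76) (nat_lit 319501577127) (nat_lit 0) (nat_lit 550190024232) (nat_lit 608) (nat_lit 3638724190521) (nat_lit 77) (nat_lit 5) (nat_lit 76) (nat_lit 5) (nat_lit 84) (nat_lit 5) (nat_lit 494) (nat_lit 488) (nat_lit 218)) (XT.lf (nat_lit 0) (nat_lit 1296144366217) (nat_lit 532) (nat_lit 1837686917252) (nat_lit 76) (nat_lit 1565131588242) (nat_lit 77) (nat_lit 5) (nat_lit 84) (nat_lit 5) (nat_lit 78) (nat_lit 5) (nat_lit 495) (nat_lit 488) (nat_lit 217)))) (XT.nd (nat_lit 78) (nat_lit 228) (nat_lit 0) (XT.lf (nat_lit 0) (nat_lit 723542436806) (nat_lit 456) (nat_lit 1064862778111) (nat_lit 532) (nat_lit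 3113813154000) (nat_lit 71) (nat_lit 5) (nat_lit 77) (nat_lit 5) (nat_lit 78) (nat_lit 5) (nat_lit 496) (nat_lit 488) (nat_lit 216)) (XT.nd (nat_lit 78) (nat_lit 228) (nat_lit 0) (XT.lf (nat_lit 0) (nat_lit 2399727095410) (nat_lit 532) (nat_lit 1552968181603) (nat_lit 76) (nat_lit 1162664615773) (nat_lit 71) (nat_lit 5) (nat_lit 78) (nat_lit 5) (nat_lit 72) (nat_lit 5) (nat_lit 497) (nat_lit 488) (nat_lit 215)) (XT.lf (nat_lit 0) (nat_lit 1321230727168) (nat_lit 228) (nat_lit 1798158403104) (nat_lit 304) (nat_lit 2221408855981) (nat_lit 68) (nat_lit 5) (nat_lit 71) (nat_lit 5) (nat_lit 72) (nat_lit 5) (nat_lit 498) (nat_lit 488) (nat_lit 214))))) (XT.nd (nat_lit 234) (nat_lit 608) (nat_lit 0) (XT.nd (nat_lit 78) (nat_lit 228) (nat_lit 0) (XT.lf (nat_lit 0) (nat_lit 3952904154286) (nat_lit 304) (nat_lit 1081009154627) (nat_lit 76) (nat_lit 545855416174) (nat_lit 68) (nat_lit 5) (nat_lit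 72) (nat_lit 5) (nat_lit 69) (nat_lit 5) (nat_lit 499) (nat_lit 488) (nat_lit 213)) (XT.nd (nat_lit 78) (nat_lit 0) (nat_lit 0) (XT.lf (nat_lit 0) (nat_lit 2153663137338) (nat_lit 228) (nat_lit 2797938305940) (nat_lit 304) (nat_lit 878375594704) (nat_lit 65) (nat_lit 5) (nat_lit 68) (nat_lit 5) (nat_lit 69) (nat_lit 5) (nat_lit 500) (nat_lit 488) (nat_lit 212)) (XT.lf (nat_lit 0) (nat_lit 5708587160852) (nat_lit 228) (nat_lit 351164060294) (nat_lit 304) (nat_lit 38086258304) (nat_lit 65) (nat_lit 5) (nat_lit 68) (nat_lit 5) (nat_lit 69) (nat_lit 5) (nat_lit 501) (nat_lit 488) (nat_lit 211)))) (XT.nd (nat_lit 156) (nat_lit 152) (nat_lit 0) (XT.nd (nat_lit 78) (nat_lit 228) (nat_lit 0) (XT.lf (nat_lit 0) (nat_lit 963139216468) (nat_lit 228) (nat_lit 3131601072834) (nat_lit 76) (nat_lit 2279737272208) (nat_lit 62) (nat_lit 5) (nat_lit 65) (nat_lit 5) (nat_lit 63) (nat_lit 5) (nat_lit 502)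 (nat_lit 488) (nat_lit 210)) (XT.lf (nat_lit 0) (nat_lit 531514708393) (nat_lit 228) (nat_lit 1543713689063) (nat_lit 304) (nat_lit 4595315447168) (nat_lit 59) (nat_lit 5) (nat_lit 62) (nat_lit 5) (nat_lit 63) (nat_lit 5) (nat_lit 503) (nat_lit 488) (nat_lit 209))) (XT.nd (nat_lit 78) (nat_lit 152) (nat_lit 0) (XT.lf (nat_lit 0) (nat_lit 3393266303149) (nat_lit 304) (nat_lit 2349026936316) (nat_lit 76) (nat_lit 1238643663704) (nat_lit 59) (nat_lit 5) (nat_lit 63) (nat_lit 5) (nat_lit 60) (nat_lit 5) (nat_lit 504) (nat_lit 488) (nat_lit 208)) (XT.lf (nat_lit 0) (nat_lit 1793812759053) (nat_lit 152) (nat_lit 3106172181497) (nat_lit 228) (nat_lit 2409517449907) (nat_lit 57) (nat_lit 5) (nat_lit 59) (nat_lit 5) (nat_lit 60) (nat_lit 5) (nat_lit 505) (nat_lit 488) (nat_lit 207))))))) (XT.nd (nat_lit 936) (nat_lit 228) (nat_lit 0) (XT.nd (nat_lit 468) (nat_lit 608) (nat_lit 0) (XT.nd (nat_lit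 234) (nat_lit 152) (nat_lit 0) (XT.nd (nat_lit 78) (nat_lit 380) (nat_lit 0) (XT.lf (nat_lit 0) (nat_lit 6401670873066) (nat_lit 152) (nat_lit 189796754957) (nat_lit 228) (nat_lit 1067747363978) (nat_lit 57) (nat_lit 5) (nat_lit 59) (nat_lit 5) (nat_lit 60) (nat_lit 5) (nat_lit 506) (nat_lit 488) (nat_lit 206)) (XT.nd (nat_lit 78) (nat_lit 152) (nat_lit 0) (XT.lf (nat_lit 0) (nat_lit 520258128033) (nat_lit 228) (nat_lit 4595494333606) (nat_lit 76) (nat_lit 2907780699330) (nat_lit 54) (nat_lit 5) (nat_lit 57) (nat_lit 5) (nat_lit 55) (nat_lit 5) (nat_lit 507) (nat_lit 488) (nat_lit 205)) (XT.lf (nat_lit 0) (nat_lit 118090770213) (nat_lit 152) (nat_lit 2102573631667) (nat_lit 228) (nat_lit 6190669971046) (nat_lit 52) (nat_lit 5) (nat_lit 54) (nat_lit 5) (nat_lit 55) (nat_lit 5) (nat_lit 508) (nat_lit 488) (nat_lit 204)))) (XT.nd (nat_lit 78) (nat_lit 152) (nat_lit 0) (XT.lf (nat_lit 0) (nat_lit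 4213713184570) (nat_lit 228) (nat_lit 3380956296455) (nat_lit 76) (nat_lit 1222961400262) (nat_lit 52) (nat_lit 5) (nat_lit 55) (nat_lit 5) (nat_lit 53) (nat_lit 5) (nat_lit 509) (nat_lit 488) (nat_lit 203)) (XT.nd (nat_lit 78) (nat_lit 0) (nat_lit 0) (XT.lf (nat_lit 0) (nat_lit 1968156869636) (nat_lit 152) (nat_lit 4499995522249) (nat_lit 228) (nat_lit 2780122996670) (nat_lit 50) (nat_lit 5) (nat_lit 52) (nat_lit 5) (nat_lit 53) (nat_lit 5) (nat_lit 510) (nat_lit 488) (nat_lit 202)) (XT.lf (nat_lit 0) (nat_lit 7937477069135) (nat_lit 152) (nat_lit 1057911003211) (nat_lit 228) (nat_lit 710588077134) (nat_lit 50) (nat_lit 5) (nat_lit 52) (nat_lit 5) (nat_lit 53) (nat_lit 5) (nat_lit 511) (nat_lit 488) (nat_lit 201))))) (XT.nd (nat_lit 234) (nat_lit 304) (nat_lit 0) (XT.nd (nat_lit 78) (nat_lit 152) (nat_lit 0) (XT.lf (nat_lit 0) (nat_lit 1620886118277) (nat_lit 152) (nat_lit 5890822187322)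 (nat_lit 76) (nat_lit 2671840415919) (nat_lit 48) (nat_lit 5) (nat_lit 50) (nat_lit 5) (nat_lit 49) (nat_lit 5) (nat_lit 512) (nat_lit 488) (nat_lit 200)) (XT.nd (nat_lit 78) (nat_lit 0) (nat_lit 0) (XT.lf (nat_lit 0) (nat_lit 207138437044) (nat_lit 152) (nat_lit 3975419335735) (nat_lit 228) (nat_lit 6508727200968) (nat_lit 46) (nat_lit 5) (nat_lit 48) (nat_lit 5) (nat_lit 49) (nat_lit 5) (nat_lit 513) (nat_lit 488) (nat_lit 199)) (XT.lf (nat_lit 0) (nat_lit 7110654928408) (nat_lit 228) (nat_lit 4099228946953) (nat_lit 76) (nat_lit 16836909294) (nat_lit 46) (nat_lit 5) (nat_lit 49) (nat_lit 5) (nat_lit 47) (nat_lit 4) (nat_lit 514) (nat_lit 488) (nat_lit 198)))) (XT.nd (nat_lit 78) (nat_lit 228) (nat_lit 0) (XT.lf (nat_lit 0) (nat_lit 2835044829018) (nat_lit 76) (nat_lit 7609395568744) (nat_lit 152) (nat_lit 1346835819372) (nat_lit 45) (nat_lit 5) (nat_lit 46) (nat_lit 5) (nat_lit 47) (nat_lit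 4) (nat_lit 515) (nat_lit 488) (nat_lit 197)) (XT.nd (nat_lit 78) (nat_lit 152) (nat_lit 0) (XT.lf (nat_lit 0) (nat_lit 1676687810156) (nat_lit 152) (nat_lit 1877290172880) (nat_lit 76) (nat_lit 8834655863061) (nat_lit 44) (nat_lit 5) (nat_lit 46) (nat_lit 5) (nat_lit 45) (nat_lit 5) (nat_lit 516) (nat_lit 488) (nat_lit 196)) (XT.lf (nat_lit 0) (nat_lit 5039008786190) (nat_lit 228) (nat_lit 7009038760681) (nat_lit 76) (nat_lit 969359552773) (nat_lit 42) (nat_lit 5) (nat_lit 45) (nat_lit 5) (nat_lit 43) (nat_lit 4) (nat_lit 517) (nat_lit 488) (nat_lit 195)))))) (XT.nd (nat_lit 60372) (nat_lit 0) (nat_lit 2432) (XT.nd (nat_lit 234) (nat_lit 0) (nat_lit 0) (XT.nd (nat_lit 78) (nat_lit 152) (nat_lit 0) (XT.lf (nat_lit 0) (nat_lit 890151404548) (nat_lit 76) (nat_lit 7946544961179) (nat_lit 152) (nat_lit 4846475373712) (nat_lit 41) (nat_lit 5) (nat_lit 42) (nat_lit 5) (nat_lit 43) (nat_lit 4)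 (nat_lit 518) (nat_lit 488) (nat_lit 194)) (XT.nd (nat_lit 78) (nat_lit 152) (nat_lit 0) (XT.lf (nat_lit 0) (nat_lit 9819887027654) (nat_lit 76) (nat_lit 3309951464659) (nat_lit 152) (nat_lit 1257027894851) (nat_lit 41) (nat_lit 5) (nat_lit 42) (nat_lit 5) (nat_lit 43) (nat_lit 4) (nat_lit 519) (nat_lit 488) (nat_lit 193)) (XT.lf (nat_lit 0) (nat_lit 2641493833426) (nat_lit 152) (nat_lit 10700301193638) (nat_lit 76) (nat_lit 1787784693881) (nat_lit 39) (nat_lit 5) (nat_lit 41) (nat_lit 5) (nat_lit 40) (nat_lit 4) (nat_lit 520) (nat_lit 488) (nat_lit 192)))) (XT.nd (nat_lit 59982) (nat_lit 0) (nat_lit 3192) (XT.lf (nat_lit 0) (nat_lit 6998070576525) (nat_lit 152) (nat_lit 1638621568144) (nat_lit 76) (nat_lit 7275279136107) (nat_lit 39) (nat_lit 5) (nat_lit 41) (nat_lit 5) (nat_lit 40) (nat_lit 4) (nat_lit 521) (nat_lit 488) (nat_lit 191)) (XT.nd (nat_lit 78) (nat_lit 0) (nat_lit 0) (XT.lf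 (nat_lit 0) (nat_lit 1856848914592) (nat_lit 532) (nat_lit 29390542858) (nat_lit 532) (nat_lit 29390542858) (nat_lit 81) (nat_lit 3) (nat_lit 88) (nat_lit 3) (nat_lit 88) (nat_lit 5) (nat_lit 489) (nat_lit 489) (nat_lit 222)) (XT.lf (nat_lit 76) (nat_lit 1938507697115) (nat_lit 0) (nat_lit 1970359206176) (nat_lit 532) (nat_lit 71913804475) (nat_lit 82) (nat_lit 5) (nat_lit 81) (nat_lit 3) (nat_lit 88) (nat_lit 5) (nat_lit 490) (nat_lit 489) (nat_lit 221))))) (XT.nd (nat_lit 234) (nat_lit 304) (nat_lit 0) (XT.nd (nat_lit 78) (nat_lit 456) (nat_lit 0) (XT.lf (nat_lit 76) (nat_lit 4098922514764) (nat_lit 0) (nat_lit 22334167189) (nat_lit 532) (nat_lit 20877815243) (nat_lit 82) (nat_lit 5) (nat_lit 81) (nat_lit 3) (nat_lit 88) (nat_lit 5) (nat_lit 491) (nat_lit 489) (nat_lit 220)) (XT.nd (nat_lit 78) (nat_lit 0) (nat_lit 0) (XT.lf (nat_lit 0) (nat_lit 137544259229) (nat_lit 532) (nat_lit 2137200328603)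 (nat_lit 608) (nat_lit 2033184835516) (nat_lit 75) (nat_lit 5) (nat_lit 82) (nat_lit 5) (nat_lit 83) (nat_lit 5) (nat_lit 492) (nat_lit 489) (nat_lit 219)) (XT.lf (nat_lit 76) (nat_lit 80208830632) (nat_lit 0) (nat_lit 231024637177) (nat_lit 608) (nat_lit 4175413388314) (nat_lit 76) (nat_lit 5) (nat_lit 75) (nat_lit 5) (nat_lit 83) (nat_lit 5) (nat_lit 493) (nat_lit 489) (nat_lit 218)))) (XT.nd (nat_lit 156) (nat_lit 380) (nat_lit 0) (XT.nd (nat_lit 78) (nat_lit 0) (nat_lit 0) (XT.lf (nat_lit 0) (nat_lit 606297932320) (nat_lit 532) (nat_lit 2127476972413) (nat_lit 608) (nat_lit 1937288369248) (nat_lit 76) (nat_lit 5) (nat_lit 83) (nat_lit 5) (nat_lit 84) (nat_lit 5) (nat_lit 494) (nat_lit 489) (nat_lit 217)) (XT.lf (nat_lit 76) (nat_lit 345061708899) (nat_lit 0) (nat_lit 594205227089) (nat_lit 608) (nat_lit 3929822118720) (nat_lit 77) (nat_lit 5) (nat_lit 76) (nat_lit 5) (nat_lit 84) (nat_lit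 5) (nat_lit 495) (nat_lit 489) (nat_lit 216))) (XT.nd (nat_lit 78) (nat_lit 456) (nat_lit 0) (XT.lf (nat_lit 0) (nat_lit 1399835921531) (nat_lit 532) (nat_lit 1984701864941) (nat_lit 76) (nat_lit 1690342114493) (nat_lit 77) (nat_lit 5) (nat_lit 84) (nat_lit 5) (nat_lit 78) (nat_lit 5) (nat_lit 496) (nat_lit 489) (nat_lit 215)) (XT.lf (nat_lit 0) (nat_lit 781425837298) (nat_lit 456) (nat_lit 1150051800516) (nat_lit 532) (nat_lit 3362918200158) (nat_lit 71) (nat_lit 5) (nat_lit 77) (nat_lit 5) (nat_lit 78) (nat_lit 5) (nat_lit 497) (nat_lit 489) (nat_lit 214))))))))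
noncomputable def xc246 : XT := (XT.nd (nat_lit 61932) (nat_lit 0) (nat_lit 532) (XT.nd (nat_lit 936) (nat_lit 988) (nat_lit 0) (XT.nd (nat_lit 468) (nat_lit 760) (nat_lit 0) (XT.nd (nat_lit 234) (nat_lit 456) (nat_lit 0) (XT.nd (nat_lit 78) (nat_lit 228) (nat_lit 0) (XT.lf (nat_lit 0) (nat_lit 2591705268321) (nat_lit 532) (nat_lit 1677205630568) (nat_lit 76) (nat_lit 1255677784897) (nat_lit 71) (nat_lit 5) (nat_lit 78) (nat_lit 5) (nat_lit 72) (nat_lit 5) (nat_lit 498) (nat_lit 489) (nat_lit 213)) (XT.nd (nat_lit 78) (nat_lit 0) (nat_lit 0) (XT.lf (nat_lit 0) (nat_lit 1426929190764) (nat_lit 228) (nat_lit 1942011074947) (nat_lit 304) (nat_lit 2399121559039) (nat_lit 68) (nat_lit 5) (nat_lit 71) (nat_lit 5) (nat_lit 72) (nat_lit 5) (nat_lit 499) (nat_lit 489) (nat_lit 212)) (XT.lf (nat_lit 0) (nat_lit 4269136491284) (nat_lit 304) (nat_lit 1167489881612) (nat_lit 76) (nat_lit 589523849824)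 (nat_lit 68) (nat_lit 5) (nat_lit 72) (nat_lit 5) (nat_lit 69) (nat_lit 5) (nat_lit 500) (nat_lit 489) (nat_lit 211)))) (XT.nd (nat_lit 78) (nat_lit 228) (nat_lit 0) (XT.lf (nat_lit 0) (nat_lit 2325956193574) (nat_lit 228) (nat_lit 3021773369603) (nat_lit 304) (nat_lit 948645637488) (nat_lit 65) (nat_lit 5) (nat_lit 68) (nat_lit 5) (nat_lit 69) (nat_lit 5) (nat_lit 501) (nat_lit 489) (nat_lit 210)) (XT.nd (nat_lit 78) (nat_lit 228) (nat_lit 0) (XT.lf (nat_lit 0) (nat_lit 6165274138580) (nat_lit 228) (nat_lit 379257184366) (nat_lit 304) (nat_lit 41133154531) (nat_lit 65) (nat_lit 5) (nat_lit 68) (nat_lit 5) (nat_lit 69) (nat_lit 5) (nat_lit 502) (nat_lit 489) (nat_lit 209)) (XT.lf (nat_lit 0) (nat_lit 1040190357830) (nat_lit 228) (nat_lit 3382129153407) (nat_lit 76) (nat_lit 2462116254870) (nat_lit 62) (nat_lit 5) (nat_lit 65) (nat_lit 5) (nat_lit 63) (nat_lit 5) (nat_lit 503) (nat_lit 489)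 (nat_lit 208))))) (XT.nd (nat_lit 234) (nat_lit 380) (nat_lit 0) (XT.nd (nat_lit 78) (nat_lit 152) (nat_lit 0) (XT.lf (nat_lit 0) (nat_lit 574035890185) (nat_lit 228) (nat_lit 1667210782935) (nat_lit 304) (nat_lit 4962940678763) (nat_lit 59) (nat_lit 5) (nat_lit 62) (nat_lit 5) (nat_lit 63) (nat_lit 5) (nat_lit 504) (nat_lit 489) (nat_lit 207)) (XT.nd (nat_lit 78) (nat_lit 152) (nat_lit 0) (XT.lf (nat_lit 0) (nat_lit 3664727611010) (nat_lit 304) (nat_lit 2536949086220) (nat_lit 76) (nat_lit 1337735157902) (nat_lit 59) (nat_lit 5) (nat_lit 63) (nat_lit 5) (nat_lit 60) (nat_lit 5) (nat_lit 505) (nat_lit 489) (nat_lit 206)) (XT.lf (nat_lit 0) (nat_lit 1937317784651) (nat_lit 152) (nat_lit 3354665954602) (nat_lit 228) (nat_lit 2602278842163) (nat_lit 57) (nat_lit 5) (nat_lit 59) (nat_lit 5) (nat_lit 60) (nat_lit 5) (nat_lit 506) (nat_lit 489) (nat_lit 205)))) (XT.nd (nat_lit 78) (nat_lit 380)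 (nat_lit 0) (XT.lf (nat_lit 0) (nat_lit 6913804547425) (nat_lit 152) (nat_lit 204980494043) (nat_lit 228) (nat_lit 1153167149637) (nat_lit 57) (nat_lit 5) (nat_lit 59) (nat_lit 5) (nat_lit 60) (nat_lit 5) (nat_lit 507) (nat_lit 489) (nat_lit 204)) (XT.nd (nat_lit 78) (nat_lit 152) (nat_lit 0) (XT.lf (nat_lit 0) (nat_lit 561878781463) (nat_lit 228) (nat_lit 4963133875507) (nat_lit 76) (nat_lit 3140403156621) (nat_lit 54) (nat_lit 5) (nat_lit 57) (nat_lit 5) (nat_lit 55) (nat_lit 5) (nat_lit 508) (nat_lit 489) (nat_lit 203)) (XT.lf (nat_lit 0) (nat_lit 127538036496) (nat_lit 152) (nat_lit 2270779520599) (nat_lit 228) (nat_lit 6685923565421) (nat_lit 52) (nat_lit 5) (nat_lit 54) (nat_lit 5) (nat_lit 55) (nat_lit 5) (nat_lit 509) (nat_lit 489) (nat_lit 202)))))) (XT.nd (nat_lit 468) (nat_lit 532) (nat_lit 0) (XT.nd (nat_lit 234) (nat_lit 304) (nat_lit 0) (XT.nd (nat_lit 78) (nat_lit 152) (nat_lit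 0) (XT.lf (nat_lit 0) (nat_lit 4550810242208) (nat_lit 228) (nat_lit 3651432795659) (nat_lit 76) (nat_lit 1320798313693) (nat_lit 52) (nat_lit 5) (nat_lit 55) (nat_lit 5) (nat_lit 53) (nat_lit 5) (nat_lit 510) (nat_lit 489) (nat_lit 201)) (XT.nd (nat_lit 78) (nat_lit 0) (nat_lit 0) (XT.lf (nat_lit 0) (nat_lit 2125609423604) (nat_lit 152) (nat_lit 4859995162397) (nat_lit 228) (nat_lit 3002532833417) (nat_lit 50) (nat_lit 5) (nat_lit 52) (nat_lit 5) (nat_lit 53) (nat_lit 5) (nat_lit 511) (nat_lit 489) (nat_lit 200)) (XT.lf (nat_lit 0) (nat_lit 8572475238737) (nat_lit 152) (nat_lit 1142543881957) (nat_lit 228) (nat_lit 767435120539) (nat_lit 50) (nat_lit 5) (nat_lit 52) (nat_lit 5) (nat_lit 53) (nat_lit 5) (nat_lit 512) (nat_lit 489) (nat_lit 199)))) (XT.nd (nat_lit 78) (nat_lit 152) (nat_lit 0) (XT.lf (nat_lit 0) (nat_lit 1750557010308) (nat_lit 152) (nat_lit 6362087958039) (nat_lit 76) (nat_lit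 2885587650686) (nat_lit 48) (nat_lit 5) (nat_lit 50) (nat_lit 5) (nat_lit 49) (nat_lit 5) (nat_lit 513) (nat_lit 489) (nat_lit 198)) (XT.nd (nat_lit 78) (nat_lit 0) (nat_lit 0) (XT.lf (nat_lit 0) (nat_lit 223709516169) (nat_lit 152) (nat_lit 4293452880912) (nat_lit 228) (nat_lit 7029425374368) (nat_lit 46) (nat_lit 5) (nat_lit 48) (nat_lit 5) (nat_lit 49) (nat_lit 5) (nat_lit 514) (nat_lit 489) (nat_lit 197)) (XT.lf (nat_lit 0) (nat_lit 7679507325013) (nat_lit 228) (nat_lit 4427167258711) (nat_lit 76) (nat_lit 18183863517) (nat_lit 46) (nat_lit 5) (nat_lit 49) (nat_lit 5) (nat_lit 47) (nat_lit 4) (nat_lit 515) (nat_lit 489) (nat_lit 196))))) (XT.nd (nat_lit 234) (nat_lit 228) (nat_lit 0) (XT.nd (nat_lit 78) (nat_lit 228) (nat_lit 0) (XT.lf (nat_lit 0) (nat_lit 3061848419237) (nat_lit 76) (nat_lit 8218147212599) (nat_lit 152) (nat_lit 1454582682488) (nat_lit 45) (nat_lit 5) (nat_lit 46)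 (nat_lit 5) (nat_lit 47) (nat_lit 4) (nat_lit 516) (nat_lit 489) (nat_lit 195)) (XT.nd (nat_lit 78) (nat_lit 152) (nat_lit 0) (XT.lf (nat_lit 0) (nat_lit 1810822837110) (nat_lit 152) (nat_lit 2027473382988) (nat_lit 76) (nat_lit 9541428333516) (nat_lit 44) (nat_lit 5) (nat_lit 46) (nat_lit 5) (nat_lit 45) (nat_lit 5) (nat_lit 517) (nat_lit 489) (nat_lit 194)) (XT.lf (nat_lit 0) (nat_lit 5442129491192) (nat_lit 228) (nat_lit 7569761857780) (nat_lit 76) (nat_lit 1046908318474) (nat_lit 42) (nat_lit 5) (nat_lit 45) (nat_lit 5) (nat_lit 43) (nat_lit 4) (nat_lit 518) (nat_lit 489) (nat_lit 193)))) (XT.nd (nat_lit 156) (nat_lit 152) (nat_lit 0) (XT.nd (nat_lit 78) (nat_lit 0) (nat_lit 0) (XT.lf (nat_lit 0) (nat_lit 961363520573) (nat_lit 76) (nat_lit 8582268556452) (nat_lit 152) (nat_lit 5234193401407) (nat_lit 41) (nat_lit 5) (nat_lit 42) (nat_lit 5) (nat_lit 43) (nat_lit 4) (nat_lit 519) (nat_lit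 489) (nat_lit 192)) (XT.lf (nat_lit 0) (nat_lit 10605477993256) (nat_lit 76) (nat_lit 3574747580330) (nat_lit 152) (nat_lit 1357590124399) (nat_lit 41) (nat_lit 5) (nat_lit 42) (nat_lit 5) (nat_lit 43) (nat_lit 4) (nat_lit 520) (nat_lit 489) (nat_lit 191))) (XT.nd (nat_lit 60060) (nat_lit 0) (nat_lit 3192) (XT.lf (nat_lit 0) (nat_lit 2852813342012) (nat_lit 152) (nat_lit 11556325285612) (nat_lit 76) (nat_lit 1930807470843) (nat_lit 39) (nat_lit 5) (nat_lit 41) (nat_lit 5) (nat_lit 40) (nat_lit 4) (nat_lit 521) (nat_lit 489) (nat_lit 190)) (XT.lf (nat_lit 0) (nat_lit 2005396831861) (nat_lit 532) (nat_lit 31741784071) (nat_lit 532) (nat_lit 31741784071) (nat_lit 81) (nat_lit 3) (nat_lit 88) (nat_lit 3) (nat_lit 88) (nat_lit 5) (nat_lit 490) (nat_lit 490) (nat_lit 220))))))) (XT.nd (nat_lit 936) (nat_lit 1444) (nat_lit 0) (XT.nd (nat_lit 468) (nat_lit 760) (nat_lit 0) (XT.nd (nat_lit 234)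 (nat_lit 0) (nat_lit 0) (XT.nd (nat_lit 78) (nat_lit 456) (nat_lit 0) (XT.lf (nat_lit 76) (nat_lit 2093588317203) (nat_lit 0) (nat_lit 2127987946051) (nat_lit 532) (nat_lit 77666900515) (nat_lit 82) (nat_lit 5) (nat_lit 81) (nat_lit 3) (nat_lit 88) (nat_lit 5) (nat_lit 491) (nat_lit 490) (nat_lit 219)) (XT.nd (nat_lit 78) (nat_lit 456) (nat_lit 0) (XT.lf (nat_lit 76) (nat_lit 4426836319945) (nat_lit 0) (nat_lit 24120903695) (nat_lit 532) (nat_lit 22548032760) (nat_lit 82) (nat_lit 5) (nat_lit 81) (nat_lit 3) (nat_lit 88) (nat_lit 5) (nat_lit 492) (nat_lit 490) (nat_lit 218)) (XT.lf (nat_lit 0) (nat_lit 148547806783) (nat_lit 532) (nat_lit 2308176350002) (nat_lit 608) (nat_lit 2195839619885) (nat_lit 75) (nat_lit 5) (nat_lit 82) (nat_lit 5) (nat_lit 83) (nat_lit 5) (nat_lit 493) (nat_lit 490) (nat_lit 217)))) (XT.nd (nat_lit 78) (nat_lit 0) (nat_lit 76) (XT.lf (nat_lit 76) (nat_lit 86625541849)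 (nat_lit 0) (nat_lit 249506609811) (nat_lit 608) (nat_lit 4509446452438) (nat_lit 76) (nat_lit 5) (nat_lit 75) (nat_lit 5) (nat_lit 83) (nat_lit 5) (nat_lit 494) (nat_lit 490) (nat_lit 216)) (XT.nd (nat_lit 78) (nat_lit 0) (nat_lit 0) (XT.lf (nat_lit 0) (nat_lit 654801772818) (nat_lit 532) (nat_lit 2297675125279) (nat_lit 608) (nat_lit 2092271437328) (nat_lit 76) (nat_lit 5) (nat_lit 83) (nat_lit 5) (nat_lit 84) (nat_lit 5) (nat_lit 495) (nat_lit 490) (nat_lit 215)) (XT.lf (nat_lit 76) (nat_lit 372666650413) (nat_lit 0) (nat_lit 641741646043) (nat_lit 608) (nat_lit 4244207882179) (nat_lit 77) (nat_lit 5) (nat_lit 76) (nat_lit 5) (nat_lit 84) (nat_lit 5) (nat_lit 496) (nat_lit 490) (nat_lit 214))))) (XT.nd (nat_lit 234) (nat_lit 456) (nat_lit 0) (XT.nd (nat_lit 78) (nat_lit 456) (nat_lit 0) (XT.lf (nat_lit 0) (nat_lit 1511822800412) (nat_lit 532) (nat_lit 2143478009257) (nat_lit 76) (nat_lit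 1825569482960) (nat_lit 77) (nat_lit 5) (nat_lit 84) (nat_lit 5) (nat_lit 78) (nat_lit 5) (nat_lit 497) (nat_lit 490) (nat_lit 213)) (XT.nd (nat_lit 78) (nat_lit 0) (nat_lit 0) (XT.lf (nat_lit 0) (nat_lit 843939909038) (nat_lit 456) (nat_lit 1242055944692) (nat_lit 532) (nat_lit 3631951650888) (nat_lit 71) (nat_lit 5) (nat_lit 77) (nat_lit 5) (nat_lit 78) (nat_lit 5) (nat_lit 498) (nat_lit 490) (nat_lit 212)) (XT.lf (nat_lit 0) (nat_lit 2799041694312) (nat_lit 532) (nat_lit 1811382076244) (nat_lit 76) (nat_lit 1356132007571) (nat_lit 71) (nat_lit 5) (nat_lit 78) (nat_lit 5) (nat_lit 72) (nat_lit 5) (nat_lit 499) (nat_lit 490) (nat_lit 211)))) (XT.nd (nat_lit 78) (nat_lit 228) (nat_lit 0) (XT.lf (nat_lit 0) (nat_lit 1541083530674) (nat_lit 228) (nat_lit 2097371960596) (nat_lit 304) (nat_lit 2591051279115) (nat_lit 68) (nat_lit 5) (nat_lit 71) (nat_lit 5) (nat_lit 72) (nat_lit 5) (nat_lit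 500) (nat_lit 490) (nat_lit 210)) (XT.nd (nat_lit 78) (nat_lit 228) (nat_lit 0) (XT.lf (nat_lit 0) (nat_lit 4610667414577) (nat_lit 304) (nat_lit 1260889067525) (nat_lit 76) (nat_lit 636685758115) (nat_lit 68) (nat_lit 5) (nat_lit 72) (nat_lit 5) (nat_lit 69) (nat_lit 5) (nat_lit 501) (nat_lit 490) (nat_lit 209)) (XT.lf (nat_lit 0) (nat_lit 2512032693560) (nat_lit 228) (nat_lit 3263515238475) (nat_lit 304) (nat_lit 1024537284378) (nat_lit 65) (nat_lit 5) (nat_lit 68) (nat_lit 5) (nat_lit 69) (nat_lit 5) (nat_lit 502) (nat_lit 490) (nat_lit 208)))))) (XT.nd (nat_lit 468) (nat_lit 836) (nat_lit 0) (XT.nd (nat_lit 234) (nat_lit 152) (nat_lit 0) (XT.nd (nat_lit 78) (nat_lit 456) (nat_lit 0) (XT.lf (nat_lit 0) (nat_lit 6658496073832) (nat_lit 228) (nat_lit 409597758470) (nat_lit 304) (nat_lit 44423803089) (nat_lit 65) (nat_lit 5) (nat_lit 68) (nat_lit 5) (nat_lit 69) (nat_lit 5) (nat_lit 503)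 (nat_lit 490) (nat_lit 207)) (XT.nd (nat_lit 78) (nat_lit 228) (nat_lit 0) (XT.lf (nat_lit 0) (nat_lit 1123405589924) (nat_lit 228) (nat_lit 3652699481175) (nat_lit 76) (nat_lit 2659085556018) (nat_lit 62) (nat_lit 5) (nat_lit 65) (nat_lit 5) (nat_lit 63) (nat_lit 5) (nat_lit 504) (nat_lit 490) (nat_lit 206)) (XT.lf (nat_lit 0) (nat_lit 619958765790) (nat_lit 228) (nat_lit 1800587644496) (nat_lit 304) (nat_lit 5359975929482) (nat_lit 59) (nat_lit 5) (nat_lit 62) (nat_lit 5) (nat_lit 63) (nat_lit 5) (nat_lit 505) (nat_lit 490) (nat_lit 205)))) (XT.nd (nat_lit 78) (nat_lit 152) (nat_lit 0) (XT.lf (nat_lit 0) (nat_lit 3957905822986) (nat_lit 304) (nat_lit 2739905008830) (nat_lit 76) (nat_lit 1444753971479) (nat_lit 59) (nat_lit 5) (nat_lit 63) (nat_lit 5) (nat_lit 60) (nat_lit 5) (nat_lit 506) (nat_lit 490) (nat_lit 204)) (XT.nd (nat_lit 78) (nat_lit 0) (nat_lit 0) (XT.lf (nat_lit 0) (nat_lit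 2092303211602) (nat_lit 152) (nat_lit 3623039229757) (nat_lit 228) (nat_lit 2810461146332) (nat_lit 57) (nat_lit 5) (nat_lit 59) (nat_lit 5) (nat_lit 60) (nat_lit 5) (nat_lit 507) (nat_lit 490) (nat_lit 203)) (XT.lf (nat_lit 0) (nat_lit 7466908915088) (nat_lit 152) (nat_lit 221378932444) (nat_lit 228) (nat_lit 1245420518641) (nat_lit 57) (nat_lit 5) (nat_lit 59) (nat_lit 5) (nat_lit 60) (nat_lit 5) (nat_lit 508) (nat_lit 490) (nat_lit 202))))) (XT.nd (nat_lit 234) (nat_lit 456) (nat_lit 0) (XT.nd (nat_lit 78) (nat_lit 152) (nat_lit 0) (XT.lf (nat_lit 0) (nat_lit 606829086713) (nat_lit 228) (nat_lit 5360184581444) (nat_lit 76) (nat_lit 3391635410303) (nat_lit 54) (nat_lit 5) (nat_lit 57) (nat_lit 5) (nat_lit 55) (nat_lit 5) (nat_lit 509) (nat_lit 490) (nat_lit 201)) (XT.nd (nat_lit 78) (nat_lit 0) (nat_lit 0) (XT.lf (nat_lit 0) (nat_lit 137741083416) (nat_lit 152) (nat_lit 2452441880873)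 (nat_lit 228) (nat_lit 7220797447818) (nat_lit 52) (nat_lit 5) (nat_lit 54) (nat_lit 5) (nat_lit 55) (nat_lit 5) (nat_lit 510) (nat_lit 490) (nat_lit 200)) (XT.lf (nat_lit 0) (nat_lit 4914875064047) (nat_lit 228) (nat_lit 3943547415444) (nat_lit 76) (nat_lit 1426462179996) (nat_lit 52) (nat_lit 5) (nat_lit 55) (nat_lit 5) (nat_lit 53) (nat_lit 5) (nat_lit 511) (nat_lit 490) (nat_lit 199)))) (XT.nd (nat_lit 156) (nat_lit 304) (nat_lit 0) (XT.nd (nat_lit 78) (nat_lit 0) (nat_lit 0) (XT.lf (nat_lit 0) (nat_lit 2295658181263) (nat_lit 152) (nat_lit 5248794773989) (nat_lit 228) (nat_lit 3242735457529) (nat_lit 50) (nat_lit 5) (nat_lit 52) (nat_lit 5) (nat_lit 53) (nat_lit 5) (nat_lit 512) (nat_lit 490) (nat_lit 198)) (XT.lf (nat_lit 0) (nat_lit 9258273261327) (nat_lit 152) (nat_lit 1233947391218) (nat_lit 228) (nat_lit 828829927811) (nat_lit 50) (nat_lit 5) (nat_lit 52) (nat_lit 5) (nat_lit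 53) (nat_lit 5) (nat_lit 513) (nat_lit 490) (nat_lit 197))) (XT.nd (nat_lit 78) (nat_lit 152) (nat_lit 0) (XT.lf (nat_lit 0) (nat_lit 1890601573335) (nat_lit 152) (nat_lit 6871054991022) (nat_lit 76) (nat_lit 3116434664022) (nat_lit 48) (nat_lit 5) (nat_lit 50) (nat_lit 5) (nat_lit 49) (nat_lit 5) (nat_lit 514) (nat_lit 490) (nat_lit 196)) (XT.lf (nat_lit 0) (nat_lit 241606281029) (nat_lit 152) (nat_lit 4636929109943) (nat_lit 228) (nat_lit 7591779402022) (nat_lit 46) (nat_lit 5) (nat_lit 48) (nat_lit 5) (nat_lit 49) (nat_lit 5) (nat_lit 515) (nat_lit 490) (nat_lit 195))))))))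
noncomputable def xc247 : XT := (XT.nd (nat_lit 62010) (nat_lit 0) (nat_lit 0) (XT.nd (nat_lit 60996) (nat_lit 0) (nat_lit 1216) (XT.nd (nat_lit 60528) (nat_lit 0) (nat_lit 2584) (XT.nd (nat_lit 234) (nat_lit 228) (nat_lit 0) (XT.nd (nat_lit 78) (nat_lit 152) (nat_lit 0) (XT.lf (nat_lit 0) (nat_lit 8293867913014) (nat_lit 228) (nat_lit 4781340635979) (nat_lit 76) (nat_lit 19638573866) (nat_lit 46) (nat_lit 5) (nat_lit 49) (nat_lit 5) (nat_lit 47) (nat_lit 4) (nat_lit 516) (nat_lit 490) (nat_lit 194)) (XT.nd (nat_lit 78) (nat_lit 76) (nat_lit 0) (XT.lf (nat_lit 0) (nat_lit 3306796296117) (nat_lit 76) (nat_lit 8875598988198) (nat_lit 152) (nat_lit 1570949295000) (nat_lit 45) (nat_lit 5) (nat_lit 46) (nat_lit 5) (nat_lit 47) (nat_lit 4) (nat_lit 517) (nat_lit 490) (nat_lit 193)) (XT.lf (nat_lit 0) (nat_lit 1955688665914) (nat_lit 152) (nat_lit 2189671250436) (nat_lit 76) (nat_lit 10304742601405)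 (nat_lit 44) (nat_lit 5) (nat_lit 46) (nat_lit 5) (nat_lit 45) (nat_lit 5) (nat_lit 518) (nat_lit 490) (nat_lit 192)))) (XT.nd (nat_lit 78) (nat_lit 76) (nat_lit 0) (XT.lf (nat_lit 0) (nat_lit 5877499852294) (nat_lit 228) (nat_lit 8175342803182) (nat_lit 76) (nat_lit 1130660985221) (nat_lit 42) (nat_lit 5) (nat_lit 45) (nat_lit 5) (nat_lit 43) (nat_lit 4) (nat_lit 519) (nat_lit 490) (nat_lit 191)) (XT.nd (nat_lit 78) (nat_lit 0) (nat_lit 0) (XT.lf (nat_lit 0) (nat_lit 1038272605357) (nat_lit 76) (nat_lit 9268850039577) (nat_lit 152) (nat_lit 5652928871631) (nat_lit 41) (nat_lit 5) (nat_lit 42) (nat_lit 5) (nat_lit 43) (nat_lit 4) (nat_lit 520) (nat_lit 490) (nat_lit 190)) (XT.lf (nat_lit 0) (nat_lit 11453916235623) (nat_lit 76) (nat_lit 3860727385469) (nat_lit 152) (nat_lit 1466197332603) (nat_lit 41) (nat_lit 5) (nat_lit 42) (nat_lit 5) (nat_lit 43) (nat_lit 4) (nat_lit 521) (nat_lit 490)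 (nat_lit 189))))) (XT.nd (nat_lit 234) (nat_lit 456) (nat_lit 0) (XT.nd (nat_lit 78) (nat_lit 0) (nat_lit 0) (XT.lf (nat_lit 0) (nat_lit 2165828581927) (nat_lit 532) (nat_lit 34281124897) (nat_lit 532) (nat_lit 34281124897) (nat_lit 81) (nat_lit 3) (nat_lit 88) (nat_lit 3) (nat_lit 88) (nat_lit 5) (nat_lit 491) (nat_lit 491) (nat_lit 218)) (XT.nd (nat_lit 78) (nat_lit 0) (nat_lit 0) (XT.lf (nat_lit 76) (nat_lit 2261075386283) (nat_lit 0) (nat_lit 2298226984634) (nat_lit 532) (nat_lit 83880245424) (nat_lit 82) (nat_lit 5) (nat_lit 81) (nat_lit 3) (nat_lit 88) (nat_lit 5) (nat_lit 492) (nat_lit 491) (nat_lit 217)) (XT.lf (nat_lit 76) (nat_lit 4780983228969) (nat_lit 0) (nat_lit 26050578674) (nat_lit 532) (nat_lit 24351868778) (nat_lit 82) (nat_lit 5) (nat_lit 81) (nat_lit 3) (nat_lit 88) (nat_lit 5) (nat_lit 493) (nat_lit 491) (nat_lit 216)))) (XT.nd (nat_lit 78) (nat_lit 0) (nat_lit 0) (XT.lf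 (nat_lit 0) (nat_lit 160431637169) (nat_lit 532) (nat_lit 2492830453810) (nat_lit 608) (nat_lit 2371506787356) (nat_lit 75) (nat_lit 5) (nat_lit 82) (nat_lit 5) (nat_lit 83) (nat_lit 5) (nat_lit 494) (nat_lit 491) (nat_lit 215)) (XT.nd (nat_lit 78) (nat_lit 0) (nat_lit 76) (XT.lf (nat_lit 76) (nat_lit 93555589283) (nat_lit 0) (nat_lit 269467140018) (nat_lit 608) (nat_lit 4870202162683) (nat_lit 76) (nat_lit 5) (nat_lit 75) (nat_lit 5) (nat_lit 83) (nat_lit 5) (nat_lit 495) (nat_lit 491) (nat_lit 214)) (XT.lf (nat_lit 0) (nat_lit 707185919712) (nat_lit 532) (nat_lit 2481489131077) (nat_lit 608) (nat_lit 2259653151063) (nat_lit 76) (nat_lit 5) (nat_lit 83) (nat_lit 5) (nat_lit 84) (nat_lit 5) (nat_lit 496) (nat_lit 491) (nat_lit 213)))))) (XT.nd (nat_lit 468) (nat_lit 836) (nat_lit 0) (XT.nd (nat_lit 234) (nat_lit 228) (nat_lit 0) (XT.nd (nat_lit 78) (nat_lit 380) (nat_lit 0) (XT.lf (nat_lit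 76) (nat_lit 402479986564) (nat_lit 0) (nat_lit 693080978402) (nat_lit 608) (nat_lit 4583744507577) (nat_lit 77) (nat_lit 5) (nat_lit 76) (nat_lit 5) (nat_lit 84) (nat_lit 5) (nat_lit 497) (nat_lit 491) (nat_lit 212)) (XT.nd (nat_lit 78) (nat_lit 456) (nat_lit 0) (XT.lf (nat_lit 0) (nat_lit 1632768628867) (nat_lit 532) (nat_lit 2314956245814) (nat_lit 76) (nat_lit 1971615041003) (nat_lit 77) (nat_lit 5) (nat_lit 84) (nat_lit 5) (nat_lit 78) (nat_lit 5) (nat_lit 498) (nat_lit 491) (nat_lit 211)) (XT.lf (nat_lit 0) (nat_lit 911455105839) (nat_lit 456) (nat_lit 1341420420383) (nat_lit 532) (nat_lit 3922507778430) (nat_lit 71) (nat_lit 5) (nat_lit 77) (nat_lit 5) (nat_lit 78) (nat_lit 5) (nat_lit 499) (nat_lit 491) (nat_lit 210)))) (XT.nd (nat_lit 78) (nat_lit 228) (nat_lit 0) (XT.lf (nat_lit 0) (nat_lit 3022965033737) (nat_lit 532) (nat_lit 1956292638254) (nat_lit 76) (nat_lit 1464622568075)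 (nat_lit 71) (nat_lit 5) (nat_lit 78) (nat_lit 5) (nat_lit 72) (nat_lit 5) (nat_lit 500) (nat_lit 491) (nat_lit 209)) (XT.nd (nat_lit 78) (nat_lit 0) (nat_lit 0) (XT.lf (nat_lit 0) (nat_lit 1664370217114) (nat_lit 228) (nat_lit 2265161717146) (nat_lit 304) (nat_lit 2798335377461) (nat_lit 68) (nat_lit 5) (nat_lit 71) (nat_lit 5) (nat_lit 72) (nat_lit 5) (nat_lit 501) (nat_lit 491) (nat_lit 208)) (XT.lf (nat_lit 0) (nat_lit 4979520811165) (nat_lit 304) (nat_lit 1361760188969) (nat_lit 76) (nat_lit 687620619027) (nat_lit 68) (nat_lit 5) (nat_lit 72) (nat_lit 5) (nat_lit 69) (nat_lit 5) (nat_lit 502) (nat_lit 491) (nat_lit 207))))) (XT.nd (nat_lit 234) (nat_lit 380) (nat_lit 0) (XT.nd (nat_lit 78) (nat_lit 228) (nat_lit 0) (XT.lf (nat_lit 0) (nat_lit 2712995312902) (nat_lit 228) (nat_lit 3524596456957) (nat_lit 304) (nat_lit 1106500263606) (nat_lit 65) (nat_lit 5) (nat_lit 68) (nat_lit 5)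 (nat_lit 69) (nat_lit 5) (nat_lit 503) (nat_lit 491) (nat_lit 206)) (XT.nd (nat_lit 78) (nat_lit 228) (nat_lit 0) (XT.lf (nat_lit 0) (nat_lit 7191175763311) (nat_lit 228) (nat_lit 442365578595) (nat_lit 304) (nat_lit 47977704075) (nat_lit 65) (nat_lit 5) (nat_lit 68) (nat_lit 5) (nat_lit 69) (nat_lit 5) (nat_lit 504) (nat_lit 491) (nat_lit 205)) (XT.lf (nat_lit 0) (nat_lit 1213278040091) (nat_lit 228) (nat_lit 3944915435808) (nat_lit 76) (nat_lit 2871812401150) (nat_lit 62) (nat_lit 5) (nat_lit 65) (nat_lit 5) (nat_lit 63) (nat_lit 5) (nat_lit 505) (nat_lit 491) (nat_lit 204)))) (XT.nd (nat_lit 156) (nat_lit 152) (nat_lit 0) (XT.nd (nat_lit 78) (nat_lit 0) (nat_lit 0) (XT.lf (nat_lit 0) (nat_lit 669555470818) (nat_lit 228) (nat_lit 1944634655135) (nat_lit 304) (nat_lit 5788774000770) (nat_lit 59) (nat_lit 5) (nat_lit 62) (nat_lit 5) (nat_lit 63) (nat_lit 5) (nat_lit 506) (nat_lit 491) (nat_lit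 203)) (XT.lf (nat_lit 0) (nat_lit 4274538291478) (nat_lit 304) (nat_lit 2959097405861) (nat_lit 76) (nat_lit 1560334290008) (nat_lit 59) (nat_lit 5) (nat_lit 63) (nat_lit 5) (nat_lit 60) (nat_lit 5) (nat_lit 507) (nat_lit 491) (nat_lit 202))) (XT.nd (nat_lit 78) (nat_lit 0) (nat_lit 0) (XT.lf (nat_lit 0) (nat_lit 2259687472113) (nat_lit 152) (nat_lit 3912882367098) (nat_lit 228) (nat_lit 3035298035292) (nat_lit 57) (nat_lit 5) (nat_lit 59) (nat_lit 5) (nat_lit 60) (nat_lit 5) (nat_lit 508) (nat_lit 491) (nat_lit 201)) (XT.lf (nat_lit 0) (nat_lit 8064261631612) (nat_lit 152) (nat_lit 239089246076) (nat_lit 228) (nat_lit 1345054157589) (nat_lit 57) (nat_lit 5) (nat_lit 59) (nat_lit 5) (nat_lit 60) (nat_lit 5) (nat_lit 509) (nat_lit 491) (nat_lit 200))))))) (XT.nd (nat_lit 61152) (nat_lit 0) (nat_lit 1824) (XT.nd (nat_lit 468) (nat_lit 532) (nat_lit 0) (XT.nd (nat_lit 234) (nat_lit 304) (nat_lit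 0) (XT.nd (nat_lit 78) (nat_lit 152) (nat_lit 0) (XT.lf (nat_lit 0) (nat_lit 655375415992) (nat_lit 228) (nat_lit 5788999344441) (nat_lit 76) (nat_lit 3662966244115) (nat_lit 54) (nat_lit 5) (nat_lit 57) (nat_lit 5) (nat_lit 55) (nat_lit 5) (nat_lit 510) (nat_lit 491) (nat_lit 199)) (XT.nd (nat_lit 78) (nat_lit 0) (nat_lit 0) (XT.lf (nat_lit 0) (nat_lit 148760373518) (nat_lit 152) (nat_lit 2648637230165) (nat_lit 228) (nat_lit 7798461241212) (nat_lit 52) (nat_lit 5) (nat_lit 54) (nat_lit 5) (nat_lit 55) (nat_lit 5) (nat_lit 511) (nat_lit 491) (nat_lit 198)) (XT.lf (nat_lit 0) (nat_lit 5308065071282) (nat_lit 228) (nat_lit 4259031205363) (nat_lit 76) (nat_lit 1540579155432) (nat_lit 52) (nat_lit 5) (nat_lit 55) (nat_lit 5) (nat_lit 53) (nat_lit 5) (nat_lit 512) (nat_lit 491) (nat_lit 197)))) (XT.nd (nat_lit 78) (nat_lit 152) (nat_lit 0) (XT.lf (nat_lit 0) (nat_lit 2479310838996) (nat_lit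 152) (nat_lit 5668698354709) (nat_lit 228) (nat_lit 3502154291936) (nat_lit 50) (nat_lit 5) (nat_lit 52) (nat_lit 5) (nat_lit 53) (nat_lit 5) (nat_lit 513) (nat_lit 491) (nat_lit 196)) (XT.nd (nat_lit 78) (nat_lit 152) (nat_lit 0) (XT.lf (nat_lit 0) (nat_lit 9998935125227) (nat_lit 152) (nat_lit 1332663181404) (nat_lit 228) (nat_lit 895136320003) (nat_lit 50) (nat_lit 5) (nat_lit 52) (nat_lit 5) (nat_lit 53) (nat_lit 5) (nat_lit 514) (nat_lit 491) (nat_lit 195)) (XT.lf (nat_lit 0) (nat_lit 2041849701090) (nat_lit 152) (nat_lit 7420739387167) (nat_lit 76) (nat_lit 3365749438242) (nat_lit 48) (nat_lit 5) (nat_lit 50) (nat_lit 5) (nat_lit 49) (nat_lit 5) (nat_lit 515) (nat_lit 491) (nat_lit 194))))) (XT.nd (nat_lit 234) (nat_lit 304) (nat_lit 0) (XT.nd (nat_lit 78) (nat_lit 76) (nat_lit 0) (XT.lf (nat_lit 0) (nat_lit 260934786570) (nat_lit 152) (nat_lit 5007883437503) (nat_lit 228) (nat_lit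 8199121752216) (nat_lit 46) (nat_lit 5) (nat_lit 48) (nat_lit 5) (nat_lit 49) (nat_lit 5) (nat_lit 516) (nat_lit 491) (nat_lit 193)) (XT.nd (nat_lit 78) (nat_lit 76) (nat_lit 0) (XT.lf (nat_lit 0) (nat_lit 8957377347770) (nat_lit 228) (nat_lit 5163847883918) (nat_lit 76) (nat_lit 21209660863) (nat_lit 46) (nat_lit 5) (nat_lit 49) (nat_lit 5) (nat_lit 47) (nat_lit 4) (nat_lit 517) (nat_lit 491) (nat_lit 192)) (XT.lf (nat_lit 0) (nat_lit 3571340002672) (nat_lit 76) (nat_lit 9585646906045) (nat_lit 152) (nat_lit 1696625236811) (nat_lit 45) (nat_lit 5) (nat_lit 46) (nat_lit 5) (nat_lit 47) (nat_lit 4) (nat_lit 518) (nat_lit 491) (nat_lit 191)))) (XT.nd (nat_lit 156) (nat_lit 76) (nat_lit 0) (XT.nd (nat_lit 78) (nat_lit 152) (nat_lit 0) (XT.lf (nat_lit 0) (nat_lit 2112143760761) (nat_lit 152) (nat_lit 2364844947735) (nat_lit 76) (nat_lit 11129122010554) (nat_lit 44) (nat_lit 5) (nat_lit 46)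 (nat_lit 5) (nat_lit 45) (nat_lit 5) (nat_lit 519) (nat_lit 491) (nat_lit 190)) (XT.lf (nat_lit 0) (nat_lit 6347699842027) (nat_lit 228) (nat_lit 8829370224675) (nat_lit 76) (nat_lit 1221113865127) (nat_lit 42) (nat_lit 5) (nat_lit 45) (nat_lit 5) (nat_lit 43) (nat_lit 4) (nat_lit 520) (nat_lit 491) (nat_lit 189))) (XT.nd (nat_lit 60216) (nat_lit 0) (nat_lit 3040) (XT.lf (nat_lit 0) (nat_lit 1121334416477) (nat_lit 76) (nat_lit 10010358041552) (nat_lit 152) (nat_lit 6105163179743) (nat_lit 41) (nat_lit 5) (nat_lit 42) (nat_lit 5) (nat_lit 43) (nat_lit 4) (nat_lit 521) (nat_lit 491) (nat_lit 188)) (XT.lf (nat_lit 0) (nat_lit 2339094871497) (nat_lit 532) (nat_lit 37023613260) (nat_lit 532) (nat_lit 37023613260) (nat_lit 81) (nat_lit 3) (nat_lit 88) (nat_lit 3) (nat_lit 88) (nat_lit 5) (nat_lit 492) (nat_lit 492) (nat_lit 216)))))) (XT.nd (nat_lit 468) (nat_lit 760) (nat_lit 0) (XT.nd (nat_lit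 234) (nat_lit 0) (nat_lit 0) (XT.nd (nat_lit 78) (nat_lit 456) (nat_lit 0) (XT.lf (nat_lit 76) (nat_lit 2441961420360) (nat_lit 0) (nat_lit 2482085145890) (nat_lit 532) (nat_lit 90590658944) (nat_lit 82) (nat_lit 5) (nat_lit 81) (nat_lit 3) (nat_lit 88) (nat_lit 5) (nat_lit 493) (nat_lit 492) (nat_lit 215)) (XT.nd (nat_lit 78) (nat_lit 456) (nat_lit 0) (XT.lf (nat_lit 76) (nat_lit 5163461890226) (nat_lit 0) (nat_lit 28134627270) (nat_lit 532) (nat_lit 26300012618) (nat_lit 82) (nat_lit 5) (nat_lit 81) (nat_lit 3) (nat_lit 88) (nat_lit 5) (nat_lit 494) (nat_lit 492) (nat_lit 214)) (XT.lf (nat_lit 0) (nat_lit 173266173152) (nat_lit 532) (nat_lit 2692256886520) (nat_lit 608) (nat_lit 2561227328527) (nat_lit 75) (nat_lit 5) (nat_lit 82) (nat_lit 5) (nat_lit 83) (nat_lit 5) (nat_lit 495) (nat_lit 492) (nat_lit 213)))) (XT.nd (nat_lit 78) (nat_lit 0) (nat_lit 76) (XT.lf (nat_lit 76) (nat_lit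 101040039928) (nat_lit 0) (nat_lit 291024512439) (nat_lit 608) (nat_lit 5259818330596) (nat_lit 76) (nat_lit 5) (nat_lit 75) (nat_lit 5) (nat_lit 83) (nat_lit 5) (nat_lit 496) (nat_lit 492) (nat_lit 212)) (XT.nd (nat_lit 78) (nat_lit 0) (nat_lit 0) (XT.lf (nat_lit 0) (nat_lit 763760797635) (nat_lit 532) (nat_lit 2680008257942) (nat_lit 608) (nat_lit 2440425402076) (nat_lit 76) (nat_lit 5) (nat_lit 83) (nat_lit 5) (nat_lit 84) (nat_lit 5) (nat_lit 497) (nat_lit 492) (nat_lit 211)) (XT.lf (nat_lit 76) (nat_lit 434678389019) (nat_lit 0) (nat_lit 748527457253) (nat_lit 608) (nat_lit 4950444063745) (nat_lit 77) (nat_lit 5) (nat_lit 76) (nat_lit 5) (nat_lit 84) (nat_lit 5) (nat_lit 498) (nat_lit 492) (nat_lit 210))))) (XT.nd (nat_lit 234) (nat_lit 456) (nat_lit 0) (XT.nd (nat_lit 78) (nat_lit 456) (nat_lit 0) (XT.lf (nat_lit 0) (nat_lit 1763390122968) (nat_lit 532) (nat_lit 2500152741893) (nat_lit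 76) (nat_lit 2129344243774) (nat_lit 77) (nat_lit 5) (nat_lit 84) (nat_lit 5) (nat_lit 78) (nat_lit 5) (nat_lit 499) (nat_lit 492) (nat_lit 209)) (XT.nd (nat_lit 78) (nat_lit 0) (nat_lit 0) (XT.lf (nat_lit 0) (nat_lit 984371517801) (nat_lit 456) (nat_lit 1448734054113) (nat_lit 532) (nat_lit 4236308396821) (nat_lit 71) (nat_lit 5) (nat_lit 77) (nat_lit 5) (nat_lit 78) (nat_lit 5) (nat_lit 500) (nat_lit 492) (nat_lit 208)) (XT.lf (nat_lit 0) (nat_lit 3264802239762) (nat_lit 532) (nat_lit 2112796045808) (nat_lit 76) (nat_lit 1581792373434) (nat_lit 71) (nat_lit 5) (nat_lit 78) (nat_lit 5) (nat_lit 72) (nat_lit 5) (nat_lit 501) (nat_lit 492) (nat_lit 207)))) (XT.nd (nat_lit 156) (nat_lit 228) (nat_lit 0) (XT.nd (nat_lit 78) (nat_lit 0) (nat_lit 0) (XT.lf (nat_lit 0) (nat_lit 1797519837901) (nat_lit 228) (nat_lit 2446374654262) (nat_lit 304) (nat_lit 3022202204242) (nat_lit 68) (nat_lit 5)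 (nat_lit 71) (nat_lit 5) (nat_lit 72) (nat_lit 5) (nat_lit 502) (nat_lit 492) (nat_lit 206)) (XT.lf (nat_lit 0) (nat_lit 5377882478992) (nat_lit 304) (nat_lit 1470701000693) (nat_lit 76) (nat_lit 742630268773) (nat_lit 68) (nat_lit 5) (nat_lit 72) (nat_lit 5) (nat_lit 69) (nat_lit 5) (nat_lit 503) (nat_lit 492) (nat_lit 205))) (XT.nd (nat_lit 78) (nat_lit 0) (nat_lit 0) (XT.lf (nat_lit 0) (nat_lit 2930034941242) (nat_lit 228) (nat_lit 3806564173001) (nat_lit 304) (nat_lit 1195020281675) (nat_lit 65) (nat_lit 5) (nat_lit 68) (nat_lit 5) (nat_lit 69) (nat_lit 5) (nat_lit 504) (nat_lit 492) (nat_lit 204)) (XT.lf (nat_lit 0) (nat_lit 7766469827438) (nat_lit 228) (nat_lit 477754824409) (nat_lit 304) (nat_lit 51815917605) (nat_lit 65) (nat_lit 5) (nat_lit 68) (nat_lit 5) (nat_lit 69) (nat_lit 5) (nat_lit 505) (nat_lit 492) (nat_lit 203))))))))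
noncomputable def xc248 : XT := (XT.nd (nat_lit 62166) (nat_lit 0) (nat_lit 152) (XT.nd (nat_lit 936) (nat_lit 304) (nat_lit 0) (XT.nd (nat_lit 468) (nat_lit 608) (nat_lit 0) (XT.nd (nat_lit 234) (nat_lit 380) (nat_lit 0) (XT.nd (nat_lit 78) (nat_lit 228) (nat_lit 0) (XT.lf (nat_lit 0) (nat_lit 1310340285847) (nat_lit 228) (nat_lit 4260508667361) (nat_lit 76) (nat_lit 3101557393800) (nat_lit 62) (nat_lit 5) (nat_lit 65) (nat_lit 5) (nat_lit 63) (nat_lit 5) (nat_lit 506) (nat_lit 492) (nat_lit 202)) (XT.nd (nat_lit 78) (nat_lit 0) (nat_lit 0) (XT.lf (nat_lit 0) (nat_lit 723119911710) (nat_lit 228) (nat_lit 2100205426756) (nat_lit 304) (nat_lit 6251875918198) (nat_lit 59) (nat_lit 5) (nat_lit 62) (nat_lit 5) (nat_lit 63) (nat_lit 5) (nat_lit 507) (nat_lit 492) (nat_lit 201)) (XT.lf (nat_lit 0) (nat_lit 4616501357071) (nat_lit 304) (nat_lit 3195825195178) (nat_lit 76) (nat_lit 1685161033903)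 (nat_lit 59) (nat_lit 5) (nat_lit 63) (nat_lit 5) (nat_lit 60) (nat_lit 5) (nat_lit 508) (nat_lit 492) (nat_lit 200)))) (XT.nd (nat_lit 78) (nat_lit 228) (nat_lit 0) (XT.lf (nat_lit 0) (nat_lit 2440462472954) (nat_lit 152) (nat_lit 4225912955574) (nat_lit 228) (nat_lit 3278121875761) (nat_lit 57) (nat_lit 5) (nat_lit 59) (nat_lit 5) (nat_lit 60) (nat_lit 5) (nat_lit 509) (nat_lit 492) (nat_lit 199)) (XT.nd (nat_lit 78) (nat_lit 228) (nat_lit 0) (XT.lf (nat_lit 0) (nat_lit 8709402564985) (nat_lit 152) (nat_lit 258216384937) (nat_lit 228) (nat_lit 1452658488016) (nat_lit 57) (nat_lit 5) (nat_lit 59) (nat_lit 5) (nat_lit 60) (nat_lit 5) (nat_lit 510) (nat_lit 492) (nat_lit 198)) (XT.lf (nat_lit 0) (nat_lit 707805451280) (nat_lit 228) (nat_lit 6252119288980) (nat_lit 76) (nat_lit 3956003544491) (nat_lit 54) (nat_lit 5) (nat_lit 57) (nat_lit 5) (nat_lit 55) (nat_lit 5) (nat_lit 511) (nat_lit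 492) (nat_lit 197))))) (XT.nd (nat_lit 234) (nat_lit 304) (nat_lit 0) (XT.nd (nat_lit 78) (nat_lit 152) (nat_lit 0) (XT.lf (nat_lit 0) (nat_lit 160661206340) (nat_lit 152) (nat_lit 2860528207569) (nat_lit 228) (nat_lit 8422338138423) (nat_lit 52) (nat_lit 5) (nat_lit 54) (nat_lit 5) (nat_lit 55) (nat_lit 5) (nat_lit 512) (nat_lit 492) (nat_lit 196)) (XT.nd (nat_lit 78) (nat_lit 152) (nat_lit 0) (XT.lf (nat_lit 0) (nat_lit 5732710278795) (nat_lit 228) (nat_lit 4599753698949) (nat_lit 76) (nat_lit 1663825488755) (nat_lit 52) (nat_lit 5) (nat_lit 55) (nat_lit 5) (nat_lit 53) (nat_lit 5) (nat_lit 513) (nat_lit 492) (nat_lit 195)) (XT.lf (nat_lit 0) (nat_lit 2677655708887) (nat_lit 152) (nat_lit 6122194222057) (nat_lit 228) (nat_lit 3782326633409) (nat_lit 50) (nat_lit 5) (nat_lit 52) (nat_lit 5) (nat_lit 53) (nat_lit 5) (nat_lit 514) (nat_lit 492) (nat_lit 194)))) (XT.nd (nat_lit 78) (nat_lit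 304) (nat_lit 0) (XT.lf (nat_lit 0) (nat_lit 10798849937810) (nat_lit 152) (nat_lit 1439276234964) (nat_lit 228) (nat_lit 966747223861) (nat_lit 50) (nat_lit 5) (nat_lit 52) (nat_lit 5) (nat_lit 53) (nat_lit 5) (nat_lit 515) (nat_lit 492) (nat_lit 193)) (XT.nd (nat_lit 78) (nat_lit 152) (nat_lit 0) (XT.lf (nat_lit 0) (nat_lit 2205197678797) (nat_lit 152) (nat_lit 8014398535450) (nat_lit 76) (nat_lit 3635009394242) (nat_lit 48) (nat_lit 5) (nat_lit 50) (nat_lit 5) (nat_lit 49) (nat_lit 5) (nat_lit 516) (nat_lit 492) (nat_lit 192)) (XT.lf (nat_lit 0) (nat_lit 281809572118) (nat_lit 152) (nat_lit 5408514111443) (nat_lit 228) (nat_lit 8855051490706) (nat_lit 46) (nat_lit 5) (nat_lit 48) (nat_lit 5) (nat_lit 49) (nat_lit 5) (nat_lit 517) (nat_lit 492) (nat_lit 191)))))) (XT.nd (nat_lit 60684) (nat_lit 0) (nat_lit 2204) (XT.nd (nat_lit 234) (nat_lit 152) (nat_lit 0) (XT.nd (nat_lit 78) (nat_lit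 152) (nat_lit 0) (XT.lf (nat_lit 0) (nat_lit 9673967537062) (nat_lit 228) (nat_lit 5576955712112) (nat_lit 76) (nat_lit 22906434664) (nat_lit 46) (nat_lit 5) (nat_lit 49) (nat_lit 5) (nat_lit 47) (nat_lit 4) (nat_lit 518) (nat_lit 492) (nat_lit 190)) (XT.nd (nat_lit 78) (nat_lit 76) (nat_lit 0) (XT.lf (nat_lit 0) (nat_lit 3857047205342) (nat_lit 76) (nat_lit 10352498657492) (nat_lit 152) (nat_lit 1832355254222) (nat_lit 45) (nat_lit 5) (nat_lit 46) (nat_lit 5) (nat_lit 47) (nat_lit 4) (nat_lit 519) (nat_lit 492) (nat_lit 189)) (XT.lf (nat_lit 0) (nat_lit 2281115262971) (nat_lit 152) (nat_lit 2554032541209) (nat_lit 76) (nat_lit 12019451772286) (nat_lit 44) (nat_lit 5) (nat_lit 46) (nat_lit 5) (nat_lit 45) (nat_lit 5) (nat_lit 520) (nat_lit 492) (nat_lit 188)))) (XT.nd (nat_lit 60294) (nat_lit 0) (nat_lit 2964) (XT.lf (nat_lit 0) (nat_lit 6855515830717) (nat_lit 228) (nat_lit 9535719840283)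 (nat_lit 76) (nat_lit 1318802975270) (nat_lit 42) (nat_lit 5) (nat_lit 45) (nat_lit 5) (nat_lit 43) (nat_lit 4) (nat_lit 521) (nat_lit 492) (nat_lit 187)) (XT.nd (nat_lit 78) (nat_lit 0) (nat_lit 0) (XT.lf (nat_lit 0) (nat_lit 2526222463801) (nat_lit 532) (nat_lit 39985500925) (nat_lit 532) (nat_lit 39985500925) (nat_lit 81) (nat_lit 3) (nat_lit 88) (nat_lit 3) (nat_lit 88) (nat_lit 5) (nat_lit 493) (nat_lit 493) (nat_lit 214)) (XT.lf (nat_lit 76) (nat_lit 2637318336711) (nat_lit 0) (nat_lit 2680651959692) (nat_lit 532) (nat_lit 97837906417) (nat_lit 82) (nat_lit 5) (nat_lit 81) (nat_lit 3) (nat_lit 88) (nat_lit 5) (nat_lit 494) (nat_lit 493) (nat_lit 213))))) (XT.nd (nat_lit 234) (nat_lit 304) (nat_lit 0) (XT.nd (nat_lit 78) (nat_lit 456) (nat_lit 0) (XT.lf (nat_lit 76) (nat_lit 5576538843965) (nat_lit 0) (nat_lit 30385399424) (nat_lit 532) (nat_lit 28404008774) (nat_lit 82) (nat_lit 5)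 (nat_lit 81) (nat_lit 3) (nat_lit 88) (nat_lit 5) (nat_lit 495) (nat_lit 493) (nat_lit 212)) (XT.nd (nat_lit 78) (nat_lit 0) (nat_lit 0) (XT.lf (nat_lit 0) (nat_lit 187127471299) (nat_lit 532) (nat_lit 2907637434361) (nat_lit 608) (nat_lit 2766125513252) (nat_lit 75) (nat_lit 5) (nat_lit 82) (nat_lit 5) (nat_lit 83) (nat_lit 5) (nat_lit 496) (nat_lit 493) (nat_lit 211)) (XT.lf (nat_lit 76) (nat_lit 109123246126) (nat_lit 0) (nat_lit 314306474480) (nat_lit 608) (nat_lit 5680603792670) (nat_lit 76) (nat_lit 5) (nat_lit 75) (nat_lit 5) (nat_lit 83) (nat_lit 5) (nat_lit 497) (nat_lit 493) (nat_lit 210)))) (XT.nd (nat_lit 156) (nat_lit 380) (nat_lit 0) (XT.nd (nat_lit 78) (nat_lit 0) (nat_lit 0) (XT.lf (nat_lit 0) (nat_lit 824861665171) (nat_lit 532) (nat_lit 2894408915472) (nat_lit 608) (nat_lit 2635659433322) (nat_lit 76) (nat_lit 5) (nat_lit 83) (nat_lit 5) (nat_lit 84) (nat_lit 5) (nat_lit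 498) (nat_lit 493) (nat_lit 209)) (XT.lf (nat_lit 76) (nat_lit 469452663167) (nat_lit 0) (nat_lit 808409654329) (nat_lit 608) (nat_lit 5346479585039) (nat_lit 77) (nat_lit 5) (nat_lit 76) (nat_lit 5) (nat_lit 84) (nat_lit 5) (nat_lit 499) (nat_lit 493) (nat_lit 208))) (XT.nd (nat_lit 78) (nat_lit 456) (nat_lit 0) (XT.lf (nat_lit 0) (nat_lit 1904461336056) (nat_lit 532) (nat_lit 2700164958169) (nat_lit 76) (nat_lit 2299691782840) (nat_lit 77) (nat_lit 5) (nat_lit 84) (nat_lit 5) (nat_lit 78) (nat_lit 5) (nat_lit 500) (nat_lit 493) (nat_lit 207)) (XT.lf (nat_lit 0) (nat_lit 1063121242223) (nat_lit 456) (nat_lit 1564632778526) (nat_lit 532) (nat_lit 4575213065238) (nat_lit 71) (nat_lit 5) (nat_lit 77) (nat_lit 5) (nat_lit 78) (nat_lit 5) (nat_lit 501) (nat_lit 493) (nat_lit 206))))))) (XT.nd (nat_lit 936) (nat_lit 608) (nat_lit 0) (XT.nd (nat_lit 468) (nat_lit 760) (nat_lit 0) (XT.nd (nat_lit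 234) (nat_lit 456) (nat_lit 0) (XT.nd (nat_lit 78) (nat_lit 228) (nat_lit 0) (XT.lf (nat_lit 0) (nat_lit 3525986421795) (nat_lit 532) (nat_lit 2281819726467) (nat_lit 76) (nat_lit 1708335763234) (nat_lit 71) (nat_lit 5) (nat_lit 78) (nat_lit 5) (nat_lit 72) (nat_lit 5) (nat_lit 502) (nat_lit 493) (nat_lit 205)) (XT.nd (nat_lit 78) (nat_lit 0) (nat_lit 0) (XT.lf (nat_lit 0) (nat_lit 1941321427863) (nat_lit 228) (nat_lit 2642084626384) (nat_lit 304) (nat_lit 3263978377653) (nat_lit 68) (nat_lit 5) (nat_lit 71) (nat_lit 5) (nat_lit 72) (nat_lit 5) (nat_lit 503) (nat_lit 493) (nat_lit 204)) (XT.lf (nat_lit 0) (nat_lit 5808113079826) (nat_lit 304) (nat_lit 1588357077839) (nat_lit 76) (nat_lit 802040690468) (nat_lit 68) (nat_lit 5) (nat_lit 72) (nat_lit 5) (nat_lit 69) (nat_lit 5) (nat_lit 504) (nat_lit 493) (nat_lit 203)))) (XT.nd (nat_lit 78) (nat_lit 228) (nat_lit 0) (XT.lf (nat_lit 0) (nat_lit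 3164437739377) (nat_lit 228) (nat_lit 4111089306403) (nat_lit 304) (nat_lit 1290621901620) (nat_lit 65) (nat_lit 5) (nat_lit 68) (nat_lit 5) (nat_lit 69) (nat_lit 5) (nat_lit 505) (nat_lit 493) (nat_lit 202)) (XT.nd (nat_lit 78) (nat_lit 228) (nat_lit 0) (XT.lf (nat_lit 0) (nat_lit 8387787416259) (nat_lit 228) (nat_lit 515975209956) (nat_lit 304) (nat_lit 55961188616) (nat_lit 65) (nat_lit 5) (nat_lit 68) (nat_lit 5) (nat_lit 69) (nat_lit 5) (nat_lit 506) (nat_lit 493) (nat_lit 201)) (XT.lf (nat_lit 0) (nat_lit 1415167510900) (nat_lit 228) (nat_lit 4601349357912) (nat_lit 76) (nat_lit 3349681985782) (nat_lit 62) (nat_lit 5) (nat_lit 65) (nat_lit 5) (nat_lit 63) (nat_lit 5) (nat_lit 507) (nat_lit 493) (nat_lit 200))))) (XT.nd (nat_lit 234) (nat_lit 380) (nat_lit 0) (XT.nd (nat_lit 78) (nat_lit 152) (nat_lit 0) (XT.lf (nat_lit 0) (nat_lit 780969507414) (nat_lit 228) (nat_lit 2268221860220)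 (nat_lit 304) (nat_lit 6752025989397) (nat_lit 59) (nat_lit 5) (nat_lit 62) (nat_lit 5) (nat_lit 63) (nat_lit 5) (nat_lit 508) (nat_lit 493) (nat_lit 199)) (XT.nd (nat_lit 78) (nat_lit 152) (nat_lit 0) (XT.lf (nat_lit 0) (nat_lit 4985821467587) (nat_lit 304) (nat_lit 3451491208091) (nat_lit 76) (nat_lit 1819973917210) (nat_lit 59) (nat_lit 5) (nat_lit 63) (nat_lit 5) (nat_lit 60) (nat_lit 5) (nat_lit 509) (nat_lit 493) (nat_lit 198)) (XT.lf (nat_lit 0) (nat_lit 2635699473424) (nat_lit 152) (nat_lit 4563985991255) (nat_lit 228) (nat_lit 3540371623803) (nat_lit 57) (nat_lit 5) (nat_lit 59) (nat_lit 5) (nat_lit 60) (nat_lit 5) (nat_lit 510) (nat_lit 493) (nat_lit 197)))) (XT.nd (nat_lit 78) (nat_lit 380) (nat_lit 0) (XT.lf (nat_lit 0) (nat_lit 9406154772623) (nat_lit 152) (nat_lit 278873695024) (nat_lit 228) (nat_lit 1568871165188) (nat_lit 57) (nat_lit 5) (nat_lit 59) (nat_lit 5) (nat_lit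 60) (nat_lit 5) (nat_lit 511) (nat_lit 493) (nat_lit 196)) (XT.nd (nat_lit 78) (nat_lit 152) (nat_lit 0) (XT.lf (nat_lit 0) (nat_lit 764429889105) (nat_lit 228) (nat_lit 6752288829512) (nat_lit 76) (nat_lit 4272483828777) (nat_lit 54) (nat_lit 5) (nat_lit 57) (nat_lit 5) (nat_lit 55) (nat_lit 5) (nat_lit 512) (nat_lit 493) (nat_lit 195)) (XT.lf (nat_lit 0) (nat_lit 173514105368) (nat_lit 152) (nat_lit 3089370463308) (nat_lit 228) (nat_lit 9096125187709) (nat_lit 52) (nat_lit 5) (nat_lit 54) (nat_lit 5) (nat_lit 55) (nat_lit 5) (nat_lit 513) (nat_lit 493) (nat_lit 194)))))) (XT.nd (nat_lit 468) (nat_lit 152) (nat_lit 0) (XT.nd (nat_lit 234) (nat_lit 304) (nat_lit 0) (XT.nd (nat_lit 78) (nat_lit 152) (nat_lit 0) (XT.lf (nat_lit 0) (nat_lit 6191327102650) (nat_lit 228) (nat_lit 4967733992428) (nat_lit 76) (nat_lit 1796931528617) (nat_lit 52) (nat_lit 5) (nat_lit 55) (nat_lit 5) (nat_lit 53)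 (nat_lit 5) (nat_lit 514) (nat_lit 493) (nat_lit 193)) (XT.nd (nat_lit 78) (nat_lit 0) (nat_lit 0) (XT.lf (nat_lit 0) (nat_lit 2891868167974) (nat_lit 152) (nat_lit 6611969758940) (nat_lit 228) (nat_lit 4084912762468) (nat_lit 50) (nat_lit 5) (nat_lit 52) (nat_lit 5) (nat_lit 53) (nat_lit 5) (nat_lit 515) (nat_lit 493) (nat_lit 192)) (XT.lf (nat_lit 0) (nat_lit 11662757935035) (nat_lit 152) (nat_lit 1554418332945) (nat_lit 228) (nat_lit 1044087000275) (nat_lit 50) (nat_lit 5) (nat_lit 52) (nat_lit 5) (nat_lit 53) (nat_lit 5) (nat_lit 516) (nat_lit 493) (nat_lit 191)))) (XT.nd (nat_lit 78) (nat_lit 152) (nat_lit 0) (XT.lf (nat_lit 0) (nat_lit 2381613494488) (nat_lit 152) (nat_lit 8655550415980) (nat_lit 76) (nat_lit 3925810146589) (nat_lit 48) (nat_lit 5) (nat_lit 50) (nat_lit 5) (nat_lit 49) (nat_lit 5) (nat_lit 517) (nat_lit 493) (nat_lit 190)) (XT.nd (nat_lit 78) (nat_lit 0) (nat_lit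 0) (XT.lf (nat_lit 0) (nat_lit 304354340135) (nat_lit 152) (nat_lit 5841195239450) (nat_lit 228) (nat_lit 9563455608516) (nat_lit 46) (nat_lit 5) (nat_lit 48) (nat_lit 5) (nat_lit 49) (nat_lit 5) (nat_lit 518) (nat_lit 493) (nat_lit 189)) (XT.lf (nat_lit 0) (nat_lit 10447884941287) (nat_lit 228) (nat_lit 6023112166920) (nat_lit 76) (nat_lit 24738950237) (nat_lit 46) (nat_lit 5) (nat_lit 49) (nat_lit 5) (nat_lit 47) (nat_lit 4) (nat_lit 519) (nat_lit 493) (nat_lit 188))))) (XT.nd (nat_lit 60528) (nat_lit 0) (nat_lit 2356) (XT.nd (nat_lit 78) (nat_lit 76) (nat_lit 0) (XT.lf (nat_lit 0) (nat_lit 4165610983875) (nat_lit 76) (nat_lit 11180698549204) (nat_lit 152) (nat_lit 1978943673244) (nat_lit 45) (nat_lit 5) (nat_lit 46) (nat_lit 5) (nat_lit 47) (nat_lit 4) (nat_lit 520) (nat_lit 493) (nat_lit 187)) (XT.nd (nat_lit 60372) (nat_lit 0) (nat_lit 2812) (XT.lf (nat_lit 0) (nat_lit 2463604485166)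 (nat_lit 152) (nat_lit 2758355142495) (nat_lit 76) (nat_lit 12981007914831) (nat_lit 44) (nat_lit 5) (nat_lit 46) (nat_lit 5) (nat_lit 45) (nat_lit 5) (nat_lit 521) (nat_lit 493) (nat_lit 186)) (XT.lf (nat_lit 0) (nat_lit 2728320263122) (nat_lit 532) (nat_lit 43184339802) (nat_lit 532) (nat_lit 43184339802) (nat_lit 81) (nat_lit 3) (nat_lit 88) (nat_lit 3) (nat_lit 88) (nat_lit 5) (nat_lit 494) (nat_lit 494) (nat_lit 212)))) (XT.nd (nat_lit 156) (nat_lit 456) (nat_lit 0) (XT.nd (nat_lit 78) (nat_lit 0) (nat_lit 0) (XT.lf (nat_lit 76) (nat_lit 2848303805982) (nat_lit 0) (nat_lit 2895104118295) (nat_lit 532) (nat_lit 105664934436) (nat_lit 82) (nat_lit 5) (nat_lit 81) (nat_lit 3) (nat_lit 88) (nat_lit 5) (nat_lit 495) (nat_lit 494) (nat_lit 211)) (XT.lf (nat_lit 76) (nat_lit 6022661953643) (nat_lit 0) (nat_lit 32816233070) (nat_lit 532) (nat_lit 30676325315) (nat_lit 82) (nat_lit 5) (nat_lit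 81) (nat_lit 3) (nat_lit 88) (nat_lit 5) (nat_lit 496) (nat_lit 494) (nat_lit 210))) (XT.nd (nat_lit 78) (nat_lit 0) (nat_lit 0) (XT.lf (nat_lit 0) (nat_lit 202097672685) (nat_lit 532) (nat_lit 3140248426468) (nat_lit 608) (nat_lit 2987415552976) (nat_lit 75) (nat_lit 5) (nat_lit 82) (nat_lit 5) (nat_lit 83) (nat_lit 5) (nat_lit 497) (nat_lit 494) (nat_lit 209)) (XT.lf (nat_lit 76) (nat_lit 117853108391) (nat_lit 0) (nat_lit 339450993335) (nat_lit 608) (nat_lit 6135052092334) (nat_lit 76) (nat_lit 5) (nat_lit 75) (nat_lit 5) (nat_lit 83) (nat_lit 5) (nat_lit 498) (nat_lit 494) (nat_lit 208))))))))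
noncomputable def xc249 : XT := (XT.nd (nat_lit 62322) (nat_lit 0) (nat_lit 76) (XT.nd (nat_lit 936) (nat_lit 1064) (nat_lit 0) (XT.nd (nat_lit 468) (nat_lit 684) (nat_lit 0) (XT.nd (nat_lit 234) (nat_lit 608) (nat_lit 0) (XT.nd (nat_lit 78) (nat_lit 0) (nat_lit 0) (XT.lf (nat_lit 0) (nat_lit 890850601579) (nat_lit 532) (nat_lit 3125961626048) (nat_lit 608) (nat_lit 2846512187200) (nat_lit 76) (nat_lit 5) (nat_lit 83) (nat_lit 5) (nat_lit 84) (nat_lit 5) (nat_lit 499) (nat_lit 494) (nat_lit 207)) (XT.nd (nat_lit 78) (nat_lit 0) (nat_lit 76) (XT.lf (nat_lit 76) (nat_lit 507008878815) (nat_lit 0) (nat_lit 873082427101) (nat_lit 608) (nat_lit 5774197948580) (nat_lit 77) (nat_lit 5) (nat_lit 76) (nat_lit 5) (nat_lit 84) (nat_lit 5) (nat_lit 500) (nat_lit 494) (nat_lit 206)) (XT.lf (nat_lit 0) (nat_lit 2056818245728) (nat_lit 532) (nat_lit 2916178152186) (nat_lit 76) (nat_lit 2483667125093)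 (nat_lit 77) (nat_lit 5) (nat_lit 84) (nat_lit 5) (nat_lit 78) (nat_lit 5) (nat_lit 501) (nat_lit 494) (nat_lit 205)))) (XT.nd (nat_lit 78) (nat_lit 228) (nat_lit 0) (XT.lf (nat_lit 0) (nat_lit 1148170944170) (nat_lit 456) (nat_lit 1689803400881) (nat_lit 532) (nat_lit 4941230107603) (nat_lit 71) (nat_lit 5) (nat_lit 77) (nat_lit 5) (nat_lit 78) (nat_lit 5) (nat_lit 502) (nat_lit 494) (nat_lit 204)) (XT.nd (nat_lit 78) (nat_lit 228) (nat_lit 0) (XT.lf (nat_lit 0) (nat_lit 3808065337984) (nat_lit 532) (nat_lit 2464365302007) (nat_lit 76) (nat_lit 1845002624229) (nat_lit 71) (nat_lit 5) (nat_lit 78) (nat_lit 5) (nat_lit 72) (nat_lit 5) (nat_lit 503) (nat_lit 494) (nat_lit 203)) (XT.lf (nat_lit 0) (nat_lit 2096627144604) (nat_lit 228) (nat_lit 2853451396307) (nat_lit 304) (nat_lit 3525096645355) (nat_lit 68) (nat_lit 5) (nat_lit 71) (nat_lit 5) (nat_lit 72) (nat_lit 5) (nat_lit 504) (nat_lit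 494) (nat_lit 202))))) (XT.nd (nat_lit 234) (nat_lit 456) (nat_lit 0) (XT.nd (nat_lit 78) (nat_lit 228) (nat_lit 0) (XT.lf (nat_lit 0) (nat_lit 6272762128369) (nat_lit 304) (nat_lit 1715425641572) (nat_lit 76) (nat_lit 866203945870) (nat_lit 68) (nat_lit 5) (nat_lit 72) (nat_lit 5) (nat_lit 69) (nat_lit 5) (nat_lit 505) (nat_lit 494) (nat_lit 201)) (XT.nd (nat_lit 78) (nat_lit 0) (nat_lit 0) (XT.lf (nat_lit 0) (nat_lit 3417592760959) (nat_lit 228) (nat_lit 4439976450539) (nat_lit 304) (nat_lit 1393871651529) (nat_lit 65) (nat_lit 5) (nat_lit 68) (nat_lit 5) (nat_lit 69) (nat_lit 5) (nat_lit 506) (nat_lit 494) (nat_lit 200)) (XT.lf (nat_lit 0) (nat_lit 9058810411811) (nat_lit 228) (nat_lit 557253226404) (nat_lit 304) (nat_lit 60438081650) (nat_lit 65) (nat_lit 5) (nat_lit 68) (nat_lit 5) (nat_lit 69) (nat_lit 5) (nat_lit 507) (nat_lit 494) (nat_lit 199)))) (XT.nd (nat_lit 78) (nat_lit 228)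 (nat_lit 0) (XT.lf (nat_lit 0) (nat_lit 1528380913645) (nat_lit 228) (nat_lit 4969457304111) (nat_lit 76) (nat_lit 3617656545055) (nat_lit 62) (nat_lit 5) (nat_lit 65) (nat_lit 5) (nat_lit 63) (nat_lit 5) (nat_lit 508) (nat_lit 494) (nat_lit 198)) (XT.nd (nat_lit 78) (nat_lit 0) (nat_lit 0) (XT.lf (nat_lit 0) (nat_lit 843447070379) (nat_lit 228) (nat_lit 2449679608458) (nat_lit 304) (nat_lit 7292188066613) (nat_lit 59) (nat_lit 5) (nat_lit 62) (nat_lit 5) (nat_lit 63) (nat_lit 5) (nat_lit 509) (nat_lit 494) (nat_lit 197)) (XT.lf (nat_lit 0) (nat_lit 5384687186666) (nat_lit 304) (nat_lit 3727610502422) (nat_lit 76) (nat_lit 1965571831097) (nat_lit 59) (nat_lit 5) (nat_lit 63) (nat_lit 5) (nat_lit 60) (nat_lit 5) (nat_lit 510) (nat_lit 494) (nat_lit 196)))))) (XT.nd (nat_lit 468) (nat_lit 380) (nat_lit 0) (XT.nd (nat_lit 234) (nat_lit 304) (nat_lit 0) (XT.nd (nat_lit 78) (nat_lit 228) (nat_lit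 0) (XT.lf (nat_lit 0) (nat_lit 2846555433555) (nat_lit 152) (nat_lit 4929104869901) (nat_lit 228) (nat_lit 3823601351976) (nat_lit 57) (nat_lit 5) (nat_lit 59) (nat_lit 5) (nat_lit 60) (nat_lit 5) (nat_lit 511) (nat_lit 494) (nat_lit 195)) (XT.nd (nat_lit 78) (nat_lit 228) (nat_lit 0) (XT.lf (nat_lit 0) (nat_lit 10158647156523) (nat_lit 152) (nat_lit 301183590019) (nat_lit 228) (nat_lit 1694380856801) (nat_lit 57) (nat_lit 5) (nat_lit 59) (nat_lit 5) (nat_lit 60) (nat_lit 5) (nat_lit 512) (nat_lit 494) (nat_lit 194)) (XT.lf (nat_lit 0) (nat_lit 825584281710) (nat_lit 228) (nat_lit 7292471933656) (nat_lit 76) (nat_lit 4614282535702) (nat_lit 54) (nat_lit 5) (nat_lit 57) (nat_lit 5) (nat_lit 55) (nat_lit 5) (nat_lit 513) (nat_lit 494) (nat_lit 193)))) (XT.nd (nat_lit 78) (nat_lit 152) (nat_lit 0) (XT.lf (nat_lit 0) (nat_lit 187395235959) (nat_lit 152) (nat_lit 3336520099631) (nat_lit 228)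 (nat_lit 9823815201194) (nat_lit 52) (nat_lit 5) (nat_lit 54) (nat_lit 5) (nat_lit 55) (nat_lit 5) (nat_lit 514) (nat_lit 494) (nat_lit 192)) (XT.nd (nat_lit 78) (nat_lit 152) (nat_lit 0) (XT.lf (nat_lit 0) (nat_lit 6686633272193) (nat_lit 228) (nat_lit 5365152709732) (nat_lit 76) (nat_lit 1940686051559) (nat_lit 52) (nat_lit 5) (nat_lit 55) (nat_lit 5) (nat_lit 53) (nat_lit 5) (nat_lit 515) (nat_lit 494) (nat_lit 191)) (XT.lf (nat_lit 0) (nat_lit 3123217623449) (nat_lit 152) (nat_lit 7140927338899) (nat_lit 228) (nat_lit 4411705782082) (nat_lit 50) (nat_lit 5) (nat_lit 52) (nat_lit 5) (nat_lit 53) (nat_lit 5) (nat_lit 516) (nat_lit 494) (nat_lit 190))))) (XT.nd (nat_lit 234) (nat_lit 76) (nat_lit 0) (XT.nd (nat_lit 78) (nat_lit 304) (nat_lit 0) (XT.lf (nat_lit 0) (nat_lit 12595778571724) (nat_lit 152) (nat_lit 1678771798880) (nat_lit 228) (nat_lit 1127613959016) (nat_lit 50) (nat_lit 5)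 (nat_lit 52) (nat_lit 5) (nat_lit 53) (nat_lit 5) (nat_lit 517) (nat_lit 494) (nat_lit 189)) (XT.nd (nat_lit 78) (nat_lit 152) (nat_lit 0) (XT.lf (nat_lit 0) (nat_lit 2572142575237) (nat_lit 152) (nat_lit 9347994447281) (nat_lit 76) (nat_lit 4239874959008) (nat_lit 48) (nat_lit 5) (nat_lit 50) (nat_lit 5) (nat_lit 49) (nat_lit 5) (nat_lit 518) (nat_lit 494) (nat_lit 188)) (XT.lf (nat_lit 0) (nat_lit 328702689273) (nat_lit 152) (nat_lit 6308490857827) (nat_lit 228) (nat_lit 10328532055957) (nat_lit 46) (nat_lit 5) (nat_lit 48) (nat_lit 5) (nat_lit 49) (nat_lit 5) (nat_lit 519) (nat_lit 494) (nat_lit 187)))) (XT.nd (nat_lit 60528) (nat_lit 0) (nat_lit 2736) (XT.nd (nat_lit 78) (nat_lit 76) (nat_lit 0) (XT.lf (nat_lit 0) (nat_lit 11283715737671) (nat_lit 228) (nat_lit 6504961138422) (nat_lit 76) (nat_lit 26718066941) (nat_lit 46) (nat_lit 5) (nat_lit 49) (nat_lit 5) (nat_lit 47) (nat_lit 4)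 (nat_lit 520) (nat_lit 494) (nat_lit 186)) (XT.lf (nat_lit 0) (nat_lit 4498859864391) (nat_lit 76) (nat_lit 12075154432378) (nat_lit 152) (nat_lit 2137259165976) (nat_lit 45) (nat_lit 5) (nat_lit 46) (nat_lit 5) (nat_lit 47) (nat_lit 4) (nat_lit 521) (nat_lit 494) (nat_lit 185))) (XT.nd (nat_lit 78) (nat_lit 0) (nat_lit 0) (XT.lf (nat_lit 0) (nat_lit 2946585886072) (nat_lit 532) (nat_lit 46639085960) (nat_lit 532) (nat_lit 46639085960) (nat_lit 81) (nat_lit 3) (nat_lit 88) (nat_lit 3) (nat_lit 88) (nat_lit 5) (nat_lit 495) (nat_lit 495) (nat_lit 210)) (XT.lf (nat_lit 76) (nat_lit 3076168112461) (nat_lit 0) (nat_lit 3126712449325) (nat_lit 532) (nat_lit 114118125338) (nat_lit 82) (nat_lit 5) (nat_lit 81) (nat_lit 3) (nat_lit 88) (nat_lit 5) (nat_lit 496) (nat_lit 495) (nat_lit 209))))))) (XT.nd (nat_lit 936) (nat_lit 1444) (nat_lit 0) (XT.nd (nat_lit 468) (nat_lit 760) (nat_lit 0) (XT.nd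 (nat_lit 234) (nat_lit 0) (nat_lit 76) (XT.nd (nat_lit 78) (nat_lit 456) (nat_lit 0) (XT.lf (nat_lit 76) (nat_lit 6504474911787) (nat_lit 0) (nat_lit 35441533165) (nat_lit 532) (nat_lit 33130427772) (nat_lit 82) (nat_lit 5) (nat_lit 81) (nat_lit 3) (nat_lit 88) (nat_lit 5) (nat_lit 497) (nat_lit 495) (nat_lit 208)) (XT.nd (nat_lit 78) (nat_lit 0) (nat_lit 0) (XT.lf (nat_lit 0) (nat_lit 218265489656) (nat_lit 532) (nat_lit 3391468298320) (nat_lit 608) (nat_lit 3226408796069) (nat_lit 75) (nat_lit 5) (nat_lit 82) (nat_lit 5) (nat_lit 83) (nat_lit 5) (nat_lit 498) (nat_lit 495) (nat_lit 207)) (XT.lf (nat_lit 76) (nat_lit 127281359270) (nat_lit 0) (nat_lit 366607073570) (nat_lit 608) (nat_lit 6625856256506) (nat_lit 76) (nat_lit 5) (nat_lit 75) (nat_lit 5) (nat_lit 83) (nat_lit 5) (nat_lit 499) (nat_lit 495) (nat_lit 206)))) (XT.nd (nat_lit 78) (nat_lit 0) (nat_lit 0) (XT.lf (nat_lit 0) (nat_lit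 962118652444) (nat_lit 532) (nat_lit 3376038553849) (nat_lit 608) (nat_lit 3074233161499) (nat_lit 76) (nat_lit 5) (nat_lit 83) (nat_lit 5) (nat_lit 84) (nat_lit 5) (nat_lit 500) (nat_lit 495) (nat_lit 205)) (XT.nd (nat_lit 78) (nat_lit 0) (nat_lit 76) (XT.lf (nat_lit 76) (nat_lit 547569591344) (nat_lit 0) (nat_lit 942929021634) (nat_lit 608) (nat_lit 6236133781669) (nat_lit 77) (nat_lit 5) (nat_lit 76) (nat_lit 5) (nat_lit 84) (nat_lit 5) (nat_lit 501) (nat_lit 495) (nat_lit 204)) (XT.lf (nat_lit 0) (nat_lit 2221363707775) (nat_lit 532) (nat_lit 3149472402101) (nat_lit 76) (nat_lit 2682360494780) (nat_lit 77) (nat_lit 5) (nat_lit 84) (nat_lit 5) (nat_lit 78) (nat_lit 5) (nat_lit 502) (nat_lit 495) (nat_lit 203))))) (XT.nd (nat_lit 234) (nat_lit 228) (nat_lit 0) (XT.nd (nat_lit 78) (nat_lit 228) (nat_lit 0) (XT.lf (nat_lit 0) (nat_lit 1240024621907) (nat_lit 456) (nat_lit 1824987673014)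 (nat_lit 532) (nat_lit 5336528513764) (nat_lit 71) (nat_lit 5) (nat_lit 77) (nat_lit 5) (nat_lit 78) (nat_lit 5) (nat_lit 503) (nat_lit 495) (nat_lit 202)) (XT.nd (nat_lit 78) (nat_lit 228) (nat_lit 0) (XT.lf (nat_lit 0) (nat_lit 4112710567118) (nat_lit 532) (nat_lit 2661514523958) (nat_lit 76) (nat_lit 1992602834112) (nat_lit 71) (nat_lit 5) (nat_lit 78) (nat_lit 5) (nat_lit 72) (nat_lit 5) (nat_lit 504) (nat_lit 495) (nat_lit 201)) (XT.lf (nat_lit 0) (nat_lit 2264357318325) (nat_lit 228) (nat_lit 3081727507851) (nat_lit 304) (nat_lit 3807104374831) (nat_lit 68) (nat_lit 5) (nat_lit 71) (nat_lit 5) (nat_lit 72) (nat_lit 5) (nat_lit 505) (nat_lit 495) (nat_lit 200)))) (XT.nd (nat_lit 78) (nat_lit 228) (nat_lit 0) (XT.lf (nat_lit 0) (nat_lit 6774583100487) (nat_lit 304) (nat_lit 1852659690760) (nat_lit 76) (nat_lit 935500261682) (nat_lit 68) (nat_lit 5) (nat_lit 72) (nat_lit 5) (nat_lit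 69) (nat_lit 5) (nat_lit 506) (nat_lit 495) (nat_lit 199)) (XT.nd (nat_lit 78) (nat_lit 0) (nat_lit 0) (XT.lf (nat_lit 0) (nat_lit 3691000183919) (nat_lit 228) (nat_lit 4795174566260) (nat_lit 304) (nat_lit 1505381381749) (nat_lit 65) (nat_lit 5) (nat_lit 68) (nat_lit 5) (nat_lit 69) (nat_lit 5) (nat_lit 507) (nat_lit 495) (nat_lit 198)) (XT.lf (nat_lit 0) (nat_lit 9783515246686) (nat_lit 228) (nat_lit 601833484218) (nat_lit 304) (nat_lit 65273126420) (nat_lit 65) (nat_lit 5) (nat_lit 68) (nat_lit 5) (nat_lit 69) (nat_lit 5) (nat_lit 508) (nat_lit 495) (nat_lit 197)))))) (XT.nd (nat_lit 468) (nat_lit 608) (nat_lit 0) (XT.nd (nat_lit 234) (nat_lit 380) (nat_lit 0) (XT.nd (nat_lit 78) (nat_lit 228) (nat_lit 0) (XT.lf (nat_lit 0) (nat_lit 1650651388343) (nat_lit 228) (nat_lit 5367013886354) (nat_lit 76) (nat_lit 3907069069011) (nat_lit 62) (nat_lit 5) (nat_lit 65) (nat_lit 5) (nat_lit 63)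 (nat_lit 5) (nat_lit 509) (nat_lit 495) (nat_lit 196)) (XT.nd (nat_lit 78) (nat_lit 0) (nat_lit 0) (XT.lf (nat_lit 0) (nat_lit 910922838042) (nat_lit 228) (nat_lit 2645653976637) (nat_lit 304) (nat_lit 7875563110283) (nat_lit 59) (nat_lit 5) (nat_lit 62) (nat_lit 5) (nat_lit 63) (nat_lit 5) (nat_lit 510) (nat_lit 495) (nat_lit 195)) (XT.lf (nat_lit 0) (nat_lit 5815462163032) (nat_lit 304) (nat_lit 4025819340629) (nat_lit 76) (nat_lit 2122817578023) (nat_lit 59) (nat_lit 5) (nat_lit 63) (nat_lit 5) (nat_lit 60) (nat_lit 5) (nat_lit 511) (nat_lit 495) (nat_lit 194)))) (XT.nd (nat_lit 78) (nat_lit 228) (nat_lit 0) (XT.lf (nat_lit 0) (nat_lit 3074279870176) (nat_lit 152) (nat_lit 5323433258931) (nat_lit 228) (nat_lit 4129489458650) (nat_lit 57) (nat_lit 5) (nat_lit 59) (nat_lit 5) (nat_lit 60) (nat_lit 5) (nat_lit 512) (nat_lit 495) (nat_lit 193)) (XT.nd (nat_lit 78) (nat_lit 228) (nat_lit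 0) (XT.lf (nat_lit 0) (nat_lit 10971338930837) (nat_lit 152) (nat_lit 325278276700) (nat_lit 228) (nat_lit 1829931323971) (nat_lit 57) (nat_lit 5) (nat_lit 59) (nat_lit 5) (nat_lit 60) (nat_lit 5) (nat_lit 513) (nat_lit 495) (nat_lit 192)) (XT.lf (nat_lit 0) (nat_lit 891631025512) (nat_lit 228) (nat_lit 7875869686448) (nat_lit 76) (nat_lit 4983425139092) (nat_lit 54) (nat_lit 5) (nat_lit 57) (nat_lit 5) (nat_lit 55) (nat_lit 5) (nat_lit 514) (nat_lit 495) (nat_lit 191))))) (XT.nd (nat_lit 234) (nat_lit 304) (nat_lit 0) (XT.nd (nat_lit 78) (nat_lit 152) (nat_lit 0) (XT.lf (nat_lit 0) (nat_lit 202386856688) (nat_lit 152) (nat_lit 3603441706965) (nat_lit 228) (nat_lit 10609720415975) (nat_lit 52) (nat_lit 5) (nat_lit 54) (nat_lit 5) (nat_lit 55) (nat_lit 5) (nat_lit 515) (nat_lit 495) (nat_lit 190)) (XT.nd (nat_lit 78) (nat_lit 152) (nat_lit 0) (XT.lf (nat_lit 0) (nat_lit 7221563935109) (nat_lit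 228) (nat_lit 5794364924719) (nat_lit 76) (nat_lit 2095940936243) (nat_lit 52) (nat_lit 5) (nat_lit 55) (nat_lit 5) (nat_lit 53) (nat_lit 5) (nat_lit 516) (nat_lit 495) (nat_lit 189)) (XT.lf (nat_lit 0) (nat_lit 3373075035071) (nat_lit 152) (nat_lit 7712201525362) (nat_lit 228) (nat_lit 4764642243463) (nat_lit 50) (nat_lit 5) (nat_lit 52) (nat_lit 5) (nat_lit 53) (nat_lit 5) (nat_lit 517) (nat_lit 495) (nat_lit 188)))) (XT.nd (nat_lit 156) (nat_lit 152) (nat_lit 0) (XT.nd (nat_lit 78) (nat_lit 152) (nat_lit 0) (XT.lf (nat_lit 0) (nat_lit 13603440859079) (nat_lit 152) (nat_lit 1813073542191) (nat_lit 228) (nat_lit 1217823074640) (nat_lit 50) (nat_lit 5) (nat_lit 52) (nat_lit 5) (nat_lit 53) (nat_lit 5) (nat_lit 518) (nat_lit 495) (nat_lit 187)) (XT.lf (nat_lit 0) (nat_lit 2777913982277) (nat_lit 152) (nat_lit 10095834001368) (nat_lit 76) (nat_lit 4579064956322) (nat_lit 48) (nat_lit 5) (nat_lit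 50) (nat_lit 5) (nat_lit 49) (nat_lit 5) (nat_lit 519) (nat_lit 495) (nat_lit 186))) (XT.nd (nat_lit 60606) (nat_lit 0) (nat_lit 2660) (XT.lf (nat_lit 0) (nat_lit 354998906067) (nat_lit 152) (nat_lit 6813170125785) (nat_lit 228) (nat_lit 11154814619370) (nat_lit 46) (nat_lit 5) (nat_lit 48) (nat_lit 5) (nat_lit 49) (nat_lit 5) (nat_lit 520) (nat_lit 495) (nat_lit 185)) (XT.lf (nat_lit 0) (nat_lit 3182312758587) (nat_lit 532) (nat_lit 50370211957) (nat_lit 532) (nat_lit 50370211957) (nat_lit 81) (nat_lit 3) (nat_lit 88) (nat_lit 3) (nat_lit 88) (nat_lit 5) (nat_lit 496) (nat_lit 496) (nat_lit 208))))))))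
noncomputable def xc250 : XT := (XT.nd (nat_lit 62556) (nat_lit 0) (nat_lit 152) (XT.nd (nat_lit 936) (nat_lit 1292) (nat_lit 0) (XT.nd (nat_lit 468) (nat_lit 760) (nat_lit 0) (XT.nd (nat_lit 234) (nat_lit 0) (nat_lit 0) (XT.nd (nat_lit 78) (nat_lit 456) (nat_lit 0) (XT.lf (nat_lit 76) (nat_lit 3322261563173) (nat_lit 0) (nat_lit 3376849446613) (nat_lit 532) (nat_lit 123247572061) (nat_lit 82) (nat_lit 5) (nat_lit 81) (nat_lit 3) (nat_lit 88) (nat_lit 5) (nat_lit 497) (nat_lit 496) (nat_lit 207)) (XT.nd (nat_lit 78) (nat_lit 456) (nat_lit 0) (XT.lf (nat_lit 76) (nat_lit 7024832906318) (nat_lit 0) (nat_lit 38276857062) (nat_lit 532) (nat_lit 35780858935) (nat_lit 82) (nat_lit 5) (nat_lit 81) (nat_lit 3) (nat_lit 88) (nat_lit 5) (nat_lit 498) (nat_lit 496) (nat_lit 206)) (XT.lf (nat_lit 0) (nat_lit 235726731535) (nat_lit 532) (nat_lit 3662785760244) (nat_lit 608) (nat_lit 3484521498773) (nat_lit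 75) (nat_lit 5) (nat_lit 82) (nat_lit 5) (nat_lit 83) (nat_lit 5) (nat_lit 499) (nat_lit 496) (nat_lit 205)))) (XT.nd (nat_lit 78) (nat_lit 0) (nat_lit 76) (XT.lf (nat_lit 76) (nat_lit 137463869904) (nat_lit 0) (nat_lit 395935640115) (nat_lit 608) (nat_lit 7155924754270) (nat_lit 76) (nat_lit 5) (nat_lit 75) (nat_lit 5) (nat_lit 83) (nat_lit 5) (nat_lit 500) (nat_lit 496) (nat_lit 204)) (XT.nd (nat_lit 78) (nat_lit 0) (nat_lit 0) (XT.lf (nat_lit 0) (nat_lit 1039088146988) (nat_lit 532) (nat_lit 3646121636201) (nat_lit 608) (nat_lit 3320171813840) (nat_lit 76) (nat_lit 5) (nat_lit 83) (nat_lit 5) (nat_lit 84) (nat_lit 5) (nat_lit 501) (nat_lit 496) (nat_lit 203)) (XT.lf (nat_lit 76) (nat_lit 591375160559) (nat_lit 0) (nat_lit 1018363343677) (nat_lit 608) (nat_lit 6735024481805) (nat_lit 77) (nat_lit 5) (nat_lit 76) (nat_lit 5) (nat_lit 84) (nat_lit 5) (nat_lit 502) (nat_lit 496) (nat_lit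 202))))) (XT.nd (nat_lit 234) (nat_lit 456) (nat_lit 0) (XT.nd (nat_lit 78) (nat_lit 456) (nat_lit 0) (XT.lf (nat_lit 0) (nat_lit 2399072806446) (nat_lit 532) (nat_lit 3401430192332) (nat_lit 76) (nat_lit 2896949334087) (nat_lit 77) (nat_lit 5) (nat_lit 84) (nat_lit 5) (nat_lit 78) (nat_lit 5) (nat_lit 503) (nat_lit 496) (nat_lit 201)) (XT.nd (nat_lit 78) (nat_lit 0) (nat_lit 0) (XT.lf (nat_lit 0) (nat_lit 1339226593548) (nat_lit 456) (nat_lit 1970986686909) (nat_lit 532) (nat_lit 5763450792767) (nat_lit 71) (nat_lit 5) (nat_lit 77) (nat_lit 5) (nat_lit 78) (nat_lit 5) (nat_lit 504) (nat_lit 496) (nat_lit 200)) (XT.lf (nat_lit 0) (nat_lit 4441727414285) (nat_lit 532) (nat_lit 2874435683981) (nat_lit 76) (nat_lit 2152011060794) (nat_lit 71) (nat_lit 5) (nat_lit 78) (nat_lit 5) (nat_lit 72) (nat_lit 5) (nat_lit 505) (nat_lit 496) (nat_lit 199)))) (XT.nd (nat_lit 78) (nat_lit 228) (nat_lit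 0) (XT.lf (nat_lit 0) (nat_lit 2445505905638) (nat_lit 228) (nat_lit 3328265708341) (nat_lit 304) (nat_lit 4111672722972) (nat_lit 68) (nat_lit 5) (nat_lit 71) (nat_lit 5) (nat_lit 72) (nat_lit 5) (nat_lit 506) (nat_lit 496) (nat_lit 198)) (XT.nd (nat_lit 78) (nat_lit 228) (nat_lit 0) (XT.lf (nat_lit 0) (nat_lit 7316549750111) (nat_lit 304) (nat_lit 2000872464187) (nat_lit 76) (nat_lit 1010340282738) (nat_lit 68) (nat_lit 5) (nat_lit 72) (nat_lit 5) (nat_lit 69) (nat_lit 5) (nat_lit 507) (nat_lit 496) (nat_lit 197)) (XT.lf (nat_lit 0) (nat_lit 3986280200420) (nat_lit 228) (nat_lit 5178788531284) (nat_lit 304) (nat_lit 1625811890657) (nat_lit 65) (nat_lit 5) (nat_lit 68) (nat_lit 5) (nat_lit 69) (nat_lit 5) (nat_lit 508) (nat_lit 496) (nat_lit 196)))))) (XT.nd (nat_lit 468) (nat_lit 684) (nat_lit 0) (XT.nd (nat_lit 234) (nat_lit 152) (nat_lit 0) (XT.nd (nat_lit 78) (nat_lit 456) (nat_lit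 0) (XT.lf (nat_lit 0) (nat_lit 10566196468075) (nat_lit 228) (nat_lit 649980162699) (nat_lit 304) (nat_lit 70494975022) (nat_lit 65) (nat_lit 5) (nat_lit 68) (nat_lit 5) (nat_lit 69) (nat_lit 5) (nat_lit 509) (nat_lit 496) (nat_lit 195)) (XT.nd (nat_lit 78) (nat_lit 228) (nat_lit 0) (XT.lf (nat_lit 0) (nat_lit 1782703500788) (nat_lit 228) (nat_lit 5796374995473) (nat_lit 76) (nat_lit 4219634594833) (nat_lit 62) (nat_lit 5) (nat_lit 65) (nat_lit 5) (nat_lit 63) (nat_lit 5) (nat_lit 510) (nat_lit 496) (nat_lit 194)) (XT.lf (nat_lit 0) (nat_lit 983796666829) (nat_lit 228) (nat_lit 2857306294341) (nat_lit 304) (nat_lit 8505608157683) (nat_lit 59) (nat_lit 5) (nat_lit 62) (nat_lit 5) (nat_lit 63) (nat_lit 5) (nat_lit 511) (nat_lit 496) (nat_lit 193)))) (XT.nd (nat_lit 78) (nat_lit 152) (nat_lit 0) (XT.lf (nat_lit 0) (nat_lit 6280699137304) (nat_lit 304) (nat_lit 4347884886177) (nat_lit 76) (nat_lit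 2292642984640) (nat_lit 59) (nat_lit 5) (nat_lit 63) (nat_lit 5) (nat_lit 60) (nat_lit 5) (nat_lit 512) (nat_lit 496) (nat_lit 192)) (XT.nd (nat_lit 78) (nat_lit 0) (nat_lit 0) (XT.lf (nat_lit 0) (nat_lit 3320222261449) (nat_lit 152) (nat_lit 5749307919163) (nat_lit 228) (nat_lit 4459848614070) (nat_lit 57) (nat_lit 5) (nat_lit 59) (nat_lit 5) (nat_lit 60) (nat_lit 5) (nat_lit 513) (nat_lit 496) (nat_lit 191)) (XT.lf (nat_lit 0) (nat_lit 11849046046841) (nat_lit 152) (nat_lit 351300538390) (nat_lit 228) (nat_lit 1976325828710) (nat_lit 57) (nat_lit 5) (nat_lit 59) (nat_lit 5) (nat_lit 60) (nat_lit 5) (nat_lit 514) (nat_lit 496) (nat_lit 190))))) (XT.nd (nat_lit 234) (nat_lit 304) (nat_lit 0) (XT.nd (nat_lit 78) (nat_lit 152) (nat_lit 0) (XT.lf (nat_lit 0) (nat_lit 962961508638) (nat_lit 228) (nat_lit 8505939259734) (nat_lit 76) (nat_lit 5382099150677) (nat_lit 54) (nat_lit 5) (nat_lit 57)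 (nat_lit 5) (nat_lit 55) (nat_lit 5) (nat_lit 515) (nat_lit 496) (nat_lit 189)) (XT.nd (nat_lit 78) (nat_lit 0) (nat_lit 0) (XT.lf (nat_lit 0) (nat_lit 218577806812) (nat_lit 152) (nat_lit 3891717042977) (nat_lit 228) (nat_lit 11458498048127) (nat_lit 52) (nat_lit 5) (nat_lit 54) (nat_lit 5) (nat_lit 55) (nat_lit 5) (nat_lit 516) (nat_lit 496) (nat_lit 188)) (XT.lf (nat_lit 0) (nat_lit 7799289050895) (nat_lit 228) (nat_lit 6257914117161) (nat_lit 76) (nat_lit 2263616211623) (nat_lit 52) (nat_lit 5) (nat_lit 55) (nat_lit 5) (nat_lit 53) (nat_lit 5) (nat_lit 517) (nat_lit 496) (nat_lit 187)))) (XT.nd (nat_lit 156) (nat_lit 152) (nat_lit 0) (XT.nd (nat_lit 78) (nat_lit 0) (nat_lit 0) (XT.lf (nat_lit 0) (nat_lit 3642921039374) (nat_lit 152) (nat_lit 8329177646836) (nat_lit 228) (nat_lit 5145813621923) (nat_lit 50) (nat_lit 5) (nat_lit 52) (nat_lit 5) (nat_lit 53) (nat_lit 5) (nat_lit 518) (nat_lit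 496) (nat_lit 186)) (XT.lf (nat_lit 0) (nat_lit 14691716129192) (nat_lit 152) (nat_lit 1958119425051) (nat_lit 228) (nat_lit 1315248919669) (nat_lit 50) (nat_lit 5) (nat_lit 52) (nat_lit 5) (nat_lit 53) (nat_lit 5) (nat_lit 519) (nat_lit 496) (nat_lit 185))) (XT.nd (nat_lit 60684) (nat_lit 0) (nat_lit 2508) (XT.lf (nat_lit 0) (nat_lit 3000147101734) (nat_lit 152) (nat_lit 10903500720024) (nat_lit 76) (nat_lit 4945390153336) (nat_lit 48) (nat_lit 5) (nat_lit 50) (nat_lit 5) (nat_lit 49) (nat_lit 5) (nat_lit 520) (nat_lit 496) (nat_lit 184)) (XT.lf (nat_lit 0) (nat_lit 3436897780670) (nat_lit 532) (nat_lit 54399828159) (nat_lit 532) (nat_lit 54399828159) (nat_lit 81) (nat_lit 3) (nat_lit 88) (nat_lit 3) (nat_lit 88) (nat_lit 5) (nat_lit 497) (nat_lit 497) (nat_lit 206))))))) (XT.nd (nat_lit 936) (nat_lit 1140) (nat_lit 0) (XT.nd (nat_lit 468) (nat_lit 760) (nat_lit 0) (XT.nd (nat_lit 234)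 (nat_lit 0) (nat_lit 0) (XT.nd (nat_lit 78) (nat_lit 456) (nat_lit 0) (XT.lf (nat_lit 76) (nat_lit 3588042489697) (nat_lit 0) (nat_lit 3646997403494) (nat_lit 532) (nat_lit 133107374994) (nat_lit 82) (nat_lit 5) (nat_lit 81) (nat_lit 3) (nat_lit 88) (nat_lit 5) (nat_lit 498) (nat_lit 497) (nat_lit 205)) (XT.nd (nat_lit 78) (nat_lit 456) (nat_lit 0) (XT.lf (nat_lit 76) (nat_lit 7586819540185) (nat_lit 0) (nat_lit 41339006693) (nat_lit 532) (nat_lit 38643325028) (nat_lit 82) (nat_lit 5) (nat_lit 81) (nat_lit 3) (nat_lit 88) (nat_lit 5) (nat_lit 499) (nat_lit 497) (nat_lit 204)) (XT.lf (nat_lit 0) (nat_lit 254584872379) (nat_lit 532) (nat_lit 3955808619399) (nat_lit 608) (nat_lit 3763283217833) (nat_lit 75) (nat_lit 5) (nat_lit 82) (nat_lit 5) (nat_lit 83) (nat_lit 5) (nat_lit 500) (nat_lit 497) (nat_lit 203)))) (XT.nd (nat_lit 78) (nat_lit 0) (nat_lit 76) (XT.lf (nat_lit 76) (nat_lit 148460981119)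 (nat_lit 0) (nat_lit 427610491889) (nat_lit 608) (nat_lit 7728398732249) (nat_lit 76) (nat_lit 5) (nat_lit 75) (nat_lit 5) (nat_lit 83) (nat_lit 5) (nat_lit 501) (nat_lit 497) (nat_lit 202)) (XT.nd (nat_lit 78) (nat_lit 0) (nat_lit 0) (XT.lf (nat_lit 0) (nat_lit 1122215200760) (nat_lit 532) (nat_lit 3937811365419) (nat_lit 608) (nat_lit 3585785558450) (nat_lit 76) (nat_lit 5) (nat_lit 83) (nat_lit 5) (nat_lit 84) (nat_lit 5) (nat_lit 502) (nat_lit 497) (nat_lit 201)) (XT.lf (nat_lit 76) (nat_lit 638685175039) (nat_lit 0) (nat_lit 1099832411439) (nat_lit 608) (nat_lit 7273826438294) (nat_lit 77) (nat_lit 5) (nat_lit 76) (nat_lit 5) (nat_lit 84) (nat_lit 5) (nat_lit 503) (nat_lit 497) (nat_lit 200))))) (XT.nd (nat_lit 234) (nat_lit 456) (nat_lit 0) (XT.nd (nat_lit 78) (nat_lit 456) (nat_lit 0) (XT.lf (nat_lit 0) (nat_lit 2590998632717) (nat_lit 532) (nat_lit 3673544606057) (nat_lit 76) (nat_lit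 3128705280578) (nat_lit 77) (nat_lit 5) (nat_lit 84) (nat_lit 5) (nat_lit 78) (nat_lit 5) (nat_lit 504) (nat_lit 497) (nat_lit 199)) (XT.nd (nat_lit 78) (nat_lit 0) (nat_lit 0) (XT.lf (nat_lit 0) (nat_lit 1446364722651) (nat_lit 456) (nat_lit 2128665621907) (nat_lit 532) (nat_lit 6224526854390) (nat_lit 71) (nat_lit 5) (nat_lit 77) (nat_lit 5) (nat_lit 78) (nat_lit 5) (nat_lit 505) (nat_lit 497) (nat_lit 198)) (XT.lf (nat_lit 0) (nat_lit 4797065608969) (nat_lit 532) (nat_lit 3104390537075) (nat_lit 76) (nat_lit 2324171945618) (nat_lit 71) (nat_lit 5) (nat_lit 78) (nat_lit 5) (nat_lit 72) (nat_lit 5) (nat_lit 506) (nat_lit 497) (nat_lit 197)))) (XT.nd (nat_lit 78) (nat_lit 228) (nat_lit 0) (XT.lf (nat_lit 0) (nat_lit 2641146379672) (nat_lit 228) (nat_lit 3594526964890) (nat_lit 304) (nat_lit 4440606539227) (nat_lit 68) (nat_lit 5) (nat_lit 71) (nat_lit 5) (nat_lit 72) (nat_lit 5) (nat_lit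 507) (nat_lit 497) (nat_lit 196)) (XT.nd (nat_lit 78) (nat_lit 228) (nat_lit 0) (XT.lf (nat_lit 0) (nat_lit 7901873731478) (nat_lit 304) (nat_lit 2160942259750) (nat_lit 76) (nat_lit 1091167505461) (nat_lit 68) (nat_lit 5) (nat_lit 72) (nat_lit 5) (nat_lit 69) (nat_lit 5) (nat_lit 508) (nat_lit 497) (nat_lit 195)) (XT.lf (nat_lit 0) (nat_lit 4305182617986) (nat_lit 228) (nat_lit 5593091613550) (nat_lit 304) (nat_lit 1755876840511) (nat_lit 65) (nat_lit 5) (nat_lit 68) (nat_lit 5) (nat_lit 69) (nat_lit 5) (nat_lit 509) (nat_lit 497) (nat_lit 194)))))) (XT.nd (nat_lit 468) (nat_lit 532) (nat_lit 0) (XT.nd (nat_lit 234) (nat_lit 152) (nat_lit 0) (XT.nd (nat_lit 78) (nat_lit 456) (nat_lit 0) (XT.lf (nat_lit 0) (nat_lit 11411492186940) (nat_lit 228) (nat_lit 701978575496) (nat_lit 304) (nat_lit 76134571729) (nat_lit 65) (nat_lit 5) (nat_lit 68) (nat_lit 5) (nat_lit 69) (nat_lit 5) (nat_lit 510)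 (nat_lit 497) (nat_lit 193)) (XT.nd (nat_lit 78) (nat_lit 228) (nat_lit 0) (XT.lf (nat_lit 0) (nat_lit 1925319782031) (nat_lit 228) (nat_lit 6260084993578) (nat_lit 76) (nat_lit 4557205362678) (nat_lit 62) (nat_lit 5) (nat_lit 65) (nat_lit 5) (nat_lit 63) (nat_lit 5) (nat_lit 511) (nat_lit 497) (nat_lit 192)) (XT.lf (nat_lit 0) (nat_lit 1062500401671) (nat_lit 228) (nat_lit 3085890797523) (nat_lit 304) (nat_lit 9186056809078) (nat_lit 59) (nat_lit 5) (nat_lit 62) (nat_lit 5) (nat_lit 63) (nat_lit 5) (nat_lit 512) (nat_lit 497) (nat_lit 191)))) (XT.nd (nat_lit 78) (nat_lit 152) (nat_lit 0) (XT.lf (nat_lit 0) (nat_lit 6783155069342) (nat_lit 304) (nat_lit 4695715675612) (nat_lit 76) (nat_lit 2476054423733) (nat_lit 59) (nat_lit 5) (nat_lit 63) (nat_lit 5) (nat_lit 60) (nat_lit 5) (nat_lit 513) (nat_lit 497) (nat_lit 190)) (XT.nd (nat_lit 78) (nat_lit 0) (nat_lit 0) (XT.lf (nat_lit 0) (nat_lit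 3585840043788) (nat_lit 152) (nat_lit 6209252552284) (nat_lit 228) (nat_lit 4816636502105) (nat_lit 57) (nat_lit 5) (nat_lit 59) (nat_lit 5) (nat_lit 60) (nat_lit 5) (nat_lit 514) (nat_lit 497) (nat_lit 189)) (XT.lf (nat_lit 0) (nat_lit 12796969731906) (nat_lit 152) (nat_lit 379404581079) (nat_lit 228) (nat_lit 2134431893997) (nat_lit 57) (nat_lit 5) (nat_lit 59) (nat_lit 5) (nat_lit 60) (nat_lit 5) (nat_lit 515) (nat_lit 497) (nat_lit 188))))) (XT.nd (nat_lit 234) (nat_lit 152) (nat_lit 0) (XT.nd (nat_lit 78) (nat_lit 152) (nat_lit 0) (XT.lf (nat_lit 0) (nat_lit 1039998430260) (nat_lit 228) (nat_lit 9186414399115) (nat_lit 76) (nat_lit 5812667083123) (nat_lit 54) (nat_lit 5) (nat_lit 57) (nat_lit 5) (nat_lit 55) (nat_lit 5) (nat_lit 516) (nat_lit 497) (nat_lit 187)) (XT.nd (nat_lit 78) (nat_lit 0) (nat_lit 0) (XT.lf (nat_lit 0) (nat_lit 236064032719) (nat_lit 152) (nat_lit 4203054405947)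 (nat_lit 228) (nat_lit 12375177891011) (nat_lit 52) (nat_lit 5) (nat_lit 54) (nat_lit 5) (nat_lit 55) (nat_lit 5) (nat_lit 517) (nat_lit 497) (nat_lit 186)) (XT.lf (nat_lit 0) (nat_lit 8423232175805) (nat_lit 228) (nat_lit 6758547245216) (nat_lit 76) (nat_lit 2444705508964) (nat_lit 52) (nat_lit 5) (nat_lit 55) (nat_lit 5) (nat_lit 53) (nat_lit 5) (nat_lit 518) (nat_lit 497) (nat_lit 185)))) (XT.nd (nat_lit 60840) (nat_lit 0) (nat_lit 2356) (XT.nd (nat_lit 78) (nat_lit 0) (nat_lit 0) (XT.lf (nat_lit 0) (nat_lit 3934354723808) (nat_lit 152) (nat_lit 8995511858106) (nat_lit 228) (nat_lit 5557478710805) (nat_lit 50) (nat_lit 5) (nat_lit 52) (nat_lit 5) (nat_lit 53) (nat_lit 5) (nat_lit 519) (nat_lit 497) (nat_lit 184)) (XT.lf (nat_lit 0) (nat_lit 15867053420716) (nat_lit 152) (nat_lit 2114768978614) (nat_lit 228) (nat_lit 1420468832436) (nat_lit 50) (nat_lit 5) (nat_lit 52) (nat_lit 5) (nat_lit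 53) (nat_lit 5) (nat_lit 520) (nat_lit 497) (nat_lit 183))) (XT.nd (nat_lit 78) (nat_lit 0) (nat_lit 0) (XT.lf (nat_lit 0) (nat_lit 3711849604321) (nat_lit 532) (nat_lit 58751813765) (nat_lit 532) (nat_lit 58751813765) (nat_lit 81) (nat_lit 3) (nat_lit 88) (nat_lit 3) (nat_lit 88) (nat_lit 5) (nat_lit 498) (nat_lit 498) (nat_lit 204)) (XT.lf (nat_lit 76) (nat_lit 3875085890134) (nat_lit 0) (nat_lit 3938757196760) (nat_lit 532) (nat_lit 143755962566) (nat_lit 82) (nat_lit 5) (nat_lit 81) (nat_lit 3) (nat_lit 88) (nat_lit 5) (nat_lit 499) (nat_lit 498) (nat_lit 203))))))))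
noncomputable def xc251 : XT := (XT.nd (nat_lit 62712) (nat_lit 0) (nat_lit 152) (XT.nd (nat_lit 936) (nat_lit 1140) (nat_lit 0) (XT.nd (nat_lit 468) (nat_lit 760) (nat_lit 0) (XT.nd (nat_lit 234) (nat_lit 0) (nat_lit 76) (XT.nd (nat_lit 78) (nat_lit 456) (nat_lit 0) (XT.lf (nat_lit 76) (nat_lit 8193765104567) (nat_lit 0) (nat_lit 44646128142) (nat_lit 532) (nat_lit 41734788781) (nat_lit 82) (nat_lit 5) (nat_lit 81) (nat_lit 3) (nat_lit 88) (nat_lit 5) (nat_lit 500) (nat_lit 498) (nat_lit 202)) (XT.nd (nat_lit 78) (nat_lit 0) (nat_lit 0) (XT.lf (nat_lit 0) (nat_lit 274951664158) (nat_lit 532) (nat_lit 4272273307523) (nat_lit 608) (nat_lit 4064345874538) (nat_lit 75) (nat_lit 5) (nat_lit 82) (nat_lit 5) (nat_lit 83) (nat_lit 5) (nat_lit 501) (nat_lit 498) (nat_lit 201)) (XT.lf (nat_lit 76) (nat_lit 160337861000) (nat_lit 0) (nat_lit 461819331724) (nat_lit 608) (nat_lit 8346670628803) (nat_lit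 76) (nat_lit 5) (nat_lit 75) (nat_lit 5) (nat_lit 83) (nat_lit 5) (nat_lit 502) (nat_lit 498) (nat_lit 200)))) (XT.nd (nat_lit 78) (nat_lit 0) (nat_lit 0) (XT.lf (nat_lit 0) (nat_lit 1211992418546) (nat_lit 532) (nat_lit 4252836273215) (nat_lit 608) (nat_lit 3872648402700) (nat_lit 76) (nat_lit 5) (nat_lit 83) (nat_lit 5) (nat_lit 84) (nat_lit 5) (nat_lit 503) (nat_lit 498) (nat_lit 199)) (XT.nd (nat_lit 78) (nat_lit 0) (nat_lit 76) (XT.lf (nat_lit 76) (nat_lit 689779990444) (nat_lit 0) (nat_lit 1187819004584) (nat_lit 608) (nat_lit 7855732551595) (nat_lit 77) (nat_lit 5) (nat_lit 76) (nat_lit 5) (nat_lit 84) (nat_lit 5) (nat_lit 504) (nat_lit 498) (nat_lit 198)) (XT.lf (nat_lit 0) (nat_lit 2798278524840) (nat_lit 532) (nat_lit 3967428173117) (nat_lit 76) (nat_lit 3379001702823) (nat_lit 77) (nat_lit 5) (nat_lit 84) (nat_lit 5) (nat_lit 78) (nat_lit 5) (nat_lit 505) (nat_lit 498) (nat_lit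 197))))) (XT.nd (nat_lit 234) (nat_lit 228) (nat_lit 0) (XT.nd (nat_lit 78) (nat_lit 228) (nat_lit 0) (XT.lf (nat_lit 0) (nat_lit 1562073901851) (nat_lit 456) (nat_lit 2298958871699) (nat_lit 532) (nat_lit 6722489001199) (nat_lit 71) (nat_lit 5) (nat_lit 77) (nat_lit 5) (nat_lit 78) (nat_lit 5) (nat_lit 506) (nat_lit 498) (nat_lit 196)) (XT.nd (nat_lit 78) (nat_lit 228) (nat_lit 0) (XT.lf (nat_lit 0) (nat_lit 5180830859007) (nat_lit 532) (nat_lit 3352741778649) (nat_lit 76) (nat_lit 2510105701233) (nat_lit 71) (nat_lit 5) (nat_lit 78) (nat_lit 5) (nat_lit 72) (nat_lit 5) (nat_lit 507) (nat_lit 498) (nat_lit 195)) (XT.lf (nat_lit 0) (nat_lit 2852438091402) (nat_lit 228) (nat_lit 3882089121980) (nat_lit 304) (nat_lit 4795855061009) (nat_lit 68) (nat_lit 5) (nat_lit 71) (nat_lit 5) (nat_lit 72) (nat_lit 5) (nat_lit 508) (nat_lit 498) (nat_lit 194)))) (XT.nd (nat_lit 78) (nat_lit 228) (nat_lit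 0) (XT.lf (nat_lit 0) (nat_lit 8534023631162) (nat_lit 304) (nat_lit 2333817639183) (nat_lit 76) (nat_lit 1178460905987) (nat_lit 68) (nat_lit 5) (nat_lit 72) (nat_lit 5) (nat_lit 69) (nat_lit 5) (nat_lit 509) (nat_lit 498) (nat_lit 193)) (XT.nd (nat_lit 78) (nat_lit 0) (nat_lit 0) (XT.lf (nat_lit 0) (nat_lit 4649597228738) (nat_lit 228) (nat_lit 6040538942431) (nat_lit 304) (nat_lit 1896346986552) (nat_lit 65) (nat_lit 5) (nat_lit 68) (nat_lit 5) (nat_lit 69) (nat_lit 5) (nat_lit 510) (nat_lit 498) (nat_lit 192)) (XT.lf (nat_lit 0) (nat_lit 12324411563111) (nat_lit 228) (nat_lit 758136861348) (nat_lit 304) (nat_lit 82225336357) (nat_lit 65) (nat_lit 5) (nat_lit 68) (nat_lit 5) (nat_lit 69) (nat_lit 5) (nat_lit 511) (nat_lit 498) (nat_lit 191)))))) (XT.nd (nat_lit 468) (nat_lit 304) (nat_lit 0) (XT.nd (nat_lit 234) (nat_lit 380) (nat_lit 0) (XT.nd (nat_lit 78) (nat_lit 228) (nat_lit 0)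 (XT.lf (nat_lit 0) (nat_lit 2079345365606) (nat_lit 228) (nat_lit 6760891791749) (nat_lit 76) (nat_lit 4921781791914) (nat_lit 62) (nat_lit 5) (nat_lit 65) (nat_lit 5) (nat_lit 63) (nat_lit 5) (nat_lit 512) (nat_lit 498) (nat_lit 190)) (XT.nd (nat_lit 78) (nat_lit 0) (nat_lit 0) (XT.lf (nat_lit 0) (nat_lit 1147500435086) (nat_lit 228) (nat_lit 3332762061011) (nat_lit 304) (nat_lit 9920941352759) (nat_lit 59) (nat_lit 5) (nat_lit 62) (nat_lit 5) (nat_lit 63) (nat_lit 5) (nat_lit 513) (nat_lit 498) (nat_lit 189)) (XT.lf (nat_lit 0) (nat_lit 7325807475792) (nat_lit 304) (nat_lit 5071372928409) (nat_lit 76) (nat_lit 2674138777907) (nat_lit 59) (nat_lit 5) (nat_lit 63) (nat_lit 5) (nat_lit 60) (nat_lit 5) (nat_lit 514) (nat_lit 498) (nat_lit 188)))) (XT.nd (nat_lit 78) (nat_lit 228) (nat_lit 0) (XT.lf (nat_lit 0) (nat_lit 3872707248511) (nat_lit 152) (nat_lit 6705992756112) (nat_lit 228) (nat_lit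 5201967421338) (nat_lit 57) (nat_lit 5) (nat_lit 59) (nat_lit 5) (nat_lit 60) (nat_lit 5) (nat_lit 515) (nat_lit 498) (nat_lit 187)) (XT.nd (nat_lit 78) (nat_lit 228) (nat_lit 0) (XT.lf (nat_lit 0) (nat_lit 13820727311587) (nat_lit 152) (nat_lit 409756947238) (nat_lit 228) (nat_lit 2305186444651) (nat_lit 57) (nat_lit 5) (nat_lit 59) (nat_lit 5) (nat_lit 60) (nat_lit 5) (nat_lit 516) (nat_lit 498) (nat_lit 186)) (XT.lf (nat_lit 0) (nat_lit 1123198305478) (nat_lit 228) (nat_lit 9921327549847) (nat_lit 76) (nat_lit 6277680450109) (nat_lit 54) (nat_lit 5) (nat_lit 57) (nat_lit 5) (nat_lit 55) (nat_lit 5) (nat_lit 517) (nat_lit 498) (nat_lit 185))))) (XT.nd (nat_lit 60996) (nat_lit 0) (nat_lit 1900) (XT.nd (nat_lit 78) (nat_lit 152) (nat_lit 0) (XT.lf (nat_lit 0) (nat_lit 254949156504) (nat_lit 152) (nat_lit 4539298758022) (nat_lit 228) (nat_lit 13365192121464) (nat_lit 52) (nat_lit 5) (nat_lit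 54) (nat_lit 5) (nat_lit 55) (nat_lit 5) (nat_lit 518) (nat_lit 498) (nat_lit 184)) (XT.nd (nat_lit 78) (nat_lit 152) (nat_lit 0) (XT.lf (nat_lit 0) (nat_lit 9097090750588) (nat_lit 228) (nat_lit 7299231023705) (nat_lit 76) (nat_lit 2640281950034) (nat_lit 52) (nat_lit 5) (nat_lit 55) (nat_lit 5) (nat_lit 53) (nat_lit 5) (nat_lit 519) (nat_lit 498) (nat_lit 183)) (XT.lf (nat_lit 0) (nat_lit 4249103102813) (nat_lit 152) (nat_lit 9715152806346) (nat_lit 228) (nat_lit 6002077006922) (nat_lit 50) (nat_lit 5) (nat_lit 52) (nat_lit 5) (nat_lit 53) (nat_lit 5) (nat_lit 520) (nat_lit 498) (nat_lit 182)))) (XT.nd (nat_lit 156) (nat_lit 456) (nat_lit 0) (XT.nd (nat_lit 78) (nat_lit 0) (nat_lit 0) (XT.lf (nat_lit 0) (nat_lit 4008797573694) (nat_lit 532) (nat_lit 63451958312) (nat_lit 532) (nat_lit 63451958312) (nat_lit 81) (nat_lit 3) (nat_lit 88) (nat_lit 3) (nat_lit 88) (nat_lit 5) (nat_lit 499)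 (nat_lit 499) (nat_lit 202)) (XT.lf (nat_lit 76) (nat_lit 4185092762426) (nat_lit 0) (nat_lit 4253857773347) (nat_lit 532) (nat_lit 155256437489) (nat_lit 82) (nat_lit 5) (nat_lit 81) (nat_lit 3) (nat_lit 88) (nat_lit 5) (nat_lit 500) (nat_lit 499) (nat_lit 201))) (XT.nd (nat_lit 78) (nat_lit 456) (nat_lit 0) (XT.lf (nat_lit 76) (nat_lit 8849266313934) (nat_lit 0) (nat_lit 48217819177) (nat_lit 532) (nat_lit 45073569957) (nat_lit 82) (nat_lit 5) (nat_lit 81) (nat_lit 3) (nat_lit 88) (nat_lit 5) (nat_lit 501) (nat_lit 499) (nat_lit 200)) (XT.lf (nat_lit 0) (nat_lit 296947798997) (nat_lit 532) (nat_lit 4614055170902) (nat_lit 608) (nat_lit 4389493543882) (nat_lit 75) (nat_lit 5) (nat_lit 82) (nat_lit 5) (nat_lit 83) (nat_lit 5) (nat_lit 502) (nat_lit 499) (nat_lit 199))))))) (XT.nd (nat_lit 936) (nat_lit 532) (nat_lit 0) (XT.nd (nat_lit 468) (nat_lit 912) (nat_lit 0) (XT.nd (nat_lit 234)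 (nat_lit 304) (nat_lit 0) (XT.nd (nat_lit 78) (nat_lit 0) (nat_lit 76) (XT.lf (nat_lit 76) (nat_lit 173164891073) (nat_lit 0) (nat_lit 498764878677) (nat_lit 608) (nat_lit 9014404277370) (nat_lit 76) (nat_lit 5) (nat_lit 75) (nat_lit 5) (nat_lit 83) (nat_lit 5) (nat_lit 503) (nat_lit 499) (nat_lit 198)) (XT.nd (nat_lit 78) (nat_lit 0) (nat_lit 0) (XT.lf (nat_lit 0) (nat_lit 1308951813510) (nat_lit 532) (nat_lit 4593063173839) (nat_lit 608) (nat_lit 4182460274551) (nat_lit 76) (nat_lit 5) (nat_lit 83) (nat_lit 5) (nat_lit 84) (nat_lit 5) (nat_lit 504) (nat_lit 499) (nat_lit 197)) (XT.lf (nat_lit 76) (nat_lit 744962390881) (nat_lit 0) (nat_lit 1282844525148) (nat_lit 608) (nat_lit 8484191154211) (nat_lit 77) (nat_lit 5) (nat_lit 76) (nat_lit 5) (nat_lit 84) (nat_lit 5) (nat_lit 505) (nat_lit 499) (nat_lit 196)))) (XT.nd (nat_lit 78) (nat_lit 456) (nat_lit 0) (XT.lf (nat_lit 0) (nat_lit 3022140808119)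 (nat_lit 532) (nat_lit 4284822425746) (nat_lit 76) (nat_lit 3649321838875) (nat_lit 77) (nat_lit 5) (nat_lit 84) (nat_lit 5) (nat_lit 78) (nat_lit 5) (nat_lit 506) (nat_lit 499) (nat_lit 195)) (XT.nd (nat_lit 78) (nat_lit 0) (nat_lit 0) (XT.lf (nat_lit 0) (nat_lit 1687039815190) (nat_lit 456) (nat_lit 2482875581469) (nat_lit 532) (nat_lit 7260288119973) (nat_lit 71) (nat_lit 5) (nat_lit 77) (nat_lit 5) (nat_lit 78) (nat_lit 5) (nat_lit 507) (nat_lit 499) (nat_lit 194)) (XT.lf (nat_lit 0) (nat_lit 5595297328860) (nat_lit 532) (nat_lit 3620961119747) (nat_lit 76) (nat_lit 2710914157302) (nat_lit 71) (nat_lit 5) (nat_lit 78) (nat_lit 5) (nat_lit 72) (nat_lit 5) (nat_lit 508) (nat_lit 499) (nat_lit 193))))) (XT.nd (nat_lit 234) (nat_lit 456) (nat_lit 0) (XT.nd (nat_lit 78) (nat_lit 228) (nat_lit 0) (XT.lf (nat_lit 0) (nat_lit 3080633139878) (nat_lit 228) (nat_lit 4192656251651) (nat_lit 304)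 (nat_lit 5179523464727) (nat_lit 68) (nat_lit 5) (nat_lit 71) (nat_lit 5) (nat_lit 72) (nat_lit 5) (nat_lit 509) (nat_lit 499) (nat_lit 192)) (XT.nd (nat_lit 78) (nat_lit 228) (nat_lit 0) (XT.lf (nat_lit 0) (nat_lit 9216745522653) (nat_lit 304) (nat_lit 2520523049162) (nat_lit 76) (nat_lit 1272737778542) (nat_lit 68) (nat_lit 5) (nat_lit 72) (nat_lit 5) (nat_lit 69) (nat_lit 5) (nat_lit 510) (nat_lit 499) (nat_lit 191)) (XT.lf (nat_lit 0) (nat_lit 5021565008163) (nat_lit 228) (nat_lit 6523782057651) (nat_lit 304) (nat_lit 2048054744448) (nat_lit 65) (nat_lit 5) (nat_lit 68) (nat_lit 5) (nat_lit 69) (nat_lit 5) (nat_lit 511) (nat_lit 499) (nat_lit 190)))) (XT.nd (nat_lit 78) (nat_lit 456) (nat_lit 0) (XT.lf (nat_lit 0) (nat_lit 13310364489203) (nat_lit 228) (nat_lit 818787810094) (nat_lit 304) (nat_lit 88803362314) (nat_lit 65) (nat_lit 5) (nat_lit 68) (nat_lit 5) (nat_lit 69) (nat_lit 5)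 (nat_lit 512) (nat_lit 499) (nat_lit 189)) (XT.nd (nat_lit 78) (nat_lit 228) (nat_lit 0) (XT.lf (nat_lit 0) (nat_lit 2245692995722) (nat_lit 228) (nat_lit 7301763133962) (nat_lit 76) (nat_lit 5315524335457) (nat_lit 62) (nat_lit 5) (nat_lit 65) (nat_lit 5) (nat_lit 63) (nat_lit 5) (nat_lit 513) (nat_lit 499) (nat_lit 188)) (XT.lf (nat_lit 0) (nat_lit 1239300470991) (nat_lit 228) (nat_lit 3599383025623) (nat_lit 304) (nat_lit 10714616660083) (nat_lit 59) (nat_lit 5) (nat_lit 62) (nat_lit 5) (nat_lit 63) (nat_lit 5) (nat_lit 514) (nat_lit 499) (nat_lit 187)))))) (XT.nd (nat_lit 61308) (nat_lit 0) (nat_lit 1748) (XT.nd (nat_lit 234) (nat_lit 380) (nat_lit 0) (XT.nd (nat_lit 78) (nat_lit 152) (nat_lit 0) (XT.lf (nat_lit 0) (nat_lit 7911872074630) (nat_lit 304) (nat_lit 5477082761609) (nat_lit 76) (nat_lit 2888069880376) (nat_lit 59) (nat_lit 5) (nat_lit 63) (nat_lit 5) (nat_lit 60) (nat_lit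 5) (nat_lit 515) (nat_lit 499) (nat_lit 186)) (XT.nd (nat_lit 78) (nat_lit 0) (nat_lit 0) (XT.lf (nat_lit 0) (nat_lit 4182523829437) (nat_lit 152) (nat_lit 7242472176298) (nat_lit 228) (nat_lit 5618124814244) (nat_lit 57) (nat_lit 5) (nat_lit 59) (nat_lit 5) (nat_lit 60) (nat_lit 5) (nat_lit 516) (nat_lit 499) (nat_lit 185)) (XT.lf (nat_lit 0) (nat_lit 14926385497483) (nat_lit 152) (nat_lit 442537502736) (nat_lit 228) (nat_lit 2489601359481) (nat_lit 57) (nat_lit 5) (nat_lit 59) (nat_lit 5) (nat_lit 60) (nat_lit 5) (nat_lit 517) (nat_lit 499) (nat_lit 184)))) (XT.nd (nat_lit 78) (nat_lit 152) (nat_lit 0) (XT.lf (nat_lit 0) (nat_lit 1213054170600) (nat_lit 228) (nat_lit 10715033752807) (nat_lit 76) (nat_lit 6779894886406) (nat_lit 54) (nat_lit 5) (nat_lit 57) (nat_lit 5) (nat_lit 55) (nat_lit 5) (nat_lit 518) (nat_lit 499) (nat_lit 183)) (XT.nd (nat_lit 78) (nat_lit 0) (nat_lit 0) (XT.lf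 (nat_lit 0) (nat_lit 275345090025) (nat_lit 152) (nat_lit 4902442658320) (nat_lit 228) (nat_lit 14434407490471) (nat_lit 52) (nat_lit 5) (nat_lit 54) (nat_lit 5) (nat_lit 55) (nat_lit 5) (nat_lit 519) (nat_lit 499) (nat_lit 182)) (XT.lf (nat_lit 0) (nat_lit 9824858011252) (nat_lit 228) (nat_lit 7883169504633) (nat_lit 76) (nat_lit 2851504506339) (nat_lit 52) (nat_lit 5) (nat_lit 55) (nat_lit 5) (nat_lit 53) (nat_lit 5) (nat_lit 520) (nat_lit 499) (nat_lit 181))))) (XT.nd (nat_lit 234) (nat_lit 456) (nat_lit 0) (XT.nd (nat_lit 78) (nat_lit 0) (nat_lit 0) (XT.lf (nat_lit 0) (nat_lit 4329501380469) (nat_lit 532) (nat_lit 68528114501) (nat_lit 532) (nat_lit 68528114501) (nat_lit 81) (nat_lit 3) (nat_lit 88) (nat_lit 3) (nat_lit 88) (nat_lit 5) (nat_lit 500) (nat_lit 500) (nat_lit 200)) (XT.nd (nat_lit 78) (nat_lit 0) (nat_lit 0) (XT.lf (nat_lit 76) (nat_lit 4519900184346) (nat_lit 0) (nat_lit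 4594166395940) (nat_lit 532) (nat_lit 167676950703) (nat_lit 82) (nat_lit 5) (nat_lit 81) (nat_lit 3) (nat_lit 88) (nat_lit 5) (nat_lit 501) (nat_lit 500) (nat_lit 199)) (XT.lf (nat_lit 76) (nat_lit 9557207619906) (nat_lit 0) (nat_lit 52075245383) (nat_lit 532) (nat_lit 48679453901) (nat_lit 82) (nat_lit 5) (nat_lit 81) (nat_lit 3) (nat_lit 88) (nat_lit 5) (nat_lit 502) (nat_lit 500) (nat_lit 198)))) (XT.nd (nat_lit 156) (nat_lit 0) (nat_lit 76) (XT.nd (nat_lit 78) (nat_lit 0) (nat_lit 0) (XT.lf (nat_lit 0) (nat_lit 320703624379) (nat_lit 532) (nat_lit 4983179583525) (nat_lit 608) (nat_lit 4740653026862) (nat_lit 75) (nat_lit 5) (nat_lit 82) (nat_lit 5) (nat_lit 83) (nat_lit 5) (nat_lit 503) (nat_lit 500) (nat_lit 197)) (XT.lf (nat_lit 76) (nat_lit 187018083381) (nat_lit 0) (nat_lit 538666069327) (nat_lit 608) (nat_lit 9735556618071) (nat_lit 76) (nat_lit 5) (nat_lit 75) (nat_lit 5) (nat_lit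 83) (nat_lit 5) (nat_lit 504) (nat_lit 500) (nat_lit 196))) (XT.nd (nat_lit 78) (nat_lit 0) (nat_lit 0) (XT.lf (nat_lit 0) (nat_lit 1413667959859) (nat_lit 532) (nat_lit 4960508226689) (nat_lit 608) (nat_lit 4517057096202) (nat_lit 76) (nat_lit 5) (nat_lit 83) (nat_lit 5) (nat_lit 84) (nat_lit 5) (nat_lit 505) (nat_lit 500) (nat_lit 195)) (XT.lf (nat_lit 76) (nat_lit 804559383182) (nat_lit 0) (nat_lit 1385472087329) (nat_lit 608) (nat_lit 9162926445253) (nat_lit 77) (nat_lit 5) (nat_lit 76) (nat_lit 5) (nat_lit 84) (nat_lit 5) (nat_lit 506) (nat_lit 500) (nat_lit 194))))))))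
noncomputable def xc252 : XT := (XT.nd (nat_lit 62868) (nat_lit 0) (nat_lit 152) (XT.nd (nat_lit 936) (nat_lit 380) (nat_lit 0) (XT.nd (nat_lit 468) (nat_lit 608) (nat_lit 0) (XT.nd (nat_lit 234) (nat_lit 456) (nat_lit 0) (XT.nd (nat_lit 78) (nat_lit 456) (nat_lit 0) (XT.lf (nat_lit 0) (nat_lit 3263912073875) (nat_lit 532) (nat_lit 4627608218758) (nat_lit 76) (nat_lit 3941267585837) (nat_lit 77) (nat_lit 5) (nat_lit 84) (nat_lit 5) (nat_lit 78) (nat_lit 5) (nat_lit 507) (nat_lit 500) (nat_lit 193)) (XT.nd (nat_lit 78) (nat_lit 0) (nat_lit 0) (XT.lf (nat_lit 0) (nat_lit 1822003001425) (nat_lit 456) (nat_lit 2681505628015) (nat_lit 532) (nat_lit 7841111168438) (nat_lit 71) (nat_lit 5) (nat_lit 77) (nat_lit 5) (nat_lit 78) (nat_lit 5) (nat_lit 508) (nat_lit 500) (nat_lit 192)) (XT.lf (nat_lit 0) (nat_lit 6042921116140) (nat_lit 532) (nat_lit 3910638008303) (nat_lit 76) (nat_lit 2927787289861)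 (nat_lit 71) (nat_lit 5) (nat_lit 78) (nat_lit 5) (nat_lit 72) (nat_lit 5) (nat_lit 509) (nat_lit 500) (nat_lit 191)))) (XT.nd (nat_lit 78) (nat_lit 228) (nat_lit 0) (XT.lf (nat_lit 0) (nat_lit 3327083792066) (nat_lit 228) (nat_lit 4528068751709) (nat_lit 304) (nat_lit 5593885340908) (nat_lit 68) (nat_lit 5) (nat_lit 71) (nat_lit 5) (nat_lit 72) (nat_lit 5) (nat_lit 510) (nat_lit 500) (nat_lit 190)) (XT.nd (nat_lit 78) (nat_lit 228) (nat_lit 0) (XT.lf (nat_lit 0) (nat_lit 9954085165322) (nat_lit 304) (nat_lit 2722164892105) (nat_lit 76) (nat_lit 1374556800891) (nat_lit 68) (nat_lit 5) (nat_lit 72) (nat_lit 5) (nat_lit 69) (nat_lit 5) (nat_lit 511) (nat_lit 500) (nat_lit 189)) (XT.lf (nat_lit 0) (nat_lit 5423290209782) (nat_lit 228) (nat_lit 7045684622114) (nat_lit 304) (nat_lit 2211899123123) (nat_lit 65) (nat_lit 5) (nat_lit 68) (nat_lit 5) (nat_lit 69) (nat_lit 5) (nat_lit 512) (nat_lit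 500) (nat_lit 188))))) (XT.nd (nat_lit 234) (nat_lit 152) (nat_lit 0) (XT.nd (nat_lit 78) (nat_lit 456) (nat_lit 0) (XT.lf (nat_lit 0) (nat_lit 14375193649233) (nat_lit 228) (nat_lit 884290834763) (nat_lit 304) (nat_lit 95907630482) (nat_lit 65) (nat_lit 5) (nat_lit 68) (nat_lit 5) (nat_lit 69) (nat_lit 5) (nat_lit 513) (nat_lit 500) (nat_lit 187)) (XT.nd (nat_lit 78) (nat_lit 228) (nat_lit 0) (XT.lf (nat_lit 0) (nat_lit 2425348436124) (nat_lit 228) (nat_lit 7885904183712) (nat_lit 76) (nat_lit 5740766282456) (nat_lit 62) (nat_lit 5) (nat_lit 65) (nat_lit 5) (nat_lit 63) (nat_lit 5) (nat_lit 514) (nat_lit 500) (nat_lit 186)) (XT.lf (nat_lit 0) (nat_lit 1338444509613) (nat_lit 228) (nat_lit 3887333667443) (nat_lit 304) (nat_lit 11571785992121) (nat_lit 59) (nat_lit 5) (nat_lit 62) (nat_lit 5) (nat_lit 63) (nat_lit 5) (nat_lit 515) (nat_lit 500) (nat_lit 185)))) (XT.nd (nat_lit 78) (nat_lit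 152) (nat_lit 0) (XT.lf (nat_lit 0) (nat_lit 8544821841265) (nat_lit 304) (nat_lit 5915249381618) (nat_lit 76) (nat_lit 3119115471009) (nat_lit 59) (nat_lit 5) (nat_lit 63) (nat_lit 5) (nat_lit 60) (nat_lit 5) (nat_lit 516) (nat_lit 500) (nat_lit 184)) (XT.nd (nat_lit 78) (nat_lit 0) (nat_lit 0) (XT.lf (nat_lit 0) (nat_lit 4517125736689) (nat_lit 152) (nat_lit 7821869950141) (nat_lit 228) (nat_lit 6067574798696) (nat_lit 57) (nat_lit 5) (nat_lit 59) (nat_lit 5) (nat_lit 60) (nat_lit 5) (nat_lit 517) (nat_lit 500) (nat_lit 183)) (XT.lf (nat_lit 0) (nat_lit 16120496338112) (nat_lit 152) (nat_lit 477940502714) (nat_lit 228) (nat_lit 2688769467603) (nat_lit 57) (nat_lit 5) (nat_lit 59) (nat_lit 5) (nat_lit 60) (nat_lit 5) (nat_lit 518) (nat_lit 500) (nat_lit 182)))))) (XT.nd (nat_lit 61386) (nat_lit 0) (nat_lit 1216) (XT.nd (nat_lit 61152) (nat_lit 0) (nat_lit 1748) (XT.nd (nat_lit 78) (nat_lit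 152) (nat_lit 0) (XT.lf (nat_lit 0) (nat_lit 1310098504835) (nat_lit 228) (nat_lit 11572236452151) (nat_lit 76) (nat_lit 7322286477566) (nat_lit 54) (nat_lit 5) (nat_lit 57) (nat_lit 5) (nat_lit 55) (nat_lit 5) (nat_lit 519) (nat_lit 500) (nat_lit 181)) (XT.nd (nat_lit 60996) (nat_lit 0) (nat_lit 2204) (XT.lf (nat_lit 0) (nat_lit 297372698086) (nat_lit 152) (nat_lit 5294638070691) (nat_lit 228) (nat_lit 15589160089100) (nat_lit 52) (nat_lit 5) (nat_lit 54) (nat_lit 5) (nat_lit 55) (nat_lit 5) (nat_lit 520) (nat_lit 500) (nat_lit 180)) (XT.lf (nat_lit 0) (nat_lit 4675861491661) (nat_lit 532) (nat_lit 74010363254) (nat_lit 532) (nat_lit 74010363254) (nat_lit 81) (nat_lit 3) (nat_lit 88) (nat_lit 3) (nat_lit 88) (nat_lit 5) (nat_lit 501) (nat_lit 501) (nat_lit 198)))) (XT.nd (nat_lit 78) (nat_lit 456) (nat_lit 0) (XT.lf (nat_lit 76) (nat_lit 4881492199889) (nat_lit 0) (nat_lit 4961699708238)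 (nat_lit 532) (nat_lit 181091105230) (nat_lit 82) (nat_lit 5) (nat_lit 81) (nat_lit 3) (nat_lit 88) (nat_lit 5) (nat_lit 502) (nat_lit 501) (nat_lit 197)) (XT.nd (nat_lit 78) (nat_lit 456) (nat_lit 0) (XT.lf (nat_lit 76) (nat_lit 10321784230235) (nat_lit 0) (nat_lit 56241265590) (nat_lit 532) (nat_lit 52573808796) (nat_lit 82) (nat_lit 5) (nat_lit 81) (nat_lit 3) (nat_lit 88) (nat_lit 5) (nat_lit 503) (nat_lit 501) (nat_lit 196)) (XT.lf (nat_lit 0) (nat_lit 346359915582) (nat_lit 532) (nat_lit 5381833949308) (nat_lit 608) (nat_lit 5119905268556) (nat_lit 75) (nat_lit 5) (nat_lit 82) (nat_lit 5) (nat_lit 83) (nat_lit 5) (nat_lit 504) (nat_lit 501) (nat_lit 195))))) (XT.nd (nat_lit 234) (nat_lit 532) (nat_lit 0) (XT.nd (nat_lit 78) (nat_lit 0) (nat_lit 76) (XT.lf (nat_lit 76) (nat_lit 201979530928) (nat_lit 0) (nat_lit 581759355179) (nat_lit 608) (nat_lit 10514401146240) (nat_lit 76) (nat_lit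 5) (nat_lit 75) (nat_lit 5) (nat_lit 83) (nat_lit 5) (nat_lit 505) (nat_lit 501) (nat_lit 194)) (XT.nd (nat_lit 78) (nat_lit 0) (nat_lit 0) (XT.lf (nat_lit 0) (nat_lit 1526761397735) (nat_lit 532) (nat_lit 5357348883918) (nat_lit 608) (nat_lit 4878421663630) (nat_lit 76) (nat_lit 5) (nat_lit 83) (nat_lit 5) (nat_lit 84) (nat_lit 5) (nat_lit 506) (nat_lit 501) (nat_lit 193)) (XT.lf (nat_lit 76) (nat_lit 868924134720) (nat_lit 0) (nat_lit 1496309854460) (nat_lit 608) (nat_lit 9895960559762) (nat_lit 77) (nat_lit 5) (nat_lit 76) (nat_lit 5) (nat_lit 84) (nat_lit 5) (nat_lit 507) (nat_lit 501) (nat_lit 192)))) (XT.nd (nat_lit 156) (nat_lit 228) (nat_lit 0) (XT.nd (nat_lit 78) (nat_lit 456) (nat_lit 0) (XT.lf (nat_lit 0) (nat_lit 3525025040734) (nat_lit 532) (nat_lit 4997816875362) (nat_lit 76) (nat_lit 4256568992576) (nat_lit 77) (nat_lit 5) (nat_lit 84) (nat_lit 5) (nat_lit 78) (nat_lit 5)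 (nat_lit 508) (nat_lit 501) (nat_lit 191)) (XT.lf (nat_lit 0) (nat_lit 1967763242414) (nat_lit 456) (nat_lit 2896026078281) (nat_lit 532) (nat_lit 8468400060941) (nat_lit 71) (nat_lit 5) (nat_lit 77) (nat_lit 5) (nat_lit 78) (nat_lit 5) (nat_lit 509) (nat_lit 501) (nat_lit 190))) (XT.nd (nat_lit 78) (nat_lit 228) (nat_lit 0) (XT.lf (nat_lit 0) (nat_lit 6526354806263) (nat_lit 532) (nat_lit 4223489048090) (nat_lit 76) (nat_lit 3162010273028) (nat_lit 71) (nat_lit 5) (nat_lit 78) (nat_lit 5) (nat_lit 72) (nat_lit 5) (nat_lit 510) (nat_lit 501) (nat_lit 189)) (XT.lf (nat_lit 0) (nat_lit 3593250496286) (nat_lit 228) (nat_lit 4890314251782) (nat_lit 304) (nat_lit 6041396167326) (nat_lit 68) (nat_lit 5) (nat_lit 71) (nat_lit 5) (nat_lit 72) (nat_lit 5) (nat_lit 511) (nat_lit 501) (nat_lit 188))))))) (XT.nd (nat_lit 61932) (nat_lit 0) (nat_lit 380) (XT.nd (nat_lit 468) (nat_lit 380) (nat_lit 0)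 (XT.nd (nat_lit 234) (nat_lit 456) (nat_lit 0) (XT.nd (nat_lit 78) (nat_lit 228) (nat_lit 0) (XT.lf (nat_lit 0) (nat_lit 10750411979282) (nat_lit 304) (nat_lit 2939938082624) (nat_lit 76) (nat_lit 1484521345019) (nat_lit 68) (nat_lit 5) (nat_lit 72) (nat_lit 5) (nat_lit 69) (nat_lit 5) (nat_lit 512) (nat_lit 501) (nat_lit 187)) (XT.nd (nat_lit 78) (nat_lit 0) (nat_lit 0) (XT.lf (nat_lit 0) (nat_lit 5857153427392) (nat_lit 228) (nat_lit 7609339391755) (nat_lit 304) (nat_lit 2388851052217) (nat_lit 65) (nat_lit 5) (nat_lit 68) (nat_lit 5) (nat_lit 69) (nat_lit 5) (nat_lit 513) (nat_lit 501) (nat_lit 186)) (XT.lf (nat_lit 0) (nat_lit 15525209141938) (nat_lit 228) (nat_lit 955034101426) (nat_lit 304) (nat_lit 103580240221) (nat_lit 65) (nat_lit 5) (nat_lit 68) (nat_lit 5) (nat_lit 69) (nat_lit 5) (nat_lit 514) (nat_lit 501) (nat_lit 185)))) (XT.nd (nat_lit 78) (nat_lit 228) (nat_lit 0) (XT.lf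 (nat_lit 0) (nat_lit 2619376311652) (nat_lit 228) (nat_lit 8516776517581) (nat_lit 76) (nat_lit 6200027585192) (nat_lit 62) (nat_lit 5) (nat_lit 65) (nat_lit 5) (nat_lit 63) (nat_lit 5) (nat_lit 515) (nat_lit 501) (nat_lit 184)) (XT.nd (nat_lit 78) (nat_lit 0) (nat_lit 0) (XT.lf (nat_lit 0) (nat_lit 1445520071189) (nat_lit 228) (nat_lit 4198320360641) (nat_lit 304) (nat_lit 12497528870832) (nat_lit 59) (nat_lit 5) (nat_lit 62) (nat_lit 5) (nat_lit 63) (nat_lit 5) (nat_lit 516) (nat_lit 501) (nat_lit 183)) (XT.lf (nat_lit 0) (nat_lit 9228407589135) (nat_lit 304) (nat_lit 6388469331359) (nat_lit 76) (nat_lit 3368644708863) (nat_lit 59) (nat_lit 5) (nat_lit 63) (nat_lit 5) (nat_lit 60) (nat_lit 5) (nat_lit 517) (nat_lit 501) (nat_lit 182))))) (XT.nd (nat_lit 61230) (nat_lit 0) (nat_lit 2052) (XT.nd (nat_lit 78) (nat_lit 228) (nat_lit 0) (XT.lf (nat_lit 0) (nat_lit 4878495796392) (nat_lit 152)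 (nat_lit 8447619545930) (nat_lit 228) (nat_lit 6552980782002) (nat_lit 57) (nat_lit 5) (nat_lit 59) (nat_lit 5) (nat_lit 60) (nat_lit 5) (nat_lit 518) (nat_lit 501) (nat_lit 181)) (XT.nd (nat_lit 78) (nat_lit 228) (nat_lit 0) (XT.lf (nat_lit 0) (nat_lit 17410136045872) (nat_lit 152) (nat_lit 516175742724) (nat_lit 228) (nat_lit 2903871024466) (nat_lit 57) (nat_lit 5) (nat_lit 59) (nat_lit 5) (nat_lit 60) (nat_lit 5) (nat_lit 519) (nat_lit 501) (nat_lit 180)) (XT.lf (nat_lit 0) (nat_lit 1414906385724) (nat_lit 228) (nat_lit 12498015367569) (nat_lit 76) (nat_lit 7908069395984) (nat_lit 54) (nat_lit 5) (nat_lit 57) (nat_lit 5) (nat_lit 55) (nat_lit 5) (nat_lit 520) (nat_lit 501) (nat_lit 179)))) (XT.nd (nat_lit 78) (nat_lit 0) (nat_lit 0) (XT.lf (nat_lit 0) (nat_lit 5049930411641) (nat_lit 532) (nat_lit 79931191965) (nat_lit 532) (nat_lit 79931191965) (nat_lit 81) (nat_lit 3) (nat_lit 88)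 (nat_lit 3) (nat_lit 88) (nat_lit 5) (nat_lit 502) (nat_lit 502) (nat_lit 196)) (XT.nd (nat_lit 78) (nat_lit 0) (nat_lit 0) (XT.lf (nat_lit 76) (nat_lit 5272011576561) (nat_lit 0) (nat_lit 5358635685430) (nat_lit 532) (nat_lit 195578392336) (nat_lit 82) (nat_lit 5) (nat_lit 81) (nat_lit 3) (nat_lit 88) (nat_lit 5) (nat_lit 503) (nat_lit 502) (nat_lit 195)) (XT.lf (nat_lit 76) (nat_lit 11147526969284) (nat_lit 0) (nat_lit 60740567331) (nat_lit 532) (nat_lit 56779712285) (nat_lit 82) (nat_lit 5) (nat_lit 81) (nat_lit 3) (nat_lit 88) (nat_lit 5) (nat_lit 504) (nat_lit 502) (nat_lit 194)))))) (XT.nd (nat_lit 468) (nat_lit 912) (nat_lit 0) (XT.nd (nat_lit 234) (nat_lit 304) (nat_lit 0) (XT.nd (nat_lit 78) (nat_lit 0) (nat_lit 0) (XT.lf (nat_lit 0) (nat_lit 374068709904) (nat_lit 532) (nat_lit 5812380664481) (nat_lit 608) (nat_lit 5529497689651) (nat_lit 75) (nat_lit 5) (nat_lit 82) (nat_lit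 5) (nat_lit 83) (nat_lit 5) (nat_lit 505) (nat_lit 502) (nat_lit 193)) (XT.nd (nat_lit 78) (nat_lit 0) (nat_lit 76) (XT.lf (nat_lit 76) (nat_lit 218137894154) (nat_lit 0) (nat_lit 628300103855) (nat_lit 608) (nat_lit 11355553236844) (nat_lit 76) (nat_lit 5) (nat_lit 75) (nat_lit 5) (nat_lit 83) (nat_lit 5) (nat_lit 506) (nat_lit 502) (nat_lit 192)) (XT.lf (nat_lit 0) (nat_lit 1648902310486) (nat_lit 532) (nat_lit 5785936793854) (nat_lit 608) (nat_lit 5268695396490) (nat_lit 76) (nat_lit 5) (nat_lit 83) (nat_lit 5) (nat_lit 84) (nat_lit 5) (nat_lit 507) (nat_lit 502) (nat_lit 191)))) (XT.nd (nat_lit 78) (nat_lit 380) (nat_lit 0) (XT.lf (nat_lit 76) (nat_lit 938438066255) (nat_lit 0) (nat_lit 1616014642941) (nat_lit 608) (nat_lit 10687637403591) (nat_lit 77) (nat_lit 5) (nat_lit 76) (nat_lit 5) (nat_lit 84) (nat_lit 5) (nat_lit 508) (nat_lit 502) (nat_lit 190)) (XT.nd (nat_lit 78) (nat_lit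 456) (nat_lit 0) (XT.lf (nat_lit 0) (nat_lit 3807027044806) (nat_lit 532) (nat_lit 5397642224621) (nat_lit 76) (nat_lit 4597094511873) (nat_lit 77) (nat_lit 5) (nat_lit 84) (nat_lit 5) (nat_lit 78) (nat_lit 5) (nat_lit 509) (nat_lit 502) (nat_lit 189)) (XT.lf (nat_lit 0) (nat_lit 2125184302557) (nat_lit 456) (nat_lit 3127708164565) (nat_lit 532) (nat_lit 9145872064983) (nat_lit 71) (nat_lit 5) (nat_lit 77) (nat_lit 5) (nat_lit 78) (nat_lit 5) (nat_lit 510) (nat_lit 502) (nat_lit 188))))) (XT.nd (nat_lit 234) (nat_lit 684) (nat_lit 0) (XT.nd (nat_lit 78) (nat_lit 228) (nat_lit 0) (XT.lf (nat_lit 0) (nat_lit 7048463191478) (nat_lit 532) (nat_lit 4561368171185) (nat_lit 76) (nat_lit 3414971094851) (nat_lit 71) (nat_lit 5) (nat_lit 78) (nat_lit 5) (nat_lit 72) (nat_lit 5) (nat_lit 511) (nat_lit 502) (nat_lit 187)) (XT.nd (nat_lit 78) (nat_lit 0) (nat_lit 0) (XT.lf (nat_lit 0) (nat_lit 3880710536723)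 (nat_lit 228) (nat_lit 5281539391870) (nat_lit 304) (nat_lit 6524707859980) (nat_lit 68) (nat_lit 5) (nat_lit 71) (nat_lit 5) (nat_lit 72) (nat_lit 5) (nat_lit 512) (nat_lit 502) (nat_lit 186)) (XT.lf (nat_lit 0) (nat_lit 11610444938254) (nat_lit 304) (nat_lit 3175133128506) (nat_lit 76) (nat_lit 1603283052668) (nat_lit 68) (nat_lit 5) (nat_lit 72) (nat_lit 5) (nat_lit 69) (nat_lit 5) (nat_lit 513) (nat_lit 502) (nat_lit 185)))) (XT.nd (nat_lit 156) (nat_lit 456) (nat_lit 0) (XT.nd (nat_lit 78) (nat_lit 0) (nat_lit 0) (XT.lf (nat_lit 0) (nat_lit 6325725702293) (nat_lit 228) (nat_lit 8218086542985) (nat_lit 304) (nat_lit 2579959135746) (nat_lit 65) (nat_lit 5) (nat_lit 68) (nat_lit 5) (nat_lit 69) (nat_lit 5) (nat_lit 514) (nat_lit 502) (nat_lit 184)) (XT.lf (nat_lit 0) (nat_lit 16767225873950) (nat_lit 228) (nat_lit 1031436829438) (nat_lit 304) (nat_lit 111866658839) (nat_lit 65) (nat_lit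 5) (nat_lit 68) (nat_lit 5) (nat_lit 69) (nat_lit 5) (nat_lit 515) (nat_lit 502) (nat_lit 183))) (XT.nd (nat_lit 78) (nat_lit 228) (nat_lit 0) (XT.lf (nat_lit 0) (nat_lit 2828926417131) (nat_lit 228) (nat_lit 9198118638277) (nat_lit 76) (nat_lit 6696029792127) (nat_lit 62) (nat_lit 5) (nat_lit 65) (nat_lit 5) (nat_lit 63) (nat_lit 5) (nat_lit 516) (nat_lit 502) (nat_lit 182)) (XT.lf (nat_lit 0) (nat_lit 1561161677577) (nat_lit 228) (nat_lit 4534185989323) (nat_lit 304) (nat_lit 13497331179934) (nat_lit 59) (nat_lit 5) (nat_lit 62) (nat_lit 5) (nat_lit 63) (nat_lit 5) (nat_lit 517) (nat_lit 502) (nat_lit 181))))))))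
noncomputable def xc253 : XT := (XT.nd (nat_lit 124176) (nat_lit 0) (nat_lit 152) (XT.nd (nat_lit 62010) (nat_lit 0) (nat_lit 0) (XT.nd (nat_lit 61542) (nat_lit 0) (nat_lit 1064) (XT.nd (nat_lit 61308) (nat_lit 0) (nat_lit 1824) (XT.nd (nat_lit 78) (nat_lit 152) (nat_lit 0) (XT.lf (nat_lit 0) (nat_lit 9966680196754) (nat_lit 304) (nat_lit 6899546877192) (nat_lit 76) (nat_lit 3638136285721) (nat_lit 59) (nat_lit 5) (nat_lit 63) (nat_lit 5) (nat_lit 60) (nat_lit 5) (nat_lit 518) (nat_lit 502) (nat_lit 180)) (XT.nd (nat_lit 78) (nat_lit 0) (nat_lit 0) (XT.lf (nat_lit 0) (nat_lit 5268775460763) (nat_lit 152) (nat_lit 9123429109413) (nat_lit 228) (nat_lit 7077219244057) (nat_lit 57) (nat_lit 5) (nat_lit 59) (nat_lit 5) (nat_lit 60) (nat_lit 5) (nat_lit 519) (nat_lit 502) (nat_lit 179)) (XT.lf (nat_lit 0) (nat_lit 18802946930152) (nat_lit 152) (nat_lit 557469801965) (nat_lit 228) (nat_lit 3136180705955)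 (nat_lit 57) (nat_lit 5) (nat_lit 59) (nat_lit 5) (nat_lit 60) (nat_lit 5) (nat_lit 520) (nat_lit 502) (nat_lit 178)))) (XT.nd (nat_lit 78) (nat_lit 0) (nat_lit 0) (XT.lf (nat_lit 0) (nat_lit 5453924845127) (nat_lit 532) (nat_lit 86325687022) (nat_lit 532) (nat_lit 86325687022) (nat_lit 81) (nat_lit 3) (nat_lit 88) (nat_lit 3) (nat_lit 88) (nat_lit 5) (nat_lit 503) (nat_lit 503) (nat_lit 194)) (XT.nd (nat_lit 78) (nat_lit 0) (nat_lit 0) (XT.lf (nat_lit 76) (nat_lit 5693772503270) (nat_lit 0) (nat_lit 5787326540721) (nat_lit 532) (nat_lit 211224662599) (nat_lit 82) (nat_lit 5) (nat_lit 81) (nat_lit 3) (nat_lit 88) (nat_lit 5) (nat_lit 504) (nat_lit 503) (nat_lit 193)) (XT.lf (nat_lit 76) (nat_lit 12039329127368) (nat_lit 0) (nat_lit 65599813140) (nat_lit 532) (nat_lit 61322088226) (nat_lit 82) (nat_lit 5) (nat_lit 81) (nat_lit 3) (nat_lit 88) (nat_lit 5) (nat_lit 505) (nat_lit 503) (nat_lit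 192))))) (XT.nd (nat_lit 234) (nat_lit 304) (nat_lit 0) (XT.nd (nat_lit 78) (nat_lit 0) (nat_lit 0) (XT.lf (nat_lit 0) (nat_lit 403994207618) (nat_lit 532) (nat_lit 6277371116978) (nat_lit 608) (nat_lit 5971857504489) (nat_lit 75) (nat_lit 5) (nat_lit 82) (nat_lit 5) (nat_lit 83) (nat_lit 5) (nat_lit 506) (nat_lit 503) (nat_lit 191)) (XT.nd (nat_lit 78) (nat_lit 0) (nat_lit 76) (XT.lf (nat_lit 76) (nat_lit 235588926331) (nat_lit 0) (nat_lit 678564112387) (nat_lit 608) (nat_lit 12263997494854) (nat_lit 76) (nat_lit 5) (nat_lit 75) (nat_lit 5) (nat_lit 83) (nat_lit 5) (nat_lit 507) (nat_lit 503) (nat_lit 190)) (XT.lf (nat_lit 0) (nat_lit 1780814496124) (nat_lit 532) (nat_lit 6248811736696) (nat_lit 608) (nat_lit 5690191028012) (nat_lit 76) (nat_lit 5) (nat_lit 83) (nat_lit 5) (nat_lit 84) (nat_lit 5) (nat_lit 508) (nat_lit 503) (nat_lit 189)))) (XT.nd (nat_lit 78) (nat_lit 380) (nat_lit 0)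 (XT.lf (nat_lit 76) (nat_lit 1013513112205) (nat_lit 0) (nat_lit 1745295814483) (nat_lit 608) (nat_lit 11542648395062) (nat_lit 77) (nat_lit 5) (nat_lit 76) (nat_lit 5) (nat_lit 84) (nat_lit 5) (nat_lit 509) (nat_lit 503) (nat_lit 188)) (XT.nd (nat_lit 78) (nat_lit 456) (nat_lit 0) (XT.lf (nat_lit 0) (nat_lit 4111589209088) (nat_lit 532) (nat_lit 5829453601931) (nat_lit 76) (nat_lit 4964862072729) (nat_lit 77) (nat_lit 5) (nat_lit 84) (nat_lit 5) (nat_lit 78) (nat_lit 5) (nat_lit 510) (nat_lit 503) (nat_lit 187)) (XT.lf (nat_lit 0) (nat_lit 2295199047405) (nat_lit 456) (nat_lit 3377924817748) (nat_lit 532) (nat_lit 9877541829468) (nat_lit 71) (nat_lit 5) (nat_lit 77) (nat_lit 5) (nat_lit 78) (nat_lit 5) (nat_lit 511) (nat_lit 503) (nat_lit 186)))))) (XT.nd (nat_lit 468) (nat_lit 380) (nat_lit 0) (XT.nd (nat_lit 234) (nat_lit 456) (nat_lit 0) (XT.nd (nat_lit 78) (nat_lit 228) (nat_lit 0)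 (XT.lf (nat_lit 0) (nat_lit 7612340247408) (nat_lit 532) (nat_lit 4926277624235) (nat_lit 76) (nat_lit 3688168782424) (nat_lit 71) (nat_lit 5) (nat_lit 78) (nat_lit 5) (nat_lit 72) (nat_lit 5) (nat_lit 512) (nat_lit 503) (nat_lit 185)) (XT.nd (nat_lit 78) (nat_lit 0) (nat_lit 0) (XT.lf (nat_lit 0) (nat_lit 4191167380289) (nat_lit 228) (nat_lit 5704062543172) (nat_lit 304) (nat_lit 7046684488150) (nat_lit 68) (nat_lit 5) (nat_lit 71) (nat_lit 5) (nat_lit 72) (nat_lit 5) (nat_lit 513) (nat_lit 503) (nat_lit 184)) (XT.lf (nat_lit 0) (nat_lit 12539280533854) (nat_lit 304) (nat_lit 3429143778162) (nat_lit 76) (nat_lit 1731545696923) (nat_lit 68) (nat_lit 5) (nat_lit 72) (nat_lit 5) (nat_lit 69) (nat_lit 5) (nat_lit 514) (nat_lit 503) (nat_lit 183)))) (XT.nd (nat_lit 78) (nat_lit 228) (nat_lit 0) (XT.lf (nat_lit 0) (nat_lit 6831783759085) (nat_lit 228) (nat_lit 8875533466330) (nat_lit 304) (nat_lit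 2786355866051) (nat_lit 65) (nat_lit 5) (nat_lit 68) (nat_lit 5) (nat_lit 69) (nat_lit 5) (nat_lit 515) (nat_lit 503) (nat_lit 182)) (XT.nd (nat_lit 78) (nat_lit 228) (nat_lit 0) (XT.lf (nat_lit 0) (nat_lit 18108603944429) (nat_lit 228) (nat_lit 1113951775706) (nat_lit 304) (nat_lit 120815991032) (nat_lit 65) (nat_lit 5) (nat_lit 68) (nat_lit 5) (nat_lit 69) (nat_lit 5) (nat_lit 516) (nat_lit 503) (nat_lit 181)) (XT.lf (nat_lit 0) (nat_lit 3055240530970) (nat_lit 228) (nat_lit 9933968128730) (nat_lit 76) (nat_lit 7231712175600) (nat_lit 62) (nat_lit 5) (nat_lit 65) (nat_lit 5) (nat_lit 63) (nat_lit 5) (nat_lit 517) (nat_lit 503) (nat_lit 180))))) (XT.nd (nat_lit 61386) (nat_lit 0) (nat_lit 1368) (XT.nd (nat_lit 78) (nat_lit 152) (nat_lit 0) (XT.lf (nat_lit 0) (nat_lit 1686054612377) (nat_lit 228) (nat_lit 4896920868323) (nat_lit 304) (nat_lit 14577117673844) (nat_lit 59) (nat_lit 5) (nat_lit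 62) (nat_lit 5) (nat_lit 63) (nat_lit 5) (nat_lit 518) (nat_lit 503) (nat_lit 179)) (XT.nd (nat_lit 78) (nat_lit 152) (nat_lit 0) (XT.lf (nat_lit 0) (nat_lit 10764014612913) (nat_lit 304) (nat_lit 7451510626787) (nat_lit 76) (nat_lit 3929187188707) (nat_lit 59) (nat_lit 5) (nat_lit 63) (nat_lit 5) (nat_lit 60) (nat_lit 5) (nat_lit 519) (nat_lit 503) (nat_lit 178)) (XT.lf (nat_lit 0) (nat_lit 5690277498189) (nat_lit 152) (nat_lit 9853303438002) (nat_lit 228) (nat_lit 7643396783149) (nat_lit 57) (nat_lit 5) (nat_lit 59) (nat_lit 5) (nat_lit 60) (nat_lit 5) (nat_lit 520) (nat_lit 503) (nat_lit 177)))) (XT.nd (nat_lit 156) (nat_lit 456) (nat_lit 0) (XT.nd (nat_lit 78) (nat_lit 0) (nat_lit 0) (XT.lf (nat_lit 0) (nat_lit 5890238833213) (nat_lit 532) (nat_lit 93231741727) (nat_lit 532) (nat_lit 93231741727) (nat_lit 81) (nat_lit 3) (nat_lit 88) (nat_lit 3) (nat_lit 88) (nat_lit 5) (nat_lit 504)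 (nat_lit 504) (nat_lit 192)) (XT.lf (nat_lit 76) (nat_lit 6149274304032) (nat_lit 0) (nat_lit 6250312664371) (nat_lit 532) (nat_lit 228122634642) (nat_lit 82) (nat_lit 5) (nat_lit 81) (nat_lit 3) (nat_lit 88) (nat_lit 5) (nat_lit 505) (nat_lit 504) (nat_lit 191))) (XT.nd (nat_lit 78) (nat_lit 456) (nat_lit 0) (XT.lf (nat_lit 76) (nat_lit 13002475458021) (nat_lit 0) (nat_lit 70847798554) (nat_lit 532) (nat_lit 66227854392) (nat_lit 82) (nat_lit 5) (nat_lit 81) (nat_lit 3) (nat_lit 88) (nat_lit 5) (nat_lit 506) (nat_lit 504) (nat_lit 190)) (XT.lf (nat_lit 0) (nat_lit 436313745017) (nat_lit 532) (nat_lit 6779560805770) (nat_lit 608) (nat_lit 6449606104562) (nat_lit 75) (nat_lit 5) (nat_lit 82) (nat_lit 5) (nat_lit 83) (nat_lit 5) (nat_lit 507) (nat_lit 504) (nat_lit 189))))))) (XT.nd (nat_lit 936) (nat_lit 0) (nat_lit 0) (XT.nd (nat_lit 468) (nat_lit 912) (nat_lit 0) (XT.nd (nat_lit 234) (nat_lit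 304) (nat_lit 0) (XT.nd (nat_lit 78) (nat_lit 0) (nat_lit 76) (XT.lf (nat_lit 76) (nat_lit 254436040990) (nat_lit 0) (nat_lit 732849241571) (nat_lit 608) (nat_lit 13245117293637) (nat_lit 76) (nat_lit 5) (nat_lit 75) (nat_lit 5) (nat_lit 83) (nat_lit 5) (nat_lit 508) (nat_lit 504) (nat_lit 188)) (XT.nd (nat_lit 78) (nat_lit 0) (nat_lit 0) (XT.lf (nat_lit 0) (nat_lit 1923279656500) (nat_lit 532) (nat_lit 6748716675061) (nat_lit 608) (nat_lit 6145406310084) (nat_lit 76) (nat_lit 5) (nat_lit 83) (nat_lit 5) (nat_lit 84) (nat_lit 5) (nat_lit 509) (nat_lit 504) (nat_lit 187)) (XT.lf (nat_lit 76) (nat_lit 1094594161738) (nat_lit 0) (nat_lit 1884919479733) (nat_lit 608) (nat_lit 12466060265967) (nat_lit 77) (nat_lit 5) (nat_lit 76) (nat_lit 5) (nat_lit 84) (nat_lit 5) (nat_lit 510) (nat_lit 504) (nat_lit 186)))) (XT.nd (nat_lit 78) (nat_lit 456) (nat_lit 0) (XT.lf (nat_lit 0) (nat_lit 4440516346413)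 (nat_lit 532) (nat_lit 6295809889520) (nat_lit 76) (nat_lit 5362051038468) (nat_lit 77) (nat_lit 5) (nat_lit 84) (nat_lit 5) (nat_lit 78) (nat_lit 5) (nat_lit 511) (nat_lit 504) (nat_lit 185)) (XT.nd (nat_lit 78) (nat_lit 0) (nat_lit 0) (XT.lf (nat_lit 0) (nat_lit 2478814971749) (nat_lit 456) (nat_lit 3648158803184) (nat_lit 532) (nat_lit 10667745175213) (nat_lit 71) (nat_lit 5) (nat_lit 77) (nat_lit 5) (nat_lit 78) (nat_lit 5) (nat_lit 512) (nat_lit 504) (nat_lit 184)) (XT.lf (nat_lit 0) (nat_lit 8221327467725) (nat_lit 532) (nat_lit 5320379833621) (nat_lit 76) (nat_lit 3983222285004) (nat_lit 71) (nat_lit 5) (nat_lit 78) (nat_lit 5) (nat_lit 72) (nat_lit 5) (nat_lit 513) (nat_lit 504) (nat_lit 183))))) (XT.nd (nat_lit 234) (nat_lit 456) (nat_lit 0) (XT.nd (nat_lit 78) (nat_lit 228) (nat_lit 0) (XT.lf (nat_lit 0) (nat_lit 4526460771251) (nat_lit 228) (nat_lit 6160387546586) (nat_lit 304)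 (nat_lit 7610419246663) (nat_lit 68) (nat_lit 5) (nat_lit 71) (nat_lit 5) (nat_lit 72) (nat_lit 5) (nat_lit 514) (nat_lit 504) (nat_lit 182)) (XT.nd (nat_lit 78) (nat_lit 228) (nat_lit 0) (XT.lf (nat_lit 0) (nat_lit 13542422977024) (nat_lit 304) (nat_lit 3703475279880) (nat_lit 76) (nat_lit 1870069352712) (nat_lit 68) (nat_lit 5) (nat_lit 72) (nat_lit 5) (nat_lit 69) (nat_lit 5) (nat_lit 515) (nat_lit 504) (nat_lit 181)) (XT.lf (nat_lit 0) (nat_lit 7378326460333) (nat_lit 228) (nat_lit 9585576143556) (nat_lit 304) (nat_lit 3009264334859) (nat_lit 65) (nat_lit 5) (nat_lit 68) (nat_lit 5) (nat_lit 69) (nat_lit 5) (nat_lit 516) (nat_lit 504) (nat_lit 180)))) (XT.nd (nat_lit 78) (nat_lit 456) (nat_lit 0) (XT.lf (nat_lit 0) (nat_lit 19557292260467) (nat_lit 228) (nat_lit 1203067917688) (nat_lit 304) (nat_lit 130481269874) (nat_lit 65) (nat_lit 5) (nat_lit 68) (nat_lit 5) (nat_lit 69) (nat_lit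 5) (nat_lit 517) (nat_lit 504) (nat_lit 179)) (XT.nd (nat_lit 78) (nat_lit 228) (nat_lit 0) (XT.lf (nat_lit 0) (nat_lit 3299659773850) (nat_lit 228) (nat_lit 10728685578506) (nat_lit 76) (nat_lit 7810249149736) (nat_lit 62) (nat_lit 5) (nat_lit 65) (nat_lit 5) (nat_lit 63) (nat_lit 5) (nat_lit 518) (nat_lit 504) (nat_lit 178)) (XT.lf (nat_lit 0) (nat_lit 1820938981876) (nat_lit 228) (nat_lit 5288674537665) (nat_lit 304) (nat_lit 15743287087336) (nat_lit 59) (nat_lit 5) (nat_lit 62) (nat_lit 5) (nat_lit 63) (nat_lit 5) (nat_lit 519) (nat_lit 504) (nat_lit 177)))))) (XT.nd (nat_lit 61698) (nat_lit 0) (nat_lit 684) (XT.nd (nat_lit 61464) (nat_lit 0) (nat_lit 1216) (XT.nd (nat_lit 61308) (nat_lit 0) (nat_lit 1672) (XT.lf (nat_lit 0) (nat_lit 11625135782305) (nat_lit 304) (nat_lit 8047631476433) (nat_lit 76) (nat_lit 4243522163913) (nat_lit 59) (nat_lit 5) (nat_lit 63) (nat_lit 5) (nat_lit 60)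 (nat_lit 5) (nat_lit 520) (nat_lit 504) (nat_lit 176)) (XT.nd (nat_lit 78) (nat_lit 0) (nat_lit 0) (XT.lf (nat_lit 0) (nat_lit 6361457940278) (nat_lit 532) (nat_lit 100690280845) (nat_lit 532) (nat_lit 100690280845) (nat_lit 81) (nat_lit 3) (nat_lit 88) (nat_lit 3) (nat_lit 88) (nat_lit 5) (nat_lit 505) (nat_lit 505) (nat_lit 190)) (XT.lf (nat_lit 76) (nat_lit 6641216248784) (nat_lit 0) (nat_lit 6750337677857) (nat_lit 532) (nat_lit 246372444587) (nat_lit 82) (nat_lit 5) (nat_lit 81) (nat_lit 3) (nat_lit 88) (nat_lit 5) (nat_lit 506) (nat_lit 505) (nat_lit 189)))) (XT.nd (nat_lit 78) (nat_lit 456) (nat_lit 0) (XT.lf (nat_lit 76) (nat_lit 14042673495060) (nat_lit 0) (nat_lit 76515622750) (nat_lit 532) (nat_lit 71526081978) (nat_lit 82) (nat_lit 5) (nat_lit 81) (nat_lit 3) (nat_lit 88) (nat_lit 5) (nat_lit 507) (nat_lit 505) (nat_lit 188)) (XT.nd (nat_lit 78) (nat_lit 0) (nat_lit 0) (XT.lf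 (nat_lit 0) (nat_lit 471218845296) (nat_lit 532) (nat_lit 7321925669745) (nat_lit 608) (nat_lit 6965574592681) (nat_lit 75) (nat_lit 5) (nat_lit 82) (nat_lit 5) (nat_lit 83) (nat_lit 5) (nat_lit 508) (nat_lit 505) (nat_lit 187)) (XT.lf (nat_lit 76) (nat_lit 274790924743) (nat_lit 0) (nat_lit 791477181061) (nat_lit 608) (nat_lit 14304726676439) (nat_lit 76) (nat_lit 5) (nat_lit 75) (nat_lit 5) (nat_lit 83) (nat_lit 5) (nat_lit 509) (nat_lit 505) (nat_lit 186))))) (XT.nd (nat_lit 234) (nat_lit 608) (nat_lit 0) (XT.nd (nat_lit 78) (nat_lit 0) (nat_lit 0) (XT.lf (nat_lit 0) (nat_lit 2077142029607) (nat_lit 532) (nat_lit 7288614008576) (nat_lit 608) (nat_lit 6637038814746) (nat_lit 76) (nat_lit 5) (nat_lit 83) (nat_lit 5) (nat_lit 84) (nat_lit 5) (nat_lit 510) (nat_lit 505) (nat_lit 185)) (XT.nd (nat_lit 78) (nat_lit 0) (nat_lit 76) (XT.lf (nat_lit 76) (nat_lit 1182161695154) (nat_lit 0) (nat_lit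 2035713038190) (nat_lit 608) (nat_lit 13463345086645) (nat_lit 77) (nat_lit 5) (nat_lit 76) (nat_lit 5) (nat_lit 84) (nat_lit 5) (nat_lit 511) (nat_lit 505) (nat_lit 184)) (XT.lf (nat_lit 0) (nat_lit 4795757654638) (nat_lit 532) (nat_lit 6799474680197) (nat_lit 76) (nat_lit 5791015121476) (nat_lit 77) (nat_lit 5) (nat_lit 84) (nat_lit 5) (nat_lit 78) (nat_lit 5) (nat_lit 512) (nat_lit 505) (nat_lit 183)))) (XT.nd (nat_lit 156) (nat_lit 228) (nat_lit 0) (XT.nd (nat_lit 78) (nat_lit 0) (nat_lit 0) (XT.lf (nat_lit 0) (nat_lit 2677120169961) (nat_lit 456) (nat_lit 3940011507452) (nat_lit 532) (nat_lit 11521164788705) (nat_lit 71) (nat_lit 5) (nat_lit 77) (nat_lit 5) (nat_lit 78) (nat_lit 5) (nat_lit 513) (nat_lit 505) (nat_lit 182)) (XT.lf (nat_lit 0) (nat_lit 8879033665593) (nat_lit 532) (nat_lit 5746010219837) (nat_lit 76) (nat_lit 4301880067792) (nat_lit 71) (nat_lit 5) (nat_lit 78) (nat_lit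 5) (nat_lit 72) (nat_lit 5) (nat_lit 514) (nat_lit 505) (nat_lit 181))) (XT.nd (nat_lit 78) (nat_lit 0) (nat_lit 0) (XT.lf (nat_lit 0) (nat_lit 4888577633413) (nat_lit 228) (nat_lit 6653218550278) (nat_lit 304) (nat_lit 8219252785934) (nat_lit 68) (nat_lit 5) (nat_lit 71) (nat_lit 5) (nat_lit 72) (nat_lit 5) (nat_lit 515) (nat_lit 505) (nat_lit 180)) (XT.lf (nat_lit 0) (nat_lit 14625816815583) (nat_lit 304) (nat_lit 3999753301812) (nat_lit 76) (nat_lit 2019674900960) (nat_lit 68) (nat_lit 5) (nat_lit 72) (nat_lit 5) (nat_lit 69) (nat_lit 5) (nat_lit 516) (nat_lit 505) (nat_lit 179))))))))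
noncomputable def xc254 : XT := (XT.nd (nat_lit 124722) (nat_lit 0) (nat_lit 456) (XT.nd (nat_lit 62244) (nat_lit 0) (nat_lit 456) (XT.nd (nat_lit 61776) (nat_lit 0) (nat_lit 1216) (XT.nd (nat_lit 234) (nat_lit 228) (nat_lit 0) (XT.nd (nat_lit 78) (nat_lit 228) (nat_lit 0) (XT.lf (nat_lit 0) (nat_lit 7968592577607) (nat_lit 228) (nat_lit 10352422234971) (nat_lit 304) (nat_lit 3250005481239) (nat_lit 65) (nat_lit 5) (nat_lit 68) (nat_lit 5) (nat_lit 69) (nat_lit 5) (nat_lit 517) (nat_lit 505) (nat_lit 178)) (XT.nd (nat_lit 78) (nat_lit 228) (nat_lit 0) (XT.lf (nat_lit 0) (nat_lit 21121875641718) (nat_lit 228) (nat_lit 1299313351039) (nat_lit 304) (nat_lit 140919771086) (nat_lit 65) (nat_lit 5) (nat_lit 68) (nat_lit 5) (nat_lit 69) (nat_lit 5) (nat_lit 518) (nat_lit 505) (nat_lit 177)) (XT.lf (nat_lit 0) (nat_lit 3563632556103) (nat_lit 228) (nat_lit 11586980424339) (nat_lit 76) (nat_lit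 8435069081790) (nat_lit 62) (nat_lit 5) (nat_lit 65) (nat_lit 5) (nat_lit 63) (nat_lit 5) (nat_lit 519) (nat_lit 505) (nat_lit 176)))) (XT.nd (nat_lit 61386) (nat_lit 0) (nat_lit 1672) (XT.lf (nat_lit 0) (nat_lit 1966614100862) (nat_lit 228) (nat_lit 5711768500571) (nat_lit 304) (nat_lit 17002750053967) (nat_lit 59) (nat_lit 5) (nat_lit 62) (nat_lit 5) (nat_lit 63) (nat_lit 5) (nat_lit 520) (nat_lit 505) (nat_lit 175)) (XT.nd (nat_lit 78) (nat_lit 0) (nat_lit 0) (XT.lf (nat_lit 0) (nat_lit 6870374575850) (nat_lit 532) (nat_lit 108745503124) (nat_lit 532) (nat_lit 108745503124) (nat_lit 81) (nat_lit 3) (nat_lit 88) (nat_lit 3) (nat_lit 88) (nat_lit 5) (nat_lit 506) (nat_lit 506) (nat_lit 188)) (XT.lf (nat_lit 76) (nat_lit 7172513549055) (nat_lit 0) (nat_lit 7290364692373) (nat_lit 532) (nat_lit 266082239445) (nat_lit 82) (nat_lit 5) (nat_lit 81) (nat_lit 3) (nat_lit 88) (nat_lit 5) (nat_lit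 507) (nat_lit 506) (nat_lit 187))))) (XT.nd (nat_lit 234) (nat_lit 0) (nat_lit 76) (XT.nd (nat_lit 78) (nat_lit 456) (nat_lit 0) (XT.lf (nat_lit 76) (nat_lit 15166087375005) (nat_lit 0) (nat_lit 82636872837) (nat_lit 532) (nat_lit 77248167880) (nat_lit 82) (nat_lit 5) (nat_lit 81) (nat_lit 3) (nat_lit 88) (nat_lit 5) (nat_lit 508) (nat_lit 506) (nat_lit 186)) (XT.nd (nat_lit 78) (nat_lit 0) (nat_lit 0) (XT.lf (nat_lit 0) (nat_lit 508916353500) (nat_lit 532) (nat_lit 7907679722909) (nat_lit 608) (nat_lit 7522820559885) (nat_lit 75) (nat_lit 5) (nat_lit 82) (nat_lit 5) (nat_lit 83) (nat_lit 5) (nat_lit 509) (nat_lit 506) (nat_lit 185)) (XT.lf (nat_lit 76) (nat_lit 296774199128) (nat_lit 0) (nat_lit 854795355688) (nat_lit 608) (nat_lit 15449104809963) (nat_lit 76) (nat_lit 5) (nat_lit 75) (nat_lit 5) (nat_lit 83) (nat_lit 5) (nat_lit 510) (nat_lit 506) (nat_lit 184)))) (XT.nd (nat_lit 78)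 (nat_lit 0) (nat_lit 0) (XT.lf (nat_lit 0) (nat_lit 2243313392480) (nat_lit 532) (nat_lit 7871703128843) (nat_lit 608) (nat_lit 7168001919801) (nat_lit 76) (nat_lit 5) (nat_lit 83) (nat_lit 5) (nat_lit 84) (nat_lit 5) (nat_lit 511) (nat_lit 506) (nat_lit 183)) (XT.nd (nat_lit 78) (nat_lit 0) (nat_lit 76) (XT.lf (nat_lit 76) (nat_lit 1276734631176) (nat_lit 0) (nat_lit 2198570081312) (nat_lit 608) (nat_lit 14540412693062) (nat_lit 77) (nat_lit 5) (nat_lit 76) (nat_lit 5) (nat_lit 84) (nat_lit 5) (nat_lit 512) (nat_lit 506) (nat_lit 182)) (XT.lf (nat_lit 0) (nat_lit 5179418267449) (nat_lit 532) (nat_lit 7343432654197) (nat_lit 76) (nat_lit 6254296331135) (nat_lit 77) (nat_lit 5) (nat_lit 84) (nat_lit 5) (nat_lit 78) (nat_lit 5) (nat_lit 513) (nat_lit 506) (nat_lit 181)))))) (XT.nd (nat_lit 61932) (nat_lit 0) (nat_lit 760) (XT.nd (nat_lit 234) (nat_lit 228) (nat_lit 0) (XT.nd (nat_lit 78)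 (nat_lit 228) (nat_lit 0) (XT.lf (nat_lit 0) (nat_lit 2891289783963) (nat_lit 456) (nat_lit 4255212428060) (nat_lit 532) (nat_lit 12442857971351) (nat_lit 71) (nat_lit 5) (nat_lit 77) (nat_lit 5) (nat_lit 78) (nat_lit 5) (nat_lit 514) (nat_lit 506) (nat_lit 180)) (XT.nd (nat_lit 78) (nat_lit 228) (nat_lit 0) (XT.lf (nat_lit 0) (nat_lit 9589356359226) (nat_lit 532) (nat_lit 6205691037018) (nat_lit 76) (nat_lit 4646030473206) (nat_lit 71) (nat_lit 5) (nat_lit 78) (nat_lit 5) (nat_lit 72) (nat_lit 5) (nat_lit 515) (nat_lit 506) (nat_lit 179)) (XT.lf (nat_lit 0) (nat_lit 5279663844482) (nat_lit 228) (nat_lit 7185476034271) (nat_lit 304) (nat_lit 8876793008413) (nat_lit 68) (nat_lit 5) (nat_lit 71) (nat_lit 5) (nat_lit 72) (nat_lit 5) (nat_lit 516) (nat_lit 506) (nat_lit 178)))) (XT.nd (nat_lit 78) (nat_lit 228) (nat_lit 0) (XT.lf (nat_lit 0) (nat_lit 15795882161170) (nat_lit 304) (nat_lit 4319733565564)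 (nat_lit 76) (nat_lit 2181248893062) (nat_lit 68) (nat_lit 5) (nat_lit 72) (nat_lit 5) (nat_lit 69) (nat_lit 5) (nat_lit 517) (nat_lit 506) (nat_lit 177)) (XT.nd (nat_lit 78) (nat_lit 0) (nat_lit 0) (XT.lf (nat_lit 0) (nat_lit 8606079984199) (nat_lit 228) (nat_lit 11180616013710) (nat_lit 304) (nat_lit 3510005919388) (nat_lit 65) (nat_lit 5) (nat_lit 68) (nat_lit 5) (nat_lit 69) (nat_lit 5) (nat_lit 518) (nat_lit 506) (nat_lit 176)) (XT.lf (nat_lit 0) (nat_lit 22811625693410) (nat_lit 228) (nat_lit 1403258419067) (nat_lit 304) (nat_lit 152193352448) (nat_lit 65) (nat_lit 5) (nat_lit 68) (nat_lit 5) (nat_lit 69) (nat_lit 5) (nat_lit 519) (nat_lit 506) (nat_lit 175))))) (XT.nd (nat_lit 234) (nat_lit 456) (nat_lit 0) (XT.nd (nat_lit 78) (nat_lit 0) (nat_lit 0) (XT.lf (nat_lit 0) (nat_lit 7420004542217) (nat_lit 532) (nat_lit 117445143213) (nat_lit 532) (nat_lit 117445143213) (nat_lit 81) (nat_lit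 3) (nat_lit 88) (nat_lit 3) (nat_lit 88) (nat_lit 5) (nat_lit 507) (nat_lit 507) (nat_lit 186)) (XT.nd (nat_lit 78) (nat_lit 0) (nat_lit 0) (XT.lf (nat_lit 76) (nat_lit 7746314633295) (nat_lit 0) (nat_lit 7873593868010) (nat_lit 532) (nat_lit 287368817993) (nat_lit 82) (nat_lit 5) (nat_lit 81) (nat_lit 3) (nat_lit 88) (nat_lit 5) (nat_lit 508) (nat_lit 507) (nat_lit 185)) (XT.lf (nat_lit 76) (nat_lit 16379374365298) (nat_lit 0) (nat_lit 89247822893) (nat_lit 532) (nat_lit 83428020747) (nat_lit 82) (nat_lit 5) (nat_lit 81) (nat_lit 3) (nat_lit 88) (nat_lit 5) (nat_lit 509) (nat_lit 507) (nat_lit 184)))) (XT.nd (nat_lit 156) (nat_lit 0) (nat_lit 76) (XT.nd (nat_lit 78) (nat_lit 0) (nat_lit 0) (XT.lf (nat_lit 0) (nat_lit 549629662278) (nat_lit 532) (nat_lit 8540294100384) (nat_lit 608) (nat_lit 8124646204495) (nat_lit 75) (nat_lit 5) (nat_lit 82) (nat_lit 5) (nat_lit 83) (nat_lit 5) (nat_lit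 510) (nat_lit 507) (nat_lit 183)) (XT.lf (nat_lit 76) (nat_lit 320516135407) (nat_lit 0) (nat_lit 923178984264) (nat_lit 608) (nat_lit 16685033194253) (nat_lit 76) (nat_lit 5) (nat_lit 75) (nat_lit 5) (nat_lit 83) (nat_lit 5) (nat_lit 511) (nat_lit 507) (nat_lit 182))) (XT.nd (nat_lit 78) (nat_lit 0) (nat_lit 0) (XT.lf (nat_lit 0) (nat_lit 2422778464310) (nat_lit 532) (nat_lit 8501439378790) (nat_lit 608) (nat_lit 7741442073279) (nat_lit 76) (nat_lit 5) (nat_lit 83) (nat_lit 5) (nat_lit 84) (nat_lit 5) (nat_lit 512) (nat_lit 507) (nat_lit 181)) (XT.lf (nat_lit 76) (nat_lit 1378873402021) (nat_lit 0) (nat_lit 2374455687874) (nat_lit 608) (nat_lit 15703645708066) (nat_lit 77) (nat_lit 5) (nat_lit 76) (nat_lit 5) (nat_lit 84) (nat_lit 5) (nat_lit 513) (nat_lit 507) (nat_lit 180))))))) (XT.nd (nat_lit 62478) (nat_lit 0) (nat_lit 228) (XT.nd (nat_lit 62010) (nat_lit 0) (nat_lit 760) (XT.nd (nat_lit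 234) (nat_lit 456) (nat_lit 0) (XT.nd (nat_lit 78) (nat_lit 456) (nat_lit 0) (XT.lf (nat_lit 0) (nat_lit 5593771729222) (nat_lit 532) (nat_lit 7930907266176) (nat_lit 76) (nat_lit 6754640037576) (nat_lit 77) (nat_lit 5) (nat_lit 84) (nat_lit 5) (nat_lit 78) (nat_lit 5) (nat_lit 514) (nat_lit 507) (nat_lit 179)) (XT.nd (nat_lit 78) (nat_lit 0) (nat_lit 0) (XT.lf (nat_lit 0) (nat_lit 3122592967028) (nat_lit 456) (nat_lit 4595629422314) (nat_lit 532) (nat_lit 13438286608673) (nat_lit 71) (nat_lit 5) (nat_lit 77) (nat_lit 5) (nat_lit 78) (nat_lit 5) (nat_lit 515) (nat_lit 507) (nat_lit 178)) (XT.lf (nat_lit 0) (nat_lit 10356504868295) (nat_lit 532) (nat_lit 6702146319631) (nat_lit 76) (nat_lit 5017712911053) (nat_lit 71) (nat_lit 5) (nat_lit 78) (nat_lit 5) (nat_lit 72) (nat_lit 5) (nat_lit 516) (nat_lit 507) (nat_lit 177)))) (XT.nd (nat_lit 78) (nat_lit 228) (nat_lit 0) (XT.lf (nat_lit 0)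 (nat_lit 5702036952381) (nat_lit 228) (nat_lit 7760314116988) (nat_lit 304) (nat_lit 9586936448747) (nat_lit 68) (nat_lit 5) (nat_lit 71) (nat_lit 5) (nat_lit 72) (nat_lit 5) (nat_lit 517) (nat_lit 507) (nat_lit 176)) (XT.nd (nat_lit 78) (nat_lit 228) (nat_lit 0) (XT.lf (nat_lit 0) (nat_lit 17059552734355) (nat_lit 304) (nat_lit 4665312250472) (nat_lit 76) (nat_lit 2355748804530) (nat_lit 68) (nat_lit 5) (nat_lit 72) (nat_lit 5) (nat_lit 69) (nat_lit 5) (nat_lit 518) (nat_lit 507) (nat_lit 175)) (XT.lf (nat_lit 0) (nat_lit 9294566383263) (nat_lit 228) (nat_lit 12075065294755) (nat_lit 304) (nat_lit 3790806392639) (nat_lit 65) (nat_lit 5) (nat_lit 68) (nat_lit 5) (nat_lit 69) (nat_lit 5) (nat_lit 519) (nat_lit 507) (nat_lit 174))))) (XT.nd (nat_lit 234) (nat_lit 456) (nat_lit 0) (XT.nd (nat_lit 78) (nat_lit 0) (nat_lit 0) (XT.lf (nat_lit 0) (nat_lit 8013604905852) (nat_lit 532) (nat_lit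 126840754531) (nat_lit 532) (nat_lit 126840754531) (nat_lit 81) (nat_lit 3) (nat_lit 88) (nat_lit 3) (nat_lit 88) (nat_lit 5) (nat_lit 508) (nat_lit 508) (nat_lit 184)) (XT.nd (nat_lit 78) (nat_lit 0) (nat_lit 0) (XT.lf (nat_lit 76) (nat_lit 8366019804229) (nat_lit 0) (nat_lit 8503481377663) (nat_lit 532) (nat_lit 310358322912) (nat_lit 82) (nat_lit 5) (nat_lit 81) (nat_lit 3) (nat_lit 88) (nat_lit 5) (nat_lit 509) (nat_lit 508) (nat_lit 183)) (XT.lf (nat_lit 76) (nat_lit 17689724314772) (nat_lit 0) (nat_lit 96387648920) (nat_lit 532) (nat_lit 90102261925) (nat_lit 82) (nat_lit 5) (nat_lit 81) (nat_lit 3) (nat_lit 88) (nat_lit 5) (nat_lit 510) (nat_lit 508) (nat_lit 182)))) (XT.nd (nat_lit 78) (nat_lit 0) (nat_lit 0) (XT.lf (nat_lit 0) (nat_lit 593600035687) (nat_lit 532) (nat_lit 9223517628109) (nat_lit 608) (nat_lit 8774617900700) (nat_lit 75) (nat_lit 5) (nat_lit 82) (nat_lit 5) (nat_lit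 83) (nat_lit 5) (nat_lit 511) (nat_lit 508) (nat_lit 181)) (XT.nd (nat_lit 78) (nat_lit 0) (nat_lit 76) (XT.lf (nat_lit 76) (nat_lit 346157426538) (nat_lit 0) (nat_lit 997033303109) (nat_lit 608) (nat_lit 18019835849358) (nat_lit 76) (nat_lit 5) (nat_lit 75) (nat_lit 5) (nat_lit 83) (nat_lit 5) (nat_lit 512) (nat_lit 508) (nat_lit 180)) (XT.lf (nat_lit 0) (nat_lit 2616600741825) (nat_lit 532) (nat_lit 9181554528785) (nat_lit 608) (nat_lit 8360757439050) (nat_lit 76) (nat_lit 5) (nat_lit 83) (nat_lit 5) (nat_lit 84) (nat_lit 5) (nat_lit 513) (nat_lit 508) (nat_lit 179)))))) (XT.nd (nat_lit 62088) (nat_lit 0) (nat_lit 532) (XT.nd (nat_lit 234) (nat_lit 228) (nat_lit 0) (XT.nd (nat_lit 78) (nat_lit 380) (nat_lit 0) (XT.lf (nat_lit 76) (nat_lit 1489183274483) (nat_lit 0) (nat_lit 2564412142954) (nat_lit 608) (nat_lit 16959937364333) (nat_lit 77) (nat_lit 5) (nat_lit 76) (nat_lit 5) (nat_lit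 84) (nat_lit 5) (nat_lit 514) (nat_lit 508) (nat_lit 178)) (XT.nd (nat_lit 78) (nat_lit 456) (nat_lit 0) (XT.lf (nat_lit 0) (nat_lit 6041273467883) (nat_lit 532) (nat_lit 8565379847165) (nat_lit 76) (nat_lit 7295011240538) (nat_lit 77) (nat_lit 5) (nat_lit 84) (nat_lit 5) (nat_lit 78) (nat_lit 5) (nat_lit 515) (nat_lit 508) (nat_lit 177)) (XT.lf (nat_lit 0) (nat_lit 3372400404688) (nat_lit 456) (nat_lit 4963279776108) (nat_lit 532) (nat_lit 14513349537036) (nat_lit 71) (nat_lit 5) (nat_lit 77) (nat_lit 5) (nat_lit 78) (nat_lit 5) (nat_lit 516) (nat_lit 508) (nat_lit 176)))) (XT.nd (nat_lit 78) (nat_lit 228) (nat_lit 0) (XT.lf (nat_lit 0) (nat_lit 11185025258042) (nat_lit 532) (nat_lit 7238318024902) (nat_lit 76) (nat_lit 5419129943930) (nat_lit 71) (nat_lit 5) (nat_lit 78) (nat_lit 5) (nat_lit 72) (nat_lit 5) (nat_lit 517) (nat_lit 508) (nat_lit 175)) (XT.nd (nat_lit 78) (nat_lit 0) (nat_lit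 0) (XT.lf (nat_lit 0) (nat_lit 6158199908862) (nat_lit 228) (nat_lit 8381139246325) (nat_lit 304) (nat_lit 10353891364356) (nat_lit 68) (nat_lit 5) (nat_lit 71) (nat_lit 5) (nat_lit 72) (nat_lit 5) (nat_lit 518) (nat_lit 508) (nat_lit 174)) (XT.lf (nat_lit 0) (nat_lit 18424316953353) (nat_lit 304) (nat_lit 5038537230220) (nat_lit 76) (nat_lit 2544208708911) (nat_lit 68) (nat_lit 5) (nat_lit 72) (nat_lit 5) (nat_lit 69) (nat_lit 5) (nat_lit 519) (nat_lit 508) (nat_lit 173))))) (XT.nd (nat_lit 234) (nat_lit 456) (nat_lit 0) (XT.nd (nat_lit 78) (nat_lit 0) (nat_lit 0) (XT.lf (nat_lit 0) (nat_lit 8654693298540) (nat_lit 532) (nat_lit 136988014774) (nat_lit 532) (nat_lit 136988014774) (nat_lit 81) (nat_lit 3) (nat_lit 88) (nat_lit 3) (nat_lit 88) (nat_lit 5) (nat_lit 509) (nat_lit 509) (nat_lit 182)) (XT.nd (nat_lit 78) (nat_lit 0) (nat_lit 0) (XT.lf (nat_lit 76) (nat_lit 9035301388799) (nat_lit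 0) (nat_lit 9183759888058) (nat_lit 532) (nat_lit 335186988298) (nat_lit 82) (nat_lit 5) (nat_lit 81) (nat_lit 3) (nat_lit 88) (nat_lit 5) (nat_lit 510) (nat_lit 509) (nat_lit 181)) (XT.lf (nat_lit 76) (nat_lit 19104902260169) (nat_lit 0) (nat_lit 104098661002) (nat_lit 532) (nat_lit 97310442465) (nat_lit 82) (nat_lit 5) (nat_lit 81) (nat_lit 3) (nat_lit 88) (nat_lit 5) (nat_lit 511) (nat_lit 509) (nat_lit 180)))) (XT.nd (nat_lit 156) (nat_lit 0) (nat_lit 76) (XT.nd (nat_lit 78) (nat_lit 0) (nat_lit 0) (XT.lf (nat_lit 0) (nat_lit 641088038908) (nat_lit 532) (nat_lit 9961399038095) (nat_lit 608) (nat_lit 9476587332623) (nat_lit 75) (nat_lit 5) (nat_lit 82) (nat_lit 5) (nat_lit 83) (nat_lit 5) (nat_lit 512) (nat_lit 509) (nat_lit 179)) (XT.lf (nat_lit 76) (nat_lit 373850020917) (nat_lit 0) (nat_lit 1076795967447) (nat_lit 608) (nat_lit 19461422716934) (nat_lit 76) (nat_lit 5) (nat_lit 75)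 (nat_lit 5) (nat_lit 83) (nat_lit 5) (nat_lit 513) (nat_lit 509) (nat_lit 178))) (XT.nd (nat_lit 78) (nat_lit 0) (nat_lit 0) (XT.lf (nat_lit 0) (nat_lit 2825928801489) (nat_lit 532) (nat_lit 9916078890823) (nat_lit 608) (nat_lit 9029618034096) (nat_lit 76) (nat_lit 5) (nat_lit 83) (nat_lit 5) (nat_lit 84) (nat_lit 5) (nat_lit 514) (nat_lit 509) (nat_lit 177)) (XT.lf (nat_lit 76) (nat_lit 1608317936700) (nat_lit 0) (nat_lit 2769565114432) (nat_lit 608) (nat_lit 18316732353155) (nat_lit 77) (nat_lit 5) (nat_lit 76) (nat_lit 5) (nat_lit 84) (nat_lit 5) (nat_lit 515) (nat_lit 509) (nat_lit 176))))))))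
noncomputable def xc255 : XT := (XT.nd (nat_lit 187278) (nat_lit 0) (nat_lit 532) (XT.nd (nat_lit 62634) (nat_lit 0) (nat_lit 228) (XT.nd (nat_lit 62166) (nat_lit 0) (nat_lit 532) (XT.nd (nat_lit 234) (nat_lit 228) (nat_lit 0) (XT.nd (nat_lit 78) (nat_lit 456) (nat_lit 0) (XT.lf (nat_lit 0) (nat_lit 6524575345590) (nat_lit 532) (nat_lit 9250610234676) (nat_lit 76) (nat_lit 7878612139744) (nat_lit 77) (nat_lit 5) (nat_lit 84) (nat_lit 5) (nat_lit 78) (nat_lit 5) (nat_lit 516) (nat_lit 509) (nat_lit 175)) (XT.nd (nat_lit 78) (nat_lit 0) (nat_lit 0) (XT.lf (nat_lit 0) (nat_lit 3642192437318) (nat_lit 456) (nat_lit 5360342158204) (nat_lit 532) (nat_lit 15674417499716) (nat_lit 71) (nat_lit 5) (nat_lit 77) (nat_lit 5) (nat_lit 78) (nat_lit 5) (nat_lit 517) (nat_lit 509) (nat_lit 174)) (XT.lf (nat_lit 0) (nat_lit 12079827278928) (nat_lit 532) (nat_lit 7817383466639) (nat_lit 76) (nat_lit 5852660339438)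 (nat_lit 71) (nat_lit 5) (nat_lit 78) (nat_lit 5) (nat_lit 72) (nat_lit 5) (nat_lit 518) (nat_lit 509) (nat_lit 173)))) (XT.nd (nat_lit 61776) (nat_lit 0) (nat_lit 988) (XT.lf (nat_lit 0) (nat_lit 6650855901821) (nat_lit 228) (nat_lit 9051630386012) (nat_lit 304) (nat_lit 11182202673255) (nat_lit 68) (nat_lit 5) (nat_lit 71) (nat_lit 5) (nat_lit 72) (nat_lit 5) (nat_lit 519) (nat_lit 509) (nat_lit 172)) (XT.nd (nat_lit 78) (nat_lit 0) (nat_lit 0) (XT.lf (nat_lit 0) (nat_lit 9347068762612) (nat_lit 532) (nat_lit 147947055854) (nat_lit 532) (nat_lit 147947055854) (nat_lit 81) (nat_lit 3) (nat_lit 88) (nat_lit 3) (nat_lit 88) (nat_lit 5) (nat_lit 510) (nat_lit 510) (nat_lit 180)) (XT.lf (nat_lit 76) (nat_lit 9758125500102) (nat_lit 0) (nat_lit 9918460679258) (nat_lit 532) (nat_lit 362001946979) (nat_lit 82) (nat_lit 5) (nat_lit 81) (nat_lit 3) (nat_lit 88) (nat_lit 5) (nat_lit 511) (nat_lit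 510) (nat_lit 179))))) (XT.nd (nat_lit 234) (nat_lit 0) (nat_lit 76) (XT.nd (nat_lit 78) (nat_lit 456) (nat_lit 0) (XT.lf (nat_lit 76) (nat_lit 20633294441167) (nat_lit 0) (nat_lit 112426554026) (nat_lit 532) (nat_lit 105095277508) (nat_lit 82) (nat_lit 5) (nat_lit 81) (nat_lit 3) (nat_lit 88) (nat_lit 5) (nat_lit 512) (nat_lit 510) (nat_lit 178)) (XT.nd (nat_lit 78) (nat_lit 0) (nat_lit 0) (XT.lf (nat_lit 0) (nat_lit 692375082335) (nat_lit 532) (nat_lit 10758310960917) (nat_lit 608) (nat_lit 10234714319119) (nat_lit 75) (nat_lit 5) (nat_lit 82) (nat_lit 5) (nat_lit 83) (nat_lit 5) (nat_lit 513) (nat_lit 510) (nat_lit 177)) (XT.lf (nat_lit 76) (nat_lit 403758022810) (nat_lit 0) (nat_lit 1162939644919) (nat_lit 608) (nat_lit 21018336533970) (nat_lit 76) (nat_lit 5) (nat_lit 75) (nat_lit 5) (nat_lit 83) (nat_lit 5) (nat_lit 514) (nat_lit 510) (nat_lit 176)))) (XT.nd (nat_lit 78) (nat_lit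 0) (nat_lit 0) (XT.lf (nat_lit 0) (nat_lit 3052003105880) (nat_lit 532) (nat_lit 10709365201862) (nat_lit 608) (nat_lit 9751987476756) (nat_lit 76) (nat_lit 5) (nat_lit 83) (nat_lit 5) (nat_lit 84) (nat_lit 5) (nat_lit 515) (nat_lit 510) (nat_lit 175)) (XT.nd (nat_lit 78) (nat_lit 0) (nat_lit 76) (XT.lf (nat_lit 76) (nat_lit 1736983371857) (nat_lit 0) (nat_lit 2991130323623) (nat_lit 608) (nat_lit 19782070941130) (nat_lit 77) (nat_lit 5) (nat_lit 76) (nat_lit 5) (nat_lit 84) (nat_lit 5) (nat_lit 516) (nat_lit 510) (nat_lit 174)) (XT.lf (nat_lit 0) (nat_lit 7046541373475) (nat_lit 532) (nat_lit 9990659053225) (nat_lit 76) (nat_lit 8508901110892) (nat_lit 77) (nat_lit 5) (nat_lit 84) (nat_lit 5) (nat_lit 78) (nat_lit 5) (nat_lit 517) (nat_lit 510) (nat_lit 173)))))) (XT.nd (nat_lit 62244) (nat_lit 0) (nat_lit 0) (XT.nd (nat_lit 62010) (nat_lit 0) (nat_lit 304) (XT.nd (nat_lit 78) (nat_lit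 0) (nat_lit 0) (XT.lf (nat_lit 0) (nat_lit 3933567832523) (nat_lit 456) (nat_lit 5789169530866) (nat_lit 532) (nat_lit 16928370899450) (nat_lit 71) (nat_lit 5) (nat_lit 77) (nat_lit 5) (nat_lit 78) (nat_lit 5) (nat_lit 518) (nat_lit 510) (nat_lit 172)) (XT.nd (nat_lit 61854) (nat_lit 0) (nat_lit 760) (XT.lf (nat_lit 0) (nat_lit 13046213461451) (nat_lit 532) (nat_lit 8442774143750) (nat_lit 76) (nat_lit 6320873166588) (nat_lit 71) (nat_lit 5) (nat_lit 78) (nat_lit 5) (nat_lit 72) (nat_lit 5) (nat_lit 519) (nat_lit 510) (nat_lit 171)) (XT.lf (nat_lit 0) (nat_lit 10094834263783) (nat_lit 532) (nat_lit 159782820235) (nat_lit 532) (nat_lit 159782820235) (nat_lit 81) (nat_lit 3) (nat_lit 88) (nat_lit 3) (nat_lit 88) (nat_lit 5) (nat_lit 511) (nat_lit 511) (nat_lit 178)))) (XT.nd (nat_lit 78) (nat_lit 456) (nat_lit 0) (XT.lf (nat_lit 76) (nat_lit 10538775540280) (nat_lit 0) (nat_lit 10711937533732)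 (nat_lit 532) (nat_lit 390962102409) (nat_lit 82) (nat_lit 5) (nat_lit 81) (nat_lit 3) (nat_lit 88) (nat_lit 5) (nat_lit 512) (nat_lit 511) (nat_lit 177)) (XT.nd (nat_lit 78) (nat_lit 456) (nat_lit 0) (XT.lf (nat_lit 76) (nat_lit 22283957996618) (nat_lit 0) (nat_lit 121420678471) (nat_lit 532) (nat_lit 113502899405) (nat_lit 82) (nat_lit 5) (nat_lit 81) (nat_lit 3) (nat_lit 88) (nat_lit 5) (nat_lit 513) (nat_lit 511) (nat_lit 176)) (XT.lf (nat_lit 0) (nat_lit 747765089190) (nat_lit 532) (nat_lit 11618975837598) (nat_lit 608) (nat_lit 11053491464551) (nat_lit 75) (nat_lit 5) (nat_lit 82) (nat_lit 5) (nat_lit 83) (nat_lit 5) (nat_lit 514) (nat_lit 511) (nat_lit 175))))) (XT.nd (nat_lit 234) (nat_lit 304) (nat_lit 0) (XT.nd (nat_lit 78) (nat_lit 0) (nat_lit 76) (XT.lf (nat_lit 76) (nat_lit 436058664823) (nat_lit 0) (nat_lit 1255974816578) (nat_lit 608) (nat_lit 22699803456413) (nat_lit 76)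 (nat_lit 5) (nat_lit 75) (nat_lit 5) (nat_lit 83) (nat_lit 5) (nat_lit 515) (nat_lit 511) (nat_lit 174)) (XT.nd (nat_lit 78) (nat_lit 0) (nat_lit 0) (XT.lf (nat_lit 0) (nat_lit 3296163354584) (nat_lit 532) (nat_lit 11566114417817) (nat_lit 608) (nat_lit 10532146474839) (nat_lit 76) (nat_lit 5) (nat_lit 83) (nat_lit 5) (nat_lit 84) (nat_lit 5) (nat_lit 516) (nat_lit 511) (nat_lit 173)) (XT.lf (nat_lit 76) (nat_lit 1875942041795) (nat_lit 0) (nat_lit 3230420749544) (nat_lit 608) (nat_lit 21364636616182) (nat_lit 77) (nat_lit 5) (nat_lit 76) (nat_lit 5) (nat_lit 84) (nat_lit 5) (nat_lit 517) (nat_lit 511) (nat_lit 172)))) (XT.nd (nat_lit 62010) (nat_lit 0) (nat_lit 760) (XT.nd (nat_lit 78) (nat_lit 456) (nat_lit 0) (XT.lf (nat_lit 0) (nat_lit 7610264683556) (nat_lit 532) (nat_lit 10789911777291) (nat_lit 76) (nat_lit 9189613199736) (nat_lit 77) (nat_lit 5) (nat_lit 84) (nat_lit 5) (nat_lit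 78) (nat_lit 5) (nat_lit 518) (nat_lit 511) (nat_lit 171)) (XT.lf (nat_lit 0) (nat_lit 4248253259313) (nat_lit 456) (nat_lit 6252303093341) (nat_lit 532) (nat_lit 18282640571197) (nat_lit 71) (nat_lit 5) (nat_lit 77) (nat_lit 5) (nat_lit 78) (nat_lit 5) (nat_lit 519) (nat_lit 511) (nat_lit 170))) (XT.nd (nat_lit 78) (nat_lit 0) (nat_lit 0) (XT.lf (nat_lit 0) (nat_lit 10902421005024) (nat_lit 532) (nat_lit 172565445779) (nat_lit 532) (nat_lit 172565445779) (nat_lit 81) (nat_lit 3) (nat_lit 88) (nat_lit 3) (nat_lit 88) (nat_lit 5) (nat_lit 512) (nat_lit 512) (nat_lit 176)) (XT.lf (nat_lit 76) (nat_lit 11381877583649) (nat_lit 0) (nat_lit 11568892536545) (nat_lit 532) (nat_lit 422239070320) (nat_lit 82) (nat_lit 5) (nat_lit 81) (nat_lit 3) (nat_lit 88) (nat_lit 5) (nat_lit 513) (nat_lit 512) (nat_lit 175))))))) (XT.nd (nat_lit 125034) (nat_lit 0) (nat_lit 0) (XT.nd (nat_lit 62400) (nat_lit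 0) (nat_lit 0) (XT.nd (nat_lit 234) (nat_lit 0) (nat_lit 76) (XT.nd (nat_lit 78) (nat_lit 456) (nat_lit 0) (XT.lf (nat_lit 76) (nat_lit 24066674636482) (nat_lit 0) (nat_lit 131134332855) (nat_lit 532) (nat_lit 122583131096) (nat_lit 82) (nat_lit 5) (nat_lit 81) (nat_lit 3) (nat_lit 88) (nat_lit 5) (nat_lit 514) (nat_lit 512) (nat_lit 174)) (XT.nd (nat_lit 78) (nat_lit 0) (nat_lit 0) (XT.lf (nat_lit 0) (nat_lit 807586296556) (nat_lit 532) (nat_lit 12548493904441) (nat_lit 608) (nat_lit 11937770781632) (nat_lit 75) (nat_lit 5) (nat_lit 82) (nat_lit 5) (nat_lit 83) (nat_lit 5) (nat_lit 515) (nat_lit 512) (nat_lit 173)) (XT.lf (nat_lit 76) (nat_lit 470943358170) (nat_lit 0) (nat_lit 1356452801961) (nat_lit 608) (nat_lit 24515787732691) (nat_lit 76) (nat_lit 5) (nat_lit 75) (nat_lit 5) (nat_lit 83) (nat_lit 5) (nat_lit 516) (nat_lit 512) (nat_lit 172)))) (XT.nd (nat_lit 78) (nat_lit 0) (nat_lit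 0) (XT.lf (nat_lit 0) (nat_lit 3559856423150) (nat_lit 532) (nat_lit 12491403571076) (nat_lit 608) (nat_lit 11374718192777) (nat_lit 76) (nat_lit 5) (nat_lit 83) (nat_lit 5) (nat_lit 84) (nat_lit 5) (nat_lit 517) (nat_lit 512) (nat_lit 171)) (XT.nd (nat_lit 78) (nat_lit 0) (nat_lit 76) (XT.lf (nat_lit 76) (nat_lit 2026017405300) (nat_lit 0) (nat_lit 3488854409535) (nat_lit 608) (nat_lit 23073807545272) (nat_lit 77) (nat_lit 5) (nat_lit 76) (nat_lit 5) (nat_lit 84) (nat_lit 5) (nat_lit 518) (nat_lit 512) (nat_lit 170)) (XT.lf (nat_lit 0) (nat_lit 8219085858416) (nat_lit 532) (nat_lit 11653104719309) (nat_lit 76) (nat_lit 9924782255691) (nat_lit 77) (nat_lit 5) (nat_lit 84) (nat_lit 5) (nat_lit 78) (nat_lit 5) (nat_lit 519) (nat_lit 512) (nat_lit 169))))) (XT.nd (nat_lit 234) (nat_lit 456) (nat_lit 0) (XT.nd (nat_lit 78) (nat_lit 0) (nat_lit 0) (XT.lf (nat_lit 0) (nat_lit 11774614685545)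 (nat_lit 532) (nat_lit 186370681377) (nat_lit 532) (nat_lit 186370681377) (nat_lit 81) (nat_lit 3) (nat_lit 88) (nat_lit 3) (nat_lit 88) (nat_lit 5) (nat_lit 513) (nat_lit 513) (nat_lit 174)) (XT.nd (nat_lit 78) (nat_lit 0) (nat_lit 0) (XT.lf (nat_lit 76) (nat_lit 12292427790466) (nat_lit 0) (nat_lit 12494403939567) (nat_lit 532) (nat_lit 456018195705) (nat_lit 82) (nat_lit 5) (nat_lit 81) (nat_lit 3) (nat_lit 88) (nat_lit 5) (nat_lit 514) (nat_lit 513) (nat_lit 173)) (XT.lf (nat_lit 76) (nat_lit 25992008607517) (nat_lit 0) (nat_lit 141625079575) (nat_lit 532) (nat_lit 132389781361) (nat_lit 82) (nat_lit 5) (nat_lit 81) (nat_lit 3) (nat_lit 88) (nat_lit 5) (nat_lit 515) (nat_lit 513) (nat_lit 172)))) (XT.nd (nat_lit 156) (nat_lit 0) (nat_lit 76) (XT.nd (nat_lit 78) (nat_lit 0) (nat_lit 0) (XT.lf (nat_lit 0) (nat_lit 872193200478) (nat_lit 532) (nat_lit 13552373416654) (nat_lit 608) (nat_lit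 12892792444090) (nat_lit 75) (nat_lit 5) (nat_lit 82) (nat_lit 5) (nat_lit 83) (nat_lit 5) (nat_lit 516) (nat_lit 513) (nat_lit 171)) (XT.lf (nat_lit 76) (nat_lit 508618826962) (nat_lit 0) (nat_lit 1464969026166) (nat_lit 608) (nat_lit 26477050751106) (nat_lit 76) (nat_lit 5) (nat_lit 75) (nat_lit 5) (nat_lit 83) (nat_lit 5) (nat_lit 517) (nat_lit 513) (nat_lit 170))) (XT.nd (nat_lit 62166) (nat_lit 0) (nat_lit 380) (XT.lf (nat_lit 0) (nat_lit 3844644937174) (nat_lit 532) (nat_lit 13490715856619) (nat_lit 608) (nat_lit 12284695648156) (nat_lit 76) (nat_lit 5) (nat_lit 83) (nat_lit 5) (nat_lit 84) (nat_lit 5) (nat_lit 518) (nat_lit 513) (nat_lit 169)) (XT.lf (nat_lit 0) (nat_lit 12716583860491) (nat_lit 532) (nat_lit 201280335832) (nat_lit 532) (nat_lit 201280335832) (nat_lit 81) (nat_lit 3) (nat_lit 88) (nat_lit 3) (nat_lit 88) (nat_lit 5) (nat_lit 514) (nat_lit 514) (nat_lit 172))))))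 (XT.nd (nat_lit 62634) (nat_lit 0) (nat_lit 0) (XT.nd (nat_lit 234) (nat_lit 0) (nat_lit 0) (XT.nd (nat_lit 78) (nat_lit 456) (nat_lit 0) (XT.lf (nat_lit 76) (nat_lit 13275822013811) (nat_lit 0) (nat_lit 13493956254816) (nat_lit 532) (nat_lit 492499651154) (nat_lit 82) (nat_lit 5) (nat_lit 81) (nat_lit 3) (nat_lit 88) (nat_lit 5) (nat_lit 515) (nat_lit 514) (nat_lit 171)) (XT.nd (nat_lit 78) (nat_lit 456) (nat_lit 0) (XT.lf (nat_lit 76) (nat_lit 28071369296218) (nat_lit 0) (nat_lit 152955086019) (nat_lit 532) (nat_lit 142980963678) (nat_lit 82) (nat_lit 5) (nat_lit 81) (nat_lit 3) (nat_lit 88) (nat_lit 5) (nat_lit 516) (nat_lit 514) (nat_lit 170)) (XT.lf (nat_lit 0) (nat_lit 941968656686) (nat_lit 532) (nat_lit 14636563289865) (nat_lit 608) (nat_lit 13924215839556) (nat_lit 75) (nat_lit 5) (nat_lit 82) (nat_lit 5) (nat_lit 83) (nat_lit 5) (nat_lit 517) (nat_lit 514) (nat_lit 169)))) (XT.nd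 (nat_lit 62244) (nat_lit 0) (nat_lit 456) (XT.lf (nat_lit 76) (nat_lit 549308333237) (nat_lit 0) (nat_lit 1582166548300) (nat_lit 608) (nat_lit 28595214811021) (nat_lit 76) (nat_lit 5) (nat_lit 75) (nat_lit 5) (nat_lit 83) (nat_lit 5) (nat_lit 518) (nat_lit 514) (nat_lit 168)) (XT.nd (nat_lit 78) (nat_lit 0) (nat_lit 0) (XT.lf (nat_lit 0) (nat_lit 13733910569418) (nat_lit 532) (nat_lit 217382762652) (nat_lit 532) (nat_lit 217382762652) (nat_lit 81) (nat_lit 3) (nat_lit 88) (nat_lit 3) (nat_lit 88) (nat_lit 5) (nat_lit 515) (nat_lit 515) (nat_lit 170)) (XT.lf (nat_lit 76) (nat_lit 14337887775008) (nat_lit 0) (nat_lit 14573472755274) (nat_lit 532) (nat_lit 531899623069) (nat_lit 82) (nat_lit 5) (nat_lit 81) (nat_lit 3) (nat_lit 88) (nat_lit 5) (nat_lit 516) (nat_lit 515) (nat_lit 169))))) (XT.nd (nat_lit 62556) (nat_lit 0) (nat_lit 456) (XT.nd (nat_lit 78) (nat_lit 456) (nat_lit 0) (XT.lf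 (nat_lit 76) (nat_lit 30317078840001) (nat_lit 0) (nat_lit 165191492967) (nat_lit 532) (nat_lit 154419440608) (nat_lit 82) (nat_lit 5) (nat_lit 81) (nat_lit 3) (nat_lit 88) (nat_lit 5) (nat_lit 517) (nat_lit 515) (nat_lit 168)) (XT.nd (nat_lit 62400) (nat_lit 0) (nat_lit 456) (XT.lf (nat_lit 0) (nat_lit 1017326149366) (nat_lit 532) (nat_lit 15807488352950) (nat_lit 608) (nat_lit 15038153106668) (nat_lit 75) (nat_lit 5) (nat_lit 82) (nat_lit 5) (nat_lit 83) (nat_lit 5) (nat_lit 518) (nat_lit 515) (nat_lit 167)) (XT.lf (nat_lit 76) (nat_lit 15484918797087) (nat_lit 0) (nat_lit 15739350575757) (nat_lit 532) (nat_lit 574451592763) (nat_lit 82) (nat_lit 5) (nat_lit 81) (nat_lit 3) (nat_lit 88) (nat_lit 5) (nat_lit 517) (nat_lit 516) (nat_lit 167)))) (XT.nd (nat_lit 62478) (nat_lit 0) (nat_lit 0) (XT.nd (nat_lit 62400) (nat_lit 0) (nat_lit 0) (XT.lf (nat_lit 76) (nat_lit 32742445147274) (nat_lit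 0) (nat_lit 178406812461) (nat_lit 532) (nat_lit 166772995716) (nat_lit 82) (nat_lit 5) (nat_lit 81) (nat_lit 3) (nat_lit 88) (nat_lit 5) (nat_lit 518) (nat_lit 516) (nat_lit 166)) (XT.lf (nat_lit 0) (nat_lit 16019233288314) (nat_lit 532) (nat_lit 253555254279) (nat_lit 532) (nat_lit 253555254279) (nat_lit 81) (nat_lit 3) (nat_lit 88) (nat_lit 3) (nat_lit 88) (nat_lit 5) (nat_lit 517) (nat_lit 517) (nat_lit 166))) (XT.nd (nat_lit 62478) (nat_lit 0) (nat_lit 0) (XT.lf (nat_lit 76) (nat_lit 16723712300922) (nat_lit 0) (nat_lit 16998498621871) (nat_lit 532) (nat_lit 620407720053) (nat_lit 82) (nat_lit 5) (nat_lit 81) (nat_lit 3) (nat_lit 88) (nat_lit 5) (nat_lit 518) (nat_lit 517) (nat_lit 165)) (XT.lf (nat_lit 0) (nat_lit 17300771951435) (nat_lit 532) (nat_lit 273839674591) (nat_lit 532) (nat_lit 273839674591) (nat_lit 81) (nat_lit 3) (nat_lit 88) (nat_lit 3) (nat_lit 88) (nat_lit 5) (nat_lit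 518) (nat_lit 518) (nat_lit 164))))))))

set_option maxRecDepth 10000000 in
noncomputable def Tp : PT := (PT.nd (nat_lit 12760488) (PT.nd (nat_lit 12136332) (PT.nd (nat_lit 11262342) (PT.nd (nat_lit 10388274) pc0 pc1) (PT.nd (nat_lit 499746) pc2 pc3)) (PT.nd (nat_lit 374634) (PT.nd (nat_lit 187746) pc4 pc5) (PT.nd (nat_lit 125034) pc6 pc7))) (PT.nd (nat_lit 436098) (PT.nd (nat_lit 186888) (PT.nd (nat_lit 63336) pc8 pc9) (PT.nd (nat_lit 63960) pc10 pc11)) (PT.nd (nat_lit 377988) (PT.nd (nat_lit 187122) pc12 pc13) (PT.nd (nat_lit 245232) pc14 pc15))))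

set_option maxRecDepth 10000000 in
noncomputable def Tx : XT := (XT.nd (nat_lit 20784504) (nat_lit 0) (nat_lit 76) XT.nil (XT.nd (nat_lit 11619582) (nat_lit 0) (nat_lit 0) (XT.nd (nat_lit 5059860) (nat_lit 0) (nat_lit 0) (XT.nd (nat_lit 3494868) (nat_lit 0) (nat_lit 0) (XT.nd (nat_lit 2435550) (nat_lit 0) (nat_lit 0) (XT.nd (nat_lit 1686906) (nat_lit 0) (nat_lit 0) (XT.nd (nat_lit 1185756) (nat_lit 0) (nat_lit 0) (XT.nd (nat_lit 811590) (nat_lit 0) (nat_lit 0) (XT.nd (nat_lit 561678) (nat_lit 0) (nat_lit 0) (XT.nd (nat_lit 374556) (nat_lit 0) (nat_lit 0) xc0 xc1) (XT.nd (nat_lit 125268) (nat_lit 0) (nat_lit 0) xc2 xc3)) (XT.nd (nat_lit 187746) (nat_lit 0) (nat_lit 0) (XT.nd (nat_lit 124020) (nat_lit 0) (nat_lit 0) xc4 xc5) (XT.nd (nat_lit 123084) (nat_lit 0) (nat_lit 0) xc6 xc7))) (XT.nd (nat_lit 310440) (nat_lit 0) (nat_lit 0) (XT.nd (nat_lit 126204) (nat_lit 0) (nat_lit 0) (XT.nd (nat_lit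 63180) (nat_lit 0) (nat_lit 0) xc8 xc9) (XT.nd (nat_lit 121680) (nat_lit 0) (nat_lit 0) xc10 xc11)) (XT.nd (nat_lit 124644) (nat_lit 0) (nat_lit 0) (XT.nd (nat_lit 62400) (nat_lit 0) (nat_lit 0) xc12 xc13) (XT.nd (nat_lit 62088) (nat_lit 0) (nat_lit 0) xc14 xc15)))) (XT.nd (nat_lit 434226) (nat_lit 0) (nat_lit 0) (XT.nd (nat_lit 246792) (nat_lit 0) (nat_lit 0) (XT.nd (nat_lit 123708) (nat_lit 0) (nat_lit 0) (XT.nd (nat_lit 61932) (nat_lit 0) (nat_lit 0) xc16 xc17) (XT.nd (nat_lit 61620) (nat_lit 0) (nat_lit 0) xc18 xc19)) (XT.nd (nat_lit 65208) (nat_lit 0) (nat_lit 0) (XT.nd (nat_lit 61308) (nat_lit 0) (nat_lit 0) xc20 xc21) (XT.nd (nat_lit 61152) (nat_lit 0) (nat_lit 0) xc22 xc23))) (XT.nd (nat_lit 185952) (nat_lit 0) (nat_lit 0) (XT.nd (nat_lit 64740) (nat_lit 0) (nat_lit 0) (XT.nd (nat_lit 60840) (nat_lit 0) (nat_lit 0) xc24 xc25) (XT.nd (nat_lit 60684) (nat_lit 0) (nat_lit 0) xc26 xc27))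 (XT.nd (nat_lit 64272) (nat_lit 0) (nat_lit 0) (XT.nd (nat_lit 3900) (nat_lit 0) (nat_lit 0) xc28 xc29) (XT.nd (nat_lit 60216) (nat_lit 0) (nat_lit 0) xc30 xc31))))) (XT.nd (nat_lit 562458) (nat_lit 0) (nat_lit 0) (XT.nd (nat_lit 310518) (nat_lit 0) (nat_lit 0) (XT.nd (nat_lit 183612) (nat_lit 0) (nat_lit 0) (XT.nd (nat_lit 119964) (nat_lit 0) (nat_lit 0) (XT.nd (nat_lit 60060) (nat_lit 0) (nat_lit 0) xc32 xc33) (XT.nd (nat_lit 3900) (nat_lit 0) (nat_lit 0) xc34 xc35)) (XT.nd (nat_lit 63492) (nat_lit 0) (nat_lit 0) (XT.nd (nat_lit 3900) (nat_lit 0) (nat_lit 0) xc36 xc37) (XT.nd (nat_lit 3900) (nat_lit 0) (nat_lit 0) xc38 xc39))) (XT.nd (nat_lit 126204) (nat_lit 0) (nat_lit 0) (XT.nd (nat_lit 63180) (nat_lit 0) (nat_lit 0) (XT.nd (nat_lit 59280) (nat_lit 0) (nat_lit 0) xc40 xc41) (XT.nd (nat_lit 59124) (nat_lit 0) (nat_lit 0) xc42 xc43)) (XT.nd (nat_lit 62868) (nat_lit 0) (nat_lit 0) (XT.nd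 (nat_lit 58968) (nat_lit 0) (nat_lit 0) xc44 xc45) (XT.nd (nat_lit 58890) (nat_lit 0) (nat_lit 0) xc46 xc47)))) (XT.nd (nat_lit 249678) (nat_lit 0) (nat_lit 0) (XT.nd (nat_lit 125112) (nat_lit 0) (nat_lit 0) (XT.nd (nat_lit 62634) (nat_lit 0) (nat_lit 0) (XT.nd (nat_lit 58734) (nat_lit 0) (nat_lit 0) xc48 xc49) (XT.nd (nat_lit 58578) (nat_lit 0) (nat_lit 0) xc50 xc51)) (XT.nd (nat_lit 62322) (nat_lit 0) (nat_lit 0) (XT.nd (nat_lit 58422) (nat_lit 0) (nat_lit 0) xc52 xc53) (XT.nd (nat_lit 58266) (nat_lit 0) (nat_lit 0) xc54 xc55))) (XT.nd (nat_lit 123864) (nat_lit 0) (nat_lit 0) (XT.nd (nat_lit 62010) (nat_lit 0) (nat_lit 0) (XT.nd (nat_lit 58110) (nat_lit 0) (nat_lit 0) xc56 xc57) (XT.nd (nat_lit 57954) (nat_lit 0) (nat_lit 0) xc58 xc59)) (XT.nd (nat_lit 61698) (nat_lit 0) (nat_lit 0) (XT.nd (nat_lit 57798) (nat_lit 0) (nat_lit 0) xc60 xc61) (XT.nd (nat_lit 57642) (nat_lit 0) (nat_lit 76)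 xc62 xc63)))))) (XT.nd (nat_lit 809718) (nat_lit 0) (nat_lit 0) (XT.nd (nat_lit 434304) (nat_lit 0) (nat_lit 0) (XT.nd (nat_lit 244608) (nat_lit 0) (nat_lit 0) (XT.nd (nat_lit 122616) (nat_lit 0) (nat_lit 0) (XT.nd (nat_lit 61386) (nat_lit 0) (nat_lit 0) (XT.nd (nat_lit 57486) (nat_lit 0) (nat_lit 304) xc64 xc65) (XT.nd (nat_lit 3900) (nat_lit 0) (nat_lit 0) xc66 xc67)) (XT.nd (nat_lit 61074) (nat_lit 0) (nat_lit 0) (XT.nd (nat_lit 3900) (nat_lit 0) (nat_lit 0) xc68 xc69) (XT.nd (nat_lit 3900) (nat_lit 76) (nat_lit 0) xc70 xc71))) (XT.nd (nat_lit 68562) (nat_lit 0) (nat_lit 0) (XT.nd (nat_lit 7800) (nat_lit 0) (nat_lit 0) (XT.nd (nat_lit 3900) (nat_lit 532) (nat_lit 0) xc72 xc73) (XT.nd (nat_lit 56862) (nat_lit 0) (nat_lit 0) xc74 xc75)) (XT.nd (nat_lit 60606) (nat_lit 0) (nat_lit 0) (XT.nd (nat_lit 56706) (nat_lit 0) (nat_lit 456) xc76 xc77) (XT.nd (nat_lit 3900) (nat_lit 0) (nat_lit 0)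 xc78 xc79)))) (XT.nd (nat_lit 188292) (nat_lit 0) (nat_lit 0) (XT.nd (nat_lit 68094) (nat_lit 0) (nat_lit 0) (XT.nd (nat_lit 60294) (nat_lit 0) (nat_lit 0) (XT.nd (nat_lit 3900) (nat_lit 76) (nat_lit 0) xc80 xc81) (XT.nd (nat_lit 3900) (nat_lit 684) (nat_lit 0) xc82 xc83)) (XT.nd (nat_lit 60138) (nat_lit 0) (nat_lit 0) (XT.nd (nat_lit 56238) (nat_lit 0) (nat_lit 76) xc84 xc85) (XT.nd (nat_lit 56082) (nat_lit 0) (nat_lit 1216) xc86 xc87))) (XT.nd (nat_lit 67626) (nat_lit 0) (nat_lit 0) (XT.nd (nat_lit 59826) (nat_lit 0) (nat_lit 0) (XT.nd (nat_lit 3900) (nat_lit 0) (nat_lit 0) xc88 xc89) (XT.nd (nat_lit 3900) (nat_lit 532) (nat_lit 0) xc90 xc91)) (XT.nd (nat_lit 59670) (nat_lit 0) (nat_lit 0) (XT.nd (nat_lit 55770) (nat_lit 0) (nat_lit 228) xc92 xc93) (XT.nd (nat_lit 55848) (nat_lit 0) (nat_lit 1672) xc94 xc95))))) (XT.nd (nat_lit 376116) (nat_lit 0) (nat_lit 0) (XT.nd (nat_lit 187590) (nat_lit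 0) (nat_lit 0) (XT.nd (nat_lit 67626) (nat_lit 0) (nat_lit 0) (XT.nd (nat_lit 59826) (nat_lit 0) (nat_lit 0) (XT.nd (nat_lit 3900) (nat_lit 0) (nat_lit 0) xc96 xc97) (XT.nd (nat_lit 3900) (nat_lit 760) (nat_lit 0) xc98 xc99)) (XT.nd (nat_lit 59904) (nat_lit 0) (nat_lit 0) (XT.nd (nat_lit 56004) (nat_lit 0) (nat_lit 304) xc100 xc101) (XT.nd (nat_lit 56082) (nat_lit 0) (nat_lit 1672) xc102 xc103))) (XT.nd (nat_lit 67938) (nat_lit 0) (nat_lit 0) (XT.nd (nat_lit 60138) (nat_lit 0) (nat_lit 0) (XT.nd (nat_lit 3900) (nat_lit 76) (nat_lit 0) xc104 xc105) (XT.nd (nat_lit 3900) (nat_lit 684) (nat_lit 0) xc106 xc107)) (XT.nd (nat_lit 60216) (nat_lit 0) (nat_lit 0) (XT.nd (nat_lit 56316) (nat_lit 0) (nat_lit 228) xc108 xc109) (XT.nd (nat_lit 56394) (nat_lit 0) (nat_lit 988) xc110 xc111)))) (XT.nd (nat_lit 189228) (nat_lit 0) (nat_lit 0) (XT.nd (nat_lit 120822) (nat_lit 0) (nat_lit 0) (XT.nd (nat_lit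 60372) (nat_lit 0) (nat_lit 0) (XT.nd (nat_lit 3900) (nat_lit 0) (nat_lit 0) xc112 xc113) (XT.nd (nat_lit 3900) (nat_lit 304) (nat_lit 0) xc114 xc115)) (XT.nd (nat_lit 7800) (nat_lit 0) (nat_lit 0) (XT.nd (nat_lit 3900) (nat_lit 1368) (nat_lit 0) xc116 xc117) (XT.nd (nat_lit 56628) (nat_lit 0) (nat_lit 304) xc118 xc119))) (XT.nd (nat_lit 121290) (nat_lit 0) (nat_lit 0) (XT.nd (nat_lit 60606) (nat_lit 0) (nat_lit 0) (XT.nd (nat_lit 56706) (nat_lit 0) (nat_lit 1368) xc120 xc121) (XT.nd (nat_lit 3900) (nat_lit 0) (nat_lit 0) xc122 xc123)) (XT.nd (nat_lit 60762) (nat_lit 0) (nat_lit 0) (XT.nd (nat_lit 3900) (nat_lit 304) (nat_lit 0) xc124 xc125) (XT.nd (nat_lit 3900) (nat_lit 1140) (nat_lit 0) xc126 xc127))))))) (XT.nd (nat_lit 1936350) (nat_lit 0) (nat_lit 228) (XT.nd (nat_lit 930618) (nat_lit 0) (nat_lit 0) (XT.nd (nat_lit 435942) (nat_lit 0) (nat_lit 0) (XT.nd (nat_lit 244140) (nat_lit 0)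 (nat_lit 0) (XT.nd (nat_lit 121914) (nat_lit 0) (nat_lit 0) (XT.nd (nat_lit 60918) (nat_lit 0) (nat_lit 0) (XT.nd (nat_lit 57018) (nat_lit 0) (nat_lit 228) xc128 xc129) (XT.nd (nat_lit 57096) (nat_lit 0) (nat_lit 684) xc130 xc131)) (XT.nd (nat_lit 61074) (nat_lit 0) (nat_lit 0) (XT.nd (nat_lit 57174) (nat_lit 0) (nat_lit 1672) xc132 xc133) (XT.nd (nat_lit 3900) (nat_lit 76) (nat_lit 0) xc134 xc135))) (XT.nd (nat_lit 122538) (nat_lit 0) (nat_lit 0) (XT.nd (nat_lit 61230) (nat_lit 0) (nat_lit 0) (XT.nd (nat_lit 3900) (nat_lit 304) (nat_lit 0) xc136 xc137) (XT.nd (nat_lit 3900) (nat_lit 912) (nat_lit 0) xc138 xc139)) (XT.nd (nat_lit 7800) (nat_lit 76) (nat_lit 0) (XT.nd (nat_lit 3900) (nat_lit 1672) (nat_lit 0) xc140 xc141) (XT.nd (nat_lit 57486) (nat_lit 0) (nat_lit 228) xc142 xc143)))) (XT.nd (nat_lit 246714) (nat_lit 0) (nat_lit 0) (XT.nd (nat_lit 123162) (nat_lit 0) (nat_lit 0) (XT.nd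 (nat_lit 61542) (nat_lit 0) (nat_lit 0) (XT.nd (nat_lit 57642) (nat_lit 0) (nat_lit 532) xc144 xc145) (XT.nd (nat_lit 57720) (nat_lit 0) (nat_lit 1140) xc146 xc147)) (XT.nd (nat_lit 61698) (nat_lit 0) (nat_lit 0) (XT.nd (nat_lit 57798) (nat_lit 0) (nat_lit 1748) xc148 xc149) (XT.nd (nat_lit 3900) (nat_lit 76) (nat_lit 0) xc150 xc151))) (XT.nd (nat_lit 123786) (nat_lit 0) (nat_lit 0) (XT.nd (nat_lit 61854) (nat_lit 0) (nat_lit 0) (XT.nd (nat_lit 3900) (nat_lit 76) (nat_lit 0) xc152 xc153) (XT.nd (nat_lit 3900) (nat_lit 304) (nat_lit 0) xc154 xc155)) (XT.nd (nat_lit 62010) (nat_lit 0) (nat_lit 0) (XT.nd (nat_lit 3900) (nat_lit 532) (nat_lit 0) xc156 xc157) (XT.nd (nat_lit 3900) (nat_lit 760) (nat_lit 0) xc158 xc159))))) (XT.nd (nat_lit 500214) (nat_lit 0) (nat_lit 76) (XT.nd (nat_lit 249444) (nat_lit 0) (nat_lit 76) (XT.nd (nat_lit 124488) (nat_lit 0) (nat_lit 76) (XT.nd (nat_lit 62166) (nat_lit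 0) (nat_lit 0) (XT.nd (nat_lit 3900) (nat_lit 988) (nat_lit 0) xc160 xc161) (XT.nd (nat_lit 3900) (nat_lit 1368) (nat_lit 0) xc162 xc163)) (XT.nd (nat_lit 62400) (nat_lit 0) (nat_lit 0) (XT.nd (nat_lit 3900) (nat_lit 1368) (nat_lit 0) xc164 xc165) (XT.nd (nat_lit 3900) (nat_lit 1520) (nat_lit 0) xc166 xc167))) (XT.nd (nat_lit 125190) (nat_lit 0) (nat_lit 0) (XT.nd (nat_lit 62556) (nat_lit 0) (nat_lit 0) (XT.nd (nat_lit 3900) (nat_lit 1520) (nat_lit 0) xc168 xc169) (XT.nd (nat_lit 3900) (nat_lit 1520) (nat_lit 0) xc170 xc171)) (XT.nd (nat_lit 62712) (nat_lit 0) (nat_lit 0) (XT.nd (nat_lit 3900) (nat_lit 1520) (nat_lit 0) xc172 xc173) (XT.nd (nat_lit 3900) (nat_lit 1368) (nat_lit 0) xc174 xc175)))) (XT.nd (nat_lit 252018) (nat_lit 0) (nat_lit 0) (XT.nd (nat_lit 125814) (nat_lit 0) (nat_lit 0) (XT.nd (nat_lit 62868) (nat_lit 0) (nat_lit 0) (XT.nd (nat_lit 3900) (nat_lit 1140) (nat_lit 0) xc176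 xc177) (XT.nd (nat_lit 3900) (nat_lit 912) (nat_lit 0) xc178 xc179)) (XT.nd (nat_lit 63024) (nat_lit 0) (nat_lit 0) (XT.nd (nat_lit 3900) (nat_lit 684) (nat_lit 0) xc180 xc181) (XT.nd (nat_lit 3900) (nat_lit 456) (nat_lit 0) xc182 xc183))) (XT.nd (nat_lit 126516) (nat_lit 0) (nat_lit 152) (XT.nd (nat_lit 63180) (nat_lit 0) (nat_lit 152) (XT.nd (nat_lit 3900) (nat_lit 228) (nat_lit 0) xc184 xc185) (XT.nd (nat_lit 59436) (nat_lit 0) (nat_lit 1520) xc186 xc187)) (XT.nd (nat_lit 63414) (nat_lit 0) (nat_lit 0) (XT.nd (nat_lit 59514) (nat_lit 0) (nat_lit 912) xc188 xc189) (XT.nd (nat_lit 59592) (nat_lit 0) (nat_lit 304) xc190 xc191)))))) (XT.nd (nat_lit 1371396) (nat_lit 0) (nat_lit 912) (XT.nd (nat_lit 623766) (nat_lit 0) (nat_lit 304) (XT.nd (nat_lit 310830) (nat_lit 0) (nat_lit 76) (XT.nd (nat_lit 183144) (nat_lit 0) (nat_lit 76) (XT.nd (nat_lit 119418) (nat_lit 0) (nat_lit 76) (XT.nd (nat_lit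 59670) (nat_lit 0) (nat_lit 0) xc192 xc193) (XT.nd (nat_lit 3900) (nat_lit 1368) (nat_lit 0) xc194 xc195)) (XT.nd (nat_lit 63804) (nat_lit 0) (nat_lit 0) (XT.nd (nat_lit 3900) (nat_lit 608) (nat_lit 0) xc196 xc197) (XT.nd (nat_lit 59982) (nat_lit 0) (nat_lit 1520) xc198 xc199))) (XT.nd (nat_lit 184314) (nat_lit 0) (nat_lit 152) (XT.nd (nat_lit 63960) (nat_lit 0) (nat_lit 0) (XT.nd (nat_lit 60060) (nat_lit 0) (nat_lit 456) xc200 xc201) (XT.nd (nat_lit 60138) (nat_lit 0) (nat_lit 152) xc202 xc203)) (XT.nd (nat_lit 64194) (nat_lit 0) (nat_lit 0) (XT.nd (nat_lit 3900) (nat_lit 912) (nat_lit 0) xc204 xc205) (XT.nd (nat_lit 60450) (nat_lit 0) (nat_lit 1216) xc206 xc207)))) (XT.nd (nat_lit 372216) (nat_lit 0) (nat_lit 228) (XT.nd (nat_lit 185718) (nat_lit 0) (nat_lit 152) (XT.nd (nat_lit 121134) (nat_lit 0) (nat_lit 0) (XT.nd (nat_lit 60528) (nat_lit 0) (nat_lit 0) xc208 xc209) (XT.nd (nat_lit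 3900) (nat_lit 1216) (nat_lit 0) xc210 xc211)) (XT.nd (nat_lit 64662) (nat_lit 0) (nat_lit 0) (XT.nd (nat_lit 60762) (nat_lit 0) (nat_lit 912) xc212 xc213) (XT.nd (nat_lit 60840) (nat_lit 0) (nat_lit 0) xc214 xc215))) (XT.nd (nat_lit 187200) (nat_lit 0) (nat_lit 152) (XT.nd (nat_lit 64896) (nat_lit 0) (nat_lit 0) (XT.nd (nat_lit 3900) (nat_lit 380) (nat_lit 0) xc216 xc217) (XT.nd (nat_lit 61074) (nat_lit 0) (nat_lit 152) xc218 xc219)) (XT.nd (nat_lit 65208) (nat_lit 0) (nat_lit 76) (XT.nd (nat_lit 3900) (nat_lit 532) (nat_lit 0) xc220 xc221) (XT.nd (nat_lit 61386) (nat_lit 0) (nat_lit 0) xc222 xc223))))) (XT.nd (nat_lit 938730) (nat_lit 0) (nat_lit 1140) (XT.nd (nat_lit 437346) (nat_lit 0) (nat_lit 456) (XT.nd (nat_lit 188994) (nat_lit 0) (nat_lit 228) (XT.nd (nat_lit 65520) (nat_lit 0) (nat_lit 0) (XT.nd (nat_lit 61620) (nat_lit 0) (nat_lit 608) xc224 xc225) (XT.nd (nat_lit 61698) (nat_lit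 0) (nat_lit 76) xc226 xc227)) (XT.nd (nat_lit 123942) (nat_lit 0) (nat_lit 76) (XT.nd (nat_lit 61932) (nat_lit 0) (nat_lit 0) xc228 xc229) (XT.nd (nat_lit 62088) (nat_lit 0) (nat_lit 152) xc230 xc231))) (XT.nd (nat_lit 249834) (nat_lit 0) (nat_lit 304) (XT.nd (nat_lit 124722) (nat_lit 0) (nat_lit 152) (XT.nd (nat_lit 62322) (nat_lit 0) (nat_lit 76) xc232 xc233) (XT.nd (nat_lit 62478) (nat_lit 0) (nat_lit 152) xc234 xc235)) (XT.nd (nat_lit 125502) (nat_lit 0) (nat_lit 228) (XT.nd (nat_lit 62712) (nat_lit 0) (nat_lit 76) xc236 xc237) (XT.nd (nat_lit 62946) (nat_lit 0) (nat_lit 76) xc238 xc239)))) (XT.nd (nat_lit 687804) (nat_lit 0) (nat_lit 836) (XT.nd (nat_lit 312624) (nat_lit 0) (nat_lit 380) (XT.nd (nat_lit 126282) (nat_lit 0) (nat_lit 152) (XT.nd (nat_lit 63102) (nat_lit 0) (nat_lit 76) xc240 xc241) (XT.nd (nat_lit 122850) (nat_lit 0) (nat_lit 152) xc242 xc243)) (XT.nd (nat_lit 187122)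 (nat_lit 0) (nat_lit 228) (XT.nd (nat_lit 63570) (nat_lit 0) (nat_lit 76) xc244 xc245) (XT.nd (nat_lit 63882) (nat_lit 0) (nat_lit 152) xc246 xc247))) (XT.nd (nat_lit 499902) (nat_lit 0) (nat_lit 760) (XT.nd (nat_lit 249210) (nat_lit 0) (nat_lit 456) (XT.nd (nat_lit 124410) (nat_lit 0) (nat_lit 228) xc248 xc249) (XT.nd (nat_lit 125190) (nat_lit 0) (nat_lit 152) xc250 xc251)) (XT.nd (nat_lit 313170) (nat_lit 0) (nat_lit 532) (XT.nd (nat_lit 125814) (nat_lit 0) (nat_lit 380) xc252 xc253) (XT.nd (nat_lit 249834) (nat_lit 0) (nat_lit 684) xc254 xc255)))))))) XT.nil))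

set_option maxRecDepth 10000000 in
noncomputable def Te : XT := XT.nil

set_option maxRecDepth 10000000 in
noncomputable def Tz : ZL := (ZL.cons (nat_lit 76) (nat_lit 3) (nat_lit 234407029942320883888) (ZL.cons (nat_lit 152) (nat_lit 6) (nat_lit 451557958502877381006) (ZL.cons (nat_lit 228) (nat_lit 6) (nat_lit 435591395978196651420) (ZL.cons (nat_lit 304) (nat_lit 3) (nat_lit 217153864583419285295) (ZL.cons (nat_lit 380) (nat_lit 6) (nat_lit 418347508451541463466) (ZL.cons (nat_lit 456) (nat_lit 6) (nat_lit 403582717271265780480) (ZL.cons (nat_lit 532) (nat_lit 3) (nat_lit 201197068445189334301) (ZL.cons (nat_lit 608) (nat_lit 6) (nat_lit 387636742796568042856) (ZL.cons (nat_lit 684) (nat_lit 6) (nat_lit 373987874945849967708) (ZL.cons (nat_lit 760) (nat_lit 3) (nat_lit 186443668778069839465) (ZL.cons (nat_lit 836) (nat_lit 6) (nat_lit 359247097667074446546) (ZL.cons (nat_lit 912) (nat_lit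 6) (nat_lit 346635192078177885070) (ZL.cons (nat_lit 988) (nat_lit 3) (nat_lit 172808087988297142175) (ZL.cons (nat_lit 1064) (nat_lit 6) (nat_lit 333014334042169598676) (ZL.cons (nat_lit 1140) (nat_lit 6) (nat_lit 321366894281966761752) (ZL.cons (nat_lit 1216) (nat_lit 3) (nat_lit 160211680427287269433) (ZL.cons (nat_lit 1292) (nat_lit 6) (nat_lit 308787659340947697878) (ZL.cons (nat_lit 1368) (nat_lit 6) (nat_lit 298038277196023138880) (ZL.cons (nat_lit 1444) (nat_lit 3) (nat_lit 148582317566811466250) (ZL.cons (nat_lit 1520) (nat_lit 6) (nat_lit 286428944479504615158) (ZL.cons (nat_lit 1596) (nat_lit 6) (nat_lit 276516968471012785456) (ZL.cons (nat_lit 1672) (nat_lit 3) (nat_lit 137854020317728519404) (ZL.cons (nat_lit 1748) (nat_lit 6) (nat_lit 265812034381841609378) (ZL.cons (nat_lit 1824) (nat_lit 6) (nat_lit 256682282718636902094) (ZL.cons (nat_lit 1900) (nat_lit 3) (nat_lit 127966637731746346119)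 (ZL.cons (nat_lit 1976) (nat_lit 6) (nat_lit 246822150922375818230) (ZL.cons (nat_lit 2052) (nat_lit 6) (nat_lit 238424668909358442916) (ZL.cons (nat_lit 2128) (nat_lit 3) (nat_lit 118865571836556902079) (ZL.cons (nat_lit 2204) (nat_lit 6) (nat_lit 229355388335299677578) (ZL.cons (nat_lit 2280) (nat_lit 6) (nat_lit 221645250803227873292) (ZL.cons (nat_lit 2356) (nat_lit 3) (nat_lit 110501548903352529814) (ZL.cons (nat_lit 2432) (nat_lit 6) (nat_lit 213318302268590324664) (ZL.cons (nat_lit 2508) (nat_lit 6) (nat_lit 206255462191840718698) (ZL.cons (nat_lit 2584) (nat_lit 3) (nat_lit 102830438041974612283) (ZL.cons (nat_lit 2660) (nat_lit 6) (nat_lit 198627594908951144256) (ZL.cons (nat_lit 2736) (nat_lit 6) (nat_lit 192176780040336835856) (ZL.cons (nat_lit 2812) (nat_lit 3) (nat_lit 95813118673922355828) (ZL.cons (nat_lit 2888) (nat_lit 6) (nat_lit 185209899982233382782) (ZL.cons (nat_lit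 2964) (nat_lit 6) (nat_lit 179340560072172794198) (ZL.cons (nat_lit 3040) (nat_lit 3) (nat_lit 89415399159932635897) (ZL.cons (nat_lit 3116) (nat_lit 6) (nat_lit 173001672969307358530) (ZL.cons (nat_lit 3192) (nat_lit 6) (nat_lit 167687980965519299798) (ZL.cons (nat_lit 3268) (nat_lit 3) (nat_lit 83607989671506167304) (ZL.cons (nat_lit 3344) (nat_lit 6) (nat_lit 162858233763293462662) (ZL.cons (nat_lit 3420) (nat_lit 6) (nat_lit 161949193601428196370) (ZL.cons (nat_lit 3496) (nat_lit 6) (nat_lit 157170105162382593364) (ZL.cons (nat_lit 3572) (nat_lit 3) (nat_lit 78366533311512146131) (ZL.cons (nat_lit 3648) (nat_lit 6) (nat_lit 152850393501792292390) (ZL.cons (nat_lit 3724) (nat_lit 6) (nat_lit 152008689648213342118) (ZL.cons (nat_lit 3800) (nat_lit 6) (nat_lit 147748066368996466234) (ZL.cons (nat_lit 3876) (nat_lit 3) (nat_lit 73671700527387908532) (ZL.cons (nat_lit 3952) (nat_lit 6) (nat_lit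 143925948647422749786) (ZL.cons (nat_lit 4028) (nat_lit 6) (nat_lit 143146593227442240276) (ZL.cons (nat_lit 4104) (nat_lit 6) (nat_lit 140519686896993978162) (ZL.cons (nat_lit 4180) (nat_lit 6) (nat_lit 139393396193902486856) (ZL.cons (nat_lit 4256) (nat_lit 3) (nat_lit 69509353044071313258) (ZL.cons (nat_lit 4332) (nat_lit 6) (nat_lit 136061568786550395298) (ZL.cons (nat_lit 4408) (nat_lit 6) (nat_lit 135339943397679553162) (ZL.cons (nat_lit 4484) (nat_lit 6) (nat_lit 133131366842972027286) (ZL.cons (nat_lit 4560) (nat_lit 6) (nat_lit 132088505080850276076) (ZL.cons (nat_lit 4636) (nat_lit 3) (nat_lit 65870784898869647140) (ZL.cons (nat_lit 4712) (nat_lit 6) (nat_lit 130585426203501733230) (ZL.cons (nat_lit 4788) (nat_lit 6) (nat_lit 129245123355036547696) (ZL.cons (nat_lit 4864) (nat_lit 6) (nat_lit 128576951698674656826) (ZL.cons (nat_lit 4940) (nat_lit 6) (nat_lit 126792948550752064442)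 (ZL.cons (nat_lit 5016) (nat_lit 6) (nat_lit 125827335808046739248) (ZL.cons (nat_lit 5092) (nat_lit 3) (nat_lit 62753049717397915087) (ZL.cons (nat_lit 5168) (nat_lit 6) (nat_lit 124717449261749214560) (ZL.cons (nat_lit 5244) (nat_lit 6) (nat_lit 123476428105762931658) (ZL.cons (nat_lit 5320) (nat_lit 6) (nat_lit 122857750646168588260) (ZL.cons (nat_lit 5396) (nat_lit 6) (nat_lit 123006326232982055240) (ZL.cons (nat_lit 5472) (nat_lit 6) (nat_lit 121510297286920811494) (ZL.cons (nat_lit 5548) (nat_lit 6) (nat_lit 120616211414045510388) (ZL.cons (nat_lit 5624) (nat_lit 3) (nat_lit 60159385163851038032) (ZL.cons (nat_lit 5700) (nat_lit 6) (nat_lit 119968263065199922384) (ZL.cons (nat_lit 5776) (nat_lit 6) (nat_lit 120638748180787984178) (ZL.cons (nat_lit 5852) (nat_lit 6) (nat_lit 121649439476131966276) (ZL.cons (nat_lit 5928) (nat_lit 6) (nat_lit 119917292205927240270) (ZL.cons (nat_lit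 6004) (nat_lit 6) (nat_lit 118768198542976978320) (ZL.cons (nat_lit 6080) (nat_lit 6) (nat_lit 118195349043352586288) (ZL.cons (nat_lit 6156) (nat_lit 3) (nat_lit 58559904887605864442) (ZL.cons (nat_lit 6232) (nat_lit 6) (nat_lit 117293363792249457920) (ZL.cons (nat_lit 6308) (nat_lit 6) (nat_lit 117815054311611757506) (ZL.cons (nat_lit 6384) (nat_lit 6) (nat_lit 118687972832672626450) (ZL.cons (nat_lit 6460) (nat_lit 6) (nat_lit 117302760845578882240) (ZL.cons (nat_lit 6536) (nat_lit 6) (nat_lit 116474903555879529364) (ZL.cons (nat_lit 6612) (nat_lit 3) (nat_lit 58099747571299285828) (ZL.cons (nat_lit 6688) (nat_lit 6) (nat_lit 115126097966333798438) (ZL.cons (nat_lit 6764) (nat_lit 6) (nat_lit 115487090321772274838) (ZL.cons (nat_lit 6840) (nat_lit 6) (nat_lit 116211214246607381574) (ZL.cons (nat_lit 6916) (nat_lit 6) (nat_lit 115147238632764546438) (ZL.cons (nat_lit 6992) (nat_lit 6)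 (nat_lit 114616822429408627886) (ZL.cons (nat_lit 7068) (nat_lit 3) (nat_lit 56726811265353388533) (ZL.cons (nat_lit 7144) (nat_lit 6) (nat_lit 113641060869107524430) (ZL.cons (nat_lit 7220) (nat_lit 6) (nat_lit 114204486630018807980) (ZL.cons (nat_lit 7296) (nat_lit 6) (nat_lit 113437952102519407168) (ZL.cons (nat_lit 7372) (nat_lit 3) (nat_lit 56591472156222223162) (ZL.cons (nat_lit 7448) (nat_lit 6) (nat_lit 112266026519823937382) (ZL.cons (nat_lit 7524) (nat_lit 6) (nat_lit 112655898263697491896) (ZL.cons (nat_lit 7600) (nat_lit 6) (nat_lit 112164772149479048792) (ZL.cons (nat_lit 7676) (nat_lit 3) (nat_lit 55676919461111027703) (ZL.cons (nat_lit 7752) (nat_lit 6) (nat_lit 111556272327694862556) (ZL.cons (nat_lit 7828) (nat_lit 3) (nat_lit 55660077001775690148) (ZL.cons (nat_lit 7904) (nat_lit 6) (nat_lit 110899092520167941424) (ZL.cons (nat_lit 7980) (nat_lit 1) (nat_lit 18446744073709551617)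 ZL.nil)))))))))))))))))))))))))))))))))))))))))))))))))))))))))))))))))))))))))))))))))))))))))))))))))))))))))

noncomputable def vl : XL := ⟨(nat_lit 0), (nat_lit 76), (nat_lit 207654895), (nat_lit 152), (nat_lit 23796180), (nat_lit 152), (nat_lit 23796180), (nat_lit 1), (nat_lit 4), (nat_lit 2), (nat_lit 5), (nat_lit 2), (nat_lit 4), (nat_lit 0), (nat_lit 0), (nat_lit 0)⟩

noncomputable def cp0 : Nat := (nat_lit 95367847362371238560487408824392336430936371165594422307708207008818088955488239492189645269245276741507678067719673869657831220697473096288313224379810339564686173299009568879534896823324659997194008377195738043986126883235549408547095500799904216431064840572615287043346610940554278755770104676313268649291078824272049491681671266952640485170160989561233565933223437810094724846286005150195200050771335898239982482796115195256735915158238184860706325497001817812651892467337196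91353539274411997085641108667201009998040794132379057991600783596068184049832565400442902714647478819019281416802414974488694612610770301176295425117290390896660147645414358898362654247478723887891663398512669034348132574100928150857855284388154672784320857671142865000815222375178453601510562304142236426181152033708821696688654696036766842589675839975287606970376410067917220593907208311463742571771534064578765009673854956303828048124975310798343301055803623872381739637785316942757273501244241453244141653290163547557479404481177758554006869461593520291641592786581478684491678244054552673849184993323940228625239692402574346750755579047010317139487533018019610653793438936543621666153091507806045153978221000700317663722806322040001929809523901814550941836111543568091350770017965349488858560572489948615731265062135159734772734131222695957789708988992674544520758512884204437025548377347095423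26032333791389396450024612565808209349109676747814333524281374005545201846119686254513093783059857007574212626871299532640209411384448278356960545451076280056950376953054605926354645007015693222220219022786258635724953829678417896172256135415691143899045306045293849675040639022639520200769863474783876927484950945807071288640920357885892132067975974409754242288906810600645531835453776847632936625741721715546891327889681725401438870144610182447861292169731367076813908985311778364718389754212529356503588715285582612161958270232874740250170430272479926438093118982358888915862223904375893547967293063904917480249433738896732196882106758056215791366232908837663645532922764870234188580793273723925967409630744939021603954203522681391486894040679543210384733737324769530490617891475213359171604792637161525297994980360523638202798813351407411383031161652230759143369867467739384636071655521279696573017515120270810908763156729917113053255895954813962536843173890772816972796452689542372491207977405461691217421778117332890581348768325893619712)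

noncomputable def cp1 : Nat := (nat_lit 10337311422551863866239842473526643146887004913753494275774119612944930018959021083123263593642116398415060845305376347726134570841890373927506971458094728947302435259287008034096681284959761631370276967002705613720438514049611247621722743764310972404312692749014562417431371400240190103179420405137396753232471291388780930987940463263991704337771757147556001888460359364129723154893694674464536619382075224522420623144656604972028624619710525339872747932796270936093872262043371247726535145006606678878836796166790452716194871487915737336541068103557064251808204462816910147811059589486151933983658059605819330818438336663439778106127746509184662900834060467914684374801181325911921752397903675015122230824072557072160886601207343429953849629542728565992995382901202974474898014241729303133146698368919605085507271308440915417796227479737046140839752945499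63283223536957915546445159699759326226296651789491410183415090045716485015112209553023159308261550126042191911216933302568388539420096344549936839184408965264276516515498175089714159810894087286690522945359467060607173011327082162729438863008253571642446361287289166553866495594716485640465105939011547493999508053254970776171288570203064265420497785803212132364560229332669994731508929339245252527827670647627495269279126646320149535767359863628924831710886733709734491768791493265799325588040781068562864635973682221772610515804448439212268981271656552454596427503967635909952592971101150593869075215914397962919339061145850314979909873092115141869225805195309274467497785751321120346224415402818655352969474122266462354449300005905785817471411118546384505338889698374486837828215687138769015234075978823454885288648392236108605432608130603932638302194728994190604764715715849334066116887812815006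033435125983543801572330776157882431230343637739747214401825132320146228174714201682251247613810064244333041428968603258858202044944633734415446542342953038200635253137308281848825611094952033309517146124047274928683970407262143719435707221058536866351051476547107195161931781820330363623781210056576780042856361456556301836615429886661015434844817915771760867054404997616594292898589262284830543837034110460027534789851146279808331078026906995548904674711570002641318072723512040659983507620789942303616395791378317087883537048505861072400637874132571090614712060491919628416974435725120287312161657496776194930148851941184536116252968790628124332624035994191003648)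

noncomputable def rc0 : Nat := (nat_lit 96682418830677302819925183151617388513852523132355016638445054011710971381267261625518462515787636441518998524637975862837461315334276311935494004651009908248752130124188862715119228653132344164703246845672053552458611454211224807273715137047732657890142588183273313566213412504460475465396196944449428110182200992505151944248023621694220180249662259367247971625871283184705504518450705014174894538662369732722336410199038012882008233028244711359039338858504931272628640742526259187635699822429137273966826748038703798202174156271491456006659284392586576349760346080730355666260026512824035704071578151052513406620809482549207275047201002529262794121200236744497765832666475379160985874512604979173201451801931434426804727130855016735949722380809470526506397431541767232876770377580737102656497342928540973582130147726476867467773844254030251164501783017319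86849205037054394419844366871692416456759928963627668163650990197369189217621627226044958594307740619028092747363058300394296757230534704591067770569306538210292274549211423297009271875072493752495831709858598228074742236224265788425701994639290852217180821529222376692857331940333663616429309571587965998014543753413776677623951229257128269309307846397066029325206467602717618036742598889030859564056305507183949893120774324223190495940606015063880393015284927474684199627933625492010580140130127195935578769720221983608778491456015547655060419587371033208631165682642380318548745380144925394412614736425707101213889814299107159994739074442800925811227140981118782410028332564531298073273900766365568976265108179870750020997642307774478790255737912096916223956491342375274767919022692740844657545595905795842315981476287290808749633289261194872531615764795587757937722047552333945249571887534445778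53767764498449682456184993161245785948177080837116839767080925724343394579137324632341218932550289999785556129373369578680315756465743952909472369877794013392666441392586621801200037169756129783972196906219323924060227267177963310401508591412072967660228096093623814492274198713454476407382042780594574141457605987854218510285698958505496677319846626459959028778258576164513172447093220956951389602802094671127901733243523607814016093919377345453337338055272325322705541028777757303332071599506928491661799378096557135902831526391445148645533916089974786451188060782446123364771057260818273660590268412029689175043520766320079407404650803584058588154858402744369152)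

noncomputable def rc1 : Nat := (nat_lit 99073135872437889366913894248862035877270612218239116533547137017358259258072615629216608561018783342614635469291889531284725530832043753988210020301091695691130479958011873251662605924685769425021970014725599584784369432111989391875046219175236996680272366317872546476369933210843578123353741111154394954733122771354985533607503741859353548390937665518913131278496423501804834045834294718714134217648533110256260908994519463679633374797222365048772091188464709370902572584097808548322535341559282851046134148462476298745114103045762026793665229454130499812450835368685947882161771270556255645312898388115879295542474656178988411191306922005622774544781731083693154761679984040976823367177665417124368661840476538590840630811645322106310673378848655907534536855647993546176807713368892678165531563608794673697611933937914412875743923726849063955346047221522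27313247551628509036700290726641205365282495852576850024274093098116244150314705994540457288741584696689749988998911383771155036517330599412521487200667790680240220709998623792098091849196709225568720489294020974497765476156071449415027199100141107573578996095463971423564403329783839260456566787405797471485683970076538253094039456296402812939431471705852026686590227015206272893858267612422282750890389576951745746675484107095341488862785169384260794108868774497545101237217481493790519406190481603949884232658717298911272812904471572623428730409287028545807626117626958958457071578030478142903237483802816131911537696164127160046740598134100452004169851754226382373167451773432743843110523850867721230272995163813969180115620748843024176956429626398673261365907466099272184139679330006979640488201435288740271204570304711861439446870455692142604125133669421366924675268377842392744985457193910738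66532048071278042293183145749623850971738651091110726523469648584237818697971347188060707699398730367486786527933901757965983648448040768965729521272536755771131464697313977575316132307773923995633427845435346688233687072129429507710269318876397572554619167036963450058089841947153197272848731179194536880226135144413045852554433657599755166633947043686677487388423306372644016261231575069360258112136897729610519490784548908622688938968343654261949504176254894706983232719639616745899672787867720658341133982797656982660164365834842587168145464741878470726408766031607582808620980089652952731070883562782940684239791938576783875237464295641799627517146728746713088)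

noncomputable def rc2 : Nat := (nat_lit 10183926095928557837856855281704312263623498674986574120074659223315915418274827228356441837362639021243200837184916585047388040398749583451278685832164595954928749370056004309601453702843923974013307021104019271732343962226745880056410263182407023940370729453478119438423560102042168130877082582520440384189177856453746406846699462426055905602220121239328009811707835974346456277241858256637091454279822781951768028273291440585924759411777780847054024431495411929741450181399232441891666491824866754514421434560909357303196764124363563943122069674379868679597958844680606080679533898804307016226098393767339743309955033417029851135607098395664734643710999447973560675374576794834024108023358568105250574996879387973501136391316965999483172615808268908217193871655627633160853502466553207749335343188054599967008171141341205115710671005668880517604837801444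01170566170398944140070577445714237648265935336972235152920850238801274798553854330806080229107512358970984605384645471600535402830012005024285225786718833087888282645717467427072530297594682275813390816915064359274287213085791259421328705315579208324575807350432927582326875263706536538703516815452714436506485399796936897243894704214708724039729711152427219701502584760165016635186290314275285388509422240854299857356706823587172694207687077569364275261577433449647269045575389421549470830562629143724660454080674822011206660852150537129488500832139056954207945058604074602326608775685622810420094642925916493767951971664097711508575751208363322567722112395237280581951975040217422353212908853730416833385174729934092525315278900908004138038045742872221586535518414014107861238265484148677478502577604925087373368128478383947665928064254677284016546368131379851712304423357674354213406832754242708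779734808033656011459906795438458483057533055709814961244856429463691204028175634625012706828808279620511728416496473491592245751283857862234577701959043017477883040250978896427245935900341900111298378858581251708848020537102570541022234439357117450216939065976608698139796305404740458544994259368924636142784029098839642541945025944381097969208628158583617907314794256417445858694414336413649536910528521098929656398994896792615716188813094883008714738814667169929951990065136542520252495000329601038159332067487029815433153673647077697254916421227731467663712794949135754955236774027926091815765970277739213568585578581039776667289941353925908436161116469922365440)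

noncomputable def rc3 : Nat := (nat_lit 10337311422551863866239842473526643146887004913753494275774119612944930018959021083123263593642116398415060845305376347726134570841890373927506971458094728947302435259287008034096681284959761631370276967002705613720438514049611247621722743764310972404312692749014562417431371400240190103179420405137396753232471291388780930987940463263991704337771757147556001888460359364129723154893694674464536619382075224522420623144656604972028624619710525339872747932796270936093872262043371247726535145006606678878836796166790452716194871487915737336541068103557064251808204462816910147811059589486151933983658059605819330818438336663439778106127746509184662900834060467914684374801181325911921752397903675015122230824072557072160886601207343429953849629542728565992995382901202974474898014241729303133146698368919605085507271308440915417796227479737046140839752945499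63283223536957915546445159699759326226296651789491410183415090045716485015112209553023159308261550126042191911216933302568388539420096344549936839184408965264276516515498175089714159810894087286690522945359467060607173011327082162729438863008253571642446361287289166553866495594716485640465105939011547493999508053254970776171288570203064265420497785803212132364560229332669994731508929339245252527827670647627495269279126646320149535767359863628924831710886733709734491768791493265799325588040781068562864635973682221772610515804448439212268981271656552454596427503967635909952592971101150593869075215914397962919339061145850314979909873092115141869225805195309274467497785751321120346224415402818655352969474122266462354449300005905785817471411118546384505338889698374486837828215687138769015234075978823454885288648392236108605432608130603932638302194728994190604764715715849334066116887812815006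033435125983543801572330776157882431230343637739747214401825132320146228174714201682251247613810064244333041428968603258858202044944633734415446542342953038200635253137308281848825611094952033309517146124047274928683970407262143719435707221058536866351051476547107195161931781820330363623781210056576780042856361456556301836615429886661015434844817915771760867054404997616594292898589262284830543837034110460027534789851146279808331078026906995548904674711570002641318072723512040659983507620789942303616395791378317087883537048505861072400637874132571090614712060491919628416974435725120287312161657496776194930148851941184536116252968790628124332624035994191003648)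

end Vale.Agent.Lib.P154.PChain.BC.S2
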