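import Vale.Agent.Lib.P154.PChain.BC.R2_0

set_option linter.all false

namespace Vale.Agent.Lib.P154.PChain.BC.S3

open Vale.Agent.Lib.P154.Chain

noncomputable def pc0 : PT := (PT.nd (nat_lit 9951240) (PT.nd (nat_lit 9763806) (PT.nd (nat_lit 9639006) (PT.nd (nat_lit 9576606) (PT.nd (nat_lit 9576528) (PT.nd (nat_lit 9514128) PT.nil (PT.lf (nat_lit 76) (nat_lit 3) (nat_lit 1) (nat_lit 1) (nat_lit 224) (nat_lit 152) (nat_lit 224))) (PT.lf (nat_lit 152) (nat_lit 6) (nat_lit 2) (nat_lit 3) (nat_lit 223) (nat_lit 153) (nat_lit 224))) (PT.nd (nat_lit 62322) (PT.lf (nat_lit 152) (nat_lit 6) (nat_lit 2) (nat_lit 1) (nat_lit 224) (nat_lit 153) (nat_lit 223)) (PT.lf (nat_lit 228) (nat_lit 6) (nat_lit 3) (nat_lit 3) (nat_lit 222) (nat_lit 154) (nat_lit 224)))) (PT.nd (nat_lit 62400) (PT.nd (nat_lit 78) (PT.lf (nat_lit 304) (nat_lit 3) (nat_lit 4) (nat_lit 1) (nat_lit 223) (nat_lit 154) (nat_lit 223)) (PT.lf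 (nat_lit 228) (nat_lit 6) (nat_lit 3) (nat_lit 1) (nat_lit 224) (nat_lit 154) (nat_lit 222))) (PT.nd (nat_lit 78) (PT.lf (nat_lit 380) (nat_lit 6) (nat_lit 5) (nat_lit 3) (nat_lit 222) (nat_lit 155) (nat_lit 223)) (PT.lf (nat_lit 380) (nat_lit 6) (nat_lit 5) (nat_lit 1) (nat_lit 223) (nat_lit 155) (nat_lit 222))))) (PT.nd (nat_lit 62556) (PT.nd (nat_lit 156) (PT.nd (nat_lit 78) (PT.lf (nat_lit 456) (nat_lit 6) (nat_lit 6) (nat_lit 3) (nat_lit 221) (nat_lit 156) (nat_lit 223)) (PT.lf (nat_lit 532) (nat_lit 3) (nat_lit 7) (nat_lit 1) (nat_lit 222) (nat_lit 156) (nat_lit 222))) (PT.nd (nat_lit 62322) (PT.lf (nat_lit 456) (nat_lit 6) (nat_lit 6) (nat_lit 1) (nat_lit 223) (nat_lit 156) (nat_lit 221)) (PT.lf (nat_lit 608) (nat_lit 6) (nat_lit 8) (nat_lit 3) (nat_lit 221) (nat_lit 157) (nat_lit 222)))) (PT.nd (nat_lit 62400) (PT.nd (nat_lit 62322) (PT.lf (nat_lit 608) (nat_lit 6) (nat_lit 8) (nat_lit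 1) (nat_lit 222) (nat_lit 157) (nat_lit 221)) (PT.lf (nat_lit 684) (nat_lit 6) (nat_lit 9) (nat_lit 3) (nat_lit 220) (nat_lit 158) (nat_lit 222))) (PT.nd (nat_lit 78) (PT.lf (nat_lit 760) (nat_lit 3) (nat_lit 10) (nat_lit 1) (nat_lit 221) (nat_lit 158) (nat_lit 221)) (PT.nd (nat_lit 62322) (PT.lf (nat_lit 684) (nat_lit 6) (nat_lit 9) (nat_lit 1) (nat_lit 222) (nat_lit 158) (nat_lit 220)) (PT.lf (nat_lit 836) (nat_lit 6) (nat_lit 11) (nat_lit 3) (nat_lit 220) (nat_lit 159) (nat_lit 221))))))) (PT.nd (nat_lit 187356) (PT.nd (nat_lit 124800) (PT.nd (nat_lit 62400) (PT.nd (nat_lit 62322) (PT.lf (nat_lit 836) (nat_lit 6) (nat_lit 11) (nat_lit 1) (nat_lit 221) (nat_lit 159) (nat_lit 220)) (PT.lf (nat_lit 912) (nat_lit 6) (nat_lit 12) (nat_lit 3) (nat_lit 219) (nat_lit 160) (nat_lit 221))) (PT.nd (nat_lit 78) (PT.lf (nat_lit 988) (nat_lit 3) (nat_lit 13) (nat_lit 1) (nat_lit 220) (nat_lit 160) (nat_lit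 220)) (PT.lf (nat_lit 912) (nat_lit 6) (nat_lit 12) (nat_lit 1) (nat_lit 221) (nat_lit 160) (nat_lit 219)))) (PT.nd (nat_lit 62400) (PT.nd (nat_lit 78) (PT.lf (nat_lit 1064) (nat_lit 6) (nat_lit 14) (nat_lit 3) (nat_lit 219) (nat_lit 161) (nat_lit 220)) (PT.lf (nat_lit 1064) (nat_lit 6) (nat_lit 14) (nat_lit 1) (nat_lit 220) (nat_lit 161) (nat_lit 219))) (PT.nd (nat_lit 78) (PT.lf (nat_lit 1140) (nat_lit 6) (nat_lit 15) (nat_lit 3) (nat_lit 218) (nat_lit 162) (nat_lit 220)) (PT.lf (nat_lit 1216) (nat_lit 3) (nat_lit 16) (nat_lit 1) (nat_lit 219) (nat_lit 162) (nat_lit 219))))) (PT.nd (nat_lit 124800) (PT.nd (nat_lit 62400) (PT.nd (nat_lit 62322) (PT.lf (nat_lit 1140) (nat_lit 6) (nat_lit 15) (nat_lit 1) (nat_lit 220) (nat_lit 162) (nat_lit 218)) (PT.lf (nat_lit 1292) (nat_lit 6) (nat_lit 17) (nat_lit 3) (nat_lit 218) (nat_lit 163) (nat_lit 219))) (PT.nd (nat_lit 62322) (PT.lf (nat_lit 1292)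 (nat_lit 6) (nat_lit 17) (nat_lit 1) (nat_lit 219) (nat_lit 163) (nat_lit 218)) (PT.lf (nat_lit 1368) (nat_lit 6) (nat_lit 18) (nat_lit 3) (nat_lit 217) (nat_lit 164) (nat_lit 219)))) (PT.nd (nat_lit 62400) (PT.nd (nat_lit 78) (PT.lf (nat_lit 1444) (nat_lit 3) (nat_lit 19) (nat_lit 1) (nat_lit 218) (nat_lit 164) (nat_lit 218)) (PT.lf (nat_lit 1368) (nat_lit 6) (nat_lit 18) (nat_lit 1) (nat_lit 219) (nat_lit 164) (nat_lit 217))) (PT.nd (nat_lit 78) (PT.lf (nat_lit 1520) (nat_lit 6) (nat_lit 20) (nat_lit 3) (nat_lit 217) (nat_lit 165) (nat_lit 218)) (PT.nd (nat_lit 62322) (PT.lf (nat_lit 1520) (nat_lit 6) (nat_lit 20) (nat_lit 1) (nat_lit 218) (nat_lit 165) (nat_lit 217)) (PT.lf (nat_lit 1596) (nat_lit 6) (nat_lit 21) (nat_lit 3) (nat_lit 216) (nat_lit 166) (nat_lit 218))))))))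
noncomputable def pc1 : PT := (PT.nd (nat_lit 437034) (PT.nd (nat_lit 187356) (PT.nd (nat_lit 124800) (PT.nd (nat_lit 62400) (PT.nd (nat_lit 78) (PT.lf (nat_lit 1672) (nat_lit 3) (nat_lit 22) (nat_lit 1) (nat_lit 217) (nat_lit 166) (nat_lit 217)) (PT.lf (nat_lit 1596) (nat_lit 6) (nat_lit 21) (nat_lit 1) (nat_lit 218) (nat_lit 166) (nat_lit 216))) (PT.nd (nat_lit 78) (PT.lf (nat_lit 1748) (nat_lit 6) (nat_lit 23) (nat_lit 3) (nat_lit 216) (nat_lit 167) (nat_lit 217)) (PT.lf (nat_lit 1748) (nat_lit 6) (nat_lit 23) (nat_lit 1) (nat_lit 217) (nat_lit 167) (nat_lit 216)))) (PT.nd (nat_lit 156) (PT.nd (nat_lit 78) (PT.lf (nat_lit 1824) (nat_lit 6) (nat_lit 24) (nat_lit 3) (nat_lit 215) (nat_lit 168) (nat_lit 217)) (PT.lf (nat_lit 1900) (nat_lit 3) (nat_lit 25) (nat_lit 1) (nat_lit 216) (nat_lit 168) (nat_lit 216))) (PT.nd (nat_lit 62322) (PT.lf (nat_lit 1824) (nat_lit 6) (nat_lit 24) (nat_lit 1)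 (nat_lit 217) (nat_lit 168) (nat_lit 215)) (PT.lf (nat_lit 1976) (nat_lit 6) (nat_lit 26) (nat_lit 3) (nat_lit 215) (nat_lit 169) (nat_lit 216))))) (PT.nd (nat_lit 124800) (PT.nd (nat_lit 62400) (PT.nd (nat_lit 62322) (PT.lf (nat_lit 1976) (nat_lit 6) (nat_lit 26) (nat_lit 1) (nat_lit 216) (nat_lit 169) (nat_lit 215)) (PT.lf (nat_lit 2052) (nat_lit 6) (nat_lit 27) (nat_lit 3) (nat_lit 214) (nat_lit 170) (nat_lit 216))) (PT.nd (nat_lit 78) (PT.lf (nat_lit 2128) (nat_lit 3) (nat_lit 28) (nat_lit 1) (nat_lit 215) (nat_lit 170) (nat_lit 215)) (PT.lf (nat_lit 2052) (nat_lit 6) (nat_lit 27) (nat_lit 1) (nat_lit 216) (nat_lit 170) (nat_lit 214)))) (PT.nd (nat_lit 62400) (PT.nd (nat_lit 78) (PT.lf (nat_lit 2204) (nat_lit 6) (nat_lit 29) (nat_lit 3) (nat_lit 214) (nat_lit 171) (nat_lit 215)) (PT.lf (nat_lit 2204) (nat_lit 6) (nat_lit 29) (nat_lit 1) (nat_lit 215) (nat_lit 171) (nat_lit 214))) (PT.nd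 (nat_lit 78) (PT.lf (nat_lit 2280) (nat_lit 6) (nat_lit 30) (nat_lit 3) (nat_lit 213) (nat_lit 172) (nat_lit 215)) (PT.nd (nat_lit 78) (PT.lf (nat_lit 2356) (nat_lit 3) (nat_lit 31) (nat_lit 1) (nat_lit 214) (nat_lit 172) (nat_lit 214)) (PT.lf (nat_lit 2280) (nat_lit 6) (nat_lit 30) (nat_lit 1) (nat_lit 215) (nat_lit 172) (nat_lit 213))))))) (PT.nd (nat_lit 187356) (PT.nd (nat_lit 62556) (PT.nd (nat_lit 62400) (PT.nd (nat_lit 78) (PT.lf (nat_lit 2432) (nat_lit 6) (nat_lit 32) (nat_lit 3) (nat_lit 213) (nat_lit 173) (nat_lit 214)) (PT.lf (nat_lit 2432) (nat_lit 6) (nat_lit 32) (nat_lit 1) (nat_lit 214) (nat_lit 173) (nat_lit 213))) (PT.nd (nat_lit 78) (PT.lf (nat_lit 2508) (nat_lit 6) (nat_lit 33) (nat_lit 3) (nat_lit 212) (nat_lit 174) (nat_lit 214)) (PT.lf (nat_lit 2584) (nat_lit 3) (nat_lit 34) (nat_lit 1) (nat_lit 213) (nat_lit 174) (nat_lit 213)))) (PT.nd (nat_lit 62400) (PT.nd (nat_lit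 62322) (PT.lf (nat_lit 2508) (nat_lit 6) (nat_lit 33) (nat_lit 1) (nat_lit 214) (nat_lit 174) (nat_lit 212)) (PT.lf (nat_lit 2660) (nat_lit 6) (nat_lit 35) (nat_lit 3) (nat_lit 212) (nat_lit 175) (nat_lit 213))) (PT.nd (nat_lit 62322) (PT.lf (nat_lit 2660) (nat_lit 6) (nat_lit 35) (nat_lit 1) (nat_lit 213) (nat_lit 175) (nat_lit 212)) (PT.lf (nat_lit 2736) (nat_lit 6) (nat_lit 36) (nat_lit 3) (nat_lit 211) (nat_lit 176) (nat_lit 213))))) (PT.nd (nat_lit 124800) (PT.nd (nat_lit 62400) (PT.nd (nat_lit 78) (PT.lf (nat_lit 2812) (nat_lit 3) (nat_lit 37) (nat_lit 1) (nat_lit 212) (nat_lit 176) (nat_lit 212)) (PT.lf (nat_lit 2736) (nat_lit 6) (nat_lit 36) (nat_lit 1) (nat_lit 213) (nat_lit 176) (nat_lit 211))) (PT.nd (nat_lit 78) (PT.lf (nat_lit 2888) (nat_lit 6) (nat_lit 38) (nat_lit 3) (nat_lit 211) (nat_lit 177) (nat_lit 212)) (PT.lf (nat_lit 2888) (nat_lit 6) (nat_lit 38) (nat_lit 1) (nat_lit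 212) (nat_lit 177) (nat_lit 211)))) (PT.nd (nat_lit 156) (PT.nd (nat_lit 78) (PT.lf (nat_lit 2964) (nat_lit 6) (nat_lit 39) (nat_lit 3) (nat_lit 210) (nat_lit 178) (nat_lit 212)) (PT.lf (nat_lit 3040) (nat_lit 3) (nat_lit 40) (nat_lit 1) (nat_lit 211) (nat_lit 178) (nat_lit 211))) (PT.nd (nat_lit 62322) (PT.lf (nat_lit 2964) (nat_lit 6) (nat_lit 39) (nat_lit 1) (nat_lit 212) (nat_lit 178) (nat_lit 210)) (PT.nd (nat_lit 78) (PT.lf (nat_lit 3116) (nat_lit 6) (nat_lit 41) (nat_lit 3) (nat_lit 210) (nat_lit 179) (nat_lit 211)) (PT.lf (nat_lit 3116) (nat_lit 6) (nat_lit 41) (nat_lit 1) (nat_lit 211) (nat_lit 179) (nat_lit 210))))))))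
noncomputable def pc2 : PT := (PT.nd (nat_lit 312156) (PT.nd (nat_lit 124956) (PT.nd (nat_lit 62478) (PT.nd (nat_lit 156) (PT.nd (nat_lit 78) (PT.lf (nat_lit 3192) (nat_lit 6) (nat_lit 42) (nat_lit 3) (nat_lit 209) (nat_lit 180) (nat_lit 211)) (PT.lf (nat_lit 3268) (nat_lit 3) (nat_lit 43) (nat_lit 1) (nat_lit 210) (nat_lit 180) (nat_lit 210))) (PT.nd (nat_lit 62244) (PT.lf (nat_lit 3192) (nat_lit 6) (nat_lit 42) (nat_lit 1) (nat_lit 211) (nat_lit 180) (nat_lit 209)) (PT.lf (nat_lit 3344) (nat_lit 6) (nat_lit 44) (nat_lit 3) (nat_lit 208) (nat_lit 181) (nat_lit 211)))) (PT.nd (nat_lit 156) (PT.nd (nat_lit 78) (PT.lf (nat_lit 3420) (nat_lit 6) (nat_lit 45) (nat_lit 3) (nat_lit 209) (nat_lit 181) (nat_lit 210)) (PT.lf (nat_lit 3420) (nat_lit 6) (nat_lit 45) (nat_lit 1) (nat_lit 210) (nat_lit 181) (nat_lit 209))) (PT.nd (nat_lit 62244) (PT.lf (nat_lit 3344) (nat_lit 6) (nat_lit 44) (nat_lit 1)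 (nat_lit 211) (nat_lit 181) (nat_lit 208)) (PT.lf (nat_lit 3496) (nat_lit 6) (nat_lit 46) (nat_lit 3) (nat_lit 208) (nat_lit 182) (nat_lit 210))))) (PT.nd (nat_lit 62478) (PT.nd (nat_lit 62322) (PT.nd (nat_lit 78) (PT.lf (nat_lit 3572) (nat_lit 3) (nat_lit 47) (nat_lit 1) (nat_lit 209) (nat_lit 182) (nat_lit 209)) (PT.lf (nat_lit 3496) (nat_lit 6) (nat_lit 46) (nat_lit 1) (nat_lit 210) (nat_lit 182) (nat_lit 208))) (PT.nd (nat_lit 78) (PT.lf (nat_lit 3648) (nat_lit 6) (nat_lit 48) (nat_lit 3) (nat_lit 207) (nat_lit 183) (nat_lit 210)) (PT.lf (nat_lit 3724) (nat_lit 6) (nat_lit 49) (nat_lit 3) (nat_lit 208) (nat_lit 183) (nat_lit 209)))) (PT.nd (nat_lit 62322) (PT.nd (nat_lit 78) (PT.lf (nat_lit 3724) (nat_lit 6) (nat_lit 49) (nat_lit 1) (nat_lit 209) (nat_lit 183) (nat_lit 208)) (PT.lf (nat_lit 3648) (nat_lit 6) (nat_lit 48) (nat_lit 1) (nat_lit 210) (nat_lit 183) (nat_lit 207))) (PT.nd (nat_lit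 78) (PT.lf (nat_lit 3800) (nat_lit 6) (nat_lit 50) (nat_lit 3) (nat_lit 207) (nat_lit 184) (nat_lit 209)) (PT.nd (nat_lit 78) (PT.lf (nat_lit 3876) (nat_lit 3) (nat_lit 51) (nat_lit 1) (nat_lit 208) (nat_lit 184) (nat_lit 208)) (PT.lf (nat_lit 3800) (nat_lit 6) (nat_lit 50) (nat_lit 1) (nat_lit 209) (nat_lit 184) (nat_lit 207))))))) (PT.nd (nat_lit 62712) (PT.nd (nat_lit 62400) (PT.nd (nat_lit 156) (PT.nd (nat_lit 78) (PT.lf (nat_lit 3952) (nat_lit 6) (nat_lit 52) (nat_lit 3) (nat_lit 206) (nat_lit 185) (nat_lit 209)) (PT.lf (nat_lit 4028) (nat_lit 6) (nat_lit 53) (nat_lit 3) (nat_lit 207) (nat_lit 185) (nat_lit 208))) (PT.nd (nat_lit 78) (PT.lf (nat_lit 4028) (nat_lit 6) (nat_lit 53) (nat_lit 1) (nat_lit 208) (nat_lit 185) (nat_lit 207)) (PT.lf (nat_lit 3952) (nat_lit 6) (nat_lit 52) (nat_lit 1) (nat_lit 209) (nat_lit 185) (nat_lit 206)))) (PT.nd (nat_lit 156) (PT.nd (nat_lit 78) (PT.lf (nat_lit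 4104) (nat_lit 6) (nat_lit 54) (nat_lit 3) (nat_lit 205) (nat_lit 186) (nat_lit 209)) (PT.lf (nat_lit 4180) (nat_lit 6) (nat_lit 55) (nat_lit 3) (nat_lit 206) (nat_lit 186) (nat_lit 208))) (PT.nd (nat_lit 78) (PT.lf (nat_lit 4256) (nat_lit 3) (nat_lit 56) (nat_lit 1) (nat_lit 207) (nat_lit 186) (nat_lit 207)) (PT.lf (nat_lit 4180) (nat_lit 6) (nat_lit 55) (nat_lit 1) (nat_lit 208) (nat_lit 186) (nat_lit 206))))) (PT.nd (nat_lit 62400) (PT.nd (nat_lit 62244) (PT.nd (nat_lit 62166) (PT.lf (nat_lit 4104) (nat_lit 6) (nat_lit 54) (nat_lit 1) (nat_lit 209) (nat_lit 186) (nat_lit 205)) (PT.lf (nat_lit 4332) (nat_lit 6) (nat_lit 57) (nat_lit 3) (nat_lit 205) (nat_lit 187) (nat_lit 208))) (PT.nd (nat_lit 78) (PT.lf (nat_lit 4408) (nat_lit 6) (nat_lit 58) (nat_lit 3) (nat_lit 206) (nat_lit 187) (nat_lit 207)) (PT.lf (nat_lit 4408) (nat_lit 6) (nat_lit 58) (nat_lit 1) (nat_lit 207) (nat_lit 187) (nat_lit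 206)))) (PT.nd (nat_lit 62244) (PT.nd (nat_lit 62166) (PT.lf (nat_lit 4332) (nat_lit 6) (nat_lit 57) (nat_lit 1) (nat_lit 208) (nat_lit 187) (nat_lit 205)) (PT.lf (nat_lit 4484) (nat_lit 6) (nat_lit 59) (nat_lit 3) (nat_lit 204) (nat_lit 188) (nat_lit 208))) (PT.nd (nat_lit 78) (PT.lf (nat_lit 4560) (nat_lit 6) (nat_lit 60) (nat_lit 3) (nat_lit 205) (nat_lit 188) (nat_lit 207)) (PT.nd (nat_lit 78) (PT.lf (nat_lit 4636) (nat_lit 3) (nat_lit 61) (nat_lit 1) (nat_lit 206) (nat_lit 188) (nat_lit 206)) (PT.lf (nat_lit 4560) (nat_lit 6) (nat_lit 60) (nat_lit 1) (nat_lit 207) (nat_lit 188) (nat_lit 205))))))))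
noncomputable def pc3 : PT := (PT.nd (nat_lit 187356) (PT.nd (nat_lit 124644) (PT.nd (nat_lit 62322) (PT.nd (nat_lit 62166) (PT.nd (nat_lit 62088) (PT.lf (nat_lit 4484) (nat_lit 6) (nat_lit 59) (nat_lit 1) (nat_lit 208) (nat_lit 188) (nat_lit 204)) (PT.lf (nat_lit 4712) (nat_lit 6) (nat_lit 62) (nat_lit 3) (nat_lit 203) (nat_lit 189) (nat_lit 208))) (PT.nd (nat_lit 78) (PT.lf (nat_lit 4788) (nat_lit 6) (nat_lit 63) (nat_lit 3) (nat_lit 204) (nat_lit 189) (nat_lit 207)) (PT.lf (nat_lit 4864) (nat_lit 6) (nat_lit 64) (nat_lit 3) (nat_lit 205) (nat_lit 189) (nat_lit 206)))) (PT.nd (nat_lit 156) (PT.nd (nat_lit 78) (PT.lf (nat_lit 4864) (nat_lit 6) (nat_lit 64) (nat_lit 1) (nat_lit 206) (nat_lit 189) (nat_lit 205)) (PT.lf (nat_lit 4788) (nat_lit 6) (nat_lit 63) (nat_lit 1) (nat_lit 207) (nat_lit 189) (nat_lit 204))) (PT.nd (nat_lit 62088) (PT.lf (nat_lit 4712) (nat_lit 6) (nat_lit 62) (nat_lit 1)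 (nat_lit 208) (nat_lit 189) (nat_lit 203)) (PT.lf (nat_lit 4940) (nat_lit 6) (nat_lit 65) (nat_lit 3) (nat_lit 203) (nat_lit 190) (nat_lit 207))))) (PT.nd (nat_lit 62322) (PT.nd (nat_lit 156) (PT.nd (nat_lit 78) (PT.lf (nat_lit 5016) (nat_lit 6) (nat_lit 66) (nat_lit 3) (nat_lit 204) (nat_lit 190) (nat_lit 206)) (PT.lf (nat_lit 5092) (nat_lit 3) (nat_lit 67) (nat_lit 1) (nat_lit 205) (nat_lit 190) (nat_lit 205))) (PT.nd (nat_lit 78) (PT.lf (nat_lit 5016) (nat_lit 6) (nat_lit 66) (nat_lit 1) (nat_lit 206) (nat_lit 190) (nat_lit 204)) (PT.lf (nat_lit 4940) (nat_lit 6) (nat_lit 65) (nat_lit 1) (nat_lit 207) (nat_lit 190) (nat_lit 203)))) (PT.nd (nat_lit 156) (PT.nd (nat_lit 78) (PT.lf (nat_lit 5168) (nat_lit 6) (nat_lit 68) (nat_lit 3) (nat_lit 202) (nat_lit 191) (nat_lit 207)) (PT.lf (nat_lit 5244) (nat_lit 6) (nat_lit 69) (nat_lit 3) (nat_lit 203) (nat_lit 191) (nat_lit 206))) (PT.nd (nat_lit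 78) (PT.lf (nat_lit 5320) (nat_lit 6) (nat_lit 70) (nat_lit 3) (nat_lit 204) (nat_lit 191) (nat_lit 205)) (PT.nd (nat_lit 78) (PT.lf (nat_lit 5320) (nat_lit 6) (nat_lit 70) (nat_lit 1) (nat_lit 205) (nat_lit 191) (nat_lit 204)) (PT.lf (nat_lit 5244) (nat_lit 6) (nat_lit 69) (nat_lit 1) (nat_lit 206) (nat_lit 191) (nat_lit 203))))))) (PT.nd (nat_lit 124410) (PT.nd (nat_lit 62244) (PT.nd (nat_lit 62088) (PT.nd (nat_lit 62010) (PT.lf (nat_lit 5168) (nat_lit 6) (nat_lit 68) (nat_lit 1) (nat_lit 207) (nat_lit 191) (nat_lit 202)) (PT.lf (nat_lit 5396) (nat_lit 6) (nat_lit 71) (nat_lit 3) (nat_lit 201) (nat_lit 192) (nat_lit 207))) (PT.nd (nat_lit 78) (PT.lf (nat_lit 5472) (nat_lit 6) (nat_lit 72) (nat_lit 3) (nat_lit 202) (nat_lit 192) (nat_lit 206)) (PT.lf (nat_lit 5548) (nat_lit 6) (nat_lit 73) (nat_lit 3) (nat_lit 203) (nat_lit 192) (nat_lit 205)))) (PT.nd (nat_lit 156) (PT.nd (nat_lit 78) (PT.lf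 (nat_lit 5624) (nat_lit 3) (nat_lit 74) (nat_lit 1) (nat_lit 204) (nat_lit 192) (nat_lit 204)) (PT.lf (nat_lit 5548) (nat_lit 6) (nat_lit 73) (nat_lit 1) (nat_lit 205) (nat_lit 192) (nat_lit 203))) (PT.nd (nat_lit 78) (PT.lf (nat_lit 5472) (nat_lit 6) (nat_lit 72) (nat_lit 1) (nat_lit 206) (nat_lit 192) (nat_lit 202)) (PT.lf (nat_lit 5396) (nat_lit 6) (nat_lit 71) (nat_lit 1) (nat_lit 207) (nat_lit 192) (nat_lit 201))))) (PT.nd (nat_lit 312) (PT.nd (nat_lit 156) (PT.nd (nat_lit 78) (PT.lf (nat_lit 5852) (nat_lit 6) (nat_lit 77) (nat_lit 3) (nat_lit 200) (nat_lit 193) (nat_lit 207)) (PT.lf (nat_lit 5928) (nat_lit 6) (nat_lit 78) (nat_lit 3) (nat_lit 201) (nat_lit 193) (nat_lit 206))) (PT.nd (nat_lit 78) (PT.lf (nat_lit 6004) (nat_lit 6) (nat_lit 79) (nat_lit 3) (nat_lit 202) (nat_lit 193) (nat_lit 205)) (PT.lf (nat_lit 6080) (nat_lit 6) (nat_lit 80) (nat_lit 3) (nat_lit 203) (nat_lit 193) (nat_lit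 204)))) (PT.nd (nat_lit 156) (PT.nd (nat_lit 78) (PT.lf (nat_lit 6080) (nat_lit 6) (nat_lit 80) (nat_lit 1) (nat_lit 204) (nat_lit 193) (nat_lit 203)) (PT.lf (nat_lit 6004) (nat_lit 6) (nat_lit 79) (nat_lit 1) (nat_lit 205) (nat_lit 193) (nat_lit 202))) (PT.nd (nat_lit 78) (PT.lf (nat_lit 5928) (nat_lit 6) (nat_lit 78) (nat_lit 1) (nat_lit 206) (nat_lit 193) (nat_lit 201)) (PT.nd (nat_lit 61854) (PT.lf (nat_lit 5852) (nat_lit 6) (nat_lit 77) (nat_lit 1) (nat_lit 207) (nat_lit 193) (nat_lit 200)) (PT.lf (nat_lit 5776) (nat_lit 6) (nat_lit 76) (nat_lit 3) (nat_lit 199) (nat_lit 194) (nat_lit 207))))))))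
noncomputable def pc4 : PT := (PT.nd (nat_lit 63024) (PT.nd (nat_lit 62322) (PT.nd (nat_lit 312) (PT.nd (nat_lit 156) (PT.nd (nat_lit 78) (PT.lf (nat_lit 6384) (nat_lit 6) (nat_lit 84) (nat_lit 3) (nat_lit 200) (nat_lit 194) (nat_lit 206)) (PT.lf (nat_lit 6460) (nat_lit 6) (nat_lit 85) (nat_lit 3) (nat_lit 201) (nat_lit 194) (nat_lit 205))) (PT.nd (nat_lit 78) (PT.lf (nat_lit 6536) (nat_lit 6) (nat_lit 86) (nat_lit 3) (nat_lit 202) (nat_lit 194) (nat_lit 204)) (PT.lf (nat_lit 6612) (nat_lit 3) (nat_lit 87) (nat_lit 1) (nat_lit 203) (nat_lit 194) (nat_lit 203)))) (PT.nd (nat_lit 156) (PT.nd (nat_lit 78) (PT.lf (nat_lit 6536) (nat_lit 6) (nat_lit 86) (nat_lit 1) (nat_lit 204) (nat_lit 194) (nat_lit 202)) (PT.lf (nat_lit 6460) (nat_lit 6) (nat_lit 85) (nat_lit 1) (nat_lit 205) (nat_lit 194) (nat_lit 201))) (PT.nd (nat_lit 78) (PT.lf (nat_lit 6384) (nat_lit 6) (nat_lit 84) (nat_lit 1) (nat_lit 206)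 (nat_lit 194) (nat_lit 200)) (PT.lf (nat_lit 5776) (nat_lit 6) (nat_lit 76) (nat_lit 1) (nat_lit 207) (nat_lit 194) (nat_lit 199))))) (PT.nd (nat_lit 312) (PT.nd (nat_lit 156) (PT.nd (nat_lit 78) (PT.lf (nat_lit 5700) (nat_lit 6) (nat_lit 75) (nat_lit 3) (nat_lit 198) (nat_lit 195) (nat_lit 207)) (PT.lf (nat_lit 6308) (nat_lit 6) (nat_lit 83) (nat_lit 3) (nat_lit 199) (nat_lit 195) (nat_lit 206))) (PT.nd (nat_lit 78) (PT.lf (nat_lit 6840) (nat_lit 6) (nat_lit 90) (nat_lit 3) (nat_lit 200) (nat_lit 195) (nat_lit 205)) (PT.lf (nat_lit 6916) (nat_lit 6) (nat_lit 91) (nat_lit 3) (nat_lit 201) (nat_lit 195) (nat_lit 204)))) (PT.nd (nat_lit 156) (PT.nd (nat_lit 78) (PT.lf (nat_lit 6992) (nat_lit 6) (nat_lit 92) (nat_lit 3) (nat_lit 202) (nat_lit 195) (nat_lit 203)) (PT.lf (nat_lit 6992) (nat_lit 6) (nat_lit 92) (nat_lit 1) (nat_lit 203) (nat_lit 195) (nat_lit 202))) (PT.nd (nat_lit 78) (PT.lf (nat_lit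 6916) (nat_lit 6) (nat_lit 91) (nat_lit 1) (nat_lit 204) (nat_lit 195) (nat_lit 201)) (PT.nd (nat_lit 78) (PT.lf (nat_lit 6840) (nat_lit 6) (nat_lit 90) (nat_lit 1) (nat_lit 205) (nat_lit 195) (nat_lit 200)) (PT.lf (nat_lit 6308) (nat_lit 6) (nat_lit 83) (nat_lit 1) (nat_lit 206) (nat_lit 195) (nat_lit 199))))))) (PT.nd (nat_lit 62322) (PT.nd (nat_lit 62010) (PT.nd (nat_lit 61854) (PT.nd (nat_lit 61776) (PT.lf (nat_lit 5700) (nat_lit 6) (nat_lit 75) (nat_lit 1) (nat_lit 207) (nat_lit 195) (nat_lit 198)) (PT.lf (nat_lit 6232) (nat_lit 6) (nat_lit 82) (nat_lit 3) (nat_lit 198) (nat_lit 196) (nat_lit 206))) (PT.nd (nat_lit 78) (PT.lf (nat_lit 6764) (nat_lit 6) (nat_lit 89) (nat_lit 3) (nat_lit 199) (nat_lit 196) (nat_lit 205)) (PT.lf (nat_lit 7220) (nat_lit 6) (nat_lit 95) (nat_lit 3) (nat_lit 200) (nat_lit 196) (nat_lit 204)))) (PT.nd (nat_lit 156) (PT.nd (nat_lit 78) (PT.lf (nat_lit 7296) (nat_lit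 6) (nat_lit 96) (nat_lit 3) (nat_lit 201) (nat_lit 196) (nat_lit 203)) (PT.lf (nat_lit 7372) (nat_lit 3) (nat_lit 97) (nat_lit 1) (nat_lit 202) (nat_lit 196) (nat_lit 202))) (PT.nd (nat_lit 78) (PT.lf (nat_lit 7296) (nat_lit 6) (nat_lit 96) (nat_lit 1) (nat_lit 203) (nat_lit 196) (nat_lit 201)) (PT.lf (nat_lit 7220) (nat_lit 6) (nat_lit 95) (nat_lit 1) (nat_lit 204) (nat_lit 196) (nat_lit 200))))) (PT.nd (nat_lit 62010) (PT.nd (nat_lit 61854) (PT.nd (nat_lit 78) (PT.lf (nat_lit 6764) (nat_lit 6) (nat_lit 89) (nat_lit 1) (nat_lit 205) (nat_lit 196) (nat_lit 199)) (PT.lf (nat_lit 6232) (nat_lit 6) (nat_lit 82) (nat_lit 1) (nat_lit 206) (nat_lit 196) (nat_lit 198))) (PT.nd (nat_lit 78) (PT.lf (nat_lit 6156) (nat_lit 3) (nat_lit 81) (nat_lit 3) (nat_lit 197) (nat_lit 197) (nat_lit 206)) (PT.lf (nat_lit 6688) (nat_lit 6) (nat_lit 88) (nat_lit 3) (nat_lit 198) (nat_lit 197) (nat_lit 205)))) (PT.nd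 (nat_lit 156) (PT.nd (nat_lit 78) (PT.lf (nat_lit 7144) (nat_lit 6) (nat_lit 94) (nat_lit 3) (nat_lit 199) (nat_lit 197) (nat_lit 204)) (PT.lf (nat_lit 7524) (nat_lit 6) (nat_lit 99) (nat_lit 3) (nat_lit 200) (nat_lit 197) (nat_lit 203))) (PT.nd (nat_lit 78) (PT.lf (nat_lit 7600) (nat_lit 6) (nat_lit 100) (nat_lit 3) (nat_lit 201) (nat_lit 197) (nat_lit 202)) (PT.nd (nat_lit 78) (PT.lf (nat_lit 7600) (nat_lit 6) (nat_lit 100) (nat_lit 1) (nat_lit 202) (nat_lit 197) (nat_lit 201)) (PT.lf (nat_lit 7524) (nat_lit 6) (nat_lit 99) (nat_lit 1) (nat_lit 203) (nat_lit 197) (nat_lit 200))))))))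
noncomputable def pc5 : PT := (PT.nd (nat_lit 124254) (PT.nd (nat_lit 62166) (PT.nd (nat_lit 61854) (PT.nd (nat_lit 156) (PT.nd (nat_lit 78) (PT.lf (nat_lit 7144) (nat_lit 6) (nat_lit 94) (nat_lit 1) (nat_lit 204) (nat_lit 197) (nat_lit 199)) (PT.lf (nat_lit 6688) (nat_lit 6) (nat_lit 88) (nat_lit 1) (nat_lit 205) (nat_lit 197) (nat_lit 198))) (PT.nd (nat_lit 61620) (PT.lf (nat_lit 6156) (nat_lit 3) (nat_lit 81) (nat_lit 0) (nat_lit 206) (nat_lit 197) (nat_lit 197)) (PT.lf (nat_lit 5700) (nat_lit 6) (nat_lit 75) (nat_lit 5) (nat_lit 195) (nat_lit 198) (nat_lit 207)))) (PT.nd (nat_lit 156) (PT.nd (nat_lit 78) (PT.lf (nat_lit 6232) (nat_lit 6) (nat_lit 82) (nat_lit 5) (nat_lit 196) (nat_lit 198) (nat_lit 206)) (PT.lf (nat_lit 6688) (nat_lit 6) (nat_lit 88) (nat_lit 5) (nat_lit 197) (nat_lit 198) (nat_lit 205))) (PT.nd (nat_lit 78) (PT.lf (nat_lit 7068) (nat_lit 3) (nat_lit 93) (nat_lit 3) (nat_lit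 198) (nat_lit 198) (nat_lit 204)) (PT.lf (nat_lit 7448) (nat_lit 6) (nat_lit 98) (nat_lit 3) (nat_lit 199) (nat_lit 198) (nat_lit 203))))) (PT.nd (nat_lit 312) (PT.nd (nat_lit 156) (PT.nd (nat_lit 78) (PT.lf (nat_lit 7752) (nat_lit 6) (nat_lit 102) (nat_lit 3) (nat_lit 200) (nat_lit 198) (nat_lit 202)) (PT.lf (nat_lit 7828) (nat_lit 3) (nat_lit 103) (nat_lit 1) (nat_lit 201) (nat_lit 198) (nat_lit 201))) (PT.nd (nat_lit 78) (PT.lf (nat_lit 7752) (nat_lit 6) (nat_lit 102) (nat_lit 1) (nat_lit 202) (nat_lit 198) (nat_lit 200)) (PT.lf (nat_lit 7448) (nat_lit 6) (nat_lit 98) (nat_lit 1) (nat_lit 203) (nat_lit 198) (nat_lit 199)))) (PT.nd (nat_lit 156) (PT.nd (nat_lit 78) (PT.lf (nat_lit 7068) (nat_lit 3) (nat_lit 93) (nat_lit 0) (nat_lit 204) (nat_lit 198) (nat_lit 198)) (PT.lf (nat_lit 6688) (nat_lit 6) (nat_lit 88) (nat_lit 0) (nat_lit 205) (nat_lit 198) (nat_lit 197))) (PT.nd (nat_lit 78) (PT.lf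 (nat_lit 6232) (nat_lit 6) (nat_lit 82) (nat_lit 0) (nat_lit 206) (nat_lit 198) (nat_lit 196)) (PT.nd (nat_lit 61464) (PT.lf (nat_lit 5700) (nat_lit 6) (nat_lit 75) (nat_lit 0) (nat_lit 207) (nat_lit 198) (nat_lit 195)) (PT.lf (nat_lit 5776) (nat_lit 6) (nat_lit 76) (nat_lit 5) (nat_lit 194) (nat_lit 199) (nat_lit 207))))))) (PT.nd (nat_lit 624) (PT.nd (nat_lit 312) (PT.nd (nat_lit 156) (PT.nd (nat_lit 78) (PT.lf (nat_lit 6308) (nat_lit 6) (nat_lit 83) (nat_lit 5) (nat_lit 195) (nat_lit 199) (nat_lit 206)) (PT.lf (nat_lit 6764) (nat_lit 6) (nat_lit 89) (nat_lit 5) (nat_lit 196) (nat_lit 199) (nat_lit 205))) (PT.nd (nat_lit 78) (PT.lf (nat_lit 7144) (nat_lit 6) (nat_lit 94) (nat_lit 5) (nat_lit 197) (nat_lit 199) (nat_lit 204)) (PT.lf (nat_lit 7448) (nat_lit 6) (nat_lit 98) (nat_lit 5) (nat_lit 198) (nat_lit 199) (nat_lit 203)))) (PT.nd (nat_lit 156) (PT.nd (nat_lit 78) (PT.lf (nat_lit 7676)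 (nat_lit 3) (nat_lit 101) (nat_lit 3) (nat_lit 199) (nat_lit 199) (nat_lit 202)) (PT.lf (nat_lit 7904) (nat_lit 6) (nat_lit 104) (nat_lit 3) (nat_lit 200) (nat_lit 199) (nat_lit 201))) (PT.nd (nat_lit 78) (PT.lf (nat_lit 7904) (nat_lit 6) (nat_lit 104) (nat_lit 1) (nat_lit 201) (nat_lit 199) (nat_lit 200)) (PT.lf (nat_lit 7676) (nat_lit 3) (nat_lit 101) (nat_lit 0) (nat_lit 202) (nat_lit 199) (nat_lit 199))))) (PT.nd (nat_lit 312) (PT.nd (nat_lit 156) (PT.nd (nat_lit 78) (PT.lf (nat_lit 7448) (nat_lit 6) (nat_lit 98) (nat_lit 0) (nat_lit 203) (nat_lit 199) (nat_lit 198)) (PT.lf (nat_lit 7144) (nat_lit 6) (nat_lit 94) (nat_lit 0) (nat_lit 204) (nat_lit 199) (nat_lit 197))) (PT.nd (nat_lit 78) (PT.lf (nat_lit 6764) (nat_lit 6) (nat_lit 89) (nat_lit 0) (nat_lit 205) (nat_lit 199) (nat_lit 196)) (PT.lf (nat_lit 6308) (nat_lit 6) (nat_lit 83) (nat_lit 0) (nat_lit 206) (nat_lit 199) (nat_lit 195))))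 (PT.nd (nat_lit 61464) (PT.nd (nat_lit 61386) (PT.lf (nat_lit 5776) (nat_lit 6) (nat_lit 76) (nat_lit 0) (nat_lit 207) (nat_lit 199) (nat_lit 194)) (PT.lf (nat_lit 5852) (nat_lit 6) (nat_lit 77) (nat_lit 5) (nat_lit 193) (nat_lit 200) (nat_lit 207))) (PT.nd (nat_lit 78) (PT.lf (nat_lit 6384) (nat_lit 6) (nat_lit 84) (nat_lit 5) (nat_lit 194) (nat_lit 200) (nat_lit 206)) (PT.nd (nat_lit 78) (PT.lf (nat_lit 6840) (nat_lit 6) (nat_lit 90) (nat_lit 5) (nat_lit 195) (nat_lit 200) (nat_lit 205)) (PT.lf (nat_lit 7220) (nat_lit 6) (nat_lit 95) (nat_lit 5) (nat_lit 196) (nat_lit 200) (nat_lit 204))))))))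
noncomputable def pc6 : PT := (PT.nd (nat_lit 62556) (PT.nd (nat_lit 624) (PT.nd (nat_lit 312) (PT.nd (nat_lit 156) (PT.nd (nat_lit 78) (PT.lf (nat_lit 7524) (nat_lit 6) (nat_lit 99) (nat_lit 5) (nat_lit 197) (nat_lit 200) (nat_lit 203)) (PT.lf (nat_lit 7752) (nat_lit 6) (nat_lit 102) (nat_lit 5) (nat_lit 198) (nat_lit 200) (nat_lit 202))) (PT.nd (nat_lit 78) (PT.lf (nat_lit 7904) (nat_lit 6) (nat_lit 104) (nat_lit 5) (nat_lit 199) (nat_lit 200) (nat_lit 201)) (PT.lf (nat_lit 7980) (nat_lit 1) (nat_lit 105) (nat_lit 0) (nat_lit 200) (nat_lit 200) (nat_lit 200)))) (PT.nd (nat_lit 156) (PT.nd (nat_lit 78) (PT.lf (nat_lit 7904) (nat_lit 6) (nat_lit 104) (nat_lit 0) (nat_lit 201) (nat_lit 200) (nat_lit 199)) (PT.lf (nat_lit 7752) (nat_lit 6) (nat_lit 102) (nat_lit 0) (nat_lit 202) (nat_lit 200) (nat_lit 198))) (PT.nd (nat_lit 78) (PT.lf (nat_lit 7524) (nat_lit 6) (nat_lit 99) (nat_lit 0) (nat_lit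 203) (nat_lit 200) (nat_lit 197)) (PT.lf (nat_lit 7220) (nat_lit 6) (nat_lit 95) (nat_lit 0) (nat_lit 204) (nat_lit 200) (nat_lit 196))))) (PT.nd (nat_lit 61542) (PT.nd (nat_lit 156) (PT.nd (nat_lit 78) (PT.lf (nat_lit 6840) (nat_lit 6) (nat_lit 90) (nat_lit 0) (nat_lit 205) (nat_lit 200) (nat_lit 195)) (PT.lf (nat_lit 6384) (nat_lit 6) (nat_lit 84) (nat_lit 0) (nat_lit 206) (nat_lit 200) (nat_lit 194))) (PT.nd (nat_lit 61308) (PT.lf (nat_lit 5852) (nat_lit 6) (nat_lit 77) (nat_lit 0) (nat_lit 207) (nat_lit 200) (nat_lit 193)) (PT.lf (nat_lit 5396) (nat_lit 6) (nat_lit 71) (nat_lit 5) (nat_lit 192) (nat_lit 201) (nat_lit 207)))) (PT.nd (nat_lit 156) (PT.nd (nat_lit 78) (PT.lf (nat_lit 5928) (nat_lit 6) (nat_lit 78) (nat_lit 5) (nat_lit 193) (nat_lit 201) (nat_lit 206)) (PT.lf (nat_lit 6460) (nat_lit 6) (nat_lit 85) (nat_lit 5) (nat_lit 194) (nat_lit 201) (nat_lit 205))) (PT.nd (nat_lit 78) (PT.lf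 (nat_lit 6916) (nat_lit 6) (nat_lit 91) (nat_lit 5) (nat_lit 195) (nat_lit 201) (nat_lit 204)) (PT.nd (nat_lit 78) (PT.lf (nat_lit 7296) (nat_lit 6) (nat_lit 96) (nat_lit 5) (nat_lit 196) (nat_lit 201) (nat_lit 203)) (PT.lf (nat_lit 7600) (nat_lit 6) (nat_lit 100) (nat_lit 5) (nat_lit 197) (nat_lit 201) (nat_lit 202))))))) (PT.nd (nat_lit 624) (PT.nd (nat_lit 312) (PT.nd (nat_lit 156) (PT.nd (nat_lit 78) (PT.lf (nat_lit 7828) (nat_lit 3) (nat_lit 103) (nat_lit 4) (nat_lit 198) (nat_lit 201) (nat_lit 201)) (PT.lf (nat_lit 7904) (nat_lit 6) (nat_lit 104) (nat_lit 4) (nat_lit 199) (nat_lit 201) (nat_lit 200))) (PT.nd (nat_lit 78) (PT.lf (nat_lit 7904) (nat_lit 6) (nat_lit 104) (nat_lit 2) (nat_lit 200) (nat_lit 201) (nat_lit 199)) (PT.lf (nat_lit 7828) (nat_lit 3) (nat_lit 103) (nat_lit 0) (nat_lit 201) (nat_lit 201) (nat_lit 198)))) (PT.nd (nat_lit 156) (PT.nd (nat_lit 78) (PT.lf (nat_lit 7600)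 (nat_lit 6) (nat_lit 100) (nat_lit 0) (nat_lit 202) (nat_lit 201) (nat_lit 197)) (PT.lf (nat_lit 7296) (nat_lit 6) (nat_lit 96) (nat_lit 0) (nat_lit 203) (nat_lit 201) (nat_lit 196))) (PT.nd (nat_lit 78) (PT.lf (nat_lit 6916) (nat_lit 6) (nat_lit 91) (nat_lit 0) (nat_lit 204) (nat_lit 201) (nat_lit 195)) (PT.lf (nat_lit 6460) (nat_lit 6) (nat_lit 85) (nat_lit 0) (nat_lit 205) (nat_lit 201) (nat_lit 194))))) (PT.nd (nat_lit 61464) (PT.nd (nat_lit 61308) (PT.nd (nat_lit 78) (PT.lf (nat_lit 5928) (nat_lit 6) (nat_lit 78) (nat_lit 0) (nat_lit 206) (nat_lit 201) (nat_lit 193)) (PT.lf (nat_lit 5396) (nat_lit 6) (nat_lit 71) (nat_lit 0) (nat_lit 207) (nat_lit 201) (nat_lit 192))) (PT.nd (nat_lit 78) (PT.lf (nat_lit 5168) (nat_lit 6) (nat_lit 68) (nat_lit 5) (nat_lit 191) (nat_lit 202) (nat_lit 207)) (PT.lf (nat_lit 5472) (nat_lit 6) (nat_lit 72) (nat_lit 5) (nat_lit 192) (nat_lit 202) (nat_lit 206))))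 (PT.nd (nat_lit 156) (PT.nd (nat_lit 78) (PT.lf (nat_lit 6004) (nat_lit 6) (nat_lit 79) (nat_lit 5) (nat_lit 193) (nat_lit 202) (nat_lit 205)) (PT.lf (nat_lit 6536) (nat_lit 6) (nat_lit 86) (nat_lit 5) (nat_lit 194) (nat_lit 202) (nat_lit 204))) (PT.nd (nat_lit 78) (PT.lf (nat_lit 6992) (nat_lit 6) (nat_lit 92) (nat_lit 5) (nat_lit 195) (nat_lit 202) (nat_lit 203)) (PT.nd (nat_lit 78) (PT.lf (nat_lit 7372) (nat_lit 3) (nat_lit 97) (nat_lit 4) (nat_lit 196) (nat_lit 202) (nat_lit 202)) (PT.lf (nat_lit 7600) (nat_lit 6) (nat_lit 100) (nat_lit 4) (nat_lit 197) (nat_lit 202) (nat_lit 201))))))))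
noncomputable def pc7 : PT := (PT.nd (nat_lit 62322) (PT.nd (nat_lit 624) (PT.nd (nat_lit 312) (PT.nd (nat_lit 156) (PT.nd (nat_lit 78) (PT.lf (nat_lit 7752) (nat_lit 6) (nat_lit 102) (nat_lit 4) (nat_lit 198) (nat_lit 202) (nat_lit 200)) (PT.lf (nat_lit 7676) (nat_lit 3) (nat_lit 101) (nat_lit 2) (nat_lit 199) (nat_lit 202) (nat_lit 199))) (PT.nd (nat_lit 78) (PT.lf (nat_lit 7752) (nat_lit 6) (nat_lit 102) (nat_lit 2) (nat_lit 200) (nat_lit 202) (nat_lit 198)) (PT.lf (nat_lit 7600) (nat_lit 6) (nat_lit 100) (nat_lit 2) (nat_lit 201) (nat_lit 202) (nat_lit 197)))) (PT.nd (nat_lit 156) (PT.nd (nat_lit 78) (PT.lf (nat_lit 7372) (nat_lit 3) (nat_lit 97) (nat_lit 0) (nat_lit 202) (nat_lit 202) (nat_lit 196)) (PT.lf (nat_lit 6992) (nat_lit 6) (nat_lit 92) (nat_lit 0) (nat_lit 203) (nat_lit 202) (nat_lit 195))) (PT.nd (nat_lit 78) (PT.lf (nat_lit 6536) (nat_lit 6) (nat_lit 86) (nat_lit 0) (nat_lit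 204) (nat_lit 202) (nat_lit 194)) (PT.lf (nat_lit 6004) (nat_lit 6) (nat_lit 79) (nat_lit 0) (nat_lit 205) (nat_lit 202) (nat_lit 193))))) (PT.nd (nat_lit 61308) (PT.nd (nat_lit 61152) (PT.nd (nat_lit 78) (PT.lf (nat_lit 5472) (nat_lit 6) (nat_lit 72) (nat_lit 0) (nat_lit 206) (nat_lit 202) (nat_lit 192)) (PT.lf (nat_lit 5168) (nat_lit 6) (nat_lit 68) (nat_lit 0) (nat_lit 207) (nat_lit 202) (nat_lit 191))) (PT.nd (nat_lit 78) (PT.lf (nat_lit 4712) (nat_lit 6) (nat_lit 62) (nat_lit 5) (nat_lit 189) (nat_lit 203) (nat_lit 208)) (PT.lf (nat_lit 4940) (nat_lit 6) (nat_lit 65) (nat_lit 5) (nat_lit 190) (nat_lit 203) (nat_lit 207)))) (PT.nd (nat_lit 156) (PT.nd (nat_lit 78) (PT.lf (nat_lit 5244) (nat_lit 6) (nat_lit 69) (nat_lit 5) (nat_lit 191) (nat_lit 203) (nat_lit 206)) (PT.lf (nat_lit 5548) (nat_lit 6) (nat_lit 73) (nat_lit 5) (nat_lit 192) (nat_lit 203) (nat_lit 205))) (PT.nd (nat_lit 78) (PT.lf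 (nat_lit 6080) (nat_lit 6) (nat_lit 80) (nat_lit 5) (nat_lit 193) (nat_lit 203) (nat_lit 204)) (PT.nd (nat_lit 78) (PT.lf (nat_lit 6612) (nat_lit 3) (nat_lit 87) (nat_lit 4) (nat_lit 194) (nat_lit 203) (nat_lit 203)) (PT.lf (nat_lit 6992) (nat_lit 6) (nat_lit 92) (nat_lit 4) (nat_lit 195) (nat_lit 203) (nat_lit 202))))))) (PT.nd (nat_lit 624) (PT.nd (nat_lit 312) (PT.nd (nat_lit 156) (PT.nd (nat_lit 78) (PT.lf (nat_lit 7296) (nat_lit 6) (nat_lit 96) (nat_lit 4) (nat_lit 196) (nat_lit 203) (nat_lit 201)) (PT.lf (nat_lit 7524) (nat_lit 6) (nat_lit 99) (nat_lit 4) (nat_lit 197) (nat_lit 203) (nat_lit 200))) (PT.nd (nat_lit 78) (PT.lf (nat_lit 7448) (nat_lit 6) (nat_lit 98) (nat_lit 4) (nat_lit 198) (nat_lit 203) (nat_lit 199)) (PT.lf (nat_lit 7448) (nat_lit 6) (nat_lit 98) (nat_lit 2) (nat_lit 199) (nat_lit 203) (nat_lit 198)))) (PT.nd (nat_lit 156) (PT.nd (nat_lit 78) (PT.lf (nat_lit 7524) (nat_lit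 6) (nat_lit 99) (nat_lit 2) (nat_lit 200) (nat_lit 203) (nat_lit 197)) (PT.lf (nat_lit 7296) (nat_lit 6) (nat_lit 96) (nat_lit 2) (nat_lit 201) (nat_lit 203) (nat_lit 196))) (PT.nd (nat_lit 78) (PT.lf (nat_lit 6992) (nat_lit 6) (nat_lit 92) (nat_lit 2) (nat_lit 202) (nat_lit 203) (nat_lit 195)) (PT.lf (nat_lit 6612) (nat_lit 3) (nat_lit 87) (nat_lit 0) (nat_lit 203) (nat_lit 203) (nat_lit 194))))) (PT.nd (nat_lit 312) (PT.nd (nat_lit 156) (PT.nd (nat_lit 78) (PT.lf (nat_lit 6080) (nat_lit 6) (nat_lit 80) (nat_lit 0) (nat_lit 204) (nat_lit 203) (nat_lit 193)) (PT.lf (nat_lit 5548) (nat_lit 6) (nat_lit 73) (nat_lit 0) (nat_lit 205) (nat_lit 203) (nat_lit 192))) (PT.nd (nat_lit 78) (PT.lf (nat_lit 5244) (nat_lit 6) (nat_lit 69) (nat_lit 0) (nat_lit 206) (nat_lit 203) (nat_lit 191)) (PT.lf (nat_lit 4940) (nat_lit 6) (nat_lit 65) (nat_lit 0) (nat_lit 207) (nat_lit 203) (nat_lit 190)))) (PT.nd (nat_lit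 60996) (PT.nd (nat_lit 60918) (PT.lf (nat_lit 4712) (nat_lit 6) (nat_lit 62) (nat_lit 0) (nat_lit 208) (nat_lit 203) (nat_lit 189)) (PT.lf (nat_lit 4484) (nat_lit 6) (nat_lit 59) (nat_lit 5) (nat_lit 188) (nat_lit 204) (nat_lit 208))) (PT.nd (nat_lit 78) (PT.lf (nat_lit 4788) (nat_lit 6) (nat_lit 63) (nat_lit 5) (nat_lit 189) (nat_lit 204) (nat_lit 207)) (PT.nd (nat_lit 78) (PT.lf (nat_lit 5016) (nat_lit 6) (nat_lit 66) (nat_lit 5) (nat_lit 190) (nat_lit 204) (nat_lit 206)) (PT.lf (nat_lit 5320) (nat_lit 6) (nat_lit 70) (nat_lit 5) (nat_lit 191) (nat_lit 204) (nat_lit 205))))))))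
noncomputable def pc8 : PT := (PT.nd (nat_lit 62010) (PT.nd (nat_lit 624) (PT.nd (nat_lit 312) (PT.nd (nat_lit 156) (PT.nd (nat_lit 78) (PT.lf (nat_lit 5624) (nat_lit 3) (nat_lit 74) (nat_lit 4) (nat_lit 192) (nat_lit 204) (nat_lit 204)) (PT.lf (nat_lit 6080) (nat_lit 6) (nat_lit 80) (nat_lit 4) (nat_lit 193) (nat_lit 204) (nat_lit 203))) (PT.nd (nat_lit 78) (PT.lf (nat_lit 6536) (nat_lit 6) (nat_lit 86) (nat_lit 4) (nat_lit 194) (nat_lit 204) (nat_lit 202)) (PT.lf (nat_lit 6916) (nat_lit 6) (nat_lit 91) (nat_lit 4) (nat_lit 195) (nat_lit 204) (nat_lit 201)))) (PT.nd (nat_lit 156) (PT.nd (nat_lit 78) (PT.lf (nat_lit 7220) (nat_lit 6) (nat_lit 95) (nat_lit 4) (nat_lit 196) (nat_lit 204) (nat_lit 200)) (PT.lf (nat_lit 7144) (nat_lit 6) (nat_lit 94) (nat_lit 4) (nat_lit 197) (nat_lit 204) (nat_lit 199))) (PT.nd (nat_lit 78) (PT.lf (nat_lit 7068) (nat_lit 3) (nat_lit 93) (nat_lit 2) (nat_lit 198)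 (nat_lit 204) (nat_lit 198)) (PT.lf (nat_lit 7144) (nat_lit 6) (nat_lit 94) (nat_lit 2) (nat_lit 199) (nat_lit 204) (nat_lit 197))))) (PT.nd (nat_lit 312) (PT.nd (nat_lit 156) (PT.nd (nat_lit 78) (PT.lf (nat_lit 7220) (nat_lit 6) (nat_lit 95) (nat_lit 2) (nat_lit 200) (nat_lit 204) (nat_lit 196)) (PT.lf (nat_lit 6916) (nat_lit 6) (nat_lit 91) (nat_lit 2) (nat_lit 201) (nat_lit 204) (nat_lit 195))) (PT.nd (nat_lit 78) (PT.lf (nat_lit 6536) (nat_lit 6) (nat_lit 86) (nat_lit 2) (nat_lit 202) (nat_lit 204) (nat_lit 194)) (PT.lf (nat_lit 6080) (nat_lit 6) (nat_lit 80) (nat_lit 2) (nat_lit 203) (nat_lit 204) (nat_lit 193)))) (PT.nd (nat_lit 156) (PT.nd (nat_lit 78) (PT.lf (nat_lit 5624) (nat_lit 3) (nat_lit 74) (nat_lit 0) (nat_lit 204) (nat_lit 204) (nat_lit 192)) (PT.lf (nat_lit 5320) (nat_lit 6) (nat_lit 70) (nat_lit 0) (nat_lit 205) (nat_lit 204) (nat_lit 191))) (PT.nd (nat_lit 78) (PT.lf (nat_lit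 5016) (nat_lit 6) (nat_lit 66) (nat_lit 0) (nat_lit 206) (nat_lit 204) (nat_lit 190)) (PT.nd (nat_lit 78) (PT.lf (nat_lit 4788) (nat_lit 6) (nat_lit 63) (nat_lit 0) (nat_lit 207) (nat_lit 204) (nat_lit 189)) (PT.lf (nat_lit 4484) (nat_lit 6) (nat_lit 59) (nat_lit 0) (nat_lit 208) (nat_lit 204) (nat_lit 188))))))) (PT.nd (nat_lit 624) (PT.nd (nat_lit 312) (PT.nd (nat_lit 156) (PT.nd (nat_lit 78) (PT.lf (nat_lit 4104) (nat_lit 6) (nat_lit 54) (nat_lit 5) (nat_lit 186) (nat_lit 205) (nat_lit 209)) (PT.lf (nat_lit 4332) (nat_lit 6) (nat_lit 57) (nat_lit 5) (nat_lit 187) (nat_lit 205) (nat_lit 208))) (PT.nd (nat_lit 78) (PT.lf (nat_lit 4560) (nat_lit 6) (nat_lit 60) (nat_lit 5) (nat_lit 188) (nat_lit 205) (nat_lit 207)) (PT.lf (nat_lit 4864) (nat_lit 6) (nat_lit 64) (nat_lit 5) (nat_lit 189) (nat_lit 205) (nat_lit 206)))) (PT.nd (nat_lit 156) (PT.nd (nat_lit 78) (PT.lf (nat_lit 5092) (nat_lit 3)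 (nat_lit 67) (nat_lit 4) (nat_lit 190) (nat_lit 205) (nat_lit 205)) (PT.lf (nat_lit 5320) (nat_lit 6) (nat_lit 70) (nat_lit 4) (nat_lit 191) (nat_lit 205) (nat_lit 204))) (PT.nd (nat_lit 78) (PT.lf (nat_lit 5548) (nat_lit 6) (nat_lit 73) (nat_lit 4) (nat_lit 192) (nat_lit 205) (nat_lit 203)) (PT.lf (nat_lit 6004) (nat_lit 6) (nat_lit 79) (nat_lit 4) (nat_lit 193) (nat_lit 205) (nat_lit 202))))) (PT.nd (nat_lit 312) (PT.nd (nat_lit 156) (PT.nd (nat_lit 78) (PT.lf (nat_lit 6460) (nat_lit 6) (nat_lit 85) (nat_lit 4) (nat_lit 194) (nat_lit 205) (nat_lit 201)) (PT.lf (nat_lit 6840) (nat_lit 6) (nat_lit 90) (nat_lit 4) (nat_lit 195) (nat_lit 205) (nat_lit 200))) (PT.nd (nat_lit 78) (PT.lf (nat_lit 6764) (nat_lit 6) (nat_lit 89) (nat_lit 4) (nat_lit 196) (nat_lit 205) (nat_lit 199)) (PT.lf (nat_lit 6688) (nat_lit 6) (nat_lit 88) (nat_lit 4) (nat_lit 197) (nat_lit 205) (nat_lit 198)))) (PT.nd (nat_lit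 156) (PT.nd (nat_lit 78) (PT.lf (nat_lit 6688) (nat_lit 6) (nat_lit 88) (nat_lit 2) (nat_lit 198) (nat_lit 205) (nat_lit 197)) (PT.lf (nat_lit 6764) (nat_lit 6) (nat_lit 89) (nat_lit 2) (nat_lit 199) (nat_lit 205) (nat_lit 196))) (PT.nd (nat_lit 78) (PT.lf (nat_lit 6840) (nat_lit 6) (nat_lit 90) (nat_lit 2) (nat_lit 200) (nat_lit 205) (nat_lit 195)) (PT.nd (nat_lit 78) (PT.lf (nat_lit 6460) (nat_lit 6) (nat_lit 85) (nat_lit 2) (nat_lit 201) (nat_lit 205) (nat_lit 194)) (PT.lf (nat_lit 6004) (nat_lit 6) (nat_lit 79) (nat_lit 2) (nat_lit 202) (nat_lit 205) (nat_lit 193))))))))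
noncomputable def pc9 : PT := (PT.nd (nat_lit 61854) (PT.nd (nat_lit 61152) (PT.nd (nat_lit 312) (PT.nd (nat_lit 156) (PT.nd (nat_lit 78) (PT.lf (nat_lit 5548) (nat_lit 6) (nat_lit 73) (nat_lit 2) (nat_lit 203) (nat_lit 205) (nat_lit 192)) (PT.lf (nat_lit 5320) (nat_lit 6) (nat_lit 70) (nat_lit 2) (nat_lit 204) (nat_lit 205) (nat_lit 191))) (PT.nd (nat_lit 78) (PT.lf (nat_lit 5092) (nat_lit 3) (nat_lit 67) (nat_lit 0) (nat_lit 205) (nat_lit 205) (nat_lit 190)) (PT.lf (nat_lit 4864) (nat_lit 6) (nat_lit 64) (nat_lit 0) (nat_lit 206) (nat_lit 205) (nat_lit 189)))) (PT.nd (nat_lit 156) (PT.nd (nat_lit 78) (PT.lf (nat_lit 4560) (nat_lit 6) (nat_lit 60) (nat_lit 0) (nat_lit 207) (nat_lit 205) (nat_lit 188)) (PT.lf (nat_lit 4332) (nat_lit 6) (nat_lit 57) (nat_lit 0) (nat_lit 208) (nat_lit 205) (nat_lit 187))) (PT.nd (nat_lit 60606) (PT.lf (nat_lit 4104) (nat_lit 6) (nat_lit 54) (nat_lit 0) (nat_lit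 209) (nat_lit 205) (nat_lit 186)) (PT.lf (nat_lit 3952) (nat_lit 6) (nat_lit 52) (nat_lit 5) (nat_lit 185) (nat_lit 206) (nat_lit 209))))) (PT.nd (nat_lit 312) (PT.nd (nat_lit 156) (PT.nd (nat_lit 78) (PT.lf (nat_lit 4180) (nat_lit 6) (nat_lit 55) (nat_lit 5) (nat_lit 186) (nat_lit 206) (nat_lit 208)) (PT.lf (nat_lit 4408) (nat_lit 6) (nat_lit 58) (nat_lit 5) (nat_lit 187) (nat_lit 206) (nat_lit 207))) (PT.nd (nat_lit 78) (PT.lf (nat_lit 4636) (nat_lit 3) (nat_lit 61) (nat_lit 4) (nat_lit 188) (nat_lit 206) (nat_lit 206)) (PT.lf (nat_lit 4864) (nat_lit 6) (nat_lit 64) (nat_lit 4) (nat_lit 189) (nat_lit 206) (nat_lit 205)))) (PT.nd (nat_lit 156) (PT.nd (nat_lit 78) (PT.lf (nat_lit 5016) (nat_lit 6) (nat_lit 66) (nat_lit 4) (nat_lit 190) (nat_lit 206) (nat_lit 204)) (PT.lf (nat_lit 5244) (nat_lit 6) (nat_lit 69) (nat_lit 4) (nat_lit 191) (nat_lit 206) (nat_lit 203))) (PT.nd (nat_lit 78) (PT.lf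 (nat_lit 5472) (nat_lit 6) (nat_lit 72) (nat_lit 4) (nat_lit 192) (nat_lit 206) (nat_lit 202)) (PT.nd (nat_lit 78) (PT.lf (nat_lit 5928) (nat_lit 6) (nat_lit 78) (nat_lit 4) (nat_lit 193) (nat_lit 206) (nat_lit 201)) (PT.lf (nat_lit 6384) (nat_lit 6) (nat_lit 84) (nat_lit 4) (nat_lit 194) (nat_lit 206) (nat_lit 200))))))) (PT.nd (nat_lit 624) (PT.nd (nat_lit 312) (PT.nd (nat_lit 156) (PT.nd (nat_lit 78) (PT.lf (nat_lit 6308) (nat_lit 6) (nat_lit 83) (nat_lit 4) (nat_lit 195) (nat_lit 206) (nat_lit 199)) (PT.lf (nat_lit 6232) (nat_lit 6) (nat_lit 82) (nat_lit 4) (nat_lit 196) (nat_lit 206) (nat_lit 198))) (PT.nd (nat_lit 78) (PT.lf (nat_lit 6156) (nat_lit 3) (nat_lit 81) (nat_lit 2) (nat_lit 197) (nat_lit 206) (nat_lit 197)) (PT.lf (nat_lit 6232) (nat_lit 6) (nat_lit 82) (nat_lit 2) (nat_lit 198) (nat_lit 206) (nat_lit 196)))) (PT.nd (nat_lit 156) (PT.nd (nat_lit 78) (PT.lf (nat_lit 6308) (nat_lit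 6) (nat_lit 83) (nat_lit 2) (nat_lit 199) (nat_lit 206) (nat_lit 195)) (PT.lf (nat_lit 6384) (nat_lit 6) (nat_lit 84) (nat_lit 2) (nat_lit 200) (nat_lit 206) (nat_lit 194))) (PT.nd (nat_lit 78) (PT.lf (nat_lit 5928) (nat_lit 6) (nat_lit 78) (nat_lit 2) (nat_lit 201) (nat_lit 206) (nat_lit 193)) (PT.lf (nat_lit 5472) (nat_lit 6) (nat_lit 72) (nat_lit 2) (nat_lit 202) (nat_lit 206) (nat_lit 192))))) (PT.nd (nat_lit 312) (PT.nd (nat_lit 156) (PT.nd (nat_lit 78) (PT.lf (nat_lit 5244) (nat_lit 6) (nat_lit 69) (nat_lit 2) (nat_lit 203) (nat_lit 206) (nat_lit 191)) (PT.lf (nat_lit 5016) (nat_lit 6) (nat_lit 66) (nat_lit 2) (nat_lit 204) (nat_lit 206) (nat_lit 190))) (PT.nd (nat_lit 78) (PT.lf (nat_lit 4864) (nat_lit 6) (nat_lit 64) (nat_lit 2) (nat_lit 205) (nat_lit 206) (nat_lit 189)) (PT.lf (nat_lit 4636) (nat_lit 3) (nat_lit 61) (nat_lit 0) (nat_lit 206) (nat_lit 206) (nat_lit 188)))) (PT.nd (nat_lit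 156) (PT.nd (nat_lit 78) (PT.lf (nat_lit 4408) (nat_lit 6) (nat_lit 58) (nat_lit 0) (nat_lit 207) (nat_lit 206) (nat_lit 187)) (PT.lf (nat_lit 4180) (nat_lit 6) (nat_lit 55) (nat_lit 0) (nat_lit 208) (nat_lit 206) (nat_lit 186))) (PT.nd (nat_lit 60450) (PT.lf (nat_lit 3952) (nat_lit 6) (nat_lit 52) (nat_lit 0) (nat_lit 209) (nat_lit 206) (nat_lit 185)) (PT.nd (nat_lit 78) (PT.lf (nat_lit 3648) (nat_lit 6) (nat_lit 48) (nat_lit 5) (nat_lit 183) (nat_lit 207) (nat_lit 210)) (PT.lf (nat_lit 3800) (nat_lit 6) (nat_lit 50) (nat_lit 5) (nat_lit 184) (nat_lit 207) (nat_lit 209))))))))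
noncomputable def pc10 : PT := (PT.nd (nat_lit 1482) (PT.nd (nat_lit 624) (PT.nd (nat_lit 312) (PT.nd (nat_lit 156) (PT.nd (nat_lit 78) (PT.lf (nat_lit 4028) (nat_lit 6) (nat_lit 53) (nat_lit 5) (nat_lit 185) (nat_lit 207) (nat_lit 208)) (PT.lf (nat_lit 4256) (nat_lit 3) (nat_lit 56) (nat_lit 4) (nat_lit 186) (nat_lit 207) (nat_lit 207))) (PT.nd (nat_lit 78) (PT.lf (nat_lit 4408) (nat_lit 6) (nat_lit 58) (nat_lit 4) (nat_lit 187) (nat_lit 207) (nat_lit 206)) (PT.lf (nat_lit 4560) (nat_lit 6) (nat_lit 60) (nat_lit 4) (nat_lit 188) (nat_lit 207) (nat_lit 205)))) (PT.nd (nat_lit 156) (PT.nd (nat_lit 78) (PT.lf (nat_lit 4788) (nat_lit 6) (nat_lit 63) (nat_lit 4) (nat_lit 189) (nat_lit 207) (nat_lit 204)) (PT.lf (nat_lit 4940) (nat_lit 6) (nat_lit 65) (nat_lit 4) (nat_lit 190) (nat_lit 207) (nat_lit 203))) (PT.nd (nat_lit 78) (PT.lf (nat_lit 5168) (nat_lit 6) (nat_lit 68) (nat_lit 4) (nat_lit 191)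 (nat_lit 207) (nat_lit 202)) (PT.lf (nat_lit 5396) (nat_lit 6) (nat_lit 71) (nat_lit 4) (nat_lit 192) (nat_lit 207) (nat_lit 201))))) (PT.nd (nat_lit 468) (PT.nd (nat_lit 156) (PT.nd (nat_lit 78) (PT.lf (nat_lit 5852) (nat_lit 6) (nat_lit 77) (nat_lit 4) (nat_lit 193) (nat_lit 207) (nat_lit 200)) (PT.lf (nat_lit 5776) (nat_lit 6) (nat_lit 76) (nat_lit 4) (nat_lit 194) (nat_lit 207) (nat_lit 199))) (PT.nd (nat_lit 234) (PT.lf (nat_lit 5700) (nat_lit 6) (nat_lit 75) (nat_lit 4) (nat_lit 195) (nat_lit 207) (nat_lit 198)) (PT.lf (nat_lit 5700) (nat_lit 6) (nat_lit 75) (nat_lit 2) (nat_lit 198) (nat_lit 207) (nat_lit 195)))) (PT.nd (nat_lit 156) (PT.nd (nat_lit 78) (PT.lf (nat_lit 5776) (nat_lit 6) (nat_lit 76) (nat_lit 2) (nat_lit 199) (nat_lit 207) (nat_lit 194)) (PT.lf (nat_lit 5852) (nat_lit 6) (nat_lit 77) (nat_lit 2) (nat_lit 200) (nat_lit 207) (nat_lit 193))) (PT.nd (nat_lit 78) (PT.lf (nat_lit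 5396) (nat_lit 6) (nat_lit 71) (nat_lit 2) (nat_lit 201) (nat_lit 207) (nat_lit 192)) (PT.nd (nat_lit 78) (PT.lf (nat_lit 5168) (nat_lit 6) (nat_lit 68) (nat_lit 2) (nat_lit 202) (nat_lit 207) (nat_lit 191)) (PT.lf (nat_lit 4940) (nat_lit 6) (nat_lit 65) (nat_lit 2) (nat_lit 203) (nat_lit 207) (nat_lit 190))))))) (PT.nd (nat_lit 60762) (PT.nd (nat_lit 312) (PT.nd (nat_lit 156) (PT.nd (nat_lit 78) (PT.lf (nat_lit 4788) (nat_lit 6) (nat_lit 63) (nat_lit 2) (nat_lit 204) (nat_lit 207) (nat_lit 189)) (PT.lf (nat_lit 4560) (nat_lit 6) (nat_lit 60) (nat_lit 2) (nat_lit 205) (nat_lit 207) (nat_lit 188))) (PT.nd (nat_lit 78) (PT.lf (nat_lit 4408) (nat_lit 6) (nat_lit 58) (nat_lit 2) (nat_lit 206) (nat_lit 207) (nat_lit 187)) (PT.lf (nat_lit 4256) (nat_lit 3) (nat_lit 56) (nat_lit 0) (nat_lit 207) (nat_lit 207) (nat_lit 186)))) (PT.nd (nat_lit 156) (PT.nd (nat_lit 78) (PT.lf (nat_lit 4028) (nat_lit 6)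 (nat_lit 53) (nat_lit 0) (nat_lit 208) (nat_lit 207) (nat_lit 185)) (PT.lf (nat_lit 3800) (nat_lit 6) (nat_lit 50) (nat_lit 0) (nat_lit 209) (nat_lit 207) (nat_lit 184))) (PT.nd (nat_lit 60216) (PT.lf (nat_lit 3648) (nat_lit 6) (nat_lit 48) (nat_lit 0) (nat_lit 210) (nat_lit 207) (nat_lit 183)) (PT.lf (nat_lit 3344) (nat_lit 6) (nat_lit 44) (nat_lit 5) (nat_lit 181) (nat_lit 208) (nat_lit 211))))) (PT.nd (nat_lit 312) (PT.nd (nat_lit 156) (PT.nd (nat_lit 78) (PT.lf (nat_lit 3496) (nat_lit 6) (nat_lit 46) (nat_lit 5) (nat_lit 182) (nat_lit 208) (nat_lit 210)) (PT.lf (nat_lit 3724) (nat_lit 6) (nat_lit 49) (nat_lit 5) (nat_lit 183) (nat_lit 208) (nat_lit 209))) (PT.nd (nat_lit 78) (PT.lf (nat_lit 3876) (nat_lit 3) (nat_lit 51) (nat_lit 4) (nat_lit 184) (nat_lit 208) (nat_lit 208)) (PT.lf (nat_lit 4028) (nat_lit 6) (nat_lit 53) (nat_lit 4) (nat_lit 185) (nat_lit 208) (nat_lit 207)))) (PT.nd (nat_lit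 156) (PT.nd (nat_lit 78) (PT.lf (nat_lit 4180) (nat_lit 6) (nat_lit 55) (nat_lit 4) (nat_lit 186) (nat_lit 208) (nat_lit 206)) (PT.lf (nat_lit 4332) (nat_lit 6) (nat_lit 57) (nat_lit 4) (nat_lit 187) (nat_lit 208) (nat_lit 205))) (PT.nd (nat_lit 78) (PT.lf (nat_lit 4484) (nat_lit 6) (nat_lit 59) (nat_lit 4) (nat_lit 188) (nat_lit 208) (nat_lit 204)) (PT.nd (nat_lit 1092) (PT.lf (nat_lit 4712) (nat_lit 6) (nat_lit 62) (nat_lit 4) (nat_lit 189) (nat_lit 208) (nat_lit 203)) (PT.lf (nat_lit 4712) (nat_lit 6) (nat_lit 62) (nat_lit 2) (nat_lit 203) (nat_lit 208) (nat_lit 189))))))))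
noncomputable def pc11 : PT := (PT.nd (nat_lit 62712) (PT.nd (nat_lit 60606) (PT.nd (nat_lit 312) (PT.nd (nat_lit 156) (PT.nd (nat_lit 78) (PT.lf (nat_lit 4484) (nat_lit 6) (nat_lit 59) (nat_lit 2) (nat_lit 204) (nat_lit 208) (nat_lit 188)) (PT.lf (nat_lit 4332) (nat_lit 6) (nat_lit 57) (nat_lit 2) (nat_lit 205) (nat_lit 208) (nat_lit 187))) (PT.nd (nat_lit 78) (PT.lf (nat_lit 4180) (nat_lit 6) (nat_lit 55) (nat_lit 2) (nat_lit 206) (nat_lit 208) (nat_lit 186)) (PT.lf (nat_lit 4028) (nat_lit 6) (nat_lit 53) (nat_lit 2) (nat_lit 207) (nat_lit 208) (nat_lit 185)))) (PT.nd (nat_lit 156) (PT.nd (nat_lit 78) (PT.lf (nat_lit 3876) (nat_lit 3) (nat_lit 51) (nat_lit 0) (nat_lit 208) (nat_lit 208) (nat_lit 184)) (PT.lf (nat_lit 3724) (nat_lit 6) (nat_lit 49) (nat_lit 0) (nat_lit 209) (nat_lit 208) (nat_lit 183))) (PT.nd (nat_lit 78) (PT.lf (nat_lit 3496) (nat_lit 6) (nat_lit 46) (nat_lit 0) (nat_lit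 210) (nat_lit 208) (nat_lit 182)) (PT.lf (nat_lit 3344) (nat_lit 6) (nat_lit 44) (nat_lit 0) (nat_lit 211) (nat_lit 208) (nat_lit 181))))) (PT.nd (nat_lit 312) (PT.nd (nat_lit 156) (PT.nd (nat_lit 78) (PT.lf (nat_lit 3192) (nat_lit 6) (nat_lit 42) (nat_lit 5) (nat_lit 180) (nat_lit 209) (nat_lit 211)) (PT.lf (nat_lit 3420) (nat_lit 6) (nat_lit 45) (nat_lit 5) (nat_lit 181) (nat_lit 209) (nat_lit 210))) (PT.nd (nat_lit 78) (PT.lf (nat_lit 3572) (nat_lit 3) (nat_lit 47) (nat_lit 4) (nat_lit 182) (nat_lit 209) (nat_lit 209)) (PT.lf (nat_lit 3724) (nat_lit 6) (nat_lit 49) (nat_lit 4) (nat_lit 183) (nat_lit 209) (nat_lit 208)))) (PT.nd (nat_lit 156) (PT.nd (nat_lit 78) (PT.lf (nat_lit 3800) (nat_lit 6) (nat_lit 50) (nat_lit 4) (nat_lit 184) (nat_lit 209) (nat_lit 207)) (PT.lf (nat_lit 3952) (nat_lit 6) (nat_lit 52) (nat_lit 4) (nat_lit 185) (nat_lit 209) (nat_lit 206))) (PT.nd (nat_lit 1482) (PT.lf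 (nat_lit 4104) (nat_lit 6) (nat_lit 54) (nat_lit 4) (nat_lit 186) (nat_lit 209) (nat_lit 205)) (PT.nd (nat_lit 78) (PT.lf (nat_lit 4104) (nat_lit 6) (nat_lit 54) (nat_lit 2) (nat_lit 205) (nat_lit 209) (nat_lit 186)) (PT.lf (nat_lit 3952) (nat_lit 6) (nat_lit 52) (nat_lit 2) (nat_lit 206) (nat_lit 209) (nat_lit 185))))))) (PT.nd (nat_lit 60450) (PT.nd (nat_lit 312) (PT.nd (nat_lit 156) (PT.nd (nat_lit 78) (PT.lf (nat_lit 3800) (nat_lit 6) (nat_lit 50) (nat_lit 2) (nat_lit 207) (nat_lit 209) (nat_lit 184)) (PT.lf (nat_lit 3724) (nat_lit 6) (nat_lit 49) (nat_lit 2) (nat_lit 208) (nat_lit 209) (nat_lit 183))) (PT.nd (nat_lit 78) (PT.lf (nat_lit 3572) (nat_lit 3) (nat_lit 47) (nat_lit 0) (nat_lit 209) (nat_lit 209) (nat_lit 182)) (PT.lf (nat_lit 3420) (nat_lit 6) (nat_lit 45) (nat_lit 0) (nat_lit 210) (nat_lit 209) (nat_lit 181)))) (PT.nd (nat_lit 59982) (PT.nd (nat_lit 59904) (PT.lf (nat_lit 3192)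 (nat_lit 6) (nat_lit 42) (nat_lit 0) (nat_lit 211) (nat_lit 209) (nat_lit 180)) (PT.lf (nat_lit 2964) (nat_lit 6) (nat_lit 39) (nat_lit 5) (nat_lit 178) (nat_lit 210) (nat_lit 212))) (PT.nd (nat_lit 78) (PT.lf (nat_lit 3116) (nat_lit 6) (nat_lit 41) (nat_lit 5) (nat_lit 179) (nat_lit 210) (nat_lit 211)) (PT.lf (nat_lit 3268) (nat_lit 3) (nat_lit 43) (nat_lit 4) (nat_lit 180) (nat_lit 210) (nat_lit 210))))) (PT.nd (nat_lit 2106) (PT.nd (nat_lit 156) (PT.nd (nat_lit 78) (PT.lf (nat_lit 3420) (nat_lit 6) (nat_lit 45) (nat_lit 4) (nat_lit 181) (nat_lit 210) (nat_lit 209)) (PT.lf (nat_lit 3496) (nat_lit 6) (nat_lit 46) (nat_lit 4) (nat_lit 182) (nat_lit 210) (nat_lit 208))) (PT.nd (nat_lit 1872) (PT.lf (nat_lit 3648) (nat_lit 6) (nat_lit 48) (nat_lit 4) (nat_lit 183) (nat_lit 210) (nat_lit 207)) (PT.lf (nat_lit 3648) (nat_lit 6) (nat_lit 48) (nat_lit 2) (nat_lit 207) (nat_lit 210) (nat_lit 183))))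 (PT.nd (nat_lit 156) (PT.nd (nat_lit 78) (PT.lf (nat_lit 3496) (nat_lit 6) (nat_lit 46) (nat_lit 2) (nat_lit 208) (nat_lit 210) (nat_lit 182)) (PT.lf (nat_lit 3420) (nat_lit 6) (nat_lit 45) (nat_lit 2) (nat_lit 209) (nat_lit 210) (nat_lit 181))) (PT.nd (nat_lit 78) (PT.lf (nat_lit 3268) (nat_lit 3) (nat_lit 43) (nat_lit 0) (nat_lit 210) (nat_lit 210) (nat_lit 180)) (PT.nd (nat_lit 78) (PT.lf (nat_lit 3116) (nat_lit 6) (nat_lit 41) (nat_lit 0) (nat_lit 211) (nat_lit 210) (nat_lit 179)) (PT.lf (nat_lit 2964) (nat_lit 6) (nat_lit 39) (nat_lit 0) (nat_lit 212) (nat_lit 210) (nat_lit 178))))))))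
noncomputable def pc12 : PT := (PT.nd (nat_lit 65130) (PT.nd (nat_lit 2652) (PT.nd (nat_lit 312) (PT.nd (nat_lit 156) (PT.nd (nat_lit 78) (PT.lf (nat_lit 2736) (nat_lit 6) (nat_lit 36) (nat_lit 5) (nat_lit 176) (nat_lit 211) (nat_lit 213)) (PT.lf (nat_lit 2888) (nat_lit 6) (nat_lit 38) (nat_lit 5) (nat_lit 177) (nat_lit 211) (nat_lit 212))) (PT.nd (nat_lit 78) (PT.lf (nat_lit 3040) (nat_lit 3) (nat_lit 40) (nat_lit 4) (nat_lit 178) (nat_lit 211) (nat_lit 211)) (PT.lf (nat_lit 3116) (nat_lit 6) (nat_lit 41) (nat_lit 4) (nat_lit 179) (nat_lit 211) (nat_lit 210)))) (PT.nd (nat_lit 2184) (PT.nd (nat_lit 78) (PT.lf (nat_lit 3192) (nat_lit 6) (nat_lit 42) (nat_lit 4) (nat_lit 180) (nat_lit 211) (nat_lit 209)) (PT.lf (nat_lit 3344) (nat_lit 6) (nat_lit 44) (nat_lit 4) (nat_lit 181) (nat_lit 211) (nat_lit 208))) (PT.nd (nat_lit 78) (PT.lf (nat_lit 3344) (nat_lit 6) (nat_lit 44) (nat_lit 2) (nat_lit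 208) (nat_lit 211) (nat_lit 181)) (PT.lf (nat_lit 3192) (nat_lit 6) (nat_lit 42) (nat_lit 2) (nat_lit 209) (nat_lit 211) (nat_lit 180))))) (PT.nd (nat_lit 59670) (PT.nd (nat_lit 156) (PT.nd (nat_lit 78) (PT.lf (nat_lit 3116) (nat_lit 6) (nat_lit 41) (nat_lit 2) (nat_lit 210) (nat_lit 211) (nat_lit 179)) (PT.lf (nat_lit 3040) (nat_lit 3) (nat_lit 40) (nat_lit 0) (nat_lit 211) (nat_lit 211) (nat_lit 178))) (PT.nd (nat_lit 78) (PT.lf (nat_lit 2888) (nat_lit 6) (nat_lit 38) (nat_lit 0) (nat_lit 212) (nat_lit 211) (nat_lit 177)) (PT.lf (nat_lit 2736) (nat_lit 6) (nat_lit 36) (nat_lit 0) (nat_lit 213) (nat_lit 211) (nat_lit 176)))) (PT.nd (nat_lit 156) (PT.nd (nat_lit 78) (PT.lf (nat_lit 2508) (nat_lit 6) (nat_lit 33) (nat_lit 5) (nat_lit 174) (nat_lit 212) (nat_lit 214)) (PT.lf (nat_lit 2660) (nat_lit 6) (nat_lit 35) (nat_lit 5) (nat_lit 175) (nat_lit 212) (nat_lit 213))) (PT.nd (nat_lit 78) (PT.lf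 (nat_lit 2812) (nat_lit 3) (nat_lit 37) (nat_lit 4) (nat_lit 176) (nat_lit 212) (nat_lit 212)) (PT.nd (nat_lit 78) (PT.lf (nat_lit 2888) (nat_lit 6) (nat_lit 38) (nat_lit 4) (nat_lit 177) (nat_lit 212) (nat_lit 211)) (PT.lf (nat_lit 2964) (nat_lit 6) (nat_lit 39) (nat_lit 4) (nat_lit 178) (nat_lit 212) (nat_lit 210))))))) (PT.nd (nat_lit 59748) (PT.nd (nat_lit 312) (PT.nd (nat_lit 156) (PT.nd (nat_lit 78) (PT.lf (nat_lit 2964) (nat_lit 6) (nat_lit 39) (nat_lit 2) (nat_lit 210) (nat_lit 212) (nat_lit 178)) (PT.lf (nat_lit 2888) (nat_lit 6) (nat_lit 38) (nat_lit 2) (nat_lit 211) (nat_lit 212) (nat_lit 177))) (PT.nd (nat_lit 78) (PT.lf (nat_lit 2812) (nat_lit 3) (nat_lit 37) (nat_lit 0) (nat_lit 212) (nat_lit 212) (nat_lit 176)) (PT.lf (nat_lit 2660) (nat_lit 6) (nat_lit 35) (nat_lit 0) (nat_lit 213) (nat_lit 212) (nat_lit 175)))) (PT.nd (nat_lit 59280) (PT.nd (nat_lit 59202) (PT.lf (nat_lit 2508)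 (nat_lit 6) (nat_lit 33) (nat_lit 0) (nat_lit 214) (nat_lit 212) (nat_lit 174)) (PT.lf (nat_lit 2280) (nat_lit 6) (nat_lit 30) (nat_lit 5) (nat_lit 172) (nat_lit 213) (nat_lit 215))) (PT.nd (nat_lit 78) (PT.lf (nat_lit 2432) (nat_lit 6) (nat_lit 32) (nat_lit 5) (nat_lit 173) (nat_lit 213) (nat_lit 214)) (PT.lf (nat_lit 2584) (nat_lit 3) (nat_lit 34) (nat_lit 4) (nat_lit 174) (nat_lit 213) (nat_lit 213))))) (PT.nd (nat_lit 2964) (PT.nd (nat_lit 2808) (PT.nd (nat_lit 78) (PT.lf (nat_lit 2660) (nat_lit 6) (nat_lit 35) (nat_lit 4) (nat_lit 175) (nat_lit 213) (nat_lit 212)) (PT.lf (nat_lit 2736) (nat_lit 6) (nat_lit 36) (nat_lit 4) (nat_lit 176) (nat_lit 213) (nat_lit 211))) (PT.nd (nat_lit 78) (PT.lf (nat_lit 2736) (nat_lit 6) (nat_lit 36) (nat_lit 2) (nat_lit 211) (nat_lit 213) (nat_lit 176)) (PT.lf (nat_lit 2660) (nat_lit 6) (nat_lit 35) (nat_lit 2) (nat_lit 212) (nat_lit 213) (nat_lit 175))))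 (PT.nd (nat_lit 156) (PT.nd (nat_lit 78) (PT.lf (nat_lit 2584) (nat_lit 3) (nat_lit 34) (nat_lit 0) (nat_lit 213) (nat_lit 213) (nat_lit 174)) (PT.lf (nat_lit 2432) (nat_lit 6) (nat_lit 32) (nat_lit 0) (nat_lit 214) (nat_lit 213) (nat_lit 173))) (PT.nd (nat_lit 58968) (PT.lf (nat_lit 2280) (nat_lit 6) (nat_lit 30) (nat_lit 0) (nat_lit 215) (nat_lit 213) (nat_lit 172)) (PT.nd (nat_lit 78) (PT.lf (nat_lit 2052) (nat_lit 6) (nat_lit 27) (nat_lit 5) (nat_lit 170) (nat_lit 214) (nat_lit 216)) (PT.lf (nat_lit 2204) (nat_lit 6) (nat_lit 29) (nat_lit 5) (nat_lit 171) (nat_lit 214) (nat_lit 215))))))))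
noncomputable def pc13 : PT := (PT.nd (nat_lit 65988) (PT.nd (nat_lit 62166) (PT.nd (nat_lit 3198) (PT.nd (nat_lit 156) (PT.nd (nat_lit 78) (PT.lf (nat_lit 2356) (nat_lit 3) (nat_lit 31) (nat_lit 4) (nat_lit 172) (nat_lit 214) (nat_lit 214)) (PT.lf (nat_lit 2432) (nat_lit 6) (nat_lit 32) (nat_lit 4) (nat_lit 173) (nat_lit 214) (nat_lit 213))) (PT.nd (nat_lit 2964) (PT.lf (nat_lit 2508) (nat_lit 6) (nat_lit 33) (nat_lit 4) (nat_lit 174) (nat_lit 214) (nat_lit 212)) (PT.lf (nat_lit 2508) (nat_lit 6) (nat_lit 33) (nat_lit 2) (nat_lit 212) (nat_lit 214) (nat_lit 174)))) (PT.nd (nat_lit 156) (PT.nd (nat_lit 78) (PT.lf (nat_lit 2432) (nat_lit 6) (nat_lit 32) (nat_lit 2) (nat_lit 213) (nat_lit 214) (nat_lit 173)) (PT.lf (nat_lit 2356) (nat_lit 3) (nat_lit 31) (nat_lit 0) (nat_lit 214) (nat_lit 214) (nat_lit 172))) (PT.nd (nat_lit 78) (PT.lf (nat_lit 2204) (nat_lit 6) (nat_lit 29) (nat_lit 0) (nat_lit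 215) (nat_lit 214) (nat_lit 171)) (PT.lf (nat_lit 2052) (nat_lit 6) (nat_lit 27) (nat_lit 0) (nat_lit 216) (nat_lit 214) (nat_lit 170))))) (PT.nd (nat_lit 312) (PT.nd (nat_lit 156) (PT.nd (nat_lit 78) (PT.lf (nat_lit 1824) (nat_lit 6) (nat_lit 24) (nat_lit 5) (nat_lit 168) (nat_lit 215) (nat_lit 217)) (PT.lf (nat_lit 1976) (nat_lit 6) (nat_lit 26) (nat_lit 5) (nat_lit 169) (nat_lit 215) (nat_lit 216))) (PT.nd (nat_lit 78) (PT.lf (nat_lit 2128) (nat_lit 3) (nat_lit 28) (nat_lit 4) (nat_lit 170) (nat_lit 215) (nat_lit 215)) (PT.lf (nat_lit 2204) (nat_lit 6) (nat_lit 29) (nat_lit 4) (nat_lit 171) (nat_lit 215) (nat_lit 214)))) (PT.nd (nat_lit 3276) (PT.nd (nat_lit 3198) (PT.lf (nat_lit 2280) (nat_lit 6) (nat_lit 30) (nat_lit 4) (nat_lit 172) (nat_lit 215) (nat_lit 213)) (PT.lf (nat_lit 2280) (nat_lit 6) (nat_lit 30) (nat_lit 2) (nat_lit 213) (nat_lit 215) (nat_lit 172))) (PT.nd (nat_lit 78) (PT.lf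 (nat_lit 2204) (nat_lit 6) (nat_lit 29) (nat_lit 2) (nat_lit 214) (nat_lit 215) (nat_lit 171)) (PT.nd (nat_lit 78) (PT.lf (nat_lit 2128) (nat_lit 3) (nat_lit 28) (nat_lit 0) (nat_lit 215) (nat_lit 215) (nat_lit 170)) (PT.lf (nat_lit 1976) (nat_lit 6) (nat_lit 26) (nat_lit 0) (nat_lit 216) (nat_lit 215) (nat_lit 169))))))) (PT.nd (nat_lit 62400) (PT.nd (nat_lit 58734) (PT.nd (nat_lit 58578) (PT.nd (nat_lit 58500) (PT.lf (nat_lit 1824) (nat_lit 6) (nat_lit 24) (nat_lit 0) (nat_lit 217) (nat_lit 215) (nat_lit 168)) (PT.lf (nat_lit 1596) (nat_lit 6) (nat_lit 21) (nat_lit 5) (nat_lit 166) (nat_lit 216) (nat_lit 218))) (PT.nd (nat_lit 78) (PT.lf (nat_lit 1748) (nat_lit 6) (nat_lit 23) (nat_lit 5) (nat_lit 167) (nat_lit 216) (nat_lit 217)) (PT.lf (nat_lit 1900) (nat_lit 3) (nat_lit 25) (nat_lit 4) (nat_lit 168) (nat_lit 216) (nat_lit 216)))) (PT.nd (nat_lit 3510) (PT.nd (nat_lit 78) (PT.lf (nat_lit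 1976) (nat_lit 6) (nat_lit 26) (nat_lit 4) (nat_lit 169) (nat_lit 216) (nat_lit 215)) (PT.lf (nat_lit 2052) (nat_lit 6) (nat_lit 27) (nat_lit 4) (nat_lit 170) (nat_lit 216) (nat_lit 214))) (PT.nd (nat_lit 78) (PT.lf (nat_lit 2052) (nat_lit 6) (nat_lit 27) (nat_lit 2) (nat_lit 214) (nat_lit 216) (nat_lit 170)) (PT.lf (nat_lit 1976) (nat_lit 6) (nat_lit 26) (nat_lit 2) (nat_lit 215) (nat_lit 216) (nat_lit 169))))) (PT.nd (nat_lit 58500) (PT.nd (nat_lit 156) (PT.nd (nat_lit 78) (PT.lf (nat_lit 1900) (nat_lit 3) (nat_lit 25) (nat_lit 0) (nat_lit 216) (nat_lit 216) (nat_lit 168)) (PT.lf (nat_lit 1748) (nat_lit 6) (nat_lit 23) (nat_lit 0) (nat_lit 217) (nat_lit 216) (nat_lit 167))) (PT.nd (nat_lit 58266) (PT.lf (nat_lit 1596) (nat_lit 6) (nat_lit 21) (nat_lit 0) (nat_lit 218) (nat_lit 216) (nat_lit 166)) (PT.lf (nat_lit 1368) (nat_lit 6) (nat_lit 18) (nat_lit 5) (nat_lit 164) (nat_lit 217) (nat_lit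 219)))) (PT.nd (nat_lit 156) (PT.nd (nat_lit 78) (PT.lf (nat_lit 1520) (nat_lit 6) (nat_lit 20) (nat_lit 5) (nat_lit 165) (nat_lit 217) (nat_lit 218)) (PT.lf (nat_lit 1672) (nat_lit 3) (nat_lit 22) (nat_lit 4) (nat_lit 166) (nat_lit 217) (nat_lit 217))) (PT.nd (nat_lit 78) (PT.lf (nat_lit 1748) (nat_lit 6) (nat_lit 23) (nat_lit 4) (nat_lit 167) (nat_lit 217) (nat_lit 216)) (PT.nd (nat_lit 3666) (PT.lf (nat_lit 1824) (nat_lit 6) (nat_lit 24) (nat_lit 4) (nat_lit 168) (nat_lit 217) (nat_lit 215)) (PT.lf (nat_lit 1824) (nat_lit 6) (nat_lit 24) (nat_lit 2) (nat_lit 215) (nat_lit 217) (nat_lit 168))))))))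
noncomputable def pc14 : PT := (PT.nd (nat_lit 120822) (PT.nd (nat_lit 58578) (PT.nd (nat_lit 58266) (PT.nd (nat_lit 156) (PT.nd (nat_lit 78) (PT.lf (nat_lit 1748) (nat_lit 6) (nat_lit 23) (nat_lit 2) (nat_lit 216) (nat_lit 217) (nat_lit 167)) (PT.lf (nat_lit 1672) (nat_lit 3) (nat_lit 22) (nat_lit 0) (nat_lit 217) (nat_lit 217) (nat_lit 166))) (PT.nd (nat_lit 78) (PT.lf (nat_lit 1520) (nat_lit 6) (nat_lit 20) (nat_lit 0) (nat_lit 218) (nat_lit 217) (nat_lit 165)) (PT.lf (nat_lit 1368) (nat_lit 6) (nat_lit 18) (nat_lit 0) (nat_lit 219) (nat_lit 217) (nat_lit 164)))) (PT.nd (nat_lit 156) (PT.nd (nat_lit 78) (PT.lf (nat_lit 1140) (nat_lit 6) (nat_lit 15) (nat_lit 5) (nat_lit 162) (nat_lit 218) (nat_lit 220)) (PT.lf (nat_lit 1292) (nat_lit 6) (nat_lit 17) (nat_lit 5) (nat_lit 163) (nat_lit 218) (nat_lit 219))) (PT.nd (nat_lit 78) (PT.lf (nat_lit 1444) (nat_lit 3) (nat_lit 19) (nat_lit 4) (nat_lit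 164) (nat_lit 218) (nat_lit 218)) (PT.lf (nat_lit 1520) (nat_lit 6) (nat_lit 20) (nat_lit 4) (nat_lit 165) (nat_lit 218) (nat_lit 217))))) (PT.nd (nat_lit 4134) (PT.nd (nat_lit 3978) (PT.nd (nat_lit 3900) (PT.lf (nat_lit 1596) (nat_lit 6) (nat_lit 21) (nat_lit 4) (nat_lit 166) (nat_lit 218) (nat_lit 216)) (PT.lf (nat_lit 1596) (nat_lit 6) (nat_lit 21) (nat_lit 2) (nat_lit 216) (nat_lit 218) (nat_lit 166))) (PT.nd (nat_lit 78) (PT.lf (nat_lit 1520) (nat_lit 6) (nat_lit 20) (nat_lit 2) (nat_lit 217) (nat_lit 218) (nat_lit 165)) (PT.lf (nat_lit 1444) (nat_lit 3) (nat_lit 19) (nat_lit 0) (nat_lit 218) (nat_lit 218) (nat_lit 164)))) (PT.nd (nat_lit 57876) (PT.nd (nat_lit 78) (PT.lf (nat_lit 1292) (nat_lit 6) (nat_lit 17) (nat_lit 0) (nat_lit 219) (nat_lit 218) (nat_lit 163)) (PT.lf (nat_lit 1140) (nat_lit 6) (nat_lit 15) (nat_lit 0) (nat_lit 220) (nat_lit 218) (nat_lit 162))) (PT.nd (nat_lit 78)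 (PT.lf (nat_lit 912) (nat_lit 6) (nat_lit 12) (nat_lit 5) (nat_lit 160) (nat_lit 219) (nat_lit 221)) (PT.nd (nat_lit 78) (PT.lf (nat_lit 1064) (nat_lit 6) (nat_lit 14) (nat_lit 5) (nat_lit 161) (nat_lit 219) (nat_lit 220)) (PT.lf (nat_lit 1216) (nat_lit 3) (nat_lit 16) (nat_lit 4) (nat_lit 162) (nat_lit 219) (nat_lit 219))))))) (PT.nd (nat_lit 62166) (PT.nd (nat_lit 4368) (PT.nd (nat_lit 4212) (PT.nd (nat_lit 78) (PT.lf (nat_lit 1292) (nat_lit 6) (nat_lit 17) (nat_lit 4) (nat_lit 163) (nat_lit 219) (nat_lit 218)) (PT.lf (nat_lit 1368) (nat_lit 6) (nat_lit 18) (nat_lit 4) (nat_lit 164) (nat_lit 219) (nat_lit 217))) (PT.nd (nat_lit 78) (PT.lf (nat_lit 1368) (nat_lit 6) (nat_lit 18) (nat_lit 2) (nat_lit 217) (nat_lit 219) (nat_lit 164)) (PT.lf (nat_lit 1292) (nat_lit 6) (nat_lit 17) (nat_lit 2) (nat_lit 218) (nat_lit 219) (nat_lit 163)))) (PT.nd (nat_lit 156) (PT.nd (nat_lit 78) (PT.lf (nat_lit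 1216) (nat_lit 3) (nat_lit 16) (nat_lit 0) (nat_lit 219) (nat_lit 219) (nat_lit 162)) (PT.lf (nat_lit 1064) (nat_lit 6) (nat_lit 14) (nat_lit 0) (nat_lit 220) (nat_lit 219) (nat_lit 161))) (PT.nd (nat_lit 57564) (PT.lf (nat_lit 912) (nat_lit 6) (nat_lit 12) (nat_lit 0) (nat_lit 221) (nat_lit 219) (nat_lit 160)) (PT.lf (nat_lit 684) (nat_lit 6) (nat_lit 9) (nat_lit 5) (nat_lit 158) (nat_lit 220) (nat_lit 222))))) (PT.nd (nat_lit 4602) (PT.nd (nat_lit 156) (PT.nd (nat_lit 78) (PT.lf (nat_lit 836) (nat_lit 6) (nat_lit 11) (nat_lit 5) (nat_lit 159) (nat_lit 220) (nat_lit 221)) (PT.lf (nat_lit 988) (nat_lit 3) (nat_lit 13) (nat_lit 4) (nat_lit 160) (nat_lit 220) (nat_lit 220))) (PT.nd (nat_lit 78) (PT.lf (nat_lit 1064) (nat_lit 6) (nat_lit 14) (nat_lit 4) (nat_lit 161) (nat_lit 220) (nat_lit 219)) (PT.lf (nat_lit 1140) (nat_lit 6) (nat_lit 15) (nat_lit 4) (nat_lit 162) (nat_lit 220) (nat_lit 218))))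 (PT.nd (nat_lit 156) (PT.nd (nat_lit 78) (PT.lf (nat_lit 1140) (nat_lit 6) (nat_lit 15) (nat_lit 2) (nat_lit 218) (nat_lit 220) (nat_lit 162)) (PT.lf (nat_lit 1064) (nat_lit 6) (nat_lit 14) (nat_lit 2) (nat_lit 219) (nat_lit 220) (nat_lit 161))) (PT.nd (nat_lit 78) (PT.lf (nat_lit 988) (nat_lit 3) (nat_lit 13) (nat_lit 0) (nat_lit 220) (nat_lit 220) (nat_lit 160)) (PT.nd (nat_lit 78) (PT.lf (nat_lit 836) (nat_lit 6) (nat_lit 11) (nat_lit 0) (nat_lit 221) (nat_lit 220) (nat_lit 159)) (PT.lf (nat_lit 684) (nat_lit 6) (nat_lit 9) (nat_lit 0) (nat_lit 222) (nat_lit 220) (nat_lit 158))))))))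
noncomputable def pc15 : PT := (PT.nd (nat_lit 67626) (PT.nd (nat_lit 5148) (PT.nd (nat_lit 312) (PT.nd (nat_lit 156) (PT.nd (nat_lit 78) (PT.lf (nat_lit 456) (nat_lit 6) (nat_lit 6) (nat_lit 5) (nat_lit 156) (nat_lit 221) (nat_lit 223)) (PT.lf (nat_lit 608) (nat_lit 6) (nat_lit 8) (nat_lit 5) (nat_lit 157) (nat_lit 221) (nat_lit 222))) (PT.nd (nat_lit 78) (PT.lf (nat_lit 760) (nat_lit 3) (nat_lit 10) (nat_lit 4) (nat_lit 158) (nat_lit 221) (nat_lit 221)) (PT.lf (nat_lit 836) (nat_lit 6) (nat_lit 11) (nat_lit 4) (nat_lit 159) (nat_lit 221) (nat_lit 220)))) (PT.nd (nat_lit 4680) (PT.nd (nat_lit 4602) (PT.lf (nat_lit 912) (nat_lit 6) (nat_lit 12) (nat_lit 4) (nat_lit 160) (nat_lit 221) (nat_lit 219)) (PT.lf (nat_lit 912) (nat_lit 6) (nat_lit 12) (nat_lit 2) (nat_lit 219) (nat_lit 221) (nat_lit 160))) (PT.nd (nat_lit 78) (PT.lf (nat_lit 836) (nat_lit 6) (nat_lit 11) (nat_lit 2) (nat_lit 220) (nat_lit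 221) (nat_lit 159)) (PT.lf (nat_lit 760) (nat_lit 3) (nat_lit 10) (nat_lit 0) (nat_lit 221) (nat_lit 221) (nat_lit 158))))) (PT.nd (nat_lit 57330) (PT.nd (nat_lit 57174) (PT.nd (nat_lit 78) (PT.lf (nat_lit 608) (nat_lit 6) (nat_lit 8) (nat_lit 0) (nat_lit 222) (nat_lit 221) (nat_lit 157)) (PT.lf (nat_lit 456) (nat_lit 6) (nat_lit 6) (nat_lit 0) (nat_lit 223) (nat_lit 221) (nat_lit 156))) (PT.nd (nat_lit 78) (PT.lf (nat_lit 228) (nat_lit 6) (nat_lit 3) (nat_lit 5) (nat_lit 154) (nat_lit 222) (nat_lit 224)) (PT.lf (nat_lit 380) (nat_lit 6) (nat_lit 5) (nat_lit 5) (nat_lit 155) (nat_lit 222) (nat_lit 223)))) (PT.nd (nat_lit 156) (PT.nd (nat_lit 78) (PT.lf (nat_lit 532) (nat_lit 3) (nat_lit 7) (nat_lit 4) (nat_lit 156) (nat_lit 222) (nat_lit 222)) (PT.lf (nat_lit 608) (nat_lit 6) (nat_lit 8) (nat_lit 4) (nat_lit 157) (nat_lit 222) (nat_lit 221))) (PT.nd (nat_lit 4836) (PT.lf (nat_lit 684) (nat_lit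 6) (nat_lit 9) (nat_lit 4) (nat_lit 158) (nat_lit 222) (nat_lit 220)) (PT.nd (nat_lit 78) (PT.lf (nat_lit 684) (nat_lit 6) (nat_lit 9) (nat_lit 2) (nat_lit 220) (nat_lit 222) (nat_lit 158)) (PT.lf (nat_lit 608) (nat_lit 6) (nat_lit 8) (nat_lit 2) (nat_lit 221) (nat_lit 222) (nat_lit 157))))))) (PT.nd (nat_lit 62478) (PT.nd (nat_lit 57174) (PT.nd (nat_lit 156) (PT.nd (nat_lit 78) (PT.lf (nat_lit 532) (nat_lit 3) (nat_lit 7) (nat_lit 0) (nat_lit 222) (nat_lit 222) (nat_lit 156)) (PT.lf (nat_lit 380) (nat_lit 6) (nat_lit 5) (nat_lit 0) (nat_lit 223) (nat_lit 222) (nat_lit 155))) (PT.nd (nat_lit 56940) (PT.lf (nat_lit 228) (nat_lit 6) (nat_lit 3) (nat_lit 0) (nat_lit 224) (nat_lit 222) (nat_lit 154)) (PT.lf (nat_lit 152) (nat_lit 6) (nat_lit 2) (nat_lit 5) (nat_lit 153) (nat_lit 223) (nat_lit 224)))) (PT.nd (nat_lit 156) (PT.nd (nat_lit 78) (PT.lf (nat_lit 304) (nat_lit 3) (nat_lit 4) (nat_lit 4)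 (nat_lit 154) (nat_lit 223) (nat_lit 223)) (PT.lf (nat_lit 380) (nat_lit 6) (nat_lit 5) (nat_lit 4) (nat_lit 155) (nat_lit 223) (nat_lit 222))) (PT.nd (nat_lit 5070) (PT.lf (nat_lit 456) (nat_lit 6) (nat_lit 6) (nat_lit 4) (nat_lit 156) (nat_lit 223) (nat_lit 221)) (PT.lf (nat_lit 456) (nat_lit 6) (nat_lit 6) (nat_lit 2) (nat_lit 221) (nat_lit 223) (nat_lit 156))))) (PT.nd (nat_lit 57096) (PT.nd (nat_lit 156) (PT.nd (nat_lit 78) (PT.lf (nat_lit 380) (nat_lit 6) (nat_lit 5) (nat_lit 2) (nat_lit 222) (nat_lit 223) (nat_lit 155)) (PT.lf (nat_lit 304) (nat_lit 3) (nat_lit 4) (nat_lit 0) (nat_lit 223) (nat_lit 223) (nat_lit 154))) (PT.nd (nat_lit 56862) (PT.lf (nat_lit 152) (nat_lit 6) (nat_lit 2) (nat_lit 0) (nat_lit 224) (nat_lit 223) (nat_lit 153)) (PT.lf (nat_lit 76) (nat_lit 3) (nat_lit 1) (nat_lit 4) (nat_lit 152) (nat_lit 224) (nat_lit 224)))) (PT.nd (nat_lit 5382) (PT.nd (nat_lit 78) (PT.lf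 (nat_lit 152) (nat_lit 6) (nat_lit 2) (nat_lit 4) (nat_lit 153) (nat_lit 224) (nat_lit 223)) (PT.lf (nat_lit 228) (nat_lit 6) (nat_lit 3) (nat_lit 4) (nat_lit 154) (nat_lit 224) (nat_lit 222))) (PT.nd (nat_lit 78) (PT.lf (nat_lit 228) (nat_lit 6) (nat_lit 3) (nat_lit 2) (nat_lit 222) (nat_lit 224) (nat_lit 154)) (PT.nd (nat_lit 78) (PT.lf (nat_lit 152) (nat_lit 6) (nat_lit 2) (nat_lit 2) (nat_lit 223) (nat_lit 224) (nat_lit 153)) (PT.lf (nat_lit 76) (nat_lit 3) (nat_lit 1) (nat_lit 0) (nat_lit 224) (nat_lit 224) (nat_lit 152))))))))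
noncomputable def xc0 : XT := (XT.nd (nat_lit 249678) (nat_lit 0) (nat_lit 0) (XT.nd (nat_lit 125112) (nat_lit 0) (nat_lit 0) (XT.nd (nat_lit 62634) (nat_lit 0) (nat_lit 0) (XT.nd (nat_lit 62322) (nat_lit 0) (nat_lit 0) (XT.nd (nat_lit 78) (nat_lit 0) (nat_lit 0) (XT.lf (nat_lit 0) (nat_lit 239785103512) (nat_lit 76) (nat_lit 208002021578) (nat_lit 76) (nat_lit 208002021578) (nat_lit 1) (nat_lit 4) (nat_lit 2) (nat_lit 5) (nat_lit 2) (nat_lit 4) (nat_lit 502) (nat_lit 349) (nat_lit 349)) (XT.nd (nat_lit 78) (nat_lit 0) (nat_lit 0) (XT.lf (nat_lit 0) (nat_lit 525930497165) (nat_lit 76) (nat_lit 445196635029) (nat_lit 76) (nat_lit 445181236184) (nat_lit 1) (nat_lit 4) (nat_lit 2) (nat_lit 5) (nat_lit 2) (nat_lit 4) (nat_lit 503) (nat_lit 349) (nat_lit 348)) (XT.lf (nat_lit 0) (nat_lit 575609809274) (nat_lit 76) (nat_lit 476923131430) (nat_lit 76) (nat_lit 476893474396) (nat_lit 1) (nat_lit 4)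 (nat_lit 2) (nat_lit 5) (nat_lit 2) (nat_lit 4) (nat_lit 504) (nat_lit 349) (nat_lit 347)))) (XT.nd (nat_lit 156) (nat_lit 0) (nat_lit 0) (XT.nd (nat_lit 78) (nat_lit 0) (nat_lit 0) (XT.lf (nat_lit 0) (nat_lit 197972205435) (nat_lit 76) (nat_lit 182223955342) (nat_lit 76) (nat_lit 182223955342) (nat_lit 1) (nat_lit 4) (nat_lit 2) (nat_lit 5) (nat_lit 2) (nat_lit 4) (nat_lit 500) (nat_lit 350) (nat_lit 350)) (XT.lf (nat_lit 0) (nat_lit 436254211206) (nat_lit 76) (nat_lit 389188993431) (nat_lit 76) (nat_lit 389172362679) (nat_lit 1) (nat_lit 4) (nat_lit 2) (nat_lit 5) (nat_lit 2) (nat_lit 4) (nat_lit 501) (nat_lit 350) (nat_lit 349))) (XT.nd (nat_lit 78) (nat_lit 0) (nat_lit 0) (XT.lf (nat_lit 0) (nat_lit 479367810225) (nat_lit 76) (nat_lit 416123739753) (nat_lit 76) (nat_lit 416091710156) (nat_lit 1) (nat_lit 4) (nat_lit 2) (nat_lit 5) (nat_lit 2) (nat_lit 4) (nat_lit 502) (nat_lit 350) (nat_lit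 348)) (XT.lf (nat_lit 0) (nat_lit 525540695922) (nat_lit 76) (nat_lit 445411762961) (nat_lit 76) (nat_lit 445365475175) (nat_lit 1) (nat_lit 4) (nat_lit 2) (nat_lit 5) (nat_lit 2) (nat_lit 4) (nat_lit 503) (nat_lit 350) (nat_lit 347))))) (XT.nd (nat_lit 62166) (nat_lit 0) (nat_lit 0) (XT.nd (nat_lit 62010) (nat_lit 0) (nat_lit 0) (XT.lf (nat_lit 0) (nat_lit 575046485397) (nat_lit 76) (nat_lit 477226621712) (nat_lit 76) (nat_lit 477167131898) (nat_lit 1) (nat_lit 4) (nat_lit 2) (nat_lit 5) (nat_lit 2) (nat_lit 4) (nat_lit 504) (nat_lit 350) (nat_lit 346)) (XT.nd (nat_lit 78) (nat_lit 0) (nat_lit 0) (XT.lf (nat_lit 0) (nat_lit 161515994938) (nat_lit 76) (nat_lit 160435078248) (nat_lit 76) (nat_lit 160435078248) (nat_lit 1) (nat_lit 4) (nat_lit 2) (nat_lit 5) (nat_lit 2) (nat_lit 4) (nat_lit 498) (nat_lit 351) (nat_lit 351)) (XT.lf (nat_lit 0) (nat_lit 358199536330) (nat_lit 76) (nat_lit 341771838901)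 (nat_lit 76) (nat_lit 341753877688) (nat_lit 1) (nat_lit 4) (nat_lit 2) (nat_lit 5) (nat_lit 2) (nat_lit 4) (nat_lit 499) (nat_lit 351) (nat_lit 350)))) (XT.nd (nat_lit 156) (nat_lit 0) (nat_lit 0) (XT.nd (nat_lit 78) (nat_lit 0) (nat_lit 0) (XT.lf (nat_lit 0) (nat_lit 395725822328) (nat_lit 76) (nat_lit 364577183008) (nat_lit 76) (nat_lit 364542591043) (nat_lit 1) (nat_lit 4) (nat_lit 2) (nat_lit 5) (nat_lit 2) (nat_lit 4) (nat_lit 500) (nat_lit 351) (nat_lit 349)) (XT.lf (nat_lit 0) (nat_lit 435833225863) (nat_lit 76) (nat_lit 389421331599) (nat_lit 76) (nat_lit 389371340789) (nat_lit 1) (nat_lit 4) (nat_lit 2) (nat_lit 5) (nat_lit 2) (nat_lit 4) (nat_lit 501) (nat_lit 351) (nat_lit 348))) (XT.nd (nat_lit 78) (nat_lit 0) (nat_lit 0) (XT.lf (nat_lit 0) (nat_lit 478759420438) (nat_lit 76) (nat_lit 416451509258) (nat_lit 76) (nat_lit 416387260258) (nat_lit 1) (nat_lit 4) (nat_lit 2) (nat_lit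 5) (nat_lit 2) (nat_lit 4) (nat_lit 502) (nat_lit 351) (nat_lit 347)) (XT.lf (nat_lit 0) (nat_lit 524758783502) (nat_lit 76) (nat_lit 445827894815) (nat_lit 76) (nat_lit 445750443788) (nat_lit 1) (nat_lit 4) (nat_lit 2) (nat_lit 5) (nat_lit 2) (nat_lit 4) (nat_lit 503) (nat_lit 351) (nat_lit 346)))))) (XT.nd (nat_lit 62322) (nat_lit 0) (nat_lit 0) (XT.nd (nat_lit 62010) (nat_lit 0) (nat_lit 0) (XT.nd (nat_lit 61854) (nat_lit 0) (nat_lit 0) (XT.lf (nat_lit 0) (nat_lit 574103903872) (nat_lit 76) (nat_lit 477724570555) (nat_lit 76) (nat_lit 477634895429) (nat_lit 1) (nat_lit 4) (nat_lit 2) (nat_lit 5) (nat_lit 2) (nat_lit 4) (nat_lit 504) (nat_lit 351) (nat_lit 345)) (XT.nd (nat_lit 78) (nat_lit 0) (nat_lit 0) (XT.lf (nat_lit 0) (nat_lit 129603609468) (nat_lit 76) (nat_lit 142091220653) (nat_lit 76) (nat_lit 142091220653) (nat_lit 1) (nat_lit 4) (nat_lit 2) (nat_lit 5) (nat_lit 2) (nat_lit 4) (nat_lit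 496) (nat_lit 352) (nat_lit 352)) (XT.lf (nat_lit 0) (nat_lit 290014782695) (nat_lit 76) (nat_lit 301767672085) (nat_lit 76) (nat_lit 301748273976) (nat_lit 1) (nat_lit 4) (nat_lit 2) (nat_lit 5) (nat_lit 2) (nat_lit 4) (nat_lit 497) (nat_lit 352) (nat_lit 351)))) (XT.nd (nat_lit 156) (nat_lit 0) (nat_lit 0) (XT.nd (nat_lit 78) (nat_lit 0) (nat_lit 0) (XT.lf (nat_lit 0) (nat_lit 322795914250) (nat_lit 76) (nat_lit 321009770607) (nat_lit 76) (nat_lit 320972411285) (nat_lit 1) (nat_lit 4) (nat_lit 2) (nat_lit 5) (nat_lit 2) (nat_lit 4) (nat_lit 498) (nat_lit 352) (nat_lit 350)) (XT.lf (nat_lit 0) (nat_lit 357744872159) (nat_lit 76) (nat_lit 342022764122) (nat_lit 76) (nat_lit 341968774047) (nat_lit 1) (nat_lit 4) (nat_lit 2) (nat_lit 5) (nat_lit 2) (nat_lit 4) (nat_lit 499) (nat_lit 352) (nat_lit 349))) (XT.nd (nat_lit 78) (nat_lit 0) (nat_lit 0) (XT.lf (nat_lit 0) (nat_lit 395068761358) (nat_lit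 76) (nat_lit 364931174073) (nat_lit 76) (nat_lit 364861785154) (nat_lit 1) (nat_lit 4) (nat_lit 2) (nat_lit 5) (nat_lit 2) (nat_lit 4) (nat_lit 500) (nat_lit 352) (nat_lit 348)) (XT.lf (nat_lit 0) (nat_lit 434988760450) (nat_lit 76) (nat_lit 389870754000) (nat_lit 76) (nat_lit 389787106892) (nat_lit 1) (nat_lit 4) (nat_lit 2) (nat_lit 5) (nat_lit 2) (nat_lit 4) (nat_lit 501) (nat_lit 352) (nat_lit 347))))) (XT.nd (nat_lit 61932) (nat_lit 0) (nat_lit 0) (XT.nd (nat_lit 156) (nat_lit 0) (nat_lit 0) (XT.nd (nat_lit 78) (nat_lit 0) (nat_lit 0) (XT.lf (nat_lit 0) (nat_lit 477741432391) (nat_lit 76) (nat_lit 416989294008) (nat_lit 76) (nat_lit 416892444872) (nat_lit 1) (nat_lit 4) (nat_lit 2) (nat_lit 5) (nat_lit 2) (nat_lit 4) (nat_lit 502) (nat_lit 352) (nat_lit 346)) (XT.lf (nat_lit 0) (nat_lit 523580126350) (nat_lit 76) (nat_lit 446447496555) (nat_lit 76) (nat_lit 446338423319) (nat_lit 1) (nat_lit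 4) (nat_lit 2) (nat_lit 5) (nat_lit 2) (nat_lit 4) (nat_lit 503) (nat_lit 352) (nat_lit 345))) (XT.nd (nat_lit 61698) (nat_lit 0) (nat_lit 0) (XT.lf (nat_lit 0) (nat_lit 572776479031) (nat_lit 76) (nat_lit 478419928767) (nat_lit 76) (nat_lit 478299536921) (nat_lit 1) (nat_lit 4) (nat_lit 2) (nat_lit 5) (nat_lit 2) (nat_lit 4) (nat_lit 504) (nat_lit 352) (nat_lit 344)) (XT.lf (nat_lit 0) (nat_lit 101534256709) (nat_lit 76) (nat_lit 126727839417) (nat_lit 76) (nat_lit 126727839417) (nat_lit 1) (nat_lit 4) (nat_lit 2) (nat_lit 5) (nat_lit 2) (nat_lit 4) (nat_lit 494) (nat_lit 353) (nat_lit 353)))) (XT.nd (nat_lit 156) (nat_lit 0) (nat_lit 0) (XT.nd (nat_lit 78) (nat_lit 0) (nat_lit 0) (XT.lf (nat_lit 0) (nat_lit 230190659634) (nat_lit 76) (nat_lit 268170819453) (nat_lit 76) (nat_lit 268149869495) (nat_lit 1) (nat_lit 4) (nat_lit 2) (nat_lit 5) (nat_lit 2) (nat_lit 4) (nat_lit 495) (nat_lit 353)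 (nat_lit 352)) (XT.lf (nat_lit 0) (nat_lit 258952257260) (nat_lit 76) (nat_lit 284333224545) (nat_lit 76) (nat_lit 284292876477) (nat_lit 1) (nat_lit 4) (nat_lit 2) (nat_lit 5) (nat_lit 2) (nat_lit 4) (nat_lit 496) (nat_lit 353) (nat_lit 351))) (XT.nd (nat_lit 78) (nat_lit 0) (nat_lit 0) (XT.lf (nat_lit 0) (nat_lit 289523745391) (nat_lit 76) (nat_lit 302038671324) (nat_lit 76) (nat_lit 301980362044) (nat_lit 1) (nat_lit 4) (nat_lit 2) (nat_lit 5) (nat_lit 2) (nat_lit 4) (nat_lit 497) (nat_lit 353) (nat_lit 350)) (XT.lf (nat_lit 0) (nat_lit 322086288403) (nat_lit 76) (nat_lit 321392080957) (nat_lit 76) (nat_lit 321317140924) (nat_lit 1) (nat_lit 4) (nat_lit 2) (nat_lit 5) (nat_lit 2) (nat_lit 4) (nat_lit 498) (nat_lit 353) (nat_lit 349))))))) (XT.nd (nat_lit 62634) (nat_lit 0) (nat_lit 0) (XT.nd (nat_lit 62010) (nat_lit 0) (nat_lit 0) (XT.nd (nat_lit 234) (nat_lit 0) (nat_lit 0) (XT.nd (nat_lit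 78) (nat_lit 0) (nat_lit 0) (XT.lf (nat_lit 0) (nat_lit 356832849512) (nat_lit 76) (nat_lit 342508140315) (nat_lit 76) (nat_lit 342417801438) (nat_lit 1) (nat_lit 4) (nat_lit 2) (nat_lit 5) (nat_lit 2) (nat_lit 4) (nat_lit 499) (nat_lit 353) (nat_lit 348)) (XT.nd (nat_lit 78) (nat_lit 0) (nat_lit 0) (XT.lf (nat_lit 0) (nat_lit 393969334267) (nat_lit 76) (nat_lit 365511981603) (nat_lit 76) (nat_lit 365407384536) (nat_lit 1) (nat_lit 4) (nat_lit 2) (nat_lit 5) (nat_lit 2) (nat_lit 4) (nat_lit 500) (nat_lit 353) (nat_lit 347)) (XT.lf (nat_lit 0) (nat_lit 433715810726) (nat_lit 76) (nat_lit 390539923880) (nat_lit 76) (nat_lit 390422124785) (nat_lit 1) (nat_lit 4) (nat_lit 2) (nat_lit 5) (nat_lit 2) (nat_lit 4) (nat_lit 501) (nat_lit 353) (nat_lit 346)))) (XT.nd (nat_lit 156) (nat_lit 0) (nat_lit 0) (XT.nd (nat_lit 78) (nat_lit 0) (nat_lit 0) (XT.lf (nat_lit 0) (nat_lit 476307813562) (nat_lit 76)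 (nat_lit 417740280877) (nat_lit 76) (nat_lit 417610257683) (nat_lit 1) (nat_lit 4) (nat_lit 2) (nat_lit 5) (nat_lit 2) (nat_lit 4) (nat_lit 502) (nat_lit 353) (nat_lit 345)) (XT.lf (nat_lit 0) (nat_lit 521997739831) (nat_lit 76) (nat_lit 447274239896) (nat_lit 76) (nat_lit 447132898092) (nat_lit 1) (nat_lit 4) (nat_lit 2) (nat_lit 5) (nat_lit 2) (nat_lit 4) (nat_lit 503) (nat_lit 353) (nat_lit 344))) (XT.nd (nat_lit 61542) (nat_lit 0) (nat_lit 0) (XT.lf (nat_lit 0) (nat_lit 571056344651) (nat_lit 76) (nat_lit 479316816990) (nat_lit 76) (nat_lit 479164994990) (nat_lit 1) (nat_lit 4) (nat_lit 2) (nat_lit 5) (nat_lit 2) (nat_lit 4) (nat_lit 504) (nat_lit 353) (nat_lit 343)) (XT.lf (nat_lit 0) (nat_lit 76702915012) (nat_lit 76) (nat_lit 113948817866) (nat_lit 76) (nat_lit 113948817866) (nat_lit 1) (nat_lit 4) (nat_lit 2) (nat_lit 5) (nat_lit 2) (nat_lit 4) (nat_lit 492) (nat_lit 354) (nat_lit 354)))))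 (XT.nd (nat_lit 312) (nat_lit 0) (nat_lit 0) (XT.nd (nat_lit 156) (nat_lit 0) (nat_lit 0) (XT.nd (nat_lit 78) (nat_lit 0) (nat_lit 0) (XT.lf (nat_lit 0) (nat_lit 177425094781) (nat_lit 76) (nat_lit 240123227809) (nat_lit 76) (nat_lit 240100601854) (nat_lit 1) (nat_lit 4) (nat_lit 2) (nat_lit 5) (nat_lit 2) (nat_lit 4) (nat_lit 493) (nat_lit 354) (nat_lit 353)) (XT.lf (nat_lit 0) (nat_lit 202793154807) (nat_lit 76) (nat_lit 253618524732) (nat_lit 76) (nat_lit 253574948819) (nat_lit 1) (nat_lit 4) (nat_lit 2) (nat_lit 5) (nat_lit 2) (nat_lit 4) (nat_lit 494) (nat_lit 354) (nat_lit 352))) (XT.nd (nat_lit 78) (nat_lit 0) (nat_lit 0) (XT.lf (nat_lit 0) (nat_lit 229660339346) (nat_lit 76) (nat_lit 268463498631) (nat_lit 76) (nat_lit 268400524608) (nat_lit 1) (nat_lit 4) (nat_lit 2) (nat_lit 5) (nat_lit 2) (nat_lit 4) (nat_lit 495) (nat_lit 354) (nat_lit 351)) (XT.lf (nat_lit 0) (nat_lit 258185861345)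 (nat_lit 76) (nat_lit 284746119723) (nat_lit 76) (nat_lit 284665184487) (nat_lit 1) (nat_lit 4) (nat_lit 2) (nat_lit 5) (nat_lit 2) (nat_lit 4) (nat_lit 496) (nat_lit 354) (nat_lit 350)))) (XT.nd (nat_lit 156) (nat_lit 0) (nat_lit 0) (XT.nd (nat_lit 78) (nat_lit 0) (nat_lit 0) (XT.lf (nat_lit 0) (nat_lit 288538760933) (nat_lit 76) (nat_lit 302562877613) (nat_lit 76) (nat_lit 302465311626) (nat_lit 1) (nat_lit 4) (nat_lit 2) (nat_lit 5) (nat_lit 2) (nat_lit 4) (nat_lit 497) (nat_lit 354) (nat_lit 349)) (XT.lf (nat_lit 0) (nat_lit 320898907145) (nat_lit 76) (nat_lit 322019353090) (nat_lit 76) (nat_lit 321906388257) (nat_lit 1) (nat_lit 4) (nat_lit 2) (nat_lit 5) (nat_lit 2) (nat_lit 4) (nat_lit 498) (nat_lit 354) (nat_lit 348))) (XT.nd (nat_lit 78) (nat_lit 0) (nat_lit 0) (XT.lf (nat_lit 0) (nat_lit 355458063810) (nat_lit 76) (nat_lit 343230843785) (nat_lit 76) (nat_lit 343103620763) (nat_lit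 1) (nat_lit 4) (nat_lit 2) (nat_lit 5) (nat_lit 2) (nat_lit 4) (nat_lit 499) (nat_lit 354) (nat_lit 347)) (XT.lf (nat_lit 0) (nat_lit 392421025932) (nat_lit 76) (nat_lit 366323047422) (nat_lit 76) (nat_lit 366182622373) (nat_lit 1) (nat_lit 4) (nat_lit 2) (nat_lit 5) (nat_lit 2) (nat_lit 4) (nat_lit 500) (nat_lit 354) (nat_lit 346)))))) (XT.nd (nat_lit 61854) (nat_lit 0) (nat_lit 0) (XT.nd (nat_lit 234) (nat_lit 0) (nat_lit 0) (XT.nd (nat_lit 78) (nat_lit 0) (nat_lit 0) (XT.lf (nat_lit 0) (nat_lit 432006833286) (nat_lit 76) (nat_lit 391432806688) (nat_lit 76) (nat_lit 391280157539) (nat_lit 1) (nat_lit 4) (nat_lit 2) (nat_lit 5) (nat_lit 2) (nat_lit 4) (nat_lit 501) (nat_lit 354) (nat_lit 345)) (XT.nd (nat_lit 78) (nat_lit 0) (nat_lit 0) (XT.lf (nat_lit 0) (nat_lit 474450068432) (nat_lit 76) (nat_lit 418708920158) (nat_lit 76) (nat_lit 418544952398) (nat_lit 1) (nat_lit 4) (nat_lit 2) (nat_lit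 5) (nat_lit 2) (nat_lit 4) (nat_lit 502) (nat_lit 354) (nat_lit 344)) (XT.lf (nat_lit 0) (nat_lit 520002246841) (nat_lit 76) (nat_lit 448313024058) (nat_lit 76) (nat_lit 448138576103) (nat_lit 1) (nat_lit 4) (nat_lit 2) (nat_lit 5) (nat_lit 2) (nat_lit 4) (nat_lit 503) (nat_lit 354) (nat_lit 343)))) (XT.nd (nat_lit 61464) (nat_lit 0) (nat_lit 0) (XT.nd (nat_lit 61386) (nat_lit 0) (nat_lit 0) (XT.lf (nat_lit 0) (nat_lit 568933307345) (nat_lit 76) (nat_lit 480420550116) (nat_lit 76) (nat_lit 480236398277) (nat_lit 1) (nat_lit 4) (nat_lit 2) (nat_lit 5) (nat_lit 2) (nat_lit 4) (nat_lit 504) (nat_lit 354) (nat_lit 342)) (XT.lf (nat_lit 0) (nat_lit 54586334227) (nat_lit 76) (nat_lit 103416876327) (nat_lit 76) (nat_lit 103416876327) (nat_lit 1) (nat_lit 4) (nat_lit 2) (nat_lit 5) (nat_lit 2) (nat_lit 4) (nat_lit 490) (nat_lit 355) (nat_lit 355))) (XT.nd (nat_lit 78) (nat_lit 0) (nat_lit 0) (XT.lf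 (nat_lit 0) (nat_lit 130593024154) (nat_lit 76) (nat_lit 216893736582) (nat_lit 76) (nat_lit 216869300551) (nat_lit 1) (nat_lit 4) (nat_lit 2) (nat_lit 5) (nat_lit 2) (nat_lit 4) (nat_lit 491) (nat_lit 355) (nat_lit 354)) (XT.lf (nat_lit 0) (nat_lit 153108442725) (nat_lit 76) (nat_lit 228073509302) (nat_lit 76) (nat_lit 228026447316) (nat_lit 1) (nat_lit 4) (nat_lit 2) (nat_lit 5) (nat_lit 2) (nat_lit 4) (nat_lit 492) (nat_lit 355) (nat_lit 353))))) (XT.nd (nat_lit 312) (nat_lit 0) (nat_lit 0) (XT.nd (nat_lit 156) (nat_lit 0) (nat_lit 0) (XT.nd (nat_lit 78) (nat_lit 0) (nat_lit 0) (XT.lf (nat_lit 0) (nat_lit 176852348870) (nat_lit 76) (nat_lit 240439321321) (nat_lit 76) (nat_lit 240371309376) (nat_lit 1) (nat_lit 4) (nat_lit 2) (nat_lit 5) (nat_lit 2) (nat_lit 4) (nat_lit 493) (nat_lit 355) (nat_lit 352)) (XT.lf (nat_lit 0) (nat_lit 201965447219) (nat_lit 76) (nat_lit 254064451524) (nat_lit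 76) (nat_lit 253977041470) (nat_lit 1) (nat_lit 4) (nat_lit 2) (nat_lit 5) (nat_lit 2) (nat_lit 4) (nat_lit 494) (nat_lit 355) (nat_lit 351))) (XT.nd (nat_lit 78) (nat_lit 0) (nat_lit 0) (XT.lf (nat_lit 0) (nat_lit 228596556131) (nat_lit 76) (nat_lit 269029641423) (nat_lit 76) (nat_lit 268924270157) (nat_lit 1) (nat_lit 4) (nat_lit 2) (nat_lit 5) (nat_lit 2) (nat_lit 4) (nat_lit 495) (nat_lit 355) (nat_lit 350)) (XT.lf (nat_lit 0) (nat_lit 256903489586) (nat_lit 76) (nat_lit 285423573626) (nat_lit 76) (nat_lit 285301571607) (nat_lit 1) (nat_lit 4) (nat_lit 2) (nat_lit 5) (nat_lit 2) (nat_lit 4) (nat_lit 496) (nat_lit 355) (nat_lit 349)))) (XT.nd (nat_lit 156) (nat_lit 0) (nat_lit 0) (XT.nd (nat_lit 78) (nat_lit 0) (nat_lit 0) (XT.lf (nat_lit 0) (nat_lit 287053992374) (nat_lit 76) (nat_lit 303343397361) (nat_lit 76) (nat_lit 303205996497) (nat_lit 1) (nat_lit 4) (nat_lit 2) (nat_lit 5) (nat_lit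 2) (nat_lit 4) (nat_lit 497) (nat_lit 355) (nat_lit 348)) (XT.lf (nat_lit 0) (nat_lit 319226734143) (nat_lit 76) (nat_lit 322895304174) (nat_lit 76) (nat_lit 322743645121) (nat_lit 1) (nat_lit 4) (nat_lit 2) (nat_lit 5) (nat_lit 2) (nat_lit 4) (nat_lit 498) (nat_lit 355) (nat_lit 347))) (XT.nd (nat_lit 78) (nat_lit 0) (nat_lit 0) (XT.lf (nat_lit 0) (nat_lit 353612368175) (nat_lit 76) (nat_lit 344195157218) (nat_lit 76) (nat_lit 344030296138) (nat_lit 1) (nat_lit 4) (nat_lit 2) (nat_lit 5) (nat_lit 2) (nat_lit 4) (nat_lit 499) (nat_lit 355) (nat_lit 346)) (XT.lf (nat_lit 0) (nat_lit 390414661192) (nat_lit 76) (nat_lit 367369177845) (nat_lit 76) (nat_lit 367192092665) (nat_lit 1) (nat_lit 4) (nat_lit 2) (nat_lit 5) (nat_lit 2) (nat_lit 4) (nat_lit 500) (nat_lit 355) (nat_lit 345))))))))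
noncomputable def xc1 : XT := (XT.nd (nat_lit 124410) (nat_lit 0) (nat_lit 0) (XT.nd (nat_lit 62244) (nat_lit 0) (nat_lit 0) (XT.nd (nat_lit 61698) (nat_lit 0) (nat_lit 0) (XT.nd (nat_lit 234) (nat_lit 0) (nat_lit 0) (XT.nd (nat_lit 78) (nat_lit 0) (nat_lit 0) (XT.lf (nat_lit 0) (nat_lit 429851700856) (nat_lit 76) (nat_lit 392554693583) (nat_lit 76) (nat_lit 392366289792) (nat_lit 1) (nat_lit 4) (nat_lit 2) (nat_lit 5) (nat_lit 2) (nat_lit 4) (nat_lit 501) (nat_lit 355) (nat_lit 344)) (XT.nd (nat_lit 78) (nat_lit 0) (nat_lit 0) (XT.lf (nat_lit 0) (nat_lit 472157188142) (nat_lit 76) (nat_lit 419900951934) (nat_lit 76) (nat_lit 419702067948) (nat_lit 1) (nat_lit 4) (nat_lit 2) (nat_lit 5) (nat_lit 2) (nat_lit 4) (nat_lit 502) (nat_lit 355) (nat_lit 343)) (XT.lf (nat_lit 0) (nat_lit 517581822234) (nat_lit 76) (nat_lit 449570004798) (nat_lit 76) (nat_lit 449361416928) (nat_lit 1) (nat_lit 4) (nat_lit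 2) (nat_lit 5) (nat_lit 2) (nat_lit 4) (nat_lit 503) (nat_lit 355) (nat_lit 342)))) (XT.nd (nat_lit 61308) (nat_lit 0) (nat_lit 0) (XT.nd (nat_lit 61230) (nat_lit 0) (nat_lit 0) (XT.lf (nat_lit 0) (nat_lit 566394786150) (nat_lit 76) (nat_lit 481737668787) (nat_lit 76) (nat_lit 481520095838) (nat_lit 1) (nat_lit 4) (nat_lit 2) (nat_lit 5) (nat_lit 2) (nat_lit 4) (nat_lit 504) (nat_lit 355) (nat_lit 341)) (XT.lf (nat_lit 0) (nat_lit 34731006753) (nat_lit 76) (nat_lit 94845364492) (nat_lit 76) (nat_lit 94845364492) (nat_lit 1) (nat_lit 4) (nat_lit 2) (nat_lit 5) (nat_lit 2) (nat_lit 4) (nat_lit 488) (nat_lit 356) (nat_lit 356))) (XT.nd (nat_lit 78) (nat_lit 0) (nat_lit 0) (XT.lf (nat_lit 0) (nat_lit 88720440187) (nat_lit 76) (nat_lit 197860333715) (nat_lit 76) (nat_lit 197833942801) (nat_lit 1) (nat_lit 4) (nat_lit 2) (nat_lit 5) (nat_lit 2) (nat_lit 4) (nat_lit 489) (nat_lit 356) (nat_lit 355))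 (XT.lf (nat_lit 0) (nat_lit 108851490171) (nat_lit 76) (nat_lit 207023696110) (nat_lit 76) (nat_lit 206972869165) (nat_lit 1) (nat_lit 4) (nat_lit 2) (nat_lit 5) (nat_lit 2) (nat_lit 4) (nat_lit 490) (nat_lit 356) (nat_lit 354))))) (XT.nd (nat_lit 234) (nat_lit 0) (nat_lit 0) (XT.nd (nat_lit 78) (nat_lit 0) (nat_lit 0) (XT.lf (nat_lit 0) (nat_lit 129974458570) (nat_lit 76) (nat_lit 217235117575) (nat_lit 76) (nat_lit 217161664675) (nat_lit 1) (nat_lit 4) (nat_lit 2) (nat_lit 5) (nat_lit 2) (nat_lit 4) (nat_lit 491) (nat_lit 356) (nat_lit 353)) (XT.nd (nat_lit 78) (nat_lit 0) (nat_lit 0) (XT.lf (nat_lit 0) (nat_lit 152214518530) (nat_lit 76) (nat_lit 228555110238) (nat_lit 76) (nat_lit 228460707380) (nat_lit 1) (nat_lit 4) (nat_lit 2) (nat_lit 5) (nat_lit 2) (nat_lit 4) (nat_lit 492) (nat_lit 356) (nat_lit 352)) (XT.lf (nat_lit 0) (nat_lit 175703462998) (nat_lit 76) (nat_lit 241050755537) (nat_lit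 76) (nat_lit 240936954569) (nat_lit 1) (nat_lit 4) (nat_lit 2) (nat_lit 5) (nat_lit 2) (nat_lit 4) (nat_lit 493) (nat_lit 356) (nat_lit 351)))) (XT.nd (nat_lit 156) (nat_lit 0) (nat_lit 0) (XT.nd (nat_lit 78) (nat_lit 0) (nat_lit 0) (XT.lf (nat_lit 0) (nat_lit 200580485719) (nat_lit 76) (nat_lit 254796101740) (nat_lit 76) (nat_lit 254664339559) (nat_lit 1) (nat_lit 4) (nat_lit 2) (nat_lit 5) (nat_lit 2) (nat_lit 4) (nat_lit 494) (nat_lit 356) (nat_lit 350)) (XT.lf (nat_lit 0) (nat_lit 226993006088) (nat_lit 76) (nat_lit 269872602751) (nat_lit 76) (nat_lit 269724209818) (nat_lit 1) (nat_lit 4) (nat_lit 2) (nat_lit 5) (nat_lit 2) (nat_lit 4) (nat_lit 495) (nat_lit 356) (nat_lit 349))) (XT.nd (nat_lit 78) (nat_lit 0) (nat_lit 0) (XT.lf (nat_lit 0) (nat_lit 255097542744) (nat_lit 76) (nat_lit 286369600797) (nat_lit 76) (nat_lit 286205809020) (nat_lit 1) (nat_lit 4) (nat_lit 2) (nat_lit 5) (nat_lit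 2) (nat_lit 4) (nat_lit 496) (nat_lit 356) (nat_lit 348)) (XT.lf (nat_lit 0) (nat_lit 285060641088) (nat_lit 76) (nat_lit 304384855868) (nat_lit 76) (nat_lit 304206805901) (nat_lit 1) (nat_lit 4) (nat_lit 2) (nat_lit 5) (nat_lit 2) (nat_lit 4) (nat_lit 497) (nat_lit 356) (nat_lit 347)))))) (XT.nd (nat_lit 61542) (nat_lit 0) (nat_lit 0) (XT.nd (nat_lit 234) (nat_lit 0) (nat_lit 0) (XT.nd (nat_lit 78) (nat_lit 0) (nat_lit 0) (XT.lf (nat_lit 0) (nat_lit 317059860223) (nat_lit 76) (nat_lit 324025125031) (nat_lit 76) (nat_lit 323833873036) (nat_lit 1) (nat_lit 4) (nat_lit 2) (nat_lit 5) (nat_lit 2) (nat_lit 4) (nat_lit 498) (nat_lit 356) (nat_lit 346)) (XT.nd (nat_lit 78) (nat_lit 0) (nat_lit 0) (XT.lf (nat_lit 0) (nat_lit 351284825151) (nat_lit 76) (nat_lit 345406795065) (nat_lit 76) (nat_lit 345203318971) (nat_lit 1) (nat_lit 4) (nat_lit 2) (nat_lit 5) (nat_lit 2) (nat_lit 4) (nat_lit 499) (nat_lit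 356) (nat_lit 345)) (XT.lf (nat_lit 0) (nat_lit 387938350478) (nat_lit 76) (nat_lit 368656572163) (nat_lit 76) (nat_lit 368441777458) (nat_lit 1) (nat_lit 4) (nat_lit 2) (nat_lit 5) (nat_lit 2) (nat_lit 4) (nat_lit 500) (nat_lit 356) (nat_lit 344)))) (XT.nd (nat_lit 156) (nat_lit 0) (nat_lit 0) (XT.nd (nat_lit 78) (nat_lit 0) (nat_lit 0) (XT.lf (nat_lit 0) (nat_lit 427237642281) (nat_lit 76) (nat_lit 393912232783) (nat_lit 76) (nat_lit 393686957883) (nat_lit 1) (nat_lit 4) (nat_lit 2) (nat_lit 5) (nat_lit 2) (nat_lit 4) (nat_lit 501) (nat_lit 356) (nat_lit 343)) (XT.lf (nat_lit 0) (nat_lit 469415585251) (nat_lit 76) (nat_lit 421323440098) (nat_lit 76) (nat_lit 421088461314) (nat_lit 1) (nat_lit 4) (nat_lit 2) (nat_lit 5) (nat_lit 2) (nat_lit 4) (nat_lit 502) (nat_lit 356) (nat_lit 342))) (XT.nd (nat_lit 78) (nat_lit 0) (nat_lit 0) (XT.lf (nat_lit 0) (nat_lit 514722122755) (nat_lit 76) (nat_lit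 451052630893) (nat_lit 76) (nat_lit 450808667031) (nat_lit 1) (nat_lit 4) (nat_lit 2) (nat_lit 5) (nat_lit 2) (nat_lit 4) (nat_lit 503) (nat_lit 356) (nat_lit 341)) (XT.lf (nat_lit 0) (nat_lit 563425737978) (nat_lit 76) (nat_lit 483275978149) (nat_lit 76) (nat_lit 483023694770) (nat_lit 1) (nat_lit 4) (nat_lit 2) (nat_lit 5) (nat_lit 2) (nat_lit 4) (nat_lit 504) (nat_lit 356) (nat_lit 340))))) (XT.nd (nat_lit 312) (nat_lit 0) (nat_lit 0) (XT.nd (nat_lit 156) (nat_lit 0) (nat_lit 0) (XT.nd (nat_lit 78) (nat_lit 0) (nat_lit 0) (XT.lf (nat_lit 0) (nat_lit 16742825588) (nat_lit 76) (nat_lit 87991239586) (nat_lit 76) (nat_lit 87991239586) (nat_lit 1) (nat_lit 4) (nat_lit 2) (nat_lit 5) (nat_lit 2) (nat_lit 4) (nat_lit 486) (nat_lit 357) (nat_lit 357)) (XT.lf (nat_lit 0) (nat_lit 50962086119) (nat_lit 76) (nat_lit 182494971632) (nat_lit 76) (nat_lit 182466469445) (nat_lit 1) (nat_lit 4) (nat_lit 2)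 (nat_lit 5) (nat_lit 2) (nat_lit 4) (nat_lit 487) (nat_lit 357) (nat_lit 356))) (XT.nd (nat_lit 78) (nat_lit 0) (nat_lit 0) (XT.lf (nat_lit 0) (nat_lit 69115140959) (nat_lit 76) (nat_lit 189895867916) (nat_lit 76) (nat_lit 189840974815) (nat_lit 1) (nat_lit 4) (nat_lit 2) (nat_lit 5) (nat_lit 2) (nat_lit 4) (nat_lit 488) (nat_lit 357) (nat_lit 355)) (XT.lf (nat_lit 0) (nat_lit 88052389356) (nat_lit 76) (nat_lit 198229025188) (nat_lit 76) (nat_lit 198149696055) (nat_lit 1) (nat_lit 4) (nat_lit 2) (nat_lit 5) (nat_lit 2) (nat_lit 4) (nat_lit 489) (nat_lit 357) (nat_lit 354)))) (XT.nd (nat_lit 156) (nat_lit 0) (nat_lit 0) (XT.nd (nat_lit 78) (nat_lit 0) (nat_lit 0) (XT.lf (nat_lit 0) (nat_lit 107886052040) (nat_lit 76) (nat_lit 207543825120) (nat_lit 76) (nat_lit 207441870033) (nat_lit 1) (nat_lit 4) (nat_lit 2) (nat_lit 5) (nat_lit 2) (nat_lit 4) (nat_lit 490) (nat_lit 357) (nat_lit 353)) (XT.lf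 (nat_lit 0) (nat_lit 128733661828) (nat_lit 76) (nat_lit 217895466528) (nat_lit 76) (nat_lit 217772561483) (nat_lit 1) (nat_lit 4) (nat_lit 2) (nat_lit 5) (nat_lit 2) (nat_lit 4) (nat_lit 491) (nat_lit 357) (nat_lit 352))) (XT.nd (nat_lit 78) (nat_lit 0) (nat_lit 0) (XT.lf (nat_lit 0) (nat_lit 150718760110) (nat_lit 76) (nat_lit 229345292471) (nat_lit 76) (nat_lit 229202989316) (nat_lit 1) (nat_lit 4) (nat_lit 2) (nat_lit 5) (nat_lit 2) (nat_lit 4) (nat_lit 492) (nat_lit 357) (nat_lit 351)) (XT.lf (nat_lit 0) (nat_lit 173971628951) (nat_lit 76) (nat_lit 241961153770) (nat_lit 76) (nat_lit 241800889403) (nat_lit 1) (nat_lit 4) (nat_lit 2) (nat_lit 5) (nat_lit 2) (nat_lit 4) (nat_lit 493) (nat_lit 357) (nat_lit 350))))))) (XT.nd (nat_lit 62010) (nat_lit 0) (nat_lit 0) (XT.nd (nat_lit 546) (nat_lit 0) (nat_lit 0) (XT.nd (nat_lit 234) (nat_lit 0) (nat_lit 0) (XT.nd (nat_lit 78) (nat_lit 0) (nat_lit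 0) (XT.lf (nat_lit 0) (nat_lit 198630063130) (nat_lit 76) (nat_lit 255817811084) (nat_lit 76) (nat_lit 255640915965) (nat_lit 1) (nat_lit 4) (nat_lit 2) (nat_lit 5) (nat_lit 2) (nat_lit 4) (nat_lit 494) (nat_lit 357) (nat_lit 349)) (XT.nd (nat_lit 78) (nat_lit 0) (nat_lit 0) (XT.lf (nat_lit 0) (nat_lit 224840186699) (nat_lit 76) (nat_lit 270997377939) (nat_lit 76) (nat_lit 270805083974) (nat_lit 1) (nat_lit 4) (nat_lit 2) (nat_lit 5) (nat_lit 2) (nat_lit 4) (nat_lit 495) (nat_lit 357) (nat_lit 348)) (XT.lf (nat_lit 0) (nat_lit 252757318911) (nat_lit 76) (nat_lit 287589807322) (nat_lit 76) (nat_lit 287383255168) (nat_lit 1) (nat_lit 4) (nat_lit 2) (nat_lit 5) (nat_lit 2) (nat_lit 4) (nat_lit 496) (nat_lit 357) (nat_lit 347)))) (XT.nd (nat_lit 156) (nat_lit 0) (nat_lit 0) (XT.nd (nat_lit 78) (nat_lit 0) (nat_lit 0) (XT.lf (nat_lit 0) (nat_lit 282546894622) (nat_lit 76) (nat_lit 305693424742) (nat_lit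 76) (nat_lit 305473670561) (nat_lit 1) (nat_lit 4) (nat_lit 2) (nat_lit 5) (nat_lit 2) (nat_lit 4) (nat_lit 497) (nat_lit 357) (nat_lit 346)) (XT.lf (nat_lit 0) (nat_lit 314385444652) (nat_lit 76) (nat_lit 325415510894) (nat_lit 76) (nat_lit 325183532613) (nat_lit 1) (nat_lit 4) (nat_lit 2) (nat_lit 5) (nat_lit 2) (nat_lit 4) (nat_lit 498) (nat_lit 357) (nat_lit 345))) (XT.nd (nat_lit 78) (nat_lit 0) (nat_lit 0) (XT.lf (nat_lit 0) (nat_lit 348461641890) (nat_lit 76) (nat_lit 346872937400) (nat_lit 76) (nat_lit 346629640509) (nat_lit 1) (nat_lit 4) (nat_lit 2) (nat_lit 5) (nat_lit 2) (nat_lit 4) (nat_lit 499) (nat_lit 357) (nat_lit 344)) (XT.lf (nat_lit 0) (nat_lit 384977419356) (nat_lit 76) (nat_lit 370192859380) (nat_lit 76) (nat_lit 369939082294) (nat_lit 1) (nat_lit 4) (nat_lit 2) (nat_lit 5) (nat_lit 2) (nat_lit 4) (nat_lit 500) (nat_lit 357) (nat_lit 343))))) (XT.nd (nat_lit 61152) (nat_lit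 0) (nat_lit 0) (XT.nd (nat_lit 156) (nat_lit 0) (nat_lit 0) (XT.nd (nat_lit 78) (nat_lit 0) (nat_lit 0) (XT.lf (nat_lit 0) (nat_lit 424149166843) (nat_lit 76) (nat_lit 395513468964) (nat_lit 76) (nat_lit 395249987994) (nat_lit 1) (nat_lit 4) (nat_lit 2) (nat_lit 5) (nat_lit 2) (nat_lit 4) (nat_lit 501) (nat_lit 357) (nat_lit 342)) (XT.lf (nat_lit 0) (nat_lit 466209013225) (nat_lit 76) (nat_lit 422984814209) (nat_lit 76) (nat_lit 422712348161) (nat_lit 1) (nat_lit 4) (nat_lit 2) (nat_lit 5) (nat_lit 2) (nat_lit 4) (nat_lit 502) (nat_lit 357) (nat_lit 341))) (XT.nd (nat_lit 78) (nat_lit 0) (nat_lit 0) (XT.lf (nat_lit 0) (nat_lit 511406202036) (nat_lit 76) (nat_lit 452769688272) (nat_lit 76) (nat_lit 452488902707) (nat_lit 1) (nat_lit 4) (nat_lit 2) (nat_lit 5) (nat_lit 2) (nat_lit 4) (nat_lit 503) (nat_lit 357) (nat_lit 340)) (XT.lf (nat_lit 0) (nat_lit 560008568469) (nat_lit 76) (nat_lit 485044594111)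 (nat_lit 76) (nat_lit 484756105289) (nat_lit 1) (nat_lit 4) (nat_lit 2) (nat_lit 5) (nat_lit 2) (nat_lit 4) (nat_lit 504) (nat_lit 357) (nat_lit 339)))) (XT.nd (nat_lit 156) (nat_lit 0) (nat_lit 0) (XT.nd (nat_lit 78) (nat_lit 0) (nat_lit 0) (XT.lf (nat_lit 0) (nat_lit 278186387) (nat_lit 76) (nat_lit 82649062360) (nat_lit 76) (nat_lit 82649062360) (nat_lit 1) (nat_lit 4) (nat_lit 2) (nat_lit 5) (nat_lit 2) (nat_lit 4) (nat_lit 484) (nat_lit 358) (nat_lit 358)) (XT.lf (nat_lit 0) (nat_lit 16582272073) (nat_lit 76) (nat_lit 170350580354) (nat_lit 76) (nat_lit 170319797992) (nat_lit 1) (nat_lit 4) (nat_lit 2) (nat_lit 5) (nat_lit 2) (nat_lit 4) (nat_lit 485) (nat_lit 358) (nat_lit 357))) (XT.nd (nat_lit 78) (nat_lit 0) (nat_lit 0) (XT.lf (nat_lit 0) (nat_lit 33111028826) (nat_lit 76) (nat_lit 176204029219) (nat_lit 76) (nat_lit 176144744670) (nat_lit 1) (nat_lit 4) (nat_lit 2) (nat_lit 5) (nat_lit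 2) (nat_lit 4) (nat_lit 486) (nat_lit 358) (nat_lit 356)) (XT.lf (nat_lit 0) (nat_lit 50240591221) (nat_lit 76) (nat_lit 182893158422) (nat_lit 76) (nat_lit 182807482960) (nat_lit 1) (nat_lit 4) (nat_lit 2) (nat_lit 5) (nat_lit 2) (nat_lit 4) (nat_lit 487) (nat_lit 358) (nat_lit 355)))))) (XT.nd (nat_lit 546) (nat_lit 0) (nat_lit 0) (XT.nd (nat_lit 234) (nat_lit 0) (nat_lit 0) (XT.nd (nat_lit 78) (nat_lit 0) (nat_lit 0) (XT.lf (nat_lit 0) (nat_lit 68072467778) (nat_lit 76) (nat_lit 190457607247) (nat_lit 76) (nat_lit 190347495753) (nat_lit 1) (nat_lit 4) (nat_lit 2) (nat_lit 5) (nat_lit 2) (nat_lit 4) (nat_lit 488) (nat_lit 358) (nat_lit 354)) (XT.nd (nat_lit 78) (nat_lit 0) (nat_lit 0) (XT.lf (nat_lit 0) (nat_lit 86712328874) (nat_lit 76) (nat_lit 198942202057) (nat_lit 76) (nat_lit 198809464608) (nat_lit 1) (nat_lit 4) (nat_lit 2) (nat_lit 5) (nat_lit 2) (nat_lit 4) (nat_lit 489) (nat_lit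 358) (nat_lit 353)) (XT.lf (nat_lit 0) (nat_lit 106270632947) (nat_lit 76) (nat_lit 208397221932) (nat_lit 76) (nat_lit 208243534525) (nat_lit 1) (nat_lit 4) (nat_lit 2) (nat_lit 5) (nat_lit 2) (nat_lit 4) (nat_lit 490) (nat_lit 358) (nat_lit 352)))) (XT.nd (nat_lit 156) (nat_lit 0) (nat_lit 0) (XT.nd (nat_lit 78) (nat_lit 0) (nat_lit 0) (XT.lf (nat_lit 0) (nat_lit 126863281058) (nat_lit 76) (nat_lit 218878696620) (nat_lit 76) (nat_lit 218705611103) (nat_lit 1) (nat_lit 4) (nat_lit 2) (nat_lit 5) (nat_lit 2) (nat_lit 4) (nat_lit 491) (nat_lit 358) (nat_lit 351)) (XT.lf (nat_lit 0) (nat_lit 148612303714) (nat_lit 76) (nat_lit 230448738563) (nat_lit 76) (nat_lit 230257691834) (nat_lit 1) (nat_lit 4) (nat_lit 2) (nat_lit 5) (nat_lit 2) (nat_lit 4) (nat_lit 492) (nat_lit 358) (nat_lit 350))) (XT.nd (nat_lit 78) (nat_lit 0) (nat_lit 0) (XT.lf (nat_lit 0) (nat_lit 171646584011) (nat_lit 76) (nat_lit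 243175910974) (nat_lit 76) (nat_lit 242968233492) (nat_lit 1) (nat_lit 4) (nat_lit 2) (nat_lit 5) (nat_lit 2) (nat_lit 4) (nat_lit 493) (nat_lit 358) (nat_lit 349)) (XT.lf (nat_lit 0) (nat_lit 196102621390) (nat_lit 76) (nat_lit 257135634132) (nat_lit 76) (nat_lit 256912557805) (nat_lit 1) (nat_lit 4) (nat_lit 2) (nat_lit 5) (nat_lit 2) (nat_lit 4) (nat_lit 494) (nat_lit 358) (nat_lit 348))))) (XT.nd (nat_lit 312) (nat_lit 0) (nat_lit 0) (XT.nd (nat_lit 156) (nat_lit 0) (nat_lit 0) (XT.nd (nat_lit 78) (nat_lit 0) (nat_lit 0) (XT.lf (nat_lit 0) (nat_lit 222125340515) (nat_lit 76) (nat_lit 272410632323) (nat_lit 76) (nat_lit 272173297807) (nat_lit 1) (nat_lit 4) (nat_lit 2) (nat_lit 5) (nat_lit 2) (nat_lit 4) (nat_lit 495) (nat_lit 358) (nat_lit 347)) (XT.lf (nat_lit 0) (nat_lit 249868950094) (nat_lit 76) (nat_lit 289091424055) (nat_lit 76) (nat_lit 288840887512) (nat_lit 1) (nat_lit 4) (nat_lit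 2) (nat_lit 5) (nat_lit 2) (nat_lit 4) (nat_lit 496) (nat_lit 358) (nat_lit 346))) (XT.nd (nat_lit 78) (nat_lit 0) (nat_lit 0) (XT.lf (nat_lit 0) (nat_lit 279497856700) (nat_lit 76) (nat_lit 307276858465) (nat_lit 76) (nat_lit 307014097822) (nat_lit 1) (nat_lit 4) (nat_lit 2) (nat_lit 5) (nat_lit 2) (nat_lit 4) (nat_lit 497) (nat_lit 358) (nat_lit 345)) (XT.lf (nat_lit 0) (nat_lit 311187639040) (nat_lit 76) (nat_lit 327074701089) (nat_lit 76) (nat_lit 326800621836) (nat_lit 1) (nat_lit 4) (nat_lit 2) (nat_lit 5) (nat_lit 2) (nat_lit 4) (nat_lit 498) (nat_lit 358) (nat_lit 344)))) (XT.nd (nat_lit 156) (nat_lit 0) (nat_lit 0) (XT.nd (nat_lit 78) (nat_lit 0) (nat_lit 0) (XT.lf (nat_lit 0) (nat_lit 345126088417) (nat_lit 76) (nat_lit 348602272477) (nat_lit 76) (nat_lit 348317713028) (nat_lit 1) (nat_lit 4) (nat_lit 2) (nat_lit 5) (nat_lit 2) (nat_lit 4) (nat_lit 499) (nat_lit 358) (nat_lit 343))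 (XT.lf (nat_lit 0) (nat_lit 381514321568) (nat_lit 76) (nat_lit 371987143421) (nat_lit 76) (nat_lit 371692880088) (nat_lit 1) (nat_lit 4) (nat_lit 2) (nat_lit 5) (nat_lit 2) (nat_lit 4) (nat_lit 500) (nat_lit 358) (nat_lit 342))) (XT.nd (nat_lit 78) (nat_lit 0) (nat_lit 0) (XT.lf (nat_lit 0) (nat_lit 420567972467) (nat_lit 76) (nat_lit 397367890935) (nat_lit 76) (nat_lit 397064642524) (nat_lit 1) (nat_lit 4) (nat_lit 2) (nat_lit 5) (nat_lit 2) (nat_lit 4) (nat_lit 501) (nat_lit 358) (nat_lit 341)) (XT.lf (nat_lit 0) (nat_lit 462518470156) (nat_lit 76) (nat_lit 424894919448) (nat_lit 76) (nat_lit 424583351521) (nat_lit 1) (nat_lit 4) (nat_lit 2) (nat_lit 5) (nat_lit 2) (nat_lit 4) (nat_lit 502) (nat_lit 358) (nat_lit 340))))))))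
noncomputable def xc2 : XT := (XT.nd (nat_lit 123474) (nat_lit 0) (nat_lit 0) (XT.nd (nat_lit 61776) (nat_lit 0) (nat_lit 0) (XT.nd (nat_lit 61230) (nat_lit 0) (nat_lit 0) (XT.nd (nat_lit 60918) (nat_lit 0) (nat_lit 0) (XT.nd (nat_lit 78) (nat_lit 0) (nat_lit 0) (XT.lf (nat_lit 0) (nat_lit 507614410177) (nat_lit 76) (nat_lit 454731352093) (nat_lit 76) (nat_lit 454412080909) (nat_lit 1) (nat_lit 4) (nat_lit 2) (nat_lit 5) (nat_lit 2) (nat_lit 4) (nat_lit 503) (nat_lit 358) (nat_lit 339)) (XT.nd (nat_lit 60762) (nat_lit 0) (nat_lit 76) (XT.lf (nat_lit 0) (nat_lit 556123027730) (nat_lit 76) (nat_lit 487053997359) (nat_lit 76) (nat_lit 486727593531) (nat_lit 1) (nat_lit 4) (nat_lit 2) (nat_lit 5) (nat_lit 2) (nat_lit 4) (nat_lit 504) (nat_lit 358) (nat_lit 338)) (XT.lf (nat_lit 0) (nat_lit 63915816889) (nat_lit 152) (nat_lit 14484743947) (nat_lit 0) (nat_lit 63915816889) (nat_lit 2) (nat_lit 5)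 (nat_lit 4) (nat_lit 4) (nat_lit 2) (nat_lit 4) (nat_lit 482) (nat_lit 359) (nat_lit 359)))) (XT.nd (nat_lit 156) (nat_lit 0) (nat_lit 0) (XT.nd (nat_lit 78) (nat_lit 76) (nat_lit 0) (XT.lf (nat_lit 0) (nat_lit 146223483803) (nat_lit 152) (nat_lit 14579570903) (nat_lit 0) (nat_lit 146190238852) (nat_lit 2) (nat_lit 5) (nat_lit 4) (nat_lit 4) (nat_lit 2) (nat_lit 4) (nat_lit 483) (nat_lit 359) (nat_lit 358)) (XT.lf (nat_lit 0) (nat_lit 151780636) (nat_lit 76) (nat_lit 165537398771) (nat_lit 76) (nat_lit 165473371458) (nat_lit 1) (nat_lit 4) (nat_lit 2) (nat_lit 5) (nat_lit 2) (nat_lit 4) (nat_lit 484) (nat_lit 359) (nat_lit 357))) (XT.nd (nat_lit 78) (nat_lit 0) (nat_lit 0) (XT.lf (nat_lit 0) (nat_lit 15803057583) (nat_lit 76) (nat_lit 170780622087) (nat_lit 76) (nat_lit 170688092587) (nat_lit 1) (nat_lit 4) (nat_lit 2) (nat_lit 5) (nat_lit 2) (nat_lit 4) (nat_lit 485) (nat_lit 359) (nat_lit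 356)) (XT.lf (nat_lit 0) (nat_lit 31984941789) (nat_lit 76) (nat_lit 176810707697) (nat_lit 76) (nat_lit 176691787283) (nat_lit 1) (nat_lit 4) (nat_lit 2) (nat_lit 5) (nat_lit 2) (nat_lit 4) (nat_lit 486) (nat_lit 359) (nat_lit 355))))) (XT.nd (nat_lit 234) (nat_lit 0) (nat_lit 0) (XT.nd (nat_lit 78) (nat_lit 0) (nat_lit 0) (XT.lf (nat_lit 0) (nat_lit 48793325901) (nat_lit 76) (nat_lit 183663389441) (nat_lit 76) (nat_lit 183520032996) (nat_lit 1) (nat_lit 4) (nat_lit 2) (nat_lit 5) (nat_lit 2) (nat_lit 4) (nat_lit 487) (nat_lit 359) (nat_lit 354)) (XT.nd (nat_lit 78) (nat_lit 0) (nat_lit 0) (XT.lf (nat_lit 0) (nat_lit 66327815157) (nat_lit 76) (nat_lit 191379275804) (nat_lit 76) (nat_lit 191213293404) (nat_lit 1) (nat_lit 4) (nat_lit 2) (nat_lit 5) (nat_lit 2) (nat_lit 4) (nat_lit 488) (nat_lit 359) (nat_lit 353)) (XT.lf (nat_lit 0) (nat_lit 84692317643) (nat_lit 76) (nat_lit 200004090556) (nat_lit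 76) (nat_lit 199817158198) (nat_lit 1) (nat_lit 4) (nat_lit 2) (nat_lit 5) (nat_lit 2) (nat_lit 4) (nat_lit 489) (nat_lit 359) (nat_lit 352)))) (XT.nd (nat_lit 156) (nat_lit 0) (nat_lit 0) (XT.nd (nat_lit 78) (nat_lit 0) (nat_lit 0) (XT.lf (nat_lit 0) (nat_lit 103995660039) (nat_lit 76) (nat_lit 209588943712) (nat_lit 76) (nat_lit 209382613244) (nat_lit 1) (nat_lit 4) (nat_lit 2) (nat_lit 5) (nat_lit 2) (nat_lit 4) (nat_lit 490) (nat_lit 359) (nat_lit 351)) (XT.lf (nat_lit 0) (nat_lit 124352232523) (nat_lit 76) (nat_lit 220190634400) (nat_lit 76) (nat_lit 219966342719) (nat_lit 1) (nat_lit 4) (nat_lit 2) (nat_lit 5) (nat_lit 2) (nat_lit 4) (nat_lit 491) (nat_lit 359) (nat_lit 350))) (XT.nd (nat_lit 78) (nat_lit 0) (nat_lit 0) (XT.lf (nat_lit 0) (nat_lit 145882666635) (nat_lit 76) (nat_lit 231871987454) (nat_lit 76) (nat_lit 231631065022) (nat_lit 1) (nat_lit 4) (nat_lit 2) (nat_lit 5) (nat_lit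 2) (nat_lit 4) (nat_lit 492) (nat_lit 359) (nat_lit 349)) (XT.lf (nat_lit 0) (nat_lit 168714550133) (nat_lit 76) (nat_lit 244702225708) (nat_lit 76) (nat_lit 244445904431) (nat_lit 1) (nat_lit 4) (nat_lit 2) (nat_lit 5) (nat_lit 2) (nat_lit 4) (nat_lit 493) (nat_lit 359) (nat_lit 348)))))) (XT.nd (nat_lit 546) (nat_lit 0) (nat_lit 0) (XT.nd (nat_lit 234) (nat_lit 0) (nat_lit 0) (XT.nd (nat_lit 78) (nat_lit 0) (nat_lit 0) (XT.lf (nat_lit 0) (nat_lit 192983183068) (nat_lit 76) (nat_lit 258757380203) (nat_lit 76) (nat_lit 258486800736) (nat_lit 1) (nat_lit 4) (nat_lit 2) (nat_lit 5) (nat_lit 2) (nat_lit 4) (nat_lit 494) (nat_lit 359) (nat_lit 347)) (XT.nd (nat_lit 78) (nat_lit 0) (nat_lit 0) (XT.lf (nat_lit 0) (nat_lit 218832379560) (nat_lit 76) (nat_lit 274120740743) (nat_lit 76) (nat_lit 273836959249) (nat_lit 1) (nat_lit 4) (nat_lit 2) (nat_lit 5) (nat_lit 2) (nat_lit 4) (nat_lit 495) (nat_lit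 359) (nat_lit 346)) (XT.lf (nat_lit 0) (nat_lit 246415320033) (nat_lit 76) (nat_lit 290883349466) (nat_lit 76) (nat_lit 290587343872) (nat_lit 1) (nat_lit 4) (nat_lit 2) (nat_lit 5) (nat_lit 2) (nat_lit 4) (nat_lit 496) (nat_lit 359) (nat_lit 345)))) (XT.nd (nat_lit 156) (nat_lit 0) (nat_lit 0) (XT.nd (nat_lit 78) (nat_lit 0) (nat_lit 0) (XT.lf (nat_lit 0) (nat_lit 275895458950) (nat_lit 76) (nat_lit 309144540347) (nat_lit 76) (nat_lit 308837216143) (nat_lit 1) (nat_lit 4) (nat_lit 2) (nat_lit 5) (nat_lit 2) (nat_lit 4) (nat_lit 497) (nat_lit 359) (nat_lit 344)) (XT.lf (nat_lit 0) (nat_lit 307447493429) (nat_lit 76) (nat_lit 329012527853) (nat_lit 76) (nat_lit 328694723453) (nat_lit 1) (nat_lit 4) (nat_lit 2) (nat_lit 5) (nat_lit 2) (nat_lit 4) (nat_lit 498) (nat_lit 359) (nat_lit 343))) (XT.nd (nat_lit 78) (nat_lit 0) (nat_lit 0) (XT.lf (nat_lit 0) (nat_lit 341258398491) (nat_lit 76) (nat_lit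 350605048204) (nat_lit 76) (nat_lit 350277539921) (nat_lit 1) (nat_lit 4) (nat_lit 2) (nat_lit 5) (nat_lit 2) (nat_lit 4) (nat_lit 499) (nat_lit 359) (nat_lit 342)) (XT.lf (nat_lit 0) (nat_lit 377528535053) (nat_lit 76) (nat_lit 374050057079) (nat_lit 76) (nat_lit 373713563717) (nat_lit 1) (nat_lit 4) (nat_lit 2) (nat_lit 5) (nat_lit 2) (nat_lit 4) (nat_lit 500) (nat_lit 359) (nat_lit 341))))) (XT.nd (nat_lit 60840) (nat_lit 0) (nat_lit 76) (XT.nd (nat_lit 156) (nat_lit 0) (nat_lit 0) (XT.nd (nat_lit 78) (nat_lit 0) (nat_lit 0) (XT.lf (nat_lit 0) (nat_lit 416472837258) (nat_lit 76) (nat_lit 399486487861) (nat_lit 76) (nat_lit 399141674983) (nat_lit 1) (nat_lit 4) (nat_lit 2) (nat_lit 5) (nat_lit 2) (nat_lit 4) (nat_lit 501) (nat_lit 359) (nat_lit 340)) (XT.lf (nat_lit 0) (nat_lit 458322086157) (nat_lit 76) (nat_lit 427065074956) (nat_lit 76) (nat_lit 426712558822) (nat_lit 1) (nat_lit 4) (nat_lit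 2) (nat_lit 5) (nat_lit 2) (nat_lit 4) (nat_lit 502) (nat_lit 359) (nat_lit 339))) (XT.nd (nat_lit 78) (nat_lit 0) (nat_lit 0) (XT.lf (nat_lit 0) (nat_lit 503324277299) (nat_lit 76) (nat_lit 456949247029) (nat_lit 76) (nat_lit 456589598250) (nat_lit 1) (nat_lit 4) (nat_lit 2) (nat_lit 5) (nat_lit 2) (nat_lit 4) (nat_lit 503) (nat_lit 359) (nat_lit 338)) (XT.lf (nat_lit 0) (nat_lit 551746090334) (nat_lit 76) (nat_lit 489316095469) (nat_lit 76) (nat_lit 488949842389) (nat_lit 1) (nat_lit 4) (nat_lit 2) (nat_lit 5) (nat_lit 2) (nat_lit 4) (nat_lit 504) (nat_lit 359) (nat_lit 337)))) (XT.nd (nat_lit 156) (nat_lit 0) (nat_lit 0) (XT.nd (nat_lit 78) (nat_lit 0) (nat_lit 0) (XT.lf (nat_lit 0) (nat_lit 47046125255) (nat_lit 152) (nat_lit 28311192572) (nat_lit 0) (nat_lit 47046125255) (nat_lit 2) (nat_lit 5) (nat_lit 4) (nat_lit 4) (nat_lit 2) (nat_lit 4) (nat_lit 480) (nat_lit 360) (nat_lit 360)) (XT.lf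 (nat_lit 0) (nat_lit 110438175419) (nat_lit 152) (nat_lit 43108101850) (nat_lit 0) (nat_lit 110402270872) (nat_lit 2) (nat_lit 5) (nat_lit 4) (nat_lit 4) (nat_lit 2) (nat_lit 4) (nat_lit 481) (nat_lit 360) (nat_lit 359))) (XT.nd (nat_lit 78) (nat_lit 0) (nat_lit 0) (XT.lf (nat_lit 0) (nat_lit 127659912405) (nat_lit 152) (nat_lit 29392461972) (nat_lit 0) (nat_lit 127590762907) (nat_lit 2) (nat_lit 5) (nat_lit 4) (nat_lit 4) (nat_lit 2) (nat_lit 4) (nat_lit 482) (nat_lit 360) (nat_lit 358)) (XT.lf (nat_lit 0) (nat_lit 145859516206) (nat_lit 152) (nat_lit 15394187643) (nat_lit 0) (nat_lit 145759584347) (nat_lit 2) (nat_lit 5) (nat_lit 4) (nat_lit 4) (nat_lit 2) (nat_lit 4) (nat_lit 483) (nat_lit 360) (nat_lit 357))))))) (XT.nd (nat_lit 1170) (nat_lit 0) (nat_lit 0) (XT.nd (nat_lit 546) (nat_lit 0) (nat_lit 0) (XT.nd (nat_lit 234) (nat_lit 0) (nat_lit 0) (XT.nd (nat_lit 78) (nat_lit 76) (nat_lit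 0) (XT.lf (nat_lit 0) (nat_lit 165144836327) (nat_lit 152) (nat_lit 1030326127) (nat_lit 0) (nat_lit 165016402280) (nat_lit 2) (nat_lit 5) (nat_lit 4) (nat_lit 4) (nat_lit 2) (nat_lit 4) (nat_lit 484) (nat_lit 360) (nat_lit 356)) (XT.nd (nat_lit 78) (nat_lit 0) (nat_lit 0) (XT.lf (nat_lit 0) (nat_lit 14240011038) (nat_lit 76) (nat_lit 171612471587) (nat_lit 76) (nat_lit 171457646627) (nat_lit 1) (nat_lit 4) (nat_lit 2) (nat_lit 5) (nat_lit 2) (nat_lit 4) (nat_lit 485) (nat_lit 360) (nat_lit 355)) (XT.lf (nat_lit 0) (nat_lit 30100716960) (nat_lit 76) (nat_lit 177806109738) (nat_lit 76) (nat_lit 177626848746) (nat_lit 1) (nat_lit 4) (nat_lit 2) (nat_lit 5) (nat_lit 2) (nat_lit 4) (nat_lit 486) (nat_lit 360) (nat_lit 354)))) (XT.nd (nat_lit 156) (nat_lit 0) (nat_lit 0) (XT.nd (nat_lit 78) (nat_lit 0) (nat_lit 0) (XT.lf (nat_lit 0) (nat_lit 46611713771) (nat_lit 76) (nat_lit 184810229020) (nat_lit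 76) (nat_lit 184608342073) (nat_lit 1) (nat_lit 4) (nat_lit 2) (nat_lit 5) (nat_lit 2) (nat_lit 4) (nat_lit 487) (nat_lit 360) (nat_lit 353)) (XT.lf (nat_lit 0) (nat_lit 63870844416) (nat_lit 76) (nat_lit 192666335326) (nat_lit 76) (nat_lit 192443498420) (nat_lit 1) (nat_lit 4) (nat_lit 2) (nat_lit 5) (nat_lit 2) (nat_lit 4) (nat_lit 488) (nat_lit 360) (nat_lit 352))) (XT.nd (nat_lit 78) (nat_lit 0) (nat_lit 0) (XT.lf (nat_lit 0) (nat_lit 81980385224) (nat_lit 76) (nat_lit 201420983358) (nat_lit 76) (nat_lit 201178748344) (nat_lit 1) (nat_lit 4) (nat_lit 2) (nat_lit 5) (nat_lit 2) (nat_lit 4) (nat_lit 489) (nat_lit 360) (nat_lit 351)) (XT.lf (nat_lit 0) (nat_lit 101047651994) (nat_lit 76) (nat_lit 211126052514) (nat_lit 76) (nat_lit 210865856286) (nat_lit 1) (nat_lit 4) (nat_lit 2) (nat_lit 5) (nat_lit 2) (nat_lit 4) (nat_lit 490) (nat_lit 360) (nat_lit 350))))) (XT.nd (nat_lit 312) (nat_lit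 0) (nat_lit 0) (XT.nd (nat_lit 156) (nat_lit 0) (nat_lit 0) (XT.nd (nat_lit 78) (nat_lit 0) (nat_lit 0) (XT.lf (nat_lit 0) (nat_lit 121185635934) (nat_lit 76) (nat_lit 221839054313) (nat_lit 76) (nat_lit 221562227334) (nat_lit 1) (nat_lit 4) (nat_lit 2) (nat_lit 5) (nat_lit 2) (nat_lit 4) (nat_lit 491) (nat_lit 360) (nat_lit 349)) (XT.lf (nat_lit 0) (nat_lit 142513673247) (nat_lit 76) (nat_lit 233623473212) (nat_lit 76) (nat_lit 233331247387) (nat_lit 1) (nat_lit 4) (nat_lit 2) (nat_lit 5) (nat_lit 2) (nat_lit 4) (nat_lit 492) (nat_lit 360) (nat_lit 348))) (XT.nd (nat_lit 78) (nat_lit 0) (nat_lit 0) (XT.lf (nat_lit 0) (nat_lit 165158152301) (nat_lit 76) (nat_lit 246549142802) (nat_lit 76) (nat_lit 246242658788) (nat_lit 1) (nat_lit 4) (nat_lit 2) (nat_lit 5) (nat_lit 2) (nat_lit 4) (nat_lit 493) (nat_lit 360) (nat_lit 347)) (XT.lf (nat_lit 0) (nat_lit 189253262602) (nat_lit 76) (nat_lit 260692659646)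 (nat_lit 76) (nat_lit 260372973605) (nat_lit 1) (nat_lit 4) (nat_lit 2) (nat_lit 5) (nat_lit 2) (nat_lit 4) (nat_lit 494) (nat_lit 360) (nat_lit 346)))) (XT.nd (nat_lit 156) (nat_lit 0) (nat_lit 0) (XT.nd (nat_lit 78) (nat_lit 0) (nat_lit 0) (XT.lf (nat_lit 0) (nat_lit 214941789990) (nat_lit 76) (nat_lit 276137837176) (nat_lit 76) (nat_lit 275805927035) (nat_lit 1) (nat_lit 4) (nat_lit 2) (nat_lit 5) (nat_lit 2) (nat_lit 4) (nat_lit 495) (nat_lit 360) (nat_lit 345)) (XT.lf (nat_lit 0) (nat_lit 242375962773) (nat_lit 76) (nat_lit 292976202370) (nat_lit 76) (nat_lit 292632973619) (nat_lit 1) (nat_lit 4) (nat_lit 2) (nat_lit 5) (nat_lit 2) (nat_lit 4) (nat_lit 496) (nat_lit 360) (nat_lit 344))) (XT.nd (nat_lit 78) (nat_lit 0) (nat_lit 0) (XT.lf (nat_lit 0) (nat_lit 271718353829) (nat_lit 76) (nat_lit 311307538133) (nat_lit 76) (nat_lit 310953829187) (nat_lit 1) (nat_lit 4) (nat_lit 2) (nat_lit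 5) (nat_lit 2) (nat_lit 4) (nat_lit 497) (nat_lit 360) (nat_lit 343)) (XT.lf (nat_lit 0) (nat_lit 303142843993) (nat_lit 76) (nat_lit 331240474603) (nat_lit 76) (nat_lit 330877061773) (nat_lit 1) (nat_lit 4) (nat_lit 2) (nat_lit 5) (nat_lit 2) (nat_lit 4) (nat_lit 498) (nat_lit 360) (nat_lit 342)))))) (XT.nd (nat_lit 60918) (nat_lit 0) (nat_lit 0) (XT.nd (nat_lit 234) (nat_lit 0) (nat_lit 0) (XT.nd (nat_lit 78) (nat_lit 0) (nat_lit 0) (XT.lf (nat_lit 0) (nat_lit 336835652466) (nat_lit 76) (nat_lit 352893132885) (nat_lit 76) (nat_lit 352520734976) (nat_lit 1) (nat_lit 4) (nat_lit 2) (nat_lit 5) (nat_lit 2) (nat_lit 4) (nat_lit 499) (nat_lit 360) (nat_lit 341)) (XT.nd (nat_lit 78) (nat_lit 0) (nat_lit 0) (XT.lf (nat_lit 0) (nat_lit 372996440335) (nat_lit 76) (nat_lit 376393825027) (nat_lit 76) (nat_lit 376013107602) (nat_lit 1) (nat_lit 4) (nat_lit 2) (nat_lit 5) (nat_lit 2) (nat_lit 4) (nat_lit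 500) (nat_lit 360) (nat_lit 340)) (XT.lf (nat_lit 0) (nat_lit 411839493751) (nat_lit 76) (nat_lit 401881814392) (nat_lit 76) (nat_lit 401493393710) (nat_lit 1) (nat_lit 4) (nat_lit 2) (nat_lit 5) (nat_lit 2) (nat_lit 4) (nat_lit 501) (nat_lit 360) (nat_lit 339)))) (XT.nd (nat_lit 156) (nat_lit 0) (nat_lit 0) (XT.nd (nat_lit 78) (nat_lit 0) (nat_lit 0) (XT.lf (nat_lit 0) (nat_lit 453594993770) (nat_lit 76) (nat_lit 429508140915) (nat_lit 76) (nat_lit 429112587589) (nat_lit 1) (nat_lit 4) (nat_lit 2) (nat_lit 5) (nat_lit 2) (nat_lit 4) (nat_lit 502) (nat_lit 360) (nat_lit 338)) (XT.lf (nat_lit 0) (nat_lit 498510380394) (nat_lit 76) (nat_lit 459436516161) (nat_lit 76) (nat_lit 459034358534) (nat_lit 1) (nat_lit 4) (nat_lit 2) (nat_lit 5) (nat_lit 2) (nat_lit 4) (nat_lit 503) (nat_lit 360) (nat_lit 337))) (XT.nd (nat_lit 60450) (nat_lit 0) (nat_lit 76) (XT.lf (nat_lit 0) (nat_lit 546851818875) (nat_lit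 76) (nat_lit 491844293466) (nat_lit 76) (nat_lit 491436020746) (nat_lit 1) (nat_lit 4) (nat_lit 2) (nat_lit 5) (nat_lit 2) (nat_lit 4) (nat_lit 504) (nat_lit 360) (nat_lit 336)) (XT.lf (nat_lit 0) (nat_lit 31962972867) (nat_lit 152) (nat_lit 41436572468) (nat_lit 0) (nat_lit 31962972867) (nat_lit 2) (nat_lit 5) (nat_lit 4) (nat_lit 4) (nat_lit 2) (nat_lit 4) (nat_lit 478) (nat_lit 361) (nat_lit 361))))) (XT.nd (nat_lit 312) (nat_lit 76) (nat_lit 0) (XT.nd (nat_lit 156) (nat_lit 0) (nat_lit 0) (XT.nd (nat_lit 78) (nat_lit 0) (nat_lit 0) (XT.lf (nat_lit 0) (nat_lit 78564049850) (nat_lit 152) (nat_lit 70015396496) (nat_lit 0) (nat_lit 78525272940) (nat_lit 2) (nat_lit 5) (nat_lit 4) (nat_lit 4) (nat_lit 2) (nat_lit 4) (nat_lit 479) (nat_lit 361) (nat_lit 360)) (XT.lf (nat_lit 0) (nat_lit 93906791427) (nat_lit 152) (nat_lit 57079197147) (nat_lit 0) (nat_lit 93832109969) (nat_lit 2) (nat_lit 5) (nat_lit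 4) (nat_lit 4) (nat_lit 2) (nat_lit 4) (nat_lit 480) (nat_lit 361) (nat_lit 359))) (XT.nd (nat_lit 78) (nat_lit 0) (nat_lit 0) (XT.lf (nat_lit 0) (nat_lit 110045090415) (nat_lit 152) (nat_lit 43987887930) (nat_lit 0) (nat_lit 109937164006) (nat_lit 2) (nat_lit 5) (nat_lit 4) (nat_lit 4) (nat_lit 2) (nat_lit 4) (nat_lit 481) (nat_lit 361) (nat_lit 358)) (XT.lf (nat_lit 0) (nat_lit 127074581178) (nat_lit 152) (nat_lit 30663890715) (nat_lit 0) (nat_lit 126935872407) (nat_lit 2) (nat_lit 5) (nat_lit 4) (nat_lit 4) (nat_lit 2) (nat_lit 4) (nat_lit 482) (nat_lit 361) (nat_lit 357)))) (XT.nd (nat_lit 156) (nat_lit 76) (nat_lit 0) (XT.nd (nat_lit 78) (nat_lit 0) (nat_lit 0) (XT.lf (nat_lit 0) (nat_lit 145096179217) (nat_lit 152) (nat_lit 17028248482) (nat_lit 0) (nat_lit 144928968260) (nat_lit 2) (nat_lit 5) (nat_lit 4) (nat_lit 4) (nat_lit 2) (nat_lit 4) (nat_lit 483) (nat_lit 361) (nat_lit 356)) (XT.lf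 (nat_lit 0) (nat_lit 164216679188) (nat_lit 152) (nat_lit 3000157425) (nat_lit 0) (nat_lit 164023077317) (nat_lit 2) (nat_lit 5) (nat_lit 4) (nat_lit 4) (nat_lit 2) (nat_lit 4) (nat_lit 484) (nat_lit 361) (nat_lit 355))) (XT.nd (nat_lit 78) (nat_lit 0) (nat_lit 0) (XT.lf (nat_lit 0) (nat_lit 11883869937) (nat_lit 76) (nat_lit 172851058333) (nat_lit 76) (nat_lit 172633020430) (nat_lit 1) (nat_lit 4) (nat_lit 2) (nat_lit 5) (nat_lit 2) (nat_lit 4) (nat_lit 485) (nat_lit 361) (nat_lit 354)) (XT.lf (nat_lit 0) (nat_lit 27447188559) (nat_lit 76) (nat_lit 179196134022) (nat_lit 76) (nat_lit 178955470164) (nat_lit 1) (nat_lit 4) (nat_lit 2) (nat_lit 5) (nat_lit 2) (nat_lit 4) (nat_lit 486) (nat_lit 361) (nat_lit 353))))))))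
noncomputable def xc3 : XT := (XT.nd (nat_lit 62556) (nat_lit 0) (nat_lit 0) (XT.nd (nat_lit 1170) (nat_lit 0) (nat_lit 0) (XT.nd (nat_lit 546) (nat_lit 0) (nat_lit 0) (XT.nd (nat_lit 234) (nat_lit 0) (nat_lit 0) (XT.nd (nat_lit 78) (nat_lit 0) (nat_lit 0) (XT.lf (nat_lit 0) (nat_lit 43682826759) (nat_lit 76) (nat_lit 186340473247) (nat_lit 76) (nat_lit 186078859431) (nat_lit 1) (nat_lit 4) (nat_lit 2) (nat_lit 5) (nat_lit 2) (nat_lit 4) (nat_lit 487) (nat_lit 361) (nat_lit 352)) (XT.nd (nat_lit 78) (nat_lit 0) (nat_lit 0) (XT.lf (nat_lit 0) (nat_lit 60686995727) (nat_lit 76) (nat_lit 194326412832) (nat_lit 76) (nat_lit 194045400907) (nat_lit 1) (nat_lit 4) (nat_lit 2) (nat_lit 5) (nat_lit 2) (nat_lit 4) (nat_lit 488) (nat_lit 361) (nat_lit 351)) (XT.lf (nat_lit 0) (nat_lit 78560460909) (nat_lit 76) (nat_lit 203201276865) (nat_lit 76) (nat_lit 202902303727) (nat_lit 1) (nat_lit 4) (nat_lit 2)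 (nat_lit 5) (nat_lit 2) (nat_lit 4) (nat_lit 489) (nat_lit 361) (nat_lit 350)))) (XT.nd (nat_lit 156) (nat_lit 0) (nat_lit 0) (XT.nd (nat_lit 78) (nat_lit 0) (nat_lit 0) (XT.lf (nat_lit 0) (nat_lit 97409139134) (nat_lit 76) (nat_lit 213017657132) (nat_lit 76) (nat_lit 212702053241) (nat_lit 1) (nat_lit 4) (nat_lit 2) (nat_lit 5) (nat_lit 2) (nat_lit 4) (nat_lit 490) (nat_lit 361) (nat_lit 349)) (XT.lf (nat_lit 0) (nat_lit 117344726275) (nat_lit 76) (nat_lit 223833724775) (nat_lit 76) (nat_lit 223502722040) (nat_lit 1) (nat_lit 4) (nat_lit 2) (nat_lit 5) (nat_lit 2) (nat_lit 4) (nat_lit 491) (nat_lit 361) (nat_lit 348))) (XT.nd (nat_lit 78) (nat_lit 0) (nat_lit 0) (XT.lf (nat_lit 0) (nat_lit 138485359144) (nat_lit 76) (nat_lit 235713575010) (nat_lit 76) (nat_lit 235368314085) (nat_lit 1) (nat_lit 4) (nat_lit 2) (nat_lit 5) (nat_lit 2) (nat_lit 4) (nat_lit 492) (nat_lit 361) (nat_lit 347)) (XT.lf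 (nat_lit 0) (nat_lit 160956315565) (nat_lit 76) (nat_lit 248727606950) (nat_lit 76) (nat_lit 248369143998) (nat_lit 1) (nat_lit 4) (nat_lit 2) (nat_lit 5) (nat_lit 2) (nat_lit 4) (nat_lit 493) (nat_lit 361) (nat_lit 346))))) (XT.nd (nat_lit 312) (nat_lit 0) (nat_lit 0) (XT.nd (nat_lit 156) (nat_lit 0) (nat_lit 0) (XT.nd (nat_lit 78) (nat_lit 0) (nat_lit 0) (XT.lf (nat_lit 0) (nat_lit 184890756762) (nat_lit 76) (nat_lit 262952940783) (nat_lit 76) (nat_lit 262582253732) (nat_lit 1) (nat_lit 4) (nat_lit 2) (nat_lit 5) (nat_lit 2) (nat_lit 4) (nat_lit 494) (nat_lit 361) (nat_lit 345)) (XT.lf (nat_lit 0) (nat_lit 210430516459) (nat_lit 76) (nat_lit 278473874785) (nat_lit 76) (nat_lit 278091869123) (nat_lit 1) (nat_lit 4) (nat_lit 2) (nat_lit 5) (nat_lit 2) (nat_lit 4) (nat_lit 495) (nat_lit 361) (nat_lit 344))) (XT.nd (nat_lit 78) (nat_lit 0) (nat_lit 0) (XT.lf (nat_lit 0) (nat_lit 237726941382)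 (nat_lit 76) (nat_lit 295382384861) (nat_lit 76) (nat_lit 294989899004) (nat_lit 1) (nat_lit 4) (nat_lit 2) (nat_lit 5) (nat_lit 2) (nat_lit 4) (nat_lit 496) (nat_lit 361) (nat_lit 343)) (XT.lf (nat_lit 0) (nat_lit 266941788122) (nat_lit 76) (nat_lit 313778669588) (nat_lit 76) (nat_lit 313376479847) (nat_lit 1) (nat_lit 4) (nat_lit 2) (nat_lit 5) (nat_lit 2) (nat_lit 4) (nat_lit 497) (nat_lit 361) (nat_lit 342)))) (XT.nd (nat_lit 156) (nat_lit 0) (nat_lit 0) (XT.nd (nat_lit 78) (nat_lit 0) (nat_lit 0) (XT.lf (nat_lit 0) (nat_lit 298248181698) (nat_lit 76) (nat_lit 333771743988) (nat_lit 76) (nat_lit 333360569169) (nat_lit 1) (nat_lit 4) (nat_lit 2) (nat_lit 5) (nat_lit 2) (nat_lit 4) (nat_lit 498) (nat_lit 361) (nat_lit 341)) (XT.lf (nat_lit 0) (nat_lit 331831641477) (nat_lit 76) (nat_lit 355480085538) (nat_lit 76) (nat_lit 355060591202) (nat_lit 1) (nat_lit 4) (nat_lit 2) (nat_lit 5) (nat_lit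 2) (nat_lit 4) (nat_lit 499) (nat_lit 361) (nat_lit 340))) (XT.nd (nat_lit 78) (nat_lit 0) (nat_lit 0) (XT.lf (nat_lit 0) (nat_lit 367891180557) (nat_lit 76) (nat_lit 379032336263) (nat_lit 76) (nat_lit 378605138670) (nat_lit 1) (nat_lit 4) (nat_lit 2) (nat_lit 5) (nat_lit 2) (nat_lit 4) (nat_lit 500) (nat_lit 361) (nat_lit 339)) (XT.lf (nat_lit 0) (nat_lit 406640485093) (nat_lit 76) (nat_lit 404568065055) (nat_lit 76) (nat_lit 404133734818) (nat_lit 1) (nat_lit 4) (nat_lit 2) (nat_lit 5) (nat_lit 2) (nat_lit 4) (nat_lit 501) (nat_lit 361) (nat_lit 338)))))) (XT.nd (nat_lit 60762) (nat_lit 0) (nat_lit 0) (XT.nd (nat_lit 60450) (nat_lit 0) (nat_lit 76) (XT.nd (nat_lit 78) (nat_lit 0) (nat_lit 0) (XT.lf (nat_lit 0) (nat_lit 448309180594) (nat_lit 76) (nat_lit 432238594751) (nat_lit 76) (nat_lit 431797660214) (nat_lit 1) (nat_lit 4) (nat_lit 2) (nat_lit 5) (nat_lit 2) (nat_lit 4) (nat_lit 502)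 (nat_lit 361) (nat_lit 337)) (XT.nd (nat_lit 78) (nat_lit 0) (nat_lit 0) (XT.lf (nat_lit 0) (nat_lit 493144192664) (nat_lit 76) (nat_lit 462207898862) (nat_lit 76) (nat_lit 461760849232) (nat_lit 1) (nat_lit 4) (nat_lit 2) (nat_lit 5) (nat_lit 2) (nat_lit 4) (nat_lit 503) (nat_lit 361) (nat_lit 336)) (XT.lf (nat_lit 0) (nat_lit 541411210262) (nat_lit 76) (nat_lit 494653573264) (nat_lit 76) (nat_lit 494200861510) (nat_lit 1) (nat_lit 4) (nat_lit 2) (nat_lit 5) (nat_lit 2) (nat_lit 4) (nat_lit 504) (nat_lit 361) (nat_lit 335)))) (XT.nd (nat_lit 156) (nat_lit 0) (nat_lit 0) (XT.nd (nat_lit 78) (nat_lit 0) (nat_lit 0) (XT.lf (nat_lit 0) (nat_lit 18361881059) (nat_lit 152) (nat_lit 54062613225) (nat_lit 0) (nat_lit 18361881059) (nat_lit 2) (nat_lit 5) (nat_lit 4) (nat_lit 4) (nat_lit 2) (nat_lit 4) (nat_lit 476) (nat_lit 362) (nat_lit 362)) (XT.lf (nat_lit 0) (nat_lit 49947613822) (nat_lit 152) (nat_lit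 95728636530) (nat_lit 0) (nat_lit 49905734759) (nat_lit 2) (nat_lit 5) (nat_lit 4) (nat_lit 4) (nat_lit 2) (nat_lit 4) (nat_lit 477) (nat_lit 362) (nat_lit 361))) (XT.nd (nat_lit 78) (nat_lit 0) (nat_lit 0) (XT.lf (nat_lit 0) (nat_lit 63725649924) (nat_lit 152) (nat_lit 83366501898) (nat_lit 0) (nat_lit 63644993950) (nat_lit 2) (nat_lit 5) (nat_lit 4) (nat_lit 4) (nat_lit 2) (nat_lit 4) (nat_lit 478) (nat_lit 362) (nat_lit 360)) (XT.lf (nat_lit 0) (nat_lit 78139518045) (nat_lit 152) (nat_lit 70965565462) (nat_lit 0) (nat_lit 78022957524) (nat_lit 2) (nat_lit 5) (nat_lit 4) (nat_lit 4) (nat_lit 2) (nat_lit 4) (nat_lit 479) (nat_lit 362) (nat_lit 359))))) (XT.nd (nat_lit 312) (nat_lit 76) (nat_lit 0) (XT.nd (nat_lit 156) (nat_lit 0) (nat_lit 0) (XT.nd (nat_lit 78) (nat_lit 0) (nat_lit 0) (XT.lf (nat_lit 0) (nat_lit 93274633701) (nat_lit 152) (nat_lit 58452340189) (nat_lit 0) (nat_lit 93124828229)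 (nat_lit 2) (nat_lit 5) (nat_lit 4) (nat_lit 4) (nat_lit 2) (nat_lit 4) (nat_lit 480) (nat_lit 362) (nat_lit 358)) (XT.lf (nat_lit 0) (nat_lit 109220686466) (nat_lit 152) (nat_lit 45752673635) (nat_lit 0) (nat_lit 109040098632) (nat_lit 2) (nat_lit 5) (nat_lit 4) (nat_lit 4) (nat_lit 2) (nat_lit 4) (nat_lit 481) (nat_lit 362) (nat_lit 357))) (XT.nd (nat_lit 78) (nat_lit 0) (nat_lit 0) (XT.lf (nat_lit 0) (nat_lit 126072171468) (nat_lit 152) (nat_lit 32791308516) (nat_lit 0) (nat_lit 125863081447) (nat_lit 2) (nat_lit 5) (nat_lit 4) (nat_lit 4) (nat_lit 2) (nat_lit 4) (nat_lit 482) (nat_lit 362) (nat_lit 356)) (XT.lf (nat_lit 0) (nat_lit 143928949357) (nat_lit 152) (nat_lit 19491436742) (nat_lit 0) (nat_lit 143693468422) (nat_lit 2) (nat_lit 5) (nat_lit 4) (nat_lit 4) (nat_lit 2) (nat_lit 4) (nat_lit 483) (nat_lit 362) (nat_lit 355)))) (XT.nd (nat_lit 156) (nat_lit 0) (nat_lit 0) (XT.nd (nat_lit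 78) (nat_lit 76) (nat_lit 0) (XT.lf (nat_lit 0) (nat_lit 162896838078) (nat_lit 152) (nat_lit 5774244259) (nat_lit 0) (nat_lit 162636921111) (nat_lit 2) (nat_lit 5) (nat_lit 4) (nat_lit 4) (nat_lit 2) (nat_lit 4) (nat_lit 484) (nat_lit 362) (nat_lit 354)) (XT.lf (nat_lit 0) (nat_lit 8720671965) (nat_lit 76) (nat_lit 174503722097) (nat_lit 76) (nat_lit 174221179176) (nat_lit 1) (nat_lit 4) (nat_lit 2) (nat_lit 5) (nat_lit 2) (nat_lit 4) (nat_lit 485) (nat_lit 362) (nat_lit 353))) (XT.nd (nat_lit 78) (nat_lit 0) (nat_lit 0) (XT.lf (nat_lit 0) (nat_lit 24008631975) (nat_lit 76) (nat_lit 180989017729) (nat_lit 76) (nat_lit 180685524849) (nat_lit 1) (nat_lit 4) (nat_lit 2) (nat_lit 5) (nat_lit 2) (nat_lit 4) (nat_lit 486) (nat_lit 362) (nat_lit 352)) (XT.lf (nat_lit 0) (nat_lit 39989308498) (nat_lit 76) (nat_lit 188263190234) (nat_lit 76) (nat_lit 187940299245) (nat_lit 1) (nat_lit 4) (nat_lit 2)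 (nat_lit 5) (nat_lit 2) (nat_lit 4) (nat_lit 487) (nat_lit 362) (nat_lit 351))))))) (XT.nd (nat_lit 1170) (nat_lit 0) (nat_lit 0) (XT.nd (nat_lit 546) (nat_lit 0) (nat_lit 0) (XT.nd (nat_lit 234) (nat_lit 0) (nat_lit 0) (XT.nd (nat_lit 78) (nat_lit 0) (nat_lit 0) (XT.lf (nat_lit 0) (nat_lit 56757401839) (nat_lit 76) (nat_lit 196369345819) (nat_lit 76) (nat_lit 196028493618) (nat_lit 1) (nat_lit 4) (nat_lit 2) (nat_lit 5) (nat_lit 2) (nat_lit 4) (nat_lit 488) (nat_lit 362) (nat_lit 350)) (XT.nd (nat_lit 78) (nat_lit 0) (nat_lit 0) (XT.lf (nat_lit 0) (nat_lit 74412278477) (nat_lit 76) (nat_lit 205355520963) (nat_lit 76) (nat_lit 204998038010) (nat_lit 1) (nat_lit 4) (nat_lit 2) (nat_lit 5) (nat_lit 2) (nat_lit 4) (nat_lit 489) (nat_lit 362) (nat_lit 349)) (XT.lf (nat_lit 0) (nat_lit 93058559904) (nat_lit 76) (nat_lit 215274967074) (nat_lit 76) (nat_lit 214902085275) (nat_lit 1) (nat_lit 4) (nat_lit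 2) (nat_lit 5) (nat_lit 2) (nat_lit 4) (nat_lit 490) (nat_lit 362) (nat_lit 348)))) (XT.nd (nat_lit 156) (nat_lit 0) (nat_lit 0) (XT.nd (nat_lit 78) (nat_lit 0) (nat_lit 0) (XT.lf (nat_lit 0) (nat_lit 112806742601) (nat_lit 76) (nat_lit 226186466054) (nat_lit 76) (nat_lit 225799326066) (nat_lit 1) (nat_lit 4) (nat_lit 2) (nat_lit 5) (nat_lit 2) (nat_lit 4) (nat_lit 491) (nat_lit 362) (nat_lit 347)) (XT.lf (nat_lit 0) (nat_lit 133773852836) (nat_lit 76) (nat_lit 238154678638) (nat_lit 76) (nat_lit 237754336622) (nat_lit 1) (nat_lit 4) (nat_lit 2) (nat_lit 5) (nat_lit 2) (nat_lit 4) (nat_lit 492) (nat_lit 362) (nat_lit 346))) (XT.nd (nat_lit 78) (nat_lit 0) (nat_lit 0) (XT.lf (nat_lit 0) (nat_lit 156084140152) (nat_lit 76) (nat_lit 251250527568) (nat_lit 76) (nat_lit 250837961452) (nat_lit 1) (nat_lit 4) (nat_lit 2) (nat_lit 5) (nat_lit 2) (nat_lit 4) (nat_lit 493) (nat_lit 362) (nat_lit 345))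 (XT.lf (nat_lit 0) (nat_lit 179869813659) (nat_lit 76) (nat_lit 265551617873) (nat_lit 76) (nat_lit 265127733147) (nat_lit 1) (nat_lit 4) (nat_lit 2) (nat_lit 5) (nat_lit 2) (nat_lit 4) (nat_lit 494) (nat_lit 362) (nat_lit 344))))) (XT.nd (nat_lit 312) (nat_lit 0) (nat_lit 0) (XT.nd (nat_lit 156) (nat_lit 0) (nat_lit 0) (XT.nd (nat_lit 78) (nat_lit 0) (nat_lit 0) (XT.lf (nat_lit 0) (nat_lit 205271825496) (nat_lit 76) (nat_lit 281142696756) (nat_lit 76) (nat_lit 280708331836) (nat_lit 1) (nat_lit 4) (nat_lit 2) (nat_lit 5) (nat_lit 2) (nat_lit 4) (nat_lit 495) (nat_lit 362) (nat_lit 343)) (XT.lf (nat_lit 0) (nat_lit 232440706103) (nat_lit 76) (nat_lit 298116155796) (nat_lit 76) (nat_lit 297672086991) (nat_lit 1) (nat_lit 4) (nat_lit 2) (nat_lit 5) (nat_lit 2) (nat_lit 4) (nat_lit 496) (nat_lit 362) (nat_lit 342))) (XT.nd (nat_lit 78) (nat_lit 0) (nat_lit 0) (XT.lf (nat_lit 0) (nat_lit 261537456255)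 (nat_lit 76) (nat_lit 316572578454) (nat_lit 76) (nat_lit 316119524571) (nat_lit 1) (nat_lit 4) (nat_lit 2) (nat_lit 5) (nat_lit 2) (nat_lit 4) (nat_lit 497) (nat_lit 362) (nat_lit 341)) (XT.lf (nat_lit 0) (nat_lit 292734501137) (nat_lit 76) (nat_lit 336621336122) (nat_lit 76) (nat_lit 336159962722) (nat_lit 1) (nat_lit 4) (nat_lit 2) (nat_lit 5) (nat_lit 2) (nat_lit 4) (nat_lit 498) (nat_lit 362) (nat_lit 340)))) (XT.nd (nat_lit 156) (nat_lit 0) (nat_lit 0) (XT.nd (nat_lit 78) (nat_lit 0) (nat_lit 0) (XT.lf (nat_lit 0) (nat_lit 326216712127) (nat_lit 76) (nat_lit 358381236254) (nat_lit 76) (nat_lit 357912159598) (nat_lit 1) (nat_lit 4) (nat_lit 2) (nat_lit 5) (nat_lit 2) (nat_lit 4) (nat_lit 499) (nat_lit 362) (nat_lit 339)) (XT.lf (nat_lit 0) (nat_lit 362182502327) (nat_lit 76) (nat_lit 381981226406) (nat_lit 76) (nat_lit 381505017106) (nat_lit 1) (nat_lit 4) (nat_lit 2) (nat_lit 5) (nat_lit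 2) (nat_lit 4) (nat_lit 500) (nat_lit 362) (nat_lit 338))) (XT.nd (nat_lit 78) (nat_lit 0) (nat_lit 0) (XT.lf (nat_lit 0) (nat_lit 400845002345) (nat_lit 76) (nat_lit 407561158372) (nat_lit 76) (nat_lit 407078344771) (nat_lit 1) (nat_lit 4) (nat_lit 2) (nat_lit 5) (nat_lit 2) (nat_lit 4) (nat_lit 501) (nat_lit 362) (nat_lit 337)) (XT.lf (nat_lit 0) (nat_lit 442433323292) (nat_lit 76) (nat_lit 435272616933) (nat_lit 76) (nat_lit 434783688239) (nat_lit 1) (nat_lit 4) (nat_lit 2) (nat_lit 5) (nat_lit 2) (nat_lit 4) (nat_lit 502) (nat_lit 362) (nat_lit 336)))))) (XT.nd (nat_lit 60606) (nat_lit 0) (nat_lit 0) (XT.nd (nat_lit 60294) (nat_lit 0) (nat_lit 76) (XT.nd (nat_lit 78) (nat_lit 0) (nat_lit 0) (XT.lf (nat_lit 0) (nat_lit 487193914479) (nat_lit 76) (nat_lit 465279818141) (nat_lit 76) (nat_lit 464785227324) (nat_lit 1) (nat_lit 4) (nat_lit 2) (nat_lit 5) (nat_lit 2) (nat_lit 4) (nat_lit 503)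 (nat_lit 362) (nat_lit 335)) (XT.nd (nat_lit 60138) (nat_lit 0) (nat_lit 76) (XT.lf (nat_lit 0) (nat_lit 535392023852) (nat_lit 76) (nat_lit 497760582447) (nat_lit 76) (nat_lit 497260748923) (nat_lit 1) (nat_lit 4) (nat_lit 2) (nat_lit 5) (nat_lit 2) (nat_lit 4) (nat_lit 504) (nat_lit 362) (nat_lit 334)) (XT.lf (nat_lit 0) (nat_lit 5977839743) (nat_lit 152) (nat_lit 66370402599) (nat_lit 0) (nat_lit 5977839743) (nat_lit 2) (nat_lit 5) (nat_lit 4) (nat_lit 4) (nat_lit 2) (nat_lit 4) (nat_lit 474) (nat_lit 363) (nat_lit 363)))) (XT.nd (nat_lit 156) (nat_lit 0) (nat_lit 0) (XT.nd (nat_lit 78) (nat_lit 0) (nat_lit 0) (XT.lf (nat_lit 0) (nat_lit 24020960638) (nat_lit 152) (nat_lit 120629732935) (nat_lit 0) (nat_lit 23975731249) (nat_lit 2) (nat_lit 5) (nat_lit 4) (nat_lit 4) (nat_lit 2) (nat_lit 4) (nat_lit 475) (nat_lit 363) (nat_lit 362)) (XT.lf (nat_lit 0) (nat_lit 36507442644) (nat_lit 152) (nat_lit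 108658051971) (nat_lit 0) (nat_lit 36420334192) (nat_lit 2) (nat_lit 5) (nat_lit 4) (nat_lit 4) (nat_lit 2) (nat_lit 4) (nat_lit 476) (nat_lit 363) (nat_lit 361))) (XT.nd (nat_lit 78) (nat_lit 0) (nat_lit 0) (XT.lf (nat_lit 0) (nat_lit 49489119473) (nat_lit 152) (nat_lit 96754819013) (nat_lit 0) (nat_lit 49363234110) (nat_lit 2) (nat_lit 5) (nat_lit 4) (nat_lit 4) (nat_lit 2) (nat_lit 4) (nat_lit 477) (nat_lit 363) (nat_lit 360)) (XT.lf (nat_lit 0) (nat_lit 63042919581) (nat_lit 152) (nat_lit 84849496384) (nat_lit 0) (nat_lit 62881129671) (nat_lit 2) (nat_lit 5) (nat_lit 4) (nat_lit 4) (nat_lit 2) (nat_lit 4) (nat_lit 478) (nat_lit 363) (nat_lit 359))))) (XT.nd (nat_lit 312) (nat_lit 76) (nat_lit 0) (XT.nd (nat_lit 156) (nat_lit 0) (nat_lit 0) (XT.nd (nat_lit 78) (nat_lit 0) (nat_lit 0) (XT.lf (nat_lit 0) (nat_lit 77249161781) (nat_lit 152) (nat_lit 72871534024) (nat_lit 0) (nat_lit 77054126920)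 (nat_lit 2) (nat_lit 5) (nat_lit 4) (nat_lit 4) (nat_lit 2) (nat_lit 4) (nat_lit 479) (nat_lit 363) (nat_lit 358)) (XT.lf (nat_lit 0) (nat_lit 92192031214) (nat_lit 152) (nat_lit 60749951415) (nat_lit 0) (nat_lit 91966213992) (nat_lit 2) (nat_lit 5) (nat_lit 4) (nat_lit 4) (nat_lit 2) (nat_lit 4) (nat_lit 480) (nat_lit 363) (nat_lit 357))) (XT.nd (nat_lit 78) (nat_lit 0) (nat_lit 0) (XT.lf (nat_lit 0) (nat_lit 107960078217) (nat_lit 152) (nat_lit 48412916957) (nat_lit 0) (nat_lit 107705758808) (nat_lit 2) (nat_lit 5) (nat_lit 4) (nat_lit 4) (nat_lit 2) (nat_lit 4) (nat_lit 481) (nat_lit 363) (nat_lit 356)) (XT.lf (nat_lit 0) (nat_lit 124646743068) (nat_lit 152) (nat_lit 35787322296) (nat_lit 0) (nat_lit 124366032745) (nat_lit 2) (nat_lit 5) (nat_lit 4) (nat_lit 4) (nat_lit 2) (nat_lit 4) (nat_lit 482) (nat_lit 363) (nat_lit 355)))) (XT.nd (nat_lit 156) (nat_lit 76) (nat_lit 0) (XT.nd (nat_lit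 78) (nat_lit 0) (nat_lit 0) (XT.lf (nat_lit 0) (nat_lit 142350909708) (nat_lit 152) (nat_lit 22798349096) (nat_lit 0) (nat_lit 142045763353) (nat_lit 2) (nat_lit 5) (nat_lit 4) (nat_lit 4) (nat_lit 2) (nat_lit 4) (nat_lit 483) (nat_lit 363) (nat_lit 354)) (XT.lf (nat_lit 0) (nat_lit 161177491716) (nat_lit 152) (nat_lit 9369025662) (nat_lit 0) (nat_lit 160849719406) (nat_lit 2) (nat_lit 5) (nat_lit 4) (nat_lit 4) (nat_lit 2) (nat_lit 4) (nat_lit 484) (nat_lit 363) (nat_lit 353))) (XT.nd (nat_lit 78) (nat_lit 0) (nat_lit 0) (XT.lf (nat_lit 0) (nat_lit 4731672243) (nat_lit 76) (nat_lit 176580256443) (nat_lit 76) (nat_lit 176231534175) (nat_lit 1) (nat_lit 4) (nat_lit 2) (nat_lit 5) (nat_lit 2) (nat_lit 4) (nat_lit 485) (nat_lit 363) (nat_lit 352)) (XT.lf (nat_lit 0) (nat_lit 19764670576) (nat_lit 76) (nat_lit 183195385355) (nat_lit 76) (nat_lit 182827264977) (nat_lit 1) (nat_lit 4) (nat_lit 2)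 (nat_lit 5) (nat_lit 2) (nat_lit 4) (nat_lit 486) (nat_lit 363) (nat_lit 351))))))))
noncomputable def xc4 : XT := (XT.nd (nat_lit 62166) (nat_lit 0) (nat_lit 0) (XT.nd (nat_lit 1092) (nat_lit 0) (nat_lit 0) (XT.nd (nat_lit 546) (nat_lit 0) (nat_lit 0) (XT.nd (nat_lit 234) (nat_lit 0) (nat_lit 0) (XT.nd (nat_lit 78) (nat_lit 0) (nat_lit 0) (XT.lf (nat_lit 0) (nat_lit 35509271473) (nat_lit 76) (nat_lit 190589773860) (nat_lit 76) (nat_lit 190203692270) (nat_lit 1) (nat_lit 4) (nat_lit 2) (nat_lit 5) (nat_lit 2) (nat_lit 4) (nat_lit 487) (nat_lit 363) (nat_lit 350)) (XT.nd (nat_lit 78) (nat_lit 0) (nat_lit 0) (XT.lf (nat_lit 0) (nat_lit 52058776270) (nat_lit 76) (nat_lit 198807240557) (nat_lit 76) (nat_lit 198404528215) (nat_lit 1) (nat_lit 4) (nat_lit 2) (nat_lit 5) (nat_lit 2) (nat_lit 4) (nat_lit 488) (nat_lit 363) (nat_lit 349)) (XT.lf (nat_lit 0) (nat_lit 69511256109) (nat_lit 76) (nat_lit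 207896481545) (nat_lit 76) (nat_lit 207478370358) (nat_lit 1) (nat_lit 4) (nat_lit 2) (nat_lit 5) (nat_lit 2) (nat_lit 4) (nat_lit 489) (nat_lit 363) (nat_lit 348)))) (XT.nd (nat_lit 156) (nat_lit 0) (nat_lit 0) (XT.nd (nat_lit 78) (nat_lit 0) (nat_lit 0) (XT.lf (nat_lit 0) (nat_lit 87970133091) (nat_lit 76) (nat_lit 217911358992) (nat_lit 76) (nat_lit 217478989615) (nat_lit 1) (nat_lit 4) (nat_lit 2) (nat_lit 5) (nat_lit 2) (nat_lit 4) (nat_lit 490) (nat_lit 363) (nat_lit 347)) (XT.lf (nat_lit 0) (nat_lit 107544793155) (nat_lit 76) (nat_lit 228911220321) (nat_lit 76) (nat_lit 228465648917) (nat_lit 1) (nat_lit 4) (nat_lit 2) (nat_lit 5) (nat_lit 2) (nat_lit 4) (nat_lit 491) (nat_lit 363) (nat_lit 346))) (XT.nd (nat_lit 78) (nat_lit 0) (nat_lit 0) (XT.lf (nat_lit 0) (nat_lit 128351234285) (nat_lit 76) (nat_lit 240961249895) (nat_lit 76) (nat_lit 240503454391) (nat_lit 1) (nat_lit 4) (nat_lit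 2) (nat_lit 5) (nat_lit 2) (nat_lit 4) (nat_lit 492) (nat_lit 363) (nat_lit 345)) (XT.lf (nat_lit 0) (nat_lit 150512753912) (nat_lit 76) (nat_lit 254132855296) (nat_lit 76) (nat_lit 253663741182) (nat_lit 1) (nat_lit 4) (nat_lit 2) (nat_lit 5) (nat_lit 2) (nat_lit 4) (nat_lit 493) (nat_lit 363) (nat_lit 344))))) (XT.nd (nat_lit 234) (nat_lit 0) (nat_lit 0) (XT.nd (nat_lit 78) (nat_lit 0) (nat_lit 0) (XT.lf (nat_lit 0) (nat_lit 174160679558) (nat_lit 76) (nat_lit 268504090483) (nat_lit 76) (nat_lit 268024496174) (nat_lit 1) (nat_lit 4) (nat_lit 2) (nat_lit 5) (nat_lit 2) (nat_lit 4) (nat_lit 494) (nat_lit 363) (nat_lit 343)) (XT.nd (nat_lit 78) (nat_lit 0) (nat_lit 0) (XT.lf (nat_lit 0) (nat_lit 199435147079) (nat_lit 76) (nat_lit 284160118331) (nat_lit 76) (nat_lit 283670820138) (nat_lit 1) (nat_lit 4) (nat_lit 2) (nat_lit 5) (nat_lit 2) (nat_lit 4) (nat_lit 495) (nat_lit 363) (nat_lit 342))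 (XT.lf (nat_lit 0) (nat_lit 226485931098) (nat_lit 76) (nat_lit 301193715301) (nat_lit 76) (nat_lit 300695432029) (nat_lit 1) (nat_lit 4) (nat_lit 2) (nat_lit 5) (nat_lit 2) (nat_lit 4) (nat_lit 496) (nat_lit 363) (nat_lit 341)))) (XT.nd (nat_lit 156) (nat_lit 0) (nat_lit 0) (XT.nd (nat_lit 78) (nat_lit 0) (nat_lit 0) (XT.lf (nat_lit 0) (nat_lit 255473332556) (nat_lit 76) (nat_lit 319705821227) (nat_lit 76) (nat_lit 319199218438) (nat_lit 1) (nat_lit 4) (nat_lit 2) (nat_lit 5) (nat_lit 2) (nat_lit 4) (nat_lit 497) (nat_lit 363) (nat_lit 340)) (XT.lf (nat_lit 0) (nat_lit 286569128649) (nat_lit 76) (nat_lit 339806137477) (nat_lit 76) (nat_lit 339291831432) (nat_lit 1) (nat_lit 4) (nat_lit 2) (nat_lit 5) (nat_lit 2) (nat_lit 4) (nat_lit 498) (nat_lit 363) (nat_lit 339))) (XT.nd (nat_lit 78) (nat_lit 0) (nat_lit 0) (XT.lf (nat_lit 0) (nat_lit 319957590759) (nat_lit 76) (nat_lit 361613777036) (nat_lit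 76) (nat_lit 361092338347) (nat_lit 1) (nat_lit 4) (nat_lit 2) (nat_lit 5) (nat_lit 2) (nat_lit 4) (nat_lit 499) (nat_lit 363) (nat_lit 338)) (XT.lf (nat_lit 0) (nat_lit 355836576441) (nat_lit 76) (nat_lit 385257970362) (nat_lit 76) (nat_lit 384729927373) (nat_lit 1) (nat_lit 4) (nat_lit 2) (nat_lit 5) (nat_lit 2) (nat_lit 4) (nat_lit 500) (nat_lit 363) (nat_lit 337)))))) (XT.nd (nat_lit 60450) (nat_lit 0) (nat_lit 76) (XT.nd (nat_lit 234) (nat_lit 0) (nat_lit 0) (XT.nd (nat_lit 78) (nat_lit 0) (nat_lit 0) (XT.lf (nat_lit 0) (nat_lit 394418701905) (nat_lit 76) (nat_lit 410878831193) (nat_lit 76) (nat_lit 410344673110) (nat_lit 1) (nat_lit 4) (nat_lit 2) (nat_lit 5) (nat_lit 2) (nat_lit 4) (nat_lit 501) (nat_lit 363) (nat_lit 336)) (XT.nd (nat_lit 78) (nat_lit 0) (nat_lit 0) (XT.lf (nat_lit 0) (nat_lit 435932601969) (nat_lit 76) (nat_lit 438628186851) (nat_lit 76) (nat_lit 438088366645) (nat_lit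 1) (nat_lit 4) (nat_lit 2) (nat_lit 5) (nat_lit 2) (nat_lit 4) (nat_lit 502) (nat_lit 363) (nat_lit 335)) (XT.lf (nat_lit 0) (nat_lit 480624284931) (nat_lit 76) (nat_lit 468670477963) (nat_lit 76) (nat_lit 468125415051) (nat_lit 1) (nat_lit 4) (nat_lit 2) (nat_lit 5) (nat_lit 2) (nat_lit 4) (nat_lit 503) (nat_lit 363) (nat_lit 334)))) (XT.nd (nat_lit 60060) (nat_lit 0) (nat_lit 76) (XT.nd (nat_lit 59982) (nat_lit 0) (nat_lit 228) (XT.lf (nat_lit 0) (nat_lit 528758590392) (nat_lit 76) (nat_lit 501183732921) (nat_lit 76) (nat_lit 500633815651) (nat_lit 1) (nat_lit 4) (nat_lit 2) (nat_lit 5) (nat_lit 2) (nat_lit 4) (nat_lit 504) (nat_lit 363) (nat_lit 333)) (XT.lf (nat_lit 0) (nat_lit 56999209136) (nat_lit 76) (nat_lit 5333211036) (nat_lit 76) (nat_lit 5333211036) (nat_lit 4) (nat_lit 4) (nat_lit 5) (nat_lit 5) (nat_lit 5) (nat_lit 4) (nat_lit 472) (nat_lit 364) (nat_lit 364))) (XT.nd (nat_lit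 78) (nat_lit 0) (nat_lit 0) (XT.lf (nat_lit 0) (nat_lit 288948968) (nat_lit 152) (nat_lit 145063038080) (nat_lit 0) (nat_lit 240101228) (nat_lit 2) (nat_lit 5) (nat_lit 4) (nat_lit 4) (nat_lit 2) (nat_lit 4) (nat_lit 473) (nat_lit 364) (nat_lit 363)) (XT.lf (nat_lit 0) (nat_lit 11722054453) (nat_lit 152) (nat_lit 133316256760) (nat_lit 0) (nat_lit 11627977325) (nat_lit 2) (nat_lit 5) (nat_lit 4) (nat_lit 4) (nat_lit 2) (nat_lit 4) (nat_lit 474) (nat_lit 364) (nat_lit 362))))) (XT.nd (nat_lit 312) (nat_lit 0) (nat_lit 0) (XT.nd (nat_lit 156) (nat_lit 0) (nat_lit 0) (XT.nd (nat_lit 78) (nat_lit 0) (nat_lit 0) (XT.lf (nat_lit 0) (nat_lit 23525786741) (nat_lit 152) (nat_lit 121738010016) (nat_lit 0) (nat_lit 23389830549) (nat_lit 2) (nat_lit 5) (nat_lit 4) (nat_lit 4) (nat_lit 2) (nat_lit 4) (nat_lit 475) (nat_lit 364) (nat_lit 361)) (XT.lf (nat_lit 0) (nat_lit 35770093873) (nat_lit 152) (nat_lit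 110259686015) (nat_lit 0) (nat_lit 35595360770) (nat_lit 2) (nat_lit 5) (nat_lit 4) (nat_lit 4) (nat_lit 2) (nat_lit 4) (nat_lit 476) (nat_lit 364) (nat_lit 360))) (XT.nd (nat_lit 78) (nat_lit 0) (nat_lit 0) (XT.lf (nat_lit 0) (nat_lit 48527534708) (nat_lit 152) (nat_lit 98813265060) (nat_lit 0) (nat_lit 48316897058) (nat_lit 2) (nat_lit 5) (nat_lit 4) (nat_lit 4) (nat_lit 2) (nat_lit 4) (nat_lit 477) (nat_lit 364) (nat_lit 359)) (XT.lf (nat_lit 0) (nat_lit 61873708894) (nat_lit 152) (nat_lit 87330916508) (nat_lit 0) (nat_lit 61629826294) (nat_lit 2) (nat_lit 5) (nat_lit 4) (nat_lit 4) (nat_lit 2) (nat_lit 4) (nat_lit 478) (nat_lit 364) (nat_lit 358)))) (XT.nd (nat_lit 156) (nat_lit 0) (nat_lit 0) (XT.nd (nat_lit 78) (nat_lit 0) (nat_lit 0) (XT.lf (nat_lit 0) (nat_lit 75887704872) (nat_lit 152) (nat_lit 75744596811) (nat_lit 0) (nat_lit 75613039910) (nat_lit 2) (nat_lit 5) (nat_lit 4) (nat_lit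 4) (nat_lit 2) (nat_lit 4) (nat_lit 479) (nat_lit 364) (nat_lit 357)) (XT.lf (nat_lit 0) (nat_lit 90652568543) (nat_lit 152) (nat_lit 63985646298) (nat_lit 0) (nat_lit 90349401394) (nat_lit 2) (nat_lit 5) (nat_lit 4) (nat_lit 4) (nat_lit 2) (nat_lit 4) (nat_lit 480) (nat_lit 364) (nat_lit 356))) (XT.nd (nat_lit 78) (nat_lit 0) (nat_lit 0) (XT.lf (nat_lit 0) (nat_lit 106255795396) (nat_lit 152) (nat_lit 51984382298) (nat_lit 0) (nat_lit 105926237333) (nat_lit 2) (nat_lit 5) (nat_lit 4) (nat_lit 4) (nat_lit 2) (nat_lit 4) (nat_lit 481) (nat_lit 364) (nat_lit 355)) (XT.lf (nat_lit 0) (nat_lit 122789848998) (nat_lit 152) (nat_lit 39669686212) (nat_lit 0) (nat_lit 122435854903) (nat_lit 2) (nat_lit 5) (nat_lit 4) (nat_lit 4) (nat_lit 2) (nat_lit 4) (nat_lit 482) (nat_lit 364) (nat_lit 354))))))) (XT.nd (nat_lit 1170) (nat_lit 0) (nat_lit 0) (XT.nd (nat_lit 546) (nat_lit 0) (nat_lit 0) (XT.nd (nat_lit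 234) (nat_lit 76) (nat_lit 0) (XT.nd (nat_lit 78) (nat_lit 0) (nat_lit 0) (XT.lf (nat_lit 0) (nat_lit 140352708924) (nat_lit 152) (nat_lit 26968582060) (nat_lit 0) (nat_lit 139976088875) (nat_lit 2) (nat_lit 5) (nat_lit 4) (nat_lit 4) (nat_lit 2) (nat_lit 4) (nat_lit 483) (nat_lit 364) (nat_lit 353)) (XT.nd (nat_lit 78) (nat_lit 0) (nat_lit 0) (XT.lf (nat_lit 0) (nat_lit 159048451383) (nat_lit 152) (nat_lit 13805804042) (nat_lit 0) (nat_lit 158650881375) (nat_lit 2) (nat_lit 5) (nat_lit 4) (nat_lit 4) (nat_lit 2) (nat_lit 4) (nat_lit 484) (nat_lit 364) (nat_lit 352)) (XT.lf (nat_lit 0) (nat_lit 178987865959) (nat_lit 152) (nat_lit 103350510) (nat_lit 0) (nat_lit 178570897841) (nat_lit 2) (nat_lit 5) (nat_lit 4) (nat_lit 4) (nat_lit 2) (nat_lit 4) (nat_lit 485) (nat_lit 364) (nat_lit 351)))) (XT.nd (nat_lit 156) (nat_lit 0) (nat_lit 0) (XT.nd (nat_lit 78) (nat_lit 0) (nat_lit 0) (XT.lf (nat_lit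 0) (nat_lit 14690154962) (nat_lit 76) (nat_lit 185828311672) (nat_lit 76) (nat_lit 185393382342) (nat_lit 1) (nat_lit 4) (nat_lit 2) (nat_lit 5) (nat_lit 2) (nat_lit 4) (nat_lit 486) (nat_lit 364) (nat_lit 350)) (XT.lf (nat_lit 0) (nat_lit 30216167314) (nat_lit 76) (nat_lit 193334011288) (nat_lit 76) (nat_lit 192882451206) (nat_lit 1) (nat_lit 4) (nat_lit 2) (nat_lit 5) (nat_lit 2) (nat_lit 4) (nat_lit 487) (nat_lit 364) (nat_lit 349))) (XT.nd (nat_lit 78) (nat_lit 0) (nat_lit 0) (XT.lf (nat_lit 0) (nat_lit 46563275313) (nat_lit 76) (nat_lit 201654543829) (nat_lit 76) (nat_lit 201187584902) (nat_lit 1) (nat_lit 4) (nat_lit 2) (nat_lit 5) (nat_lit 2) (nat_lit 4) (nat_lit 488) (nat_lit 364) (nat_lit 348)) (XT.lf (nat_lit 0) (nat_lit 63828350707) (nat_lit 76) (nat_lit 210839216153) (nat_lit 76) (nat_lit 210357999037) (nat_lit 1) (nat_lit 4) (nat_lit 2) (nat_lit 5) (nat_lit 2) (nat_lit 4) (nat_lit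 489) (nat_lit 364) (nat_lit 347))))) (XT.nd (nat_lit 312) (nat_lit 0) (nat_lit 0) (XT.nd (nat_lit 156) (nat_lit 0) (nat_lit 0) (XT.nd (nat_lit 78) (nat_lit 0) (nat_lit 0) (XT.lf (nat_lit 0) (nat_lit 82113705056) (nat_lit 76) (nat_lit 220942455950) (nat_lit 76) (nat_lit 220448036806) (nat_lit 1) (nat_lit 4) (nat_lit 2) (nat_lit 5) (nat_lit 2) (nat_lit 4) (nat_lit 490) (nat_lit 364) (nat_lit 346)) (XT.lf (nat_lit 0) (nat_lit 101527696015) (nat_lit 76) (nat_lit 232024134268) (nat_lit 76) (nat_lit 231517491025) (nat_lit 1) (nat_lit 4) (nat_lit 2) (nat_lit 5) (nat_lit 2) (nat_lit 4) (nat_lit 491) (nat_lit 364) (nat_lit 345))) (XT.nd (nat_lit 78) (nat_lit 0) (nat_lit 0) (XT.lf (nat_lit 0) (nat_lit 122185369456) (nat_lit 76) (nat_lit 244149920314) (nat_lit 76) (nat_lit 243631958460) (nat_lit 1) (nat_lit 4) (nat_lit 2) (nat_lit 5) (nat_lit 2) (nat_lit 4) (nat_lit 492) (nat_lit 364) (nat_lit 344)) (XT.lf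 (nat_lit 0) (nat_lit 144209141221) (nat_lit 76) (nat_lit 257391670597) (nat_lit 76) (nat_lit 256863228548) (nat_lit 1) (nat_lit 4) (nat_lit 2) (nat_lit 5) (nat_lit 2) (nat_lit 4) (nat_lit 493) (nat_lit 364) (nat_lit 343)))) (XT.nd (nat_lit 156) (nat_lit 0) (nat_lit 0) (XT.nd (nat_lit 78) (nat_lit 0) (nat_lit 0) (XT.lf (nat_lit 0) (nat_lit 167729522552) (nat_lit 76) (nat_lit 271827854748) (nat_lit 76) (nat_lit 271289708815) (nat_lit 1) (nat_lit 4) (nat_lit 2) (nat_lit 5) (nat_lit 2) (nat_lit 4) (nat_lit 494) (nat_lit 364) (nat_lit 342)) (XT.lf (nat_lit 0) (nat_lit 192885893484) (nat_lit 76) (nat_lit 287544020526) (nat_lit 76) (nat_lit 286996889515) (nat_lit 1) (nat_lit 4) (nat_lit 2) (nat_lit 5) (nat_lit 2) (nat_lit 4) (nat_lit 495) (nat_lit 364) (nat_lit 341))) (XT.nd (nat_lit 78) (nat_lit 0) (nat_lit 0) (XT.lf (nat_lit 0) (nat_lit 219827328810) (nat_lit 76) (nat_lit 304633300764) (nat_lit 76)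 (nat_lit 304077850236) (nat_lit 1) (nat_lit 4) (nat_lit 2) (nat_lit 5) (nat_lit 2) (nat_lit 4) (nat_lit 496) (nat_lit 364) (nat_lit 340)) (XT.lf (nat_lit 0) (nat_lit 248713481479) (nat_lit 76) (nat_lit 323196965272) (nat_lit 76) (nat_lit 322633811488) (nat_lit 1) (nat_lit 4) (nat_lit 2) (nat_lit 5) (nat_lit 2) (nat_lit 4) (nat_lit 497) (nat_lit 364) (nat_lit 339)))))) (XT.nd (nat_lit 60294) (nat_lit 0) (nat_lit 76) (XT.nd (nat_lit 234) (nat_lit 0) (nat_lit 0) (XT.nd (nat_lit 78) (nat_lit 0) (nat_lit 0) (XT.lf (nat_lit 0) (nat_lit 279715528692) (nat_lit 76) (nat_lit 343345020950) (nat_lit 76) (nat_lit 342774734521) (nat_lit 1) (nat_lit 4) (nat_lit 2) (nat_lit 5) (nat_lit 2) (nat_lit 4) (nat_lit 498) (nat_lit 364) (nat_lit 338)) (XT.nd (nat_lit 78) (nat_lit 0) (nat_lit 0) (XT.lf (nat_lit 0) (nat_lit 313017186284) (nat_lit 76) (nat_lit 365196863683) (nat_lit 76) (nat_lit 364619972954) (nat_lit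 1) (nat_lit 4) (nat_lit 2) (nat_lit 5) (nat_lit 2) (nat_lit 4) (nat_lit 499) (nat_lit 364) (nat_lit 337)) (XT.lf (nat_lit 0) (nat_lit 348815797412) (nat_lit 76) (nat_lit 388881985874) (nat_lit 76) (nat_lit 388298980051) (nat_lit 1) (nat_lit 4) (nat_lit 2) (nat_lit 5) (nat_lit 2) (nat_lit 4) (nat_lit 500) (nat_lit 364) (nat_lit 336)))) (XT.nd (nat_lit 156) (nat_lit 0) (nat_lit 0) (XT.nd (nat_lit 78) (nat_lit 0) (nat_lit 0) (XT.lf (nat_lit 0) (nat_lit 387323501993) (nat_lit 76) (nat_lit 414540743801) (nat_lit 76) (nat_lit 413952075855) (nat_lit 1) (nat_lit 4) (nat_lit 2) (nat_lit 5) (nat_lit 2) (nat_lit 4) (nat_lit 501) (nat_lit 364) (nat_lit 335)) (XT.lf (nat_lit 0) (nat_lit 428768493832) (nat_lit 76) (nat_lit 442325189364) (nat_lit 76) (nat_lit 441731278711) (nat_lit 1) (nat_lit 4) (nat_lit 2) (nat_lit 5) (nat_lit 2) (nat_lit 4) (nat_lit 502) (nat_lit 364) (nat_lit 334))) (XT.nd (nat_lit 78)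 (nat_lit 0) (nat_lit 0) (XT.lf (nat_lit 0) (nat_lit 473396372882) (nat_lit 76) (nat_lit 472399971128) (nat_lit 76) (nat_lit 471801206118) (nat_lit 1) (nat_lit 4) (nat_lit 2) (nat_lit 5) (nat_lit 2) (nat_lit 4) (nat_lit 503) (nat_lit 364) (nat_lit 333)) (XT.lf (nat_lit 0) (nat_lit 521471600646) (nat_lit 76) (nat_lit 504943310024) (nat_lit 76) (nat_lit 504340050237) (nat_lit 1) (nat_lit 4) (nat_lit 2) (nat_lit 5) (nat_lit 2) (nat_lit 4) (nat_lit 504) (nat_lit 364) (nat_lit 332))))) (XT.nd (nat_lit 312) (nat_lit 152) (nat_lit 0) (XT.nd (nat_lit 156) (nat_lit 0) (nat_lit 0) (XT.nd (nat_lit 78) (nat_lit 0) (nat_lit 0) (XT.lf (nat_lit 0) (nat_lit 26993676641) (nat_lit 76) (nat_lit 15777998790) (nat_lit 76) (nat_lit 15777998790) (nat_lit 4) (nat_lit 4) (nat_lit 5) (nat_lit 5) (nat_lit 5) (nat_lit 4) (nat_lit 470) (nat_lit 365) (nat_lit 365)) (XT.lf (nat_lit 0) (nat_lit 83141099941) (nat_lit 76) (nat_lit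 21385780099) (nat_lit 76) (nat_lit 21330386762) (nat_lit 4) (nat_lit 4) (nat_lit 5) (nat_lit 5) (nat_lit 5) (nat_lit 4) (nat_lit 471) (nat_lit 365) (nat_lit 364))) (XT.nd (nat_lit 78) (nat_lit 0) (nat_lit 0) (XT.lf (nat_lit 0) (nat_lit 113416262660) (nat_lit 76) (nat_lit 11017991511) (nat_lit 76) (nat_lit 10911308047) (nat_lit 4) (nat_lit 4) (nat_lit 5) (nat_lit 5) (nat_lit 5) (nat_lit 4) (nat_lit 472) (nat_lit 365) (nat_lit 363)) (XT.lf (nat_lit 0) (nat_lit 144992249811) (nat_lit 76) (nat_lit 391193067) (nat_lit 76) (nat_lit 237018746) (nat_lit 4) (nat_lit 4) (nat_lit 5) (nat_lit 5) (nat_lit 5) (nat_lit 4) (nat_lit 473) (nat_lit 365) (nat_lit 362)))) (XT.nd (nat_lit 156) (nat_lit 0) (nat_lit 0) (XT.nd (nat_lit 78) (nat_lit 0) (nat_lit 0) (XT.lf (nat_lit 0) (nat_lit 10925717780) (nat_lit 152) (nat_lit 135046021528) (nat_lit 0) (nat_lit 10737006030) (nat_lit 2) (nat_lit 5) (nat_lit 4) (nat_lit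 4) (nat_lit 2) (nat_lit 4) (nat_lit 474) (nat_lit 365) (nat_lit 361)) (XT.lf (nat_lit 0) (nat_lit 22487275194) (nat_lit 152) (nat_lit 123961131747) (nat_lit 0) (nat_lit 22259786532) (nat_lit 2) (nat_lit 5) (nat_lit 4) (nat_lit 4) (nat_lit 2) (nat_lit 4) (nat_lit 475) (nat_lit 365) (nat_lit 360))) (XT.nd (nat_lit 78) (nat_lit 0) (nat_lit 0) (XT.lf (nat_lit 0) (nat_lit 34507346332) (nat_lit 152) (nat_lit 112939619749) (nat_lit 0) (nat_lit 34243953124) (nat_lit 2) (nat_lit 5) (nat_lit 4) (nat_lit 4) (nat_lit 2) (nat_lit 4) (nat_lit 476) (nat_lit 365) (nat_lit 359)) (XT.lf (nat_lit 0) (nat_lit 47057161246) (nat_lit 152) (nat_lit 101916172870) (nat_lit 0) (nat_lit 46760523087) (nat_lit 2) (nat_lit 5) (nat_lit 4) (nat_lit 4) (nat_lit 2) (nat_lit 4) (nat_lit 477) (nat_lit 365) (nat_lit 358))))))))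
noncomputable def xc5 : XT := (XT.nd (nat_lit 61854) (nat_lit 0) (nat_lit 0) (XT.nd (nat_lit 1092) (nat_lit 0) (nat_lit 0) (XT.nd (nat_lit 546) (nat_lit 76) (nat_lit 0) (XT.nd (nat_lit 234) (nat_lit 0) (nat_lit 0) (XT.nd (nat_lit 78) (nat_lit 0) (nat_lit 0) (XT.lf (nat_lit 0) (nat_lit 60211089210) (nat_lit 152) (nat_lit 90825466981) (nat_lit 0) (nat_lit 59883668688) (nat_lit 2) (nat_lit 5) (nat_lit 4) (nat_lit 4) (nat_lit 2) (nat_lit 4) (nat_lit 478) (nat_lit 365) (nat_lit 357)) (XT.nd (nat_lit 78) (nat_lit 0) (nat_lit 0) (XT.lf (nat_lit 0) (nat_lit 74047079426) (nat_lit 152) (nat_lit 79601779380) (nat_lit 0) (nat_lit 73691156717) (nat_lit 2) (nat_lit 5) (nat_lit 4) (nat_lit 4) (nat_lit 2) (nat_lit 4) (nat_lit 479) (nat_lit 365) (nat_lit 356)) (XT.lf (nat_lit 0) (nat_lit 88647122947) (nat_lit 152) (nat_lit 68178599326) (nat_lit 0) (nat_lit 88264809325) (nat_lit 2) (nat_lit 5) (nat_lit 4) (nat_lit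 4) (nat_lit 2) (nat_lit 4) (nat_lit 480) (nat_lit 365) (nat_lit 355)))) (XT.nd (nat_lit 156) (nat_lit 0) (nat_lit 0) (XT.nd (nat_lit 78) (nat_lit 0) (nat_lit 0) (XT.lf (nat_lit 0) (nat_lit 104097738550) (nat_lit 152) (nat_lit 56488233900) (nat_lit 0) (nat_lit 103690988896) (nat_lit 2) (nat_lit 5) (nat_lit 4) (nat_lit 4) (nat_lit 2) (nat_lit 4) (nat_lit 481) (nat_lit 365) (nat_lit 354)) (XT.lf (nat_lit 0) (nat_lit 120490485438) (nat_lit 152) (nat_lit 44461406862) (nat_lit 0) (nat_lit 120061109830) (nat_lit 2) (nat_lit 5) (nat_lit 4) (nat_lit 4) (nat_lit 2) (nat_lit 4) (nat_lit 482) (nat_lit 365) (nat_lit 353))) (XT.nd (nat_lit 78) (nat_lit 0) (nat_lit 0) (XT.lf (nat_lit 0) (nat_lit 137922505816) (nat_lit 152) (nat_lit 32026848127) (nat_lit 0) (nat_lit 137472180249) (nat_lit 2) (nat_lit 5) (nat_lit 4) (nat_lit 4) (nat_lit 2) (nat_lit 4) (nat_lit 483) (nat_lit 365) (nat_lit 352)) (XT.lf (nat_lit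 0) (nat_lit 156497100544) (nat_lit 152) (nat_lit 19110871420) (nat_lit 0) (nat_lit 156027376868) (nat_lit 2) (nat_lit 5) (nat_lit 4) (nat_lit 4) (nat_lit 2) (nat_lit 4) (nat_lit 484) (nat_lit 365) (nat_lit 351))))) (XT.nd (nat_lit 234) (nat_lit 0) (nat_lit 0) (XT.nd (nat_lit 78) (nat_lit 76) (nat_lit 0) (XT.lf (nat_lit 0) (nat_lit 176324341295) (nat_lit 152) (nat_lit 5636937620) (nat_lit 0) (nat_lit 175836656406) (nat_lit 2) (nat_lit 5) (nat_lit 4) (nat_lit 4) (nat_lit 2) (nat_lit 4) (nat_lit 485) (nat_lit 365) (nat_lit 350)) (XT.nd (nat_lit 78) (nat_lit 0) (nat_lit 0) (XT.lf (nat_lit 0) (nat_lit 8755013927) (nat_lit 76) (nat_lit 188903399205) (nat_lit 76) (nat_lit 188399083564) (nat_lit 1) (nat_lit 4) (nat_lit 2) (nat_lit 5) (nat_lit 2) (nat_lit 4) (nat_lit 486) (nat_lit 365) (nat_lit 349)) (XT.lf (nat_lit 0) (nat_lit 24078629481) (nat_lit 76) (nat_lit 196512164665) (nat_lit 76) (nat_lit 195992450179)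 (nat_lit 1) (nat_lit 4) (nat_lit 2) (nat_lit 5) (nat_lit 2) (nat_lit 4) (nat_lit 487) (nat_lit 365) (nat_lit 348)))) (XT.nd (nat_lit 156) (nat_lit 0) (nat_lit 0) (XT.nd (nat_lit 78) (nat_lit 0) (nat_lit 0) (XT.lf (nat_lit 0) (nat_lit 40238333035) (nat_lit 76) (nat_lit 204928128543) (nat_lit 76) (nat_lit 204394155867) (nat_lit 1) (nat_lit 4) (nat_lit 2) (nat_lit 5) (nat_lit 2) (nat_lit 4) (nat_lit 488) (nat_lit 365) (nat_lit 347)) (XT.lf (nat_lit 0) (nat_lit 57329885796) (nat_lit 76) (nat_lit 214201163216) (nat_lit 76) (nat_lit 213653988514) (nat_lit 1) (nat_lit 4) (nat_lit 2) (nat_lit 5) (nat_lit 2) (nat_lit 4) (nat_lit 489) (nat_lit 365) (nat_lit 346))) (XT.nd (nat_lit 78) (nat_lit 0) (nat_lit 0) (XT.lf (nat_lit 0) (nat_lit 75454571041) (nat_lit 76) (nat_lit 224386220002) (nat_lit 76) (nat_lit 223826821200) (nat_lit 1) (nat_lit 4) (nat_lit 2) (nat_lit 5) (nat_lit 2) (nat_lit 4) (nat_lit 490)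 (nat_lit 365) (nat_lit 345)) (XT.lf (nat_lit 0) (nat_lit 94719794310) (nat_lit 76) (nat_lit 235543654793) (nat_lit 76) (nat_lit 234972937380) (nat_lit 1) (nat_lit 4) (nat_lit 2) (nat_lit 5) (nat_lit 2) (nat_lit 4) (nat_lit 491) (nat_lit 365) (nat_lit 344)))))) (XT.nd (nat_lit 546) (nat_lit 0) (nat_lit 0) (XT.nd (nat_lit 234) (nat_lit 0) (nat_lit 0) (XT.nd (nat_lit 78) (nat_lit 0) (nat_lit 0) (XT.lf (nat_lit 0) (nat_lit 115239719890) (nat_lit 76) (nat_lit 247739585720) (nat_lit 76) (nat_lit 247158388112) (nat_lit 1) (nat_lit 4) (nat_lit 2) (nat_lit 5) (nat_lit 2) (nat_lit 4) (nat_lit 492) (nat_lit 365) (nat_lit 343)) (XT.nd (nat_lit 78) (nat_lit 0) (nat_lit 0) (XT.lf (nat_lit 0) (nat_lit 137135947339) (nat_lit 76) (nat_lit 261046284968) (nat_lit 76) (nat_lit 260455383475) (nat_lit 1) (nat_lit 4) (nat_lit 2) (nat_lit 5) (nat_lit 2) (nat_lit 4) (nat_lit 493) (nat_lit 365) (nat_lit 342)) (XT.lf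 (nat_lit 0) (nat_lit 160538232081) (nat_lit 76) (nat_lit 275542607049) (nat_lit 76) (nat_lit 274942720479) (nat_lit 1) (nat_lit 4) (nat_lit 2) (nat_lit 5) (nat_lit 2) (nat_lit 4) (nat_lit 494) (nat_lit 365) (nat_lit 341)))) (XT.nd (nat_lit 156) (nat_lit 0) (nat_lit 0) (XT.nd (nat_lit 78) (nat_lit 0) (nat_lit 0) (XT.lf (nat_lit 0) (nat_lit 185585254321) (nat_lit 76) (nat_lit 291314456095) (nat_lit 76) (nat_lit 290706250008) (nat_lit 1) (nat_lit 4) (nat_lit 2) (nat_lit 5) (nat_lit 2) (nat_lit 4) (nat_lit 495) (nat_lit 365) (nat_lit 340)) (XT.lf (nat_lit 0) (nat_lit 212425440857) (nat_lit 76) (nat_lit 308455294915) (nat_lit 76) (nat_lit 307839385572) (nat_lit 1) (nat_lit 4) (nat_lit 2) (nat_lit 5) (nat_lit 2) (nat_lit 4) (nat_lit 496) (nat_lit 365) (nat_lit 339))) (XT.nd (nat_lit 78) (nat_lit 0) (nat_lit 0) (XT.lf (nat_lit 0) (nat_lit 241217844646) (nat_lit 76) (nat_lit 327066698850) (nat_lit 76)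 (nat_lit 326443656863) (nat_lit 1) (nat_lit 4) (nat_lit 2) (nat_lit 5) (nat_lit 2) (nat_lit 4) (nat_lit 497) (nat_lit 365) (nat_lit 338)) (XT.lf (nat_lit 0) (nat_lit 272133087341) (nat_lit 76) (nat_lit 347258957702) (nat_lit 76) (nat_lit 346629311414) (nat_lit 1) (nat_lit 4) (nat_lit 2) (nat_lit 5) (nat_lit 2) (nat_lit 4) (nat_lit 498) (nat_lit 365) (nat_lit 337))))) (XT.nd (nat_lit 312) (nat_lit 0) (nat_lit 0) (XT.nd (nat_lit 156) (nat_lit 0) (nat_lit 0) (XT.nd (nat_lit 78) (nat_lit 0) (nat_lit 0) (XT.lf (nat_lit 0) (nat_lit 305354370379) (nat_lit 76) (nat_lit 369151729300) (nat_lit 76) (nat_lit 368515967919) (nat_lit 1) (nat_lit 4) (nat_lit 2) (nat_lit 5) (nat_lit 2) (nat_lit 4) (nat_lit 499) (nat_lit 365) (nat_lit 336)) (XT.lf (nat_lit 0) (nat_lit 341078560624) (nat_lit 76) (nat_lit 392874748587) (nat_lit 76) (nat_lit 392233325083) (nat_lit 1) (nat_lit 4) (nat_lit 2) (nat_lit 5) (nat_lit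 2) (nat_lit 4) (nat_lit 500) (nat_lit 365) (nat_lit 335))) (XT.nd (nat_lit 78) (nat_lit 0) (nat_lit 0) (XT.lf (nat_lit 0) (nat_lit 379517356980) (nat_lit 76) (nat_lit 418568596419) (nat_lit 76) (nat_lit 417921930208) (nat_lit 1) (nat_lit 4) (nat_lit 2) (nat_lit 5) (nat_lit 2) (nat_lit 4) (nat_lit 501) (nat_lit 365) (nat_lit 334)) (XT.lf (nat_lit 0) (nat_lit 420898544907) (nat_lit 76) (nat_lit 446385532634) (nat_lit 76) (nat_lit 445734012065) (nat_lit 1) (nat_lit 4) (nat_lit 2) (nat_lit 5) (nat_lit 2) (nat_lit 4) (nat_lit 502) (nat_lit 365) (nat_lit 333)))) (XT.nd (nat_lit 59748) (nat_lit 0) (nat_lit 228) (XT.nd (nat_lit 78) (nat_lit 0) (nat_lit 0) (XT.lf (nat_lit 0) (nat_lit 465467346260) (nat_lit 76) (nat_lit 476490398336) (nat_lit 76) (nat_lit 475834382991) (nat_lit 1) (nat_lit 4) (nat_lit 2) (nat_lit 5) (nat_lit 2) (nat_lit 4) (nat_lit 503) (nat_lit 365) (nat_lit 332)) (XT.lf (nat_lit 0)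 (nat_lit 513487872454) (nat_lit 76) (nat_lit 509061592729) (nat_lit 76) (nat_lit 508401415554) (nat_lit 1) (nat_lit 4) (nat_lit 2) (nat_lit 5) (nat_lit 2) (nat_lit 4) (nat_lit 504) (nat_lit 365) (nat_lit 331))) (XT.nd (nat_lit 78) (nat_lit 76) (nat_lit 0) (XT.lf (nat_lit 0) (nat_lit 25155535426) (nat_lit 152) (nat_lit 465748100) (nat_lit 0) (nat_lit 25155535426) (nat_lit 5) (nat_lit 5) (nat_lit 7) (nat_lit 4) (nat_lit 5) (nat_lit 4) (nat_lit 468) (nat_lit 366) (nat_lit 366)) (XT.lf (nat_lit 0) (nat_lit 25782259741) (nat_lit 76) (nat_lit 41648736712) (nat_lit 76) (nat_lit 41588911909) (nat_lit 4) (nat_lit 4) (nat_lit 5) (nat_lit 5) (nat_lit 5) (nat_lit 4) (nat_lit 469) (nat_lit 366) (nat_lit 365))))))) (XT.nd (nat_lit 1170) (nat_lit 76) (nat_lit 0) (XT.nd (nat_lit 546) (nat_lit 0) (nat_lit 0) (XT.nd (nat_lit 234) (nat_lit 152) (nat_lit 0) (XT.nd (nat_lit 78) (nat_lit 0) (nat_lit 0) (XT.lf (nat_lit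 0) (nat_lit 53358625222) (nat_lit 76) (nat_lit 31935692573) (nat_lit 76) (nat_lit 31820474433) (nat_lit 4) (nat_lit 4) (nat_lit 5) (nat_lit 5) (nat_lit 5) (nat_lit 4) (nat_lit 470) (nat_lit 366) (nat_lit 364)) (XT.nd (nat_lit 78) (nat_lit 0) (nat_lit 0) (XT.lf (nat_lit 0) (nat_lit 81930216269) (nat_lit 76) (nat_lit 22061651194) (nat_lit 76) (nat_lit 21895142926) (nat_lit 4) (nat_lit 4) (nat_lit 5) (nat_lit 5) (nat_lit 5) (nat_lit 4) (nat_lit 471) (nat_lit 366) (nat_lit 363)) (XT.lf (nat_lit 0) (nat_lit 111666346014) (nat_lit 76) (nat_lit 11968099736) (nat_lit 76) (nat_lit 11754100611) (nat_lit 4) (nat_lit 4) (nat_lit 5) (nat_lit 5) (nat_lit 5) (nat_lit 4) (nat_lit 472) (nat_lit 366) (nat_lit 362)))) (XT.nd (nat_lit 156) (nat_lit 0) (nat_lit 0) (XT.nd (nat_lit 78) (nat_lit 152) (nat_lit 0) (XT.lf (nat_lit 0) (nat_lit 142743228559) (nat_lit 76) (nat_lit 1595224562) (nat_lit 76) (nat_lit 1337252420)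 (nat_lit 4) (nat_lit 4) (nat_lit 5) (nat_lit 5) (nat_lit 5) (nat_lit 4) (nat_lit 473) (nat_lit 366) (nat_lit 361)) (XT.lf (nat_lit 0) (nat_lit 9561950436) (nat_lit 152) (nat_lit 137940349960) (nat_lit 0) (nat_lit 9277485771) (nat_lit 2) (nat_lit 5) (nat_lit 4) (nat_lit 4) (nat_lit 2) (nat_lit 4) (nat_lit 474) (nat_lit 366) (nat_lit 360))) (XT.nd (nat_lit 78) (nat_lit 0) (nat_lit 0) (XT.lf (nat_lit 0) (nat_lit 20899271855) (nat_lit 152) (nat_lit 127312272182) (nat_lit 0) (nat_lit 20578902643) (nat_lit 2) (nat_lit 5) (nat_lit 4) (nat_lit 4) (nat_lit 2) (nat_lit 4) (nat_lit 475) (nat_lit 366) (nat_lit 359)) (XT.lf (nat_lit 0) (nat_lit 32711717073) (nat_lit 152) (nat_lit 116713734260) (nat_lit 0) (nat_lit 32358102910) (nat_lit 2) (nat_lit 5) (nat_lit 4) (nat_lit 4) (nat_lit 2) (nat_lit 4) (nat_lit 476) (nat_lit 366) (nat_lit 358))))) (XT.nd (nat_lit 312) (nat_lit 0) (nat_lit 0) (XT.nd (nat_lit 156)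 (nat_lit 0) (nat_lit 0) (XT.nd (nat_lit 78) (nat_lit 0) (nat_lit 0) (XT.lf (nat_lit 0) (nat_lit 45069285764) (nat_lit 152) (nat_lit 106081930045) (nat_lit 0) (nat_lit 44684889239) (nat_lit 2) (nat_lit 5) (nat_lit 4) (nat_lit 4) (nat_lit 2) (nat_lit 4) (nat_lit 477) (nat_lit 366) (nat_lit 357)) (XT.lf (nat_lit 0) (nat_lit 58045207965) (nat_lit 152) (nat_lit 95353856252) (nat_lit 0) (nat_lit 57632309254) (nat_lit 2) (nat_lit 5) (nat_lit 4) (nat_lit 4) (nat_lit 2) (nat_lit 4) (nat_lit 478) (nat_lit 366) (nat_lit 356))) (XT.nd (nat_lit 78) (nat_lit 0) (nat_lit 0) (XT.lf (nat_lit 0) (nat_lit 71716378031) (nat_lit 152) (nat_lit 84465939110) (nat_lit 0) (nat_lit 71277088406) (nat_lit 2) (nat_lit 5) (nat_lit 4) (nat_lit 4) (nat_lit 2) (nat_lit 4) (nat_lit 479) (nat_lit 366) (nat_lit 355)) (XT.lf (nat_lit 0) (nat_lit 86163810303) (nat_lit 152) (nat_lit 73353657629) (nat_lit 0) (nat_lit 85700084645) (nat_lit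 2) (nat_lit 5) (nat_lit 4) (nat_lit 4) (nat_lit 2) (nat_lit 4) (nat_lit 480) (nat_lit 366) (nat_lit 354)))) (XT.nd (nat_lit 156) (nat_lit 0) (nat_lit 0) (XT.nd (nat_lit 78) (nat_lit 0) (nat_lit 0) (XT.lf (nat_lit 0) (nat_lit 101473119193) (nat_lit 152) (nat_lit 61951161252) (nat_lit 0) (nat_lit 100986767581) (nat_lit 2) (nat_lit 5) (nat_lit 4) (nat_lit 4) (nat_lit 2) (nat_lit 4) (nat_lit 481) (nat_lit 366) (nat_lit 353)) (XT.lf (nat_lit 0) (nat_lit 117735026532) (nat_lit 152) (nat_lit 50190879631) (nat_lit 0) (nat_lit 117227724962) (nat_lit 2) (nat_lit 5) (nat_lit 4) (nat_lit 4) (nat_lit 2) (nat_lit 4) (nat_lit 482) (nat_lit 366) (nat_lit 352))) (XT.nd (nat_lit 78) (nat_lit 0) (nat_lit 0) (XT.lf (nat_lit 0) (nat_lit 135045899179) (nat_lit 152) (nat_lit 38003122206) (nat_lit 0) (nat_lit 134519199499) (nat_lit 2) (nat_lit 5) (nat_lit 4) (nat_lit 4) (nat_lit 2) (nat_lit 4) (nat_lit 483) (nat_lit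 366) (nat_lit 351)) (XT.lf (nat_lit 0) (nat_lit 153508320083) (nat_lit 152) (nat_lit 25315665232) (nat_lit 0) (nat_lit 152963659190) (nat_lit 2) (nat_lit 5) (nat_lit 4) (nat_lit 4) (nat_lit 2) (nat_lit 4) (nat_lit 484) (nat_lit 366) (nat_lit 350)))))) (XT.nd (nat_lit 546) (nat_lit 0) (nat_lit 0) (XT.nd (nat_lit 234) (nat_lit 0) (nat_lit 0) (XT.nd (nat_lit 78) (nat_lit 76) (nat_lit 0) (XT.lf (nat_lit 0) (nat_lit 173231696182) (nat_lit 152) (nat_lit 12053323777) (nat_lit 0) (nat_lit 172670404537) (nat_lit 2) (nat_lit 5) (nat_lit 4) (nat_lit 4) (nat_lit 2) (nat_lit 4) (nat_lit 485) (nat_lit 366) (nat_lit 349)) (XT.nd (nat_lit 78) (nat_lit 0) (nat_lit 0) (XT.lf (nat_lit 0) (nat_lit 1924076267) (nat_lit 76) (nat_lit 192438870697) (nat_lit 76) (nat_lit 191862180207) (nat_lit 1) (nat_lit 4) (nat_lit 2) (nat_lit 5) (nat_lit 2) (nat_lit 4) (nat_lit 486) (nat_lit 366) (nat_lit 348)) (XT.lf (nat_lit 0)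 (nat_lit 17060287377) (nat_lit 76) (nat_lit 200143067493) (nat_lit 76) (nat_lit 199552118814) (nat_lit 1) (nat_lit 4) (nat_lit 2) (nat_lit 5) (nat_lit 2) (nat_lit 4) (nat_lit 487) (nat_lit 366) (nat_lit 347)))) (XT.nd (nat_lit 156) (nat_lit 0) (nat_lit 0) (XT.nd (nat_lit 78) (nat_lit 0) (nat_lit 0) (XT.lf (nat_lit 0) (nat_lit 33046468298) (nat_lit 76) (nat_lit 208647393720) (nat_lit 76) (nat_lit 208043243013) (nat_lit 1) (nat_lit 4) (nat_lit 2) (nat_lit 5) (nat_lit 2) (nat_lit 4) (nat_lit 488) (nat_lit 366) (nat_lit 346)) (XT.lf (nat_lit 0) (nat_lit 49977351954) (nat_lit 76) (nat_lit 218002245383) (nat_lit 76) (nat_lit 217385870577) (nat_lit 1) (nat_lit 4) (nat_lit 2) (nat_lit 5) (nat_lit 2) (nat_lit 4) (nat_lit 489) (nat_lit 366) (nat_lit 345))) (XT.nd (nat_lit 78) (nat_lit 0) (nat_lit 0) (XT.lf (nat_lit 0) (nat_lit 67953269509) (nat_lit 76) (nat_lit 228263058641) (nat_lit 76) (nat_lit 227635365225)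 (nat_lit 1) (nat_lit 4) (nat_lit 2) (nat_lit 5) (nat_lit 2) (nat_lit 4) (nat_lit 490) (nat_lit 366) (nat_lit 344)) (XT.lf (nat_lit 0) (nat_lit 87080744917) (nat_lit 76) (nat_lit 239490638313) (nat_lit 76) (nat_lit 238852464702) (nat_lit 1) (nat_lit 4) (nat_lit 2) (nat_lit 5) (nat_lit 2) (nat_lit 4) (nat_lit 491) (nat_lit 366) (nat_lit 343))))) (XT.nd (nat_lit 312) (nat_lit 0) (nat_lit 0) (XT.nd (nat_lit 156) (nat_lit 0) (nat_lit 0) (XT.nd (nat_lit 78) (nat_lit 0) (nat_lit 0) (XT.lf (nat_lit 0) (nat_lit 107473126181) (nat_lit 76) (nat_lit 251751518205) (nat_lit 76) (nat_lit 251103640709) (nat_lit 1) (nat_lit 4) (nat_lit 2) (nat_lit 5) (nat_lit 2) (nat_lit 4) (nat_lit 492) (nat_lit 366) (nat_lit 342)) (XT.lf (nat_lit 0) (nat_lit 129251257043) (nat_lit 76) (nat_lit 265118355382) (nat_lit 76) (nat_lit 264461492808) (nat_lit 1) (nat_lit 4) (nat_lit 2) (nat_lit 5) (nat_lit 2) (nat_lit 4) (nat_lit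 493) (nat_lit 366) (nat_lit 341))) (XT.nd (nat_lit 78) (nat_lit 0) (nat_lit 0) (XT.lf (nat_lit 0) (nat_lit 152544193092) (nat_lit 76) (nat_lit 279670360732) (nat_lit 76) (nat_lit 279005178641) (nat_lit 1) (nat_lit 4) (nat_lit 2) (nat_lit 5) (nat_lit 2) (nat_lit 4) (nat_lit 494) (nat_lit 366) (nat_lit 340)) (XT.lf (nat_lit 0) (nat_lit 177489966541) (nat_lit 76) (nat_lit 295493768360) (nat_lit 76) (nat_lit 294820883013) (nat_lit 1) (nat_lit 4) (nat_lit 2) (nat_lit 5) (nat_lit 2) (nat_lit 4) (nat_lit 495) (nat_lit 366) (nat_lit 339)))) (XT.nd (nat_lit 156) (nat_lit 0) (nat_lit 0) (XT.nd (nat_lit 78) (nat_lit 0) (nat_lit 0) (XT.lf (nat_lit 0) (nat_lit 204236404198) (nat_lit 76) (nat_lit 312682346607) (nat_lit 76) (nat_lit 312002328616) (nat_lit 1) (nat_lit 4) (nat_lit 2) (nat_lit 5) (nat_lit 2) (nat_lit 4) (nat_lit 496) (nat_lit 366) (nat_lit 338)) (XT.lf (nat_lit 0) (nat_lit 232942003469) (nat_lit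 76) (nat_lit 331337953716) (nat_lit 76) (nat_lit 330651331425) (nat_lit 1) (nat_lit 4) (nat_lit 2) (nat_lit 5) (nat_lit 2) (nat_lit 4) (nat_lit 497) (nat_lit 366) (nat_lit 337))) (XT.nd (nat_lit 78) (nat_lit 0) (nat_lit 0) (XT.lf (nat_lit 0) (nat_lit 263776871610) (nat_lit 76) (nat_lit 351571141433) (nat_lit 76) (nat_lit 350878404048) (nat_lit 1) (nat_lit 4) (nat_lit 2) (nat_lit 5) (nat_lit 2) (nat_lit 4) (nat_lit 498) (nat_lit 366) (nat_lit 336)) (XT.lf (nat_lit 0) (nat_lit 296923733765) (nat_lit 76) (nat_lit 373501810128) (nat_lit 76) (nat_lit 372803410619) (nat_lit 1) (nat_lit 4) (nat_lit 2) (nat_lit 5) (nat_lit 2) (nat_lit 4) (nat_lit 499) (nat_lit 366) (nat_lit 335))))))))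
noncomputable def xc6 : XT := (XT.nd (nat_lit 61698) (nat_lit 0) (nat_lit 0) (XT.nd (nat_lit 60528) (nat_lit 0) (nat_lit 0) (XT.nd (nat_lit 59982) (nat_lit 0) (nat_lit 76) (XT.nd (nat_lit 234) (nat_lit 0) (nat_lit 0) (XT.nd (nat_lit 78) (nat_lit 0) (nat_lit 0) (XT.lf (nat_lit 0) (nat_lit 332579015785) (nat_lit 76) (nat_lit 397259919319) (nat_lit 76) (nat_lit 396556277104) (nat_lit 1) (nat_lit 4) (nat_lit 2) (nat_lit 5) (nat_lit 2) (nat_lit 4) (nat_lit 500) (nat_lit 366) (nat_lit 334)) (XT.nd (nat_lit 78) (nat_lit 0) (nat_lit 0) (XT.lf (nat_lit 0) (nat_lit 370954008229) (nat_lit 76) (nat_lit 422986257804) (nat_lit 76) (nat_lit 422277761230) (nat_lit 1) (nat_lit 4) (nat_lit 2) (nat_lit 5) (nat_lit 2) (nat_lit 4) (nat_lit 501) (nat_lit 366) (nat_lit 333)) (XT.lf (nat_lit 0) (nat_lit 412276118459) (nat_lit 76) (nat_lit 450833277956) (nat_lit 76) (nat_lit 450120286607) (nat_lit 1) (nat_lit 4) (nat_lit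 2) (nat_lit 5) (nat_lit 2) (nat_lit 4) (nat_lit 502) (nat_lit 366) (nat_lit 332)))) (XT.nd (nat_lit 59592) (nat_lit 0) (nat_lit 304) (XT.nd (nat_lit 78) (nat_lit 0) (nat_lit 0) (XT.lf (nat_lit 0) (nat_lit 456790218242) (nat_lit 76) (nat_lit 480965999155) (nat_lit 76) (nat_lit 480248845977) (nat_lit 1) (nat_lit 4) (nat_lit 2) (nat_lit 5) (nat_lit 2) (nat_lit 4) (nat_lit 503) (nat_lit 366) (nat_lit 331)) (XT.lf (nat_lit 0) (nat_lit 504760094833) (nat_lit 76) (nat_lit 513562985676) (nat_lit 76) (nat_lit 512841978951) (nat_lit 1) (nat_lit 4) (nat_lit 2) (nat_lit 5) (nat_lit 2) (nat_lit 4) (nat_lit 504) (nat_lit 366) (nat_lit 330))) (XT.nd (nat_lit 78) (nat_lit 0) (nat_lit 0) (XT.lf (nat_lit 0) (nat_lit 9521620798) (nat_lit 152) (nat_lit 25096488181) (nat_lit 0) (nat_lit 9521620798) (nat_lit 5) (nat_lit 5) (nat_lit 7) (nat_lit 4) (nat_lit 5) (nat_lit 4) (nat_lit 466) (nat_lit 367) (nat_lit 367))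 (XT.lf (nat_lit 0) (nat_lit 34274608059) (nat_lit 152) (nat_lit 26168285572) (nat_lit 0) (nat_lit 34209997270) (nat_lit 5) (nat_lit 5) (nat_lit 7) (nat_lit 4) (nat_lit 5) (nat_lit 4) (nat_lit 467) (nat_lit 367) (nat_lit 366))))) (XT.nd (nat_lit 234) (nat_lit 152) (nat_lit 0) (XT.nd (nat_lit 78) (nat_lit 76) (nat_lit 0) (XT.lf (nat_lit 0) (nat_lit 50052716642) (nat_lit 152) (nat_lit 1588789423) (nat_lit 0) (nat_lit 49928281051) (nat_lit 5) (nat_lit 5) (nat_lit 7) (nat_lit 4) (nat_lit 5) (nat_lit 4) (nat_lit 468) (nat_lit 367) (nat_lit 365)) (XT.nd (nat_lit 78) (nat_lit 0) (nat_lit 0) (XT.lf (nat_lit 0) (nat_lit 24474505375) (nat_lit 76) (nat_lit 42378677495) (nat_lit 76) (nat_lit 42198848566) (nat_lit 4) (nat_lit 4) (nat_lit 5) (nat_lit 5) (nat_lit 5) (nat_lit 4) (nat_lit 469) (nat_lit 367) (nat_lit 364)) (XT.lf (nat_lit 0) (nat_lit 51468715244) (nat_lit 76) (nat_lit 32961809457) (nat_lit 76)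 (nat_lit 32730690401) (nat_lit 4) (nat_lit 4) (nat_lit 5) (nat_lit 5) (nat_lit 5) (nat_lit 4) (nat_lit 470) (nat_lit 367) (nat_lit 363)))) (XT.nd (nat_lit 156) (nat_lit 152) (nat_lit 0) (XT.nd (nat_lit 78) (nat_lit 0) (nat_lit 0) (XT.lf (nat_lit 0) (nat_lit 79501273317) (nat_lit 76) (nat_lit 23362005208) (nat_lit 76) (nat_lit 23083395295) (nat_lit 4) (nat_lit 4) (nat_lit 5) (nat_lit 5) (nat_lit 5) (nat_lit 4) (nat_lit 471) (nat_lit 367) (nat_lit 362)) (XT.lf (nat_lit 0) (nat_lit 108738298457) (nat_lit 76) (nat_lit 13522377020) (nat_lit 76) (nat_lit 13199794090) (nat_lit 4) (nat_lit 4) (nat_lit 5) (nat_lit 5) (nat_lit 5) (nat_lit 4) (nat_lit 472) (nat_lit 367) (nat_lit 361))) (XT.nd (nat_lit 78) (nat_lit 152) (nat_lit 0) (XT.lf (nat_lit 0) (nat_lit 139353047108) (nat_lit 76) (nat_lit 3384615984) (nat_lit 76) (nat_lit 3021317298) (nat_lit 4) (nat_lit 4) (nat_lit 5) (nat_lit 5) (nat_lit 5) (nat_lit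 4) (nat_lit 473) (nat_lit 367) (nat_lit 360)) (XT.lf (nat_lit 0) (nat_lit 7622670836) (nat_lit 152) (nat_lit 142016393633) (nat_lit 0) (nat_lit 7240767540) (nat_lit 2) (nat_lit 5) (nat_lit 4) (nat_lit 4) (nat_lit 2) (nat_lit 4) (nat_lit 474) (nat_lit 367) (nat_lit 359)))))) (XT.nd (nat_lit 546) (nat_lit 76) (nat_lit 0) (XT.nd (nat_lit 234) (nat_lit 0) (nat_lit 0) (XT.nd (nat_lit 78) (nat_lit 0) (nat_lit 0) (XT.lf (nat_lit 0) (nat_lit 18752366334) (nat_lit 152) (nat_lit 131811289931) (nat_lit 0) (nat_lit 18337218087) (nat_lit 2) (nat_lit 5) (nat_lit 4) (nat_lit 4) (nat_lit 2) (nat_lit 4) (nat_lit 475) (nat_lit 367) (nat_lit 358)) (XT.nd (nat_lit 78) (nat_lit 0) (nat_lit 0) (XT.lf (nat_lit 0) (nat_lit 30372565329) (nat_lit 152) (nat_lit 121604394672) (nat_lit 0) (nat_lit 29926634720) (nat_lit 2) (nat_lit 5) (nat_lit 4) (nat_lit 4) (nat_lit 2) (nat_lit 4) (nat_lit 476) (nat_lit 367) (nat_lit 357))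 (XT.lf (nat_lit 0) (nat_lit 42552128258) (nat_lit 152) (nat_lit 111335222553) (nat_lit 0) (nat_lit 42077695462) (nat_lit 2) (nat_lit 5) (nat_lit 4) (nat_lit 4) (nat_lit 2) (nat_lit 4) (nat_lit 477) (nat_lit 367) (nat_lit 356)))) (XT.nd (nat_lit 156) (nat_lit 0) (nat_lit 0) (XT.nd (nat_lit 78) (nat_lit 0) (nat_lit 0) (XT.lf (nat_lit 0) (nat_lit 55363230310) (nat_lit 152) (nat_lit 100942919219) (nat_lit 0) (nat_lit 54862406600) (nat_lit 2) (nat_lit 5) (nat_lit 4) (nat_lit 4) (nat_lit 2) (nat_lit 4) (nat_lit 478) (nat_lit 367) (nat_lit 355)) (XT.lf (nat_lit 0) (nat_lit 68881789126) (nat_lit 152) (nat_lit 90365900650) (nat_lit 0) (nat_lit 68356529385) (nat_lit 2) (nat_lit 5) (nat_lit 4) (nat_lit 4) (nat_lit 2) (nat_lit 4) (nat_lit 479) (nat_lit 367) (nat_lit 354))) (XT.nd (nat_lit 78) (nat_lit 0) (nat_lit 0) (XT.lf (nat_lit 0) (nat_lit 83187914684) (nat_lit 152) (nat_lit 79541488219) (nat_lit 0)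 (nat_lit 82640028988) (nat_lit 2) (nat_lit 5) (nat_lit 4) (nat_lit 4) (nat_lit 2) (nat_lit 4) (nat_lit 480) (nat_lit 367) (nat_lit 353)) (XT.lf (nat_lit 0) (nat_lit 98366384025) (nat_lit 152) (nat_lit 68405537258) (nat_lit 0) (nat_lit 97797548371) (nat_lit 2) (nat_lit 5) (nat_lit 4) (nat_lit 4) (nat_lit 2) (nat_lit 4) (nat_lit 481) (nat_lit 367) (nat_lit 352))))) (XT.nd (nat_lit 312) (nat_lit 76) (nat_lit 0) (XT.nd (nat_lit 156) (nat_lit 0) (nat_lit 0) (XT.nd (nat_lit 78) (nat_lit 0) (nat_lit 0) (XT.lf (nat_lit 0) (nat_lit 114507143634) (nat_lit 152) (nat_lit 56892056948) (nat_lit 0) (nat_lit 113918909870) (nat_lit 2) (nat_lit 5) (nat_lit 4) (nat_lit 4) (nat_lit 2) (nat_lit 4) (nat_lit 482) (nat_lit 367) (nat_lit 351)) (XT.lf (nat_lit 0) (nat_lit 131705842456) (nat_lit 152) (nat_lit 44932819256) (nat_lit 0) (nat_lit 131099647480) (nat_lit 2) (nat_lit 5) (nat_lit 4) (nat_lit 4) (nat_lit 2) (nat_lit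 4) (nat_lit 483) (nat_lit 367) (nat_lit 350))) (XT.nd (nat_lit 78) (nat_lit 0) (nat_lit 0) (XT.lf (nat_lit 0) (nat_lit 150064398708) (nat_lit 152) (nat_lit 32456954626) (nat_lit 0) (nat_lit 149441572979) (nat_lit 2) (nat_lit 5) (nat_lit 4) (nat_lit 4) (nat_lit 2) (nat_lit 4) (nat_lit 484) (nat_lit 367) (nat_lit 349)) (XT.lf (nat_lit 0) (nat_lit 169691603832) (nat_lit 152) (nat_lit 19390532009) (nat_lit 0) (nat_lit 169053379259) (nat_lit 2) (nat_lit 5) (nat_lit 4) (nat_lit 4) (nat_lit 2) (nat_lit 4) (nat_lit 485) (nat_lit 367) (nat_lit 348)))) (XT.nd (nat_lit 156) (nat_lit 0) (nat_lit 0) (XT.nd (nat_lit 78) (nat_lit 76) (nat_lit 0) (XT.lf (nat_lit 0) (nat_lit 190703767194) (nat_lit 152) (nat_lit 5656120752) (nat_lit 0) (nat_lit 190051284431) (nat_lit 2) (nat_lit 5) (nat_lit 4) (nat_lit 4) (nat_lit 2) (nat_lit 4) (nat_lit 486) (nat_lit 367) (nat_lit 347)) (XT.lf (nat_lit 0) (nat_lit 9119550828)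 (nat_lit 76) (nat_lit 204248236234) (nat_lit 76) (nat_lit 203582551443) (nat_lit 1) (nat_lit 4) (nat_lit 2) (nat_lit 5) (nat_lit 2) (nat_lit 4) (nat_lit 487) (nat_lit 367) (nat_lit 346))) (XT.nd (nat_lit 78) (nat_lit 0) (nat_lit 0) (XT.lf (nat_lit 0) (nat_lit 24945062644) (nat_lit 76) (nat_lit 212834379450) (nat_lit 76) (nat_lit 212156470560) (nat_lit 1) (nat_lit 4) (nat_lit 2) (nat_lit 5) (nat_lit 2) (nat_lit 4) (nat_lit 488) (nat_lit 367) (nat_lit 345)) (XT.lf (nat_lit 0) (nat_lit 41727178611) (nat_lit 76) (nat_lit 222264987585) (nat_lit 76) (nat_lit 221575760084) (nat_lit 1) (nat_lit 4) (nat_lit 2) (nat_lit 5) (nat_lit 2) (nat_lit 4) (nat_lit 489) (nat_lit 367) (nat_lit 344))))))) (XT.nd (nat_lit 60450) (nat_lit 0) (nat_lit 76) (XT.nd (nat_lit 546) (nat_lit 0) (nat_lit 0) (XT.nd (nat_lit 234) (nat_lit 0) (nat_lit 0) (XT.nd (nat_lit 78) (nat_lit 0) (nat_lit 0) (XT.lf (nat_lit 0) (nat_lit 59565348304)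 (nat_lit 76) (nat_lit 232595945724) (nat_lit 76) (nat_lit 231896238029) (nat_lit 1) (nat_lit 4) (nat_lit 2) (nat_lit 5) (nat_lit 2) (nat_lit 4) (nat_lit 490) (nat_lit 367) (nat_lit 343)) (XT.nd (nat_lit 78) (nat_lit 0) (nat_lit 0) (XT.lf (nat_lit 0) (nat_lit 78565279397) (nat_lit 76) (nat_lit 243888474361) (nat_lit 76) (nat_lit 243179062781) (nat_lit 1) (nat_lit 4) (nat_lit 2) (nat_lit 5) (nat_lit 2) (nat_lit 4) (nat_lit 491) (nat_lit 367) (nat_lit 342)) (XT.lf (nat_lit 0) (nat_lit 98839564073) (nat_lit 76) (nat_lit 256209492182) (nat_lit 76) (nat_lit 255491095524) (nat_lit 1) (nat_lit 4) (nat_lit 2) (nat_lit 5) (nat_lit 2) (nat_lit 4) (nat_lit 492) (nat_lit 367) (nat_lit 341)))) (XT.nd (nat_lit 156) (nat_lit 0) (nat_lit 0) (XT.nd (nat_lit 78) (nat_lit 0) (nat_lit 0) (XT.lf (nat_lit 0) (nat_lit 120508346241) (nat_lit 76) (nat_lit 269632012628) (nat_lit 76) (nat_lit 268905296453) (nat_lit 1)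 (nat_lit 4) (nat_lit 2) (nat_lit 5) (nat_lit 2) (nat_lit 4) (nat_lit 493) (nat_lit 367) (nat_lit 340)) (XT.lf (nat_lit 0) (nat_lit 143700033500) (nat_lit 76) (nat_lit 284235576559) (nat_lit 76) (nat_lit 283501157129) (nat_lit 1) (nat_lit 4) (nat_lit 2) (nat_lit 5) (nat_lit 2) (nat_lit 4) (nat_lit 494) (nat_lit 367) (nat_lit 339))) (XT.nd (nat_lit 78) (nat_lit 0) (nat_lit 0) (XT.lf (nat_lit 0) (nat_lit 168552058070) (nat_lit 76) (nat_lit 300106723615) (nat_lit 76) (nat_lit 299365171540) (nat_lit 1) (nat_lit 4) (nat_lit 2) (nat_lit 5) (nat_lit 2) (nat_lit 4) (nat_lit 495) (nat_lit 367) (nat_lit 338)) (XT.lf (nat_lit 0) (nat_lit 195211691208) (nat_lit 76) (nat_lit 317339505037) (nat_lit 76) (nat_lit 316591348661) (nat_lit 1) (nat_lit 4) (nat_lit 2) (nat_lit 5) (nat_lit 2) (nat_lit 4) (nat_lit 496) (nat_lit 367) (nat_lit 337))))) (XT.nd (nat_lit 312) (nat_lit 0) (nat_lit 0) (XT.nd (nat_lit 156)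 (nat_lit 0) (nat_lit 0) (XT.nd (nat_lit 78) (nat_lit 0) (nat_lit 0) (XT.lf (nat_lit 0) (nat_lit 223836915926) (nat_lit 76) (nat_lit 336036041010) (nat_lit 76) (nat_lit 335281769541) (nat_lit 1) (nat_lit 4) (nat_lit 2) (nat_lit 5) (nat_lit 2) (nat_lit 4) (nat_lit 497) (nat_lit 367) (nat_lit 336)) (XT.lf (nat_lit 0) (nat_lit 254597363183) (nat_lit 76) (nat_lit 356307125823) (nat_lit 76) (nat_lit 355547192231) (nat_lit 1) (nat_lit 4) (nat_lit 2) (nat_lit 5) (nat_lit 2) (nat_lit 4) (nat_lit 498) (nat_lit 367) (nat_lit 335))) (XT.nd (nat_lit 78) (nat_lit 0) (nat_lit 0) (XT.lf (nat_lit 0) (nat_lit 287675317114) (nat_lit 76) (nat_lit 378272884423) (nat_lit 76) (nat_lit 377507708124) (nat_lit 1) (nat_lit 4) (nat_lit 2) (nat_lit 5) (nat_lit 2) (nat_lit 4) (nat_lit 499) (nat_lit 367) (nat_lit 334)) (XT.lf (nat_lit 0) (nat_lit 323266795221) (nat_lit 76) (nat_lit 402063484267) (nat_lit 76) (nat_lit 401293453610)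 (nat_lit 1) (nat_lit 4) (nat_lit 2) (nat_lit 5) (nat_lit 2) (nat_lit 4) (nat_lit 500) (nat_lit 367) (nat_lit 333)))) (XT.nd (nat_lit 156) (nat_lit 0) (nat_lit 0) (XT.nd (nat_lit 78) (nat_lit 0) (nat_lit 0) (XT.lf (nat_lit 0) (nat_lit 361582709969) (nat_lit 76) (nat_lit 427819906688) (nat_lit 76) (nat_lit 427045381255) (nat_lit 1) (nat_lit 4) (nat_lit 2) (nat_lit 5) (nat_lit 2) (nat_lit 4) (nat_lit 501) (nat_lit 367) (nat_lit 332)) (XT.lf (nat_lit 0) (nat_lit 402850118629) (nat_lit 76) (nat_lit 455694782338) (nat_lit 76) (nat_lit 454916095076) (nat_lit 1) (nat_lit 4) (nat_lit 2) (nat_lit 5) (nat_lit 2) (nat_lit 4) (nat_lit 502) (nat_lit 367) (nat_lit 331))) (XT.nd (nat_lit 78) (nat_lit 0) (nat_lit 0) (XT.lf (nat_lit 0) (nat_lit 447313568808) (nat_lit 76) (nat_lit 485853295665) (nat_lit 76) (nat_lit 485070754856) (nat_lit 1) (nat_lit 4) (nat_lit 2) (nat_lit 5) (nat_lit 2) (nat_lit 4) (nat_lit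 503) (nat_lit 367) (nat_lit 330)) (XT.lf (nat_lit 0) (nat_lit 495236547619) (nat_lit 76) (nat_lit 518474163785) (nat_lit 76) (nat_lit 517688054878) (nat_lit 1) (nat_lit 4) (nat_lit 2) (nat_lit 5) (nat_lit 2) (nat_lit 4) (nat_lit 504) (nat_lit 367) (nat_lit 329)))))) (XT.nd (nat_lit 546) (nat_lit 152) (nat_lit 0) (XT.nd (nat_lit 234) (nat_lit 76) (nat_lit 0) (XT.nd (nat_lit 78) (nat_lit 152) (nat_lit 0) (XT.lf (nat_lit 0) (nat_lit 28947974881) (nat_lit 76) (nat_lit 4767402683) (nat_lit 76) (nat_lit 4767402683) (nat_lit 7) (nat_lit 4) (nat_lit 8) (nat_lit 5) (nat_lit 8) (nat_lit 4) (nat_lit 464) (nat_lit 368) (nat_lit 368)) (XT.nd (nat_lit 78) (nat_lit 0) (nat_lit 0) (XT.lf (nat_lit 0) (nat_lit 4338136960) (nat_lit 152) (nat_lit 73805230330) (nat_lit 0) (nat_lit 4268357309) (nat_lit 5) (nat_lit 5) (nat_lit 7) (nat_lit 4) (nat_lit 5) (nat_lit 4) (nat_lit 465) (nat_lit 368) (nat_lit 367)) (XT.lf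 (nat_lit 0) (nat_lit 18764219051) (nat_lit 152) (nat_lit 50902853043) (nat_lit 0) (nat_lit 18629828612) (nat_lit 5) (nat_lit 5) (nat_lit 7) (nat_lit 4) (nat_lit 5) (nat_lit 4) (nat_lit 466) (nat_lit 368) (nat_lit 366)))) (XT.nd (nat_lit 156) (nat_lit 76) (nat_lit 0) (XT.nd (nat_lit 78) (nat_lit 0) (nat_lit 0) (XT.lf (nat_lit 0) (nat_lit 33672620515) (nat_lit 152) (nat_lit 27535455476) (nat_lit 0) (nat_lit 33478405272) (nat_lit 5) (nat_lit 5) (nat_lit 7) (nat_lit 4) (nat_lit 5) (nat_lit 4) (nat_lit 467) (nat_lit 368) (nat_lit 365)) (XT.lf (nat_lit 0) (nat_lit 49151687435) (nat_lit 152) (nat_lit 3564564164) (nat_lit 0) (nat_lit 48902078855) (nat_lit 5) (nat_lit 5) (nat_lit 7) (nat_lit 4) (nat_lit 5) (nat_lit 4) (nat_lit 468) (nat_lit 368) (nat_lit 364))) (XT.nd (nat_lit 78) (nat_lit 0) (nat_lit 0) (XT.lf (nat_lit 0) (nat_lit 21851246987) (nat_lit 76) (nat_lit 43783059830) (nat_lit 76) (nat_lit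 43482161123) (nat_lit 4) (nat_lit 4) (nat_lit 5) (nat_lit 5) (nat_lit 5) (nat_lit 4) (nat_lit 469) (nat_lit 368) (nat_lit 363)) (XT.lf (nat_lit 0) (nat_lit 48306423883) (nat_lit 76) (nat_lit 34640428923) (nat_lit 76) (nat_lit 34292039358) (nat_lit 4) (nat_lit 4) (nat_lit 5) (nat_lit 5) (nat_lit 5) (nat_lit 4) (nat_lit 470) (nat_lit 368) (nat_lit 362))))) (XT.nd (nat_lit 312) (nat_lit 0) (nat_lit 0) (XT.nd (nat_lit 156) (nat_lit 152) (nat_lit 0) (XT.nd (nat_lit 78) (nat_lit 0) (nat_lit 0) (XT.lf (nat_lit 0) (nat_lit 75839877350) (nat_lit 76) (nat_lit 25294547944) (nat_lit 76) (nat_lit 24902185362) (nat_lit 4) (nat_lit 4) (nat_lit 5) (nat_lit 5) (nat_lit 5) (nat_lit 4) (nat_lit 471) (nat_lit 368) (nat_lit 361)) (XT.lf (nat_lit 0) (nat_lit 104614768596) (nat_lit 76) (nat_lit 15690033894) (nat_lit 76) (nat_lit 15256955556) (nat_lit 4) (nat_lit 4) (nat_lit 5) (nat_lit 5) (nat_lit 5) (nat_lit 4) (nat_lit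 472) (nat_lit 368) (nat_lit 360))) (XT.nd (nat_lit 78) (nat_lit 152) (nat_lit 0) (XT.lf (nat_lit 0) (nat_lit 134801615494) (nat_lit 76) (nat_lit 5769971134) (nat_lit 76) (nat_lit 5299193022) (nat_lit 4) (nat_lit 4) (nat_lit 5) (nat_lit 5) (nat_lit 5) (nat_lit 4) (nat_lit 473) (nat_lit 368) (nat_lit 359)) (XT.lf (nat_lit 0) (nat_lit 5096386953) (nat_lit 152) (nat_lit 147298306878) (nat_lit 0) (nat_lit 4614781895) (nat_lit 2) (nat_lit 5) (nat_lit 4) (nat_lit 4) (nat_lit 2) (nat_lit 4) (nat_lit 474) (nat_lit 368) (nat_lit 358)))) (XT.nd (nat_lit 156) (nat_lit 0) (nat_lit 0) (XT.nd (nat_lit 78) (nat_lit 0) (nat_lit 0) (XT.lf (nat_lit 0) (nat_lit 16033836228) (nat_lit 152) (nat_lit 137484845839) (nat_lit 0) (nat_lit 15521448809) (nat_lit 2) (nat_lit 5) (nat_lit 4) (nat_lit 4) (nat_lit 2) (nat_lit 4) (nat_lit 475) (nat_lit 368) (nat_lit 357)) (XT.lf (nat_lit 0) (nat_lit 27476029461) (nat_lit 152)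 (nat_lit 127640582677) (nat_lit 0) (nat_lit 26935139854) (nat_lit 2) (nat_lit 5) (nat_lit 4) (nat_lit 4) (nat_lit 2) (nat_lit 4) (nat_lit 476) (nat_lit 368) (nat_lit 356))) (XT.nd (nat_lit 78) (nat_lit 0) (nat_lit 0) (XT.lf (nat_lit 0) (nat_lit 39490772240) (nat_lit 152) (nat_lit 117707181017) (nat_lit 0) (nat_lit 38923491720) (nat_lit 2) (nat_lit 5) (nat_lit 4) (nat_lit 4) (nat_lit 2) (nat_lit 4) (nat_lit 477) (nat_lit 368) (nat_lit 355)) (XT.lf (nat_lit 0) (nat_lit 52149263042) (nat_lit 152) (nat_lit 107625776256) (nat_lit 0) (nat_lit 51557546490) (nat_lit 2) (nat_lit 5) (nat_lit 4) (nat_lit 4) (nat_lit 2) (nat_lit 4) (nat_lit 478) (nat_lit 368) (nat_lit 354))))))))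
noncomputable def xc7 : XT := (XT.nd (nat_lit 61464) (nat_lit 0) (nat_lit 0) (XT.nd (nat_lit 1170) (nat_lit 0) (nat_lit 0) (XT.nd (nat_lit 546) (nat_lit 76) (nat_lit 0) (XT.nd (nat_lit 234) (nat_lit 0) (nat_lit 0) (XT.nd (nat_lit 78) (nat_lit 0) (nat_lit 0) (XT.lf (nat_lit 0) (nat_lit 65526515145) (nat_lit 152) (nat_lit 97336626736) (nat_lit 0) (nat_lit 64912172638) (nat_lit 2) (nat_lit 5) (nat_lit 4) (nat_lit 4) (nat_lit 2) (nat_lit 4) (nat_lit 479) (nat_lit 368) (nat_lit 353)) (XT.nd (nat_lit 78) (nat_lit 0) (nat_lit 0) (XT.lf (nat_lit 0) (nat_lit 79701801154) (nat_lit 152) (nat_lit 86778759721) (nat_lit 0) (nat_lit 79066508689) (nat_lit 2) (nat_lit 5) (nat_lit 4) (nat_lit 4) (nat_lit 2) (nat_lit 4) (nat_lit 480) (nat_lit 368) (nat_lit 352)) (XT.lf (nat_lit 0) (nat_lit 94759122765) (nat_lit 152) (nat_lit 75889610071) (nat_lit 0) (nat_lit 94104432190) (nat_lit 2) (nat_lit 5) (nat_lit 4) (nat_lit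 4) (nat_lit 2) (nat_lit 4) (nat_lit 481) (nat_lit 368) (nat_lit 351)))) (XT.nd (nat_lit 156) (nat_lit 0) (nat_lit 0) (XT.nd (nat_lit 78) (nat_lit 0) (nat_lit 0) (XT.lf (nat_lit 0) (nat_lit 110787708549) (nat_lit 152) (nat_lit 64604649493) (nat_lit 0) (nat_lit 110115056762) (nat_lit 2) (nat_lit 5) (nat_lit 4) (nat_lit 4) (nat_lit 2) (nat_lit 4) (nat_lit 482) (nat_lit 368) (nat_lit 350)) (XT.lf (nat_lit 0) (nat_lit 127882542719) (nat_lit 152) (nat_lit 52857004147) (nat_lit 0) (nat_lit 127193260180) (nat_lit 2) (nat_lit 5) (nat_lit 4) (nat_lit 4) (nat_lit 2) (nat_lit 4) (nat_lit 483) (nat_lit 368) (nat_lit 349))) (XT.nd (nat_lit 78) (nat_lit 0) (nat_lit 0) (XT.lf (nat_lit 0) (nat_lit 146144927996) (nat_lit 152) (nat_lit 40577058355) (nat_lit 0) (nat_lit 145440246612) (nat_lit 2) (nat_lit 5) (nat_lit 4) (nat_lit 4) (nat_lit 2) (nat_lit 4) (nat_lit 484) (nat_lit 368) (nat_lit 348)) (XT.lf (nat_lit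 0) (nat_lit 165683085922) (nat_lit 152) (nat_lit 27692042069) (nat_lit 0) (nat_lit 164964146348) (nat_lit 2) (nat_lit 5) (nat_lit 4) (nat_lit 4) (nat_lit 2) (nat_lit 4) (nat_lit 485) (nat_lit 368) (nat_lit 347))))) (XT.nd (nat_lit 312) (nat_lit 0) (nat_lit 0) (XT.nd (nat_lit 156) (nat_lit 0) (nat_lit 0) (XT.nd (nat_lit 78) (nat_lit 76) (nat_lit 0) (XT.lf (nat_lit 0) (nat_lit 186612798173) (nat_lit 152) (nat_lit 14125599637) (nat_lit 0) (nat_lit 185880656572) (nat_lit 2) (nat_lit 5) (nat_lit 4) (nat_lit 4) (nat_lit 2) (nat_lit 4) (nat_lit 486) (nat_lit 368) (nat_lit 346)) (XT.lf (nat_lit 0) (nat_lit 209363616) (nat_lit 76) (nat_lit 208851997811) (nat_lit 76) (nat_lit 208107632111) (nat_lit 1) (nat_lit 4) (nat_lit 2) (nat_lit 5) (nat_lit 2) (nat_lit 4) (nat_lit 487) (nat_lit 368) (nat_lit 345))) (XT.nd (nat_lit 78) (nat_lit 0) (nat_lit 0) (XT.lf (nat_lit 0) (nat_lit 15886107743) (nat_lit 76) (nat_lit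 217513897500) (nat_lit 76) (nat_lit 216758213188) (nat_lit 1) (nat_lit 4) (nat_lit 2) (nat_lit 5) (nat_lit 2) (nat_lit 4) (nat_lit 488) (nat_lit 368) (nat_lit 344)) (XT.lf (nat_lit 0) (nat_lit 32530475849) (nat_lit 76) (nat_lit 227014650516) (nat_lit 76) (nat_lit 226248486010) (nat_lit 1) (nat_lit 4) (nat_lit 2) (nat_lit 5) (nat_lit 2) (nat_lit 4) (nat_lit 489) (nat_lit 368) (nat_lit 343)))) (XT.nd (nat_lit 156) (nat_lit 0) (nat_lit 0) (XT.nd (nat_lit 78) (nat_lit 0) (nat_lit 0) (XT.lf (nat_lit 0) (nat_lit 50241101226) (nat_lit 76) (nat_lit 237410557620) (nat_lit 76) (nat_lit 236634689230) (nat_lit 1) (nat_lit 4) (nat_lit 2) (nat_lit 5) (nat_lit 2) (nat_lit 4) (nat_lit 490) (nat_lit 368) (nat_lit 342)) (XT.lf (nat_lit 0) (nat_lit 69122935731) (nat_lit 76) (nat_lit 248763224186) (nat_lit 76) (nat_lit 247978370718) (nat_lit 1) (nat_lit 4) (nat_lit 2) (nat_lit 5) (nat_lit 2) (nat_lit 4) (nat_lit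 491) (nat_lit 368) (nat_lit 341))) (XT.nd (nat_lit 78) (nat_lit 0) (nat_lit 0) (XT.lf (nat_lit 0) (nat_lit 89287871713) (nat_lit 76) (nat_lit 261139925276) (nat_lit 76) (nat_lit 260346752291) (nat_lit 1) (nat_lit 4) (nat_lit 2) (nat_lit 5) (nat_lit 2) (nat_lit 4) (nat_lit 492) (nat_lit 368) (nat_lit 340)) (XT.lf (nat_lit 0) (nat_lit 110855405092) (nat_lit 76) (nat_lit 274614004304) (nat_lit 76) (nat_lit 273813128062) (nat_lit 1) (nat_lit 4) (nat_lit 2) (nat_lit 5) (nat_lit 2) (nat_lit 4) (nat_lit 493) (nat_lit 368) (nat_lit 339)))))) (XT.nd (nat_lit 546) (nat_lit 0) (nat_lit 0) (XT.nd (nat_lit 234) (nat_lit 0) (nat_lit 0) (XT.nd (nat_lit 78) (nat_lit 0) (nat_lit 0) (XT.lf (nat_lit 0) (nat_lit 133953343471) (nat_lit 76) (nat_lit 289265307663) (nat_lit 76) (nat_lit 288457298777) (nat_lit 1) (nat_lit 4) (nat_lit 2) (nat_lit 5) (nat_lit 2) (nat_lit 4) (nat_lit 494) (nat_lit 368) (nat_lit 338)) (XT.nd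 (nat_lit 78) (nat_lit 0) (nat_lit 0) (XT.lf (nat_lit 0) (nat_lit 158718563523) (nat_lit 76) (nat_lit 305180657892) (nat_lit 76) (nat_lit 304366044706) (nat_lit 1) (nat_lit 4) (nat_lit 2) (nat_lit 5) (nat_lit 2) (nat_lit 4) (nat_lit 495) (nat_lit 368) (nat_lit 337)) (XT.lf (nat_lit 0) (nat_lit 185297822108) (nat_lit 76) (nat_lit 322454368179) (nat_lit 76) (nat_lit 321633639899) (nat_lit 1) (nat_lit 4) (nat_lit 2) (nat_lit 5) (nat_lit 2) (nat_lit 4) (nat_lit 496) (nat_lit 368) (nat_lit 336)))) (XT.nd (nat_lit 156) (nat_lit 0) (nat_lit 0) (XT.nd (nat_lit 78) (nat_lit 0) (nat_lit 0) (XT.lf (nat_lit 0) (nat_lit 213848625942) (nat_lit 76) (nat_lit 341188801249) (nat_lit 76) (nat_lit 340362410846) (nat_lit 1) (nat_lit 4) (nat_lit 2) (nat_lit 5) (nat_lit 2) (nat_lit 4) (nat_lit 497) (nat_lit 368) (nat_lit 335)) (XT.lf (nat_lit 0) (nat_lit 244540164975) (nat_lit 76) (nat_lit 361494975967) (nat_lit 76)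 (nat_lit 360663342857) (nat_lit 1) (nat_lit 4) (nat_lit 2) (nat_lit 5) (nat_lit 2) (nat_lit 4) (nat_lit 498) (nat_lit 368) (nat_lit 334))) (XT.nd (nat_lit 78) (nat_lit 0) (nat_lit 0) (XT.lf (nat_lit 0) (nat_lit 277554314993) (nat_lit 76) (nat_lit 383493225218) (nat_lit 76) (nat_lit 382656737751) (nat_lit 1) (nat_lit 4) (nat_lit 2) (nat_lit 5) (nat_lit 2) (nat_lit 4) (nat_lit 499) (nat_lit 368) (nat_lit 333)) (XT.lf (nat_lit 0) (nat_lit 313086715404) (nat_lit 76) (nat_lit 407313909000) (nat_lit 76) (nat_lit 406472926756) (nat_lit 1) (nat_lit 4) (nat_lit 2) (nat_lit 5) (nat_lit 2) (nat_lit 4) (nat_lit 500) (nat_lit 368) (nat_lit 332))))) (XT.nd (nat_lit 59436) (nat_lit 0) (nat_lit 304) (XT.nd (nat_lit 156) (nat_lit 0) (nat_lit 0) (XT.nd (nat_lit 78) (nat_lit 0) (nat_lit 0) (XT.lf (nat_lit 0) (nat_lit 351347928581) (nat_lit 76) (nat_lit 433098186919) (nat_lit 76) (nat_lit 432253042845) (nat_lit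 1) (nat_lit 4) (nat_lit 2) (nat_lit 5) (nat_lit 2) (nat_lit 4) (nat_lit 501) (nat_lit 368) (nat_lit 331)) (XT.lf (nat_lit 0) (nat_lit 392564687638) (nat_lit 76) (nat_lit 460998854696) (nat_lit 76) (nat_lit 460149857077) (nat_lit 1) (nat_lit 4) (nat_lit 2) (nat_lit 5) (nat_lit 2) (nat_lit 4) (nat_lit 502) (nat_lit 368) (nat_lit 330))) (XT.nd (nat_lit 78) (nat_lit 0) (nat_lit 0) (XT.lf (nat_lit 0) (nat_lit 436981240038) (nat_lit 76) (nat_lit 491181249622) (nat_lit 76) (nat_lit 490328683905) (nat_lit 1) (nat_lit 4) (nat_lit 2) (nat_lit 5) (nat_lit 2) (nat_lit 4) (nat_lit 503) (nat_lit 368) (nat_lit 329)) (XT.lf (nat_lit 0) (nat_lit 484860794978) (nat_lit 76) (nat_lit 523824230334) (nat_lit 76) (nat_lit 522968360822) (nat_lit 1) (nat_lit 4) (nat_lit 2) (nat_lit 5) (nat_lit 2) (nat_lit 4) (nat_lit 504) (nat_lit 368) (nat_lit 328)))) (XT.nd (nat_lit 156) (nat_lit 152) (nat_lit 0) (XT.nd (nat_lit 78)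 (nat_lit 76) (nat_lit 0) (XT.lf (nat_lit 0) (nat_lit 15779897494) (nat_lit 152) (nat_lit 2094816973) (nat_lit 0) (nat_lit 15779897494) (nat_lit 8) (nat_lit 5) (nat_lit 10) (nat_lit 4) (nat_lit 8) (nat_lit 4) (nat_lit 462) (nat_lit 369) (nat_lit 369)) (XT.lf (nat_lit 0) (nat_lit 25960140867) (nat_lit 76) (nat_lit 23031633972) (nat_lit 76) (nat_lit 22952503848) (nat_lit 7) (nat_lit 4) (nat_lit 8) (nat_lit 5) (nat_lit 8) (nat_lit 4) (nat_lit 463) (nat_lit 369) (nat_lit 368))) (XT.nd (nat_lit 78) (nat_lit 152) (nat_lit 0) (XT.lf (nat_lit 0) (nat_lit 57177840152) (nat_lit 76) (nat_lit 9978889042) (nat_lit 76) (nat_lit 9826490284) (nat_lit 7) (nat_lit 4) (nat_lit 8) (nat_lit 5) (nat_lit 8) (nat_lit 4) (nat_lit 464) (nat_lit 369) (nat_lit 367)) (XT.lf (nat_lit 0) (nat_lit 3687990414) (nat_lit 152) (nat_lit 75281773827) (nat_lit 0) (nat_lit 3478237951) (nat_lit 5) (nat_lit 5) (nat_lit 7) (nat_lit 4)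 (nat_lit 5) (nat_lit 4) (nat_lit 465) (nat_lit 369) (nat_lit 366))))))) (XT.nd (nat_lit 1170) (nat_lit 76) (nat_lit 0) (XT.nd (nat_lit 546) (nat_lit 152) (nat_lit 0) (XT.nd (nat_lit 234) (nat_lit 76) (nat_lit 0) (XT.nd (nat_lit 78) (nat_lit 0) (nat_lit 0) (XT.lf (nat_lit 0) (nat_lit 17791107507) (nat_lit 152) (nat_lit 53036689762) (nat_lit 0) (nat_lit 17521530241) (nat_lit 5) (nat_lit 5) (nat_lit 7) (nat_lit 4) (nat_lit 5) (nat_lit 4) (nat_lit 466) (nat_lit 369) (nat_lit 365)) (XT.nd (nat_lit 78) (nat_lit 0) (nat_lit 0) (XT.lf (nat_lit 0) (nat_lit 32400467307) (nat_lit 152) (nat_lit 30277897032) (nat_lit 0) (nat_lit 32075496704) (nat_lit 5) (nat_lit 5) (nat_lit 7) (nat_lit 4) (nat_lit 5) (nat_lit 4) (nat_lit 467) (nat_lit 369) (nat_lit 364)) (XT.lf (nat_lit 0) (nat_lit 47602643797) (nat_lit 152) (nat_lit 6870528716) (nat_lit 0) (nat_lit 47226383067) (nat_lit 5) (nat_lit 5) (nat_lit 7) (nat_lit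 4) (nat_lit 5) (nat_lit 4) (nat_lit 468) (nat_lit 369) (nat_lit 363)))) (XT.nd (nat_lit 156) (nat_lit 0) (nat_lit 0) (XT.nd (nat_lit 78) (nat_lit 0) (nat_lit 0) (XT.lf (nat_lit 0) (nat_lit 17896939343) (nat_lit 76) (nat_lit 45870205985) (nat_lit 76) (nat_lit 45446454397) (nat_lit 4) (nat_lit 4) (nat_lit 5) (nat_lit 5) (nat_lit 5) (nat_lit 4) (nat_lit 469) (nat_lit 369) (nat_lit 362)) (XT.lf (nat_lit 0) (nat_lit 43853011633) (nat_lit 76) (nat_lit 36981498347) (nat_lit 76) (nat_lit 36513773742) (nat_lit 4) (nat_lit 4) (nat_lit 5) (nat_lit 5) (nat_lit 5) (nat_lit 4) (nat_lit 470) (nat_lit 369) (nat_lit 361))) (XT.nd (nat_lit 78) (nat_lit 0) (nat_lit 0) (XT.lf (nat_lit 0) (nat_lit 70924331207) (nat_lit 76) (nat_lit 27870731506) (nat_lit 76) (nat_lit 27362291145) (nat_lit 4) (nat_lit 4) (nat_lit 5) (nat_lit 5) (nat_lit 5) (nat_lit 4) (nat_lit 471) (nat_lit 369) (nat_lit 360)) (XT.lf (nat_lit 0) (nat_lit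 99271320699) (nat_lit 76) (nat_lit 18483915732) (nat_lit 76) (nat_lit 17937775597) (nat_lit 4) (nat_lit 4) (nat_lit 5) (nat_lit 5) (nat_lit 5) (nat_lit 4) (nat_lit 472) (nat_lit 369) (nat_lit 359))))) (XT.nd (nat_lit 312) (nat_lit 0) (nat_lit 0) (XT.nd (nat_lit 156) (nat_lit 0) (nat_lit 0) (XT.nd (nat_lit 78) (nat_lit 152) (nat_lit 0) (XT.lf (nat_lit 0) (nat_lit 129061962269) (nat_lit 76) (nat_lit 8765425451) (nat_lit 76) (nat_lit 8184378117) (nat_lit 4) (nat_lit 4) (nat_lit 5) (nat_lit 5) (nat_lit 5) (nat_lit 4) (nat_lit 473) (nat_lit 369) (nat_lit 358)) (XT.lf (nat_lit 0) (nat_lit 1968128215) (nat_lit 152) (nat_lit 153817389923) (nat_lit 0) (nat_lit 1383967440) (nat_lit 2) (nat_lit 5) (nat_lit 4) (nat_lit 4) (nat_lit 2) (nat_lit 4) (nat_lit 474) (nat_lit 369) (nat_lit 357))) (XT.nd (nat_lit 78) (nat_lit 0) (nat_lit 0) (XT.lf (nat_lit 0) (nat_lit 12727571729) (nat_lit 152) (nat_lit 144366560980)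 (nat_lit 0) (nat_lit 12114908767) (nat_lit 2) (nat_lit 5) (nat_lit 4) (nat_lit 4) (nat_lit 2) (nat_lit 4) (nat_lit 475) (nat_lit 369) (nat_lit 356)) (XT.lf (nat_lit 0) (nat_lit 24004944811) (nat_lit 152) (nat_lit 134858068277) (nat_lit 0) (nat_lit 23365890935) (nat_lit 2) (nat_lit 5) (nat_lit 4) (nat_lit 4) (nat_lit 2) (nat_lit 4) (nat_lit 476) (nat_lit 369) (nat_lit 355)))) (XT.nd (nat_lit 156) (nat_lit 0) (nat_lit 0) (XT.nd (nat_lit 78) (nat_lit 0) (nat_lit 0) (XT.lf (nat_lit 0) (nat_lit 35867076341) (nat_lit 152) (nat_lit 125235565190) (nat_lit 0) (nat_lit 35203586433) (nat_lit 2) (nat_lit 5) (nat_lit 4) (nat_lit 4) (nat_lit 2) (nat_lit 4) (nat_lit 477) (nat_lit 369) (nat_lit 354)) (XT.lf (nat_lit 0) (nat_lit 48384260429) (nat_lit 152) (nat_lit 115442029478) (nat_lit 0) (nat_lit 47698144567) (nat_lit 2) (nat_lit 5) (nat_lit 4) (nat_lit 4) (nat_lit 2) (nat_lit 4) (nat_lit 478) (nat_lit 369)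 (nat_lit 353))) (XT.nd (nat_lit 78) (nat_lit 0) (nat_lit 0) (XT.lf (nat_lit 0) (nat_lit 61630672983) (nat_lit 152) (nat_lit 105419425375) (nat_lit 0) (nat_lit 60923607163) (nat_lit 2) (nat_lit 5) (nat_lit 4) (nat_lit 4) (nat_lit 2) (nat_lit 4) (nat_lit 479) (nat_lit 369) (nat_lit 352)) (XT.lf (nat_lit 0) (nat_lit 75684811262) (nat_lit 152) (nat_lit 95108359670) (nat_lit 0) (nat_lit 74958347332) (nat_lit 2) (nat_lit 5) (nat_lit 4) (nat_lit 4) (nat_lit 2) (nat_lit 4) (nat_lit 480) (nat_lit 369) (nat_lit 351)))))) (XT.nd (nat_lit 546) (nat_lit 76) (nat_lit 0) (XT.nd (nat_lit 234) (nat_lit 0) (nat_lit 0) (XT.nd (nat_lit 78) (nat_lit 0) (nat_lit 0) (XT.lf (nat_lit 0) (nat_lit 90629959048) (nat_lit 152) (nat_lit 84447729753) (nat_lit 0) (nat_lit 89885533906) (nat_lit 2) (nat_lit 5) (nat_lit 4) (nat_lit 4) (nat_lit 2) (nat_lit 4) (nat_lit 481) (nat_lit 369) (nat_lit 350)) (XT.nd (nat_lit 78) (nat_lit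 0) (nat_lit 0) (XT.lf (nat_lit 0) (nat_lit 106554680180) (nat_lit 152) (nat_lit 73374361520) (nat_lit 0) (nat_lit 105793624285) (nat_lit 2) (nat_lit 5) (nat_lit 4) (nat_lit 4) (nat_lit 2) (nat_lit 4) (nat_lit 482) (nat_lit 369) (nat_lit 349)) (XT.lf (nat_lit 0) (nat_lit 123553343376) (nat_lit 152) (nat_lit 61822635011) (nat_lit 0) (nat_lit 122776888636) (nat_lit 2) (nat_lit 5) (nat_lit 4) (nat_lit 4) (nat_lit 2) (nat_lit 4) (nat_lit 483) (nat_lit 369) (nat_lit 348)))) (XT.nd (nat_lit 156) (nat_lit 0) (nat_lit 0) (XT.nd (nat_lit 78) (nat_lit 0) (nat_lit 0) (XT.lf (nat_lit 0) (nat_lit 141726681454) (nat_lit 152) (nat_lit 49724095551) (nat_lit 0) (nat_lit 140935968525) (nat_lit 2) (nat_lit 5) (nat_lit 4) (nat_lit 4) (nat_lit 2) (nat_lit 4) (nat_lit 484) (nat_lit 369) (nat_lit 347)) (XT.lf (nat_lit 0) (nat_lit 161182388270) (nat_lit 152) (nat_lit 37007048090) (nat_lit 0) (nat_lit 160378473313) (nat_lit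 2) (nat_lit 5) (nat_lit 4) (nat_lit 4) (nat_lit 2) (nat_lit 4) (nat_lit 485) (nat_lit 369) (nat_lit 346))) (XT.nd (nat_lit 78) (nat_lit 0) (nat_lit 0) (XT.lf (nat_lit 0) (nat_lit 182035756902) (nat_lit 152) (nat_lit 23596132349) (nat_lit 0) (nat_lit 181219617846) (nat_lit 2) (nat_lit 5) (nat_lit 4) (nat_lit 4) (nat_lit 2) (nat_lit 4) (nat_lit 486) (nat_lit 369) (nat_lit 345)) (XT.lf (nat_lit 0) (nat_lit 204410362866) (nat_lit 152) (nat_lit 9411876232) (nat_lit 0) (nat_lit 203582905200) (nat_lit 2) (nat_lit 5) (nat_lit 4) (nat_lit 4) (nat_lit 2) (nat_lit 4) (nat_lit 487) (nat_lit 369) (nat_lit 344))))) (XT.nd (nat_lit 312) (nat_lit 0) (nat_lit 0) (XT.nd (nat_lit 156) (nat_lit 0) (nat_lit 0) (XT.nd (nat_lit 78) (nat_lit 0) (nat_lit 0) (XT.lf (nat_lit 0) (nat_lit 5815920899) (nat_lit 76) (nat_lit 222713678347) (nat_lit 76) (nat_lit 221875740485) (nat_lit 1) (nat_lit 4) (nat_lit 2) (nat_lit 5) (nat_lit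 2) (nat_lit 4) (nat_lit 488) (nat_lit 369) (nat_lit 343)) (XT.lf (nat_lit 0) (nat_lit 22332744689) (nat_lit 76) (nat_lit 232279380328) (nat_lit 76) (nat_lit 231431738582) (nat_lit 1) (nat_lit 4) (nat_lit 2) (nat_lit 5) (nat_lit 2) (nat_lit 4) (nat_lit 489) (nat_lit 369) (nat_lit 342))) (XT.nd (nat_lit 78) (nat_lit 0) (nat_lit 0) (XT.lf (nat_lit 0) (nat_lit 39925273479) (nat_lit 76) (nat_lit 242735425361) (nat_lit 76) (nat_lit 241878798538) (nat_lit 1) (nat_lit 4) (nat_lit 2) (nat_lit 5) (nat_lit 2) (nat_lit 4) (nat_lit 490) (nat_lit 369) (nat_lit 341)) (XT.lf (nat_lit 0) (nat_lit 58697759290) (nat_lit 76) (nat_lit 254143775196) (nat_lit 76) (nat_lit 253278828856) (nat_lit 1) (nat_lit 4) (nat_lit 2) (nat_lit 5) (nat_lit 2) (nat_lit 4) (nat_lit 491) (nat_lit 369) (nat_lit 340)))) (XT.nd (nat_lit 156) (nat_lit 0) (nat_lit 0) (XT.nd (nat_lit 78) (nat_lit 0) (nat_lit 0) (XT.lf (nat_lit 0) (nat_lit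 78761446482) (nat_lit 76) (nat_lit 266572034868) (nat_lit 76) (nat_lit 265699385271) (nat_lit 1) (nat_lit 4) (nat_lit 2) (nat_lit 5) (nat_lit 2) (nat_lit 4) (nat_lit 492) (nat_lit 369) (nat_lit 339)) (XT.lf (nat_lit 0) (nat_lit 100235230981) (nat_lit 76) (nat_lit 280093853323) (nat_lit 76) (nat_lit 279214071082) (nat_lit 1) (nat_lit 4) (nat_lit 2) (nat_lit 5) (nat_lit 2) (nat_lit 4) (nat_lit 493) (nat_lit 369) (nat_lit 338))) (XT.nd (nat_lit 78) (nat_lit 0) (nat_lit 0) (XT.lf (nat_lit 0) (nat_lit 123246364843) (nat_lit 76) (nat_lit 294789359856) (nat_lit 76) (nat_lit 293902973314) (nat_lit 1) (nat_lit 4) (nat_lit 2) (nat_lit 5) (nat_lit 2) (nat_lit 4) (nat_lit 494) (nat_lit 369) (nat_lit 337)) (XT.lf (nat_lit 0) (nat_lit 147931210341) (nat_lit 76) (nat_lit 310745638950) (nat_lit 76) (nat_lit 309853137315) (nat_lit 1) (nat_lit 4) (nat_lit 2) (nat_lit 5) (nat_lit 2) (nat_lit 4) (nat_lit 495) (nat_lit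 369) (nat_lit 336))))))))
noncomputable def xc8 : XT := (XT.nd (nat_lit 61230) (nat_lit 0) (nat_lit 0) (XT.nd (nat_lit 60060) (nat_lit 0) (nat_lit 76) (XT.nd (nat_lit 546) (nat_lit 0) (nat_lit 0) (XT.nd (nat_lit 234) (nat_lit 0) (nat_lit 0) (XT.nd (nat_lit 78) (nat_lit 0) (nat_lit 0) (XT.lf (nat_lit 0) (nat_lit 174436048042) (nat_lit 76) (nat_lit 328057246333) (nat_lit 76) (nat_lit 327159082575) (nat_lit 1) (nat_lit 4) (nat_lit 2) (nat_lit 5) (nat_lit 2) (nat_lit 4) (nat_lit 496) (nat_lit 369) (nat_lit 335)) (XT.nd (nat_lit 78) (nat_lit 0) (nat_lit 0) (XT.lf (nat_lit 0) (nat_lit 202917943651) (nat_lit 76) (nat_lit 346826769308) (nat_lit 76) (nat_lit 345923362843) (nat_lit 1) (nat_lit 4) (nat_lit 2) (nat_lit 5) (nat_lit 2) (nat_lit 4) (nat_lit 497) (nat_lit 369) (nat_lit 334)) (XT.lf (nat_lit 0) (nat_lit 233545678772) (nat_lit 76) (nat_lit 367165434678) (nat_lit 76) (nat_lit 366257173855) (nat_lit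 1) (nat_lit 4) (nat_lit 2) (nat_lit 5) (nat_lit 2) (nat_lit 4) (nat_lit 498) (nat_lit 369) (nat_lit 333)))) (XT.nd (nat_lit 156) (nat_lit 0) (nat_lit 0) (XT.nd (nat_lit 78) (nat_lit 0) (nat_lit 0) (XT.lf (nat_lit 0) (nat_lit 266500751094) (nat_lit 76) (nat_lit 389193767867) (nat_lit 76) (nat_lit 388281012268) (nat_lit 1) (nat_lit 4) (nat_lit 2) (nat_lit 5) (nat_lit 2) (nat_lit 4) (nat_lit 499) (nat_lit 369) (nat_lit 332)) (XT.lf (nat_lit 0) (nat_lit 301978449934) (nat_lit 76) (nat_lit 413042307146) (nat_lit 76) (nat_lit 412125389717) (nat_lit 1) (nat_lit 4) (nat_lit 2) (nat_lit 5) (nat_lit 2) (nat_lit 4) (nat_lit 500) (nat_lit 369) (nat_lit 331))) (XT.nd (nat_lit 78) (nat_lit 0) (nat_lit 0) (XT.lf (nat_lit 0) (nat_lit 340189013508) (nat_lit 76) (nat_lit 438852377193) (nat_lit 76) (nat_lit 437931606218) (nat_lit 1) (nat_lit 4) (nat_lit 2) (nat_lit 5) (nat_lit 2) (nat_lit 4) (nat_lit 501) (nat_lit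 369) (nat_lit 330)) (XT.lf (nat_lit 0) (nat_lit 381358874786) (nat_lit 76) (nat_lit 466776926569) (nat_lit 76) (nat_lit 465852587496) (nat_lit 1) (nat_lit 4) (nat_lit 2) (nat_lit 5) (nat_lit 2) (nat_lit 4) (nat_lit 502) (nat_lit 369) (nat_lit 329))))) (XT.nd (nat_lit 59202) (nat_lit 0) (nat_lit 456) (XT.nd (nat_lit 78) (nat_lit 0) (nat_lit 0) (XT.lf (nat_lit 0) (nat_lit 425732003314) (nat_lit 76) (nat_lit 496981434087) (nat_lit 76) (nat_lit 496053791220) (nat_lit 1) (nat_lit 4) (nat_lit 2) (nat_lit 5) (nat_lit 2) (nat_lit 4) (nat_lit 503) (nat_lit 369) (nat_lit 328)) (XT.nd (nat_lit 59046) (nat_lit 0) (nat_lit 684) (XT.lf (nat_lit 0) (nat_lit 473571350968) (nat_lit 76) (nat_lit 529644889421) (nat_lit 76) (nat_lit 528714187485) (nat_lit 1) (nat_lit 4) (nat_lit 2) (nat_lit 5) (nat_lit 2) (nat_lit 4) (nat_lit 504) (nat_lit 369) (nat_lit 327)) (XT.lf (nat_lit 0) (nat_lit 29097001098) (nat_lit 76)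 (nat_lit 224768887) (nat_lit 76) (nat_lit 224768887) (nat_lit 10) (nat_lit 4) (nat_lit 11) (nat_lit 5) (nat_lit 11) (nat_lit 4) (nat_lit 460) (nat_lit 370) (nat_lit 370)))) (XT.nd (nat_lit 156) (nat_lit 76) (nat_lit 0) (XT.nd (nat_lit 78) (nat_lit 0) (nat_lit 0) (XT.lf (nat_lit 0) (nat_lit 15168576727) (nat_lit 152) (nat_lit 32782613920) (nat_lit 0) (nat_lit 15083116193) (nat_lit 8) (nat_lit 5) (nat_lit 10) (nat_lit 4) (nat_lit 8) (nat_lit 4) (nat_lit 461) (nat_lit 370) (nat_lit 369)) (XT.lf (nat_lit 0) (nat_lit 31275955619) (nat_lit 152) (nat_lit 4940369614) (nat_lit 0) (nat_lit 31111364960) (nat_lit 8) (nat_lit 5) (nat_lit 10) (nat_lit 4) (nat_lit 8) (nat_lit 4) (nat_lit 462) (nat_lit 370) (nat_lit 368))) (XT.nd (nat_lit 78) (nat_lit 0) (nat_lit 0) (XT.lf (nat_lit 0) (nat_lit 24466472876) (nat_lit 76) (nat_lit 23876197893) (nat_lit 76) (nat_lit 23638338601) (nat_lit 7) (nat_lit 4) (nat_lit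 8) (nat_lit 5) (nat_lit 8) (nat_lit 4) (nat_lit 463) (nat_lit 370) (nat_lit 367)) (XT.lf (nat_lit 0) (nat_lit 55019255854) (nat_lit 76) (nat_lit 11161372918) (nat_lit 76) (nat_lit 10855672298) (nat_lit 7) (nat_lit 4) (nat_lit 8) (nat_lit 5) (nat_lit 8) (nat_lit 4) (nat_lit 464) (nat_lit 370) (nat_lit 366)))))) (XT.nd (nat_lit 546) (nat_lit 152) (nat_lit 0) (XT.nd (nat_lit 234) (nat_lit 76) (nat_lit 0) (XT.nd (nat_lit 78) (nat_lit 0) (nat_lit 0) (XT.lf (nat_lit 0) (nat_lit 2314064949) (nat_lit 152) (nat_lit 78243610707) (nat_lit 0) (nat_lit 1963096697) (nat_lit 5) (nat_lit 5) (nat_lit 7) (nat_lit 4) (nat_lit 5) (nat_lit 4) (nat_lit 465) (nat_lit 370) (nat_lit 365)) (XT.nd (nat_lit 78) (nat_lit 0) (nat_lit 0) (XT.lf (nat_lit 0) (nat_lit 16118140378) (nat_lit 152) (nat_lit 56607131479) (nat_lit 0) (nat_lit 15711778790) (nat_lit 5) (nat_lit 5) (nat_lit 7) (nat_lit 4) (nat_lit 5) (nat_lit 4) (nat_lit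 466) (nat_lit 370) (nat_lit 364)) (XT.lf (nat_lit 0) (nat_lit 30450609749) (nat_lit 152) (nat_lit 34411861745) (nat_lit 0) (nat_lit 29992958033) (nat_lit 5) (nat_lit 5) (nat_lit 7) (nat_lit 4) (nat_lit 5) (nat_lit 4) (nat_lit 467) (nat_lit 370) (nat_lit 363)))) (XT.nd (nat_lit 156) (nat_lit 0) (nat_lit 0) (XT.nd (nat_lit 78) (nat_lit 76) (nat_lit 0) (XT.lf (nat_lit 0) (nat_lit 45396406211) (nat_lit 152) (nat_lit 11526273981) (nat_lit 0) (nat_lit 44891263638) (nat_lit 5) (nat_lit 5) (nat_lit 7) (nat_lit 4) (nat_lit 5) (nat_lit 4) (nat_lit 468) (nat_lit 370) (nat_lit 362)) (XT.lf (nat_lit 0) (nat_lit 12588149508) (nat_lit 76) (nat_lit 48652484232) (nat_lit 76) (nat_lit 48103368642) (nat_lit 4) (nat_lit 4) (nat_lit 5) (nat_lit 5) (nat_lit 5) (nat_lit 4) (nat_lit 469) (nat_lit 370) (nat_lit 361))) (XT.nd (nat_lit 78) (nat_lit 0) (nat_lit 0) (XT.lf (nat_lit 0) (nat_lit 38082087904) (nat_lit 76) (nat_lit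 39998890733) (nat_lit 76) (nat_lit 39409059386) (nat_lit 4) (nat_lit 4) (nat_lit 5) (nat_lit 5) (nat_lit 5) (nat_lit 4) (nat_lit 470) (nat_lit 370) (nat_lit 360)) (XT.lf (nat_lit 0) (nat_lit 64725505724) (nat_lit 76) (nat_lit 31105822168) (nat_lit 76) (nat_lit 30478291047) (nat_lit 4) (nat_lit 4) (nat_lit 5) (nat_lit 5) (nat_lit 5) (nat_lit 4) (nat_lit 471) (nat_lit 370) (nat_lit 359))))) (XT.nd (nat_lit 312) (nat_lit 0) (nat_lit 0) (XT.nd (nat_lit 156) (nat_lit 152) (nat_lit 0) (XT.nd (nat_lit 78) (nat_lit 0) (nat_lit 0) (XT.lf (nat_lit 0) (nat_lit 92676289889) (nat_lit 76) (nat_lit 21920578872) (nat_lit 76) (nat_lit 21258140553) (nat_lit 4) (nat_lit 4) (nat_lit 5) (nat_lit 5) (nat_lit 5) (nat_lit 4) (nat_lit 472) (nat_lit 370) (nat_lit 358)) (XT.lf (nat_lit 0) (nat_lit 122100074675) (nat_lit 76) (nat_lit 12388729774) (nat_lit 76) (nat_lit 11693969975) (nat_lit 4) (nat_lit 4) (nat_lit 5) (nat_lit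 5) (nat_lit 5) (nat_lit 4) (nat_lit 473) (nat_lit 370) (nat_lit 357))) (XT.nd (nat_lit 78) (nat_lit 152) (nat_lit 0) (XT.lf (nat_lit 0) (nat_lit 153171223251) (nat_lit 76) (nat_lit 2453789841) (nat_lit 76) (nat_lit 1729102746) (nat_lit 4) (nat_lit 4) (nat_lit 5) (nat_lit 5) (nat_lit 5) (nat_lit 4) (nat_lit 474) (nat_lit 370) (nat_lit 356)) (XT.lf (nat_lit 0) (nat_lit 8813980157) (nat_lit 152) (nat_lit 152497215887) (nat_lit 0) (nat_lit 8097411057) (nat_lit 2) (nat_lit 5) (nat_lit 4) (nat_lit 4) (nat_lit 2) (nat_lit 4) (nat_lit 475) (nat_lit 370) (nat_lit 355)))) (XT.nd (nat_lit 156) (nat_lit 0) (nat_lit 0) (XT.nd (nat_lit 78) (nat_lit 0) (nat_lit 0) (XT.lf (nat_lit 0) (nat_lit 19938741990) (nat_lit 152) (nat_lit 143299621757) (nat_lit 0) (nat_lit 19197736859) (nat_lit 2) (nat_lit 5) (nat_lit 4) (nat_lit 4) (nat_lit 2) (nat_lit 4) (nat_lit 476) (nat_lit 370) (nat_lit 354)) (XT.lf (nat_lit 0)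 (nat_lit 31659566806) (nat_lit 152) (nat_lit 133964987719) (nat_lit 0) (nat_lit 30895935720) (nat_lit 2) (nat_lit 5) (nat_lit 4) (nat_lit 4) (nat_lit 2) (nat_lit 4) (nat_lit 477) (nat_lit 370) (nat_lit 353))) (XT.nd (nat_lit 78) (nat_lit 0) (nat_lit 0) (XT.lf (nat_lit 0) (nat_lit 44045911346) (nat_lit 152) (nat_lit 124437997424) (nat_lit 0) (nat_lit 43261330302) (nat_lit 2) (nat_lit 5) (nat_lit 4) (nat_lit 4) (nat_lit 2) (nat_lit 4) (nat_lit 478) (nat_lit 370) (nat_lit 352)) (XT.lf (nat_lit 0) (nat_lit 57171176170) (nat_lit 152) (nat_lit 114662194631) (nat_lit 0) (nat_lit 56367197016) (nat_lit 2) (nat_lit 5) (nat_lit 4) (nat_lit 4) (nat_lit 2) (nat_lit 4) (nat_lit 479) (nat_lit 370) (nat_lit 351))))))) (XT.nd (nat_lit 1170) (nat_lit 0) (nat_lit 0) (XT.nd (nat_lit 546) (nat_lit 76) (nat_lit 0) (XT.nd (nat_lit 234) (nat_lit 0) (nat_lit 0) (XT.nd (nat_lit 78) (nat_lit 0) (nat_lit 0) (XT.lf (nat_lit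 0) (nat_lit 71113140624) (nat_lit 152) (nat_lit 104579648659) (nat_lit 0) (nat_lit 70291200257) (nat_lit 2) (nat_lit 5) (nat_lit 4) (nat_lit 4) (nat_lit 2) (nat_lit 4) (nat_lit 480) (nat_lit 370) (nat_lit 350)) (XT.nd (nat_lit 78) (nat_lit 0) (nat_lit 0) (XT.lf (nat_lit 0) (nat_lit 85954423757) (nat_lit 152) (nat_lit 94130611087) (nat_lit 0) (nat_lit 85115852639) (nat_lit 2) (nat_lit 5) (nat_lit 4) (nat_lit 4) (nat_lit 2) (nat_lit 4) (nat_lit 481) (nat_lit 370) (nat_lit 349)) (XT.lf (nat_lit 0) (nat_lit 101782973915) (nat_lit 152) (nat_lit 83253161692) (nat_lit 0) (nat_lit 100929003951) (nat_lit 2) (nat_lit 5) (nat_lit 4) (nat_lit 4) (nat_lit 2) (nat_lit 4) (nat_lit 482) (nat_lit 370) (nat_lit 348)))) (XT.nd (nat_lit 156) (nat_lit 0) (nat_lit 0) (XT.nd (nat_lit 78) (nat_lit 0) (nat_lit 0) (XT.lf (nat_lit 0) (nat_lit 118692589912) (nat_lit 152) (nat_lit 71882841515) (nat_lit 0) (nat_lit 117824361759)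 (nat_lit 2) (nat_lit 5) (nat_lit 4) (nat_lit 4) (nat_lit 2) (nat_lit 4) (nat_lit 483) (nat_lit 370) (nat_lit 347)) (XT.lf (nat_lit 0) (nat_lit 136783476880) (nat_lit 152) (nat_lit 59952270880) (nat_lit 0) (nat_lit 135902046700) (nat_lit 2) (nat_lit 5) (nat_lit 4) (nat_lit 4) (nat_lit 2) (nat_lit 4) (nat_lit 484) (nat_lit 370) (nat_lit 346))) (XT.nd (nat_lit 78) (nat_lit 0) (nat_lit 0) (XT.lf (nat_lit 0) (nat_lit 156162840076) (nat_lit 152) (nat_lit 47390750109) (nat_lit 0) (nat_lit 155269185796) (nat_lit 2) (nat_lit 5) (nat_lit 4) (nat_lit 4) (nat_lit 2) (nat_lit 4) (nat_lit 485) (nat_lit 370) (nat_lit 345)) (XT.lf (nat_lit 0) (nat_lit 176945520171) (nat_lit 152) (nat_lit 34123840562) (nat_lit 0) (nat_lit 176040547280) (nat_lit 2) (nat_lit 5) (nat_lit 4) (nat_lit 4) (nat_lit 2) (nat_lit 4) (nat_lit 486) (nat_lit 370) (nat_lit 344))))) (XT.nd (nat_lit 312) (nat_lit 0) (nat_lit 0) (XT.nd (nat_lit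 156) (nat_lit 76) (nat_lit 0) (XT.nd (nat_lit 78) (nat_lit 0) (nat_lit 0) (XT.lf (nat_lit 0) (nat_lit 199254673786) (nat_lit 152) (nat_lit 20072923515) (nat_lit 0) (nat_lit 198339220701) (nat_lit 2) (nat_lit 5) (nat_lit 4) (nat_lit 4) (nat_lit 2) (nat_lit 4) (nat_lit 487) (nat_lit 370) (nat_lit 343)) (XT.lf (nat_lit 0) (nat_lit 223222503315) (nat_lit 152) (nat_lit 5154734273) (nat_lit 0) (nat_lit 222297346345) (nat_lit 2) (nat_lit 5) (nat_lit 4) (nat_lit 4) (nat_lit 2) (nat_lit 4) (nat_lit 488) (nat_lit 370) (nat_lit 342))) (XT.nd (nat_lit 78) (nat_lit 0) (nat_lit 0) (XT.lf (nat_lit 0) (nat_lit 11073554133) (nat_lit 76) (nat_lit 238090375419) (nat_lit 76) (nat_lit 237156233371) (nat_lit 1) (nat_lit 4) (nat_lit 2) (nat_lit 5) (nat_lit 2) (nat_lit 4) (nat_lit 489) (nat_lit 370) (nat_lit 341)) (XT.lf (nat_lit 0) (nat_lit 28556734229) (nat_lit 76) (nat_lit 248602103721) (nat_lit 76) (nat_lit 247659642156)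 (nat_lit 1) (nat_lit 4) (nat_lit 2) (nat_lit 5) (nat_lit 2) (nat_lit 4) (nat_lit 490) (nat_lit 370) (nat_lit 340)))) (XT.nd (nat_lit 156) (nat_lit 0) (nat_lit 0) (XT.nd (nat_lit 78) (nat_lit 0) (nat_lit 0) (XT.lf (nat_lit 0) (nat_lit 47227971250) (nat_lit 76) (nat_lit 260062012137) (nat_lit 76) (nat_lit 259111847317) (nat_lit 1) (nat_lit 4) (nat_lit 2) (nat_lit 5) (nat_lit 2) (nat_lit 4) (nat_lit 491) (nat_lit 370) (nat_lit 339)) (XT.lf (nat_lit 0) (nat_lit 67197909564) (nat_lit 76) (nat_lit 272538011237) (nat_lit 76) (nat_lit 271580713771) (nat_lit 1) (nat_lit 4) (nat_lit 2) (nat_lit 5) (nat_lit 2) (nat_lit 4) (nat_lit 492) (nat_lit 370) (nat_lit 338))) (XT.nd (nat_lit 78) (nat_lit 0) (nat_lit 0) (XT.lf (nat_lit 0) (nat_lit 88584889545) (nat_lit 76) (nat_lit 286104032866) (nat_lit 76) (nat_lit 285140131100) (nat_lit 1) (nat_lit 4) (nat_lit 2) (nat_lit 5) (nat_lit 2) (nat_lit 4) (nat_lit 493)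 (nat_lit 370) (nat_lit 337)) (XT.lf (nat_lit 0) (nat_lit 111515648852) (nat_lit 76) (nat_lit 300840468263) (nat_lit 76) (nat_lit 299870451404) (nat_lit 1) (nat_lit 4) (nat_lit 2) (nat_lit 5) (nat_lit 2) (nat_lit 4) (nat_lit 494) (nat_lit 370) (nat_lit 336)))))) (XT.nd (nat_lit 546) (nat_lit 0) (nat_lit 0) (XT.nd (nat_lit 234) (nat_lit 0) (nat_lit 0) (XT.nd (nat_lit 78) (nat_lit 0) (nat_lit 0) (XT.lf (nat_lit 0) (nat_lit 136126073467) (nat_lit 76) (nat_lit 316834644454) (nat_lit 76) (nat_lit 315858965472) (nat_lit 1) (nat_lit 4) (nat_lit 2) (nat_lit 5) (nat_lit 2) (nat_lit 4) (nat_lit 495) (nat_lit 370) (nat_lit 335)) (XT.nd (nat_lit 78) (nat_lit 0) (nat_lit 0) (XT.lf (nat_lit 0) (nat_lit 162562002943) (nat_lit 76) (nat_lit 334181341742) (nat_lit 76) (nat_lit 333200420053) (nat_lit 1) (nat_lit 4) (nat_lit 2) (nat_lit 5) (nat_lit 2) (nat_lit 4) (nat_lit 496) (nat_lit 370) (nat_lit 334)) (XT.lf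 (nat_lit 0) (nat_lit 190980094640) (nat_lit 76) (nat_lit 352983355369) (nat_lit 76) (nat_lit 351997579322) (nat_lit 1) (nat_lit 4) (nat_lit 2) (nat_lit 5) (nat_lit 2) (nat_lit 4) (nat_lit 497) (nat_lit 370) (nat_lit 333)))) (XT.nd (nat_lit 156) (nat_lit 0) (nat_lit 0) (XT.nd (nat_lit 78) (nat_lit 0) (nat_lit 0) (XT.lf (nat_lit 0) (nat_lit 221548752065) (nat_lit 76) (nat_lit 373352104676) (nat_lit 76) (nat_lit 372361833853) (nat_lit 1) (nat_lit 4) (nat_lit 2) (nat_lit 5) (nat_lit 2) (nat_lit 4) (nat_lit 498) (nat_lit 370) (nat_lit 332)) (XT.lf (nat_lit 0) (nat_lit 254449122816) (nat_lit 76) (nat_lit 395408293363) (nat_lit 76) (nat_lit 394413860710) (nat_lit 1) (nat_lit 4) (nat_lit 2) (nat_lit 5) (nat_lit 2) (nat_lit 4) (nat_lit 499) (nat_lit 370) (nat_lit 331))) (XT.nd (nat_lit 78) (nat_lit 0) (nat_lit 0) (XT.lf (nat_lit 0) (nat_lit 289876172053) (nat_lit 76) (nat_lit 419282624769) (nat_lit 76)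 (nat_lit 418284338571) (nat_lit 1) (nat_lit 4) (nat_lit 2) (nat_lit 5) (nat_lit 2) (nat_lit 4) (nat_lit 500) (nat_lit 370) (nat_lit 330)) (XT.lf (nat_lit 0) (nat_lit 328039837847) (nat_lit 76) (nat_lit 445116576415) (nat_lit 76) (nat_lit 444114722118) (nat_lit 1) (nat_lit 4) (nat_lit 2) (nat_lit 5) (nat_lit 2) (nat_lit 4) (nat_lit 501) (nat_lit 370) (nat_lit 329))))) (XT.nd (nat_lit 59124) (nat_lit 0) (nat_lit 532) (XT.nd (nat_lit 156) (nat_lit 0) (nat_lit 0) (XT.nd (nat_lit 78) (nat_lit 0) (nat_lit 0) (XT.lf (nat_lit 0) (nat_lit 369166275254) (nat_lit 76) (nat_lit 473063238384) (nat_lit 76) (nat_lit 472058080292) (nat_lit 1) (nat_lit 4) (nat_lit 2) (nat_lit 5) (nat_lit 2) (nat_lit 4) (nat_lit 502) (nat_lit 370) (nat_lit 328)) (XT.lf (nat_lit 0) (nat_lit 413499196496) (nat_lit 76) (nat_lit 503288220524) (nat_lit 76) (nat_lit 502280003364) (nat_lit 1) (nat_lit 4) (nat_lit 2) (nat_lit 5) (nat_lit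 2) (nat_lit 4) (nat_lit 503) (nat_lit 370) (nat_lit 327))) (XT.nd (nat_lit 58890) (nat_lit 0) (nat_lit 760) (XT.lf (nat_lit 0) (nat_lit 461301315179) (nat_lit 76) (nat_lit 535970633842) (nat_lit 76) (nat_lit 534959584210) (nat_lit 1) (nat_lit 4) (nat_lit 2) (nat_lit 5) (nat_lit 2) (nat_lit 4) (nat_lit 504) (nat_lit 370) (nat_lit 326)) (XT.lf (nat_lit 0) (nat_lit 11279174002) (nat_lit 152) (nat_lit 3472820246) (nat_lit 0) (nat_lit 11279174002) (nat_lit 11) (nat_lit 5) (nat_lit 13) (nat_lit 4) (nat_lit 11) (nat_lit 4) (nat_lit 458) (nat_lit 371) (nat_lit 371)))) (XT.nd (nat_lit 156) (nat_lit 152) (nat_lit 0) (XT.nd (nat_lit 78) (nat_lit 0) (nat_lit 0) (XT.lf (nat_lit 0) (nat_lit 24646554112) (nat_lit 76) (nat_lit 15443029151) (nat_lit 76) (nat_lit 15346116905) (nat_lit 10) (nat_lit 4) (nat_lit 11) (nat_lit 5) (nat_lit 11) (nat_lit 4) (nat_lit 459) (nat_lit 371) (nat_lit 370)) (XT.lf (nat_lit 0)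 (nat_lit 57434605281) (nat_lit 76) (nat_lit 931908324) (nat_lit 76) (nat_lit 745262517) (nat_lit 10) (nat_lit 4) (nat_lit 11) (nat_lit 5) (nat_lit 11) (nat_lit 4) (nat_lit 460) (nat_lit 371) (nat_lit 369))) (XT.nd (nat_lit 78) (nat_lit 0) (nat_lit 0) (XT.lf (nat_lit 0) (nat_lit 14492730303) (nat_lit 152) (nat_lit 34344144110) (nat_lit 0) (nat_lit 14235842267) (nat_lit 8) (nat_lit 5) (nat_lit 10) (nat_lit 4) (nat_lit 8) (nat_lit 4) (nat_lit 461) (nat_lit 371) (nat_lit 368)) (XT.lf (nat_lit 0) (nat_lit 30258164838) (nat_lit 152) (nat_lit 7197025423) (nat_lit 0) (nat_lit 29928008168) (nat_lit 8) (nat_lit 5) (nat_lit 10) (nat_lit 4) (nat_lit 8) (nat_lit 4) (nat_lit 462) (nat_lit 371) (nat_lit 367))))))))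
noncomputable def xc9 : XT := (XT.nd (nat_lit 2262) (nat_lit 0) (nat_lit 0) (XT.nd (nat_lit 1092) (nat_lit 76) (nat_lit 0) (XT.nd (nat_lit 546) (nat_lit 152) (nat_lit 0) (XT.nd (nat_lit 234) (nat_lit 152) (nat_lit 0) (XT.nd (nat_lit 78) (nat_lit 76) (nat_lit 0) (XT.lf (nat_lit 0) (nat_lit 21470285528) (nat_lit 76) (nat_lit 25491200434) (nat_lit 76) (nat_lit 25093202437) (nat_lit 7) (nat_lit 4) (nat_lit 8) (nat_lit 5) (nat_lit 8) (nat_lit 4) (nat_lit 463) (nat_lit 371) (nat_lit 366)) (XT.nd (nat_lit 78) (nat_lit 76) (nat_lit 0) (XT.lf (nat_lit 0) (nat_lit 51407405260) (nat_lit 76) (nat_lit 13089264306) (nat_lit 76) (nat_lit 12628450265) (nat_lit 7) (nat_lit 4) (nat_lit 8) (nat_lit 5) (nat_lit 8) (nat_lit 4) (nat_lit 464) (nat_lit 371) (nat_lit 365)) (XT.lf (nat_lit 0) (nat_lit 214123135) (nat_lit 152) (nat_lit 80024616) (nat_lit 76) (nat_lit 82336023346) (nat_lit 6) (nat_lit 5) (nat_lit 8) (nat_lit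 5) (nat_lit 7) (nat_lit 4) (nat_lit 465) (nat_lit 371) (nat_lit 364)))) (XT.nd (nat_lit 156) (nat_lit 76) (nat_lit 0) (XT.nd (nat_lit 78) (nat_lit 0) (nat_lit 0) (XT.lf (nat_lit 0) (nat_lit 13735403785) (nat_lit 152) (nat_lit 61635336365) (nat_lit 0) (nat_lit 13189849806) (nat_lit 5) (nat_lit 5) (nat_lit 7) (nat_lit 4) (nat_lit 5) (nat_lit 4) (nat_lit 466) (nat_lit 371) (nat_lit 363)) (XT.lf (nat_lit 0) (nat_lit 27811493128) (nat_lit 152) (nat_lit 39961847184) (nat_lit 0) (nat_lit 27218448291) (nat_lit 5) (nat_lit 5) (nat_lit 7) (nat_lit 4) (nat_lit 5) (nat_lit 4) (nat_lit 467) (nat_lit 371) (nat_lit 362))) (XT.nd (nat_lit 78) (nat_lit 76) (nat_lit 0) (XT.lf (nat_lit 0) (nat_lit 42519900676) (nat_lit 152) (nat_lit 17559389561) (nat_lit 0) (nat_lit 41882882822) (nat_lit 5) (nat_lit 5) (nat_lit 7) (nat_lit 4) (nat_lit 5) (nat_lit 4) (nat_lit 468) (nat_lit 371) (nat_lit 361)) (XT.lf (nat_lit 0)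 (nat_lit 5893417987) (nat_lit 76) (nat_lit 52146382147) (nat_lit 76) (nat_lit 51468648536) (nat_lit 4) (nat_lit 4) (nat_lit 5) (nat_lit 5) (nat_lit 5) (nat_lit 4) (nat_lit 469) (nat_lit 371) (nat_lit 360))))) (XT.nd (nat_lit 234) (nat_lit 152) (nat_lit 0) (XT.nd (nat_lit 78) (nat_lit 0) (nat_lit 0) (XT.lf (nat_lit 0) (nat_lit 30959454629) (nat_lit 76) (nat_lit 43710486923) (nat_lit 76) (nat_lit 42995053539) (nat_lit 4) (nat_lit 4) (nat_lit 5) (nat_lit 5) (nat_lit 5) (nat_lit 4) (nat_lit 470) (nat_lit 371) (nat_lit 359)) (XT.nd (nat_lit 78) (nat_lit 0) (nat_lit 0) (XT.lf (nat_lit 0) (nat_lit 57206667122) (nat_lit 76) (nat_lit 35018990837) (nat_lit 76) (nat_lit 34268650254) (nat_lit 4) (nat_lit 4) (nat_lit 5) (nat_lit 5) (nat_lit 5) (nat_lit 4) (nat_lit 471) (nat_lit 371) (nat_lit 358)) (XT.lf (nat_lit 0) (nat_lit 84790594502) (nat_lit 76) (nat_lit 26020388724) (nat_lit 76) (nat_lit 25237726661)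 (nat_lit 4) (nat_lit 4) (nat_lit 5) (nat_lit 5) (nat_lit 5) (nat_lit 4) (nat_lit 472) (nat_lit 371) (nat_lit 357)))) (XT.nd (nat_lit 156) (nat_lit 152) (nat_lit 0) (XT.nd (nat_lit 78) (nat_lit 0) (nat_lit 0) (XT.lf (nat_lit 0) (nat_lit 113874697080) (nat_lit 76) (nat_lit 16661355536) (nat_lit 76) (nat_lit 15848766177) (nat_lit 4) (nat_lit 4) (nat_lit 5) (nat_lit 5) (nat_lit 5) (nat_lit 4) (nat_lit 473) (nat_lit 371) (nat_lit 356)) (XT.lf (nat_lit 0) (nat_lit 144631325093) (nat_lit 76) (nat_lit 6886430335) (nat_lit 76) (nat_lit 6046130517) (nat_lit 4) (nat_lit 4) (nat_lit 5) (nat_lit 5) (nat_lit 5) (nat_lit 4) (nat_lit 474) (nat_lit 371) (nat_lit 355))) (XT.nd (nat_lit 78) (nat_lit 0) (nat_lit 0) (XT.lf (nat_lit 0) (nat_lit 4269869860) (nat_lit 152) (nat_lit 161924992219) (nat_lit 0) (nat_lit 3445148287) (nat_lit 2) (nat_lit 5) (nat_lit 4) (nat_lit 4) (nat_lit 2) (nat_lit 4) (nat_lit 475) (nat_lit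 371) (nat_lit 354)) (XT.lf (nat_lit 0) (nat_lit 15253324980) (nat_lit 152) (nat_lit 153015267138) (nat_lit 0) (nat_lit 14405977452) (nat_lit 2) (nat_lit 5) (nat_lit 4) (nat_lit 4) (nat_lit 2) (nat_lit 4) (nat_lit 476) (nat_lit 371) (nat_lit 353)))))) (XT.nd (nat_lit 546) (nat_lit 76) (nat_lit 0) (XT.nd (nat_lit 234) (nat_lit 0) (nat_lit 0) (XT.nd (nat_lit 78) (nat_lit 0) (nat_lit 0) (XT.lf (nat_lit 0) (nat_lit 26843310247) (nat_lit 152) (nat_lit 143947178516) (nat_lit 0) (nat_lit 25975012761) (nat_lit 2) (nat_lit 5) (nat_lit 4) (nat_lit 4) (nat_lit 2) (nat_lit 4) (nat_lit 477) (nat_lit 371) (nat_lit 352)) (XT.nd (nat_lit 78) (nat_lit 0) (nat_lit 0) (XT.lf (nat_lit 0) (nat_lit 39108507057) (nat_lit 152) (nat_lit 134666989532) (nat_lit 0) (nat_lit 38220811461) (nat_lit 2) (nat_lit 5) (nat_lit 4) (nat_lit 4) (nat_lit 2) (nat_lit 4) (nat_lit 478) (nat_lit 371) (nat_lit 351)) (XT.lf (nat_lit 0) (nat_lit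 52121598056) (nat_lit 152) (nat_lit 125119706472) (nat_lit 0) (nat_lit 51215941247) (nat_lit 2) (nat_lit 5) (nat_lit 4) (nat_lit 4) (nat_lit 2) (nat_lit 4) (nat_lit 479) (nat_lit 371) (nat_lit 350)))) (XT.nd (nat_lit 156) (nat_lit 0) (nat_lit 0) (XT.nd (nat_lit 78) (nat_lit 0) (nat_lit 0) (XT.lf (nat_lit 0) (nat_lit 65959697857) (nat_lit 152) (nat_lit 115248752845) (nat_lit 0) (nat_lit 65037410297) (nat_lit 2) (nat_lit 5) (nat_lit 4) (nat_lit 4) (nat_lit 2) (nat_lit 4) (nat_lit 480) (nat_lit 371) (nat_lit 349)) (XT.lf (nat_lit 0) (nat_lit 80704810017) (nat_lit 152) (nat_lit 104995634111) (nat_lit 0) (nat_lit 79767123611) (nat_lit 2) (nat_lit 5) (nat_lit 4) (nat_lit 4) (nat_lit 2) (nat_lit 4) (nat_lit 481) (nat_lit 371) (nat_lit 348))) (XT.nd (nat_lit 78) (nat_lit 0) (nat_lit 0) (XT.lf (nat_lit 0) (nat_lit 96444312975) (nat_lit 152) (nat_lit 94299591047) (nat_lit 0) (nat_lit 95492368380) (nat_lit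 2) (nat_lit 5) (nat_lit 4) (nat_lit 4) (nat_lit 2) (nat_lit 4) (nat_lit 482) (nat_lit 371) (nat_lit 347)) (XT.lf (nat_lit 0) (nat_lit 113271477863) (nat_lit 152) (nat_lit 83097239695) (nat_lit 0) (nat_lit 112306331240) (nat_lit 2) (nat_lit 5) (nat_lit 4) (nat_lit 4) (nat_lit 2) (nat_lit 4) (nat_lit 483) (nat_lit 371) (nat_lit 346))))) (XT.nd (nat_lit 312) (nat_lit 76) (nat_lit 0) (XT.nd (nat_lit 156) (nat_lit 0) (nat_lit 0) (XT.nd (nat_lit 78) (nat_lit 0) (nat_lit 0) (XT.lf (nat_lit 0) (nat_lit 131286021211) (nat_lit 152) (nat_lit 71322195750) (nat_lit 0) (nat_lit 130308650489) (nat_lit 2) (nat_lit 5) (nat_lit 4) (nat_lit 4) (nat_lit 2) (nat_lit 4) (nat_lit 484) (nat_lit 371) (nat_lit 345)) (XT.lf (nat_lit 0) (nat_lit 150594695870) (nat_lit 152) (nat_lit 58904681174) (nat_lit 0) (nat_lit 149606006537) (nat_lit 2) (nat_lit 5) (nat_lit 4) (nat_lit 4) (nat_lit 2) (nat_lit 4) (nat_lit 485) (nat_lit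 371) (nat_lit 344))) (XT.nd (nat_lit 78) (nat_lit 0) (nat_lit 0) (XT.lf (nat_lit 0) (nat_lit 171311923615) (nat_lit 152) (nat_lit 45771110696) (nat_lit 0) (nat_lit 170312754087) (nat_lit 2) (nat_lit 5) (nat_lit 4) (nat_lit 4) (nat_lit 2) (nat_lit 4) (nat_lit 486) (nat_lit 371) (nat_lit 343)) (XT.lf (nat_lit 0) (nat_lit 193560473203) (nat_lit 152) (nat_lit 31843655750) (nat_lit 0) (nat_lit 192551599792) (nat_lit 2) (nat_lit 5) (nat_lit 4) (nat_lit 4) (nat_lit 2) (nat_lit 4) (nat_lit 487) (nat_lit 371) (nat_lit 342)))) (XT.nd (nat_lit 156) (nat_lit 76) (nat_lit 0) (XT.nd (nat_lit 78) (nat_lit 0) (nat_lit 0) (XT.lf (nat_lit 0) (nat_lit 217472187892) (nat_lit 152) (nat_lit 17039783269) (nat_lit 0) (nat_lit 216454329402) (nat_lit 2) (nat_lit 5) (nat_lit 4) (nat_lit 4) (nat_lit 2) (nat_lit 4) (nat_lit 488) (nat_lit 371) (nat_lit 341)) (XT.lf (nat_lit 0) (nat_lit 243188766730) (nat_lit 152) (nat_lit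 1271766601) (nat_lit 0) (nat_lit 242162588724) (nat_lit 2) (nat_lit 5) (nat_lit 4) (nat_lit 4) (nat_lit 2) (nat_lit 4) (nat_lit 489) (nat_lit 371) (nat_lit 340))) (XT.nd (nat_lit 78) (nat_lit 0) (nat_lit 0) (XT.lf (nat_lit 0) (nat_lit 16068114357) (nat_lit 76) (nat_lit 255045358199) (nat_lit 76) (nat_lit 254011476936) (nat_lit 1) (nat_lit 4) (nat_lit 2) (nat_lit 5) (nat_lit 2) (nat_lit 4) (nat_lit 490) (nat_lit 371) (nat_lit 339)) (XT.lf (nat_lit 0) (nat_lit 34645602499) (nat_lit 76) (nat_lit 266553006043) (nat_lit 76) (nat_lit 265511992136) (nat_lit 1) (nat_lit 4) (nat_lit 2) (nat_lit 5) (nat_lit 2) (nat_lit 4) (nat_lit 491) (nat_lit 371) (nat_lit 338))))))) (XT.nd (nat_lit 59826) (nat_lit 0) (nat_lit 228) (XT.nd (nat_lit 546) (nat_lit 0) (nat_lit 0) (XT.nd (nat_lit 234) (nat_lit 0) (nat_lit 0) (XT.nd (nat_lit 78) (nat_lit 0) (nat_lit 0) (XT.lf (nat_lit 0) (nat_lit 54528736294) (nat_lit 76)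 (nat_lit 279073208316) (nat_lit 76) (nat_lit 278025590109) (nat_lit 1) (nat_lit 4) (nat_lit 2) (nat_lit 5) (nat_lit 2) (nat_lit 4) (nat_lit 492) (nat_lit 371) (nat_lit 337)) (XT.nd (nat_lit 78) (nat_lit 0) (nat_lit 0) (XT.lf (nat_lit 0) (nat_lit 75835341721) (nat_lit 76) (nat_lit 292680158810) (nat_lit 76) (nat_lit 291626425509) (nat_lit 1) (nat_lit 4) (nat_lit 2) (nat_lit 5) (nat_lit 2) (nat_lit 4) (nat_lit 493) (nat_lit 371) (nat_lit 336)) (XT.lf (nat_lit 0) (nat_lit 98691680145) (nat_lit 76) (nat_lit 307454491305) (nat_lit 76) (nat_lit 306395095880) (nat_lit 1) (nat_lit 4) (nat_lit 2) (nat_lit 5) (nat_lit 2) (nat_lit 4) (nat_lit 494) (nat_lit 371) (nat_lit 335)))) (XT.nd (nat_lit 156) (nat_lit 0) (nat_lit 0) (XT.nd (nat_lit 78) (nat_lit 0) (nat_lit 0) (XT.lf (nat_lit 0) (nat_lit 123233196535) (nat_lit 76) (nat_lit 323483757400) (nat_lit 76) (nat_lit 322419119269) (nat_lit 1) (nat_lit 4) (nat_lit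 2) (nat_lit 5) (nat_lit 2) (nat_lit 4) (nat_lit 495) (nat_lit 371) (nat_lit 334)) (XT.lf (nat_lit 0) (nat_lit 149605322099) (nat_lit 76) (nat_lit 340862945340) (nat_lit 76) (nat_lit 339793452851) (nat_lit 1) (nat_lit 4) (nat_lit 2) (nat_lit 5) (nat_lit 2) (nat_lit 4) (nat_lit 496) (nat_lit 371) (nat_lit 333))) (XT.nd (nat_lit 78) (nat_lit 0) (nat_lit 0) (XT.lf (nat_lit 0) (nat_lit 177964336100) (nat_lit 76) (nat_lit 359695042904) (nat_lit 76) (nat_lit 358621055639) (nat_lit 1) (nat_lit 4) (nat_lit 2) (nat_lit 5) (nat_lit 2) (nat_lit 4) (nat_lit 497) (nat_lit 371) (nat_lit 332)) (XT.lf (nat_lit 0) (nat_lit 208478291953) (nat_lit 76) (nat_lit 380091647709) (nat_lit 76) (nat_lit 379013498615) (nat_lit 1) (nat_lit 4) (nat_lit 2) (nat_lit 5) (nat_lit 2) (nat_lit 4) (nat_lit 498) (nat_lit 371) (nat_lit 331))))) (XT.nd (nat_lit 312) (nat_lit 0) (nat_lit 0) (XT.nd (nat_lit 156) (nat_lit 0) (nat_lit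 0) (XT.nd (nat_lit 78) (nat_lit 0) (nat_lit 0) (XT.lf (nat_lit 0) (nat_lit 241328013102) (nat_lit 76) (nat_lit 402173628523) (nat_lit 76) (nat_lit 401091625882) (nat_lit 1) (nat_lit 4) (nat_lit 2) (nat_lit 5) (nat_lit 2) (nat_lit 4) (nat_lit 499) (nat_lit 371) (nat_lit 330)) (XT.lf (nat_lit 0) (nat_lit 276708164559) (nat_lit 76) (nat_lit 426071841529) (nat_lit 76) (nat_lit 424986270790) (nat_lit 1) (nat_lit 4) (nat_lit 2) (nat_lit 5) (nat_lit 2) (nat_lit 4) (nat_lit 500) (nat_lit 371) (nat_lit 329))) (XT.nd (nat_lit 78) (nat_lit 0) (nat_lit 0) (XT.lf (nat_lit 0) (nat_lit 314828406483) (nat_lit 76) (nat_lit 451927905766) (nat_lit 76) (nat_lit 450839031233) (nat_lit 1) (nat_lit 4) (nat_lit 2) (nat_lit 5) (nat_lit 2) (nat_lit 4) (nat_lit 501) (nat_lit 371) (nat_lit 328)) (XT.lf (nat_lit 0) (nat_lit 355914636602) (nat_lit 76) (nat_lit 479895042357) (nat_lit 76) (nat_lit 478803108755) (nat_lit 1)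 (nat_lit 4) (nat_lit 2) (nat_lit 5) (nat_lit 2) (nat_lit 4) (nat_lit 502) (nat_lit 371) (nat_lit 327)))) (XT.nd (nat_lit 58812) (nat_lit 0) (nat_lit 760) (XT.nd (nat_lit 78) (nat_lit 0) (nat_lit 0) (XT.lf (nat_lit 0) (nat_lit 400210328874) (nat_lit 76) (nat_lit 510138982481) (nat_lit 76) (nat_lit 509044216408) (nat_lit 1) (nat_lit 4) (nat_lit 2) (nat_lit 5) (nat_lit 2) (nat_lit 4) (nat_lit 503) (nat_lit 371) (nat_lit 326)) (XT.lf (nat_lit 0) (nat_lit 447977976289) (nat_lit 76) (nat_lit 542838949487) (nat_lit 76) (nat_lit 541741560755) (nat_lit 1) (nat_lit 4) (nat_lit 2) (nat_lit 5) (nat_lit 2) (nat_lit 4) (nat_lit 504) (nat_lit 371) (nat_lit 325))) (XT.nd (nat_lit 78) (nat_lit 152) (nat_lit 0) (XT.lf (nat_lit 0) (nat_lit 13439095315) (nat_lit 76) (nat_lit 4798899942) (nat_lit 76) (nat_lit 4798899942) (nat_lit 13) (nat_lit 4) (nat_lit 14) (nat_lit 5) (nat_lit 14) (nat_lit 4) (nat_lit 456) (nat_lit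 372) (nat_lit 372)) (XT.lf (nat_lit 0) (nat_lit 6033554753) (nat_lit 152) (nat_lit 36996252005) (nat_lit 0) (nat_lit 5928889527) (nat_lit 11) (nat_lit 5) (nat_lit 13) (nat_lit 4) (nat_lit 11) (nat_lit 4) (nat_lit 457) (nat_lit 372) (nat_lit 371)))))) (XT.nd (nat_lit 546) (nat_lit 228) (nat_lit 0) (XT.nd (nat_lit 234) (nat_lit 228) (nat_lit 0) (XT.nd (nat_lit 78) (nat_lit 76) (nat_lit 0) (XT.lf (nat_lit 0) (nat_lit 22271964347) (nat_lit 152) (nat_lit 7739539281) (nat_lit 0) (nat_lit 22070386875) (nat_lit 11) (nat_lit 5) (nat_lit 13) (nat_lit 4) (nat_lit 11) (nat_lit 4) (nat_lit 458) (nat_lit 372) (nat_lit 370)) (XT.nd (nat_lit 78) (nat_lit 0) (nat_lit 0) (XT.lf (nat_lit 0) (nat_lit 23067008527) (nat_lit 76) (nat_lit 16349447647) (nat_lit 76) (nat_lit 16058136614) (nat_lit 10) (nat_lit 4) (nat_lit 11) (nat_lit 5) (nat_lit 11) (nat_lit 4) (nat_lit 459) (nat_lit 372) (nat_lit 369)) (XT.lf (nat_lit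 0) (nat_lit 55151914404) (nat_lit 76) (nat_lit 2195232656) (nat_lit 76) (nat_lit 1820834993) (nat_lit 10) (nat_lit 4) (nat_lit 11) (nat_lit 5) (nat_lit 11) (nat_lit 4) (nat_lit 460) (nat_lit 372) (nat_lit 368)))) (XT.nd (nat_lit 156) (nat_lit 76) (nat_lit 0) (XT.nd (nat_lit 78) (nat_lit 0) (nat_lit 0) (XT.lf (nat_lit 0) (nat_lit 13051571903) (nat_lit 152) (nat_lit 37476458002) (nat_lit 0) (nat_lit 12621734066) (nat_lit 8) (nat_lit 5) (nat_lit 10) (nat_lit 4) (nat_lit 8) (nat_lit 4) (nat_lit 461) (nat_lit 372) (nat_lit 367)) (XT.lf (nat_lit 0) (nat_lit 28500391294) (nat_lit 152) (nat_lit 10972974148) (nat_lit 0) (nat_lit 28002712130) (nat_lit 8) (nat_lit 5) (nat_lit 10) (nat_lit 4) (nat_lit 8) (nat_lit 4) (nat_lit 462) (nat_lit 372) (nat_lit 366))) (XT.nd (nat_lit 78) (nat_lit 0) (nat_lit 0) (XT.lf (nat_lit 0) (nat_lit 16953823639) (nat_lit 76) (nat_lit 27886211981) (nat_lit 76) (nat_lit 27325716772)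 (nat_lit 7) (nat_lit 4) (nat_lit 8) (nat_lit 5) (nat_lit 8) (nat_lit 4) (nat_lit 463) (nat_lit 372) (nat_lit 365)) (XT.lf (nat_lit 0) (nat_lit 46320884809) (nat_lit 76) (nat_lit 15773987749) (nat_lit 76) (nat_lit 15155329536) (nat_lit 7) (nat_lit 4) (nat_lit 8) (nat_lit 5) (nat_lit 8) (nat_lit 4) (nat_lit 464) (nat_lit 372) (nat_lit 364))))) (XT.nd (nat_lit 312) (nat_lit 76) (nat_lit 0) (XT.nd (nat_lit 156) (nat_lit 0) (nat_lit 0) (XT.nd (nat_lit 78) (nat_lit 152) (nat_lit 0) (XT.lf (nat_lit 0) (nat_lit 76939420309) (nat_lit 76) (nat_lit 3250749228) (nat_lit 76) (nat_lit 2578236383) (nat_lit 7) (nat_lit 4) (nat_lit 8) (nat_lit 5) (nat_lit 8) (nat_lit 4) (nat_lit 465) (nat_lit 372) (nat_lit 363)) (XT.lf (nat_lit 0) (nat_lit 10628777807) (nat_lit 152) (nat_lit 68151101192) (nat_lit 0) (nat_lit 9940798525) (nat_lit 5) (nat_lit 5) (nat_lit 7) (nat_lit 4) (nat_lit 5) (nat_lit 4) (nat_lit 466) (nat_lit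 372) (nat_lit 362))) (XT.nd (nat_lit 78) (nat_lit 0) (nat_lit 0) (XT.lf (nat_lit 0) (nat_lit 24467478235) (nat_lit 152) (nat_lit 46960742151) (nat_lit 0) (nat_lit 23735525936) (nat_lit 5) (nat_lit 5) (nat_lit 7) (nat_lit 4) (nat_lit 5) (nat_lit 4) (nat_lit 467) (nat_lit 372) (nat_lit 361)) (XT.lf (nat_lit 0) (nat_lit 38956081233) (nat_lit 152) (nat_lit 25005627252) (nat_lit 0) (nat_lit 38183413178) (nat_lit 5) (nat_lit 5) (nat_lit 7) (nat_lit 4) (nat_lit 5) (nat_lit 4) (nat_lit 468) (nat_lit 372) (nat_lit 360)))) (XT.nd (nat_lit 156) (nat_lit 0) (nat_lit 0) (XT.nd (nat_lit 78) (nat_lit 76) (nat_lit 0) (XT.lf (nat_lit 0) (nat_lit 54180445188) (nat_lit 152) (nat_lit 2155652109) (nat_lit 0) (nat_lit 53370077359) (nat_lit 5) (nat_lit 5) (nat_lit 7) (nat_lit 4) (nat_lit 5) (nat_lit 4) (nat_lit 469) (nat_lit 372) (nat_lit 359)) (XT.lf (nat_lit 0) (nat_lit 22442903611) (nat_lit 76) (nat_lit 48138281564)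 (nat_lit 76) (nat_lit 47293006536) (nat_lit 4) (nat_lit 4) (nat_lit 5) (nat_lit 5) (nat_lit 5) (nat_lit 4) (nat_lit 470) (nat_lit 372) (nat_lit 358))) (XT.nd (nat_lit 78) (nat_lit 0) (nat_lit 0) (XT.lf (nat_lit 0) (nat_lit 48323259319) (nat_lit 76) (nat_lit 39633426660) (nat_lit 76) (nat_lit 38755830152) (nat_lit 4) (nat_lit 4) (nat_lit 5) (nat_lit 5) (nat_lit 5) (nat_lit 4) (nat_lit 471) (nat_lit 372) (nat_lit 357)) (XT.lf (nat_lit 0) (nat_lit 75567504492) (nat_lit 76) (nat_lit 30807640458) (nat_lit 76) (nat_lit 29900116653) (nat_lit 4) (nat_lit 4) (nat_lit 5) (nat_lit 5) (nat_lit 5) (nat_lit 4) (nat_lit 472) (nat_lit 372) (nat_lit 356))))))))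
noncomputable def xc10 : XT := (XT.nd (nat_lit 2262) (nat_lit 0) (nat_lit 0) (XT.nd (nat_lit 1092) (nat_lit 76) (nat_lit 0) (XT.nd (nat_lit 546) (nat_lit 0) (nat_lit 0) (XT.nd (nat_lit 234) (nat_lit 152) (nat_lit 0) (XT.nd (nat_lit 78) (nat_lit 0) (nat_lit 0) (XT.lf (nat_lit 0) (nat_lit 104337086507) (nat_lit 76) (nat_lit 21608622002) (nat_lit 76) (nat_lit 20673387738) (nat_lit 4) (nat_lit 4) (nat_lit 5) (nat_lit 5) (nat_lit 5) (nat_lit 4) (nat_lit 473) (nat_lit 372) (nat_lit 355)) (XT.nd (nat_lit 78) (nat_lit 0) (nat_lit 0) (XT.lf (nat_lit 0) (nat_lit 134802491776) (nat_lit 76) (nat_lit 11981858590) (nat_lit 76) (nat_lit 11020966493) (nat_lit 4) (nat_lit 4) (nat_lit 5) (nat_lit 5) (nat_lit 5) (nat_lit 4) (nat_lit 474) (nat_lit 372) (nat_lit 354)) (XT.lf (nat_lit 0) (nat_lit 167144256036) (nat_lit 76) (nat_lit 1870302735) (nat_lit 76) (nat_lit 885653386) (nat_lit 4) (nat_lit 4) (nat_lit 5) (nat_lit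 5) (nat_lit 5) (nat_lit 4) (nat_lit 475) (nat_lit 372) (nat_lit 353)))) (XT.nd (nat_lit 156) (nat_lit 0) (nat_lit 0) (XT.nd (nat_lit 78) (nat_lit 0) (nat_lit 0) (XT.lf (nat_lit 0) (nat_lit 9920928347) (nat_lit 152) (nat_lit 164062578615) (nat_lit 0) (nat_lit 8962217104) (nat_lit 2) (nat_lit 5) (nat_lit 4) (nat_lit 4) (nat_lit 2) (nat_lit 4) (nat_lit 476) (nat_lit 372) (nat_lit 352)) (XT.lf (nat_lit 0) (nat_lit 21389765884) (nat_lit 152) (nat_lit 155241291304) (nat_lit 0) (nat_lit 20411656531) (nat_lit 2) (nat_lit 5) (nat_lit 4) (nat_lit 4) (nat_lit 2) (nat_lit 4) (nat_lit 477) (nat_lit 372) (nat_lit 351))) (XT.nd (nat_lit 78) (nat_lit 0) (nat_lit 0) (XT.lf (nat_lit 0) (nat_lit 33542788869) (nat_lit 152) (nat_lit 146189622052) (nat_lit 0) (nat_lit 32546718303) (nat_lit 2) (nat_lit 5) (nat_lit 4) (nat_lit 4) (nat_lit 2) (nat_lit 4) (nat_lit 478) (nat_lit 372) (nat_lit 350)) (XT.lf (nat_lit 0)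 (nat_lit 46452015215) (nat_lit 152) (nat_lit 136853931337) (nat_lit 0) (nat_lit 45439313898) (nat_lit 2) (nat_lit 5) (nat_lit 4) (nat_lit 4) (nat_lit 2) (nat_lit 4) (nat_lit 479) (nat_lit 372) (nat_lit 349))))) (XT.nd (nat_lit 234) (nat_lit 0) (nat_lit 0) (XT.nd (nat_lit 78) (nat_lit 0) (nat_lit 0) (XT.lf (nat_lit 0) (nat_lit 60193944043) (nat_lit 152) (nat_lit 127178896548) (nat_lit 0) (nat_lit 59165843880) (nat_lit 2) (nat_lit 5) (nat_lit 4) (nat_lit 4) (nat_lit 2) (nat_lit 4) (nat_lit 480) (nat_lit 372) (nat_lit 348)) (XT.nd (nat_lit 78) (nat_lit 0) (nat_lit 0) (XT.lf (nat_lit 0) (nat_lit 74850009003) (nat_lit 152) (nat_lit 117107184145) (nat_lit 0) (nat_lit 73807650651) (nat_lit 2) (nat_lit 5) (nat_lit 4) (nat_lit 4) (nat_lit 2) (nat_lit 4) (nat_lit 481) (nat_lit 372) (nat_lit 347)) (XT.lf (nat_lit 0) (nat_lit 90507060853) (nat_lit 152) (nat_lit 106579109907) (nat_lit 0) (nat_lit 89451500473)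 (nat_lit 2) (nat_lit 5) (nat_lit 4) (nat_lit 4) (nat_lit 2) (nat_lit 4) (nat_lit 482) (nat_lit 372) (nat_lit 346)))) (XT.nd (nat_lit 156) (nat_lit 0) (nat_lit 0) (XT.nd (nat_lit 78) (nat_lit 0) (nat_lit 0) (XT.lf (nat_lit 0) (nat_lit 107257882120) (nat_lit 152) (nat_lit 95532285245) (nat_lit 0) (nat_lit 106190097641) (nat_lit 2) (nat_lit 5) (nat_lit 4) (nat_lit 4) (nat_lit 2) (nat_lit 4) (nat_lit 483) (nat_lit 372) (nat_lit 345)) (XT.lf (nat_lit 0) (nat_lit 125201736931) (nat_lit 152) (nat_lit 83901247495) (nat_lit 0) (nat_lit 124122633841) (nat_lit 2) (nat_lit 5) (nat_lit 4) (nat_lit 4) (nat_lit 2) (nat_lit 4) (nat_lit 484) (nat_lit 372) (nat_lit 344))) (XT.nd (nat_lit 78) (nat_lit 0) (nat_lit 0) (XT.lf (nat_lit 0) (nat_lit 144444959240) (nat_lit 152) (nat_lit 71617071988) (nat_lit 0) (nat_lit 143355375956) (nat_lit 2) (nat_lit 5) (nat_lit 4) (nat_lit 4) (nat_lit 2) (nat_lit 4) (nat_lit 485)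 (nat_lit 372) (nat_lit 343)) (XT.lf (nat_lit 0) (nat_lit 165101582958) (nat_lit 152) (nat_lit 58606963611) (nat_lit 0) (nat_lit 164002295789) (nat_lit 2) (nat_lit 5) (nat_lit 4) (nat_lit 4) (nat_lit 2) (nat_lit 4) (nat_lit 486) (nat_lit 372) (nat_lit 342)))))) (XT.nd (nat_lit 546) (nat_lit 0) (nat_lit 0) (XT.nd (nat_lit 234) (nat_lit 76) (nat_lit 0) (XT.nd (nat_lit 78) (nat_lit 0) (nat_lit 0) (XT.lf (nat_lit 0) (nat_lit 187294017707) (nat_lit 152) (nat_lit 44793825424) (nat_lit 0) (nat_lit 186185745460) (nat_lit 2) (nat_lit 5) (nat_lit 4) (nat_lit 4) (nat_lit 2) (nat_lit 4) (nat_lit 487) (nat_lit 372) (nat_lit 341)) (XT.nd (nat_lit 78) (nat_lit 0) (nat_lit 0) (XT.lf (nat_lit 0) (nat_lit 211153774210) (nat_lit 152) (nat_lit 30095801795) (nat_lit 0) (nat_lit 210037182447) (nat_lit 2) (nat_lit 5) (nat_lit 4) (nat_lit 4) (nat_lit 2) (nat_lit 4) (nat_lit 488) (nat_lit 372) (nat_lit 340)) (XT.lf (nat_lit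 0) (nat_lit 236822243618) (nat_lit 152) (nat_lit 14425793324) (nat_lit 0) (nat_lit 235697948598) (nat_lit 2) (nat_lit 5) (nat_lit 4) (nat_lit 4) (nat_lit 2) (nat_lit 4) (nat_lit 489) (nat_lit 372) (nat_lit 339)))) (XT.nd (nat_lit 156) (nat_lit 0) (nat_lit 0) (XT.nd (nat_lit 78) (nat_lit 0) (nat_lit 0) (XT.lf (nat_lit 0) (nat_lit 2385407225) (nat_lit 76) (nat_lit 262103371045) (nat_lit 76) (nat_lit 260971943381) (nat_lit 1) (nat_lit 4) (nat_lit 2) (nat_lit 5) (nat_lit 2) (nat_lit 4) (nat_lit 490) (nat_lit 372) (nat_lit 338)) (XT.lf (nat_lit 0) (nat_lit 20876090849) (nat_lit 76) (nat_lit 273655222063) (nat_lit 76) (nat_lit 272517190098) (nat_lit 1) (nat_lit 4) (nat_lit 2) (nat_lit 5) (nat_lit 2) (nat_lit 4) (nat_lit 491) (nat_lit 372) (nat_lit 337))) (XT.nd (nat_lit 78) (nat_lit 0) (nat_lit 0) (XT.lf (nat_lit 0) (nat_lit 40678850091) (nat_lit 76) (nat_lit 286216353201) (nat_lit 76) (nat_lit 285072206143)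 (nat_lit 1) (nat_lit 4) (nat_lit 2) (nat_lit 5) (nat_lit 2) (nat_lit 4) (nat_lit 492) (nat_lit 372) (nat_lit 336)) (XT.lf (nat_lit 0) (nat_lit 61911034635) (nat_lit 76) (nat_lit 299861200791) (nat_lit 76) (nat_lit 298711391610) (nat_lit 1) (nat_lit 4) (nat_lit 2) (nat_lit 5) (nat_lit 2) (nat_lit 4) (nat_lit 493) (nat_lit 372) (nat_lit 335))))) (XT.nd (nat_lit 312) (nat_lit 0) (nat_lit 0) (XT.nd (nat_lit 156) (nat_lit 0) (nat_lit 0) (XT.nd (nat_lit 78) (nat_lit 0) (nat_lit 0) (XT.lf (nat_lit 0) (nat_lit 84698464834) (nat_lit 76) (nat_lit 314670623190) (nat_lit 76) (nat_lit 313515571302) (nat_lit 1) (nat_lit 4) (nat_lit 2) (nat_lit 5) (nat_lit 2) (nat_lit 4) (nat_lit 494) (nat_lit 372) (nat_lit 334)) (XT.lf (nat_lit 0) (nat_lit 109176177312) (nat_lit 76) (nat_lit 330732379938) (nat_lit 76) (nat_lit 329572473692) (nat_lit 1) (nat_lit 4) (nat_lit 2) (nat_lit 5) (nat_lit 2) (nat_lit 4) (nat_lit 495)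 (nat_lit 372) (nat_lit 333))) (XT.nd (nat_lit 78) (nat_lit 0) (nat_lit 0) (XT.lf (nat_lit 0) (nat_lit 135489225179) (nat_lit 76) (nat_lit 348141651815) (nat_lit 76) (nat_lit 346977250793) (nat_lit 1) (nat_lit 4) (nat_lit 2) (nat_lit 5) (nat_lit 2) (nat_lit 4) (nat_lit 496) (nat_lit 372) (nat_lit 332)) (XT.lf (nat_lit 0) (nat_lit 163793537609) (nat_lit 76) (nat_lit 367001604877) (nat_lit 76) (nat_lit 365833042026) (nat_lit 1) (nat_lit 4) (nat_lit 2) (nat_lit 5) (nat_lit 2) (nat_lit 4) (nat_lit 497) (nat_lit 372) (nat_lit 331)))) (XT.nd (nat_lit 156) (nat_lit 0) (nat_lit 0) (XT.nd (nat_lit 78) (nat_lit 0) (nat_lit 0) (XT.lf (nat_lit 0) (nat_lit 194256843860) (nat_lit 76) (nat_lit 387424001809) (nat_lit 76) (nat_lit 386251585412) (nat_lit 1) (nat_lit 4) (nat_lit 2) (nat_lit 5) (nat_lit 2) (nat_lit 4) (nat_lit 498) (nat_lit 372) (nat_lit 330)) (XT.lf (nat_lit 0) (nat_lit 227059667228) (nat_lit 76)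 (nat_lit 409529864223) (nat_lit 76) (nat_lit 408353879727) (nat_lit 1) (nat_lit 4) (nat_lit 2) (nat_lit 5) (nat_lit 2) (nat_lit 4) (nat_lit 499) (nat_lit 372) (nat_lit 329))) (XT.nd (nat_lit 78) (nat_lit 0) (nat_lit 0) (XT.lf (nat_lit 0) (nat_lit 262396394815) (nat_lit 76) (nat_lit 433450189821) (nat_lit 76) (nat_lit 432270901530) (nat_lit 1) (nat_lit 4) (nat_lit 2) (nat_lit 5) (nat_lit 2) (nat_lit 4) (nat_lit 500) (nat_lit 372) (nat_lit 328)) (XT.lf (nat_lit 0) (nat_lit 300476429451) (nat_lit 76) (nat_lit 459326728680) (nat_lit 76) (nat_lit 458144381321) (nat_lit 1) (nat_lit 4) (nat_lit 2) (nat_lit 5) (nat_lit 2) (nat_lit 4) (nat_lit 501) (nat_lit 372) (nat_lit 327))))))) (XT.nd (nat_lit 59670) (nat_lit 0) (nat_lit 76) (XT.nd (nat_lit 59046) (nat_lit 0) (nat_lit 456) (XT.nd (nat_lit 58734) (nat_lit 0) (nat_lit 760) (XT.nd (nat_lit 78) (nat_lit 0) (nat_lit 0) (XT.lf (nat_lit 0) (nat_lit 341525430601)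 (nat_lit 76) (nat_lit 487312823255) (nat_lit 76) (nat_lit 486127643424) (nat_lit 1) (nat_lit 4) (nat_lit 2) (nat_lit 5) (nat_lit 2) (nat_lit 4) (nat_lit 502) (nat_lit 372) (nat_lit 326)) (XT.nd (nat_lit 78) (nat_lit 0) (nat_lit 0) (XT.lf (nat_lit 0) (nat_lit 385786651604) (nat_lit 76) (nat_lit 517574317067) (nat_lit 76) (nat_lit 516386514578) (nat_lit 1) (nat_lit 4) (nat_lit 2) (nat_lit 5) (nat_lit 2) (nat_lit 4) (nat_lit 503) (nat_lit 372) (nat_lit 325)) (XT.lf (nat_lit 0) (nat_lit 433522381177) (nat_lit 76) (nat_lit 550290537489) (nat_lit 76) (nat_lit 549100306612) (nat_lit 1) (nat_lit 4) (nat_lit 2) (nat_lit 5) (nat_lit 2) (nat_lit 4) (nat_lit 504) (nat_lit 372) (nat_lit 324)))) (XT.nd (nat_lit 156) (nat_lit 228) (nat_lit 0) (XT.nd (nat_lit 78) (nat_lit 0) (nat_lit 0) (XT.lf (nat_lit 0) (nat_lit 1213304286) (nat_lit 152) (nat_lit 18053282969) (nat_lit 0) (nat_lit 1213304286) (nat_lit 14)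 (nat_lit 5) (nat_lit 16) (nat_lit 4) (nat_lit 14) (nat_lit 4) (nat_lit 454) (nat_lit 373) (nat_lit 373)) (XT.lf (nat_lit 0) (nat_lit 18850918328) (nat_lit 152) (nat_lit 5835425642) (nat_lit 0) (nat_lit 18732227962) (nat_lit 14) (nat_lit 5) (nat_lit 16) (nat_lit 4) (nat_lit 14) (nat_lit 4) (nat_lit 455) (nat_lit 373) (nat_lit 372))) (XT.nd (nat_lit 78) (nat_lit 152) (nat_lit 0) (XT.lf (nat_lit 0) (nat_lit 26075188430) (nat_lit 76) (nat_lit 10123496201) (nat_lit 76) (nat_lit 9894907348) (nat_lit 13) (nat_lit 4) (nat_lit 14) (nat_lit 5) (nat_lit 14) (nat_lit 4) (nat_lit 456) (nat_lit 373) (nat_lit 371)) (XT.lf (nat_lit 0) (nat_lit 5333211521) (nat_lit 152) (nat_lit 38647561488) (nat_lit 0) (nat_lit 5018595606) (nat_lit 11) (nat_lit 5) (nat_lit 13) (nat_lit 4) (nat_lit 11) (nat_lit 4) (nat_lit 457) (nat_lit 373) (nat_lit 370))))) (XT.nd (nat_lit 312) (nat_lit 76) (nat_lit 0) (XT.nd (nat_lit 156)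 (nat_lit 152) (nat_lit 0) (XT.nd (nat_lit 78) (nat_lit 76) (nat_lit 0) (XT.lf (nat_lit 0) (nat_lit 21209538816) (nat_lit 152) (nat_lit 10125940236) (nat_lit 0) (nat_lit 20805189339) (nat_lit 11) (nat_lit 5) (nat_lit 13) (nat_lit 4) (nat_lit 11) (nat_lit 4) (nat_lit 458) (nat_lit 373) (nat_lit 369)) (XT.lf (nat_lit 0) (nat_lit 19898557087) (nat_lit 76) (nat_lit 18070743762) (nat_lit 76) (nat_lit 17583307654) (nat_lit 10) (nat_lit 4) (nat_lit 11) (nat_lit 5) (nat_lit 11) (nat_lit 4) (nat_lit 459) (nat_lit 373) (nat_lit 368))) (XT.nd (nat_lit 78) (nat_lit 152) (nat_lit 0) (XT.lf (nat_lit 0) (nat_lit 51332402509) (nat_lit 76) (nat_lit 4246997137) (nat_lit 76) (nat_lit 3682628965) (nat_lit 10) (nat_lit 4) (nat_lit 11) (nat_lit 5) (nat_lit 11) (nat_lit 4) (nat_lit 460) (nat_lit 373) (nat_lit 367)) (XT.lf (nat_lit 0) (nat_lit 10836561331) (nat_lit 152) (nat_lit 42198117457) (nat_lit 0) (nat_lit 10231226506)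 (nat_lit 8) (nat_lit 5) (nat_lit 10) (nat_lit 4) (nat_lit 8) (nat_lit 4) (nat_lit 461) (nat_lit 373) (nat_lit 366)))) (XT.nd (nat_lit 156) (nat_lit 0) (nat_lit 0) (XT.nd (nat_lit 78) (nat_lit 76) (nat_lit 0) (XT.lf (nat_lit 0) (nat_lit 25992218551) (nat_lit 152) (nat_lit 16290591780) (nat_lit 0) (nat_lit 25324067682) (nat_lit 8) (nat_lit 5) (nat_lit 10) (nat_lit 4) (nat_lit 8) (nat_lit 4) (nat_lit 462) (nat_lit 373) (nat_lit 365)) (XT.lf (nat_lit 0) (nat_lit 10890322991) (nat_lit 76) (nat_lit 31075425194) (nat_lit 76) (nat_lit 30349111321) (nat_lit 7) (nat_lit 4) (nat_lit 8) (nat_lit 5) (nat_lit 8) (nat_lit 4) (nat_lit 463) (nat_lit 373) (nat_lit 364))) (XT.nd (nat_lit 78) (nat_lit 0) (nat_lit 0) (XT.lf (nat_lit 0) (nat_lit 39729552159) (nat_lit 76) (nat_lit 19231452717) (nat_lit 76) (nat_lit 18451284211) (nat_lit 7) (nat_lit 4) (nat_lit 8) (nat_lit 5) (nat_lit 8) (nat_lit 4) (nat_lit 464) (nat_lit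 373) (nat_lit 363)) (XT.lf (nat_lit 0) (nat_lit 69859354324) (nat_lit 76) (nat_lit 6956595451) (nat_lit 76) (nat_lit 6126561544) (nat_lit 7) (nat_lit 4) (nat_lit 8) (nat_lit 5) (nat_lit 8) (nat_lit 4) (nat_lit 465) (nat_lit 373) (nat_lit 362)))))) (XT.nd (nat_lit 546) (nat_lit 152) (nat_lit 0) (XT.nd (nat_lit 234) (nat_lit 76) (nat_lit 0) (XT.nd (nat_lit 78) (nat_lit 0) (nat_lit 0) (XT.lf (nat_lit 0) (nat_lit 6779852809) (nat_lit 152) (nat_lit 76193037897) (nat_lit 0) (nat_lit 5945371309) (nat_lit 5) (nat_lit 5) (nat_lit 7) (nat_lit 4) (nat_lit 5) (nat_lit 4) (nat_lit 466) (nat_lit 373) (nat_lit 361)) (XT.nd (nat_lit 78) (nat_lit 0) (nat_lit 0) (XT.lf (nat_lit 0) (nat_lit 20398748687) (nat_lit 152) (nat_lit 55450021580) (nat_lit 0) (nat_lit 19523551431) (nat_lit 5) (nat_lit 5) (nat_lit 7) (nat_lit 4) (nat_lit 5) (nat_lit 4) (nat_lit 467) (nat_lit 373) (nat_lit 360)) (XT.lf (nat_lit 0) (nat_lit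 34683828952) (nat_lit 152) (nat_lit 33909112906) (nat_lit 0) (nat_lit 33770931922) (nat_lit 5) (nat_lit 5) (nat_lit 7) (nat_lit 4) (nat_lit 5) (nat_lit 4) (nat_lit 468) (nat_lit 373) (nat_lit 359)))) (XT.nd (nat_lit 156) (nat_lit 0) (nat_lit 0) (XT.nd (nat_lit 78) (nat_lit 76) (nat_lit 0) (XT.lf (nat_lit 0) (nat_lit 49719745934) (nat_lit 152) (nat_lit 11442662045) (nat_lit 0) (nat_lit 48771941705) (nat_lit 5) (nat_lit 5) (nat_lit 7) (nat_lit 4) (nat_lit 5) (nat_lit 4) (nat_lit 469) (nat_lit 373) (nat_lit 358)) (XT.lf (nat_lit 0) (nat_lit 12481966400) (nat_lit 76) (nat_lit 53308513436) (nat_lit 76) (nat_lit 52328387727) (nat_lit 4) (nat_lit 4) (nat_lit 5) (nat_lit 5) (nat_lit 5) (nat_lit 4) (nat_lit 470) (nat_lit 373) (nat_lit 357))) (XT.nd (nat_lit 78) (nat_lit 0) (nat_lit 0) (XT.lf (nat_lit 0) (nat_lit 38022639900) (nat_lit 76) (nat_lit 44976474443) (nat_lit 76) (nat_lit 43966421438) (nat_lit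 4) (nat_lit 4) (nat_lit 5) (nat_lit 5) (nat_lit 5) (nat_lit 4) (nat_lit 471) (nat_lit 373) (nat_lit 356)) (XT.lf (nat_lit 0) (nat_lit 64952364509) (nat_lit 76) (nat_lit 36310702973) (nat_lit 76) (nat_lit 35272939508) (nat_lit 4) (nat_lit 4) (nat_lit 5) (nat_lit 5) (nat_lit 5) (nat_lit 4) (nat_lit 472) (nat_lit 373) (nat_lit 355))))) (XT.nd (nat_lit 312) (nat_lit 0) (nat_lit 0) (XT.nd (nat_lit 156) (nat_lit 152) (nat_lit 0) (XT.nd (nat_lit 78) (nat_lit 0) (nat_lit 0) (XT.lf (nat_lit 0) (nat_lit 93430723781) (nat_lit 76) (nat_lit 27259846305) (nat_lit 76) (nat_lit 26196425008) (nat_lit 4) (nat_lit 4) (nat_lit 5) (nat_lit 5) (nat_lit 5) (nat_lit 4) (nat_lit 473) (nat_lit 373) (nat_lit 354)) (XT.lf (nat_lit 0) (nat_lit 123626478362) (nat_lit 76) (nat_lit 17770269735) (nat_lit 76) (nat_lit 16683091185) (nat_lit 4) (nat_lit 4) (nat_lit 5) (nat_lit 5) (nat_lit 5) (nat_lit 4) (nat_lit 474) (nat_lit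 373) (nat_lit 353))) (XT.nd (nat_lit 78) (nat_lit 152) (nat_lit 0) (XT.lf (nat_lit 0) (nat_lit 155718566059) (nat_lit 76) (nat_lit 7785738734) (nat_lit 76) (nat_lit 6676562727) (nat_lit 4) (nat_lit 4) (nat_lit 5) (nat_lit 5) (nat_lit 5) (nat_lit 4) (nat_lit 475) (nat_lit 373) (nat_lit 352)) (XT.lf (nat_lit 0) (nat_lit 3909952705) (nat_lit 152) (nat_lit 176507021737) (nat_lit 0) (nat_lit 2834196494) (nat_lit 2) (nat_lit 5) (nat_lit 4) (nat_lit 4) (nat_lit 2) (nat_lit 4) (nat_lit 476) (nat_lit 373) (nat_lit 351)))) (XT.nd (nat_lit 156) (nat_lit 0) (nat_lit 0) (XT.nd (nat_lit 78) (nat_lit 0) (nat_lit 0) (XT.lf (nat_lit 0) (nat_lit 15266616417) (nat_lit 152) (nat_lit 167914254159) (nat_lit 0) (nat_lit 14172898994) (nat_lit 2) (nat_lit 5) (nat_lit 4) (nat_lit 4) (nat_lit 2) (nat_lit 4) (nat_lit 477) (nat_lit 373) (nat_lit 350)) (XT.lf (nat_lit 0) (nat_lit 27315774749) (nat_lit 152) (nat_lit 159074177252)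 (nat_lit 0) (nat_lit 26205426574) (nat_lit 2) (nat_lit 5) (nat_lit 4) (nat_lit 4) (nat_lit 2) (nat_lit 4) (nat_lit 478) (nat_lit 373) (nat_lit 349))) (XT.nd (nat_lit 78) (nat_lit 0) (nat_lit 0) (XT.lf (nat_lit 0) (nat_lit 40128830121) (nat_lit 152) (nat_lit 149934405375) (nat_lit 0) (nat_lit 39003083101) (nat_lit 2) (nat_lit 5) (nat_lit 4) (nat_lit 4) (nat_lit 2) (nat_lit 4) (nat_lit 479) (nat_lit 373) (nat_lit 348)) (XT.lf (nat_lit 0) (nat_lit 53781711750) (nat_lit 152) (nat_lit 140440776917) (nat_lit 0) (nat_lit 52641706540) (nat_lit 2) (nat_lit 5) (nat_lit 4) (nat_lit 4) (nat_lit 2) (nat_lit 4) (nat_lit 480) (nat_lit 373) (nat_lit 347))))))))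
noncomputable def xc11 : XT := (XT.nd (nat_lit 60684) (nat_lit 0) (nat_lit 76) (XT.nd (nat_lit 1170) (nat_lit 0) (nat_lit 0) (XT.nd (nat_lit 546) (nat_lit 76) (nat_lit 0) (XT.nd (nat_lit 234) (nat_lit 0) (nat_lit 0) (XT.nd (nat_lit 78) (nat_lit 0) (nat_lit 0) (XT.lf (nat_lit 0) (nat_lit 68355325601) (nat_lit 152) (nat_lit 130537033340) (nat_lit 0) (nat_lit 67202118364) (nat_lit 2) (nat_lit 5) (nat_lit 4) (nat_lit 4) (nat_lit 2) (nat_lit 4) (nat_lit 481) (nat_lit 373) (nat_lit 346)) (XT.nd (nat_lit 78) (nat_lit 0) (nat_lit 0) (XT.lf (nat_lit 0) (nat_lit 83936033830) (nat_lit 152) (nat_lit 120164485791) (nat_lit 0) (nat_lit 82770602493) (nat_lit 2) (nat_lit 5) (nat_lit 4) (nat_lit 4) (nat_lit 2) (nat_lit 4) (nat_lit 482) (nat_lit 373) (nat_lit 345)) (XT.lf (nat_lit 0) (nat_lit 100616166560) (nat_lit 152) (nat_lit 109261667324) (nat_lit 0) (nat_lit 99439416612) (nat_lit 2) (nat_lit 5) (nat_lit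 4) (nat_lit 4) (nat_lit 2) (nat_lit 4) (nat_lit 483) (nat_lit 373) (nat_lit 344)))) (XT.nd (nat_lit 156) (nat_lit 0) (nat_lit 0) (XT.nd (nat_lit 78) (nat_lit 0) (nat_lit 0) (XT.lf (nat_lit 0) (nat_lit 118494569022) (nat_lit 152) (nat_lit 97763968642) (nat_lit 0) (nat_lit 117307338879) (nat_lit 2) (nat_lit 5) (nat_lit 4) (nat_lit 4) (nat_lit 2) (nat_lit 4) (nat_lit 484) (nat_lit 373) (nat_lit 343)) (XT.lf (nat_lit 0) (nat_lit 137677187304) (nat_lit 152) (nat_lit 85603255237) (nat_lit 0) (nat_lit 136480253277) (nat_lit 2) (nat_lit 5) (nat_lit 4) (nat_lit 4) (nat_lit 2) (nat_lit 4) (nat_lit 485) (nat_lit 373) (nat_lit 342))) (XT.nd (nat_lit 78) (nat_lit 0) (nat_lit 0) (XT.lf (nat_lit 0) (nat_lit 158277696182) (nat_lit 152) (nat_lit 72707463620) (nat_lit 0) (nat_lit 157071777078) (nat_lit 2) (nat_lit 5) (nat_lit 4) (nat_lit 4) (nat_lit 2) (nat_lit 4) (nat_lit 486) (nat_lit 373) (nat_lit 341)) (XT.lf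 (nat_lit 0) (nat_lit 180418172746) (nat_lit 152) (nat_lit 59000174285) (nat_lit 0) (nat_lit 179203934124) (nat_lit 2) (nat_lit 5) (nat_lit 4) (nat_lit 4) (nat_lit 2) (nat_lit 4) (nat_lit 487) (nat_lit 373) (nat_lit 340))))) (XT.nd (nat_lit 312) (nat_lit 0) (nat_lit 0) (XT.nd (nat_lit 156) (nat_lit 76) (nat_lit 0) (XT.nd (nat_lit 78) (nat_lit 0) (nat_lit 0) (XT.lf (nat_lit 0) (nat_lit 204229819818) (nat_lit 152) (nat_lit 44400158853) (nat_lit 0) (nat_lit 203007877941) (nat_lit 2) (nat_lit 5) (nat_lit 4) (nat_lit 4) (nat_lit 2) (nat_lit 4) (nat_lit 488) (nat_lit 373) (nat_lit 339)) (XT.lf (nat_lit 0) (nat_lit 229853743457) (nat_lit 152) (nat_lit 28820898712) (nat_lit 0) (nat_lit 228624668935) (nat_lit 2) (nat_lit 5) (nat_lit 4) (nat_lit 4) (nat_lit 2) (nat_lit 4) (nat_lit 489) (nat_lit 373) (nat_lit 338))) (XT.nd (nat_lit 78) (nat_lit 76) (nat_lit 0) (XT.lf (nat_lit 0) (nat_lit 257441789136) (nat_lit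 152) (nat_lit 12170072321) (nat_lit 0) (nat_lit 256206110313) (nat_lit 2) (nat_lit 5) (nat_lit 4) (nat_lit 4) (nat_lit 2) (nat_lit 4) (nat_lit 490) (nat_lit 373) (nat_lit 337)) (XT.lf (nat_lit 0) (nat_lit 5837839196) (nat_lit 76) (nat_lit 281410747403) (nat_lit 76) (nat_lit 280168953487) (nat_lit 1) (nat_lit 4) (nat_lit 2) (nat_lit 5) (nat_lit 2) (nat_lit 4) (nat_lit 491) (nat_lit 373) (nat_lit 336)))) (XT.nd (nat_lit 156) (nat_lit 0) (nat_lit 0) (XT.nd (nat_lit 78) (nat_lit 0) (nat_lit 0) (XT.lf (nat_lit 0) (nat_lit 25566177554) (nat_lit 76) (nat_lit 294009775638) (nat_lit 76) (nat_lit 292762319598) (nat_lit 1) (nat_lit 4) (nat_lit 2) (nat_lit 5) (nat_lit 2) (nat_lit 4) (nat_lit 492) (nat_lit 373) (nat_lit 335)) (XT.lf (nat_lit 0) (nat_lit 46729453873) (nat_lit 76) (nat_lit 307689713133) (nat_lit 76) (nat_lit 306437014387) (nat_lit 1) (nat_lit 4) (nat_lit 2) (nat_lit 5) (nat_lit 2) (nat_lit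 4) (nat_lit 493) (nat_lit 373) (nat_lit 334))) (XT.nd (nat_lit 78) (nat_lit 0) (nat_lit 0) (XT.lf (nat_lit 0) (nat_lit 69453080160) (nat_lit 76) (nat_lit 322531626184) (nat_lit 76) (nat_lit 321274073080) (nat_lit 1) (nat_lit 4) (nat_lit 2) (nat_lit 5) (nat_lit 2) (nat_lit 4) (nat_lit 494) (nat_lit 373) (nat_lit 333)) (XT.lf (nat_lit 0) (nat_lit 93871714942) (nat_lit 76) (nat_lit 338623466869) (nat_lit 76) (nat_lit 337361418989) (nat_lit 1) (nat_lit 4) (nat_lit 2) (nat_lit 5) (nat_lit 2) (nat_lit 4) (nat_lit 495) (nat_lit 373) (nat_lit 332)))))) (XT.nd (nat_lit 546) (nat_lit 0) (nat_lit 0) (XT.nd (nat_lit 234) (nat_lit 0) (nat_lit 0) (XT.nd (nat_lit 78) (nat_lit 0) (nat_lit 0) (XT.lf (nat_lit 0) (nat_lit 120130061238) (nat_lit 76) (nat_lit 356060594244) (nat_lit 76) (nat_lit 354794384534) (nat_lit 1) (nat_lit 4) (nat_lit 2) (nat_lit 5) (nat_lit 2) (nat_lit 4) (nat_lit 496) (nat_lit 373) (nat_lit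 331)) (XT.nd (nat_lit 78) (nat_lit 0) (nat_lit 0) (XT.lf (nat_lit 0) (nat_lit 148383724066) (nat_lit 76) (nat_lit 374946339433) (nat_lit 76) (nat_lit 373676276178) (nat_lit 1) (nat_lit 4) (nat_lit 2) (nat_lit 5) (nat_lit 2) (nat_lit 4) (nat_lit 497) (nat_lit 373) (nat_lit 330)) (XT.lf (nat_lit 0) (nat_lit 178800132536) (nat_lit 76) (nat_lit 395392617965) (nat_lit 76) (nat_lit 394118986611) (nat_lit 1) (nat_lit 4) (nat_lit 2) (nat_lit 5) (nat_lit 2) (nat_lit 4) (nat_lit 498) (nat_lit 373) (nat_lit 329)))) (XT.nd (nat_lit 156) (nat_lit 0) (nat_lit 0) (XT.nd (nat_lit 78) (nat_lit 0) (nat_lit 0) (XT.lf (nat_lit 0) (nat_lit 211559532034) (nat_lit 76) (nat_lit 417520592970) (nat_lit 76) (nat_lit 416243657822) (nat_lit 1) (nat_lit 4) (nat_lit 2) (nat_lit 5) (nat_lit 2) (nat_lit 4) (nat_lit 499) (nat_lit 373) (nat_lit 328)) (XT.lf (nat_lit 0) (nat_lit 246856052334) (nat_lit 76) (nat_lit 441461393190)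 (nat_lit 76) (nat_lit 440181398973) (nat_lit 1) (nat_lit 4) (nat_lit 2) (nat_lit 5) (nat_lit 2) (nat_lit 4) (nat_lit 500) (nat_lit 373) (nat_lit 327))) (XT.nd (nat_lit 78) (nat_lit 0) (nat_lit 0) (XT.lf (nat_lit 0) (nat_lit 284898858000) (nat_lit 76) (nat_lit 467356890033) (nat_lit 76) (nat_lit 466074063345) (nat_lit 1) (nat_lit 4) (nat_lit 2) (nat_lit 5) (nat_lit 2) (nat_lit 4) (nat_lit 501) (nat_lit 373) (nat_lit 326)) (XT.lf (nat_lit 0) (nat_lit 325913387881) (nat_lit 76) (nat_lit 495360538296) (nat_lit 76) (nat_lit 494075088949) (nat_lit 1) (nat_lit 4) (nat_lit 2) (nat_lit 5) (nat_lit 2) (nat_lit 4) (nat_lit 502) (nat_lit 373) (nat_lit 325))))) (XT.nd (nat_lit 58656) (nat_lit 0) (nat_lit 760) (XT.nd (nat_lit 58500) (nat_lit 0) (nat_lit 1140) (XT.nd (nat_lit 78) (nat_lit 0) (nat_lit 0) (XT.lf (nat_lit 0) (nat_lit 370142691043) (nat_lit 76) (nat_lit 525638285524) (nat_lit 76) (nat_lit 524350407789)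 (nat_lit 1) (nat_lit 4) (nat_lit 2) (nat_lit 5) (nat_lit 2) (nat_lit 4) (nat_lit 503) (nat_lit 373) (nat_lit 324)) (XT.lf (nat_lit 0) (nat_lit 417848867060) (nat_lit 76) (nat_lit 558369555404) (nat_lit 76) (nat_lit 557079429162) (nat_lit 1) (nat_lit 4) (nat_lit 2) (nat_lit 5) (nat_lit 2) (nat_lit 4) (nat_lit 504) (nat_lit 373) (nat_lit 323))) (XT.nd (nat_lit 78) (nat_lit 76) (nat_lit 0) (XT.lf (nat_lit 0) (nat_lit 4335350228) (nat_lit 152) (nat_lit 9612700269) (nat_lit 0) (nat_lit 4335350228) (nat_lit 17) (nat_lit 5) (nat_lit 19) (nat_lit 4) (nat_lit 17) (nat_lit 4) (nat_lit 452) (nat_lit 374) (nat_lit 374)) (XT.lf (nat_lit 0) (nat_lit 12087231469) (nat_lit 76) (nat_lit 13363908060) (nat_lit 76) (nat_lit 13229313185) (nat_lit 16) (nat_lit 4) (nat_lit 17) (nat_lit 5) (nat_lit 17) (nat_lit 4) (nat_lit 453) (nat_lit 374) (nat_lit 373)))) (XT.nd (nat_lit 156) (nat_lit 228) (nat_lit 0) (XT.nd (nat_lit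 78) (nat_lit 0) (nat_lit 0) (XT.lf (nat_lit 0) (nat_lit 2140658303) (nat_lit 152) (nat_lit 36946051143) (nat_lit 0) (nat_lit 1893782342) (nat_lit 14) (nat_lit 5) (nat_lit 16) (nat_lit 4) (nat_lit 14) (nat_lit 4) (nat_lit 454) (nat_lit 374) (nat_lit 372)) (XT.lf (nat_lit 0) (nat_lit 18181508924) (nat_lit 152) (nat_lit 7452211962) (nat_lit 0) (nat_lit 17824734476) (nat_lit 14) (nat_lit 5) (nat_lit 16) (nat_lit 4) (nat_lit 14) (nat_lit 4) (nat_lit 455) (nat_lit 374) (nat_lit 371))) (XT.nd (nat_lit 78) (nat_lit 152) (nat_lit 0) (XT.lf (nat_lit 0) (nat_lit 23661423297) (nat_lit 76) (nat_lit 11475111538) (nat_lit 76) (nat_lit 11016579232) (nat_lit 13) (nat_lit 4) (nat_lit 14) (nat_lit 5) (nat_lit 14) (nat_lit 4) (nat_lit 456) (nat_lit 374) (nat_lit 370)) (XT.lf (nat_lit 0) (nat_lit 3823709649) (nat_lit 152) (nat_lit 41959965991) (nat_lit 0) (nat_lit 3297278653) (nat_lit 11) (nat_lit 5) (nat_lit 13)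 (nat_lit 4) (nat_lit 11) (nat_lit 4) (nat_lit 457) (nat_lit 374) (nat_lit 369))))))) (XT.nd (nat_lit 1170) (nat_lit 152) (nat_lit 0) (XT.nd (nat_lit 546) (nat_lit 228) (nat_lit 0) (XT.nd (nat_lit 234) (nat_lit 228) (nat_lit 0) (XT.nd (nat_lit 78) (nat_lit 76) (nat_lit 0) (XT.lf (nat_lit 0) (nat_lit 19364775556) (nat_lit 152) (nat_lit 14118984990) (nat_lit 0) (nat_lit 18755257930) (nat_lit 11) (nat_lit 5) (nat_lit 13) (nat_lit 4) (nat_lit 11) (nat_lit 4) (nat_lit 458) (nat_lit 374) (nat_lit 368)) (XT.nd (nat_lit 78) (nat_lit 0) (nat_lit 0) (XT.lf (nat_lit 0) (nat_lit 15122423784) (nat_lit 76) (nat_lit 20617117768) (nat_lit 76) (nat_lit 19930668076) (nat_lit 10) (nat_lit 4) (nat_lit 11) (nat_lit 5) (nat_lit 11) (nat_lit 4) (nat_lit 459) (nat_lit 374) (nat_lit 367)) (XT.lf (nat_lit 0) (nat_lit 45953435450) (nat_lit 76) (nat_lit 7099360372) (nat_lit 76) (nat_lit 6341677287) (nat_lit 10) (nat_lit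 4) (nat_lit 11) (nat_lit 5) (nat_lit 11) (nat_lit 4) (nat_lit 460) (nat_lit 374) (nat_lit 366)))) (XT.nd (nat_lit 156) (nat_lit 76) (nat_lit 0) (XT.nd (nat_lit 78) (nat_lit 0) (nat_lit 0) (XT.lf (nat_lit 0) (nat_lit 7834572598) (nat_lit 152) (nat_lit 48537102678) (nat_lit 0) (nat_lit 7050153615) (nat_lit 8) (nat_lit 5) (nat_lit 10) (nat_lit 4) (nat_lit 8) (nat_lit 4) (nat_lit 461) (nat_lit 374) (nat_lit 365)) (XT.lf (nat_lit 0) (nat_lit 22718783363) (nat_lit 152) (nat_lit 23181390129) (nat_lit 0) (nat_lit 21876201377) (nat_lit 8) (nat_lit 5) (nat_lit 10) (nat_lit 4) (nat_lit 8) (nat_lit 4) (nat_lit 462) (nat_lit 374) (nat_lit 364))) (XT.nd (nat_lit 78) (nat_lit 0) (nat_lit 0) (XT.lf (nat_lit 0) (nat_lit 3243851727) (nat_lit 76) (nat_lit 35077739115) (nat_lit 76) (nat_lit 34181302495) (nat_lit 7) (nat_lit 4) (nat_lit 8) (nat_lit 5) (nat_lit 8) (nat_lit 4) (nat_lit 463) (nat_lit 374) (nat_lit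 363)) (XT.lf (nat_lit 0) (nat_lit 31594347560) (nat_lit 76) (nat_lit 23482147892) (nat_lit 76) (nat_lit 22535845872) (nat_lit 7) (nat_lit 4) (nat_lit 8) (nat_lit 5) (nat_lit 8) (nat_lit 4) (nat_lit 464) (nat_lit 374) (nat_lit 362))))) (XT.nd (nat_lit 312) (nat_lit 76) (nat_lit 0) (XT.nd (nat_lit 156) (nat_lit 0) (nat_lit 0) (XT.nd (nat_lit 78) (nat_lit 152) (nat_lit 0) (XT.lf (nat_lit 0) (nat_lit 61271618859) (nat_lit 76) (nat_lit 11437273270) (nat_lit 76) (nat_lit 10444799582) (nat_lit 7) (nat_lit 4) (nat_lit 8) (nat_lit 5) (nat_lit 8) (nat_lit 4) (nat_lit 465) (nat_lit 374) (nat_lit 361)) (XT.lf (nat_lit 0) (nat_lit 2165820346) (nat_lit 152) (nat_lit 85808802404) (nat_lit 0) (nat_lit 1179891554) (nat_lit 5) (nat_lit 5) (nat_lit 7) (nat_lit 4) (nat_lit 5) (nat_lit 4) (nat_lit 466) (nat_lit 374) (nat_lit 360))) (XT.nd (nat_lit 78) (nat_lit 0) (nat_lit 0) (XT.lf (nat_lit 0) (nat_lit 15581193492)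 (nat_lit 152) (nat_lit 65479992312) (nat_lit 0) (nat_lit 14557564925) (nat_lit 5) (nat_lit 5) (nat_lit 7) (nat_lit 4) (nat_lit 5) (nat_lit 4) (nat_lit 467) (nat_lit 374) (nat_lit 359)) (XT.lf (nat_lit 0) (nat_lit 29677826784) (nat_lit 152) (nat_lit 44322607920) (nat_lit 0) (nat_lit 28619291018) (nat_lit 5) (nat_lit 5) (nat_lit 7) (nat_lit 4) (nat_lit 5) (nat_lit 4) (nat_lit 468) (nat_lit 374) (nat_lit 358)))) (XT.nd (nat_lit 156) (nat_lit 0) (nat_lit 0) (XT.nd (nat_lit 78) (nat_lit 76) (nat_lit 0) (XT.lf (nat_lit 0) (nat_lit 44539255826) (nat_lit 152) (nat_lit 22211272136) (nat_lit 0) (nat_lit 43448398581) (nat_lit 5) (nat_lit 5) (nat_lit 7) (nat_lit 4) (nat_lit 5) (nat_lit 4) (nat_lit 469) (nat_lit 374) (nat_lit 357)) (XT.lf (nat_lit 0) (nat_lit 1017615219) (nat_lit 76) (nat_lit 59251820952) (nat_lit 76) (nat_lit 58131036411) (nat_lit 4) (nat_lit 4) (nat_lit 5) (nat_lit 5) (nat_lit 5) (nat_lit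 4) (nat_lit 470) (nat_lit 374) (nat_lit 356))) (XT.nd (nat_lit 78) (nat_lit 0) (nat_lit 0) (XT.lf (nat_lit 0) (nat_lit 26243768157) (nat_lit 76) (nat_lit 51079796691) (nat_lit 76) (nat_lit 49931301690) (nat_lit 4) (nat_lit 4) (nat_lit 5) (nat_lit 5) (nat_lit 5) (nat_lit 4) (nat_lit 471) (nat_lit 374) (nat_lit 355)) (XT.lf (nat_lit 0) (nat_lit 52882270022) (nat_lit 76) (nat_lit 42562187009) (nat_lit 76) (nat_lit 41388034175) (nat_lit 4) (nat_lit 4) (nat_lit 5) (nat_lit 5) (nat_lit 5) (nat_lit 4) (nat_lit 472) (nat_lit 374) (nat_lit 354)))))) (XT.nd (nat_lit 546) (nat_lit 0) (nat_lit 0) (XT.nd (nat_lit 234) (nat_lit 152) (nat_lit 0) (XT.nd (nat_lit 78) (nat_lit 0) (nat_lit 0) (XT.lf (nat_lit 0) (nat_lit 81090978606) (nat_lit 76) (nat_lit 33648517184) (nat_lit 76) (nat_lit 32450607097) (nat_lit 4) (nat_lit 4) (nat_lit 5) (nat_lit 5) (nat_lit 5) (nat_lit 4) (nat_lit 473) (nat_lit 374) (nat_lit 353))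 (XT.nd (nat_lit 78) (nat_lit 0) (nat_lit 0) (XT.lf (nat_lit 0) (nat_lit 111037056624) (nat_lit 76) (nat_lit 24285965467) (nat_lit 76) (nat_lit 23066057923) (nat_lit 4) (nat_lit 4) (nat_lit 5) (nat_lit 5) (nat_lit 5) (nat_lit 4) (nat_lit 474) (nat_lit 374) (nat_lit 352)) (XT.lf (nat_lit 0) (nat_lit 142897962317) (nat_lit 76) (nat_lit 14419050070) (nat_lit 76) (nat_lit 13178774512) (nat_lit 4) (nat_lit 4) (nat_lit 5) (nat_lit 5) (nat_lit 5) (nat_lit 4) (nat_lit 475) (nat_lit 374) (nat_lit 351)))) (XT.nd (nat_lit 156) (nat_lit 0) (nat_lit 0) (XT.nd (nat_lit 78) (nat_lit 152) (nat_lit 0) (XT.lf (nat_lit 0) (nat_lit 176862501052) (nat_lit 76) (nat_lit 3989300385) (nat_lit 76) (nat_lit 2730165553) (nat_lit 4) (nat_lit 4) (nat_lit 5) (nat_lit 5) (nat_lit 5) (nat_lit 4) (nat_lit 476) (nat_lit 374) (nat_lit 350)) (XT.lf (nat_lit 0) (nat_lit 8437576515) (nat_lit 152) (nat_lit 182041166119) (nat_lit 0)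 (nat_lit 7221769733) (nat_lit 2) (nat_lit 5) (nat_lit 4) (nat_lit 4) (nat_lit 2) (nat_lit 4) (nat_lit 477) (nat_lit 374) (nat_lit 349))) (XT.nd (nat_lit 78) (nat_lit 0) (nat_lit 0) (XT.lf (nat_lit 0) (nat_lit 20390563873) (nat_lit 152) (nat_lit 173397008050) (nat_lit 0) (nat_lit 19159358246) (nat_lit 2) (nat_lit 5) (nat_lit 4) (nat_lit 4) (nat_lit 2) (nat_lit 4) (nat_lit 478) (nat_lit 374) (nat_lit 348)) (XT.lf (nat_lit 0) (nat_lit 33114572047) (nat_lit 152) (nat_lit 164438642504) (nat_lit 0) (nat_lit 31869108230) (nat_lit 2) (nat_lit 5) (nat_lit 4) (nat_lit 4) (nat_lit 2) (nat_lit 4) (nat_lit 479) (nat_lit 374) (nat_lit 347))))) (XT.nd (nat_lit 312) (nat_lit 0) (nat_lit 0) (XT.nd (nat_lit 156) (nat_lit 0) (nat_lit 0) (XT.nd (nat_lit 78) (nat_lit 0) (nat_lit 0) (XT.lf (nat_lit 0) (nat_lit 46685002566) (nat_lit 152) (nat_lit 155112982872) (nat_lit 0) (nat_lit 45426336722) (nat_lit 2) (nat_lit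 5) (nat_lit 4) (nat_lit 4) (nat_lit 2) (nat_lit 4) (nat_lit 480) (nat_lit 374) (nat_lit 346)) (XT.lf (nat_lit 0) (nat_lit 61182272796) (nat_lit 152) (nat_lit 145364765985) (nat_lit 0) (nat_lit 59911382853) (nat_lit 2) (nat_lit 5) (nat_lit 4) (nat_lit 4) (nat_lit 2) (nat_lit 4) (nat_lit 481) (nat_lit 374) (nat_lit 345))) (XT.nd (nat_lit 78) (nat_lit 0) (nat_lit 0) (XT.lf (nat_lit 0) (nat_lit 76692292488) (nat_lit 152) (nat_lit 135136224631) (nat_lit 0) (nat_lit 75410083934) (nat_lit 2) (nat_lit 5) (nat_lit 4) (nat_lit 4) (nat_lit 2) (nat_lit 4) (nat_lit 482) (nat_lit 374) (nat_lit 344)) (XT.lf (nat_lit 0) (nat_lit 93306972869) (nat_lit 152) (nat_lit 124366745233) (nat_lit 0) (nat_lit 92014284120) (nat_lit 2) (nat_lit 5) (nat_lit 4) (nat_lit 4) (nat_lit 2) (nat_lit 4) (nat_lit 483) (nat_lit 374) (nat_lit 343)))) (XT.nd (nat_lit 156) (nat_lit 0) (nat_lit 0) (XT.nd (nat_lit 78) (nat_lit 0) (nat_lit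 0) (XT.lf (nat_lit 0) (nat_lit 111124771303) (nat_lit 152) (nat_lit 112992508652) (nat_lit 0) (nat_lit 109822378670) (nat_lit 2) (nat_lit 5) (nat_lit 4) (nat_lit 4) (nat_lit 2) (nat_lit 4) (nat_lit 484) (nat_lit 374) (nat_lit 342)) (XT.lf (nat_lit 0) (nat_lit 130251274746) (nat_lit 152) (nat_lit 100946112007) (nat_lit 0) (nat_lit 128939897035) (nat_lit 2) (nat_lit 5) (nat_lit 4) (nat_lit 4) (nat_lit 2) (nat_lit 4) (nat_lit 485) (nat_lit 374) (nat_lit 341))) (XT.nd (nat_lit 78) (nat_lit 0) (nat_lit 0) (XT.lf (nat_lit 0) (nat_lit 150799825439) (nat_lit 152) (nat_lit 88156169242) (nat_lit 0) (nat_lit 149480128211) (nat_lit 2) (nat_lit 5) (nat_lit 4) (nat_lit 4) (nat_lit 2) (nat_lit 4) (nat_lit 486) (nat_lit 374) (nat_lit 340)) (XT.lf (nat_lit 0) (nat_lit 172892192572) (nat_lit 152) (nat_lit 74546888104) (nat_lit 0) (nat_lit 171564792088) (nat_lit 2) (nat_lit 5) (nat_lit 4) (nat_lit 4) (nat_lit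 2) (nat_lit 4) (nat_lit 487) (nat_lit 374) (nat_lit 339))))))))
noncomputable def xc12 : XT := (XT.nd (nat_lit 60450) (nat_lit 0) (nat_lit 76) (XT.nd (nat_lit 1092) (nat_lit 0) (nat_lit 0) (XT.nd (nat_lit 546) (nat_lit 0) (nat_lit 0) (XT.nd (nat_lit 234) (nat_lit 76) (nat_lit 0) (XT.nd (nat_lit 78) (nat_lit 0) (nat_lit 0) (XT.lf (nat_lit 0) (nat_lit 196659293876) (nat_lit 152) (nat_lit 60037621001) (nat_lit 0) (nat_lit 195324760747) (nat_lit 2) (nat_lit 5) (nat_lit 4) (nat_lit 4) (nat_lit 2) (nat_lit 4) (nat_lit 488) (nat_lit 374) (nat_lit 338)) (XT.nd (nat_lit 78) (nat_lit 0) (nat_lit 0) (XT.lf (nat_lit 0) (nat_lit 222241971432) (nat_lit 152) (nat_lit 44542387091) (nat_lit 0) (nat_lit 220900834003) (nat_lit 2) (nat_lit 5) (nat_lit 4) (nat_lit 4) (nat_lit 2) (nat_lit 4) (nat_lit 489) (nat_lit 374) (nat_lit 337)) (XT.lf (nat_lit 0) (nat_lit 249791826293) (nat_lit 152) (nat_lit 27969362766) (nat_lit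 0) (nat_lit 248444573771) (nat_lit 2) (nat_lit 5) (nat_lit 4) (nat_lit 4) (nat_lit 2) (nat_lit 4) (nat_lit 490) (nat_lit 374) (nat_lit 336)))) (XT.nd (nat_lit 156) (nat_lit 0) (nat_lit 0) (XT.nd (nat_lit 78) (nat_lit 76) (nat_lit 0) (XT.lf (nat_lit 0) (nat_lit 279472116858) (nat_lit 152) (nat_lit 10220337511) (nat_lit 0) (nat_lit 278119202213) (nat_lit 2) (nat_lit 5) (nat_lit 4) (nat_lit 4) (nat_lit 2) (nat_lit 4) (nat_lit 491) (nat_lit 374) (nat_lit 335)) (XT.lf (nat_lit 0) (nat_lit 9101162106) (nat_lit 76) (nat_lit 302499658871) (nat_lit 76) (nat_lit 301141501518) (nat_lit 1) (nat_lit 4) (nat_lit 2) (nat_lit 5) (nat_lit 2) (nat_lit 4) (nat_lit 492) (nat_lit 374) (nat_lit 334))) (XT.nd (nat_lit 78) (nat_lit 0) (nat_lit 0) (XT.lf (nat_lit 0) (nat_lit 30200634513) (nat_lit 76) (nat_lit 316212087018) (nat_lit 76) (nat_lit 314849075307) (nat_lit 1) (nat_lit 4) (nat_lit 2) (nat_lit 5) (nat_lit 2)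 (nat_lit 4) (nat_lit 493) (nat_lit 374) (nat_lit 333)) (XT.lf (nat_lit 0) (nat_lit 52865183104) (nat_lit 76) (nat_lit 331084084006) (nat_lit 76) (nat_lit 329716577520) (nat_lit 1) (nat_lit 4) (nat_lit 2) (nat_lit 5) (nat_lit 2) (nat_lit 4) (nat_lit 494) (nat_lit 374) (nat_lit 332))))) (XT.nd (nat_lit 234) (nat_lit 0) (nat_lit 0) (XT.nd (nat_lit 78) (nat_lit 0) (nat_lit 0) (XT.lf (nat_lit 0) (nat_lit 77229116315) (nat_lit 76) (nat_lit 347203780189) (nat_lit 76) (nat_lit 345832111873) (nat_lit 1) (nat_lit 4) (nat_lit 2) (nat_lit 5) (nat_lit 2) (nat_lit 4) (nat_lit 495) (nat_lit 374) (nat_lit 331)) (XT.nd (nat_lit 78) (nat_lit 0) (nat_lit 0) (XT.lf (nat_lit 0) (nat_lit 103436813009) (nat_lit 76) (nat_lit 364666699691) (nat_lit 76) (nat_lit 363291177829) (nat_lit 1) (nat_lit 4) (nat_lit 2) (nat_lit 5) (nat_lit 2) (nat_lit 4) (nat_lit 496) (nat_lit 374) (nat_lit 330)) (XT.lf (nat_lit 0) (nat_lit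 131643578056) (nat_lit 76) (nat_lit 383576326480) (nat_lit 76) (nat_lit 382197236520) (nat_lit 1) (nat_lit 4) (nat_lit 2) (nat_lit 5) (nat_lit 2) (nat_lit 4) (nat_lit 497) (nat_lit 374) (nat_lit 329)))) (XT.nd (nat_lit 156) (nat_lit 0) (nat_lit 0) (XT.nd (nat_lit 78) (nat_lit 0) (nat_lit 0) (XT.lf (nat_lit 0) (nat_lit 162016562656) (nat_lit 76) (nat_lit 404044717603) (nat_lit 76) (nat_lit 402662323849) (nat_lit 1) (nat_lit 4) (nat_lit 2) (nat_lit 5) (nat_lit 2) (nat_lit 4) (nat_lit 498) (nat_lit 374) (nat_lit 328)) (XT.lf (nat_lit 0) (nat_lit 194735754866) (nat_lit 76) (nat_lit 426193167231) (nat_lit 76) (nat_lit 424807714407) (nat_lit 1) (nat_lit 4) (nat_lit 2) (nat_lit 5) (nat_lit 2) (nat_lit 4) (nat_lit 499) (nat_lit 374) (nat_lit 327))) (XT.nd (nat_lit 78) (nat_lit 0) (nat_lit 0) (XT.lf (nat_lit 0) (nat_lit 229995046196) (nat_lit 76) (nat_lit 450152925435) (nat_lit 76) (nat_lit 448764640140)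 (nat_lit 1) (nat_lit 4) (nat_lit 2) (nat_lit 5) (nat_lit 2) (nat_lit 4) (nat_lit 500) (nat_lit 374) (nat_lit 326)) (XT.lf (nat_lit 0) (nat_lit 268003380594) (nat_lit 76) (nat_lit 476065975967) (nat_lit 76) (nat_lit 474675068013) (nat_lit 1) (nat_lit 4) (nat_lit 2) (nat_lit 5) (nat_lit 2) (nat_lit 4) (nat_lit 501) (nat_lit 374) (nat_lit 325)))))) (XT.nd (nat_lit 58734) (nat_lit 0) (nat_lit 532) (XT.nd (nat_lit 58422) (nat_lit 0) (nat_lit 1140) (XT.nd (nat_lit 78) (nat_lit 0) (nat_lit 0) (XT.lf (nat_lit 0) (nat_lit 308985992634) (nat_lit 76) (nat_lit 504085877645) (nat_lit 76) (nat_lit 502692541304) (nat_lit 1) (nat_lit 4) (nat_lit 2) (nat_lit 5) (nat_lit 2) (nat_lit 4) (nat_lit 502) (nat_lit 374) (nat_lit 324)) (XT.nd (nat_lit 78) (nat_lit 0) (nat_lit 0) (XT.lf (nat_lit 0) (nat_lit 353185742239) (nat_lit 76) (nat_lit 534378674331) (nat_lit 76) (nat_lit 532983089483) (nat_lit 1) (nat_lit 4) (nat_lit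 2) (nat_lit 5) (nat_lit 2) (nat_lit 4) (nat_lit 503) (nat_lit 374) (nat_lit 323)) (XT.lf (nat_lit 0) (nat_lit 400864553852) (nat_lit 76) (nat_lit 567123878895) (nat_lit 76) (nat_lit 565726212096) (nat_lit 1) (nat_lit 4) (nat_lit 2) (nat_lit 5) (nat_lit 2) (nat_lit 4) (nat_lit 504) (nat_lit 374) (nat_lit 322)))) (XT.nd (nat_lit 156) (nat_lit 228) (nat_lit 0) (XT.nd (nat_lit 78) (nat_lit 76) (nat_lit 0) (XT.lf (nat_lit 0) (nat_lit 5335755486) (nat_lit 152) (nat_lit 5726365043) (nat_lit 0) (nat_lit 5335755486) (nat_lit 20) (nat_lit 5) (nat_lit 22) (nat_lit 4) (nat_lit 20) (nat_lit 4) (nat_lit 450) (nat_lit 375) (nat_lit 375)) (XT.lf (nat_lit 0) (nat_lit 20052419466) (nat_lit 76) (nat_lit 7358499922) (nat_lit 76) (nat_lit 7205869334) (nat_lit 19) (nat_lit 4) (nat_lit 20) (nat_lit 5) (nat_lit 20) (nat_lit 4) (nat_lit 451) (nat_lit 375) (nat_lit 374))) (XT.nd (nat_lit 78) (nat_lit 76) (nat_lit 0)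 (XT.lf (nat_lit 0) (nat_lit 8409900138) (nat_lit 152) (nat_lit 20047268820) (nat_lit 0) (nat_lit 8129942798) (nat_lit 17) (nat_lit 5) (nat_lit 19) (nat_lit 4) (nat_lit 17) (nat_lit 4) (nat_lit 452) (nat_lit 375) (nat_lit 373)) (XT.lf (nat_lit 0) (nat_lit 10452037621) (nat_lit 76) (nat_lit 14336694980) (nat_lit 76) (nat_lit 13932112756) (nat_lit 16) (nat_lit 4) (nat_lit 17) (nat_lit 5) (nat_lit 17) (nat_lit 4) (nat_lit 453) (nat_lit 375) (nat_lit 372))))) (XT.nd (nat_lit 312) (nat_lit 228) (nat_lit 0) (XT.nd (nat_lit 156) (nat_lit 228) (nat_lit 0) (XT.nd (nat_lit 78) (nat_lit 0) (nat_lit 0) (XT.lf (nat_lit 0) (nat_lit 1034237012) (nat_lit 152) (nat_lit 39469481483) (nat_lit 0) (nat_lit 539022121) (nat_lit 14) (nat_lit 5) (nat_lit 16) (nat_lit 4) (nat_lit 14) (nat_lit 4) (nat_lit 454) (nat_lit 375) (nat_lit 371)) (XT.lf (nat_lit 0) (nat_lit 16720032880) (nat_lit 152) (nat_lit 10695365557) (nat_lit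 0) (nat_lit 16123060131) (nat_lit 14) (nat_lit 5) (nat_lit 16) (nat_lit 4) (nat_lit 14) (nat_lit 4) (nat_lit 455) (nat_lit 375) (nat_lit 370))) (XT.nd (nat_lit 78) (nat_lit 152) (nat_lit 0) (XT.lf (nat_lit 0) (nat_lit 19622591439) (nat_lit 76) (nat_lit 13660655466) (nat_lit 76) (nat_lit 12969462478) (nat_lit 13) (nat_lit 4) (nat_lit 14) (nat_lit 5) (nat_lit 14) (nat_lit 4) (nat_lit 456) (nat_lit 375) (nat_lit 369)) (XT.lf (nat_lit 0) (nat_lit 1496103941) (nat_lit 152) (nat_lit 46953094577) (nat_lit 0) (nat_lit 754738273) (nat_lit 11) (nat_lit 5) (nat_lit 13) (nat_lit 4) (nat_lit 11) (nat_lit 4) (nat_lit 457) (nat_lit 375) (nat_lit 368)))) (XT.nd (nat_lit 156) (nat_lit 152) (nat_lit 0) (XT.nd (nat_lit 78) (nat_lit 76) (nat_lit 0) (XT.lf (nat_lit 0) (nat_lit 16726742637) (nat_lit 152) (nat_lit 19742336032) (nat_lit 0) (nat_lit 15908444904) (nat_lit 11) (nat_lit 5) (nat_lit 13) (nat_lit 4) (nat_lit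 11) (nat_lit 4) (nat_lit 458) (nat_lit 375) (nat_lit 367)) (XT.lf (nat_lit 0) (nat_lit 8710305606) (nat_lit 76) (nat_lit 24003659290) (nat_lit 76) (nat_lit 23114128164) (nat_lit 10) (nat_lit 4) (nat_lit 11) (nat_lit 5) (nat_lit 11) (nat_lit 4) (nat_lit 459) (nat_lit 375) (nat_lit 366))) (XT.nd (nat_lit 78) (nat_lit 152) (nat_lit 0) (XT.lf (nat_lit 0) (nat_lit 38983137868) (nat_lit 76) (nat_lit 10769225254) (nat_lit 76) (nat_lit 9813737281) (nat_lit 10) (nat_lit 4) (nat_lit 11) (nat_lit 5) (nat_lit 11) (nat_lit 4) (nat_lit 460) (nat_lit 375) (nat_lit 365)) (XT.lf (nat_lit 0) (nat_lit 4027816141) (nat_lit 152) (nat_lit 56530978023) (nat_lit 0) (nat_lit 3059664592) (nat_lit 8) (nat_lit 5) (nat_lit 10) (nat_lit 4) (nat_lit 8) (nat_lit 4) (nat_lit 461) (nat_lit 375) (nat_lit 364))))))) (XT.nd (nat_lit 1170) (nat_lit 152) (nat_lit 0) (XT.nd (nat_lit 546) (nat_lit 76) (nat_lit 0) (XT.nd (nat_lit 234)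 (nat_lit 152) (nat_lit 0) (XT.nd (nat_lit 78) (nat_lit 76) (nat_lit 0) (XT.lf (nat_lit 0) (nat_lit 18660687596) (nat_lit 152) (nat_lit 31686203555) (nat_lit 0) (nat_lit 17638681414) (nat_lit 8) (nat_lit 5) (nat_lit 10) (nat_lit 4) (nat_lit 8) (nat_lit 4) (nat_lit 462) (nat_lit 375) (nat_lit 363)) (XT.nd (nat_lit 78) (nat_lit 76) (nat_lit 0) (XT.lf (nat_lit 0) (nat_lit 33980127875) (nat_lit 152) (nat_lit 5837876028) (nat_lit 0) (nat_lit 32908256292) (nat_lit 8) (nat_lit 5) (nat_lit 10) (nat_lit 4) (nat_lit 8) (nat_lit 4) (nat_lit 463) (nat_lit 375) (nat_lit 362)) (XT.lf (nat_lit 0) (nat_lit 21867062393) (nat_lit 76) (nat_lit 28551262580) (nat_lit 76) (nat_lit 27433219329) (nat_lit 7) (nat_lit 4) (nat_lit 8) (nat_lit 5) (nat_lit 8) (nat_lit 4) (nat_lit 464) (nat_lit 375) (nat_lit 361)))) (XT.nd (nat_lit 156) (nat_lit 152) (nat_lit 0) (XT.nd (nat_lit 78) (nat_lit 0) (nat_lit 0) (XT.lf (nat_lit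 0) (nat_lit 51125323631) (nat_lit 76) (nat_lit 16719334849) (nat_lit 76) (nat_lit 15558540054) (nat_lit 7) (nat_lit 4) (nat_lit 8) (nat_lit 5) (nat_lit 8) (nat_lit 4) (nat_lit 465) (nat_lit 375) (nat_lit 360)) (XT.lf (nat_lit 0) (nat_lit 81917263429) (nat_lit 76) (nat_lit 4350972840) (nat_lit 76) (nat_lit 3150593283) (nat_lit 7) (nat_lit 4) (nat_lit 8) (nat_lit 5) (nat_lit 8) (nat_lit 4) (nat_lit 466) (nat_lit 375) (nat_lit 359))) (XT.nd (nat_lit 78) (nat_lit 0) (nat_lit 0) (XT.lf (nat_lit 0) (nat_lit 9986264176) (nat_lit 152) (nat_lit 77110091210) (nat_lit 0) (nat_lit 8808138351) (nat_lit 5) (nat_lit 5) (nat_lit 7) (nat_lit 4) (nat_lit 5) (nat_lit 4) (nat_lit 467) (nat_lit 375) (nat_lit 358)) (XT.lf (nat_lit 0) (nat_lit 23908409529) (nat_lit 152) (nat_lit 56307821894) (nat_lit 0) (nat_lit 22697962224) (nat_lit 5) (nat_lit 5) (nat_lit 7) (nat_lit 4) (nat_lit 5) (nat_lit 4) (nat_lit 468) (nat_lit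 375) (nat_lit 357))))) (XT.nd (nat_lit 312) (nat_lit 0) (nat_lit 0) (XT.nd (nat_lit 156) (nat_lit 76) (nat_lit 0) (XT.nd (nat_lit 78) (nat_lit 0) (nat_lit 0) (XT.lf (nat_lit 0) (nat_lit 38608275665) (nat_lit 152) (nat_lit 34525296366) (nat_lit 0) (nat_lit 37367901064) (nat_lit 5) (nat_lit 5) (nat_lit 7) (nat_lit 4) (nat_lit 5) (nat_lit 4) (nat_lit 469) (nat_lit 375) (nat_lit 356)) (XT.lf (nat_lit 0) (nat_lit 54172972902) (nat_lit 152) (nat_lit 11633432993) (nat_lit 0) (nat_lit 52904887841) (nat_lit 5) (nat_lit 5) (nat_lit 7) (nat_lit 4) (nat_lit 5) (nat_lit 4) (nat_lit 470) (nat_lit 375) (nat_lit 355))) (XT.nd (nat_lit 78) (nat_lit 0) (nat_lit 0) (XT.lf (nat_lit 0) (nat_lit 12916843367) (nat_lit 76) (nat_lit 57979561239) (nat_lit 76) (nat_lit 56685818346) (nat_lit 4) (nat_lit 4) (nat_lit 5) (nat_lit 5) (nat_lit 5) (nat_lit 4) (nat_lit 471) (nat_lit 375) (nat_lit 354)) (XT.lf (nat_lit 0) (nat_lit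 39285694544) (nat_lit 76) (nat_lit 49599138399) (nat_lit 76) (nat_lit 48281638253) (nat_lit 4) (nat_lit 4) (nat_lit 5) (nat_lit 5) (nat_lit 5) (nat_lit 4) (nat_lit 472) (nat_lit 375) (nat_lit 353)))) (XT.nd (nat_lit 156) (nat_lit 0) (nat_lit 0) (XT.nd (nat_lit 78) (nat_lit 0) (nat_lit 0) (XT.lf (nat_lit 0) (nat_lit 67244726564) (nat_lit 76) (nat_lit 40812493427) (nat_lit 76) (nat_lit 39472995824) (nat_lit 4) (nat_lit 4) (nat_lit 5) (nat_lit 5) (nat_lit 5) (nat_lit 4) (nat_lit 473) (nat_lit 375) (nat_lit 352)) (XT.lf (nat_lit 0) (nat_lit 96959622579) (nat_lit 76) (nat_lit 31567557315) (nat_lit 76) (nat_lit 30207691697) (nat_lit 4) (nat_lit 4) (nat_lit 5) (nat_lit 5) (nat_lit 5) (nat_lit 4) (nat_lit 474) (nat_lit 375) (nat_lit 351))) (XT.nd (nat_lit 78) (nat_lit 0) (nat_lit 0) (XT.lf (nat_lit 0) (nat_lit 128606470862) (nat_lit 76) (nat_lit 21809545256) (nat_lit 76) (nat_lit 20430820365) (nat_lit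 4) (nat_lit 4) (nat_lit 5) (nat_lit 5) (nat_lit 5) (nat_lit 4) (nat_lit 475) (nat_lit 375) (nat_lit 350)) (XT.lf (nat_lit 0) (nat_lit 162372808291) (nat_lit 76) (nat_lit 11480631994) (nat_lit 76) (nat_lit 10084444813) (nat_lit 4) (nat_lit 4) (nat_lit 5) (nat_lit 5) (nat_lit 5) (nat_lit 4) (nat_lit 476) (nat_lit 375) (nat_lit 349)))))) (XT.nd (nat_lit 546) (nat_lit 0) (nat_lit 0) (XT.nd (nat_lit 234) (nat_lit 0) (nat_lit 0) (XT.nd (nat_lit 78) (nat_lit 0) (nat_lit 0) (XT.lf (nat_lit 0) (nat_lit 371076131) (nat_lit 76) (nat_lit 498890746) (nat_lit 152) (nat_lit 197214640556) (nat_lit 2) (nat_lit 5) (nat_lit 3) (nat_lit 5) (nat_lit 4) (nat_lit 4) (nat_lit 477) (nat_lit 375) (nat_lit 348)) (XT.nd (nat_lit 78) (nat_lit 0) (nat_lit 0) (XT.lf (nat_lit 0) (nat_lit 12726117954) (nat_lit 152) (nat_lit 189242990481) (nat_lit 0) (nat_lit 11366758842) (nat_lit 2) (nat_lit 5) (nat_lit 4) (nat_lit 4) (nat_lit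 2) (nat_lit 4) (nat_lit 478) (nat_lit 375) (nat_lit 347)) (XT.lf (nat_lit 0) (nat_lit 25367675018) (nat_lit 152) (nat_lit 180452593761) (nat_lit 0) (nat_lit 23995113879) (nat_lit 2) (nat_lit 5) (nat_lit 4) (nat_lit 4) (nat_lit 2) (nat_lit 4) (nat_lit 479) (nat_lit 375) (nat_lit 346)))) (XT.nd (nat_lit 156) (nat_lit 0) (nat_lit 0) (XT.nd (nat_lit 78) (nat_lit 0) (nat_lit 0) (XT.lf (nat_lit 0) (nat_lit 38861761916) (nat_lit 152) (nat_lit 171282460819) (nat_lit 0) (nat_lit 37476976678) (nat_lit 2) (nat_lit 5) (nat_lit 4) (nat_lit 4) (nat_lit 2) (nat_lit 4) (nat_lit 480) (nat_lit 375) (nat_lit 345)) (XT.lf (nat_lit 0) (nat_lit 53288343610) (nat_lit 152) (nat_lit 161678250126) (nat_lit 0) (nat_lit 51892239761) (nat_lit 2) (nat_lit 5) (nat_lit 4) (nat_lit 4) (nat_lit 2) (nat_lit 4) (nat_lit 481) (nat_lit 375) (nat_lit 344))) (XT.nd (nat_lit 78) (nat_lit 0) (nat_lit 0) (XT.lf (nat_lit 0) (nat_lit 68732910952)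 (nat_lit 152) (nat_lit 151583047841) (nat_lit 0) (nat_lit 67326326909) (nat_lit 2) (nat_lit 5) (nat_lit 4) (nat_lit 4) (nat_lit 2) (nat_lit 4) (nat_lit 482) (nat_lit 375) (nat_lit 343)) (XT.lf (nat_lit 0) (nat_lit 85286987306) (nat_lit 152) (nat_lit 140937030544) (nat_lit 0) (nat_lit 83870699378) (nat_lit 2) (nat_lit 5) (nat_lit 4) (nat_lit 4) (nat_lit 2) (nat_lit 4) (nat_lit 483) (nat_lit 375) (nat_lit 342))))) (XT.nd (nat_lit 312) (nat_lit 0) (nat_lit 0) (XT.nd (nat_lit 156) (nat_lit 0) (nat_lit 0) (XT.nd (nat_lit 78) (nat_lit 0) (nat_lit 0) (XT.lf (nat_lit 0) (nat_lit 103048670901) (nat_lit 152) (nat_lit 129677110724) (nat_lit 0) (nat_lit 101623397895) (nat_lit 2) (nat_lit 5) (nat_lit 4) (nat_lit 4) (nat_lit 2) (nat_lit 4) (nat_lit 484) (nat_lit 375) (nat_lit 341)) (XT.lf (nat_lit 0) (nat_lit 122123216158) (nat_lit 152) (nat_lit 117736562930) (nat_lit 0) (nat_lit 120689623636) (nat_lit 2)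 (nat_lit 5) (nat_lit 4) (nat_lit 4) (nat_lit 2) (nat_lit 4) (nat_lit 485) (nat_lit 375) (nat_lit 340))) (XT.nd (nat_lit 78) (nat_lit 0) (nat_lit 0) (XT.lf (nat_lit 0) (nat_lit 142623657421) (nat_lit 152) (nat_lit 105044628362) (nat_lit 0) (nat_lit 141182361642) (nat_lit 2) (nat_lit 5) (nat_lit 4) (nat_lit 4) (nat_lit 2) (nat_lit 4) (nat_lit 486) (nat_lit 375) (nat_lit 339)) (XT.lf (nat_lit 0) (nat_lit 164671478785) (nat_lit 152) (nat_lit 91526095554) (nat_lit 0) (nat_lit 163223050361) (nat_lit 2) (nat_lit 5) (nat_lit 4) (nat_lit 4) (nat_lit 2) (nat_lit 4) (nat_lit 487) (nat_lit 375) (nat_lit 338)))) (XT.nd (nat_lit 156) (nat_lit 0) (nat_lit 0) (XT.nd (nat_lit 78) (nat_lit 0) (nat_lit 0) (XT.lf (nat_lit 0) (nat_lit 188397334006) (nat_lit 152) (nat_lit 77100854682) (nat_lit 0) (nat_lit 186942301282) (nat_lit 2) (nat_lit 5) (nat_lit 4) (nat_lit 4) (nat_lit 2) (nat_lit 4) (nat_lit 488) (nat_lit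 375) (nat_lit 337)) (XT.lf (nat_lit 0) (nat_lit 213941820745) (nat_lit 152) (nat_lit 61683422839) (nat_lit 0) (nat_lit 212480672928) (nat_lit 2) (nat_lit 5) (nat_lit 4) (nat_lit 4) (nat_lit 2) (nat_lit 4) (nat_lit 489) (nat_lit 375) (nat_lit 336))) (XT.nd (nat_lit 78) (nat_lit 0) (nat_lit 0) (XT.lf (nat_lit 0) (nat_lit 241456313738) (nat_lit 152) (nat_lit 45182437464) (nat_lit 0) (nat_lit 239989503798) (nat_lit 2) (nat_lit 5) (nat_lit 4) (nat_lit 4) (nat_lit 2) (nat_lit 4) (nat_lit 490) (nat_lit 375) (nat_lit 335)) (XT.lf (nat_lit 0) (nat_lit 271103861834) (nat_lit 152) (nat_lit 27500114940) (nat_lit 0) (nat_lit 269631809186) (nat_lit 2) (nat_lit 5) (nat_lit 4) (nat_lit 4) (nat_lit 2) (nat_lit 4) (nat_lit 491) (nat_lit 375) (nat_lit 334))))))))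
noncomputable def xc13 : XT := (XT.nd (nat_lit 60372) (nat_lit 0) (nat_lit 0) (XT.nd (nat_lit 59202) (nat_lit 0) (nat_lit 456) (XT.nd (nat_lit 546) (nat_lit 0) (nat_lit 0) (XT.nd (nat_lit 234) (nat_lit 0) (nat_lit 0) (XT.nd (nat_lit 78) (nat_lit 76) (nat_lit 0) (XT.lf (nat_lit 0) (nat_lit 303060154204) (nat_lit 152) (nat_lit 8531671135) (nat_lit 0) (nat_lit 301583247199) (nat_lit 2) (nat_lit 5) (nat_lit 4) (nat_lit 4) (nat_lit 2) (nat_lit 4) (nat_lit 492) (nat_lit 375) (nat_lit 333)) (XT.nd (nat_lit 78) (nat_lit 0) (nat_lit 0) (XT.lf (nat_lit 0) (nat_lit 12226627996) (nat_lit 76) (nat_lit 325478825404) (nat_lit 76) (nat_lit 323997423622) (nat_lit 1) (nat_lit 4) (nat_lit 2) (nat_lit 5) (nat_lit 2) (nat_lit 4) (nat_lit 493) (nat_lit 375) (nat_lit 332)) (XT.lf (nat_lit 0) (nat_lit 34836475016) (nat_lit 76) (nat_lit 340378677890) (nat_lit 76) (nat_lit 338893114279) (nat_lit 1) (nat_lit 4) (nat_lit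 2) (nat_lit 5) (nat_lit 2) (nat_lit 4) (nat_lit 494) (nat_lit 375) (nat_lit 331)))) (XT.nd (nat_lit 156) (nat_lit 0) (nat_lit 0) (XT.nd (nat_lit 78) (nat_lit 0) (nat_lit 0) (XT.lf (nat_lit 0) (nat_lit 59149758624) (nat_lit 76) (nat_lit 356524166200) (nat_lit 76) (nat_lit 355034749043) (nat_lit 1) (nat_lit 4) (nat_lit 2) (nat_lit 5) (nat_lit 2) (nat_lit 4) (nat_lit 495) (nat_lit 375) (nat_lit 330)) (XT.lf (nat_lit 0) (nat_lit 85310557538) (nat_lit 76) (nat_lit 374010967301) (nat_lit 76) (nat_lit 372517982046) (nat_lit 1) (nat_lit 4) (nat_lit 2) (nat_lit 5) (nat_lit 2) (nat_lit 4) (nat_lit 496) (nat_lit 375) (nat_lit 329))) (XT.nd (nat_lit 78) (nat_lit 0) (nat_lit 0) (XT.lf (nat_lit 0) (nat_lit 113473898715) (nat_lit 76) (nat_lit 392942706682) (nat_lit 76) (nat_lit 391446417632) (nat_lit 1) (nat_lit 4) (nat_lit 2) (nat_lit 5) (nat_lit 2) (nat_lit 4) (nat_lit 497) (nat_lit 375) (nat_lit 328)) (XT.lf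 (nat_lit 0) (nat_lit 143806676028) (nat_lit 76) (nat_lit 413431572428) (nat_lit 76) (nat_lit 411932224309) (nat_lit 1) (nat_lit 4) (nat_lit 2) (nat_lit 5) (nat_lit 2) (nat_lit 4) (nat_lit 498) (nat_lit 375) (nat_lit 327))))) (XT.nd (nat_lit 312) (nat_lit 0) (nat_lit 0) (XT.nd (nat_lit 156) (nat_lit 0) (nat_lit 0) (XT.nd (nat_lit 78) (nat_lit 0) (nat_lit 0) (XT.lf (nat_lit 0) (nat_lit 176488639268) (nat_lit 76) (nat_lit 435598980039) (nat_lit 76) (nat_lit 434096799449) (nat_lit 1) (nat_lit 4) (nat_lit 2) (nat_lit 5) (nat_lit 2) (nat_lit 4) (nat_lit 499) (nat_lit 375) (nat_lit 326)) (XT.lf (nat_lit 0) (nat_lit 211713459329) (nat_lit 76) (nat_lit 459576291931) (nat_lit 76) (nat_lit 458071488682) (nat_lit 1) (nat_lit 4) (nat_lit 2) (nat_lit 5) (nat_lit 2) (nat_lit 4) (nat_lit 500) (nat_lit 375) (nat_lit 325))) (XT.nd (nat_lit 78) (nat_lit 0) (nat_lit 0) (XT.lf (nat_lit 0) (nat_lit 249689875886)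 (nat_lit 76) (nat_lit 485505595878) (nat_lit 76) (nat_lit 483998364242) (nat_lit 1) (nat_lit 4) (nat_lit 2) (nat_lit 5) (nat_lit 2) (nat_lit 4) (nat_lit 501) (nat_lit 375) (nat_lit 324)) (XT.lf (nat_lit 0) (nat_lit 290642934369) (nat_lit 76) (nat_lit 513540547015) (nat_lit 76) (nat_lit 512031066872) (nat_lit 1) (nat_lit 4) (nat_lit 2) (nat_lit 5) (nat_lit 2) (nat_lit 4) (nat_lit 502) (nat_lit 375) (nat_lit 323)))) (XT.nd (nat_lit 58188) (nat_lit 0) (nat_lit 1596) (XT.nd (nat_lit 78) (nat_lit 0) (nat_lit 0) (XT.lf (nat_lit 0) (nat_lit 334815319570) (nat_lit 76) (nat_lit 543847278385) (nat_lit 76) (nat_lit 542335716291) (nat_lit 1) (nat_lit 4) (nat_lit 2) (nat_lit 5) (nat_lit 2) (nat_lit 4) (nat_lit 503) (nat_lit 375) (nat_lit 322)) (XT.lf (nat_lit 0) (nat_lit 382468793771) (nat_lit 76) (nat_lit 576605385434) (nat_lit 76) (nat_lit 575091895607) (nat_lit 1) (nat_lit 4) (nat_lit 2) (nat_lit 5) (nat_lit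 2) (nat_lit 4) (nat_lit 504) (nat_lit 375) (nat_lit 321))) (XT.nd (nat_lit 78) (nat_lit 76) (nat_lit 0) (XT.lf (nat_lit 0) (nat_lit 4854551298) (nat_lit 152) (nat_lit 5061936523) (nat_lit 0) (nat_lit 4854551298) (nat_lit 23) (nat_lit 5) (nat_lit 25) (nat_lit 4) (nat_lit 23) (nat_lit 4) (nat_lit 448) (nat_lit 376) (nat_lit 376)) (XT.lf (nat_lit 0) (nat_lit 20839603414) (nat_lit 76) (nat_lit 5225258051) (nat_lit 76) (nat_lit 5052174964) (nat_lit 22) (nat_lit 4) (nat_lit 23) (nat_lit 5) (nat_lit 23) (nat_lit 4) (nat_lit 449) (nat_lit 376) (nat_lit 375)))))) (XT.nd (nat_lit 546) (nat_lit 456) (nat_lit 0) (XT.nd (nat_lit 234) (nat_lit 304) (nat_lit 0) (XT.nd (nat_lit 78) (nat_lit 228) (nat_lit 0) (XT.lf (nat_lit 0) (nat_lit 10437935449) (nat_lit 152) (nat_lit 12257276043) (nat_lit 0) (nat_lit 10120463825) (nat_lit 20) (nat_lit 5) (nat_lit 22) (nat_lit 4) (nat_lit 20) (nat_lit 4) (nat_lit 450) (nat_lit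 376) (nat_lit 374)) (XT.nd (nat_lit 78) (nat_lit 152) (nat_lit 0) (XT.lf (nat_lit 0) (nat_lit 18451690216) (nat_lit 76) (nat_lit 8331757556) (nat_lit 76) (nat_lit 7872961314) (nat_lit 19) (nat_lit 4) (nat_lit 20) (nat_lit 5) (nat_lit 20) (nat_lit 4) (nat_lit 451) (nat_lit 376) (nat_lit 373)) (XT.lf (nat_lit 0) (nat_lit 7345996359) (nat_lit 152) (nat_lit 22517743998) (nat_lit 0) (nat_lit 6784422673) (nat_lit 17) (nat_lit 5) (nat_lit 19) (nat_lit 4) (nat_lit 17) (nat_lit 4) (nat_lit 452) (nat_lit 376) (nat_lit 372)))) (XT.nd (nat_lit 156) (nat_lit 228) (nat_lit 0) (XT.nd (nat_lit 78) (nat_lit 0) (nat_lit 0) (XT.lf (nat_lit 0) (nat_lit 7171959887) (nat_lit 76) (nat_lit 16153438608) (nat_lit 76) (nat_lit 15476471510) (nat_lit 16) (nat_lit 4) (nat_lit 17) (nat_lit 5) (nat_lit 17) (nat_lit 4) (nat_lit 453) (nat_lit 376) (nat_lit 371)) (XT.lf (nat_lit 0) (nat_lit 38639026294) (nat_lit 76) (nat_lit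 1643839021) (nat_lit 76) (nat_lit 860026173) (nat_lit 16) (nat_lit 4) (nat_lit 17) (nat_lit 5) (nat_lit 17) (nat_lit 4) (nat_lit 454) (nat_lit 376) (nat_lit 370))) (XT.nd (nat_lit 78) (nat_lit 76) (nat_lit 0) (XT.lf (nat_lit 0) (nat_lit 14457829596) (nat_lit 152) (nat_lit 15584105115) (nat_lit 0) (nat_lit 13617120930) (nat_lit 14) (nat_lit 5) (nat_lit 16) (nat_lit 4) (nat_lit 14) (nat_lit 4) (nat_lit 455) (nat_lit 376) (nat_lit 369)) (XT.lf (nat_lit 0) (nat_lit 13934759036) (nat_lit 76) (nat_lit 16693079358) (nat_lit 76) (nat_lit 15765129729) (nat_lit 13) (nat_lit 4) (nat_lit 14) (nat_lit 5) (nat_lit 14) (nat_lit 4) (nat_lit 456) (nat_lit 376) (nat_lit 368))))) (XT.nd (nat_lit 312) (nat_lit 228) (nat_lit 0) (XT.nd (nat_lit 156) (nat_lit 76) (nat_lit 0) (XT.nd (nat_lit 78) (nat_lit 152) (nat_lit 0) (XT.lf (nat_lit 0) (nat_lit 45143956062) (nat_lit 76) (nat_lit 2613533236) (nat_lit 76) (nat_lit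 1604804939) (nat_lit 13) (nat_lit 4) (nat_lit 14) (nat_lit 5) (nat_lit 14) (nat_lit 4) (nat_lit 457) (nat_lit 376) (nat_lit 367)) (XT.lf (nat_lit 0) (nat_lit 13279807271) (nat_lit 152) (nat_lit 27029316923) (nat_lit 0) (nat_lit 12247880260) (nat_lit 11) (nat_lit 5) (nat_lit 13) (nat_lit 4) (nat_lit 11) (nat_lit 4) (nat_lit 458) (nat_lit 376) (nat_lit 366))) (XT.nd (nat_lit 78) (nat_lit 0) (nat_lit 0) (XT.lf (nat_lit 0) (nat_lit 624204814) (nat_lit 76) (nat_lit 28250436722) (nat_lit 76) (nat_lit 27152552865) (nat_lit 10) (nat_lit 4) (nat_lit 11) (nat_lit 5) (nat_lit 11) (nat_lit 4) (nat_lit 459) (nat_lit 376) (nat_lit 365)) (XT.lf (nat_lit 0) (nat_lit 30380204296) (nat_lit 76) (nat_lit 15278339130) (nat_lit 76) (nat_lit 14119384120) (nat_lit 10) (nat_lit 4) (nat_lit 11) (nat_lit 5) (nat_lit 11) (nat_lit 4) (nat_lit 460) (nat_lit 376) (nat_lit 364)))) (XT.nd (nat_lit 156) (nat_lit 76) (nat_lit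 0) (XT.nd (nat_lit 78) (nat_lit 152) (nat_lit 0) (XT.lf (nat_lit 0) (nat_lit 61521302085) (nat_lit 76) (nat_lit 1773714290) (nat_lit 76) (nat_lit 558211915) (nat_lit 10) (nat_lit 4) (nat_lit 11) (nat_lit 5) (nat_lit 11) (nat_lit 4) (nat_lit 461) (nat_lit 376) (nat_lit 363)) (XT.lf (nat_lit 0) (nat_lit 13793883275) (nat_lit 152) (nat_lit 41855430953) (nat_lit 0) (nat_lit 12586396564) (nat_lit 8) (nat_lit 5) (nat_lit 10) (nat_lit 4) (nat_lit 8) (nat_lit 4) (nat_lit 462) (nat_lit 376) (nat_lit 362))) (XT.nd (nat_lit 78) (nat_lit 76) (nat_lit 0) (XT.lf (nat_lit 0) (nat_lit 28897840607) (nat_lit 152) (nat_lit 16445150477) (nat_lit 0) (nat_lit 27644182228) (nat_lit 8) (nat_lit 5) (nat_lit 10) (nat_lit 4) (nat_lit 8) (nat_lit 4) (nat_lit 463) (nat_lit 376) (nat_lit 361)) (XT.lf (nat_lit 0) (nat_lit 10490053486) (nat_lit 76) (nat_lit 34468835977) (nat_lit 76) (nat_lit 33172426055) (nat_lit 7) (nat_lit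 4) (nat_lit 8) (nat_lit 5) (nat_lit 8) (nat_lit 4) (nat_lit 464) (nat_lit 376) (nat_lit 360))))))) (XT.nd (nat_lit 1170) (nat_lit 76) (nat_lit 0) (XT.nd (nat_lit 546) (nat_lit 228) (nat_lit 0) (XT.nd (nat_lit 234) (nat_lit 0) (nat_lit 0) (XT.nd (nat_lit 78) (nat_lit 152) (nat_lit 0) (XT.lf (nat_lit 0) (nat_lit 39360342446) (nat_lit 76) (nat_lit 22834081295) (nat_lit 76) (nat_lit 21498086609) (nat_lit 7) (nat_lit 4) (nat_lit 8) (nat_lit 5) (nat_lit 8) (nat_lit 4) (nat_lit 465) (nat_lit 376) (nat_lit 359)) (XT.nd (nat_lit 78) (nat_lit 152) (nat_lit 0) (XT.lf (nat_lit 0) (nat_lit 69793048653) (nat_lit 76) (nat_lit 10648286923) (nat_lit 76) (nat_lit 9275639679) (nat_lit 7) (nat_lit 4) (nat_lit 8) (nat_lit 5) (nat_lit 8) (nat_lit 4) (nat_lit 466) (nat_lit 376) (nat_lit 358)) (XT.lf (nat_lit 0) (nat_lit 3580805602) (nat_lit 152) (nat_lit 90409237378) (nat_lit 0) (nat_lit 2241201032) (nat_lit 5) (nat_lit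 5) (nat_lit 7) (nat_lit 4) (nat_lit 5) (nat_lit 4) (nat_lit 467) (nat_lit 376) (nat_lit 357)))) (XT.nd (nat_lit 156) (nat_lit 0) (nat_lit 0) (XT.nd (nat_lit 78) (nat_lit 0) (nat_lit 0) (XT.lf (nat_lit 0) (nat_lit 17341388048) (nat_lit 152) (nat_lit 69935778319) (nat_lit 0) (nat_lit 15971856183) (nat_lit 5) (nat_lit 5) (nat_lit 7) (nat_lit 4) (nat_lit 5) (nat_lit 4) (nat_lit 468) (nat_lit 376) (nat_lit 356)) (XT.lf (nat_lit 0) (nat_lit 31891658901) (nat_lit 152) (nat_lit 48457706732) (nat_lit 0) (nat_lit 30494416575) (nat_lit 5) (nat_lit 5) (nat_lit 7) (nat_lit 4) (nat_lit 5) (nat_lit 4) (nat_lit 469) (nat_lit 376) (nat_lit 355))) (XT.nd (nat_lit 78) (nat_lit 0) (nat_lit 0) (XT.lf (nat_lit 0) (nat_lit 47317841986) (nat_lit 152) (nat_lit 25847745155) (nat_lit 0) (nat_lit 45894941828) (nat_lit 5) (nat_lit 5) (nat_lit 7) (nat_lit 4) (nat_lit 5) (nat_lit 4) (nat_lit 470) (nat_lit 376) (nat_lit 354))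 (XT.lf (nat_lit 0) (nat_lit 63711351723) (nat_lit 152) (nat_lit 1971908632) (nat_lit 0) (nat_lit 62264694312) (nat_lit 5) (nat_lit 5) (nat_lit 7) (nat_lit 4) (nat_lit 5) (nat_lit 4) (nat_lit 471) (nat_lit 376) (nat_lit 353))))) (XT.nd (nat_lit 312) (nat_lit 152) (nat_lit 0) (XT.nd (nat_lit 156) (nat_lit 0) (nat_lit 0) (XT.nd (nat_lit 78) (nat_lit 0) (nat_lit 0) (XT.lf (nat_lit 0) (nat_lit 24082065777) (nat_lit 76) (nat_lit 57463257595) (nat_lit 76) (nat_lit 55994602728) (nat_lit 4) (nat_lit 4) (nat_lit 5) (nat_lit 5) (nat_lit 5) (nat_lit 4) (nat_lit 472) (nat_lit 376) (nat_lit 352)) (XT.lf (nat_lit 0) (nat_lit 51809915793) (nat_lit 76) (nat_lit 48794228227) (nat_lit 76) (nat_lit 47305205345) (nat_lit 4) (nat_lit 4) (nat_lit 5) (nat_lit 5) (nat_lit 5) (nat_lit 4) (nat_lit 473) (nat_lit 376) (nat_lit 351))) (XT.nd (nat_lit 78) (nat_lit 0) (nat_lit 0) (XT.lf (nat_lit 0) (nat_lit 81310754398) (nat_lit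 76) (nat_lit 39658195453) (nat_lit 76) (nat_lit 38150313298) (nat_lit 4) (nat_lit 4) (nat_lit 5) (nat_lit 5) (nat_lit 5) (nat_lit 4) (nat_lit 474) (nat_lit 376) (nat_lit 350)) (XT.lf (nat_lit 0) (nat_lit 112759401375) (nat_lit 76) (nat_lit 30001019818) (nat_lit 76) (nat_lit 28475675373) (nat_lit 4) (nat_lit 4) (nat_lit 5) (nat_lit 5) (nat_lit 5) (nat_lit 4) (nat_lit 475) (nat_lit 376) (nat_lit 349)))) (XT.nd (nat_lit 156) (nat_lit 152) (nat_lit 0) (XT.nd (nat_lit 78) (nat_lit 0) (nat_lit 0) (XT.lf (nat_lit 0) (nat_lit 146342219077) (nat_lit 76) (nat_lit 19765473616) (nat_lit 76) (nat_lit 18223960383) (nat_lit 4) (nat_lit 4) (nat_lit 5) (nat_lit 5) (nat_lit 5) (nat_lit 4) (nat_lit 476) (nat_lit 376) (nat_lit 348)) (XT.lf (nat_lit 0) (nat_lit 182258216793) (nat_lit 76) (nat_lit 8890901757) (nat_lit 76) (nat_lit 7334417426) (nat_lit 4) (nat_lit 4) (nat_lit 5) (nat_lit 5) (nat_lit 5) (nat_lit 4)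 (nat_lit 477) (nat_lit 376) (nat_lit 347))) (XT.nd (nat_lit 78) (nat_lit 0) (nat_lit 0) (XT.lf (nat_lit 0) (nat_lit 4277018053) (nat_lit 152) (nat_lit 206706026664) (nat_lit 0) (nat_lit 2781449995) (nat_lit 2) (nat_lit 5) (nat_lit 4) (nat_lit 4) (nat_lit 2) (nat_lit 4) (nat_lit 478) (nat_lit 376) (nat_lit 346)) (XT.lf (nat_lit 0) (nat_lit 16842231496) (nat_lit 152) (nat_lit 198071156634) (nat_lit 0) (nat_lit 15334439340) (nat_lit 2) (nat_lit 5) (nat_lit 4) (nat_lit 4) (nat_lit 2) (nat_lit 4) (nat_lit 479) (nat_lit 376) (nat_lit 345)))))) (XT.nd (nat_lit 546) (nat_lit 76) (nat_lit 0) (XT.nd (nat_lit 234) (nat_lit 0) (nat_lit 0) (XT.nd (nat_lit 78) (nat_lit 0) (nat_lit 0) (XT.lf (nat_lit 0) (nat_lit 30265629858) (nat_lit 152) (nat_lit 189045029886) (nat_lit 0) (nat_lit 28746519091) (nat_lit 2) (nat_lit 5) (nat_lit 4) (nat_lit 4) (nat_lit 2) (nat_lit 4) (nat_lit 480) (nat_lit 376) (nat_lit 344))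 (XT.nd (nat_lit 78) (nat_lit 0) (nat_lit 0) (XT.lf (nat_lit 0) (nat_lit 44626759202) (nat_lit 152) (nat_lit 179574158263) (nat_lit 0) (nat_lit 43097168240) (nat_lit 2) (nat_lit 5) (nat_lit 4) (nat_lit 4) (nat_lit 2) (nat_lit 4) (nat_lit 481) (nat_lit 376) (nat_lit 343)) (XT.lf (nat_lit 0) (nat_lit 60010722518) (nat_lit 152) (nat_lit 169602418079) (nat_lit 0) (nat_lit 58471427671) (nat_lit 2) (nat_lit 5) (nat_lit 4) (nat_lit 4) (nat_lit 2) (nat_lit 4) (nat_lit 482) (nat_lit 376) (nat_lit 342)))) (XT.nd (nat_lit 156) (nat_lit 0) (nat_lit 0) (XT.nd (nat_lit 78) (nat_lit 0) (nat_lit 0) (XT.lf (nat_lit 0) (nat_lit 76508684031) (nat_lit 152) (nat_lit 159070717542) (nat_lit 0) (nat_lit 74960404107) (nat_lit 2) (nat_lit 5) (nat_lit 4) (nat_lit 4) (nat_lit 2) (nat_lit 4) (nat_lit 483) (nat_lit 376) (nat_lit 341)) (XT.lf (nat_lit 0) (nat_lit 94218409441) (nat_lit 152) (nat_lit 147916646573) (nat_lit 0)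 (nat_lit 92661810000) (nat_lit 2) (nat_lit 5) (nat_lit 4) (nat_lit 4) (nat_lit 2) (nat_lit 4) (nat_lit 484) (nat_lit 376) (nat_lit 340))) (XT.nd (nat_lit 78) (nat_lit 0) (nat_lit 0) (XT.lf (nat_lit 0) (nat_lit 113244845268) (nat_lit 152) (nat_lit 136074106976) (nat_lit 0) (nat_lit 111680542571) (nat_lit 2) (nat_lit 5) (nat_lit 4) (nat_lit 4) (nat_lit 2) (nat_lit 4) (nat_lit 485) (nat_lit 376) (nat_lit 339)) (XT.lf (nat_lit 0) (nat_lit 133700740761) (nat_lit 152) (nat_lit 123472920737) (nat_lit 0) (nat_lit 132129305419) (nat_lit 2) (nat_lit 5) (nat_lit 4) (nat_lit 4) (nat_lit 2) (nat_lit 4) (nat_lit 486) (nat_lit 376) (nat_lit 338))))) (XT.nd (nat_lit 312) (nat_lit 76) (nat_lit 0) (XT.nd (nat_lit 156) (nat_lit 0) (nat_lit 0) (XT.nd (nat_lit 78) (nat_lit 0) (nat_lit 0) (XT.lf (nat_lit 0) (nat_lit 155707316042) (nat_lit 152) (nat_lit 110038414161) (nat_lit 0) (nat_lit 154129276400) (nat_lit 2)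 (nat_lit 5) (nat_lit 4) (nat_lit 4) (nat_lit 2) (nat_lit 4) (nat_lit 487) (nat_lit 376) (nat_lit 337)) (XT.lf (nat_lit 0) (nat_lit 179394980447) (nat_lit 152) (nat_lit 95690975355) (nat_lit 0) (nat_lit 177810825711) (nat_lit 2) (nat_lit 5) (nat_lit 4) (nat_lit 4) (nat_lit 2) (nat_lit 4) (nat_lit 488) (nat_lit 376) (nat_lit 336))) (XT.nd (nat_lit 78) (nat_lit 0) (nat_lit 0) (XT.lf (nat_lit 0) (nat_lit 204904105318) (nat_lit 152) (nat_lit 80345582462) (nat_lit 0) (nat_lit 203314288459) (nat_lit 2) (nat_lit 5) (nat_lit 4) (nat_lit 4) (nat_lit 2) (nat_lit 4) (nat_lit 489) (nat_lit 376) (nat_lit 335)) (XT.lf (nat_lit 0) (nat_lit 232385855841) (nat_lit 152) (nat_lit 63911299819) (nat_lit 0) (nat_lit 230790796276) (nat_lit 2) (nat_lit 5) (nat_lit 4) (nat_lit 4) (nat_lit 2) (nat_lit 4) (nat_lit 490) (nat_lit 376) (nat_lit 334)))) (XT.nd (nat_lit 156) (nat_lit 76) (nat_lit 0) (XT.nd (nat_lit 78) (nat_lit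 0) (nat_lit 0) (XT.lf (nat_lit 0) (nat_lit 262003086835) (nat_lit 152) (nat_lit 46290739084) (nat_lit 0) (nat_lit 260403172911) (nat_lit 2) (nat_lit 5) (nat_lit 4) (nat_lit 4) (nat_lit 2) (nat_lit 4) (nat_lit 491) (nat_lit 376) (nat_lit 333)) (XT.lf (nat_lit 0) (nat_lit 293931307815) (nat_lit 152) (nat_lit 27379482120) (nat_lit 0) (nat_lit 292326899115) (nat_lit 2) (nat_lit 5) (nat_lit 4) (nat_lit 4) (nat_lit 2) (nat_lit 4) (nat_lit 492) (nat_lit 376) (nat_lit 332))) (XT.nd (nat_lit 78) (nat_lit 76) (nat_lit 0) (XT.lf (nat_lit 0) (nat_lit 328359723054) (nat_lit 152) (nat_lit 7065462219) (nat_lit 0) (nat_lit 326751152525) (nat_lit 2) (nat_lit 5) (nat_lit 4) (nat_lit 4) (nat_lit 2) (nat_lit 4) (nat_lit 493) (nat_lit 376) (nat_lit 331)) (XT.lf (nat_lit 0) (nat_lit 15260119108) (nat_lit 76) (nat_lit 350470486909) (nat_lit 76) (nat_lit 348858062833) (nat_lit 1) (nat_lit 4) (nat_lit 2) (nat_lit 5)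 (nat_lit 2) (nat_lit 4) (nat_lit 494) (nat_lit 376) (nat_lit 330))))))))
noncomputable def xc14 : XT := (XT.nd (nat_lit 60138) (nat_lit 0) (nat_lit 76) (XT.nd (nat_lit 58968) (nat_lit 0) (nat_lit 532) (XT.nd (nat_lit 546) (nat_lit 0) (nat_lit 0) (XT.nd (nat_lit 234) (nat_lit 0) (nat_lit 0) (XT.nd (nat_lit 78) (nat_lit 0) (nat_lit 0) (XT.lf (nat_lit 0) (nat_lit 39526504936) (nat_lit 76) (nat_lit 366639856818) (nat_lit 76) (nat_lit 365023864644) (nat_lit 1) (nat_lit 4) (nat_lit 2) (nat_lit 5) (nat_lit 2) (nat_lit 4) (nat_lit 495) (nat_lit 376) (nat_lit 329)) (XT.nd (nat_lit 78) (nat_lit 0) (nat_lit 0) (XT.lf (nat_lit 0) (nat_lit 65643879979) (nat_lit 76) (nat_lit 384148770511) (nat_lit 76) (nat_lit 382529474543) (nat_lit 1) (nat_lit 4) (nat_lit 2) (nat_lit 5) (nat_lit 2) (nat_lit 4) (nat_lit 496) (nat_lit 376) (nat_lit 328)) (XT.lf (nat_lit 0) (nat_lit 93767013869) (nat_lit 76) (nat_lit 403100984514)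 (nat_lit 76) (nat_lit 401478629477) (nat_lit 1) (nat_lit 4) (nat_lit 2) (nat_lit 5) (nat_lit 2) (nat_lit 4) (nat_lit 497) (nat_lit 376) (nat_lit 327)))) (XT.nd (nat_lit 156) (nat_lit 0) (nat_lit 0) (XT.nd (nat_lit 78) (nat_lit 0) (nat_lit 0) (XT.lf (nat_lit 0) (nat_lit 124062562211) (nat_lit 76) (nat_lit 423608808244) (nat_lit 76) (nat_lit 421983620735) (nat_lit 1) (nat_lit 4) (nat_lit 2) (nat_lit 5) (nat_lit 2) (nat_lit 4) (nat_lit 498) (nat_lit 376) (nat_lit 326)) (XT.lf (nat_lit 0) (nat_lit 156710054183) (nat_lit 76) (nat_lit 445793769543) (nat_lit 76) (nat_lit 444165959376) (nat_lit 1) (nat_lit 4) (nat_lit 2) (nat_lit 5) (nat_lit 2) (nat_lit 4) (nat_lit 499) (nat_lit 376) (nat_lit 325))) (XT.nd (nat_lit 78) (nat_lit 0) (nat_lit 0) (XT.lf (nat_lit 0) (nat_lit 191902956403) (nat_lit 76) (nat_lit 469787334851) (nat_lit 76) (nat_lit 468157096296) (nat_lit 1) (nat_lit 4) (nat_lit 2) (nat_lit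 5) (nat_lit 2) (nat_lit 4) (nat_lit 500) (nat_lit 376) (nat_lit 324)) (XT.lf (nat_lit 0) (nat_lit 229849819403) (nat_lit 76) (nat_lit 495731688256) (nat_lit 76) (nat_lit 494099201195) (nat_lit 1) (nat_lit 4) (nat_lit 2) (nat_lit 5) (nat_lit 2) (nat_lit 4) (nat_lit 501) (nat_lit 376) (nat_lit 323))))) (XT.nd (nat_lit 58110) (nat_lit 0) (nat_lit 1596) (XT.nd (nat_lit 78) (nat_lit 0) (nat_lit 0) (XT.lf (nat_lit 0) (nat_lit 270775513482) (nat_lit 76) (nat_lit 523780574077) (nat_lit 76) (nat_lit 522146005065) (nat_lit 1) (nat_lit 4) (nat_lit 2) (nat_lit 5) (nat_lit 2) (nat_lit 4) (nat_lit 502) (nat_lit 376) (nat_lit 322)) (XT.nd (nat_lit 78) (nat_lit 0) (nat_lit 0) (XT.lf (nat_lit 0) (nat_lit 314922561272) (nat_lit 76) (nat_lit 554100207932) (nat_lit 76) (nat_lit 552463711187) (nat_lit 1) (nat_lit 4) (nat_lit 2) (nat_lit 5) (nat_lit 2) (nat_lit 4) (nat_lit 503) (nat_lit 376) (nat_lit 321)) (XT.lf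 (nat_lit 0) (nat_lit 362552574907) (nat_lit 76) (nat_lit 586870261727) (nat_lit 76) (nat_lit 585231980044) (nat_lit 1) (nat_lit 4) (nat_lit 2) (nat_lit 5) (nat_lit 2) (nat_lit 4) (nat_lit 504) (nat_lit 376) (nat_lit 320)))) (XT.nd (nat_lit 156) (nat_lit 228) (nat_lit 0) (XT.nd (nat_lit 78) (nat_lit 76) (nat_lit 0) (XT.lf (nat_lit 0) (nat_lit 3372609020) (nat_lit 152) (nat_lit 6615397911) (nat_lit 0) (nat_lit 3372609020) (nat_lit 26) (nat_lit 5) (nat_lit 28) (nat_lit 4) (nat_lit 26) (nat_lit 4) (nat_lit 446) (nat_lit 377) (nat_lit 377)) (XT.lf (nat_lit 0) (nat_lit 16688530122) (nat_lit 76) (nat_lit 5797935664) (nat_lit 76) (nat_lit 5601659443) (nat_lit 25) (nat_lit 4) (nat_lit 26) (nat_lit 5) (nat_lit 26) (nat_lit 4) (nat_lit 447) (nat_lit 377) (nat_lit 376))) (XT.nd (nat_lit 78) (nat_lit 76) (nat_lit 0) (XT.lf (nat_lit 0) (nat_lit 9505131171) (nat_lit 152) (nat_lit 10911376561) (nat_lit 0) (nat_lit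 9145118350) (nat_lit 23) (nat_lit 5) (nat_lit 25) (nat_lit 4) (nat_lit 23) (nat_lit 4) (nat_lit 448) (nat_lit 377) (nat_lit 375)) (XT.lf (nat_lit 0) (nat_lit 19272781904) (nat_lit 76) (nat_lit 6201700144) (nat_lit 76) (nat_lit 5681425205) (nat_lit 22) (nat_lit 4) (nat_lit 23) (nat_lit 5) (nat_lit 23) (nat_lit 4) (nat_lit 449) (nat_lit 377) (nat_lit 374)))))) (XT.nd (nat_lit 546) (nat_lit 380) (nat_lit 0) (XT.nd (nat_lit 234) (nat_lit 304) (nat_lit 0) (XT.nd (nat_lit 78) (nat_lit 228) (nat_lit 0) (XT.lf (nat_lit 0) (nat_lit 9418353101) (nat_lit 152) (nat_lit 14675681594) (nat_lit 0) (nat_lit 8781528541) (nat_lit 20) (nat_lit 5) (nat_lit 22) (nat_lit 4) (nat_lit 20) (nat_lit 4) (nat_lit 450) (nat_lit 377) (nat_lit 373)) (XT.nd (nat_lit 78) (nat_lit 152) (nat_lit 0) (XT.lf (nat_lit 0) (nat_lit 15240745912) (nat_lit 76) (nat_lit 10131409689) (nat_lit 76) (nat_lit 9363729000) (nat_lit 19) (nat_lit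 4) (nat_lit 20) (nat_lit 5) (nat_lit 20) (nat_lit 4) (nat_lit 451) (nat_lit 377) (nat_lit 372)) (XT.lf (nat_lit 0) (nat_lit 5472684506) (nat_lit 152) (nat_lit 26651465925) (nat_lit 0) (nat_lit 4626166629) (nat_lit 17) (nat_lit 5) (nat_lit 19) (nat_lit 4) (nat_lit 17) (nat_lit 4) (nat_lit 452) (nat_lit 377) (nat_lit 371)))) (XT.nd (nat_lit 156) (nat_lit 228) (nat_lit 0) (XT.nd (nat_lit 78) (nat_lit 0) (nat_lit 0) (XT.lf (nat_lit 0) (nat_lit 2227560770) (nat_lit 76) (nat_lit 18824904831) (nat_lit 76) (nat_lit 17871541203) (nat_lit 16) (nat_lit 4) (nat_lit 17) (nat_lit 5) (nat_lit 17) (nat_lit 4) (nat_lit 453) (nat_lit 377) (nat_lit 370)) (XT.lf (nat_lit 0) (nat_lit 33070555256) (nat_lit 76) (nat_lit 4631091884) (nat_lit 76) (nat_lit 3578797005) (nat_lit 16) (nat_lit 4) (nat_lit 17) (nat_lit 5) (nat_lit 17) (nat_lit 4) (nat_lit 454) (nat_lit 377) (nat_lit 369))) (XT.nd (nat_lit 78) (nat_lit 76)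 (nat_lit 0) (XT.lf (nat_lit 0) (nat_lit 11381493424) (nat_lit 152) (nat_lit 22147400945) (nat_lit 0) (nat_lit 10292066863) (nat_lit 14) (nat_lit 5) (nat_lit 16) (nat_lit 4) (nat_lit 14) (nat_lit 4) (nat_lit 455) (nat_lit 377) (nat_lit 368)) (XT.lf (nat_lit 0) (nat_lit 6564220416) (nat_lit 76) (nat_lit 20590353131) (nat_lit 76) (nat_lit 19420147901) (nat_lit 13) (nat_lit 4) (nat_lit 14) (nat_lit 5) (nat_lit 14) (nat_lit 4) (nat_lit 456) (nat_lit 377) (nat_lit 367))))) (XT.nd (nat_lit 312) (nat_lit 152) (nat_lit 0) (XT.nd (nat_lit 156) (nat_lit 76) (nat_lit 0) (XT.nd (nat_lit 78) (nat_lit 152) (nat_lit 0) (XT.lf (nat_lit 0) (nat_lit 37226907637) (nat_lit 76) (nat_lit 6787808422) (nat_lit 76) (nat_lit 5542808128) (nat_lit 13) (nat_lit 4) (nat_lit 14) (nat_lit 5) (nat_lit 14) (nat_lit 4) (nat_lit 457) (nat_lit 377) (nat_lit 366)) (XT.lf (nat_lit 0) (nat_lit 9003543174) (nat_lit 152) (nat_lit 36023109772)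 (nat_lit 0) (nat_lit 7751871762) (nat_lit 11) (nat_lit 5) (nat_lit 13) (nat_lit 4) (nat_lit 11) (nat_lit 4) (nat_lit 458) (nat_lit 377) (nat_lit 365))) (XT.nd (nat_lit 78) (nat_lit 76) (nat_lit 0) (XT.lf (nat_lit 0) (nat_lit 24342204725) (nat_lit 152) (nat_lit 8889857390) (nat_lit 0) (nat_lit 23029462160) (nat_lit 11) (nat_lit 5) (nat_lit 13) (nat_lit 4) (nat_lit 11) (nat_lit 4) (nat_lit 459) (nat_lit 377) (nat_lit 364)) (XT.lf (nat_lit 0) (nat_lit 20093654386) (nat_lit 76) (nat_lit 20653422675) (nat_lit 76) (nat_lit 19284132745) (nat_lit 10) (nat_lit 4) (nat_lit 11) (nat_lit 5) (nat_lit 11) (nat_lit 4) (nat_lit 460) (nat_lit 377) (nat_lit 363)))) (XT.nd (nat_lit 156) (nat_lit 0) (nat_lit 0) (XT.nd (nat_lit 78) (nat_lit 152) (nat_lit 0) (XT.lf (nat_lit 0) (nat_lit 50791651369) (nat_lit 76) (nat_lit 7373709053) (nat_lit 76) (nat_lit 5952060452) (nat_lit 10) (nat_lit 4) (nat_lit 11) (nat_lit 5)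 (nat_lit 11) (nat_lit 4) (nat_lit 461) (nat_lit 377) (nat_lit 362)) (XT.lf (nat_lit 0) (nat_lit 8089530077) (nat_lit 152) (nat_lit 53749334410) (nat_lit 0) (nat_lit 6689407361) (nat_lit 8) (nat_lit 5) (nat_lit 10) (nat_lit 4) (nat_lit 8) (nat_lit 4) (nat_lit 462) (nat_lit 377) (nat_lit 361))) (XT.nd (nat_lit 78) (nat_lit 0) (nat_lit 0) (XT.lf (nat_lit 0) (nat_lit 22993966162) (nat_lit 152) (nat_lit 28744653056) (nat_lit 0) (nat_lit 21551091901) (nat_lit 8) (nat_lit 5) (nat_lit 10) (nat_lit 4) (nat_lit 8) (nat_lit 4) (nat_lit 463) (nat_lit 377) (nat_lit 360)) (XT.lf (nat_lit 0) (nat_lit 38706493989) (nat_lit 152) (nat_lit 2520751058) (nat_lit 0) (nat_lit 37224034966) (nat_lit 8) (nat_lit 5) (nat_lit 10) (nat_lit 4) (nat_lit 8) (nat_lit 4) (nat_lit 464) (nat_lit 377) (nat_lit 359))))))) (XT.nd (nat_lit 1170) (nat_lit 0) (nat_lit 0) (XT.nd (nat_lit 546) (nat_lit 228) (nat_lit 0) (XT.nd (nat_lit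 234) (nat_lit 152) (nat_lit 0) (XT.nd (nat_lit 78) (nat_lit 0) (nat_lit 0) (XT.lf (nat_lit 0) (nat_lit 25906956896) (nat_lit 76) (nat_lit 29817748142) (nat_lit 76) (nat_lit 28298636560) (nat_lit 7) (nat_lit 4) (nat_lit 8) (nat_lit 5) (nat_lit 8) (nat_lit 4) (nat_lit 465) (nat_lit 377) (nat_lit 358)) (XT.nd (nat_lit 78) (nat_lit 0) (nat_lit 0) (XT.lf (nat_lit 0) (nat_lit 56007039407) (nat_lit 76) (nat_lit 17800997878) (nat_lit 76) (nat_lit 16247948743) (nat_lit 7) (nat_lit 4) (nat_lit 8) (nat_lit 5) (nat_lit 8) (nat_lit 4) (nat_lit 466) (nat_lit 377) (nat_lit 357)) (XT.lf (nat_lit 0) (nat_lit 87874519921) (nat_lit 76) (nat_lit 5148474025) (nat_lit 76) (nat_lit 3564001228) (nat_lit 7) (nat_lit 4) (nat_lit 8) (nat_lit 5) (nat_lit 8) (nat_lit 4) (nat_lit 467) (nat_lit 377) (nat_lit 356)))) (XT.nd (nat_lit 156) (nat_lit 0) (nat_lit 0) (XT.nd (nat_lit 78) (nat_lit 0) (nat_lit 0) (XT.lf (nat_lit 0)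 (nat_lit 9937846659) (nat_lit 152) (nat_lit 85287235455) (nat_lit 0) (nat_lit 8401114489) (nat_lit 5) (nat_lit 5) (nat_lit 7) (nat_lit 4) (nat_lit 5) (nat_lit 4) (nat_lit 468) (nat_lit 377) (nat_lit 355)) (XT.lf (nat_lit 0) (nat_lit 24349603360) (nat_lit 152) (nat_lit 64091065664) (nat_lit 0) (nat_lit 22787213357) (nat_lit 5) (nat_lit 5) (nat_lit 7) (nat_lit 4) (nat_lit 5) (nat_lit 4) (nat_lit 469) (nat_lit 377) (nat_lit 354))) (XT.nd (nat_lit 78) (nat_lit 0) (nat_lit 0) (XT.lf (nat_lit 0) (nat_lit 39647532602) (nat_lit 152) (nat_lit 41742124270) (nat_lit 0) (nat_lit 38061385345) (nat_lit 5) (nat_lit 5) (nat_lit 7) (nat_lit 4) (nat_lit 5) (nat_lit 4) (nat_lit 470) (nat_lit 377) (nat_lit 353)) (XT.lf (nat_lit 0) (nat_lit 55922288779) (nat_lit 152) (nat_lit 18107973100) (nat_lit 0) (nat_lit 54314144067) (nat_lit 5) (nat_lit 5) (nat_lit 7) (nat_lit 4) (nat_lit 5) (nat_lit 4) (nat_lit 471) (nat_lit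 377) (nat_lit 352))))) (XT.nd (nat_lit 312) (nat_lit 152) (nat_lit 0) (XT.nd (nat_lit 156) (nat_lit 0) (nat_lit 0) (XT.nd (nat_lit 78) (nat_lit 0) (nat_lit 0) (XT.lf (nat_lit 0) (nat_lit 7181288141) (nat_lit 76) (nat_lit 66201146785) (nat_lit 76) (nat_lit 64572634057) (nat_lit 4) (nat_lit 4) (nat_lit 5) (nat_lit 5) (nat_lit 5) (nat_lit 4) (nat_lit 472) (nat_lit 377) (nat_lit 351)) (XT.lf (nat_lit 0) (nat_lit 34695080747) (nat_lit 76) (nat_lit 57641020755) (nat_lit 76) (nat_lit 55993648754) (nat_lit 4) (nat_lit 4) (nat_lit 5) (nat_lit 5) (nat_lit 5) (nat_lit 4) (nat_lit 473) (nat_lit 377) (nat_lit 350))) (XT.nd (nat_lit 78) (nat_lit 0) (nat_lit 0) (XT.lf (nat_lit 0) (nat_lit 63997718046) (nat_lit 76) (nat_lit 48605824404) (nat_lit 76) (nat_lit 46940990113) (nat_lit 4) (nat_lit 4) (nat_lit 5) (nat_lit 5) (nat_lit 5) (nat_lit 4) (nat_lit 474) (nat_lit 377) (nat_lit 349)) (XT.lf (nat_lit 0) (nat_lit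 95262845296) (nat_lit 76) (nat_lit 39042015829) (nat_lit 76) (nat_lit 37361012751) (nat_lit 4) (nat_lit 4) (nat_lit 5) (nat_lit 5) (nat_lit 5) (nat_lit 4) (nat_lit 475) (nat_lit 377) (nat_lit 348)))) (XT.nd (nat_lit 156) (nat_lit 152) (nat_lit 0) (XT.nd (nat_lit 78) (nat_lit 0) (nat_lit 0) (XT.lf (nat_lit 0) (nat_lit 128675737324) (nat_lit 76) (nat_lit 28892920607) (nat_lit 76) (nat_lit 27196946430) (nat_lit 4) (nat_lit 4) (nat_lit 5) (nat_lit 5) (nat_lit 5) (nat_lit 4) (nat_lit 476) (nat_lit 377) (nat_lit 347)) (XT.lf (nat_lit 0) (nat_lit 164434396454) (nat_lit 76) (nat_lit 18098395952) (nat_lit 76) (nat_lit 16388559647) (nat_lit 4) (nat_lit 4) (nat_lit 5) (nat_lit 5) (nat_lit 5) (nat_lit 4) (nat_lit 477) (nat_lit 377) (nat_lit 346))) (XT.nd (nat_lit 78) (nat_lit 152) (nat_lit 0) (XT.lf (nat_lit 0) (nat_lit 202750725850) (nat_lit 76) (nat_lit 6594474312) (nat_lit 76) (nat_lit 4871802702) (nat_lit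 4) (nat_lit 4) (nat_lit 5) (nat_lit 5) (nat_lit 5) (nat_lit 4) (nat_lit 478) (nat_lit 377) (nat_lit 345)) (XT.lf (nat_lit 0) (nat_lit 7487720336) (nat_lit 152) (nat_lit 217398737421) (nat_lit 0) (nat_lit 5835762097) (nat_lit 2) (nat_lit 5) (nat_lit 4) (nat_lit 4) (nat_lit 2) (nat_lit 4) (nat_lit 479) (nat_lit 377) (nat_lit 344)))))) (XT.nd (nat_lit 546) (nat_lit 0) (nat_lit 0) (XT.nd (nat_lit 234) (nat_lit 0) (nat_lit 0) (XT.nd (nat_lit 78) (nat_lit 0) (nat_lit 0) (XT.lf (nat_lit 0) (nat_lit 20845666348) (nat_lit 152) (nat_lit 208505949743) (nat_lit 0) (nat_lit 19183227914) (nat_lit 2) (nat_lit 5) (nat_lit 4) (nat_lit 4) (nat_lit 2) (nat_lit 4) (nat_lit 480) (nat_lit 377) (nat_lit 343)) (XT.nd (nat_lit 78) (nat_lit 0) (nat_lit 0) (XT.lf (nat_lit 0) (nat_lit 35146191666) (nat_lit 152) (nat_lit 199158540220) (nat_lit 0) (nat_lit 33474049347) (nat_lit 2) (nat_lit 5) (nat_lit 4) (nat_lit 4) (nat_lit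 2) (nat_lit 4) (nat_lit 481) (nat_lit 377) (nat_lit 342)) (XT.lf (nat_lit 0) (nat_lit 50474040141) (nat_lit 152) (nat_lit 189301116796) (nat_lit 0) (nat_lit 48792912745) (nat_lit 2) (nat_lit 5) (nat_lit 4) (nat_lit 4) (nat_lit 2) (nat_lit 4) (nat_lit 482) (nat_lit 377) (nat_lit 341)))) (XT.nd (nat_lit 156) (nat_lit 0) (nat_lit 0) (XT.nd (nat_lit 78) (nat_lit 0) (nat_lit 0) (XT.lf (nat_lit 0) (nat_lit 66920043470) (nat_lit 152) (nat_lit 178875265111) (nat_lit 0) (nat_lit 65230596556) (nat_lit 2) (nat_lit 5) (nat_lit 4) (nat_lit 4) (nat_lit 2) (nat_lit 4) (nat_lit 483) (nat_lit 377) (nat_lit 340)) (XT.lf (nat_lit 0) (nat_lit 84581659449) (nat_lit 152) (nat_lit 167819202339) (nat_lit 0) (nat_lit 82884509280) (nat_lit 2) (nat_lit 5) (nat_lit 4) (nat_lit 4) (nat_lit 2) (nat_lit 4) (nat_lit 484) (nat_lit 377) (nat_lit 339))) (XT.nd (nat_lit 78) (nat_lit 0) (nat_lit 0) (XT.lf (nat_lit 0) (nat_lit 103563549507)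 (nat_lit 152) (nat_lit 156067411072) (nat_lit 0) (nat_lit 101859266693) (nat_lit 2) (nat_lit 5) (nat_lit 4) (nat_lit 4) (nat_lit 2) (nat_lit 4) (nat_lit 485) (nat_lit 377) (nat_lit 338)) (XT.lf (nat_lit 0) (nat_lit 123978198917) (nat_lit 152) (nat_lit 143550251064) (nat_lit 0) (nat_lit 122267311803) (nat_lit 2) (nat_lit 5) (nat_lit 4) (nat_lit 4) (nat_lit 2) (nat_lit 4) (nat_lit 486) (nat_lit 377) (nat_lit 337))))) (XT.nd (nat_lit 312) (nat_lit 0) (nat_lit 0) (XT.nd (nat_lit 156) (nat_lit 0) (nat_lit 0) (XT.nd (nat_lit 78) (nat_lit 0) (nat_lit 0) (XT.lf (nat_lit 0) (nat_lit 145946583382) (nat_lit 152) (nat_lit 130193546554) (nat_lit 0) (nat_lit 144229581174) (nat_lit 2) (nat_lit 5) (nat_lit 4) (nat_lit 4) (nat_lit 2) (nat_lit 4) (nat_lit 487) (nat_lit 377) (nat_lit 336)) (XT.lf (nat_lit 0) (nat_lit 169598885918) (nat_lit 152) (nat_lit 115918146699) (nat_lit 0) (nat_lit 167876221587) (nat_lit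 2) (nat_lit 5) (nat_lit 4) (nat_lit 4) (nat_lit 2) (nat_lit 4) (nat_lit 488) (nat_lit 377) (nat_lit 335))) (XT.nd (nat_lit 78) (nat_lit 0) (nat_lit 0) (XT.lf (nat_lit 0) (nat_lit 195075268319) (nat_lit 152) (nat_lit 100639456537) (nat_lit 0) (nat_lit 193347361282) (nat_lit 2) (nat_lit 5) (nat_lit 4) (nat_lit 4) (nat_lit 2) (nat_lit 4) (nat_lit 489) (nat_lit 377) (nat_lit 334)) (XT.lf (nat_lit 0) (nat_lit 222526701741) (nat_lit 152) (nat_lit 84266935682) (nat_lit 0) (nat_lit 220793940345) (nat_lit 2) (nat_lit 5) (nat_lit 4) (nat_lit 4) (nat_lit 2) (nat_lit 4) (nat_lit 490) (nat_lit 377) (nat_lit 333)))) (XT.nd (nat_lit 156) (nat_lit 0) (nat_lit 0) (XT.nd (nat_lit 78) (nat_lit 0) (nat_lit 0) (XT.lf (nat_lit 0) (nat_lit 252115861343) (nat_lit 152) (nat_lit 66703561788) (nat_lit 0) (nat_lit 250378605171) (nat_lit 2) (nat_lit 5) (nat_lit 4) (nat_lit 4) (nat_lit 2) (nat_lit 4) (nat_lit 491) (nat_lit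 377) (nat_lit 332)) (XT.lf (nat_lit 0) (nat_lit 284018090295) (nat_lit 152) (nat_lit 47845255603) (nat_lit 0) (nat_lit 282276672293) (nat_lit 2) (nat_lit 5) (nat_lit 4) (nat_lit 4) (nat_lit 2) (nat_lit 4) (nat_lit 492) (nat_lit 377) (nat_lit 331))) (XT.nd (nat_lit 78) (nat_lit 0) (nat_lit 0) (XT.lf (nat_lit 0) (nat_lit 318422438841) (nat_lit 152) (nat_lit 27580264201) (nat_lit 0) (nat_lit 316677167294) (nat_lit 2) (nat_lit 5) (nat_lit 4) (nat_lit 4) (nat_lit 2) (nat_lit 4) (nat_lit 493) (nat_lit 377) (nat_lit 330)) (XT.lf (nat_lit 0) (nat_lit 355532784603) (nat_lit 152) (nat_lit 5788498745) (nat_lit 0) (nat_lit 353783944958) (nat_lit 2) (nat_lit 5) (nat_lit 4) (nat_lit 4) (nat_lit 2) (nat_lit 4) (nat_lit 494) (nat_lit 377) (nat_lit 329))))))))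
noncomputable def xc15 : XT := (XT.nd (nat_lit 60060) (nat_lit 0) (nat_lit 76) (XT.nd (nat_lit 58890) (nat_lit 0) (nat_lit 532) (XT.nd (nat_lit 546) (nat_lit 0) (nat_lit 0) (XT.nd (nat_lit 234) (nat_lit 0) (nat_lit 0) (XT.nd (nat_lit 78) (nat_lit 0) (nat_lit 0) (XT.lf (nat_lit 0) (nat_lit 18243069302) (nat_lit 76) (nat_lit 377610796877) (nat_lit 76) (nat_lit 375858653437) (nat_lit 1) (nat_lit 4) (nat_lit 2) (nat_lit 5) (nat_lit 2) (nat_lit 4) (nat_lit 495) (nat_lit 377) (nat_lit 328)) (XT.nd (nat_lit 78) (nat_lit 0) (nat_lit 0) (XT.lf (nat_lit 0) (nat_lit 44320237058) (nat_lit 76) (nat_lit 395140185193) (nat_lit 76) (nat_lit 393384982684) (nat_lit 1) (nat_lit 4) (nat_lit 2) (nat_lit 5) (nat_lit 2) (nat_lit 4) (nat_lit 496) (nat_lit 377) (nat_lit 327)) (XT.lf (nat_lit 0) (nat_lit 72406141977) (nat_lit 76) (nat_lit 414111357179) (nat_lit 76) (nat_lit 412353322199) (nat_lit 1) (nat_lit 4) (nat_lit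 2) (nat_lit 5) (nat_lit 2) (nat_lit 4) (nat_lit 497) (nat_lit 377) (nat_lit 326)))) (XT.nd (nat_lit 156) (nat_lit 0) (nat_lit 0) (XT.nd (nat_lit 78) (nat_lit 0) (nat_lit 0) (XT.lf (nat_lit 0) (nat_lit 102667219051) (nat_lit 76) (nat_lit 434636734597) (nat_lit 76) (nat_lit 432876076958) (nat_lit 1) (nat_lit 4) (nat_lit 2) (nat_lit 5) (nat_lit 2) (nat_lit 4) (nat_lit 498) (nat_lit 377) (nat_lit 325)) (XT.lf (nat_lit 0) (nat_lit 135282793182) (nat_lit 76) (nat_lit 456837949312) (nat_lit 76) (nat_lit 455074863285) (nat_lit 1) (nat_lit 4) (nat_lit 2) (nat_lit 5) (nat_lit 2) (nat_lit 4) (nat_lit 499) (nat_lit 377) (nat_lit 324))) (XT.nd (nat_lit 78) (nat_lit 0) (nat_lit 0) (XT.lf (nat_lit 0) (nat_lit 170446141845) (nat_lit 76) (nat_lit 480846564078) (nat_lit 76) (nat_lit 479081229544) (nat_lit 1) (nat_lit 4) (nat_lit 2) (nat_lit 5) (nat_lit 2) (nat_lit 4) (nat_lit 500) (nat_lit 377) (nat_lit 323))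 (XT.lf (nat_lit 0) (nat_lit 208365640441) (nat_lit 76) (nat_lit 506804852167) (nat_lit 76) (nat_lit 505037435683) (nat_lit 1) (nat_lit 4) (nat_lit 2) (nat_lit 5) (nat_lit 2) (nat_lit 4) (nat_lit 501) (nat_lit 377) (nat_lit 322))))) (XT.nd (nat_lit 58032) (nat_lit 0) (nat_lit 1672) (XT.nd (nat_lit 156) (nat_lit 0) (nat_lit 0) (XT.nd (nat_lit 78) (nat_lit 0) (nat_lit 0) (XT.lf (nat_lit 0) (nat_lit 249265997109) (nat_lit 76) (nat_lit 534866640473) (nat_lit 76) (nat_lit 533097296256) (nat_lit 1) (nat_lit 4) (nat_lit 2) (nat_lit 5) (nat_lit 2) (nat_lit 4) (nat_lit 502) (nat_lit 377) (nat_lit 321)) (XT.lf (nat_lit 0) (nat_lit 293389584332) (nat_lit 76) (nat_lit 565198221074) (nat_lit 76) (nat_lit 563427091920) (nat_lit 1) (nat_lit 4) (nat_lit 2) (nat_lit 5) (nat_lit 2) (nat_lit 4) (nat_lit 503) (nat_lit 377) (nat_lit 320))) (XT.nd (nat_lit 57798) (nat_lit 0) (nat_lit 2128) (XT.lf (nat_lit 0) (nat_lit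 340997875221) (nat_lit 76) (nat_lit 597979336669) (nat_lit 76) (nat_lit 596206554795) (nat_lit 1) (nat_lit 4) (nat_lit 2) (nat_lit 5) (nat_lit 2) (nat_lit 4) (nat_lit 504) (nat_lit 377) (nat_lit 319)) (XT.lf (nat_lit 0) (nat_lit 1248777699) (nat_lit 152) (nat_lit 9634723205) (nat_lit 0) (nat_lit 1248777699) (nat_lit 29) (nat_lit 5) (nat_lit 31) (nat_lit 4) (nat_lit 29) (nat_lit 4) (nat_lit 444) (nat_lit 378) (nat_lit 378)))) (XT.nd (nat_lit 156) (nat_lit 228) (nat_lit 0) (XT.nd (nat_lit 78) (nat_lit 152) (nat_lit 0) (XT.lf (nat_lit 0) (nat_lit 9276608280) (nat_lit 76) (nat_lit 8200276891) (nat_lit 76) (nat_lit 7977699657) (nat_lit 28) (nat_lit 4) (nat_lit 29) (nat_lit 5) (nat_lit 29) (nat_lit 4) (nat_lit 445) (nat_lit 378) (nat_lit 377)) (XT.lf (nat_lit 0) (nat_lit 6573574741) (nat_lit 152) (nat_lit 14001521201) (nat_lit 0) (nat_lit 6165320202) (nat_lit 26) (nat_lit 5) (nat_lit 28) (nat_lit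 4) (nat_lit 26) (nat_lit 4) (nat_lit 446) (nat_lit 378) (nat_lit 376))) (XT.nd (nat_lit 78) (nat_lit 152) (nat_lit 0) (XT.lf (nat_lit 0) (nat_lit 15155090490) (nat_lit 76) (nat_lit 6780585505) (nat_lit 76) (nat_lit 6190593725) (nat_lit 25) (nat_lit 4) (nat_lit 26) (nat_lit 5) (nat_lit 26) (nat_lit 4) (nat_lit 447) (nat_lit 378) (nat_lit 375)) (XT.lf (nat_lit 0) (nat_lit 8531995356) (nat_lit 152) (nat_lit 13278553795) (nat_lit 0) (nat_lit 7809836304) (nat_lit 23) (nat_lit 5) (nat_lit 25) (nat_lit 4) (nat_lit 23) (nat_lit 4) (nat_lit 448) (nat_lit 378) (nat_lit 374)))))) (XT.nd (nat_lit 546) (nat_lit 456) (nat_lit 0) (XT.nd (nat_lit 234) (nat_lit 380) (nat_lit 0) (XT.nd (nat_lit 78) (nat_lit 228) (nat_lit 0) (XT.lf (nat_lit 0) (nat_lit 16129854016) (nat_lit 76) (nat_lit 7987287565) (nat_lit 76) (nat_lit 7116737664) (nat_lit 22) (nat_lit 4) (nat_lit 23) (nat_lit 5) (nat_lit 23) (nat_lit 4) (nat_lit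 449) (nat_lit 378) (nat_lit 373)) (XT.nd (nat_lit 78) (nat_lit 76) (nat_lit 0) (XT.lf (nat_lit 0) (nat_lit 7606721960) (nat_lit 152) (nat_lit 18722278031) (nat_lit 0) (nat_lit 6646770688) (nat_lit 20) (nat_lit 5) (nat_lit 22) (nat_lit 4) (nat_lit 20) (nat_lit 4) (nat_lit 450) (nat_lit 378) (nat_lit 372)) (XT.lf (nat_lit 0) (nat_lit 10400558738) (nat_lit 76) (nat_lit 12768120926) (nat_lit 76) (nat_lit 11687006572) (nat_lit 19) (nat_lit 4) (nat_lit 20) (nat_lit 5) (nat_lit 20) (nat_lit 4) (nat_lit 451) (nat_lit 378) (nat_lit 371)))) (XT.nd (nat_lit 156) (nat_lit 228) (nat_lit 0) (XT.nd (nat_lit 78) (nat_lit 0) (nat_lit 0) (XT.lf (nat_lit 0) (nat_lit 2778863469) (nat_lit 152) (nat_lit 32472930729) (nat_lit 0) (nat_lit 1642385000) (nat_lit 17) (nat_lit 5) (nat_lit 19) (nat_lit 4) (nat_lit 17) (nat_lit 4) (nat_lit 452) (nat_lit 378) (nat_lit 370)) (XT.lf (nat_lit 0) (nat_lit 18025324329) (nat_lit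 152) (nat_lit 4269297612) (nat_lit 0) (nat_lit 16789914608) (nat_lit 17) (nat_lit 5) (nat_lit 19) (nat_lit 4) (nat_lit 17) (nat_lit 4) (nat_lit 453) (nat_lit 378) (nat_lit 369))) (XT.nd (nat_lit 78) (nat_lit 152) (nat_lit 0) (XT.lf (nat_lit 0) (nat_lit 25854690241) (nat_lit 76) (nat_lit 8465506651) (nat_lit 76) (nat_lit 7138493920) (nat_lit 16) (nat_lit 4) (nat_lit 17) (nat_lit 5) (nat_lit 17) (nat_lit 4) (nat_lit 454) (nat_lit 378) (nat_lit 368)) (XT.lf (nat_lit 0) (nat_lit 7472794224) (nat_lit 152) (nat_lit 30424146652) (nat_lit 0) (nat_lit 6128193907) (nat_lit 14) (nat_lit 5) (nat_lit 16) (nat_lit 4) (nat_lit 14) (nat_lit 4) (nat_lit 455) (nat_lit 378) (nat_lit 367))))) (XT.nd (nat_lit 312) (nat_lit 228) (nat_lit 0) (XT.nd (nat_lit 156) (nat_lit 152) (nat_lit 0) (XT.nd (nat_lit 78) (nat_lit 76) (nat_lit 0) (XT.lf (nat_lit 0) (nat_lit 22882412627) (nat_lit 152) (nat_lit 2451639416) (nat_lit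 0) (nat_lit 21463017246) (nat_lit 14) (nat_lit 5) (nat_lit 16) (nat_lit 4) (nat_lit 14) (nat_lit 4) (nat_lit 456) (nat_lit 378) (nat_lit 366)) (XT.lf (nat_lit 0) (nat_lit 27623957936) (nat_lit 76) (nat_lit 11829509822) (nat_lit 76) (nat_lit 10340859753) (nat_lit 13) (nat_lit 4) (nat_lit 14) (nat_lit 5) (nat_lit 14) (nat_lit 4) (nat_lit 457) (nat_lit 378) (nat_lit 365))) (XT.nd (nat_lit 78) (nat_lit 0) (nat_lit 0) (XT.lf (nat_lit 0) (nat_lit 3872609522) (nat_lit 152) (nat_lit 46777011130) (nat_lit 0) (nat_lit 2393776398) (nat_lit 11) (nat_lit 5) (nat_lit 13) (nat_lit 4) (nat_lit 11) (nat_lit 4) (nat_lit 458) (nat_lit 378) (nat_lit 364)) (XT.lf (nat_lit 0) (nat_lit 18983097806) (nat_lit 152) (nat_lit 20106991067) (nat_lit 0) (nat_lit 17447717317) (nat_lit 11) (nat_lit 5) (nat_lit 13) (nat_lit 4) (nat_lit 11) (nat_lit 4) (nat_lit 459) (nat_lit 378) (nat_lit 363)))) (XT.nd (nat_lit 156) (nat_lit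 152) (nat_lit 0) (XT.nd (nat_lit 78) (nat_lit 0) (nat_lit 0) (XT.lf (nat_lit 0) (nat_lit 8062530806) (nat_lit 76) (nat_lit 26926328237) (nat_lit 76) (nat_lit 25338589077) (nat_lit 10) (nat_lit 4) (nat_lit 11) (nat_lit 5) (nat_lit 11) (nat_lit 4) (nat_lit 460) (nat_lit 378) (nat_lit 362)) (XT.lf (nat_lit 0) (nat_lit 38350249264) (nat_lit 76) (nat_lit 13854865741) (nat_lit 76) (nat_lit 12218646330) (nat_lit 10) (nat_lit 4) (nat_lit 11) (nat_lit 5) (nat_lit 11) (nat_lit 4) (nat_lit 461) (nat_lit 378) (nat_lit 361))) (XT.nd (nat_lit 78) (nat_lit 0) (nat_lit 0) (XT.lf (nat_lit 0) (nat_lit 1425115809) (nat_lit 76) (nat_lit 90115576) (nat_lit 152) (nat_lit 67349687697) (nat_lit 8) (nat_lit 5) (nat_lit 9) (nat_lit 5) (nat_lit 10) (nat_lit 4) (nat_lit 462) (nat_lit 378) (nat_lit 360)) (XT.lf (nat_lit 0) (nat_lit 16233518618) (nat_lit 152) (nat_lit 42809269706) (nat_lit 0) (nat_lit 14592878109) (nat_lit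 8) (nat_lit 5) (nat_lit 10) (nat_lit 4) (nat_lit 8) (nat_lit 4) (nat_lit 463) (nat_lit 378) (nat_lit 359))))))) (XT.nd (nat_lit 1170) (nat_lit 152) (nat_lit 0) (XT.nd (nat_lit 546) (nat_lit 76) (nat_lit 0) (XT.nd (nat_lit 234) (nat_lit 152) (nat_lit 0) (XT.nd (nat_lit 78) (nat_lit 76) (nat_lit 0) (XT.lf (nat_lit 0) (nat_lit 31774989134) (nat_lit 152) (nat_lit 16933103581) (nat_lit 0) (nat_lit 30097696068) (nat_lit 8) (nat_lit 5) (nat_lit 10) (nat_lit 4) (nat_lit 8) (nat_lit 4) (nat_lit 464) (nat_lit 378) (nat_lit 358)) (XT.nd (nat_lit 78) (nat_lit 0) (nat_lit 0) (XT.lf (nat_lit 0) (nat_lit 10685443215) (nat_lit 76) (nat_lit 37711720081) (nat_lit 76) (nat_lit 36000489461) (nat_lit 7) (nat_lit 4) (nat_lit 8) (nat_lit 5) (nat_lit 8) (nat_lit 4) (nat_lit 465) (nat_lit 378) (nat_lit 357)) (XT.lf (nat_lit 0) (nat_lit 40477540823) (nat_lit 76) (nat_lit 25851492141) (nat_lit 76) (nat_lit 24108837859)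 (nat_lit 7) (nat_lit 4) (nat_lit 8) (nat_lit 5) (nat_lit 8) (nat_lit 4) (nat_lit 466) (nat_lit 378) (nat_lit 356)))) (XT.nd (nat_lit 156) (nat_lit 0) (nat_lit 0) (XT.nd (nat_lit 78) (nat_lit 152) (nat_lit 0) (XT.lf (nat_lit 0) (nat_lit 72059850130) (nat_lit 76) (nat_lit 13343896364) (nat_lit 76) (nat_lit 11572146100) (nat_lit 7) (nat_lit 4) (nat_lit 8) (nat_lit 5) (nat_lit 8) (nat_lit 4) (nat_lit 467) (nat_lit 378) (nat_lit 355)) (XT.lf (nat_lit 0) (nat_lit 1593784676) (nat_lit 76) (nat_lit 61081501) (nat_lit 152) (nat_lit 102393037050) (nat_lit 5) (nat_lit 5) (nat_lit 6) (nat_lit 5) (nat_lit 7) (nat_lit 4) (nat_lit 468) (nat_lit 378) (nat_lit 354))) (XT.nd (nat_lit 78) (nat_lit 0) (nat_lit 0) (XT.lf (nat_lit 0) (nat_lit 15937415381) (nat_lit 152) (nat_lit 81518015290) (nat_lit 0) (nat_lit 14200619092) (nat_lit 5) (nat_lit 5) (nat_lit 7) (nat_lit 4) (nat_lit 5) (nat_lit 4) (nat_lit 469) (nat_lit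 378) (nat_lit 353)) (XT.lf (nat_lit 0) (nat_lit 31116591064) (nat_lit 152) (nat_lit 59410759250) (nat_lit 0) (nat_lit 29357797318) (nat_lit 5) (nat_lit 5) (nat_lit 7) (nat_lit 4) (nat_lit 5) (nat_lit 4) (nat_lit 470) (nat_lit 378) (nat_lit 352))))) (XT.nd (nat_lit 312) (nat_lit 0) (nat_lit 0) (XT.nd (nat_lit 156) (nat_lit 76) (nat_lit 0) (XT.nd (nat_lit 78) (nat_lit 0) (nat_lit 0) (XT.lf (nat_lit 0) (nat_lit 47281390242) (nat_lit 152) (nat_lit 36000390816) (nat_lit 0) (nat_lit 45502228481) (nat_lit 5) (nat_lit 5) (nat_lit 7) (nat_lit 4) (nat_lit 5) (nat_lit 4) (nat_lit 471) (nat_lit 378) (nat_lit 351)) (XT.lf (nat_lit 0) (nat_lit 64527604319) (nat_lit 152) (nat_lit 11148181879) (nat_lit 0) (nat_lit 62729583285) (nat_lit 5) (nat_lit 5) (nat_lit 7) (nat_lit 4) (nat_lit 5) (nat_lit 4) (nat_lit 472) (nat_lit 378) (nat_lit 350))) (XT.nd (nat_lit 78) (nat_lit 0) (nat_lit 0) (XT.lf (nat_lit 0) (nat_lit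 15798800182) (nat_lit 76) (nat_lit 67405296446) (nat_lit 76) (nat_lit 65589813122) (nat_lit 4) (nat_lit 4) (nat_lit 5) (nat_lit 5) (nat_lit 5) (nat_lit 4) (nat_lit 473) (nat_lit 378) (nat_lit 349)) (XT.lf (nat_lit 0) (nat_lit 44917917753) (nat_lit 76) (nat_lit 58463467155) (nat_lit 76) (nat_lit 56631815044) (nat_lit 4) (nat_lit 4) (nat_lit 5) (nat_lit 5) (nat_lit 5) (nat_lit 4) (nat_lit 474) (nat_lit 378) (nat_lit 348)))) (XT.nd (nat_lit 156) (nat_lit 0) (nat_lit 0) (XT.nd (nat_lit 78) (nat_lit 0) (nat_lit 0) (XT.lf (nat_lit 0) (nat_lit 76013119329) (nat_lit 76) (nat_lit 48986109560) (nat_lit 76) (nat_lit 47139486350) (nat_lit 4) (nat_lit 4) (nat_lit 5) (nat_lit 5) (nat_lit 5) (nat_lit 4) (nat_lit 475) (nat_lit 378) (nat_lit 347)) (XT.lf (nat_lit 0) (nat_lit 109268672770) (nat_lit 76) (nat_lit 38917061542) (nat_lit 76) (nat_lit 37056576203) (nat_lit 4) (nat_lit 4) (nat_lit 5) (nat_lit 5) (nat_lit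 5) (nat_lit 4) (nat_lit 476) (nat_lit 378) (nat_lit 346))) (XT.nd (nat_lit 78) (nat_lit 0) (nat_lit 0) (XT.lf (nat_lit 0) (nat_lit 144881648023) (nat_lit 76) (nat_lit 28196654670) (nat_lit 76) (nat_lit 26323334026) (nat_lit 4) (nat_lit 4) (nat_lit 5) (nat_lit 5) (nat_lit 5) (nat_lit 4) (nat_lit 477) (nat_lit 378) (nat_lit 345)) (XT.lf (nat_lit 0) (nat_lit 183063084942) (nat_lit 76) (nat_lit 16761360605) (nat_lit 76) (nat_lit 14876155420) (nat_lit 4) (nat_lit 4) (nat_lit 5) (nat_lit 5) (nat_lit 5) (nat_lit 4) (nat_lit 478) (nat_lit 378) (nat_lit 344)))))) (XT.nd (nat_lit 546) (nat_lit 0) (nat_lit 0) (XT.nd (nat_lit 234) (nat_lit 0) (nat_lit 0) (XT.nd (nat_lit 78) (nat_lit 152) (nat_lit 0) (XT.lf (nat_lit 0) (nat_lit 224039243892) (nat_lit 76) (nat_lit 4543414642) (nat_lit 76) (nat_lit 2647205253) (nat_lit 4) (nat_lit 4) (nat_lit 5) (nat_lit 5) (nat_lit 5) (nat_lit 4) (nat_lit 479) (nat_lit 378)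 (nat_lit 343)) (XT.nd (nat_lit 78) (nat_lit 0) (nat_lit 0) (XT.lf (nat_lit 0) (nat_lit 10546049382) (nat_lit 152) (nat_lit 229780544358) (nat_lit 0) (nat_lit 8730431794) (nat_lit 2) (nat_lit 5) (nat_lit 4) (nat_lit 4) (nat_lit 2) (nat_lit 4) (nat_lit 480) (nat_lit 378) (nat_lit 342)) (XT.lf (nat_lit 0) (nat_lit 24790459859) (nat_lit 152) (nat_lit 220547451595) (nat_lit 0) (nat_lit 22965857193) (nat_lit 2) (nat_lit 5) (nat_lit 4) (nat_lit 4) (nat_lit 2) (nat_lit 4) (nat_lit 481) (nat_lit 378) (nat_lit 341)))) (XT.nd (nat_lit 156) (nat_lit 0) (nat_lit 0) (XT.nd (nat_lit 78) (nat_lit 0) (nat_lit 0) (XT.lf (nat_lit 0) (nat_lit 40066350149) (nat_lit 152) (nat_lit 210795877023) (nat_lit 0) (nat_lit 38233427967) (nat_lit 2) (nat_lit 5) (nat_lit 4) (nat_lit 4) (nat_lit 2) (nat_lit 4) (nat_lit 482) (nat_lit 378) (nat_lit 340)) (XT.lf (nat_lit 0) (nat_lit 56464244047) (nat_lit 152) (nat_lit 200468033534)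 (nat_lit 0) (nat_lit 54623618608) (nat_lit 2) (nat_lit 5) (nat_lit 4) (nat_lit 4) (nat_lit 2) (nat_lit 4) (nat_lit 483) (nat_lit 378) (nat_lit 339))) (XT.nd (nat_lit 78) (nat_lit 0) (nat_lit 0) (XT.lf (nat_lit 0) (nat_lit 74081314257) (nat_lit 152) (nat_lit 189502719093) (nat_lit 0) (nat_lit 72233556174) (nat_lit 2) (nat_lit 5) (nat_lit 4) (nat_lit 4) (nat_lit 2) (nat_lit 4) (nat_lit 484) (nat_lit 378) (nat_lit 338)) (XT.lf (nat_lit 0) (nat_lit 93021958233) (nat_lit 152) (nat_lit 177834954057) (nat_lit 0) (nat_lit 91167595848) (nat_lit 2) (nat_lit 5) (nat_lit 4) (nat_lit 4) (nat_lit 2) (nat_lit 4) (nat_lit 485) (nat_lit 378) (nat_lit 337))))) (XT.nd (nat_lit 312) (nat_lit 0) (nat_lit 0) (XT.nd (nat_lit 156) (nat_lit 0) (nat_lit 0) (XT.nd (nat_lit 78) (nat_lit 0) (nat_lit 0) (XT.lf (nat_lit 0) (nat_lit 113398416826) (nat_lit 152) (nat_lit 165395596115) (nat_lit 0) (nat_lit 111537939349) (nat_lit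 2) (nat_lit 5) (nat_lit 4) (nat_lit 4) (nat_lit 2) (nat_lit 4) (nat_lit 486) (nat_lit 378) (nat_lit 336)) (XT.lf (nat_lit 0) (nat_lit 135331439423) (nat_lit 152) (nat_lit 152110930555) (nat_lit 0) (nat_lit 133465299822) (nat_lit 2) (nat_lit 5) (nat_lit 4) (nat_lit 4) (nat_lit 2) (nat_lit 4) (nat_lit 487) (nat_lit 378) (nat_lit 335))) (XT.nd (nat_lit 78) (nat_lit 0) (nat_lit 0) (XT.lf (nat_lit 0) (nat_lit 158950999489) (nat_lit 152) (nat_lit 137902233431) (nat_lit 0) (nat_lit 157079617182) (nat_lit 2) (nat_lit 5) (nat_lit 4) (nat_lit 4) (nat_lit 2) (nat_lit 4) (nat_lit 488) (nat_lit 378) (nat_lit 334)) (XT.lf (nat_lit 0) (nat_lit 184397064788) (nat_lit 152) (nat_lit 122685305058) (nat_lit 0) (nat_lit 182520828123) (nat_lit 2) (nat_lit 5) (nat_lit 4) (nat_lit 4) (nat_lit 2) (nat_lit 4) (nat_lit 489) (nat_lit 378) (nat_lit 333)))) (XT.nd (nat_lit 156) (nat_lit 0) (nat_lit 0) (XT.nd (nat_lit 78)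 (nat_lit 0) (nat_lit 0) (XT.lf (nat_lit 0) (nat_lit 211820426819) (nat_lit 152) (nat_lit 106369971044) (nat_lit 0) (nat_lit 209939695378) (nat_lit 2) (nat_lit 5) (nat_lit 4) (nat_lit 4) (nat_lit 2) (nat_lit 4) (nat_lit 490) (nat_lit 378) (nat_lit 332)) (XT.lf (nat_lit 0) (nat_lit 241383594393) (nat_lit 152) (nat_lit 88859547929) (nat_lit 0) (nat_lit 239498701122) (nat_lit 2) (nat_lit 5) (nat_lit 4) (nat_lit 4) (nat_lit 2) (nat_lit 4) (nat_lit 491) (nat_lit 378) (nat_lit 331))) (XT.nd (nat_lit 78) (nat_lit 0) (nat_lit 0) (XT.lf (nat_lit 0) (nat_lit 273261756652) (nat_lit 152) (nat_lit 70050270243) (nat_lit 0) (nat_lit 271373009835) (nat_lit 2) (nat_lit 5) (nat_lit 4) (nat_lit 4) (nat_lit 2) (nat_lit 4) (nat_lit 492) (nat_lit 378) (nat_lit 330)) (XT.lf (nat_lit 0) (nat_lit 307643821223) (nat_lit 152) (nat_lit 49830675600) (nat_lit 0) (nat_lit 305751506308) (nat_lit 2) (nat_lit 5) (nat_lit 4) (nat_lit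 4) (nat_lit 2) (nat_lit 4) (nat_lit 493) (nat_lit 378) (nat_lit 329))))))))
noncomputable def xc16 : XT := (XT.nd (nat_lit 59826) (nat_lit 0) (nat_lit 76) (XT.nd (nat_lit 58656) (nat_lit 0) (nat_lit 760) (XT.nd (nat_lit 546) (nat_lit 0) (nat_lit 0) (XT.nd (nat_lit 234) (nat_lit 0) (nat_lit 0) (XT.nd (nat_lit 78) (nat_lit 76) (nat_lit 0) (XT.lf (nat_lit 0) (nat_lit 344733533675) (nat_lit 152) (nat_lit 28080944178) (nat_lit 0) (nat_lit 342837914965) (nat_lit 2) (nat_lit 5) (nat_lit 4) (nat_lit 4) (nat_lit 2) (nat_lit 4) (nat_lit 494) (nat_lit 378) (nat_lit 328)) (XT.nd (nat_lit 78) (nat_lit 76) (nat_lit 0) (XT.lf (nat_lit 0) (nat_lit 384750684896) (nat_lit 152) (nat_lit 4672188682) (nat_lit 0) (nat_lit 382852007118) (nat_lit 2) (nat_lit 5) (nat_lit 4) (nat_lit 4) (nat_lit 2) (nat_lit 4) (nat_lit 495) (nat_lit 378) (nat_lit 327)) (XT.lf (nat_lit 0) (nat_lit 21213266445) (nat_lit 76) (nat_lit 407050345654)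 (nat_lit 76) (nat_lit 405148835404) (nat_lit 1) (nat_lit 4) (nat_lit 2) (nat_lit 5) (nat_lit 2) (nat_lit 4) (nat_lit 496) (nat_lit 378) (nat_lit 326)))) (XT.nd (nat_lit 156) (nat_lit 0) (nat_lit 0) (XT.nd (nat_lit 78) (nat_lit 0) (nat_lit 0) (XT.lf (nat_lit 0) (nat_lit 49264700096) (nat_lit 76) (nat_lit 426039071329) (nat_lit 76) (nat_lit 424134938421) (nat_lit 1) (nat_lit 4) (nat_lit 2) (nat_lit 5) (nat_lit 2) (nat_lit 4) (nat_lit 497) (nat_lit 378) (nat_lit 325)) (XT.lf (nat_lit 0) (nat_lit 79493859329) (nat_lit 76) (nat_lit 446580702162) (nat_lit 76) (nat_lit 444674140866) (nat_lit 1) (nat_lit 4) (nat_lit 2) (nat_lit 5) (nat_lit 2) (nat_lit 4) (nat_lit 498) (nat_lit 378) (nat_lit 324))) (XT.nd (nat_lit 78) (nat_lit 0) (nat_lit 0) (XT.lf (nat_lit 0) (nat_lit 112079879903) (nat_lit 76) (nat_lit 468796966336) (nat_lit 76) (nat_lit 466888156533) (nat_lit 1) (nat_lit 4) (nat_lit 2) (nat_lit 5)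 (nat_lit 2) (nat_lit 4) (nat_lit 499) (nat_lit 378) (nat_lit 323)) (XT.lf (nat_lit 0) (nat_lit 147215864162) (nat_lit 76) (nat_lit 492819515786) (nat_lit 76) (nat_lit 490908624031) (nat_lit 1) (nat_lit 4) (nat_lit 2) (nat_lit 5) (nat_lit 2) (nat_lit 4) (nat_lit 500) (nat_lit 378) (nat_lit 322))))) (XT.nd (nat_lit 234) (nat_lit 0) (nat_lit 0) (XT.nd (nat_lit 78) (nat_lit 0) (nat_lit 0) (XT.lf (nat_lit 0) (nat_lit 185110025346) (nat_lit 76) (nat_lit 518790706360) (nat_lit 76) (nat_lit 516877886874) (nat_lit 1) (nat_lit 4) (nat_lit 2) (nat_lit 5) (nat_lit 2) (nat_lit 4) (nat_lit 501) (nat_lit 378) (nat_lit 321)) (XT.nd (nat_lit 78) (nat_lit 0) (nat_lit 0) (XT.lf (nat_lit 0) (nat_lit 225986921448) (nat_lit 76) (nat_lit 546864441412) (nat_lit 76) (nat_lit 544949836987) (nat_lit 1) (nat_lit 4) (nat_lit 2) (nat_lit 5) (nat_lit 2) (nat_lit 4) (nat_lit 502) (nat_lit 378) (nat_lit 320)) (XT.lf (nat_lit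 0) (nat_lit 270088785925) (nat_lit 76) (nat_lit 577207083814) (nat_lit 76) (nat_lit 575290826670) (nat_lit 1) (nat_lit 4) (nat_lit 2) (nat_lit 5) (nat_lit 2) (nat_lit 4) (nat_lit 503) (nat_lit 378) (nat_lit 319)))) (XT.nd (nat_lit 57720) (nat_lit 0) (nat_lit 2128) (XT.nd (nat_lit 57642) (nat_lit 0) (nat_lit 2508) (XT.lf (nat_lit 0) (nat_lit 317676963160) (nat_lit 76) (nat_lit 609998441818) (nat_lit 76) (nat_lit 608080654378) (nat_lit 1) (nat_lit 4) (nat_lit 2) (nat_lit 5) (nat_lit 2) (nat_lit 4) (nat_lit 504) (nat_lit 378) (nat_lit 318)) (XT.lf (nat_lit 0) (nat_lit 8591649248) (nat_lit 76) (nat_lit 1231219562) (nat_lit 76) (nat_lit 1231219562) (nat_lit 34) (nat_lit 4) (nat_lit 35) (nat_lit 5) (nat_lit 35) (nat_lit 4) (nat_lit 442) (nat_lit 379) (nat_lit 379))) (XT.nd (nat_lit 78) (nat_lit 228) (nat_lit 0) (XT.lf (nat_lit 0) (nat_lit 11631332397) (nat_lit 152) (nat_lit 144572107) (nat_lit 0)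 (nat_lit 11378929814) (nat_lit 32) (nat_lit 5) (nat_lit 34) (nat_lit 4) (nat_lit 32) (nat_lit 4) (nat_lit 443) (nat_lit 379) (nat_lit 378)) (XT.lf (nat_lit 0) (nat_lit 2361354637) (nat_lit 152) (nat_lit 20023641373) (nat_lit 0) (nat_lit 1898393989) (nat_lit 29) (nat_lit 5) (nat_lit 31) (nat_lit 4) (nat_lit 29) (nat_lit 4) (nat_lit 444) (nat_lit 379) (nat_lit 377)))))) (XT.nd (nat_lit 546) (nat_lit 608) (nat_lit 0) (XT.nd (nat_lit 234) (nat_lit 456) (nat_lit 0) (XT.nd (nat_lit 78) (nat_lit 228) (nat_lit 0) (XT.lf (nat_lit 0) (nat_lit 7776057659) (nat_lit 76) (nat_lit 9192509900) (nat_lit 76) (nat_lit 8523459221) (nat_lit 28) (nat_lit 4) (nat_lit 29) (nat_lit 5) (nat_lit 29) (nat_lit 4) (nat_lit 445) (nat_lit 379) (nat_lit 376)) (XT.nd (nat_lit 78) (nat_lit 76) (nat_lit 0) (XT.lf (nat_lit 0) (nat_lit 5649373158) (nat_lit 152) (nat_lit 16318264596) (nat_lit 0) (nat_lit 4830444794) (nat_lit 26)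 (nat_lit 5) (nat_lit 28) (nat_lit 4) (nat_lit 26) (nat_lit 4) (nat_lit 446) (nat_lit 379) (nat_lit 375)) (XT.lf (nat_lit 0) (nat_lit 12079124177) (nat_lit 76) (nat_lit 8555432076) (nat_lit 76) (nat_lit 7568228488) (nat_lit 25) (nat_lit 4) (nat_lit 26) (nat_lit 5) (nat_lit 26) (nat_lit 4) (nat_lit 447) (nat_lit 379) (nat_lit 374)))) (XT.nd (nat_lit 156) (nat_lit 228) (nat_lit 0) (XT.nd (nat_lit 78) (nat_lit 76) (nat_lit 0) (XT.lf (nat_lit 0) (nat_lit 6783928418) (nat_lit 152) (nat_lit 17239432462) (nat_lit 0) (nat_lit 5695343676) (nat_lit 23) (nat_lit 5) (nat_lit 25) (nat_lit 4) (nat_lit 23) (nat_lit 4) (nat_lit 448) (nat_lit 379) (nat_lit 373)) (XT.lf (nat_lit 0) (nat_lit 11392194992) (nat_lit 76) (nat_lit 10592601574) (nat_lit 76) (nat_lit 9366617897) (nat_lit 22) (nat_lit 4) (nat_lit 23) (nat_lit 5) (nat_lit 23) (nat_lit 4) (nat_lit 449) (nat_lit 379) (nat_lit 372))) (XT.nd (nat_lit 78) (nat_lit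 76) (nat_lit 0) (XT.lf (nat_lit 0) (nat_lit 4992306434) (nat_lit 152) (nat_lit 24421045185) (nat_lit 0) (nat_lit 3703539850) (nat_lit 20) (nat_lit 5) (nat_lit 22) (nat_lit 4) (nat_lit 20) (nat_lit 4) (nat_lit 450) (nat_lit 379) (nat_lit 371)) (XT.lf (nat_lit 0) (nat_lit 3902446101) (nat_lit 76) (nat_lit 16257516222) (nat_lit 76) (nat_lit 14856561599) (nat_lit 19) (nat_lit 4) (nat_lit 20) (nat_lit 5) (nat_lit 20) (nat_lit 4) (nat_lit 451) (nat_lit 379) (nat_lit 370))))) (XT.nd (nat_lit 312) (nat_lit 228) (nat_lit 0) (XT.nd (nat_lit 156) (nat_lit 228) (nat_lit 0) (XT.nd (nat_lit 78) (nat_lit 152) (nat_lit 0) (XT.lf (nat_lit 0) (nat_lit 34187300553) (nat_lit 76) (nat_lit 2196755531) (nat_lit 76) (nat_lit 691923095) (nat_lit 19) (nat_lit 4) (nat_lit 20) (nat_lit 5) (nat_lit 20) (nat_lit 4) (nat_lit 452) (nat_lit 379) (nat_lit 369)) (XT.lf (nat_lit 0) (nat_lit 14218603160) (nat_lit 152) (nat_lit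 12372352608) (nat_lit 0) (nat_lit 12693826401) (nat_lit 17) (nat_lit 5) (nat_lit 19) (nat_lit 4) (nat_lit 17) (nat_lit 4) (nat_lit 453) (nat_lit 379) (nat_lit 368))) (XT.nd (nat_lit 78) (nat_lit 152) (nat_lit 0) (XT.lf (nat_lit 0) (nat_lit 16948670568) (nat_lit 76) (nat_lit 13169805780) (nat_lit 76) (nat_lit 11560211419) (nat_lit 16) (nat_lit 4) (nat_lit 17) (nat_lit 5) (nat_lit 17) (nat_lit 4) (nat_lit 454) (nat_lit 379) (nat_lit 367)) (XT.lf (nat_lit 0) (nat_lit 2708569333) (nat_lit 152) (nat_lit 40463389618) (nat_lit 0) (nat_lit 1100827259) (nat_lit 14) (nat_lit 5) (nat_lit 16) (nat_lit 4) (nat_lit 14) (nat_lit 4) (nat_lit 455) (nat_lit 379) (nat_lit 366)))) (XT.nd (nat_lit 156) (nat_lit 152) (nat_lit 0) (XT.nd (nat_lit 78) (nat_lit 76) (nat_lit 0) (XT.lf (nat_lit 0) (nat_lit 17876543437) (nat_lit 152) (nat_lit 12980713935) (nat_lit 0) (nat_lit 16199546673) (nat_lit 14) (nat_lit 5) (nat_lit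 16) (nat_lit 4) (nat_lit 14) (nat_lit 4) (nat_lit 456) (nat_lit 379) (nat_lit 365)) (XT.lf (nat_lit 0) (nat_lit 16278200591) (nat_lit 76) (nat_lit 17768514187) (nat_lit 76) (nat_lit 16027392712) (nat_lit 13) (nat_lit 4) (nat_lit 14) (nat_lit 5) (nat_lit 14) (nat_lit 4) (nat_lit 457) (nat_lit 379) (nat_lit 364))) (XT.nd (nat_lit 78) (nat_lit 152) (nat_lit 0) (XT.lf (nat_lit 0) (nat_lit 47438984213) (nat_lit 76) (nat_lit 3852626815) (nat_lit 76) (nat_lit 2052130608) (nat_lit 13) (nat_lit 4) (nat_lit 14) (nat_lit 5) (nat_lit 14) (nat_lit 4) (nat_lit 458) (nat_lit 379) (nat_lit 363)) (XT.lf (nat_lit 0) (nat_lit 12755817523) (nat_lit 152) (nat_lit 33113646569) (nat_lit 0) (nat_lit 10988700559) (nat_lit 11) (nat_lit 5) (nat_lit 13) (nat_lit 4) (nat_lit 11) (nat_lit 4) (nat_lit 459) (nat_lit 379) (nat_lit 362))))))) (XT.nd (nat_lit 1170) (nat_lit 152) (nat_lit 0) (XT.nd (nat_lit 546) (nat_lit 228)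 (nat_lit 0) (XT.nd (nat_lit 234) (nat_lit 228) (nat_lit 0) (XT.nd (nat_lit 78) (nat_lit 76) (nat_lit 0) (XT.lf (nat_lit 0) (nat_lit 28440078260) (nat_lit 152) (nat_lit 5599323082) (nat_lit 0) (nat_lit 26624481045) (nat_lit 11) (nat_lit 5) (nat_lit 13) (nat_lit 4) (nat_lit 11) (nat_lit 4) (nat_lit 460) (nat_lit 379) (nat_lit 361)) (XT.nd (nat_lit 78) (nat_lit 0) (nat_lit 0) (XT.lf (nat_lit 0) (nat_lit 24123368944) (nat_lit 76) (nat_lit 21255591211) (nat_lit 76) (nat_lit 19395104874) (nat_lit 10) (nat_lit 4) (nat_lit 11) (nat_lit 5) (nat_lit 11) (nat_lit 4) (nat_lit 461) (nat_lit 379) (nat_lit 360)) (XT.lf (nat_lit 0) (nat_lit 55692191124) (nat_lit 76) (nat_lit 7718029737) (nat_lit 76) (nat_lit 5815979399) (nat_lit 10) (nat_lit 4) (nat_lit 11) (nat_lit 5) (nat_lit 11) (nat_lit 4) (nat_lit 462) (nat_lit 379) (nat_lit 359)))) (XT.nd (nat_lit 156) (nat_lit 76) (nat_lit 0) (XT.nd (nat_lit 78) (nat_lit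 0) (nat_lit 0) (XT.lf (nat_lit 0) (nat_lit 8576436063) (nat_lit 152) (nat_lit 58722346303) (nat_lit 0) (nat_lit 6728306993) (nat_lit 8) (nat_lit 5) (nat_lit 10) (nat_lit 4) (nat_lit 8) (nat_lit 4) (nat_lit 463) (nat_lit 379) (nat_lit 358)) (XT.lf (nat_lit 0) (nat_lit 23959520181) (nat_lit 152) (nat_lit 33168157838) (nat_lit 0) (nat_lit 22077453557) (nat_lit 8) (nat_lit 5) (nat_lit 10) (nat_lit 4) (nat_lit 8) (nat_lit 4) (nat_lit 464) (nat_lit 379) (nat_lit 357))) (XT.nd (nat_lit 78) (nat_lit 76) (nat_lit 0) (XT.lf (nat_lit 0) (nat_lit 40268210556) (nat_lit 152) (nat_lit 6189739419) (nat_lit 0) (nat_lit 38354720270) (nat_lit 8) (nat_lit 5) (nat_lit 10) (nat_lit 4) (nat_lit 8) (nat_lit 4) (nat_lit 465) (nat_lit 379) (nat_lit 356)) (XT.lf (nat_lit 0) (nat_lit 23112526242) (nat_lit 76) (nat_lit 34847476343) (nat_lit 76) (nat_lit 32904890075) (nat_lit 7) (nat_lit 4) (nat_lit 8) (nat_lit 5) (nat_lit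 8) (nat_lit 4) (nat_lit 466) (nat_lit 379) (nat_lit 355))))) (XT.nd (nat_lit 312) (nat_lit 76) (nat_lit 0) (XT.nd (nat_lit 156) (nat_lit 152) (nat_lit 0) (XT.nd (nat_lit 78) (nat_lit 0) (nat_lit 0) (XT.lf (nat_lit 0) (nat_lit 54430788135) (nat_lit 76) (nat_lit 22474073230) (nat_lit 76) (nat_lit 20504546238) (nat_lit 7) (nat_lit 4) (nat_lit 8) (nat_lit 5) (nat_lit 8) (nat_lit 4) (nat_lit 467) (nat_lit 379) (nat_lit 354)) (XT.lf (nat_lit 0) (nat_lit 87745975220) (nat_lit 76) (nat_lit 9369242997) (nat_lit 76) (nat_lit 7374770889) (nat_lit 7) (nat_lit 4) (nat_lit 8) (nat_lit 5) (nat_lit 8) (nat_lit 4) (nat_lit 468) (nat_lit 379) (nat_lit 353))) (XT.nd (nat_lit 78) (nat_lit 0) (nat_lit 0) (XT.lf (nat_lit 0) (nat_lit 6605244961) (nat_lit 152) (nat_lit 100841826423) (nat_lit 0) (nat_lit 4683750259) (nat_lit 5) (nat_lit 5) (nat_lit 7) (nat_lit 4) (nat_lit 5) (nat_lit 4) (nat_lit 469) (nat_lit 379) (nat_lit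 352)) (XT.lf (nat_lit 0) (nat_lit 21674463644) (nat_lit 152) (nat_lit 78958353118) (nat_lit 0) (nat_lit 19732600927) (nat_lit 5) (nat_lit 5) (nat_lit 7) (nat_lit 4) (nat_lit 5) (nat_lit 4) (nat_lit 470) (nat_lit 379) (nat_lit 351)))) (XT.nd (nat_lit 156) (nat_lit 76) (nat_lit 0) (XT.nd (nat_lit 78) (nat_lit 0) (nat_lit 0) (XT.lf (nat_lit 0) (nat_lit 37737450785) (nat_lit 152) (nat_lit 55755190920) (nat_lit 0) (nat_lit 35776728796) (nat_lit 5) (nat_lit 5) (nat_lit 7) (nat_lit 4) (nat_lit 5) (nat_lit 4) (nat_lit 471) (nat_lit 379) (nat_lit 350)) (XT.lf (nat_lit 0) (nat_lit 54889394458) (nat_lit 152) (nat_lit 31094839609) (nat_lit 0) (nat_lit 52911210178) (nat_lit 5) (nat_lit 5) (nat_lit 7) (nat_lit 4) (nat_lit 5) (nat_lit 4) (nat_lit 472) (nat_lit 379) (nat_lit 349))) (XT.nd (nat_lit 78) (nat_lit 76) (nat_lit 0) (XT.lf (nat_lit 0) (nat_lit 73231935810) (nat_lit 152) (nat_lit 4831163769) (nat_lit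 0) (nat_lit 71237582743) (nat_lit 5) (nat_lit 5) (nat_lit 7) (nat_lit 4) (nat_lit 5) (nat_lit 4) (nat_lit 473) (nat_lit 379) (nat_lit 348)) (XT.lf (nat_lit 0) (nat_lit 23958288035) (nat_lit 76) (nat_lit 69289539365) (nat_lit 76) (nat_lit 67280215199) (nat_lit 4) (nat_lit 4) (nat_lit 5) (nat_lit 5) (nat_lit 5) (nat_lit 4) (nat_lit 474) (nat_lit 379) (nat_lit 347)))))) (XT.nd (nat_lit 546) (nat_lit 0) (nat_lit 0) (XT.nd (nat_lit 234) (nat_lit 152) (nat_lit 0) (XT.nd (nat_lit 78) (nat_lit 0) (nat_lit 0) (XT.lf (nat_lit 0) (nat_lit 54896151024) (nat_lit 76) (nat_lit 59892228974) (nat_lit 76) (nat_lit 57869042680) (nat_lit 4) (nat_lit 4) (nat_lit 5) (nat_lit 5) (nat_lit 5) (nat_lit 4) (nat_lit 475) (nat_lit 379) (nat_lit 346)) (XT.nd (nat_lit 78) (nat_lit 0) (nat_lit 0) (XT.lf (nat_lit 0) (nat_lit 88006020588) (nat_lit 76) (nat_lit 49897298739) (nat_lit 76) (nat_lit 47861277140) (nat_lit 4) (nat_lit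 4) (nat_lit 5) (nat_lit 5) (nat_lit 5) (nat_lit 4) (nat_lit 476) (nat_lit 379) (nat_lit 345)) (XT.lf (nat_lit 0) (nat_lit 123484103363) (nat_lit 76) (nat_lit 39245519442) (nat_lit 76) (nat_lit 37197613301) (nat_lit 4) (nat_lit 4) (nat_lit 5) (nat_lit 5) (nat_lit 5) (nat_lit 4) (nat_lit 477) (nat_lit 379) (nat_lit 344)))) (XT.nd (nat_lit 156) (nat_lit 152) (nat_lit 0) (XT.nd (nat_lit 78) (nat_lit 0) (nat_lit 0) (XT.lf (nat_lit 0) (nat_lit 161540639839) (nat_lit 76) (nat_lit 27873769428) (nat_lit 76) (nat_lit 25814859083) (nat_lit 4) (nat_lit 4) (nat_lit 5) (nat_lit 5) (nat_lit 5) (nat_lit 4) (nat_lit 478) (nat_lit 379) (nat_lit 343)) (XT.lf (nat_lit 0) (nat_lit 202401150231) (nat_lit 76) (nat_lit 15714660551) (nat_lit 76) (nat_lit 13645561127) (nat_lit 4) (nat_lit 4) (nat_lit 5) (nat_lit 5) (nat_lit 5) (nat_lit 4) (nat_lit 479) (nat_lit 379) (nat_lit 342))) (XT.nd (nat_lit 78) (nat_lit 152) (nat_lit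 0) (XT.lf (nat_lit 0) (nat_lit 246307770898) (nat_lit 76) (nat_lit 2696138829) (nat_lit 76) (nat_lit 617605074) (nat_lit 4) (nat_lit 4) (nat_lit 5) (nat_lit 5) (nat_lit 5) (nat_lit 4) (nat_lit 480) (nat_lit 379) (nat_lit 341)) (XT.lf (nat_lit 0) (nat_lit 13498196483) (nat_lit 152) (nat_lit 243867641492) (nat_lit 0) (nat_lit 11510321009) (nat_lit 2) (nat_lit 5) (nat_lit 4) (nat_lit 4) (nat_lit 2) (nat_lit 4) (nat_lit 481) (nat_lit 379) (nat_lit 340))))) (XT.nd (nat_lit 312) (nat_lit 0) (nat_lit 0) (XT.nd (nat_lit 156) (nat_lit 0) (nat_lit 0) (XT.nd (nat_lit 78) (nat_lit 0) (nat_lit 0) (XT.lf (nat_lit 0) (nat_lit 28725977343) (nat_lit 152) (nat_lit 234214075117) (nat_lit 0) (nat_lit 26730398612) (nat_lit 2) (nat_lit 5) (nat_lit 4) (nat_lit 4) (nat_lit 2) (nat_lit 4) (nat_lit 482) (nat_lit 379) (nat_lit 339)) (XT.lf (nat_lit 0) (nat_lit 45079325472) (nat_lit 152) (nat_lit 223976979958) (nat_lit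 0) (nat_lit 43076614097) (nat_lit 2) (nat_lit 5) (nat_lit 4) (nat_lit 4) (nat_lit 2) (nat_lit 4) (nat_lit 483) (nat_lit 379) (nat_lit 338))) (XT.nd (nat_lit 78) (nat_lit 0) (nat_lit 0) (XT.lf (nat_lit 0) (nat_lit 62655149599) (nat_lit 152) (nat_lit 213095691747) (nat_lit 0) (nat_lit 60645833924) (nat_lit 2) (nat_lit 5) (nat_lit 4) (nat_lit 4) (nat_lit 2) (nat_lit 4) (nat_lit 484) (nat_lit 379) (nat_lit 337)) (XT.lf (nat_lit 0) (nat_lit 81557602757) (nat_lit 152) (nat_lit 201505728778) (nat_lit 0) (nat_lit 79542171989) (nat_lit 2) (nat_lit 5) (nat_lit 4) (nat_lit 4) (nat_lit 2) (nat_lit 4) (nat_lit 485) (nat_lit 379) (nat_lit 336)))) (XT.nd (nat_lit 156) (nat_lit 0) (nat_lit 0) (XT.nd (nat_lit 78) (nat_lit 0) (nat_lit 0) (XT.lf (nat_lit 0) (nat_lit 101898699483) (nat_lit 152) (nat_lit 189138409786) (nat_lit 0) (nat_lit 99877606591) (nat_lit 2) (nat_lit 5) (nat_lit 4) (nat_lit 4) (nat_lit 2) (nat_lit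 4) (nat_lit 486) (nat_lit 379) (nat_lit 335)) (XT.lf (nat_lit 0) (nat_lit 123798979610) (nat_lit 152) (nat_lit 175920446957) (nat_lit 0) (nat_lit 121772644011) (nat_lit 2) (nat_lit 5) (nat_lit 4) (nat_lit 4) (nat_lit 2) (nat_lit 4) (nat_lit 487) (nat_lit 379) (nat_lit 334))) (XT.nd (nat_lit 78) (nat_lit 0) (nat_lit 0) (XT.lf (nat_lit 0) (nat_lit 147388222574) (nat_lit 152) (nat_lit 161773511622) (nat_lit 0) (nat_lit 145357032617) (nat_lit 2) (nat_lit 5) (nat_lit 4) (nat_lit 4) (nat_lit 2) (nat_lit 4) (nat_lit 488) (nat_lit 379) (nat_lit 333)) (XT.lf (nat_lit 0) (nat_lit 172806216483) (nat_lit 152) (nat_lit 146613770090) (nat_lit 0) (nat_lit 170770531750) (nat_lit 2) (nat_lit 5) (nat_lit 4) (nat_lit 4) (nat_lit 2) (nat_lit 4) (nat_lit 489) (nat_lit 379) (nat_lit 332))))))))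
noncomputable def xc17 : XT := (XT.nd (nat_lit 59670) (nat_lit 0) (nat_lit 76) (XT.nd (nat_lit 1092) (nat_lit 0) (nat_lit 0) (XT.nd (nat_lit 546) (nat_lit 76) (nat_lit 0) (XT.nd (nat_lit 234) (nat_lit 0) (nat_lit 0) (XT.nd (nat_lit 78) (nat_lit 0) (nat_lit 0) (XT.lf (nat_lit 0) (nat_lit 200203586485) (nat_lit 152) (nat_lit 130351386855) (nat_lit 0) (nat_lit 198163739922) (nat_lit 2) (nat_lit 5) (nat_lit 4) (nat_lit 4) (nat_lit 2) (nat_lit 4) (nat_lit 490) (nat_lit 379) (nat_lit 331)) (XT.nd (nat_lit 78) (nat_lit 0) (nat_lit 0) (XT.lf (nat_lit 0) (nat_lit 229742687366) (nat_lit 152) (nat_lit 112889992239) (nat_lit 0) (nat_lit 227698987258) (nat_lit 2) (nat_lit 5) (nat_lit 4) (nat_lit 4) (nat_lit 2) (nat_lit 4) (nat_lit 491) (nat_lit 379) (nat_lit 330)) (XT.lf (nat_lit 0) (nat_lit 261598565650) (nat_lit 152) (nat_lit 94126111312) (nat_lit 0) (nat_lit 259551297443) (nat_lit 2) (nat_lit 5) (nat_lit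 4) (nat_lit 4) (nat_lit 2) (nat_lit 4) (nat_lit 492) (nat_lit 379) (nat_lit 329)))) (XT.nd (nat_lit 156) (nat_lit 0) (nat_lit 0) (XT.nd (nat_lit 78) (nat_lit 0) (nat_lit 0) (XT.lf (nat_lit 0) (nat_lit 295959996911) (nat_lit 152) (nat_lit 73948550704) (nat_lit 0) (nat_lit 293909424910) (nat_lit 2) (nat_lit 5) (nat_lit 4) (nat_lit 4) (nat_lit 2) (nat_lit 4) (nat_lit 493) (nat_lit 379) (nat_lit 328)) (XT.lf (nat_lit 0) (nat_lit 333030604446) (nat_lit 152) (nat_lit 52237739686) (nat_lit 0) (nat_lit 330976973376) (nat_lit 2) (nat_lit 5) (nat_lit 4) (nat_lit 4) (nat_lit 2) (nat_lit 4) (nat_lit 494) (nat_lit 379) (nat_lit 327))) (XT.nd (nat_lit 78) (nat_lit 0) (nat_lit 0) (XT.lf (nat_lit 0) (nat_lit 373030065929) (nat_lit 152) (nat_lit 28865021600) (nat_lit 0) (nat_lit 370973602388) (nat_lit 2) (nat_lit 5) (nat_lit 4) (nat_lit 4) (nat_lit 2) (nat_lit 4) (nat_lit 495) (nat_lit 379) (nat_lit 326)) (XT.lf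 (nat_lit 0) (nat_lit 416195415206) (nat_lit 152) (nat_lit 3691891450) (nat_lit 0) (nat_lit 414136329006) (nat_lit 2) (nat_lit 5) (nat_lit 4) (nat_lit 4) (nat_lit 2) (nat_lit 4) (nat_lit 496) (nat_lit 379) (nat_lit 325))))) (XT.nd (nat_lit 234) (nat_lit 0) (nat_lit 0) (XT.nd (nat_lit 78) (nat_lit 0) (nat_lit 0) (XT.lf (nat_lit 0) (nat_lit 24205553754) (nat_lit 76) (nat_lit 438954809715) (nat_lit 76) (nat_lit 436893295128) (nat_lit 1) (nat_lit 4) (nat_lit 2) (nat_lit 5) (nat_lit 2) (nat_lit 4) (nat_lit 497) (nat_lit 379) (nat_lit 324)) (XT.nd (nat_lit 78) (nat_lit 0) (nat_lit 0) (XT.lf (nat_lit 0) (nat_lit 54405159431) (nat_lit 76) (nat_lit 459511490007) (nat_lit 76) (nat_lit 457447726912) (nat_lit 1) (nat_lit 4) (nat_lit 2) (nat_lit 5) (nat_lit 2) (nat_lit 4) (nat_lit 498) (nat_lit 379) (nat_lit 323)) (XT.lf (nat_lit 0) (nat_lit 86963815601) (nat_lit 76) (nat_lit 481741688864) (nat_lit 76) (nat_lit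 479675843819) (nat_lit 1) (nat_lit 4) (nat_lit 2) (nat_lit 5) (nat_lit 2) (nat_lit 4) (nat_lit 499) (nat_lit 379) (nat_lit 322)))) (XT.nd (nat_lit 156) (nat_lit 0) (nat_lit 0) (XT.nd (nat_lit 78) (nat_lit 0) (nat_lit 0) (XT.lf (nat_lit 0) (nat_lit 122074462449) (nat_lit 76) (nat_lit 505777140799) (nat_lit 76) (nat_lit 503709368021) (nat_lit 1) (nat_lit 4) (nat_lit 2) (nat_lit 5) (nat_lit 2) (nat_lit 4) (nat_lit 500) (nat_lit 379) (nat_lit 321)) (XT.lf (nat_lit 0) (nat_lit 159945163067) (nat_lit 76) (nat_lit 531760278119) (nat_lit 76) (nat_lit 529690720404) (nat_lit 1) (nat_lit 4) (nat_lit 2) (nat_lit 5) (nat_lit 2) (nat_lit 4) (nat_lit 501) (nat_lit 379) (nat_lit 320))) (XT.nd (nat_lit 78) (nat_lit 0) (nat_lit 0) (XT.lf (nat_lit 0) (nat_lit 200800336422) (nat_lit 76) (nat_lit 559845074972) (nat_lit 76) (nat_lit 557773864536) (nat_lit 1) (nat_lit 4) (nat_lit 2) (nat_lit 5) (nat_lit 2) (nat_lit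 4) (nat_lit 502) (nat_lit 379) (nat_lit 319)) (XT.lf (nat_lit 0) (nat_lit 244882087245) (nat_lit 76) (nat_lit 590197959782) (nat_lit 76) (nat_lit 588125219051) (nat_lit 1) (nat_lit 4) (nat_lit 2) (nat_lit 5) (nat_lit 2) (nat_lit 4) (nat_lit 503) (nat_lit 379) (nat_lit 318)))))) (XT.nd (nat_lit 57954) (nat_lit 0) (nat_lit 1216) (XT.nd (nat_lit 57642) (nat_lit 0) (nat_lit 2052) (XT.nd (nat_lit 57486) (nat_lit 0) (nat_lit 2584) (XT.lf (nat_lit 0) (nat_lit 292451640726) (nat_lit 76) (nat_lit 622998801498) (nat_lit 76) (nat_lit 620924643826) (nat_lit 1) (nat_lit 4) (nat_lit 2) (nat_lit 5) (nat_lit 2) (nat_lit 4) (nat_lit 504) (nat_lit 379) (nat_lit 317)) (XT.nd (nat_lit 78) (nat_lit 152) (nat_lit 0) (XT.lf (nat_lit 0) (nat_lit 2362375710) (nat_lit 76) (nat_lit 3870082812) (nat_lit 76) (nat_lit 3870082812) (nat_lit 37) (nat_lit 4) (nat_lit 38) (nat_lit 5) (nat_lit 38) (nat_lit 4) (nat_lit 440) (nat_lit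 380) (nat_lit 380)) (XT.lf (nat_lit 0) (nat_lit 5543525150) (nat_lit 152) (nat_lit 10329783487) (nat_lit 0) (nat_lit 5257300620) (nat_lit 35) (nat_lit 5) (nat_lit 37) (nat_lit 4) (nat_lit 35) (nat_lit 4) (nat_lit 441) (nat_lit 380) (nat_lit 379)))) (XT.nd (nat_lit 156) (nat_lit 304) (nat_lit 0) (XT.nd (nat_lit 78) (nat_lit 152) (nat_lit 0) (XT.lf (nat_lit 0) (nat_lit 16492862280) (nat_lit 76) (nat_lit 3091961448) (nat_lit 76) (nat_lit 2540714205) (nat_lit 34) (nat_lit 4) (nat_lit 35) (nat_lit 5) (nat_lit 35) (nat_lit 4) (nat_lit 442) (nat_lit 380) (nat_lit 378)) (XT.lf (nat_lit 0) (nat_lit 11191726668) (nat_lit 152) (nat_lit 1565702302) (nat_lit 0) (nat_lit 10433023198) (nat_lit 32) (nat_lit 5) (nat_lit 34) (nat_lit 4) (nat_lit 32) (nat_lit 4) (nat_lit 443) (nat_lit 380) (nat_lit 377))) (XT.nd (nat_lit 78) (nat_lit 76) (nat_lit 0) (XT.lf (nat_lit 0) (nat_lit 1488984588) (nat_lit 152) (nat_lit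 22290695563) (nat_lit 0) (nat_lit 560319824) (nat_lit 29) (nat_lit 5) (nat_lit 31) (nat_lit 4) (nat_lit 29) (nat_lit 4) (nat_lit 444) (nat_lit 380) (nat_lit 376)) (XT.lf (nat_lit 0) (nat_lit 4766064263) (nat_lit 76) (nat_lit 10960278583) (nat_lit 76) (nat_lit 9840789714) (nat_lit 28) (nat_lit 4) (nat_lit 29) (nat_lit 5) (nat_lit 29) (nat_lit 4) (nat_lit 445) (nat_lit 380) (nat_lit 375))))) (XT.nd (nat_lit 312) (nat_lit 380) (nat_lit 0) (XT.nd (nat_lit 156) (nat_lit 228) (nat_lit 0) (XT.nd (nat_lit 78) (nat_lit 76) (nat_lit 0) (XT.lf (nat_lit 0) (nat_lit 3967136543) (nat_lit 152) (nat_lit 20194754858) (nat_lit 0) (nat_lit 2732681445) (nat_lit 26) (nat_lit 5) (nat_lit 28) (nat_lit 4) (nat_lit 26) (nat_lit 4) (nat_lit 446) (nat_lit 380) (nat_lit 374)) (XT.lf (nat_lit 0) (nat_lit 7442403234) (nat_lit 76) (nat_lit 11132992987) (nat_lit 76) (nat_lit 9742727497) (nat_lit 25) (nat_lit 4) (nat_lit 26)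 (nat_lit 5) (nat_lit 26) (nat_lit 4) (nat_lit 447) (nat_lit 380) (nat_lit 373))) (XT.nd (nat_lit 78) (nat_lit 76) (nat_lit 0) (XT.lf (nat_lit 0) (nat_lit 4250571444) (nat_lit 152) (nat_lit 22817484439) (nat_lit 0) (nat_lit 2789110138) (nat_lit 23) (nat_lit 5) (nat_lit 25) (nat_lit 4) (nat_lit 23) (nat_lit 4) (nat_lit 448) (nat_lit 380) (nat_lit 372)) (XT.lf (nat_lit 0) (nat_lit 5031729815) (nat_lit 76) (nat_lit 14033081069) (nat_lit 76) (nat_lit 12444398526) (nat_lit 22) (nat_lit 4) (nat_lit 23) (nat_lit 5) (nat_lit 23) (nat_lit 4) (nat_lit 449) (nat_lit 380) (nat_lit 371)))) (XT.nd (nat_lit 156) (nat_lit 228) (nat_lit 0) (XT.nd (nat_lit 78) (nat_lit 0) (nat_lit 0) (XT.lf (nat_lit 0) (nat_lit 1492897291) (nat_lit 76) (nat_lit 67774549) (nat_lit 152) (nat_lit 31739037129) (nat_lit 20) (nat_lit 5) (nat_lit 21) (nat_lit 5) (nat_lit 22) (nat_lit 4) (nat_lit 450) (nat_lit 380) (nat_lit 370)) (XT.lf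 (nat_lit 0) (nat_lit 16395185843) (nat_lit 152) (nat_lit 4154725347) (nat_lit 0) (nat_lit 14666088998) (nat_lit 20) (nat_lit 5) (nat_lit 22) (nat_lit 4) (nat_lit 20) (nat_lit 4) (nat_lit 451) (nat_lit 380) (nat_lit 369))) (XT.nd (nat_lit 78) (nat_lit 152) (nat_lit 0) (XT.lf (nat_lit 0) (nat_lit 25468990971) (nat_lit 76) (nat_lit 6824029493) (nat_lit 76) (nat_lit 4998749487) (nat_lit 19) (nat_lit 4) (nat_lit 20) (nat_lit 5) (nat_lit 20) (nat_lit 4) (nat_lit 452) (nat_lit 380) (nat_lit 368)) (XT.lf (nat_lit 0) (nat_lit 9574965284) (nat_lit 152) (nat_lit 22200918175) (nat_lit 0) (nat_lit 7751785771) (nat_lit 17) (nat_lit 5) (nat_lit 19) (nat_lit 4) (nat_lit 17) (nat_lit 4) (nat_lit 453) (nat_lit 380) (nat_lit 367))))))) (XT.nd (nat_lit 1170) (nat_lit 380) (nat_lit 0) (XT.nd (nat_lit 546) (nat_lit 304) (nat_lit 0) (XT.nd (nat_lit 234) (nat_lit 228) (nat_lit 0) (XT.nd (nat_lit 78) (nat_lit 152) (nat_lit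 0) (XT.lf (nat_lit 0) (nat_lit 6299719823) (nat_lit 76) (nat_lit 18771866600) (nat_lit 76) (nat_lit 16870152270) (nat_lit 16) (nat_lit 4) (nat_lit 17) (nat_lit 5) (nat_lit 17) (nat_lit 4) (nat_lit 454) (nat_lit 380) (nat_lit 366)) (XT.nd (nat_lit 78) (nat_lit 152) (nat_lit 0) (XT.lf (nat_lit 0) (nat_lit 36919076585) (nat_lit 76) (nat_lit 4804260659) (nat_lit 76) (nat_lit 2829828906) (nat_lit 16) (nat_lit 4) (nat_lit 17) (nat_lit 5) (nat_lit 17) (nat_lit 4) (nat_lit 455) (nat_lit 380) (nat_lit 365)) (XT.lf (nat_lit 0) (nat_lit 12004815690) (nat_lit 152) (nat_lit 25295493705) (nat_lit 0) (nat_lit 10060279785) (nat_lit 14) (nat_lit 5) (nat_lit 16) (nat_lit 4) (nat_lit 14) (nat_lit 4) (nat_lit 456) (nat_lit 380) (nat_lit 364)))) (XT.nd (nat_lit 156) (nat_lit 152) (nat_lit 0) (XT.nd (nat_lit 78) (nat_lit 0) (nat_lit 0) (XT.lf (nat_lit 0) (nat_lit 3122401483) (nat_lit 76) (nat_lit 24640015615) (nat_lit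 76) (nat_lit 22636104978) (nat_lit 13) (nat_lit 4) (nat_lit 14) (nat_lit 5) (nat_lit 14) (nat_lit 4) (nat_lit 457) (nat_lit 380) (nat_lit 363)) (XT.lf (nat_lit 0) (nat_lit 33881484084) (nat_lit 76) (nat_lit 10927732551) (nat_lit 76) (nat_lit 8868845309) (nat_lit 13) (nat_lit 4) (nat_lit 14) (nat_lit 5) (nat_lit 14) (nat_lit 4) (nat_lit 458) (nat_lit 380) (nat_lit 362))) (XT.nd (nat_lit 78) (nat_lit 0) (nat_lit 0) (XT.lf (nat_lit 0) (nat_lit 5623461475) (nat_lit 152) (nat_lit 47986900374) (nat_lit 0) (nat_lit 3614136231) (nat_lit 11) (nat_lit 5) (nat_lit 13) (nat_lit 4) (nat_lit 11) (nat_lit 4) (nat_lit 459) (nat_lit 380) (nat_lit 361)) (XT.lf (nat_lit 0) (nat_lit 21126590915) (nat_lit 152) (nat_lit 20840305637) (nat_lit 0) (nat_lit 19072376551) (nat_lit 11) (nat_lit 5) (nat_lit 13) (nat_lit 4) (nat_lit 11) (nat_lit 4) (nat_lit 460) (nat_lit 380) (nat_lit 360))))) (XT.nd (nat_lit 312) (nat_lit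 76) (nat_lit 0) (XT.nd (nat_lit 156) (nat_lit 152) (nat_lit 0) (XT.nd (nat_lit 78) (nat_lit 0) (nat_lit 0) (XT.lf (nat_lit 0) (nat_lit 8026702969) (nat_lit 76) (nat_lit 29619741611) (nat_lit 76) (nat_lit 27523963245) (nat_lit 10) (nat_lit 4) (nat_lit 11) (nat_lit 5) (nat_lit 11) (nat_lit 4) (nat_lit 461) (nat_lit 380) (nat_lit 359)) (XT.lf (nat_lit 0) (nat_lit 39269832829) (nat_lit 76) (nat_lit 16247496596) (nat_lit 76) (nat_lit 14113233044) (nat_lit 10) (nat_lit 4) (nat_lit 11) (nat_lit 5) (nat_lit 11) (nat_lit 4) (nat_lit 462) (nat_lit 380) (nat_lit 358))) (XT.nd (nat_lit 78) (nat_lit 76) (nat_lit 0) (XT.lf (nat_lit 0) (nat_lit 44565220) (nat_lit 152) (nat_lit 2078539281) (nat_lit 76) (nat_lit 72339833839) (nat_lit 9) (nat_lit 5) (nat_lit 11) (nat_lit 5) (nat_lit 10) (nat_lit 4) (nat_lit 463) (nat_lit 380) (nat_lit 357)) (XT.lf (nat_lit 0) (nat_lit 15213773239) (nat_lit 152) (nat_lit 51322121559)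 (nat_lit 0) (nat_lit 13115780069) (nat_lit 8) (nat_lit 5) (nat_lit 10) (nat_lit 4) (nat_lit 8) (nat_lit 4) (nat_lit 464) (nat_lit 380) (nat_lit 356)))) (XT.nd (nat_lit 156) (nat_lit 0) (nat_lit 0) (XT.nd (nat_lit 78) (nat_lit 76) (nat_lit 0) (XT.lf (nat_lit 0) (nat_lit 31386672805) (nat_lit 152) (nat_lit 24619747088) (nat_lit 0) (nat_lit 29259583653) (nat_lit 8) (nat_lit 5) (nat_lit 10) (nat_lit 4) (nat_lit 8) (nat_lit 4) (nat_lit 465) (nat_lit 380) (nat_lit 355)) (XT.lf (nat_lit 0) (nat_lit 3809091874) (nat_lit 76) (nat_lit 44842260022) (nat_lit 76) (nat_lit 42688230146) (nat_lit 7) (nat_lit 4) (nat_lit 8) (nat_lit 5) (nat_lit 8) (nat_lit 4) (nat_lit 466) (nat_lit 380) (nat_lit 354))) (XT.nd (nat_lit 78) (nat_lit 0) (nat_lit 0) (XT.lf (nat_lit 0) (nat_lit 34882865422) (nat_lit 76) (nat_lit 32593109375) (nat_lit 76) (nat_lit 30414134383) (nat_lit 7) (nat_lit 4) (nat_lit 8) (nat_lit 5) (nat_lit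 8) (nat_lit 4) (nat_lit 467) (nat_lit 380) (nat_lit 353)) (XT.lf (nat_lit 0) (nat_lit 67971674408) (nat_lit 76) (nat_lit 19603327722) (nat_lit 76) (nat_lit 17401255401) (nat_lit 7) (nat_lit 4) (nat_lit 8) (nat_lit 5) (nat_lit 8) (nat_lit 4) (nat_lit 468) (nat_lit 380) (nat_lit 352)))))) (XT.nd (nat_lit 546) (nat_lit 152) (nat_lit 0) (XT.nd (nat_lit 234) (nat_lit 76) (nat_lit 0) (XT.nd (nat_lit 78) (nat_lit 152) (nat_lit 0) (XT.lf (nat_lit 0) (nat_lit 103271600666) (nat_lit 76) (nat_lit 5795938579) (nat_lit 76) (nat_lit 3572479843) (nat_lit 7) (nat_lit 4) (nat_lit 8) (nat_lit 5) (nat_lit 8) (nat_lit 4) (nat_lit 469) (nat_lit 380) (nat_lit 351)) (XT.nd (nat_lit 78) (nat_lit 0) (nat_lit 0) (XT.lf (nat_lit 0) (nat_lit 11265196994) (nat_lit 152) (nat_lit 100500743467) (nat_lit 0) (nat_lit 9128757972) (nat_lit 5) (nat_lit 5) (nat_lit 7) (nat_lit 4) (nat_lit 5) (nat_lit 4) (nat_lit 470) (nat_lit 380)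 (nat_lit 350)) (XT.lf (nat_lit 0) (nat_lit 27233913732) (nat_lit 152) (nat_lit 77489438895) (nat_lit 0) (nat_lit 25080012420) (nat_lit 5) (nat_lit 5) (nat_lit 7) (nat_lit 4) (nat_lit 5) (nat_lit 4) (nat_lit 471) (nat_lit 380) (nat_lit 349)))) (XT.nd (nat_lit 156) (nat_lit 76) (nat_lit 0) (XT.nd (nat_lit 78) (nat_lit 0) (nat_lit 0) (XT.lf (nat_lit 0) (nat_lit 44298569994) (nat_lit 152) (nat_lit 53006733535) (nat_lit 0) (nat_lit 42128499894) (nat_lit 5) (nat_lit 5) (nat_lit 7) (nat_lit 4) (nat_lit 5) (nat_lit 4) (nat_lit 472) (nat_lit 380) (nat_lit 348)) (XT.lf (nat_lit 0) (nat_lit 62560289668) (nat_lit 152) (nat_lit 26907544686) (nat_lit 0) (nat_lit 60375248470) (nat_lit 5) (nat_lit 5) (nat_lit 7) (nat_lit 4) (nat_lit 5) (nat_lit 4) (nat_lit 473) (nat_lit 380) (nat_lit 347))) (XT.nd (nat_lit 78) (nat_lit 0) (nat_lit 0) (XT.lf (nat_lit 0) (nat_lit 994623679) (nat_lit 76) (nat_lit 81148195537)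 (nat_lit 76) (nat_lit 78949292210) (nat_lit 4) (nat_lit 4) (nat_lit 5) (nat_lit 5) (nat_lit 5) (nat_lit 4) (nat_lit 474) (nat_lit 380) (nat_lit 346)) (XT.lf (nat_lit 0) (nat_lit 31786802791) (nat_lit 76) (nat_lit 71825002928) (nat_lit 76) (nat_lit 69613264297) (nat_lit 4) (nat_lit 4) (nat_lit 5) (nat_lit 5) (nat_lit 5) (nat_lit 4) (nat_lit 475) (nat_lit 380) (nat_lit 345))))) (XT.nd (nat_lit 312) (nat_lit 152) (nat_lit 0) (XT.nd (nat_lit 156) (nat_lit 0) (nat_lit 0) (XT.nd (nat_lit 78) (nat_lit 0) (nat_lit 0) (XT.lf (nat_lit 0) (nat_lit 64761779877) (nat_lit 76) (nat_lit 61898700268) (nat_lit 76) (nat_lit 59675077096) (nat_lit 4) (nat_lit 4) (nat_lit 5) (nat_lit 5) (nat_lit 5) (nat_lit 4) (nat_lit 476) (nat_lit 380) (nat_lit 344)) (XT.lf (nat_lit 0) (nat_lit 100114962209) (nat_lit 76) (nat_lit 51310465023) (nat_lit 76) (nat_lit 49075837646) (nat_lit 4) (nat_lit 4) (nat_lit 5) (nat_lit 5) (nat_lit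 5) (nat_lit 4) (nat_lit 477) (nat_lit 380) (nat_lit 343))) (XT.nd (nat_lit 78) (nat_lit 0) (nat_lit 0) (XT.lf (nat_lit 0) (nat_lit 138055850127) (nat_lit 76) (nat_lit 39997552095) (nat_lit 76) (nat_lit 37752735639) (nat_lit 4) (nat_lit 4) (nat_lit 5) (nat_lit 5) (nat_lit 5) (nat_lit 4) (nat_lit 478) (nat_lit 380) (nat_lit 342)) (XT.lf (nat_lit 0) (nat_lit 178809278521) (nat_lit 76) (nat_lit 27892921999) (nat_lit 76) (nat_lit 25638671211) (nat_lit 4) (nat_lit 4) (nat_lit 5) (nat_lit 5) (nat_lit 5) (nat_lit 4) (nat_lit 479) (nat_lit 380) (nat_lit 341)))) (XT.nd (nat_lit 156) (nat_lit 0) (nat_lit 0) (XT.nd (nat_lit 78) (nat_lit 152) (nat_lit 0) (XT.lf (nat_lit 0) (nat_lit 222616749189) (nat_lit 76) (nat_lit 14924843595) (nat_lit 76) (nat_lit 12661857314) (nat_lit 4) (nat_lit 4) (nat_lit 5) (nat_lit 5) (nat_lit 5) (nat_lit 4) (nat_lit 480) (nat_lit 380) (nat_lit 340)) (XT.lf (nat_lit 0) (nat_lit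 225774976) (nat_lit 76) (nat_lit 992200475) (nat_lit 152) (nat_lit 268280594185) (nat_lit 2) (nat_lit 5) (nat_lit 3) (nat_lit 5) (nat_lit 4) (nat_lit 4) (nat_lit 481) (nat_lit 380) (nat_lit 339))) (XT.nd (nat_lit 78) (nat_lit 0) (nat_lit 0) (XT.lf (nat_lit 0) (nat_lit 16385719512) (nat_lit 152) (nat_lit 259694485584) (nat_lit 0) (nat_lit 14215658582) (nat_lit 2) (nat_lit 5) (nat_lit 4) (nat_lit 4) (nat_lit 2) (nat_lit 4) (nat_lit 482) (nat_lit 380) (nat_lit 338)) (XT.lf (nat_lit 0) (nat_lit 32697821558) (nat_lit 152) (nat_lit 249541416657) (nat_lit 0) (nat_lit 30521156328) (nat_lit 2) (nat_lit 5) (nat_lit 4) (nat_lit 4) (nat_lit 2) (nat_lit 4) (nat_lit 483) (nat_lit 380) (nat_lit 337))))))))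
noncomputable def xc18 : XT := (XT.nd (nat_lit 59514) (nat_lit 0) (nat_lit 228) (XT.nd (nat_lit 1092) (nat_lit 76) (nat_lit 0) (XT.nd (nat_lit 546) (nat_lit 0) (nat_lit 0) (XT.nd (nat_lit 234) (nat_lit 0) (nat_lit 0) (XT.nd (nat_lit 78) (nat_lit 0) (nat_lit 0) (XT.lf (nat_lit 0) (nat_lit 50235454869) (nat_lit 152) (nat_lit 238737930512) (nat_lit 0) (nat_lit 48052674545) (nat_lit 2) (nat_lit 5) (nat_lit 4) (nat_lit 4) (nat_lit 2) (nat_lit 4) (nat_lit 484) (nat_lit 380) (nat_lit 336)) (XT.nd (nat_lit 78) (nat_lit 0) (nat_lit 0) (XT.lf (nat_lit 0) (nat_lit 69102546159) (nat_lit 152) (nat_lit 227220006492) (nat_lit 0) (nat_lit 66914103712) (nat_lit 2) (nat_lit 5) (nat_lit 4) (nat_lit 4) (nat_lit 2) (nat_lit 4) (nat_lit 485) (nat_lit 380) (nat_lit 335)) (XT.lf (nat_lit 0) (nat_lit 89410900415) (nat_lit 152) (nat_lit 214919390233) (nat_lit 0) (nat_lit 87217215262) (nat_lit 2) (nat_lit 5) (nat_lit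 4) (nat_lit 4) (nat_lit 2) (nat_lit 4) (nat_lit 486) (nat_lit 380) (nat_lit 334)))) (XT.nd (nat_lit 156) (nat_lit 0) (nat_lit 0) (XT.nd (nat_lit 78) (nat_lit 0) (nat_lit 0) (XT.lf (nat_lit 0) (nat_lit 111280863439) (nat_lit 152) (nat_lit 201763189192) (nat_lit 0) (nat_lit 109082323928) (nat_lit 2) (nat_lit 5) (nat_lit 4) (nat_lit 4) (nat_lit 2) (nat_lit 4) (nat_lit 487) (nat_lit 380) (nat_lit 333)) (XT.lf (nat_lit 0) (nat_lit 134842035013) (nat_lit 152) (nat_lit 187673440698) (nat_lit 0) (nat_lit 132639000725) (nat_lit 2) (nat_lit 5) (nat_lit 4) (nat_lit 4) (nat_lit 2) (nat_lit 4) (nat_lit 488) (nat_lit 380) (nat_lit 332))) (XT.nd (nat_lit 78) (nat_lit 0) (nat_lit 0) (XT.lf (nat_lit 0) (nat_lit 160234036893) (nat_lit 152) (nat_lit 172566649945) (nat_lit 0) (nat_lit 158026840776) (nat_lit 2) (nat_lit 5) (nat_lit 4) (nat_lit 4) (nat_lit 2) (nat_lit 4) (nat_lit 489) (nat_lit 380) (nat_lit 331))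 (XT.lf (nat_lit 0) (nat_lit 187607340202) (nat_lit 152) (nat_lit 156353295209) (nat_lit 0) (nat_lit 185396290539) (nat_lit 2) (nat_lit 5) (nat_lit 4) (nat_lit 4) (nat_lit 2) (nat_lit 4) (nat_lit 490) (nat_lit 380) (nat_lit 330))))) (XT.nd (nat_lit 234) (nat_lit 0) (nat_lit 0) (XT.nd (nat_lit 78) (nat_lit 0) (nat_lit 0) (XT.lf (nat_lit 0) (nat_lit 217124157109) (nat_lit 152) (nat_lit 138937297352) (nat_lit 0) (nat_lit 214909539347) (nat_lit 2) (nat_lit 5) (nat_lit 4) (nat_lit 4) (nat_lit 2) (nat_lit 4) (nat_lit 491) (nat_lit 380) (nat_lit 329)) (XT.nd (nat_lit 78) (nat_lit 0) (nat_lit 0) (XT.lf (nat_lit 0) (nat_lit 248959402082) (nat_lit 152) (nat_lit 120215450459) (nat_lit 0) (nat_lit 246741480526) (nat_lit 2) (nat_lit 5) (nat_lit 4) (nat_lit 4) (nat_lit 2) (nat_lit 4) (nat_lit 492) (nat_lit 380) (nat_lit 328)) (XT.lf (nat_lit 0) (nat_lit 283301728426) (nat_lit 152) (nat_lit 100076810255) (nat_lit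 0) (nat_lit 281080747802) (nat_lit 2) (nat_lit 5) (nat_lit 4) (nat_lit 4) (nat_lit 2) (nat_lit 4) (nat_lit 493) (nat_lit 380) (nat_lit 327)))) (XT.nd (nat_lit 156) (nat_lit 0) (nat_lit 0) (XT.nd (nat_lit 78) (nat_lit 0) (nat_lit 0) (XT.lf (nat_lit 0) (nat_lit 320354646224) (nat_lit 152) (nat_lit 78402036647) (nat_lit 0) (nat_lit 318130833128) (nat_lit 2) (nat_lit 5) (nat_lit 4) (nat_lit 4) (nat_lit 2) (nat_lit 4) (nat_lit 494) (nat_lit 380) (nat_lit 326)) (XT.lf (nat_lit 0) (nat_lit 360337728320) (nat_lit 152) (nat_lit 55062686533) (nat_lit 0) (nat_lit 358111292565) (nat_lit 2) (nat_lit 5) (nat_lit 4) (nat_lit 4) (nat_lit 2) (nat_lit 4) (nat_lit 495) (nat_lit 380) (nat_lit 325))) (XT.nd (nat_lit 78) (nat_lit 0) (nat_lit 0) (XT.lf (nat_lit 0) (nat_lit 403487911498) (nat_lit 152) (nat_lit 29920452654) (nat_lit 0) (nat_lit 401259047356) (nat_lit 2) (nat_lit 5) (nat_lit 4) (nat_lit 4) (nat_lit 2)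 (nat_lit 4) (nat_lit 496) (nat_lit 380) (nat_lit 324)) (XT.lf (nat_lit 0) (nat_lit 450060900548) (nat_lit 152) (nat_lit 2826343994) (nat_lit 0) (nat_lit 447829787899) (nat_lit 2) (nat_lit 5) (nat_lit 4) (nat_lit 4) (nat_lit 2) (nat_lit 4) (nat_lit 497) (nat_lit 380) (nat_lit 323)))))) (XT.nd (nat_lit 57798) (nat_lit 0) (nat_lit 2052) (XT.nd (nat_lit 234) (nat_lit 0) (nat_lit 0) (XT.nd (nat_lit 78) (nat_lit 0) (nat_lit 0) (XT.lf (nat_lit 0) (nat_lit 27252445580) (nat_lit 76) (nat_lit 473505725021) (nat_lit 76) (nat_lit 471272530421) (nat_lit 1) (nat_lit 4) (nat_lit 2) (nat_lit 5) (nat_lit 2) (nat_lit 4) (nat_lit 498) (nat_lit 380) (nat_lit 322)) (XT.nd (nat_lit 78) (nat_lit 0) (nat_lit 0) (XT.lf (nat_lit 0) (nat_lit 59785764339) (nat_lit 76) (nat_lit 495748826364) (nat_lit 76) (nat_lit 493513704031) (nat_lit 1) (nat_lit 4) (nat_lit 2) (nat_lit 5) (nat_lit 2) (nat_lit 4) (nat_lit 499) (nat_lit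 380) (nat_lit 321)) (XT.lf (nat_lit 0) (nat_lit 94872950621) (nat_lit 76) (nat_lit 519796225044) (nat_lit 76) (nat_lit 517559317774) (nat_lit 1) (nat_lit 4) (nat_lit 2) (nat_lit 5) (nat_lit 2) (nat_lit 4) (nat_lit 500) (nat_lit 380) (nat_lit 320)))) (XT.nd (nat_lit 156) (nat_lit 0) (nat_lit 0) (XT.nd (nat_lit 78) (nat_lit 0) (nat_lit 0) (XT.lf (nat_lit 0) (nat_lit 132721928492) (nat_lit 76) (nat_lit 545790424165) (nat_lit 76) (nat_lit 543551864176) (nat_lit 1) (nat_lit 4) (nat_lit 2) (nat_lit 5) (nat_lit 2) (nat_lit 4) (nat_lit 501) (nat_lit 380) (nat_lit 319)) (XT.lf (nat_lit 0) (nat_lit 173556988193) (nat_lit 76) (nat_lit 573885463426) (nat_lit 76) (nat_lit 571645373141) (nat_lit 1) (nat_lit 4) (nat_lit 2) (nat_lit 5) (nat_lit 2) (nat_lit 4) (nat_lit 502) (nat_lit 380) (nat_lit 318))) (XT.nd (nat_lit 78) (nat_lit 0) (nat_lit 0) (XT.lf (nat_lit 0) (nat_lit 217620115263) (nat_lit 76) (nat_lit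 604247831949) (nat_lit 76) (nat_lit 602006324722) (nat_lit 1) (nat_lit 4) (nat_lit 2) (nat_lit 5) (nat_lit 2) (nat_lit 4) (nat_lit 503) (nat_lit 380) (nat_lit 317)) (XT.lf (nat_lit 0) (nat_lit 265172424528) (nat_lit 76) (nat_lit 637057454879) (nat_lit 76) (nat_lit 634814635670) (nat_lit 1) (nat_lit 4) (nat_lit 2) (nat_lit 5) (nat_lit 2) (nat_lit 4) (nat_lit 504) (nat_lit 380) (nat_lit 316))))) (XT.nd (nat_lit 312) (nat_lit 532) (nat_lit 0) (XT.nd (nat_lit 156) (nat_lit 380) (nat_lit 0) (XT.nd (nat_lit 78) (nat_lit 76) (nat_lit 0) (XT.lf (nat_lit 0) (nat_lit 2773201082) (nat_lit 152) (nat_lit 3713733246) (nat_lit 0) (nat_lit 2773201082) (nat_lit 41) (nat_lit 5) (nat_lit 43) (nat_lit 4) (nat_lit 41) (nat_lit 4) (nat_lit 438) (nat_lit 381) (nat_lit 381)) (XT.lf (nat_lit 0) (nat_lit 17790221661) (nat_lit 76) (nat_lit 948220835) (nat_lit 76) (nat_lit 607413287) (nat_lit 40) (nat_lit 4) (nat_lit 41)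 (nat_lit 5) (nat_lit 41) (nat_lit 4) (nat_lit 439) (nat_lit 381) (nat_lit 380))) (XT.nd (nat_lit 78) (nat_lit 152) (nat_lit 0) (XT.lf (nat_lit 0) (nat_lit 4049523509) (nat_lit 76) (nat_lit 8398866820) (nat_lit 76) (nat_lit 7773752447) (nat_lit 37) (nat_lit 4) (nat_lit 38) (nat_lit 5) (nat_lit 38) (nat_lit 4) (nat_lit 440) (nat_lit 381) (nat_lit 379)) (XT.lf (nat_lit 0) (nat_lit 5153021382) (nat_lit 152) (nat_lit 11719926414) (nat_lit 0) (nat_lit 4292651647) (nat_lit 35) (nat_lit 5) (nat_lit 37) (nat_lit 4) (nat_lit 35) (nat_lit 4) (nat_lit 441) (nat_lit 381) (nat_lit 378)))) (XT.nd (nat_lit 156) (nat_lit 304) (nat_lit 0) (XT.nd (nat_lit 78) (nat_lit 152) (nat_lit 0) (XT.lf (nat_lit 0) (nat_lit 14417462155) (nat_lit 76) (nat_lit 4433011678) (nat_lit 76) (nat_lit 3327250542) (nat_lit 34) (nat_lit 4) (nat_lit 35) (nat_lit 5) (nat_lit 35) (nat_lit 4) (nat_lit 442) (nat_lit 381) (nat_lit 377)) (XT.lf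 (nat_lit 0) (nat_lit 10057507556) (nat_lit 152) (nat_lit 4416384204) (nat_lit 0) (nat_lit 8788007179) (nat_lit 32) (nat_lit 5) (nat_lit 34) (nat_lit 4) (nat_lit 32) (nat_lit 4) (nat_lit 443) (nat_lit 381) (nat_lit 376))) (XT.nd (nat_lit 78) (nat_lit 228) (nat_lit 0) (XT.lf (nat_lit 0) (nat_lit 22809406921) (nat_lit 76) (nat_lit 1546292255) (nat_lit 76) (nat_lit 76426569) (nat_lit 31) (nat_lit 4) (nat_lit 32) (nat_lit 5) (nat_lit 32) (nat_lit 4) (nat_lit 444) (nat_lit 381) (nat_lit 375)) (XT.lf (nat_lit 0) (nat_lit 228791096) (nat_lit 76) (nat_lit 13514058606) (nat_lit 76) (nat_lit 11937497540) (nat_lit 28) (nat_lit 4) (nat_lit 29) (nat_lit 5) (nat_lit 29) (nat_lit 4) (nat_lit 445) (nat_lit 381) (nat_lit 374))))))) (XT.nd (nat_lit 1170) (nat_lit 532) (nat_lit 0) (XT.nd (nat_lit 546) (nat_lit 608) (nat_lit 0) (XT.nd (nat_lit 234) (nat_lit 380) (nat_lit 0) (XT.nd (nat_lit 78) (nat_lit 152) (nat_lit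 0) (XT.lf (nat_lit 0) (nat_lit 1374117288) (nat_lit 76) (nat_lit 145043328) (nat_lit 152) (nat_lit 25511184986) (nat_lit 26) (nat_lit 5) (nat_lit 27) (nat_lit 5) (nat_lit 28) (nat_lit 4) (nat_lit 446) (nat_lit 381) (nat_lit 373)) (XT.nd (nat_lit 78) (nat_lit 76) (nat_lit 0) (XT.lf (nat_lit 0) (nat_lit 1217450796) (nat_lit 76) (nat_lit 14528542672) (nat_lit 76) (nat_lit 12726976669) (nat_lit 25) (nat_lit 4) (nat_lit 26) (nat_lit 5) (nat_lit 26) (nat_lit 4) (nat_lit 447) (nat_lit 381) (nat_lit 372)) (XT.lf (nat_lit 0) (nat_lit 932236932) (nat_lit 152) (nat_lit 24062589) (nat_lit 76) (nat_lit 29079524590) (nat_lit 24) (nat_lit 5) (nat_lit 26) (nat_lit 5) (nat_lit 25) (nat_lit 4) (nat_lit 448) (nat_lit 381) (nat_lit 371)))) (XT.nd (nat_lit 156) (nat_lit 228) (nat_lit 0) (XT.nd (nat_lit 78) (nat_lit 76) (nat_lit 0) (XT.lf (nat_lit 0) (nat_lit 15386551224) (nat_lit 152) (nat_lit 2893559029) (nat_lit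 0) (nat_lit 13425755401) (nat_lit 23) (nat_lit 5) (nat_lit 25) (nat_lit 4) (nat_lit 23) (nat_lit 4) (nat_lit 449) (nat_lit 381) (nat_lit 370)) (XT.lf (nat_lit 0) (nat_lit 26238393242) (nat_lit 76) (nat_lit 4672648453) (nat_lit 76) (nat_lit 2602780926) (nat_lit 22) (nat_lit 4) (nat_lit 23) (nat_lit 5) (nat_lit 23) (nat_lit 4) (nat_lit 450) (nat_lit 381) (nat_lit 369))) (XT.nd (nat_lit 78) (nat_lit 76) (nat_lit 0) (XT.lf (nat_lit 0) (nat_lit 11872803984) (nat_lit 152) (nat_lit 13776136539) (nat_lit 0) (nat_lit 9805318417) (nat_lit 20) (nat_lit 5) (nat_lit 22) (nat_lit 4) (nat_lit 20) (nat_lit 4) (nat_lit 451) (nat_lit 381) (nat_lit 368)) (XT.lf (nat_lit 0) (nat_lit 15044485668) (nat_lit 76) (nat_lit 12330924958) (nat_lit 76) (nat_lit 10174380909) (nat_lit 19) (nat_lit 4) (nat_lit 20) (nat_lit 5) (nat_lit 20) (nat_lit 4) (nat_lit 452) (nat_lit 381) (nat_lit 367))))) (XT.nd (nat_lit 312) (nat_lit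 228) (nat_lit 0) (XT.nd (nat_lit 156) (nat_lit 228) (nat_lit 0) (XT.nd (nat_lit 78) (nat_lit 0) (nat_lit 0) (XT.lf (nat_lit 0) (nat_lit 4066892844) (nat_lit 152) (nat_lit 33813237666) (nat_lit 0) (nat_lit 1934506551) (nat_lit 17) (nat_lit 5) (nat_lit 19) (nat_lit 4) (nat_lit 17) (nat_lit 4) (nat_lit 453) (nat_lit 381) (nat_lit 366)) (XT.lf (nat_lit 0) (nat_lit 19245720589) (nat_lit 152) (nat_lit 5958259903) (nat_lit 0) (nat_lit 17040616873) (nat_lit 17) (nat_lit 5) (nat_lit 19) (nat_lit 4) (nat_lit 17) (nat_lit 4) (nat_lit 454) (nat_lit 381) (nat_lit 365))) (XT.nd (nat_lit 78) (nat_lit 152) (nat_lit 0) (XT.lf (nat_lit 0) (nat_lit 24039357013) (nat_lit 76) (nat_lit 11552199646) (nat_lit 76) (nat_lit 9279764983) (nat_lit 16) (nat_lit 4) (nat_lit 17) (nat_lit 5) (nat_lit 17) (nat_lit 4) (nat_lit 455) (nat_lit 381) (nat_lit 364)) (XT.lf (nat_lit 0) (nat_lit 5232433963) (nat_lit 152) (nat_lit 39468955198)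 (nat_lit 0) (nat_lit 3008835741) (nat_lit 14) (nat_lit 5) (nat_lit 16) (nat_lit 4) (nat_lit 14) (nat_lit 4) (nat_lit 456) (nat_lit 381) (nat_lit 363)))) (XT.nd (nat_lit 156) (nat_lit 152) (nat_lit 0) (XT.nd (nat_lit 78) (nat_lit 76) (nat_lit 0) (XT.lf (nat_lit 0) (nat_lit 20749460899) (nat_lit 152) (nat_lit 11539840435) (nat_lit 0) (nat_lit 18470886073) (nat_lit 14) (nat_lit 5) (nat_lit 16) (nat_lit 4) (nat_lit 14) (nat_lit 4) (nat_lit 457) (nat_lit 381) (nat_lit 362)) (XT.lf (nat_lit 0) (nat_lit 18465737534) (nat_lit 76) (nat_lit 18960973558) (nat_lit 76) (nat_lit 16631494469) (nat_lit 13) (nat_lit 4) (nat_lit 14) (nat_lit 5) (nat_lit 14) (nat_lit 4) (nat_lit 458) (nat_lit 381) (nat_lit 361))) (XT.nd (nat_lit 78) (nat_lit 152) (nat_lit 0) (XT.lf (nat_lit 0) (nat_lit 50567506452) (nat_lit 76) (nat_lit 4718392538) (nat_lit 76) (nat_lit 2341779871) (nat_lit 13) (nat_lit 4) (nat_lit 14) (nat_lit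 5) (nat_lit 14) (nat_lit 4) (nat_lit 459) (nat_lit 381) (nat_lit 360)) (XT.lf (nat_lit 0) (nat_lit 12879179124) (nat_lit 152) (nat_lit 38008785129) (nat_lit 0) (nat_lit 10574174488) (nat_lit 11) (nat_lit 5) (nat_lit 13) (nat_lit 4) (nat_lit 11) (nat_lit 4) (nat_lit 460) (nat_lit 381) (nat_lit 359)))))) (XT.nd (nat_lit 546) (nat_lit 228) (nat_lit 0) (XT.nd (nat_lit 234) (nat_lit 228) (nat_lit 0) (XT.nd (nat_lit 78) (nat_lit 76) (nat_lit 0) (XT.lf (nat_lit 0) (nat_lit 29118422569) (nat_lit 152) (nat_lit 9713949277) (nat_lit 0) (nat_lit 26774932747) (nat_lit 11) (nat_lit 5) (nat_lit 13) (nat_lit 4) (nat_lit 11) (nat_lit 4) (nat_lit 461) (nat_lit 381) (nat_lit 358)) (XT.nd (nat_lit 78) (nat_lit 0) (nat_lit 0) (XT.lf (nat_lit 0) (nat_lit 20906426586) (nat_lit 76) (nat_lit 25777708059) (nat_lit 76) (nat_lit 23398583805) (nat_lit 10) (nat_lit 4) (nat_lit 11) (nat_lit 5) (nat_lit 11) (nat_lit 4) (nat_lit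 462) (nat_lit 381) (nat_lit 357)) (XT.lf (nat_lit 0) (nat_lit 53742518881) (nat_lit 76) (nat_lit 11795802916) (nat_lit 76) (nat_lit 9383683818) (nat_lit 10) (nat_lit 4) (nat_lit 11) (nat_lit 5) (nat_lit 11) (nat_lit 4) (nat_lit 463) (nat_lit 381) (nat_lit 356)))) (XT.nd (nat_lit 156) (nat_lit 76) (nat_lit 0) (XT.nd (nat_lit 78) (nat_lit 0) (nat_lit 0) (XT.lf (nat_lit 0) (nat_lit 5485921660) (nat_lit 152) (nat_lit 71502573788) (nat_lit 0) (nat_lit 3159569393) (nat_lit 8) (nat_lit 5) (nat_lit 10) (nat_lit 4) (nat_lit 8) (nat_lit 4) (nat_lit 464) (nat_lit 381) (nat_lit 355)) (XT.lf (nat_lit 0) (nat_lit 21533088996) (nat_lit 152) (nat_lit 45055795564) (nat_lit 0) (nat_lit 19179796005) (nat_lit 8) (nat_lit 5) (nat_lit 10) (nat_lit 4) (nat_lit 8) (nat_lit 4) (nat_lit 465) (nat_lit 381) (nat_lit 354))) (XT.nd (nat_lit 78) (nat_lit 76) (nat_lit 0) (XT.lf (nat_lit 0) (nat_lit 38621878757) (nat_lit 152)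 (nat_lit 16985534521) (nat_lit 0) (nat_lit 36243640651) (nat_lit 8) (nat_lit 5) (nat_lit 10) (nat_lit 4) (nat_lit 8) (nat_lit 4) (nat_lit 466) (nat_lit 381) (nat_lit 353)) (XT.lf (nat_lit 0) (nat_lit 13300242447) (nat_lit 76) (nat_lit 43760969457) (nat_lit 76) (nat_lit 41359634022) (nat_lit 7) (nat_lit 4) (nat_lit 8) (nat_lit 5) (nat_lit 8) (nat_lit 4) (nat_lit 467) (nat_lit 381) (nat_lit 352))))) (XT.nd (nat_lit 312) (nat_lit 76) (nat_lit 0) (XT.nd (nat_lit 156) (nat_lit 152) (nat_lit 0) (XT.nd (nat_lit 78) (nat_lit 0) (nat_lit 0) (XT.lf (nat_lit 0) (nat_lit 46179442083) (nat_lit 76) (nat_lit 30877714267) (nat_lit 76) (nat_lit 28454992416) (nat_lit 7) (nat_lit 4) (nat_lit 8) (nat_lit 5) (nat_lit 8) (nat_lit 4) (nat_lit 468) (nat_lit 381) (nat_lit 351)) (XT.lf (nat_lit 0) (nat_lit 81285285609) (nat_lit 76) (nat_lit 17168960738) (nat_lit 76) (nat_lit 14726436650) (nat_lit 7) (nat_lit 4) (nat_lit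 8) (nat_lit 5) (nat_lit 8) (nat_lit 4) (nat_lit 469) (nat_lit 381) (nat_lit 350))) (XT.nd (nat_lit 78) (nat_lit 152) (nat_lit 0) (XT.lf (nat_lit 0) (nat_lit 118825807652) (nat_lit 76) (nat_lit 2553471812) (nat_lit 76) (nat_lit 92612319) (nat_lit 7) (nat_lit 4) (nat_lit 8) (nat_lit 5) (nat_lit 8) (nat_lit 4) (nat_lit 470) (nat_lit 381) (nat_lit 349)) (XT.lf (nat_lit 0) (nat_lit 15708535899) (nat_lit 152) (nat_lit 101331930285) (nat_lit 0) (nat_lit 13348691405) (nat_lit 5) (nat_lit 5) (nat_lit 7) (nat_lit 4) (nat_lit 5) (nat_lit 4) (nat_lit 471) (nat_lit 381) (nat_lit 348)))) (XT.nd (nat_lit 156) (nat_lit 76) (nat_lit 0) (XT.nd (nat_lit 78) (nat_lit 0) (nat_lit 0) (XT.lf (nat_lit 0) (nat_lit 32692370484) (nat_lit 152) (nat_lit 77013711915) (nat_lit 0) (nat_lit 30317554891) (nat_lit 5) (nat_lit 5) (nat_lit 7) (nat_lit 4) (nat_lit 5) (nat_lit 4) (nat_lit 472) (nat_lit 381) (nat_lit 347)) (XT.lf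 (nat_lit 0) (nat_lit 50879255272) (nat_lit 152) (nat_lit 51066825836) (nat_lit 0) (nat_lit 48490577550) (nat_lit 5) (nat_lit 5) (nat_lit 7) (nat_lit 4) (nat_lit 5) (nat_lit 4) (nat_lit 473) (nat_lit 381) (nat_lit 346))) (XT.nd (nat_lit 78) (nat_lit 76) (nat_lit 0) (XT.lf (nat_lit 0) (nat_lit 70376964396) (nat_lit 152) (nat_lit 23337512722) (nat_lit 0) (nat_lit 67975451370) (nat_lit 5) (nat_lit 5) (nat_lit 7) (nat_lit 4) (nat_lit 5) (nat_lit 4) (nat_lit 474) (nat_lit 381) (nat_lit 345)) (XT.lf (nat_lit 0) (nat_lit 6548130345) (nat_lit 76) (nat_lit 84855144156) (nat_lit 76) (nat_lit 82441746589) (nat_lit 4) (nat_lit 4) (nat_lit 5) (nat_lit 5) (nat_lit 5) (nat_lit 4) (nat_lit 475) (nat_lit 381) (nat_lit 344))))))))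
noncomputable def xc19 : XT := (XT.nd (nat_lit 59436) (nat_lit 0) (nat_lit 532) (XT.nd (nat_lit 1170) (nat_lit 76) (nat_lit 0) (XT.nd (nat_lit 546) (nat_lit 0) (nat_lit 0) (XT.nd (nat_lit 234) (nat_lit 152) (nat_lit 0) (XT.nd (nat_lit 78) (nat_lit 0) (nat_lit 0) (XT.lf (nat_lit 0) (nat_lit 39398206988) (nat_lit 76) (nat_lit 74992385548) (nat_lit 76) (nat_lit 72567983776) (nat_lit 4) (nat_lit 4) (nat_lit 5) (nat_lit 5) (nat_lit 5) (nat_lit 4) (nat_lit 476) (nat_lit 381) (nat_lit 343)) (XT.nd (nat_lit 78) (nat_lit 0) (nat_lit 0) (XT.lf (nat_lit 0) (nat_lit 74635740762) (nat_lit 76) (nat_lit 64462987387) (nat_lit 76) (nat_lit 62028396537) (nat_lit 4) (nat_lit 4) (nat_lit 5) (nat_lit 5) (nat_lit 5) (nat_lit 4) (nat_lit 477) (nat_lit 381) (nat_lit 342)) (XT.lf (nat_lit 0) (nat_lit 112469546681) (nat_lit 76) (nat_lit 53204553241) (nat_lit 76) (nat_lit 50760528058) (nat_lit 4) (nat_lit 4) (nat_lit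 5) (nat_lit 5) (nat_lit 5) (nat_lit 4) (nat_lit 478) (nat_lit 381) (nat_lit 341)))) (XT.nd (nat_lit 156) (nat_lit 152) (nat_lit 0) (XT.nd (nat_lit 78) (nat_lit 0) (nat_lit 0) (XT.lf (nat_lit 0) (nat_lit 153123825076) (nat_lit 76) (nat_lit 41150366462) (nat_lit 76) (nat_lit 38697605787) (nat_lit 4) (nat_lit 4) (nat_lit 5) (nat_lit 5) (nat_lit 5) (nat_lit 4) (nat_lit 479) (nat_lit 381) (nat_lit 340)) (XT.lf (nat_lit 0) (nat_lit 196839490191) (nat_lit 76) (nat_lit 28228994833) (nat_lit 76) (nat_lit 25768145739) (nat_lit 4) (nat_lit 4) (nat_lit 5) (nat_lit 5) (nat_lit 5) (nat_lit 4) (nat_lit 480) (nat_lit 381) (nat_lit 339))) (XT.nd (nat_lit 78) (nat_lit 152) (nat_lit 0) (XT.lf (nat_lit 0) (nat_lit 243875597818) (nat_lit 76) (nat_lit 14363867262) (nat_lit 76) (nat_lit 11895528891) (nat_lit 4) (nat_lit 4) (nat_lit 5) (nat_lit 5) (nat_lit 5) (nat_lit 4) (nat_lit 481) (nat_lit 381) (nat_lit 338)) (XT.lf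 (nat_lit 0) (nat_lit 2972449203) (nat_lit 152) (nat_lit 287388103450) (nat_lit 0) (nat_lit 615046454) (nat_lit 2) (nat_lit 5) (nat_lit 4) (nat_lit 4) (nat_lit 2) (nat_lit 4) (nat_lit 482) (nat_lit 381) (nat_lit 337))))) (XT.nd (nat_lit 312) (nat_lit 0) (nat_lit 0) (XT.nd (nat_lit 156) (nat_lit 0) (nat_lit 0) (XT.nd (nat_lit 78) (nat_lit 0) (nat_lit 0) (XT.lf (nat_lit 0) (nat_lit 19246360432) (nat_lit 152) (nat_lit 277312836589) (nat_lit 0) (nat_lit 16882842590) (nat_lit 2) (nat_lit 5) (nat_lit 4) (nat_lit 4) (nat_lit 2) (nat_lit 4) (nat_lit 483) (nat_lit 381) (nat_lit 336)) (XT.lf (nat_lit 0) (nat_lit 36748631875) (nat_lit 152) (nat_lit 266581389394) (nat_lit 0) (nat_lit 34379451909) (nat_lit 2) (nat_lit 5) (nat_lit 4) (nat_lit 4) (nat_lit 2) (nat_lit 4) (nat_lit 484) (nat_lit 381) (nat_lit 335))) (XT.nd (nat_lit 78) (nat_lit 0) (nat_lit 0) (XT.lf (nat_lit 0) (nat_lit 55582980695) (nat_lit 152)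 (nat_lit 255130168106) (nat_lit 0) (nat_lit 53208558023) (nat_lit 2) (nat_lit 5) (nat_lit 4) (nat_lit 4) (nat_lit 2) (nat_lit 4) (nat_lit 485) (nat_lit 381) (nat_lit 334)) (XT.lf (nat_lit 0) (nat_lit 75861017849) (nat_lit 152) (nat_lit 242891313635) (nat_lit 0) (nat_lit 73481740819) (nat_lit 2) (nat_lit 5) (nat_lit 4) (nat_lit 4) (nat_lit 2) (nat_lit 4) (nat_lit 486) (nat_lit 381) (nat_lit 333)))) (XT.nd (nat_lit 156) (nat_lit 0) (nat_lit 0) (XT.nd (nat_lit 78) (nat_lit 0) (nat_lit 0) (XT.lf (nat_lit 0) (nat_lit 97702909483) (nat_lit 152) (nat_lit 229792299436) (nat_lit 0) (nat_lit 95319137676) (nat_lit 2) (nat_lit 5) (nat_lit 4) (nat_lit 4) (nat_lit 2) (nat_lit 4) (nat_lit 487) (nat_lit 381) (nat_lit 332)) (XT.lf (nat_lit 0) (nat_lit 121238089028) (nat_lit 152) (nat_lit 215755501721) (nat_lit 0) (nat_lit 118850155392) (nat_lit 2) (nat_lit 5) (nat_lit 4) (nat_lit 4) (nat_lit 2) (nat_lit 4) (nat_lit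 488) (nat_lit 381) (nat_lit 331))) (XT.nd (nat_lit 78) (nat_lit 0) (nat_lit 0) (XT.lf (nat_lit 0) (nat_lit 146606024215) (nat_lit 152) (nat_lit 200697739466) (nat_lit 0) (nat_lit 144214237033) (nat_lit 2) (nat_lit 5) (nat_lit 4) (nat_lit 4) (nat_lit 2) (nat_lit 4) (nat_lit 489) (nat_lit 381) (nat_lit 330)) (XT.lf (nat_lit 0) (nat_lit 173957043549) (nat_lit 152) (nat_lit 184529781489) (nat_lit 0) (nat_lit 171561688269) (nat_lit 2) (nat_lit 5) (nat_lit 4) (nat_lit 4) (nat_lit 2) (nat_lit 4) (nat_lit 490) (nat_lit 381) (nat_lit 329)))))) (XT.nd (nat_lit 546) (nat_lit 76) (nat_lit 0) (XT.nd (nat_lit 234) (nat_lit 0) (nat_lit 0) (XT.nd (nat_lit 78) (nat_lit 0) (nat_lit 0) (XT.lf (nat_lit 0) (nat_lit 203453227145) (nat_lit 152) (nat_lit 167155817667) (nat_lit 0) (nat_lit 201054568071) (nat_lit 2) (nat_lit 5) (nat_lit 4) (nat_lit 4) (nat_lit 2) (nat_lit 4) (nat_lit 491) (nat_lit 381) (nat_lit 328))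 (XT.nd (nat_lit 78) (nat_lit 0) (nat_lit 0) (XT.lf (nat_lit 0) (nat_lit 235269367202) (nat_lit 152) (nat_lit 148472891178) (nat_lit 0) (nat_lit 232867649058) (nat_lit 2) (nat_lit 5) (nat_lit 4) (nat_lit 4) (nat_lit 2) (nat_lit 4) (nat_lit 492) (nat_lit 381) (nat_lit 327)) (XT.lf (nat_lit 0) (nat_lit 269594003809) (nat_lit 152) (nat_lit 128370288383) (nat_lit 0) (nat_lit 267189453194) (nat_lit 2) (nat_lit 5) (nat_lit 4) (nat_lit 4) (nat_lit 2) (nat_lit 4) (nat_lit 493) (nat_lit 381) (nat_lit 326)))) (XT.nd (nat_lit 156) (nat_lit 0) (nat_lit 0) (XT.nd (nat_lit 78) (nat_lit 0) (nat_lit 0) (XT.lf (nat_lit 0) (nat_lit 306630542219) (nat_lit 152) (nat_lit 106728882748) (nat_lit 0) (nat_lit 304223368945) (nat_lit 2) (nat_lit 5) (nat_lit 4) (nat_lit 4) (nat_lit 2) (nat_lit 4) (nat_lit 494) (nat_lit 381) (nat_lit 325)) (XT.lf (nat_lit 0) (nat_lit 346598458216) (nat_lit 152) (nat_lit 83420428905) (nat_lit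 0) (nat_lit 344188856555) (nat_lit 2) (nat_lit 5) (nat_lit 4) (nat_lit 4) (nat_lit 2) (nat_lit 4) (nat_lit 495) (nat_lit 381) (nat_lit 324))) (XT.nd (nat_lit 78) (nat_lit 0) (nat_lit 0) (XT.lf (nat_lit 0) (nat_lit 389734598711) (nat_lit 152) (nat_lit 58306802685) (nat_lit 0) (nat_lit 387322748542) (nat_lit 2) (nat_lit 5) (nat_lit 4) (nat_lit 4) (nat_lit 2) (nat_lit 4) (nat_lit 496) (nat_lit 381) (nat_lit 323)) (XT.lf (nat_lit 0) (nat_lit 436294585275) (nat_lit 152) (nat_lit 31239182597) (nat_lit 0) (nat_lit 433880653155) (nat_lit 2) (nat_lit 5) (nat_lit 4) (nat_lit 4) (nat_lit 2) (nat_lit 4) (nat_lit 497) (nat_lit 381) (nat_lit 322))))) (XT.nd (nat_lit 312) (nat_lit 0) (nat_lit 0) (XT.nd (nat_lit 156) (nat_lit 0) (nat_lit 0) (XT.nd (nat_lit 78) (nat_lit 76) (nat_lit 0) (XT.lf (nat_lit 0) (nat_lit 486554328940) (nat_lit 152) (nat_lit 2057167931) (nat_lit 0) (nat_lit 484138469089) (nat_lit 2)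 (nat_lit 5) (nat_lit 4) (nat_lit 4) (nat_lit 2) (nat_lit 4) (nat_lit 498) (nat_lit 381) (nat_lit 321)) (XT.lf (nat_lit 0) (nat_lit 30384670998) (nat_lit 76) (nat_lit 510901384094) (nat_lit 76) (nat_lit 508483739305) (nat_lit 1) (nat_lit 4) (nat_lit 2) (nat_lit 5) (nat_lit 2) (nat_lit 4) (nat_lit 499) (nat_lit 381) (nat_lit 320))) (XT.nd (nat_lit 78) (nat_lit 0) (nat_lit 0) (XT.lf (nat_lit 0) (nat_lit 65450134534) (nat_lit 76) (nat_lit 534959844575) (nat_lit 76) (nat_lit 532540547066) (nat_lit 1) (nat_lit 4) (nat_lit 2) (nat_lit 5) (nat_lit 2) (nat_lit 4) (nat_lit 500) (nat_lit 381) (nat_lit 319)) (XT.lf (nat_lit 0) (nat_lit 103278998752) (nat_lit 76) (nat_lit 560964286105) (nat_lit 76) (nat_lit 558543458300) (nat_lit 1) (nat_lit 4) (nat_lit 2) (nat_lit 5) (nat_lit 2) (nat_lit 4) (nat_lit 501) (nat_lit 381) (nat_lit 318)))) (XT.nd (nat_lit 156) (nat_lit 0) (nat_lit 0) (XT.nd (nat_lit 78) (nat_lit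 0) (nat_lit 0) (XT.lf (nat_lit 0) (nat_lit 144095434699) (nat_lit 76) (nat_lit 589068809078) (nat_lit 76) (nat_lit 586646564332) (nat_lit 1) (nat_lit 4) (nat_lit 2) (nat_lit 5) (nat_lit 2) (nat_lit 4) (nat_lit 502) (nat_lit 381) (nat_lit 317)) (XT.lf (nat_lit 0) (nat_lit 188141317552) (nat_lit 76) (nat_lit 619439958815) (nat_lit 76) (nat_lit 617016402087) (nat_lit 1) (nat_lit 4) (nat_lit 2) (nat_lit 5) (nat_lit 2) (nat_lit 4) (nat_lit 503) (nat_lit 381) (nat_lit 316))) (XT.nd (nat_lit 57174) (nat_lit 0) (nat_lit 3420) (XT.lf (nat_lit 0) (nat_lit 235677659949) (nat_lit 76) (nat_lit 652257712499) (nat_lit 76) (nat_lit 649832940973) (nat_lit 1) (nat_lit 4) (nat_lit 2) (nat_lit 5) (nat_lit 2) (nat_lit 4) (nat_lit 504) (nat_lit 381) (nat_lit 315)) (XT.lf (nat_lit 0) (nat_lit 7530282044) (nat_lit 76) (nat_lit 490516885) (nat_lit 76) (nat_lit 490516885) (nat_lit 46) (nat_lit 4) (nat_lit 47) (nat_lit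 5) (nat_lit 47) (nat_lit 4) (nat_lit 436) (nat_lit 382) (nat_lit 382))))))) (XT.nd (nat_lit 1170) (nat_lit 912) (nat_lit 0) (XT.nd (nat_lit 546) (nat_lit 912) (nat_lit 0) (XT.nd (nat_lit 234) (nat_lit 608) (nat_lit 0) (XT.nd (nat_lit 78) (nat_lit 228) (nat_lit 0) (XT.lf (nat_lit 0) (nat_lit 4267351750) (nat_lit 76) (nat_lit 6935917072) (nat_lit 76) (nat_lit 6549441313) (nat_lit 43) (nat_lit 4) (nat_lit 44) (nat_lit 5) (nat_lit 44) (nat_lit 4) (nat_lit 437) (nat_lit 382) (nat_lit 381)) (XT.nd (nat_lit 78) (nat_lit 76) (nat_lit 0) (XT.lf (nat_lit 0) (nat_lit 5589445327) (nat_lit 152) (nat_lit 8066516803) (nat_lit 0) (nat_lit 4880565628) (nat_lit 41) (nat_lit 5) (nat_lit 43) (nat_lit 4) (nat_lit 41) (nat_lit 4) (nat_lit 438) (nat_lit 382) (nat_lit 380)) (XT.lf (nat_lit 0) (nat_lit 16518763497) (nat_lit 76) (nat_lit 1941918367) (nat_lit 76) (nat_lit 917476123) (nat_lit 40) (nat_lit 4) (nat_lit 41)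 (nat_lit 5) (nat_lit 41) (nat_lit 4) (nat_lit 439) (nat_lit 382) (nat_lit 379)))) (XT.nd (nat_lit 156) (nat_lit 228) (nat_lit 0) (XT.nd (nat_lit 78) (nat_lit 152) (nat_lit 0) (XT.lf (nat_lit 0) (nat_lit 2019838421) (nat_lit 76) (nat_lit 9753759446) (nat_lit 76) (nat_lit 8499826319) (nat_lit 37) (nat_lit 4) (nat_lit 38) (nat_lit 5) (nat_lit 38) (nat_lit 4) (nat_lit 440) (nat_lit 382) (nat_lit 378)) (XT.lf (nat_lit 0) (nat_lit 4083475219) (nat_lit 152) (nat_lit 14508450154) (nat_lit 0) (nat_lit 2643861792) (nat_lit 35) (nat_lit 5) (nat_lit 37) (nat_lit 4) (nat_lit 35) (nat_lit 4) (nat_lit 441) (nat_lit 382) (nat_lit 377))) (XT.nd (nat_lit 78) (nat_lit 152) (nat_lit 0) (XT.lf (nat_lit 0) (nat_lit 10944799455) (nat_lit 76) (nat_lit 6493536779) (nat_lit 76) (nat_lit 4826709092) (nat_lit 34) (nat_lit 4) (nat_lit 35) (nat_lit 5) (nat_lit 35) (nat_lit 4) (nat_lit 442) (nat_lit 382) (nat_lit 376)) (XT.lf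 (nat_lit 0) (nat_lit 8221953762) (nat_lit 152) (nat_lit 8713510742) (nat_lit 0) (nat_lit 6434133513) (nat_lit 32) (nat_lit 5) (nat_lit 34) (nat_lit 4) (nat_lit 32) (nat_lit 4) (nat_lit 443) (nat_lit 382) (nat_lit 375))))) (XT.nd (nat_lit 312) (nat_lit 456) (nat_lit 0) (XT.nd (nat_lit 156) (nat_lit 228) (nat_lit 0) (XT.nd (nat_lit 78) (nat_lit 152) (nat_lit 0) (XT.lf (nat_lit 0) (nat_lit 17809890119) (nat_lit 76) (nat_lit 4360387383) (nat_lit 76) (nat_lit 2387043701) (nat_lit 31) (nat_lit 4) (nat_lit 32) (nat_lit 5) (nat_lit 32) (nat_lit 4) (nat_lit 444) (nat_lit 382) (nat_lit 374)) (XT.lf (nat_lit 0) (nat_lit 11097866481) (nat_lit 152) (nat_lit 5675007993) (nat_lit 0) (nat_lit 9054890633) (nat_lit 29) (nat_lit 5) (nat_lit 31) (nat_lit 4) (nat_lit 29) (nat_lit 4) (nat_lit 445) (nat_lit 382) (nat_lit 373))) (XT.nd (nat_lit 78) (nat_lit 152) (nat_lit 0) (XT.lf (nat_lit 0) (nat_lit 21765214970)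 (nat_lit 76) (nat_lit 3813547518) (nat_lit 76) (nat_lit 1619089345) (nat_lit 28) (nat_lit 4) (nat_lit 29) (nat_lit 5) (nat_lit 29) (nat_lit 4) (nat_lit 446) (nat_lit 382) (nat_lit 372)) (XT.lf (nat_lit 0) (nat_lit 12233134978) (nat_lit 152) (nat_lit 6420336426) (nat_lit 0) (nat_lit 10009592515) (nat_lit 26) (nat_lit 5) (nat_lit 28) (nat_lit 4) (nat_lit 26) (nat_lit 4) (nat_lit 447) (nat_lit 382) (nat_lit 371)))) (XT.nd (nat_lit 156) (nat_lit 228) (nat_lit 0) (XT.nd (nat_lit 78) (nat_lit 152) (nat_lit 0) (XT.lf (nat_lit 0) (nat_lit 21675730112) (nat_lit 76) (nat_lit 5457914030) (nat_lit 76) (nat_lit 3110684254) (nat_lit 25) (nat_lit 4) (nat_lit 26) (nat_lit 5) (nat_lit 26) (nat_lit 4) (nat_lit 448) (nat_lit 382) (nat_lit 370)) (XT.lf (nat_lit 0) (nat_lit 10986500148) (nat_lit 152) (nat_lit 12311162919) (nat_lit 0) (nat_lit 8641971514) (nat_lit 23) (nat_lit 5) (nat_lit 25) (nat_lit 4) (nat_lit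 23) (nat_lit 4) (nat_lit 449) (nat_lit 382) (nat_lit 369))) (XT.nd (nat_lit 78) (nat_lit 152) (nat_lit 0) (XT.lf (nat_lit 0) (nat_lit 16034706930) (nat_lit 76) (nat_lit 10088888478) (nat_lit 76) (nat_lit 7643367526) (nat_lit 22) (nat_lit 4) (nat_lit 23) (nat_lit 5) (nat_lit 23) (nat_lit 4) (nat_lit 450) (nat_lit 382) (nat_lit 368)) (XT.lf (nat_lit 0) (nat_lit 6505089326) (nat_lit 152) (nat_lit 25143705891) (nat_lit 0) (nat_lit 4086963270) (nat_lit 20) (nat_lit 5) (nat_lit 22) (nat_lit 4) (nat_lit 20) (nat_lit 4) (nat_lit 451) (nat_lit 382) (nat_lit 367)))))) (XT.nd (nat_lit 546) (nat_lit 380) (nat_lit 0) (XT.nd (nat_lit 234) (nat_lit 304) (nat_lit 0) (XT.nd (nat_lit 78) (nat_lit 152) (nat_lit 0) (XT.lf (nat_lit 0) (nat_lit 2852009798) (nat_lit 76) (nat_lit 18750075382) (nat_lit 76) (nat_lit 16249487768) (nat_lit 19) (nat_lit 4) (nat_lit 20) (nat_lit 5) (nat_lit 20) (nat_lit 4) (nat_lit 452)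 (nat_lit 382) (nat_lit 366)) (XT.nd (nat_lit 78) (nat_lit 152) (nat_lit 0) (XT.lf (nat_lit 0) (nat_lit 33120432163) (nat_lit 76) (nat_lit 4796333802) (nat_lit 76) (nat_lit 2219392894) (nat_lit 19) (nat_lit 4) (nat_lit 20) (nat_lit 5) (nat_lit 20) (nat_lit 4) (nat_lit 453) (nat_lit 382) (nat_lit 365)) (XT.lf (nat_lit 0) (nat_lit 12637390644) (nat_lit 152) (nat_lit 19834285822) (nat_lit 0) (nat_lit 10115830261) (nat_lit 17) (nat_lit 5) (nat_lit 19) (nat_lit 4) (nat_lit 17) (nat_lit 4) (nat_lit 454) (nat_lit 382) (nat_lit 364)))) (XT.nd (nat_lit 156) (nat_lit 228) (nat_lit 0) (XT.nd (nat_lit 78) (nat_lit 0) (nat_lit 0) (XT.lf (nat_lit 0) (nat_lit 9311255842) (nat_lit 76) (nat_lit 19253891981) (nat_lit 76) (nat_lit 16669988129) (nat_lit 16) (nat_lit 4) (nat_lit 17) (nat_lit 5) (nat_lit 17) (nat_lit 4) (nat_lit 455) (nat_lit 382) (nat_lit 363)) (XT.lf (nat_lit 0) (nat_lit 40739305646) (nat_lit 76)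 (nat_lit 4999166872) (nat_lit 76) (nat_lit 2357537584) (nat_lit 16) (nat_lit 4) (nat_lit 17) (nat_lit 5) (nat_lit 17) (nat_lit 4) (nat_lit 456) (nat_lit 382) (nat_lit 362))) (XT.nd (nat_lit 78) (nat_lit 76) (nat_lit 0) (XT.lf (nat_lit 0) (nat_lit 12858676785) (nat_lit 152) (nat_lit 28016015349) (nat_lit 0) (nat_lit 10291935105) (nat_lit 14) (nat_lit 5) (nat_lit 16) (nat_lit 4) (nat_lit 14) (nat_lit 4) (nat_lit 457) (nat_lit 382) (nat_lit 361)) (XT.lf (nat_lit 0) (nat_lit 1100391990) (nat_lit 76) (nat_lit 27999954228) (nat_lit 76) (nat_lit 25386078971) (nat_lit 13) (nat_lit 4) (nat_lit 14) (nat_lit 5) (nat_lit 14) (nat_lit 4) (nat_lit 458) (nat_lit 382) (nat_lit 360))))) (XT.nd (nat_lit 312) (nat_lit 152) (nat_lit 0) (XT.nd (nat_lit 156) (nat_lit 76) (nat_lit 0) (XT.nd (nat_lit 78) (nat_lit 152) (nat_lit 0) (XT.lf (nat_lit 0) (nat_lit 32883277685) (nat_lit 76) (nat_lit 13919000871) (nat_lit 76)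 (nat_lit 11261483413) (nat_lit 13) (nat_lit 4) (nat_lit 14) (nat_lit 5) (nat_lit 14) (nat_lit 4) (nat_lit 459) (nat_lit 382) (nat_lit 359)) (XT.lf (nat_lit 0) (nat_lit 3648969335) (nat_lit 152) (nat_lit 57206500696) (nat_lit 0) (nat_lit 1079515140) (nat_lit 11) (nat_lit 5) (nat_lit 13) (nat_lit 4) (nat_lit 11) (nat_lit 4) (nat_lit 460) (nat_lit 382) (nat_lit 358))) (XT.nd (nat_lit 78) (nat_lit 76) (nat_lit 0) (XT.lf (nat_lit 0) (nat_lit 19744424918) (nat_lit 152) (nat_lit 29203579781) (nat_lit 0) (nat_lit 17139336292) (nat_lit 11) (nat_lit 5) (nat_lit 13) (nat_lit 4) (nat_lit 11) (nat_lit 4) (nat_lit 461) (nat_lit 382) (nat_lit 357)) (XT.lf (nat_lit 0) (nat_lit 493152210) (nat_lit 76) (nat_lit 36365139453) (nat_lit 76) (nat_lit 33727055982) (nat_lit 10) (nat_lit 4) (nat_lit 11) (nat_lit 5) (nat_lit 11) (nat_lit 4) (nat_lit 462) (nat_lit 382) (nat_lit 356)))) (XT.nd (nat_lit 156) (nat_lit 152)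 (nat_lit 0) (XT.nd (nat_lit 78) (nat_lit 0) (nat_lit 0) (XT.lf (nat_lit 0) (nat_lit 33070699440) (nat_lit 76) (nat_lit 22514467845) (nat_lit 76) (nat_lit 19845833593) (nat_lit 10) (nat_lit 4) (nat_lit 11) (nat_lit 5) (nat_lit 11) (nat_lit 4) (nat_lit 463) (nat_lit 382) (nat_lit 355)) (XT.lf (nat_lit 0) (nat_lit 67756511805) (nat_lit 76) (nat_lit 7808488576) (nat_lit 76) (nat_lit 5111566563) (nat_lit 10) (nat_lit 4) (nat_lit 11) (nat_lit 5) (nat_lit 11) (nat_lit 4) (nat_lit 464) (nat_lit 382) (nat_lit 354))) (XT.nd (nat_lit 78) (nat_lit 0) (nat_lit 0) (XT.lf (nat_lit 0) (nat_lit 10649067520) (nat_lit 152) (nat_lit 67618987358) (nat_lit 0) (nat_lit 8055625250) (nat_lit 8) (nat_lit 5) (nat_lit 10) (nat_lit 4) (nat_lit 8) (nat_lit 4) (nat_lit 465) (nat_lit 382) (nat_lit 353)) (XT.lf (nat_lit 0) (nat_lit 27630062160) (nat_lit 152) (nat_lit 39767858900) (nat_lit 0) (nat_lit 25013522560) (nat_lit 8)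 (nat_lit 5) (nat_lit 10) (nat_lit 4) (nat_lit 8) (nat_lit 4) (nat_lit 466) (nat_lit 382) (nat_lit 352))))))))
noncomputable def xc20 : XT := (XT.nd (nat_lit 2262) (nat_lit 76) (nat_lit 0) (XT.nd (nat_lit 1092) (nat_lit 152) (nat_lit 0) (XT.nd (nat_lit 546) (nat_lit 76) (nat_lit 0) (XT.nd (nat_lit 234) (nat_lit 152) (nat_lit 0) (XT.nd (nat_lit 78) (nat_lit 76) (nat_lit 0) (XT.lf (nat_lit 0) (nat_lit 45761930951) (nat_lit 152) (nat_lit 10110673293) (nat_lit 0) (nat_lit 43124004935) (nat_lit 8) (nat_lit 5) (nat_lit 10) (nat_lit 4) (nat_lit 8) (nat_lit 4) (nat_lit 467) (nat_lit 382) (nat_lit 351)) (XT.nd (nat_lit 78) (nat_lit 0) (nat_lit 0) (XT.lf (nat_lit 0) (nat_lit 22240139090) (nat_lit 76) (nat_lit 43259213812) (nat_lit 76) (nat_lit 40601485560) (nat_lit 7) (nat_lit 4) (nat_lit 8) (nat_lit 5) (nat_lit 8) (nat_lit 4) (nat_lit 468) (nat_lit 382) (nat_lit 350)) (XT.lf (nat_lit 0) (nat_lit 57166276383)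 (nat_lit 76) (nat_lit 29641789555) (nat_lit 76) (nat_lit 26965725899) (nat_lit 7) (nat_lit 4) (nat_lit 8) (nat_lit 5) (nat_lit 8) (nat_lit 4) (nat_lit 469) (nat_lit 382) (nat_lit 349)))) (XT.nd (nat_lit 156) (nat_lit 0) (nat_lit 0) (XT.nd (nat_lit 78) (nat_lit 152) (nat_lit 0) (XT.lf (nat_lit 0) (nat_lit 94540403767) (nat_lit 76) (nat_lit 15110864770) (nat_lit 76) (nat_lit 12417823887) (nat_lit 7) (nat_lit 4) (nat_lit 8) (nat_lit 5) (nat_lit 8) (nat_lit 4) (nat_lit 470) (nat_lit 382) (nat_lit 348)) (XT.lf (nat_lit 0) (nat_lit 3093018752) (nat_lit 152) (nat_lit 127423953927) (nat_lit 0) (nat_lit 513246812) (nat_lit 5) (nat_lit 5) (nat_lit 7) (nat_lit 4) (nat_lit 5) (nat_lit 4) (nat_lit 471) (nat_lit 382) (nat_lit 347))) (XT.nd (nat_lit 78) (nat_lit 0) (nat_lit 0) (XT.lf (nat_lit 0) (nat_lit 20002018450) (nat_lit 152) (nat_lit 103258038326) (nat_lit 0) (nat_lit 17408384382) (nat_lit 5) (nat_lit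 5) (nat_lit 7) (nat_lit 4) (nat_lit 5) (nat_lit 4) (nat_lit 472) (nat_lit 382) (nat_lit 346)) (XT.lf (nat_lit 0) (nat_lit 38119611677) (nat_lit 152) (nat_lit 77452173330) (nat_lit 0) (nat_lit 35513142304) (nat_lit 5) (nat_lit 5) (nat_lit 7) (nat_lit 4) (nat_lit 5) (nat_lit 4) (nat_lit 473) (nat_lit 382) (nat_lit 345))))) (XT.nd (nat_lit 234) (nat_lit 0) (nat_lit 0) (XT.nd (nat_lit 78) (nat_lit 76) (nat_lit 0) (XT.lf (nat_lit 0) (nat_lit 57553161948) (nat_lit 152) (nat_lit 49853435293) (nat_lit 0) (nat_lit 54934808034) (nat_lit 5) (nat_lit 5) (nat_lit 7) (nat_lit 4) (nat_lit 5) (nat_lit 4) (nat_lit 474) (nat_lit 382) (nat_lit 344)) (XT.nd (nat_lit 78) (nat_lit 76) (nat_lit 0) (XT.lf (nat_lit 0) (nat_lit 78417831042) (nat_lit 152) (nat_lit 20298276139) (nat_lit 0) (nat_lit 75788472923) (nat_lit 5) (nat_lit 5) (nat_lit 7) (nat_lit 4) (nat_lit 5) (nat_lit 4) (nat_lit 475) (nat_lit 382) (nat_lit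 343)) (XT.lf (nat_lit 0) (nat_lit 11764999267) (nat_lit 76) (nat_lit 89255946786) (nat_lit 76) (nat_lit 86616399589) (nat_lit 4) (nat_lit 4) (nat_lit 5) (nat_lit 5) (nat_lit 5) (nat_lit 4) (nat_lit 476) (nat_lit 382) (nat_lit 342)))) (XT.nd (nat_lit 156) (nat_lit 0) (nat_lit 0) (XT.nd (nat_lit 78) (nat_lit 0) (nat_lit 0) (XT.lf (nat_lit 0) (nat_lit 46895451042) (nat_lit 76) (nat_lit 78781027408) (nat_lit 76) (nat_lit 76132045879) (nat_lit 4) (nat_lit 4) (nat_lit 5) (nat_lit 5) (nat_lit 5) (nat_lit 4) (nat_lit 477) (nat_lit 382) (nat_lit 341)) (XT.lf (nat_lit 0) (nat_lit 84630106963) (nat_lit 76) (nat_lit 67573036579) (nat_lit 76) (nat_lit 64915319557) (nat_lit 4) (nat_lit 4) (nat_lit 5) (nat_lit 5) (nat_lit 5) (nat_lit 4) (nat_lit 478) (nat_lit 382) (nat_lit 340))) (XT.nd (nat_lit 78) (nat_lit 0) (nat_lit 0) (XT.lf (nat_lit 0) (nat_lit 125192579804) (nat_lit 76) (nat_lit 55565556575) (nat_lit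 76) (nat_lit 52899751134) (nat_lit 4) (nat_lit 4) (nat_lit 5) (nat_lit 5) (nat_lit 5) (nat_lit 4) (nat_lit 479) (nat_lit 382) (nat_lit 339)) (XT.lf (nat_lit 0) (nat_lit 168823239776) (nat_lit 76) (nat_lit 42687431959) (nat_lit 76) (nat_lit 40014137242) (nat_lit 4) (nat_lit 4) (nat_lit 5) (nat_lit 5) (nat_lit 5) (nat_lit 4) (nat_lit 480) (nat_lit 382) (nat_lit 338)))))) (XT.nd (nat_lit 546) (nat_lit 0) (nat_lit 0) (XT.nd (nat_lit 234) (nat_lit 0) (nat_lit 0) (XT.nd (nat_lit 78) (nat_lit 152) (nat_lit 0) (XT.lf (nat_lit 0) (nat_lit 215780638937) (nat_lit 76) (nat_lit 28862347920) (nat_lit 76) (nat_lit 26182118686) (nat_lit 4) (nat_lit 4) (nat_lit 5) (nat_lit 5) (nat_lit 5) (nat_lit 4) (nat_lit 481) (nat_lit 382) (nat_lit 337)) (XT.nd (nat_lit 78) (nat_lit 152) (nat_lit 0) (XT.lf (nat_lit 0) (nat_lit 266343043357) (nat_lit 76) (nat_lit 14008378032) (nat_lit 76) (nat_lit 11321727951) (nat_lit 4)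 (nat_lit 4) (nat_lit 5) (nat_lit 5) (nat_lit 5) (nat_lit 4) (nat_lit 482) (nat_lit 382) (nat_lit 336)) (XT.lf (nat_lit 0) (nat_lit 4645229731) (nat_lit 152) (nat_lit 307455811131) (nat_lit 0) (nat_lit 2080853245) (nat_lit 2) (nat_lit 5) (nat_lit 4) (nat_lit 4) (nat_lit 2) (nat_lit 4) (nat_lit 483) (nat_lit 382) (nat_lit 335)))) (XT.nd (nat_lit 156) (nat_lit 0) (nat_lit 0) (XT.nd (nat_lit 78) (nat_lit 0) (nat_lit 0) (XT.lf (nat_lit 0) (nat_lit 22114758704) (nat_lit 152) (nat_lit 296791066669) (nat_lit 0) (nat_lit 19545139511) (nat_lit 2) (nat_lit 5) (nat_lit 4) (nat_lit 4) (nat_lit 2) (nat_lit 4) (nat_lit 484) (nat_lit 382) (nat_lit 334)) (XT.lf (nat_lit 0) (nat_lit 40918790422) (nat_lit 152) (nat_lit 285401607169) (nat_lit 0) (nat_lit 38344316871) (nat_lit 2) (nat_lit 5) (nat_lit 4) (nat_lit 4) (nat_lit 2) (nat_lit 4) (nat_lit 485) (nat_lit 382) (nat_lit 333))) (XT.nd (nat_lit 78) (nat_lit 0)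 (nat_lit 0) (XT.lf (nat_lit 0) (nat_lit 61168756185) (nat_lit 152) (nat_lit 273219939539) (nat_lit 0) (nat_lit 58589787858) (nat_lit 2) (nat_lit 5) (nat_lit 4) (nat_lit 4) (nat_lit 2) (nat_lit 4) (nat_lit 486) (nat_lit 382) (nat_lit 332)) (XT.lf (nat_lit 0) (nat_lit 82984655790) (nat_lit 152) (nat_lit 260173876118) (nat_lit 0) (nat_lit 80401525634) (nat_lit 2) (nat_lit 5) (nat_lit 4) (nat_lit 4) (nat_lit 2) (nat_lit 4) (nat_lit 487) (nat_lit 382) (nat_lit 331))))) (XT.nd (nat_lit 312) (nat_lit 0) (nat_lit 0) (XT.nd (nat_lit 156) (nat_lit 0) (nat_lit 0) (XT.nd (nat_lit 78) (nat_lit 0) (nat_lit 0) (XT.lf (nat_lit 0) (nat_lit 106495768642) (nat_lit 152) (nat_lit 246186106902) (nat_lit 0) (nat_lit 103908784940) (nat_lit 2) (nat_lit 5) (nat_lit 4) (nat_lit 4) (nat_lit 2) (nat_lit 4) (nat_lit 488) (nat_lit 382) (nat_lit 330)) (XT.lf (nat_lit 0) (nat_lit 131841419855) (nat_lit 152) (nat_lit 231173741406)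 (nat_lit 0) (nat_lit 129250868054) (nat_lit 2) (nat_lit 5) (nat_lit 4) (nat_lit 4) (nat_lit 2) (nat_lit 4) (nat_lit 489) (nat_lit 382) (nat_lit 329))) (XT.nd (nat_lit 78) (nat_lit 0) (nat_lit 0) (XT.lf (nat_lit 0) (nat_lit 159171805879) (nat_lit 152) (nat_lit 215047817464) (nat_lit 0) (nat_lit 156577950284) (nat_lit 2) (nat_lit 5) (nat_lit 4) (nat_lit 4) (nat_lit 2) (nat_lit 4) (nat_lit 490) (nat_lit 382) (nat_lit 328)) (XT.lf (nat_lit 0) (nat_lit 188648884558) (nat_lit 152) (nat_lit 197712774046) (nat_lit 0) (nat_lit 186051969894) (nat_lit 2) (nat_lit 5) (nat_lit 4) (nat_lit 4) (nat_lit 2) (nat_lit 4) (nat_lit 491) (nat_lit 382) (nat_lit 327)))) (XT.nd (nat_lit 156) (nat_lit 0) (nat_lit 0) (XT.nd (nat_lit 78) (nat_lit 0) (nat_lit 0) (XT.lf (nat_lit 0) (nat_lit 220447334877) (nat_lit 152) (nat_lit 179065884967) (nat_lit 0) (nat_lit 217847587742) (nat_lit 2) (nat_lit 5) (nat_lit 4) (nat_lit 4)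 (nat_lit 2) (nat_lit 4) (nat_lit 492) (nat_lit 382) (nat_lit 326)) (XT.lf (nat_lit 0) (nat_lit 254755592097) (nat_lit 152) (nat_lit 158996650145) (nat_lit 0) (nat_lit 252153222303) (nat_lit 2) (nat_lit 5) (nat_lit 4) (nat_lit 4) (nat_lit 2) (nat_lit 4) (nat_lit 493) (nat_lit 382) (nat_lit 325))) (XT.nd (nat_lit 78) (nat_lit 0) (nat_lit 0) (XT.lf (nat_lit 0) (nat_lit 291776964408) (nat_lit 152) (nat_lit 137386140781) (nat_lit 0) (nat_lit 289172166226) (nat_lit 2) (nat_lit 5) (nat_lit 4) (nat_lit 4) (nat_lit 2) (nat_lit 4) (nat_lit 494) (nat_lit 382) (nat_lit 324)) (XT.lf (nat_lit 0) (nat_lit 331730837721) (nat_lit 152) (nat_lit 114106294596) (nat_lit 0) (nat_lit 329123791033) (nat_lit 2) (nat_lit 5) (nat_lit 4) (nat_lit 4) (nat_lit 2) (nat_lit 4) (nat_lit 495) (nat_lit 382) (nat_lit 323))))))) (XT.nd (nat_lit 58110) (nat_lit 0) (nat_lit 1216) (XT.nd (nat_lit 546) (nat_lit 0) (nat_lit 0) (XT.nd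 (nat_lit 234) (nat_lit 76) (nat_lit 0) (XT.nd (nat_lit 78) (nat_lit 0) (nat_lit 0) (XT.lf (nat_lit 0) (nat_lit 374853975730) (nat_lit 152) (nat_lit 89019156948) (nat_lit 0) (nat_lit 372244847090) (nat_lit 2) (nat_lit 5) (nat_lit 4) (nat_lit 4) (nat_lit 2) (nat_lit 4) (nat_lit 496) (nat_lit 382) (nat_lit 322)) (XT.nd (nat_lit 78) (nat_lit 0) (nat_lit 0) (XT.lf (nat_lit 0) (nat_lit 421401922956) (nat_lit 152) (nat_lit 61976063316) (nat_lit 0) (nat_lit 418790866584) (nat_lit 2) (nat_lit 5) (nat_lit 4) (nat_lit 4) (nat_lit 2) (nat_lit 4) (nat_lit 497) (nat_lit 382) (nat_lit 321)) (XT.lf (nat_lit 0) (nat_lit 471650519086) (nat_lit 152) (nat_lit 32816758331) (nat_lit 0) (nat_lit 469037677777) (nat_lit 2) (nat_lit 5) (nat_lit 4) (nat_lit 4) (nat_lit 2) (nat_lit 4) (nat_lit 498) (nat_lit 382) (nat_lit 320)))) (XT.nd (nat_lit 156) (nat_lit 0) (nat_lit 0) (XT.nd (nat_lit 78) (nat_lit 76) (nat_lit 0) (XT.lf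 (nat_lit 0) (nat_lit 525897533579) (nat_lit 152) (nat_lit 1368446112) (nat_lit 0) (nat_lit 523283039550) (nat_lit 2) (nat_lit 5) (nat_lit 4) (nat_lit 4) (nat_lit 2) (nat_lit 4) (nat_lit 499) (nat_lit 382) (nat_lit 319)) (XT.lf (nat_lit 0) (nat_lit 33631656760) (nat_lit 76) (nat_lit 551357857879) (nat_lit 76) (nat_lit 548741833553) (nat_lit 1) (nat_lit 4) (nat_lit 2) (nat_lit 5) (nat_lit 2) (nat_lit 4) (nat_lit 500) (nat_lit 382) (nat_lit 318))) (XT.nd (nat_lit 78) (nat_lit 0) (nat_lit 0) (XT.lf (nat_lit 0) (nat_lit 71441897224) (nat_lit 76) (nat_lit 577371783121) (nat_lit 76) (nat_lit 574754341854) (nat_lit 1) (nat_lit 4) (nat_lit 2) (nat_lit 5) (nat_lit 2) (nat_lit 4) (nat_lit 501) (nat_lit 382) (nat_lit 317)) (XT.lf (nat_lit 0) (nat_lit 112241088955) (nat_lit 76) (nat_lit 605485087308) (nat_lit 76) (nat_lit 602866334059) (nat_lit 1) (nat_lit 4) (nat_lit 2) (nat_lit 5) (nat_lit 2) (nat_lit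 4) (nat_lit 502) (nat_lit 382) (nat_lit 316))))) (XT.nd (nat_lit 57252) (nat_lit 0) (nat_lit 2964) (XT.nd (nat_lit 57096) (nat_lit 0) (nat_lit 3496) (XT.nd (nat_lit 78) (nat_lit 0) (nat_lit 0) (XT.lf (nat_lit 0) (nat_lit 156271004940) (nat_lit 76) (nat_lit 635864367799) (nat_lit 76) (nat_lit 633244399752) (nat_lit 1) (nat_lit 4) (nat_lit 2) (nat_lit 5) (nat_lit 2) (nat_lit 4) (nat_lit 503) (nat_lit 382) (nat_lit 315)) (XT.lf (nat_lit 0) (nat_lit 203792563202) (nat_lit 76) (nat_lit 668689649960) (nat_lit 76) (nat_lit 666068557099) (nat_lit 1) (nat_lit 4) (nat_lit 2) (nat_lit 5) (nat_lit 2) (nat_lit 4) (nat_lit 504) (nat_lit 382) (nat_lit 314))) (XT.nd (nat_lit 78) (nat_lit 152) (nat_lit 0) (XT.lf (nat_lit 0) (nat_lit 820598796) (nat_lit 76) (nat_lit 3509074542) (nat_lit 76) (nat_lit 3509074542) (nat_lit 49) (nat_lit 4) (nat_lit 50) (nat_lit 5) (nat_lit 50) (nat_lit 4) (nat_lit 434) (nat_lit 383)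 (nat_lit 383)) (XT.lf (nat_lit 0) (nat_lit 4257533607) (nat_lit 152) (nat_lit 8257136771) (nat_lit 0) (nat_lit 3819270096) (nat_lit 47) (nat_lit 5) (nat_lit 49) (nat_lit 4) (nat_lit 47) (nat_lit 4) (nat_lit 435) (nat_lit 383) (nat_lit 382)))) (XT.nd (nat_lit 156) (nat_lit 228) (nat_lit 0) (XT.nd (nat_lit 78) (nat_lit 228) (nat_lit 0) (XT.lf (nat_lit 0) (nat_lit 14476794693) (nat_lit 76) (nat_lit 1702468224) (nat_lit 76) (nat_lit 858405167) (nat_lit 46) (nat_lit 4) (nat_lit 47) (nat_lit 5) (nat_lit 47) (nat_lit 4) (nat_lit 436) (nat_lit 383) (nat_lit 381)) (XT.lf (nat_lit 0) (nat_lit 3024610043) (nat_lit 76) (nat_lit 7960796199) (nat_lit 76) (nat_lit 6799078695) (nat_lit 43) (nat_lit 4) (nat_lit 44) (nat_lit 5) (nat_lit 44) (nat_lit 4) (nat_lit 437) (nat_lit 383) (nat_lit 380))) (XT.nd (nat_lit 78) (nat_lit 76) (nat_lit 0) (XT.lf (nat_lit 0) (nat_lit 5009950184) (nat_lit 152) (nat_lit 9987454700)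 (nat_lit 0) (nat_lit 3587990017) (nat_lit 41) (nat_lit 5) (nat_lit 43) (nat_lit 4) (nat_lit 41) (nat_lit 4) (nat_lit 438) (nat_lit 383) (nat_lit 379)) (XT.lf (nat_lit 0) (nat_lit 13968312604) (nat_lit 76) (nat_lit 3594394460) (nat_lit 76) (nat_lit 1880246753) (nat_lit 40) (nat_lit 4) (nat_lit 41) (nat_lit 5) (nat_lit 41) (nat_lit 4) (nat_lit 439) (nat_lit 383) (nat_lit 378)))))) (XT.nd (nat_lit 546) (nat_lit 836) (nat_lit 0) (XT.nd (nat_lit 234) (nat_lit 456) (nat_lit 0) (XT.nd (nat_lit 78) (nat_lit 304) (nat_lit 0) (XT.lf (nat_lit 0) (nat_lit 10458029286) (nat_lit 152) (nat_lit 1332280397) (nat_lit 0) (nat_lit 8567846689) (nat_lit 38) (nat_lit 5) (nat_lit 40) (nat_lit 4) (nat_lit 38) (nat_lit 4) (nat_lit 440) (nat_lit 383) (nat_lit 377)) (XT.nd (nat_lit 78) (nat_lit 76) (nat_lit 0) (XT.lf (nat_lit 0) (nat_lit 2328548610) (nat_lit 152) (nat_lit 18711879291) (nat_lit 0) (nat_lit 301160448) (nat_lit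 35) (nat_lit 5) (nat_lit 37) (nat_lit 4) (nat_lit 35) (nat_lit 4) (nat_lit 441) (nat_lit 383) (nat_lit 376)) (XT.lf (nat_lit 0) (nat_lit 6054295439) (nat_lit 76) (nat_lit 9285747270) (nat_lit 76) (nat_lit 7047975534) (nat_lit 34) (nat_lit 4) (nat_lit 35) (nat_lit 5) (nat_lit 35) (nat_lit 4) (nat_lit 442) (nat_lit 383) (nat_lit 375)))) (XT.nd (nat_lit 156) (nat_lit 228) (nat_lit 0) (XT.nd (nat_lit 78) (nat_lit 76) (nat_lit 0) (XT.lf (nat_lit 0) (nat_lit 5674187929) (nat_lit 152) (nat_lit 14482546371) (nat_lit 0) (nat_lit 3357453318) (nat_lit 32) (nat_lit 5) (nat_lit 34) (nat_lit 4) (nat_lit 32) (nat_lit 4) (nat_lit 443) (nat_lit 383) (nat_lit 374)) (XT.lf (nat_lit 0) (nat_lit 11331300550) (nat_lit 76) (nat_lit 7938384948) (nat_lit 76) (nat_lit 5449869380) (nat_lit 31) (nat_lit 4) (nat_lit 32) (nat_lit 5) (nat_lit 32) (nat_lit 4) (nat_lit 444) (nat_lit 383) (nat_lit 373))) (XT.nd (nat_lit 78)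 (nat_lit 76) (nat_lit 0) (XT.lf (nat_lit 0) (nat_lit 7712044965) (nat_lit 152) (nat_lit 13110850678) (nat_lit 0) (nat_lit 5190547812) (nat_lit 29) (nat_lit 5) (nat_lit 31) (nat_lit 4) (nat_lit 29) (nat_lit 4) (nat_lit 445) (nat_lit 383) (nat_lit 372)) (XT.lf (nat_lit 0) (nat_lit 13592524390) (nat_lit 76) (nat_lit 8235506070) (nat_lit 76) (nat_lit 5573747505) (nat_lit 28) (nat_lit 4) (nat_lit 29) (nat_lit 5) (nat_lit 29) (nat_lit 4) (nat_lit 446) (nat_lit 383) (nat_lit 371))))) (XT.nd (nat_lit 312) (nat_lit 380) (nat_lit 0) (XT.nd (nat_lit 156) (nat_lit 228) (nat_lit 0) (XT.nd (nat_lit 78) (nat_lit 76) (nat_lit 0) (XT.lf (nat_lit 0) (nat_lit 7956943134) (nat_lit 152) (nat_lit 15637293780) (nat_lit 0) (nat_lit 5298247664) (nat_lit 26) (nat_lit 5) (nat_lit 28) (nat_lit 4) (nat_lit 26) (nat_lit 4) (nat_lit 447) (nat_lit 383) (nat_lit 370)) (XT.lf (nat_lit 0) (nat_lit 11689438195) (nat_lit 76) (nat_lit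 10788260570) (nat_lit 76) (nat_lit 8015039810) (nat_lit 25) (nat_lit 4) (nat_lit 26) (nat_lit 5) (nat_lit 26) (nat_lit 4) (nat_lit 448) (nat_lit 383) (nat_lit 369))) (XT.nd (nat_lit 78) (nat_lit 76) (nat_lit 0) (XT.lf (nat_lit 0) (nat_lit 5760023877) (nat_lit 152) (nat_lit 23437936653) (nat_lit 0) (nat_lit 3017868929) (nat_lit 23) (nat_lit 5) (nat_lit 25) (nat_lit 4) (nat_lit 23) (nat_lit 4) (nat_lit 449) (nat_lit 383) (nat_lit 368)) (XT.lf (nat_lit 0) (nat_lit 4100500410) (nat_lit 76) (nat_lit 16399100584) (nat_lit 76) (nat_lit 13563434230) (nat_lit 22) (nat_lit 4) (nat_lit 23) (nat_lit 5) (nat_lit 23) (nat_lit 4) (nat_lit 450) (nat_lit 383) (nat_lit 367)))) (XT.nd (nat_lit 156) (nat_lit 228) (nat_lit 0) (XT.nd (nat_lit 78) (nat_lit 76) (nat_lit 0) (XT.lf (nat_lit 0) (nat_lit 336917590) (nat_lit 152) (nat_lit 2231569928) (nat_lit 76) (nat_lit 33489845235) (nat_lit 21) (nat_lit 5) (nat_lit 23)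 (nat_lit 5) (nat_lit 22) (nat_lit 4) (nat_lit 451) (nat_lit 383) (nat_lit 366)) (XT.lf (nat_lit 0) (nat_lit 15113393705) (nat_lit 152) (nat_lit 10822836495) (nat_lit 0) (nat_lit 12253944230) (nat_lit 20) (nat_lit 5) (nat_lit 22) (nat_lit 4) (nat_lit 20) (nat_lit 4) (nat_lit 452) (nat_lit 383) (nat_lit 365))) (XT.nd (nat_lit 78) (nat_lit 152) (nat_lit 0) (XT.lf (nat_lit 0) (nat_lit 18702751732) (nat_lit 76) (nat_lit 12360206271) (nat_lit 76) (nat_lit 9430059302) (nat_lit 19) (nat_lit 4) (nat_lit 20) (nat_lit 5) (nat_lit 20) (nat_lit 4) (nat_lit 453) (nat_lit 383) (nat_lit 364)) (XT.lf (nat_lit 0) (nat_lit 5109079835) (nat_lit 152) (nat_lit 35612216609) (nat_lit 0) (nat_lit 2256120204) (nat_lit 17) (nat_lit 5) (nat_lit 19) (nat_lit 4) (nat_lit 17) (nat_lit 4) (nat_lit 454) (nat_lit 383) (nat_lit 363))))))))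
noncomputable def xc21 : XT := (XT.nd (nat_lit 2262) (nat_lit 228) (nat_lit 0) (XT.nd (nat_lit 1092) (nat_lit 304) (nat_lit 0) (XT.nd (nat_lit 546) (nat_lit 228) (nat_lit 0) (XT.nd (nat_lit 234) (nat_lit 228) (nat_lit 0) (XT.nd (nat_lit 78) (nat_lit 228) (nat_lit 0) (XT.lf (nat_lit 0) (nat_lit 20717265960) (nat_lit 152) (nat_lit 7117178501) (nat_lit 0) (nat_lit 17806580895) (nat_lit 17) (nat_lit 5) (nat_lit 19) (nat_lit 4) (nat_lit 17) (nat_lit 4) (nat_lit 455) (nat_lit 383) (nat_lit 362)) (XT.nd (nat_lit 78) (nat_lit 152) (nat_lit 0) (XT.lf (nat_lit 0) (nat_lit 23738378598) (nat_lit 76) (nat_lit 13870861908) (nat_lit 76) (nat_lit 10906727367) (nat_lit 16) (nat_lit 4) (nat_lit 17) (nat_lit 5) (nat_lit 17) (nat_lit 4) (nat_lit 456) (nat_lit 383) (nat_lit 361)) (XT.lf (nat_lit 0) (nat_lit 3994555118) (nat_lit 152) (nat_lit 46503696195) (nat_lit 0) (nat_lit 1124436263) (nat_lit 14) (nat_lit 5)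 (nat_lit 16) (nat_lit 4) (nat_lit 14) (nat_lit 4) (nat_lit 457) (nat_lit 383) (nat_lit 360)))) (XT.nd (nat_lit 156) (nat_lit 152) (nat_lit 0) (XT.nd (nat_lit 78) (nat_lit 76) (nat_lit 0) (XT.lf (nat_lit 0) (nat_lit 20066767451) (nat_lit 152) (nat_lit 17731185238) (nat_lit 0) (nat_lit 17153006395) (nat_lit 14) (nat_lit 5) (nat_lit 16) (nat_lit 4) (nat_lit 14) (nat_lit 4) (nat_lit 458) (nat_lit 383) (nat_lit 359)) (XT.lf (nat_lit 0) (nat_lit 13170165153) (nat_lit 76) (nat_lit 24166940778) (nat_lit 76) (nat_lit 21212770276) (nat_lit 13) (nat_lit 4) (nat_lit 14) (nat_lit 5) (nat_lit 14) (nat_lit 4) (nat_lit 459) (nat_lit 383) (nat_lit 358))) (XT.nd (nat_lit 78) (nat_lit 152) (nat_lit 0) (XT.lf (nat_lit 0) (nat_lit 46608145275) (nat_lit 76) (nat_lit 9409363730) (nat_lit 76) (nat_lit 6417777074) (nat_lit 13) (nat_lit 4) (nat_lit 14) (nat_lit 5) (nat_lit 14) (nat_lit 4) (nat_lit 460) (nat_lit 383)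 (nat_lit 357)) (XT.lf (nat_lit 0) (nat_lit 9343582681) (nat_lit 152) (nat_lit 50814587272) (nat_lit 0) (nat_lit 6461457689) (nat_lit 11) (nat_lit 5) (nat_lit 13) (nat_lit 4) (nat_lit 11) (nat_lit 4) (nat_lit 461) (nat_lit 383) (nat_lit 356))))) (XT.nd (nat_lit 234) (nat_lit 152) (nat_lit 0) (XT.nd (nat_lit 78) (nat_lit 76) (nat_lit 0) (XT.lf (nat_lit 0) (nat_lit 26326475022) (nat_lit 152) (nat_lit 21383909238) (nat_lit 0) (nat_lit 23413799248) (nat_lit 11) (nat_lit 5) (nat_lit 13) (nat_lit 4) (nat_lit 11) (nat_lit 4) (nat_lit 462) (nat_lit 383) (nat_lit 355)) (XT.nd (nat_lit 78) (nat_lit 0) (nat_lit 0) (XT.lf (nat_lit 0) (nat_lit 10247195800) (nat_lit 76) (nat_lit 34343372036) (nat_lit 76) (nat_lit 31402408501) (nat_lit 10) (nat_lit 4) (nat_lit 11) (nat_lit 5) (nat_lit 11) (nat_lit 4) (nat_lit 463) (nat_lit 383) (nat_lit 354)) (XT.lf (nat_lit 0) (nat_lit 44711347445) (nat_lit 76) (nat_lit 19749904371)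 (nat_lit 76) (nat_lit 16782748465) (nat_lit 10) (nat_lit 4) (nat_lit 11) (nat_lit 5) (nat_lit 11) (nat_lit 4) (nat_lit 464) (nat_lit 383) (nat_lit 353)))) (XT.nd (nat_lit 156) (nat_lit 0) (nat_lit 0) (XT.nd (nat_lit 78) (nat_lit 152) (nat_lit 0) (XT.lf (nat_lit 0) (nat_lit 81505729092) (nat_lit 76) (nat_lit 4205648309) (nat_lit 76) (nat_lit 1214240208) (nat_lit 10) (nat_lit 4) (nat_lit 11) (nat_lit 5) (nat_lit 11) (nat_lit 4) (nat_lit 465) (nat_lit 383) (nat_lit 352)) (XT.lf (nat_lit 0) (nat_lit 15551294815) (nat_lit 152) (nat_lit 64794802357) (nat_lit 0) (nat_lit 12680948303) (nat_lit 8) (nat_lit 5) (nat_lit 10) (nat_lit 4) (nat_lit 8) (nat_lit 4) (nat_lit 466) (nat_lit 383) (nat_lit 351))) (XT.nd (nat_lit 78) (nat_lit 0) (nat_lit 0) (XT.lf (nat_lit 0) (nat_lit 33590746663) (nat_lit 152) (nat_lit 35325487622) (nat_lit 0) (nat_lit 30700597914) (nat_lit 8) (nat_lit 5) (nat_lit 10) (nat_lit 4)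 (nat_lit 8) (nat_lit 4) (nat_lit 467) (nat_lit 383) (nat_lit 350)) (XT.lf (nat_lit 0) (nat_lit 52895366473) (nat_lit 152) (nat_lit 3860453092) (nat_lit 0) (nat_lit 49986882320) (nat_lit 8) (nat_lit 5) (nat_lit 10) (nat_lit 4) (nat_lit 8) (nat_lit 4) (nat_lit 468) (nat_lit 383) (nat_lit 349)))))) (XT.nd (nat_lit 546) (nat_lit 76) (nat_lit 0) (XT.nd (nat_lit 234) (nat_lit 152) (nat_lit 0) (XT.nd (nat_lit 78) (nat_lit 0) (nat_lit 0) (XT.lf (nat_lit 0) (nat_lit 30771645526) (nat_lit 76) (nat_lit 43288338090) (nat_lit 76) (nat_lit 40362876710) (nat_lit 7) (nat_lit 4) (nat_lit 8) (nat_lit 5) (nat_lit 8) (nat_lit 4) (nat_lit 469) (nat_lit 383) (nat_lit 348)) (XT.nd (nat_lit 78) (nat_lit 0) (nat_lit 0) (XT.lf (nat_lit 0) (nat_lit 67991703780) (nat_lit 76) (nat_lit 28835713435) (nat_lit 76) (nat_lit 25894532401) (nat_lit 7) (nat_lit 4) (nat_lit 8) (nat_lit 5) (nat_lit 8) (nat_lit 4) (nat_lit 470) (nat_lit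 383) (nat_lit 347)) (XT.lf (nat_lit 0) (nat_lit 107892640962) (nat_lit 76) (nat_lit 13377679058) (nat_lit 76) (nat_lit 10421942789) (nat_lit 7) (nat_lit 4) (nat_lit 8) (nat_lit 5) (nat_lit 8) (nat_lit 4) (nat_lit 471) (nat_lit 383) (nat_lit 346)))) (XT.nd (nat_lit 156) (nat_lit 0) (nat_lit 0) (XT.nd (nat_lit 78) (nat_lit 0) (nat_lit 0) (XT.lf (nat_lit 0) (nat_lit 6152311806) (nat_lit 152) (nat_lit 131895234703) (nat_lit 0) (nat_lit 3324489579) (nat_lit 5) (nat_lit 5) (nat_lit 7) (nat_lit 4) (nat_lit 5) (nat_lit 4) (nat_lit 472) (nat_lit 383) (nat_lit 345)) (XT.lf (nat_lit 0) (nat_lit 24205746180) (nat_lit 152) (nat_lit 106219944783) (nat_lit 0) (nat_lit 21366039412) (nat_lit 5) (nat_lit 5) (nat_lit 7) (nat_lit 4) (nat_lit 5) (nat_lit 4) (nat_lit 473) (nat_lit 383) (nat_lit 344))) (XT.nd (nat_lit 78) (nat_lit 0) (nat_lit 0) (XT.lf (nat_lit 0) (nat_lit 43579890106) (nat_lit 152) (nat_lit 78742109595)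 (nat_lit 0) (nat_lit 40729179133) (nat_lit 5) (nat_lit 5) (nat_lit 7) (nat_lit 4) (nat_lit 5) (nat_lit 4) (nat_lit 474) (nat_lit 383) (nat_lit 343)) (XT.lf (nat_lit 0) (nat_lit 64389553325) (nat_lit 152) (nat_lit 49298897522) (nat_lit 0) (nat_lit 61528653273) (nat_lit 5) (nat_lit 5) (nat_lit 7) (nat_lit 4) (nat_lit 5) (nat_lit 4) (nat_lit 475) (nat_lit 383) (nat_lit 342))))) (XT.nd (nat_lit 312) (nat_lit 0) (nat_lit 0) (XT.nd (nat_lit 156) (nat_lit 0) (nat_lit 0) (XT.nd (nat_lit 78) (nat_lit 76) (nat_lit 0) (XT.lf (nat_lit 0) (nat_lit 86758052360) (nat_lit 152) (nat_lit 17715830272) (nat_lit 0) (nat_lit 83887717976) (nat_lit 5) (nat_lit 5) (nat_lit 7) (nat_lit 4) (nat_lit 5) (nat_lit 4) (nat_lit 476) (nat_lit 383) (nat_lit 341)) (XT.lf (nat_lit 0) (nat_lit 16729706148) (nat_lit 76) (nat_lit 94349432729) (nat_lit 76) (nat_lit 91470362853) (nat_lit 4) (nat_lit 4) (nat_lit 5) (nat_lit 5) (nat_lit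 5) (nat_lit 4) (nat_lit 477) (nat_lit 383) (nat_lit 340))) (XT.nd (nat_lit 78) (nat_lit 0) (nat_lit 0) (XT.lf (nat_lit 0) (nat_lit 54372556514) (nat_lit 76) (nat_lit 83188148675) (nat_lit 76) (nat_lit 80300990380) (nat_lit 4) (nat_lit 4) (nat_lit 5) (nat_lit 5) (nat_lit 5) (nat_lit 4) (nat_lit 478) (nat_lit 383) (nat_lit 339)) (XT.lf (nat_lit 0) (nat_lit 94850024213) (nat_lit 76) (nat_lit 71223915685) (nat_lit 76) (nat_lit 68329268113) (nat_lit 4) (nat_lit 4) (nat_lit 5) (nat_lit 5) (nat_lit 5) (nat_lit 4) (nat_lit 479) (nat_lit 383) (nat_lit 338)))) (XT.nd (nat_lit 156) (nat_lit 0) (nat_lit 0) (XT.nd (nat_lit 78) (nat_lit 0) (nat_lit 0) (XT.lf (nat_lit 0) (nat_lit 138401975719) (nat_lit 76) (nat_lit 58385834601) (nat_lit 76) (nat_lit 55484252513) (nat_lit 4) (nat_lit 4) (nat_lit 5) (nat_lit 5) (nat_lit 5) (nat_lit 4) (nat_lit 480) (nat_lit 383) (nat_lit 337)) (XT.lf (nat_lit 0) (nat_lit 185286496671)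 (nat_lit 76) (nat_lit 44597827905) (nat_lit 76) (nat_lit 41689824970) (nat_lit 4) (nat_lit 4) (nat_lit 5) (nat_lit 5) (nat_lit 5) (nat_lit 4) (nat_lit 481) (nat_lit 383) (nat_lit 336))) (XT.nd (nat_lit 78) (nat_lit 0) (nat_lit 0) (XT.lf (nat_lit 0) (nat_lit 235781421268) (nat_lit 76) (nat_lit 29778188891) (nat_lit 76) (nat_lit 26864240726) (nat_lit 4) (nat_lit 4) (nat_lit 5) (nat_lit 5) (nat_lit 5) (nat_lit 4) (nat_lit 482) (nat_lit 383) (nat_lit 335)) (XT.lf (nat_lit 0) (nat_lit 290185978692) (nat_lit 76) (nat_lit 13839097476) (nat_lit 76) (nat_lit 10919644469) (nat_lit 4) (nat_lit 4) (nat_lit 5) (nat_lit 5) (nat_lit 5) (nat_lit 4) (nat_lit 483) (nat_lit 383) (nat_lit 334))))))) (XT.nd (nat_lit 1170) (nat_lit 76) (nat_lit 0) (XT.nd (nat_lit 546) (nat_lit 0) (nat_lit 0) (XT.nd (nat_lit 234) (nat_lit 0) (nat_lit 0) (XT.nd (nat_lit 78) (nat_lit 0) (nat_lit 0) (XT.lf (nat_lit 0) (nat_lit 6247116107)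 (nat_lit 152) (nat_lit 329545982645) (nat_lit 0) (nat_lit 3461830314) (nat_lit 2) (nat_lit 5) (nat_lit 4) (nat_lit 4) (nat_lit 2) (nat_lit 4) (nat_lit 484) (nat_lit 383) (nat_lit 333)) (XT.nd (nat_lit 78) (nat_lit 0) (nat_lit 0) (XT.lf (nat_lit 0) (nat_lit 25023076434) (nat_lit 152) (nat_lit 318213709986) (nat_lit 0) (nat_lit 22233295865) (nat_lit 2) (nat_lit 5) (nat_lit 4) (nat_lit 4) (nat_lit 2) (nat_lit 4) (nat_lit 485) (nat_lit 383) (nat_lit 332)) (XT.lf (nat_lit 0) (nat_lit 45247050169) (nat_lit 152) (nat_lit 306084993135) (nat_lit 0) (nat_lit 42453107770) (nat_lit 2) (nat_lit 5) (nat_lit 4) (nat_lit 4) (nat_lit 2) (nat_lit 4) (nat_lit 486) (nat_lit 383) (nat_lit 331)))) (XT.nd (nat_lit 156) (nat_lit 0) (nat_lit 0) (XT.nd (nat_lit 78) (nat_lit 0) (nat_lit 0) (XT.lf (nat_lit 0) (nat_lit 67038883081) (nat_lit 152) (nat_lit 293087958214) (nat_lit 0) (nat_lit 64241087137) (nat_lit 2) (nat_lit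 5) (nat_lit 4) (nat_lit 4) (nat_lit 2) (nat_lit 4) (nat_lit 487) (nat_lit 383) (nat_lit 330)) (XT.lf (nat_lit 0) (nat_lit 90527711958) (nat_lit 152) (nat_lit 279145585756) (nat_lit 0) (nat_lit 87726347916) (nat_lit 2) (nat_lit 5) (nat_lit 4) (nat_lit 4) (nat_lit 2) (nat_lit 4) (nat_lit 488) (nat_lit 383) (nat_lit 329))) (XT.nd (nat_lit 78) (nat_lit 0) (nat_lit 0) (XT.lf (nat_lit 0) (nat_lit 115852729861) (nat_lit 152) (nat_lit 264175254295) (nat_lit 0) (nat_lit 113048062023) (nat_lit 2) (nat_lit 5) (nat_lit 4) (nat_lit 4) (nat_lit 2) (nat_lit 4) (nat_lit 489) (nat_lit 383) (nat_lit 328)) (XT.lf (nat_lit 0) (nat_lit 143164010968) (nat_lit 152) (nat_lit 248088250757) (nat_lit 0) (nat_lit 140356284062) (nat_lit 2) (nat_lit 5) (nat_lit 4) (nat_lit 4) (nat_lit 2) (nat_lit 4) (nat_lit 490) (nat_lit 383) (nat_lit 327))))) (XT.nd (nat_lit 312) (nat_lit 0) (nat_lit 0) (XT.nd (nat_lit 156) (nat_lit 0)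 (nat_lit 0) (XT.nd (nat_lit 78) (nat_lit 0) (nat_lit 0) (XT.lf (nat_lit 0) (nat_lit 172623399909) (nat_lit 152) (nat_lit 230789244748) (nat_lit 0) (nat_lit 169812840532) (nat_lit 2) (nat_lit 5) (nat_lit 4) (nat_lit 4) (nat_lit 2) (nat_lit 4) (nat_lit 491) (nat_lit 383) (nat_lit 326)) (XT.lf (nat_lit 0) (nat_lit 204405470841) (nat_lit 152) (nat_lit 212175723642) (nat_lit 0) (nat_lit 201592288805) (nat_lit 2) (nat_lit 5) (nat_lit 4) (nat_lit 4) (nat_lit 2) (nat_lit 4) (nat_lit 492) (nat_lit 383) (nat_lit 325))) (XT.nd (nat_lit 78) (nat_lit 0) (nat_lit 0) (XT.lf (nat_lit 0) (nat_lit 238698561962) (nat_lit 152) (nat_lit 192137385091) (nat_lit 0) (nat_lit 235882951538) (nat_lit 2) (nat_lit 5) (nat_lit 4) (nat_lit 4) (nat_lit 2) (nat_lit 4) (nat_lit 493) (nat_lit 383) (nat_lit 324)) (XT.lf (nat_lit 0) (nat_lit 275705891589) (nat_lit 152) (nat_lit 170555483385) (nat_lit 0) (nat_lit 272888032658) (nat_lit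 2) (nat_lit 5) (nat_lit 4) (nat_lit 4) (nat_lit 2) (nat_lit 4) (nat_lit 494) (nat_lit 383) (nat_lit 323)))) (XT.nd (nat_lit 156) (nat_lit 0) (nat_lit 0) (XT.nd (nat_lit 78) (nat_lit 0) (nat_lit 0) (XT.lf (nat_lit 0) (nat_lit 315646762417) (nat_lit 152) (nat_lit 147302125773) (nat_lit 0) (nat_lit 312826821535) (nat_lit 2) (nat_lit 5) (nat_lit 4) (nat_lit 4) (nat_lit 2) (nat_lit 4) (nat_lit 495) (nat_lit 383) (nat_lit 322)) (XT.lf (nat_lit 0) (nat_lit 358757861088) (nat_lit 152) (nat_lit 122239514581) (nat_lit 0) (nat_lit 355935992473) (nat_lit 2) (nat_lit 5) (nat_lit 4) (nat_lit 4) (nat_lit 2) (nat_lit 4) (nat_lit 496) (nat_lit 383) (nat_lit 321))) (XT.nd (nat_lit 78) (nat_lit 0) (nat_lit 0) (XT.lf (nat_lit 0) (nat_lit 405294660778) (nat_lit 152) (nat_lit 95219130631) (nat_lit 0) (nat_lit 402471007226) (nat_lit 2) (nat_lit 5) (nat_lit 4) (nat_lit 4) (nat_lit 2) (nat_lit 4) (nat_lit 497) (nat_lit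 383) (nat_lit 320)) (XT.lf (nat_lit 0) (nat_lit 455532935116) (nat_lit 152) (nat_lit 66080853129) (nat_lit 0) (nat_lit 452707628845) (nat_lit 2) (nat_lit 5) (nat_lit 4) (nat_lit 4) (nat_lit 2) (nat_lit 4) (nat_lit 498) (nat_lit 383) (nat_lit 319)))))) (XT.nd (nat_lit 57330) (nat_lit 0) (nat_lit 2812) (XT.nd (nat_lit 234) (nat_lit 0) (nat_lit 0) (XT.nd (nat_lit 78) (nat_lit 76) (nat_lit 0) (XT.lf (nat_lit 0) (nat_lit 509770392394) (nat_lit 152) (nat_lit 34652010801) (nat_lit 0) (nat_lit 506943555826) (nat_lit 2) (nat_lit 5) (nat_lit 4) (nat_lit 4) (nat_lit 2) (nat_lit 4) (nat_lit 499) (nat_lit 383) (nat_lit 318)) (XT.nd (nat_lit 78) (nat_lit 76) (nat_lit 0) (XT.lf (nat_lit 0) (nat_lit 568328439766) (nat_lit 152) (nat_lit 746358655) (nat_lit 0) (nat_lit 565500186258) (nat_lit 2) (nat_lit 5) (nat_lit 4) (nat_lit 4) (nat_lit 2) (nat_lit 4) (nat_lit 500) (nat_lit 383) (nat_lit 317)) (XT.lf (nat_lit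 0) (nat_lit 37021959603) (nat_lit 76) (nat_lit 595110144823) (nat_lit 76) (nat_lit 592280579333) (nat_lit 1) (nat_lit 4) (nat_lit 2) (nat_lit 5) (nat_lit 2) (nat_lit 4) (nat_lit 501) (nat_lit 383) (nat_lit 316)))) (XT.nd (nat_lit 156) (nat_lit 0) (nat_lit 0) (XT.nd (nat_lit 78) (nat_lit 0) (nat_lit 0) (XT.lf (nat_lit 0) (nat_lit 77805184467) (nat_lit 76) (nat_lit 623231579765) (nat_lit 76) (nat_lit 620400799476) (nat_lit 1) (nat_lit 4) (nat_lit 2) (nat_lit 5) (nat_lit 2) (nat_lit 4) (nat_lit 502) (nat_lit 383) (nat_lit 315)) (XT.lf (nat_lit 0) (nat_lit 121820316317) (nat_lit 76) (nat_lit 653618388732) (nat_lit 76) (nat_lit 650786483630) (nat_lit 1) (nat_lit 4) (nat_lit 2) (nat_lit 5) (nat_lit 2) (nat_lit 4) (nat_lit 503) (nat_lit 383) (nat_lit 314))) (XT.nd (nat_lit 56862) (nat_lit 0) (nat_lit 3952) (XT.lf (nat_lit 0) (nat_lit 169328185563) (nat_lit 76) (nat_lit 686450641704) (nat_lit 76) (nat_lit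 683617695108) (nat_lit 1) (nat_lit 4) (nat_lit 2) (nat_lit 5) (nat_lit 2) (nat_lit 4) (nat_lit 504) (nat_lit 383) (nat_lit 313)) (XT.lf (nat_lit 0) (nat_lit 1029758204) (nat_lit 152) (nat_lit 5176964262) (nat_lit 0) (nat_lit 1029758204) (nat_lit 53) (nat_lit 5) (nat_lit 55) (nat_lit 4) (nat_lit 53) (nat_lit 4) (nat_lit 432) (nat_lit 384) (nat_lit 384))))) (XT.nd (nat_lit 312) (nat_lit 608) (nat_lit 0) (XT.nd (nat_lit 156) (nat_lit 228) (nat_lit 0) (XT.nd (nat_lit 78) (nat_lit 228) (nat_lit 0) (XT.lf (nat_lit 0) (nat_lit 10432448479) (nat_lit 76) (nat_lit 2576229474) (nat_lit 76) (nat_lit 2054389112) (nat_lit 52) (nat_lit 4) (nat_lit 53) (nat_lit 5) (nat_lit 53) (nat_lit 4) (nat_lit 433) (nat_lit 384) (nat_lit 383)) (XT.lf (nat_lit 0) (nat_lit 1071053373) (nat_lit 76) (nat_lit 7789210492) (nat_lit 76) (nat_lit 6832042984) (nat_lit 49) (nat_lit 4) (nat_lit 50) (nat_lit 5) (nat_lit 50) (nat_lit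 4) (nat_lit 434) (nat_lit 384) (nat_lit 382))) (XT.nd (nat_lit 78) (nat_lit 76) (nat_lit 0) (XT.lf (nat_lit 0) (nat_lit 4124571112) (nat_lit 152) (nat_lit 9432513841) (nat_lit 0) (nat_lit 2807183463) (nat_lit 47) (nat_lit 5) (nat_lit 49) (nat_lit 4) (nat_lit 47) (nat_lit 4) (nat_lit 435) (nat_lit 384) (nat_lit 381)) (XT.lf (nat_lit 0) (nat_lit 12722027130) (nat_lit 76) (nat_lit 3026983697) (nat_lit 76) (nat_lit 1333855726) (nat_lit 46) (nat_lit 4) (nat_lit 47) (nat_lit 5) (nat_lit 47) (nat_lit 4) (nat_lit 436) (nat_lit 384) (nat_lit 380)))) (XT.nd (nat_lit 156) (nat_lit 228) (nat_lit 0) (XT.nd (nat_lit 78) (nat_lit 152) (nat_lit 0) (XT.lf (nat_lit 0) (nat_lit 531762234) (nat_lit 76) (nat_lit 9630152050) (nat_lit 76) (nat_lit 7686308549) (nat_lit 43) (nat_lit 4) (nat_lit 44) (nat_lit 5) (nat_lit 44) (nat_lit 4) (nat_lit 437) (nat_lit 384) (nat_lit 379)) (XT.lf (nat_lit 0) (nat_lit 3804482691)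 (nat_lit 152) (nat_lit 13201663520) (nat_lit 0) (nat_lit 1661015625) (nat_lit 41) (nat_lit 5) (nat_lit 43) (nat_lit 4) (nat_lit 41) (nat_lit 4) (nat_lit 438) (nat_lit 384) (nat_lit 378))) (XT.nd (nat_lit 78) (nat_lit 152) (nat_lit 0) (XT.lf (nat_lit 0) (nat_lit 10123755197) (nat_lit 76) (nat_lit 5915441567) (nat_lit 76) (nat_lit 3501430482) (nat_lit 40) (nat_lit 4) (nat_lit 41) (nat_lit 5) (nat_lit 41) (nat_lit 4) (nat_lit 439) (nat_lit 384) (nat_lit 377)) (XT.lf (nat_lit 0) (nat_lit 8525457101) (nat_lit 152) (nat_lit 5961981972) (nat_lit 0) (nat_lit 5987823953) (nat_lit 38) (nat_lit 5) (nat_lit 40) (nat_lit 4) (nat_lit 38) (nat_lit 4) (nat_lit 440) (nat_lit 384) (nat_lit 376))))))))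
noncomputable def xc22 : XT := (XT.nd (nat_lit 2262) (nat_lit 380) (nat_lit 0) (XT.nd (nat_lit 1092) (nat_lit 912) (nat_lit 0) (XT.nd (nat_lit 546) (nat_lit 532) (nat_lit 0) (XT.nd (nat_lit 234) (nat_lit 456) (nat_lit 0) (XT.nd (nat_lit 78) (nat_lit 380) (nat_lit 0) (XT.lf (nat_lit 0) (nat_lit 18653930137) (nat_lit 76) (nat_lit 2791857282) (nat_lit 76) (nat_lit 33321380) (nat_lit 37) (nat_lit 4) (nat_lit 38) (nat_lit 5) (nat_lit 38) (nat_lit 4) (nat_lit 441) (nat_lit 384) (nat_lit 375)) (XT.nd (nat_lit 78) (nat_lit 228) (nat_lit 0) (XT.lf (nat_lit 0) (nat_lit 12547577826) (nat_lit 152) (nat_lit 273971910) (nat_lit 0) (nat_lit 9725601172) (nat_lit 35) (nat_lit 5) (nat_lit 37) (nat_lit 4) (nat_lit 35) (nat_lit 4) (nat_lit 442) (nat_lit 384) (nat_lit 374)) (XT.lf (nat_lit 0) (nat_lit 1931051785) (nat_lit 76) (nat_lit 475484041) (nat_lit 152) (nat_lit 21289617564) (nat_lit 32) (nat_lit 5) (nat_lit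 33) (nat_lit 5) (nat_lit 34) (nat_lit 4) (nat_lit 443) (nat_lit 384) (nat_lit 373)))) (XT.nd (nat_lit 156) (nat_lit 228) (nat_lit 0) (XT.nd (nat_lit 78) (nat_lit 152) (nat_lit 0) (XT.lf (nat_lit 0) (nat_lit 3335246573) (nat_lit 76) (nat_lit 12301487899) (nat_lit 76) (nat_lit 9283053686) (nat_lit 31) (nat_lit 4) (nat_lit 32) (nat_lit 5) (nat_lit 32) (nat_lit 4) (nat_lit 444) (nat_lit 384) (nat_lit 372)) (XT.lf (nat_lit 0) (nat_lit 3561748958) (nat_lit 152) (nat_lit 22130123954) (nat_lit 0) (nat_lit 546788294) (nat_lit 29) (nat_lit 5) (nat_lit 31) (nat_lit 4) (nat_lit 29) (nat_lit 4) (nat_lit 445) (nat_lit 384) (nat_lit 371))) (XT.nd (nat_lit 78) (nat_lit 152) (nat_lit 0) (XT.lf (nat_lit 0) (nat_lit 3820417137) (nat_lit 76) (nat_lit 13485014086) (nat_lit 76) (nat_lit 10340181744) (nat_lit 28) (nat_lit 4) (nat_lit 29) (nat_lit 5) (nat_lit 29) (nat_lit 4) (nat_lit 446) (nat_lit 384) (nat_lit 370))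 (XT.lf (nat_lit 0) (nat_lit 2632529916) (nat_lit 76) (nat_lit 244354869) (nat_lit 152) (nat_lit 26286466497) (nat_lit 26) (nat_lit 5) (nat_lit 27) (nat_lit 5) (nat_lit 28) (nat_lit 4) (nat_lit 447) (nat_lit 384) (nat_lit 369))))) (XT.nd (nat_lit 234) (nat_lit 304) (nat_lit 0) (XT.nd (nat_lit 78) (nat_lit 152) (nat_lit 0) (XT.lf (nat_lit 0) (nat_lit 9495627) (nat_lit 76) (nat_lit 16994714265) (nat_lit 76) (nat_lit 13779068620) (nat_lit 25) (nat_lit 4) (nat_lit 26) (nat_lit 5) (nat_lit 26) (nat_lit 4) (nat_lit 448) (nat_lit 384) (nat_lit 368)) (XT.nd (nat_lit 78) (nat_lit 152) (nat_lit 0) (XT.lf (nat_lit 0) (nat_lit 28787718832) (nat_lit 76) (nat_lit 3528105906) (nat_lit 76) (nat_lit 214273284) (nat_lit 25) (nat_lit 4) (nat_lit 26) (nat_lit 5) (nat_lit 26) (nat_lit 4) (nat_lit 449) (nat_lit 384) (nat_lit 367)) (XT.lf (nat_lit 0) (nat_lit 14156159613) (nat_lit 152) (nat_lit 9326569046) (nat_lit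 0) (nat_lit 10913543909) (nat_lit 23) (nat_lit 5) (nat_lit 25) (nat_lit 4) (nat_lit 23) (nat_lit 4) (nat_lit 450) (nat_lit 384) (nat_lit 366)))) (XT.nd (nat_lit 156) (nat_lit 76) (nat_lit 0) (XT.nd (nat_lit 78) (nat_lit 152) (nat_lit 0) (XT.lf (nat_lit 0) (nat_lit 19720193410) (nat_lit 76) (nat_lit 10005652542) (nat_lit 76) (nat_lit 6682865879) (nat_lit 22) (nat_lit 4) (nat_lit 23) (nat_lit 5) (nat_lit 23) (nat_lit 4) (nat_lit 451) (nat_lit 384) (nat_lit 365)) (XT.lf (nat_lit 0) (nat_lit 7769845577) (nat_lit 152) (nat_lit 26268219530) (nat_lit 0) (nat_lit 4534589357) (nat_lit 20) (nat_lit 5) (nat_lit 22) (nat_lit 4) (nat_lit 20) (nat_lit 4) (nat_lit 452) (nat_lit 384) (nat_lit 364))) (XT.nd (nat_lit 78) (nat_lit 0) (nat_lit 0) (XT.lf (nat_lit 0) (nat_lit 2390209501) (nat_lit 76) (nat_lit 20903641841) (nat_lit 76) (nat_lit 17602924977) (nat_lit 19) (nat_lit 4) (nat_lit 20) (nat_lit 5) (nat_lit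 20) (nat_lit 4) (nat_lit 453) (nat_lit 384) (nat_lit 363)) (XT.lf (nat_lit 0) (nat_lit 33592817163) (nat_lit 76) (nat_lit 6584726526) (nat_lit 76) (nat_lit 3223397955) (nat_lit 19) (nat_lit 4) (nat_lit 20) (nat_lit 5) (nat_lit 20) (nat_lit 4) (nat_lit 454) (nat_lit 384) (nat_lit 362)))))) (XT.nd (nat_lit 546) (nat_lit 456) (nat_lit 0) (XT.nd (nat_lit 234) (nat_lit 228) (nat_lit 0) (XT.nd (nat_lit 78) (nat_lit 76) (nat_lit 0) (XT.lf (nat_lit 0) (nat_lit 12063069244) (nat_lit 152) (nat_lit 25216888210) (nat_lit 0) (nat_lit 8808354462) (nat_lit 17) (nat_lit 5) (nat_lit 19) (nat_lit 4) (nat_lit 17) (nat_lit 4) (nat_lit 455) (nat_lit 384) (nat_lit 361)) (XT.nd (nat_lit 78) (nat_lit 0) (nat_lit 0) (XT.lf (nat_lit 0) (nat_lit 4728019411) (nat_lit 76) (nat_lit 23780874183) (nat_lit 76) (nat_lit 20476669145) (nat_lit 16) (nat_lit 4) (nat_lit 17) (nat_lit 5) (nat_lit 17) (nat_lit 4) (nat_lit 456) (nat_lit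 384) (nat_lit 360)) (XT.lf (nat_lit 0) (nat_lit 37367749201) (nat_lit 76) (nat_lit 9044881485) (nat_lit 76) (nat_lit 5694852136) (nat_lit 16) (nat_lit 4) (nat_lit 17) (nat_lit 5) (nat_lit 17) (nat_lit 4) (nat_lit 457) (nat_lit 384) (nat_lit 359)))) (XT.nd (nat_lit 156) (nat_lit 76) (nat_lit 0) (XT.nd (nat_lit 78) (nat_lit 0) (nat_lit 0) (XT.lf (nat_lit 0) (nat_lit 10035782976) (nat_lit 152) (nat_lit 38625740651) (nat_lit 0) (nat_lit 6804869388) (nat_lit 14) (nat_lit 5) (nat_lit 16) (nat_lit 4) (nat_lit 14) (nat_lit 4) (nat_lit 458) (nat_lit 384) (nat_lit 358)) (XT.lf (nat_lit 0) (nat_lit 26969945373) (nat_lit 152) (nat_lit 8410558540) (nat_lit 0) (nat_lit 23701615632) (nat_lit 14) (nat_lit 5) (nat_lit 16) (nat_lit 4) (nat_lit 14) (nat_lit 4) (nat_lit 459) (nat_lit 384) (nat_lit 357))) (XT.nd (nat_lit 78) (nat_lit 0) (nat_lit 0) (XT.lf (nat_lit 0) (nat_lit 24496190749) (nat_lit 76) (nat_lit 20893668993)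 (nat_lit 76) (nat_lit 17590694666) (nat_lit 13) (nat_lit 4) (nat_lit 14) (nat_lit 5) (nat_lit 14) (nat_lit 4) (nat_lit 460) (nat_lit 384) (nat_lit 356)) (XT.lf (nat_lit 0) (nat_lit 59848289845) (nat_lit 76) (nat_lit 5341161858) (nat_lit 76) (nat_lit 2006109210) (nat_lit 13) (nat_lit 4) (nat_lit 14) (nat_lit 5) (nat_lit 14) (nat_lit 4) (nat_lit 461) (nat_lit 384) (nat_lit 355))))) (XT.nd (nat_lit 312) (nat_lit 228) (nat_lit 0) (XT.nd (nat_lit 156) (nat_lit 76) (nat_lit 0) (XT.nd (nat_lit 78) (nat_lit 0) (nat_lit 0) (XT.lf (nat_lit 0) (nat_lit 14723010139) (nat_lit 152) (nat_lit 45476090434) (nat_lit 0) (nat_lit 11518481761) (nat_lit 11) (nat_lit 5) (nat_lit 13) (nat_lit 4) (nat_lit 11) (nat_lit 4) (nat_lit 462) (nat_lit 384) (nat_lit 354)) (XT.lf (nat_lit 0) (nat_lit 32721427138) (nat_lit 152) (nat_lit 14387525848) (nat_lit 0) (nat_lit 29490706389) (nat_lit 11) (nat_lit 5) (nat_lit 13) (nat_lit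 4) (nat_lit 11) (nat_lit 4) (nat_lit 463) (nat_lit 384) (nat_lit 353))) (XT.nd (nat_lit 78) (nat_lit 0) (nat_lit 0) (XT.lf (nat_lit 0) (nat_lit 19395667807) (nat_lit 76) (nat_lit 32863322445) (nat_lit 76) (nat_lit 29608349501) (nat_lit 10) (nat_lit 4) (nat_lit 11) (nat_lit 5) (nat_lit 11) (nat_lit 4) (nat_lit 464) (nat_lit 384) (nat_lit 352)) (XT.lf (nat_lit 0) (nat_lit 56000011113) (nat_lit 76) (nat_lit 17415526949) (nat_lit 76) (nat_lit 14138098268) (nat_lit 10) (nat_lit 4) (nat_lit 11) (nat_lit 5) (nat_lit 11) (nat_lit 4) (nat_lit 465) (nat_lit 384) (nat_lit 351)))) (XT.nd (nat_lit 156) (nat_lit 76) (nat_lit 0) (XT.nd (nat_lit 78) (nat_lit 0) (nat_lit 0) (XT.lf (nat_lit 0) (nat_lit 1472826374) (nat_lit 76) (nat_lit 854513822) (nat_lit 152) (nat_lit 91373500237) (nat_lit 8) (nat_lit 5) (nat_lit 9) (nat_lit 5) (nat_lit 10) (nat_lit 4) (nat_lit 466) (nat_lit 384) (nat_lit 350)) (XT.lf (nat_lit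 0) (nat_lit 20267879446) (nat_lit 152) (nat_lit 62919312480) (nat_lit 0) (nat_lit 17108381156) (nat_lit 8) (nat_lit 5) (nat_lit 10) (nat_lit 4) (nat_lit 8) (nat_lit 4) (nat_lit 467) (nat_lit 384) (nat_lit 349))) (XT.nd (nat_lit 78) (nat_lit 76) (nat_lit 0) (XT.lf (nat_lit 0) (nat_lit 39493266624) (nat_lit 152) (nat_lit 31615346942) (nat_lit 0) (nat_lit 36316791108) (nat_lit 8) (nat_lit 5) (nat_lit 10) (nat_lit 4) (nat_lit 8) (nat_lit 4) (nat_lit 468) (nat_lit 384) (nat_lit 348)) (XT.lf (nat_lit 0) (nat_lit 1944980411) (nat_lit 76) (nat_lit 58189474779) (nat_lit 76) (nat_lit 54997279608) (nat_lit 7) (nat_lit 4) (nat_lit 8) (nat_lit 5) (nat_lit 8) (nat_lit 4) (nat_lit 469) (nat_lit 384) (nat_lit 347))))))) (XT.nd (nat_lit 1170) (nat_lit 152) (nat_lit 0) (XT.nd (nat_lit 546) (nat_lit 76) (nat_lit 0) (XT.nd (nat_lit 234) (nat_lit 152) (nat_lit 0) (XT.nd (nat_lit 78) (nat_lit 0) (nat_lit 0) (XT.lf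 (nat_lit 0) (nat_lit 39022382063) (nat_lit 76) (nat_lit 43809350244) (nat_lit 76) (nat_lit 40602599838) (nat_lit 7) (nat_lit 4) (nat_lit 8) (nat_lit 5) (nat_lit 8) (nat_lit 4) (nat_lit 470) (nat_lit 384) (nat_lit 346)) (XT.nd (nat_lit 78) (nat_lit 0) (nat_lit 0) (XT.lf (nat_lit 0) (nat_lit 78791229799) (nat_lit 76) (nat_lit 28418445609) (nat_lit 76) (nat_lit 25198218133) (nat_lit 7) (nat_lit 4) (nat_lit 8) (nat_lit 5) (nat_lit 8) (nat_lit 4) (nat_lit 471) (nat_lit 384) (nat_lit 345)) (XT.lf (nat_lit 0) (nat_lit 121487190866) (nat_lit 76) (nat_lit 11925555512) (nat_lit 76) (nat_lit 8692849268) (nat_lit 7) (nat_lit 4) (nat_lit 8) (nat_lit 5) (nat_lit 8) (nat_lit 4) (nat_lit 472) (nat_lit 384) (nat_lit 344)))) (XT.nd (nat_lit 156) (nat_lit 0) (nat_lit 0) (XT.nd (nat_lit 78) (nat_lit 0) (nat_lit 0) (XT.lf (nat_lit 0) (nat_lit 9055206245) (nat_lit 152) (nat_lit 137540615878) (nat_lit 0) (nat_lit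 5965434190) (nat_lit 5) (nat_lit 5) (nat_lit 7) (nat_lit 4) (nat_lit 5) (nat_lit 4) (nat_lit 473) (nat_lit 384) (nat_lit 343)) (XT.lf (nat_lit 0) (nat_lit 28374344296) (nat_lit 152) (nat_lit 110174727772) (nat_lit 0) (nat_lit 25274383162) (nat_lit 5) (nat_lit 5) (nat_lit 7) (nat_lit 4) (nat_lit 5) (nat_lit 4) (nat_lit 474) (nat_lit 384) (nat_lit 342))) (XT.nd (nat_lit 78) (nat_lit 0) (nat_lit 0) (XT.lf (nat_lit 0) (nat_lit 49133076149) (nat_lit 152) (nat_lit 80835170405) (nat_lit 0) (nat_lit 46023680683) (nat_lit 5) (nat_lit 5) (nat_lit 7) (nat_lit 4) (nat_lit 5) (nat_lit 4) (nat_lit 475) (nat_lit 384) (nat_lit 341)) (XT.lf (nat_lit 0) (nat_lit 71454416511) (nat_lit 152) (nat_lit 49348079734) (nat_lit 0) (nat_lit 68336285553) (nat_lit 5) (nat_lit 5) (nat_lit 7) (nat_lit 4) (nat_lit 5) (nat_lit 4) (nat_lit 476) (nat_lit 384) (nat_lit 340))))) (XT.nd (nat_lit 312) (nat_lit 0) (nat_lit 0) (XT.nd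 (nat_lit 156) (nat_lit 0) (nat_lit 0) (XT.nd (nat_lit 78) (nat_lit 76) (nat_lit 0) (XT.lf (nat_lit 0) (nat_lit 95470639994) (nat_lit 152) (nat_lit 15526865592) (nat_lit 0) (nat_lit 92344420616) (nat_lit 5) (nat_lit 5) (nat_lit 7) (nat_lit 4) (nat_lit 5) (nat_lit 4) (nat_lit 477) (nat_lit 384) (nat_lit 339)) (XT.lf (nat_lit 0) (nat_lit 21517591333) (nat_lit 76) (nat_lit 100142423527) (nat_lit 76) (nat_lit 97008714873) (nat_lit 4) (nat_lit 4) (nat_lit 5) (nat_lit 5) (nat_lit 5) (nat_lit 4) (nat_lit 478) (nat_lit 384) (nat_lit 338))) (XT.nd (nat_lit 78) (nat_lit 0) (nat_lit 0) (XT.lf (nat_lit 0) (nat_lit 61916350566) (nat_lit 76) (nat_lit 88218234069) (nat_lit 76) (nat_lit 85077590899) (nat_lit 4) (nat_lit 4) (nat_lit 5) (nat_lit 5) (nat_lit 5) (nat_lit 4) (nat_lit 479) (nat_lit 384) (nat_lit 337)) (XT.lf (nat_lit 0) (nat_lit 105395423863) (nat_lit 76) (nat_lit 75417230328) (nat_lit 76) (nat_lit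 72270166310) (nat_lit 4) (nat_lit 4) (nat_lit 5) (nat_lit 5) (nat_lit 5) (nat_lit 4) (nat_lit 480) (nat_lit 384) (nat_lit 336)))) (XT.nd (nat_lit 156) (nat_lit 0) (nat_lit 0) (XT.nd (nat_lit 78) (nat_lit 0) (nat_lit 0) (XT.lf (nat_lit 0) (nat_lit 152212464993) (nat_lit 76) (nat_lit 61663554506) (nat_lit 76) (nat_lit 58510545259) (nat_lit 4) (nat_lit 4) (nat_lit 5) (nat_lit 5) (nat_lit 5) (nat_lit 4) (nat_lit 481) (nat_lit 384) (nat_lit 335)) (XT.lf (nat_lit 0) (nat_lit 202644908272) (nat_lit 76) (nat_lit 46875703339) (nat_lit 76) (nat_lit 43717189250) (nat_lit 4) (nat_lit 4) (nat_lit 5) (nat_lit 5) (nat_lit 5) (nat_lit 4) (nat_lit 482) (nat_lit 384) (nat_lit 334))) (XT.nd (nat_lit 78) (nat_lit 0) (nat_lit 0) (XT.lf (nat_lit 0) (nat_lit 256991612624) (nat_lit 76) (nat_lit 30966045115) (nat_lit 76) (nat_lit 27802433950) (nat_lit 4) (nat_lit 4) (nat_lit 5) (nat_lit 5) (nat_lit 5) (nat_lit 4) (nat_lit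 483) (nat_lit 384) (nat_lit 333)) (XT.lf (nat_lit 0) (nat_lit 315574632593) (nat_lit 76) (nat_lit 13840300379) (nat_lit 76) (nat_lit 10671969699) (nat_lit 4) (nat_lit 4) (nat_lit 5) (nat_lit 5) (nat_lit 5) (nat_lit 4) (nat_lit 484) (nat_lit 384) (nat_lit 332)))))) (XT.nd (nat_lit 546) (nat_lit 0) (nat_lit 0) (XT.nd (nat_lit 234) (nat_lit 0) (nat_lit 0) (XT.nd (nat_lit 78) (nat_lit 0) (nat_lit 0) (XT.lf (nat_lit 0) (nat_lit 7801641908) (nat_lit 152) (nat_lit 353760918649) (nat_lit 0) (nat_lit 4780022288) (nat_lit 2) (nat_lit 5) (nat_lit 4) (nat_lit 4) (nat_lit 2) (nat_lit 4) (nat_lit 485) (nat_lit 384) (nat_lit 331)) (XT.nd (nat_lit 78) (nat_lit 0) (nat_lit 0) (XT.lf (nat_lit 0) (nat_lit 28001548950) (nat_lit 152) (nat_lit 341681230297) (nat_lit 0) (nat_lit 24976075784) (nat_lit 2) (nat_lit 5) (nat_lit 4) (nat_lit 4) (nat_lit 2) (nat_lit 4) (nat_lit 486) (nat_lit 384) (nat_lit 330)) (XT.lf (nat_lit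 0) (nat_lit 49771097887) (nat_lit 152) (nat_lit 328729592134) (nat_lit 0) (nat_lit 46742056623) (nat_lit 2) (nat_lit 5) (nat_lit 4) (nat_lit 4) (nat_lit 2) (nat_lit 4) (nat_lit 487) (nat_lit 384) (nat_lit 329)))) (XT.nd (nat_lit 156) (nat_lit 0) (nat_lit 0) (XT.nd (nat_lit 78) (nat_lit 0) (nat_lit 0) (XT.lf (nat_lit 0) (nat_lit 73239293454) (nat_lit 152) (nat_lit 314829253712) (nat_lit 0) (nat_lit 70206948396) (nat_lit 2) (nat_lit 5) (nat_lit 4) (nat_lit 4) (nat_lit 2) (nat_lit 4) (nat_lit 488) (nat_lit 384) (nat_lit 328)) (XT.lf (nat_lit 0) (nat_lit 98545206440) (nat_lit 152) (nat_lit 299897842654) (nat_lit 0) (nat_lit 95509802312) (nat_lit 2) (nat_lit 5) (nat_lit 4) (nat_lit 4) (nat_lit 2) (nat_lit 4) (nat_lit 489) (nat_lit 384) (nat_lit 327))) (XT.nd (nat_lit 78) (nat_lit 0) (nat_lit 0) (XT.lf (nat_lit 0) (nat_lit 125838797809) (nat_lit 152) (nat_lit 283846876526) (nat_lit 0) (nat_lit 122800561210)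 (nat_lit 2) (nat_lit 5) (nat_lit 4) (nat_lit 4) (nat_lit 2) (nat_lit 4) (nat_lit 490) (nat_lit 384) (nat_lit 326)) (XT.lf (nat_lit 0) (nat_lit 155281807364) (nat_lit 152) (nat_lit 266581238490) (nat_lit 0) (nat_lit 152240948106) (nat_lit 2) (nat_lit 5) (nat_lit 4) (nat_lit 4) (nat_lit 2) (nat_lit 4) (nat_lit 491) (nat_lit 384) (nat_lit 325))))) (XT.nd (nat_lit 312) (nat_lit 0) (nat_lit 0) (XT.nd (nat_lit 156) (nat_lit 0) (nat_lit 0) (XT.nd (nat_lit 78) (nat_lit 0) (nat_lit 0) (XT.lf (nat_lit 0) (nat_lit 187048712197) (nat_lit 152) (nat_lit 247998613655) (nat_lit 0) (nat_lit 184005424552) (nat_lit 2) (nat_lit 5) (nat_lit 4) (nat_lit 4) (nat_lit 2) (nat_lit 4) (nat_lit 492) (nat_lit 384) (nat_lit 324)) (XT.lf (nat_lit 0) (nat_lit 221327760633) (nat_lit 152) (nat_lit 227988882762) (nat_lit 0) (nat_lit 218282224481) (nat_lit 2) (nat_lit 5) (nat_lit 4) (nat_lit 4) (nat_lit 2) (nat_lit 4) (nat_lit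 493) (nat_lit 384) (nat_lit 323))) (XT.nd (nat_lit 78) (nat_lit 0) (nat_lit 0) (XT.lf (nat_lit 0) (nat_lit 258322087775) (nat_lit 152) (nat_lit 206433469629) (nat_lit 0) (nat_lit 255274469672) (nat_lit 2) (nat_lit 5) (nat_lit 4) (nat_lit 4) (nat_lit 2) (nat_lit 4) (nat_lit 494) (nat_lit 384) (nat_lit 322)) (XT.lf (nat_lit 0) (nat_lit 298250919265) (nat_lit 152) (nat_lit 183204638473) (nat_lit 0) (nat_lit 295201373429) (nat_lit 2) (nat_lit 5) (nat_lit 4) (nat_lit 4) (nat_lit 2) (nat_lit 4) (nat_lit 495) (nat_lit 384) (nat_lit 321)))) (XT.nd (nat_lit 156) (nat_lit 0) (nat_lit 0) (XT.nd (nat_lit 78) (nat_lit 0) (nat_lit 0) (XT.lf (nat_lit 0) (nat_lit 341350870400) (nat_lit 152) (nat_lit 158164736962) (nat_lit 0) (nat_lit 338299539627) (nat_lit 2) (nat_lit 5) (nat_lit 4) (nat_lit 4) (nat_lit 2) (nat_lit 4) (nat_lit 496) (nat_lit 384) (nat_lit 320)) (XT.lf (nat_lit 0) (nat_lit 387877348298) (nat_lit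 152) (nat_lit 131165380494) (nat_lit 0) (nat_lit 384824364805) (nat_lit 2) (nat_lit 5) (nat_lit 4) (nat_lit 4) (nat_lit 2) (nat_lit 4) (nat_lit 497) (nat_lit 384) (nat_lit 319))) (XT.nd (nat_lit 78) (nat_lit 0) (nat_lit 0) (XT.lf (nat_lit 0) (nat_lit 438106065421) (nat_lit 152) (nat_lit 102046572884) (nat_lit 0) (nat_lit 435051551632) (nat_lit 2) (nat_lit 5) (nat_lit 4) (nat_lit 4) (nat_lit 2) (nat_lit 4) (nat_lit 498) (nat_lit 384) (nat_lit 318)) (XT.lf (nat_lit 0) (nat_lit 492334673426) (nat_lit 152) (nat_lit 70635758233) (nat_lit 0) (nat_lit 489278742696) (nat_lit 2) (nat_lit 5) (nat_lit 4) (nat_lit 4) (nat_lit 2) (nat_lit 4) (nat_lit 499) (nat_lit 384) (nat_lit 317))))))))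
noncomputable def xc23 : XT := (XT.nd (nat_lit 58968) (nat_lit 0) (nat_lit 228) (XT.nd (nat_lit 57798) (nat_lit 0) (nat_lit 1368) (XT.nd (nat_lit 57174) (nat_lit 0) (nat_lit 2964) (XT.nd (nat_lit 234) (nat_lit 0) (nat_lit 0) (XT.nd (nat_lit 78) (nat_lit 76) (nat_lit 0) (XT.lf (nat_lit 0) (nat_lit 550884527027) (nat_lit 152) (nat_lit 36746798382) (nat_lit 0) (nat_lit 547827284315) (nat_lit 2) (nat_lit 5) (nat_lit 4) (nat_lit 4) (nat_lit 2) (nat_lit 4) (nat_lit 500) (nat_lit 384) (nat_lit 316)) (XT.nd (nat_lit 78) (nat_lit 76) (nat_lit 0) (XT.lf (nat_lit 0) (nat_lit 614102588319) (nat_lit 152) (nat_lit 178869864) (nat_lit 0) (nat_lit 611044130809) (nat_lit 2) (nat_lit 5) (nat_lit 4) (nat_lit 4) (nat_lit 2) (nat_lit 4) (nat_lit 501) (nat_lit 384) (nat_lit 315)) (XT.lf (nat_lit 0) (nat_lit 40583656618) (nat_lit 76) (nat_lit 642413450849) (nat_lit 76) (nat_lit 639353868525) (nat_lit 1) (nat_lit 4)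 (nat_lit 2) (nat_lit 5) (nat_lit 2) (nat_lit 4) (nat_lit 502) (nat_lit 384) (nat_lit 314)))) (XT.nd (nat_lit 56784) (nat_lit 0) (nat_lit 4256) (XT.nd (nat_lit 78) (nat_lit 0) (nat_lit 0) (XT.lf (nat_lit 0) (nat_lit 84585099452) (nat_lit 76) (nat_lit 672807230627) (nat_lit 76) (nat_lit 669746606810) (nat_lit 1) (nat_lit 4) (nat_lit 2) (nat_lit 5) (nat_lit 2) (nat_lit 4) (nat_lit 503) (nat_lit 384) (nat_lit 313)) (XT.lf (nat_lit 0) (nat_lit 132080293685) (nat_lit 76) (nat_lit 705645938054) (nat_lit 76) (nat_lit 702584349890) (nat_lit 1) (nat_lit 4) (nat_lit 2) (nat_lit 5) (nat_lit 2) (nat_lit 4) (nat_lit 504) (nat_lit 384) (nat_lit 312))) (XT.nd (nat_lit 78) (nat_lit 152) (nat_lit 0) (XT.lf (nat_lit 0) (nat_lit 2858775984) (nat_lit 152) (nat_lit 1917352665) (nat_lit 152) (nat_lit 1917352665) (nat_lit 59) (nat_lit 4) (nat_lit 61) (nat_lit 5) (nat_lit 61) (nat_lit 4) (nat_lit 430) (nat_lit 385)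 (nat_lit 385)) (XT.lf (nat_lit 0) (nat_lit 6191487028) (nat_lit 152) (nat_lit 2127593114) (nat_lit 0) (nat_lit 5599720057) (nat_lit 57) (nat_lit 5) (nat_lit 59) (nat_lit 4) (nat_lit 57) (nat_lit 4) (nat_lit 431) (nat_lit 385) (nat_lit 384))))) (XT.nd (nat_lit 312) (nat_lit 532) (nat_lit 0) (XT.nd (nat_lit 156) (nat_lit 380) (nat_lit 0) (XT.nd (nat_lit 78) (nat_lit 76) (nat_lit 0) (XT.lf (nat_lit 0) (nat_lit 2339936707) (nat_lit 152) (nat_lit 10892682646) (nat_lit 0) (nat_lit 1254508754) (nat_lit 53) (nat_lit 5) (nat_lit 55) (nat_lit 4) (nat_lit 53) (nat_lit 4) (nat_lit 432) (nat_lit 385) (nat_lit 383)) (XT.lf (nat_lit 0) (nat_lit 9360540190) (nat_lit 76) (nat_lit 3649630632) (nat_lit 76) (nat_lit 2081017158) (nat_lit 52) (nat_lit 4) (nat_lit 53) (nat_lit 5) (nat_lit 53) (nat_lit 4) (nat_lit 433) (nat_lit 385) (nat_lit 382))) (XT.nd (nat_lit 78) (nat_lit 228) (nat_lit 0) (XT.lf (nat_lit 0) (nat_lit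 8517073795) (nat_lit 152) (nat_lit 622185651) (nat_lit 0) (nat_lit 6597066676) (nat_lit 50) (nat_lit 5) (nat_lit 52) (nat_lit 4) (nat_lit 50) (nat_lit 4) (nat_lit 434) (nat_lit 385) (nat_lit 381)) (XT.lf (nat_lit 0) (nat_lit 3419594685) (nat_lit 152) (nat_lit 11790233179) (nat_lit 0) (nat_lit 1215276155) (nat_lit 47) (nat_lit 5) (nat_lit 49) (nat_lit 4) (nat_lit 47) (nat_lit 4) (nat_lit 435) (nat_lit 385) (nat_lit 380)))) (XT.nd (nat_lit 156) (nat_lit 304) (nat_lit 0) (XT.nd (nat_lit 78) (nat_lit 152) (nat_lit 0) (XT.lf (nat_lit 0) (nat_lit 9785862778) (nat_lit 76) (nat_lit 4962429167) (nat_lit 76) (nat_lit 2410202933) (nat_lit 46) (nat_lit 4) (nat_lit 47) (nat_lit 5) (nat_lit 47) (nat_lit 4) (nat_lit 436) (nat_lit 385) (nat_lit 379)) (XT.lf (nat_lit 0) (nat_lit 8778279339) (nat_lit 152) (nat_lit 3122713109) (nat_lit 0) (nat_lit 6040790769) (nat_lit 44) (nat_lit 5) (nat_lit 46) (nat_lit 4) (nat_lit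 44) (nat_lit 4) (nat_lit 437) (nat_lit 385) (nat_lit 378))) (XT.nd (nat_lit 78) (nat_lit 76) (nat_lit 0) (XT.lf (nat_lit 0) (nat_lit 1038681303) (nat_lit 76) (nat_lit 941924107) (nat_lit 152) (nat_lit 16800972392) (nat_lit 41) (nat_lit 5) (nat_lit 42) (nat_lit 5) (nat_lit 43) (nat_lit 4) (nat_lit 438) (nat_lit 385) (nat_lit 377)) (XT.lf (nat_lit 0) (nat_lit 4962308715) (nat_lit 76) (nat_lit 8918814039) (nat_lit 76) (nat_lit 5790634327) (nat_lit 40) (nat_lit 4) (nat_lit 41) (nat_lit 5) (nat_lit 41) (nat_lit 4) (nat_lit 439) (nat_lit 385) (nat_lit 376)))))) (XT.nd (nat_lit 546) (nat_lit 760) (nat_lit 0) (XT.nd (nat_lit 234) (nat_lit 456) (nat_lit 0) (XT.nd (nat_lit 78) (nat_lit 228) (nat_lit 0) (XT.lf (nat_lit 0) (nat_lit 5932893697) (nat_lit 152) (nat_lit 11961349013) (nat_lit 0) (nat_lit 2732772170) (nat_lit 38) (nat_lit 5) (nat_lit 40) (nat_lit 4) (nat_lit 38) (nat_lit 4) (nat_lit 440) (nat_lit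 385) (nat_lit 375)) (XT.nd (nat_lit 78) (nat_lit 152) (nat_lit 0) (XT.lf (nat_lit 0) (nat_lit 11996648155) (nat_lit 76) (nat_lit 6527661315) (nat_lit 76) (nat_lit 3123000203) (nat_lit 37) (nat_lit 4) (nat_lit 38) (nat_lit 5) (nat_lit 38) (nat_lit 4) (nat_lit 441) (nat_lit 385) (nat_lit 374)) (XT.lf (nat_lit 0) (nat_lit 9157648357) (nat_lit 152) (nat_lit 7845331281) (nat_lit 0) (nat_lit 5734743959) (nat_lit 35) (nat_lit 5) (nat_lit 37) (nat_lit 4) (nat_lit 35) (nat_lit 4) (nat_lit 442) (nat_lit 385) (nat_lit 373)))) (XT.nd (nat_lit 156) (nat_lit 228) (nat_lit 0) (XT.nd (nat_lit 78) (nat_lit 152) (nat_lit 0) (XT.lf (nat_lit 0) (nat_lit 17350357537) (nat_lit 76) (nat_lit 5073376264) (nat_lit 76) (nat_lit 1483462602) (nat_lit 34) (nat_lit 4) (nat_lit 35) (nat_lit 5) (nat_lit 35) (nat_lit 4) (nat_lit 443) (nat_lit 385) (nat_lit 372)) (XT.lf (nat_lit 0) (nat_lit 11347095758) (nat_lit 152) (nat_lit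 6026395969) (nat_lit 0) (nat_lit 7780855882) (nat_lit 32) (nat_lit 5) (nat_lit 34) (nat_lit 4) (nat_lit 32) (nat_lit 4) (nat_lit 444) (nat_lit 385) (nat_lit 371))) (XT.nd (nat_lit 78) (nat_lit 152) (nat_lit 0) (XT.lf (nat_lit 0) (nat_lit 20314655216) (nat_lit 76) (nat_lit 4941406321) (nat_lit 76) (nat_lit 1238801183) (nat_lit 31) (nat_lit 4) (nat_lit 32) (nat_lit 5) (nat_lit 32) (nat_lit 4) (nat_lit 445) (nat_lit 385) (nat_lit 370)) (XT.lf (nat_lit 0) (nat_lit 12102962247) (nat_lit 152) (nat_lit 7365479552) (nat_lit 0) (nat_lit 8456420086) (nat_lit 29) (nat_lit 5) (nat_lit 31) (nat_lit 4) (nat_lit 29) (nat_lit 4) (nat_lit 446) (nat_lit 385) (nat_lit 369))))) (XT.nd (nat_lit 312) (nat_lit 304) (nat_lit 0) (XT.nd (nat_lit 156) (nat_lit 228) (nat_lit 0) (XT.nd (nat_lit 78) (nat_lit 152) (nat_lit 0) (XT.lf (nat_lit 0) (nat_lit 19942511516) (nat_lit 76) (nat_lit 6638991055) (nat_lit 76) (nat_lit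 2881104862) (nat_lit 28) (nat_lit 4) (nat_lit 29) (nat_lit 5) (nat_lit 29) (nat_lit 4) (nat_lit 447) (nat_lit 385) (nat_lit 368)) (XT.lf (nat_lit 0) (nat_lit 10890473684) (nat_lit 152) (nat_lit 13003362185) (nat_lit 0) (nat_lit 7213347476) (nat_lit 26) (nat_lit 5) (nat_lit 28) (nat_lit 4) (nat_lit 26) (nat_lit 4) (nat_lit 448) (nat_lit 385) (nat_lit 367))) (XT.nd (nat_lit 78) (nat_lit 152) (nat_lit 0) (XT.lf (nat_lit 0) (nat_lit 14976112298) (nat_lit 76) (nat_lit 10832795564) (nat_lit 76) (nat_lit 7064755489) (nat_lit 25) (nat_lit 4) (nat_lit 26) (nat_lit 5) (nat_lit 26) (nat_lit 4) (nat_lit 449) (nat_lit 385) (nat_lit 366)) (XT.lf (nat_lit 0) (nat_lit 6997774075) (nat_lit 152) (nat_lit 24444777429) (nat_lit 0) (nat_lit 3328993520) (nat_lit 23) (nat_lit 5) (nat_lit 25) (nat_lit 4) (nat_lit 23) (nat_lit 4) (nat_lit 450) (nat_lit 385) (nat_lit 365)))) (XT.nd (nat_lit 156) (nat_lit 228) (nat_lit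 0) (XT.nd (nat_lit 78) (nat_lit 0) (nat_lit 0) (XT.lf (nat_lit 0) (nat_lit 3753194589) (nat_lit 76) (nat_lit 18397325419) (nat_lit 76) (nat_lit 14654312495) (nat_lit 22) (nat_lit 4) (nat_lit 23) (nat_lit 5) (nat_lit 23) (nat_lit 4) (nat_lit 451) (nat_lit 385) (nat_lit 364)) (XT.lf (nat_lit 0) (nat_lit 34407936597) (nat_lit 76) (nat_lit 4199986699) (nat_lit 76) (nat_lit 388240100) (nat_lit 22) (nat_lit 4) (nat_lit 23) (nat_lit 5) (nat_lit 23) (nat_lit 4) (nat_lit 452) (nat_lit 385) (nat_lit 363))) (XT.nd (nat_lit 78) (nat_lit 76) (nat_lit 0) (XT.lf (nat_lit 0) (nat_lit 14811866809) (nat_lit 152) (nat_lit 15404518495) (nat_lit 0) (nat_lit 11121020247) (nat_lit 20) (nat_lit 5) (nat_lit 22) (nat_lit 4) (nat_lit 20) (nat_lit 4) (nat_lit 453) (nat_lit 385) (nat_lit 362)) (XT.lf (nat_lit 0) (nat_lit 14983134866) (nat_lit 76) (nat_lit 16312695923) (nat_lit 76) (nat_lit 12565727410) (nat_lit 19) (nat_lit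 4) (nat_lit 20) (nat_lit 5) (nat_lit 20) (nat_lit 4) (nat_lit 454) (nat_lit 385) (nat_lit 361))))))) (XT.nd (nat_lit 1170) (nat_lit 304) (nat_lit 0) (XT.nd (nat_lit 546) (nat_lit 380) (nat_lit 0) (XT.nd (nat_lit 234) (nat_lit 228) (nat_lit 0) (XT.nd (nat_lit 78) (nat_lit 76) (nat_lit 0) (XT.lf (nat_lit 0) (nat_lit 1173237742) (nat_lit 76) (nat_lit 1252211537) (nat_lit 152) (nat_lit 44160488154) (nat_lit 17) (nat_lit 5) (nat_lit 18) (nat_lit 5) (nat_lit 19) (nat_lit 4) (nat_lit 455) (nat_lit 385) (nat_lit 360)) (XT.nd (nat_lit 78) (nat_lit 76) (nat_lit 0) (XT.lf (nat_lit 0) (nat_lit 18639622862) (nat_lit 152) (nat_lit 15879381818) (nat_lit 0) (nat_lit 14975766853) (nat_lit 17) (nat_lit 5) (nat_lit 19) (nat_lit 4) (nat_lit 17) (nat_lit 4) (nat_lit 456) (nat_lit 385) (nat_lit 359)) (XT.lf (nat_lit 0) (nat_lit 15967650145) (nat_lit 76) (nat_lit 20187372474) (nat_lit 76) (nat_lit 16481086547) (nat_lit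 16) (nat_lit 4) (nat_lit 17) (nat_lit 5) (nat_lit 17) (nat_lit 4) (nat_lit 457) (nat_lit 385) (nat_lit 358)))) (XT.nd (nat_lit 156) (nat_lit 76) (nat_lit 0) (XT.nd (nat_lit 78) (nat_lit 152) (nat_lit 0) (XT.lf (nat_lit 0) (nat_lit 50414010972) (nat_lit 76) (nat_lit 4679609371) (nat_lit 76) (nat_lit 934036484) (nat_lit 16) (nat_lit 4) (nat_lit 17) (nat_lit 5) (nat_lit 17) (nat_lit 4) (nat_lit 458) (nat_lit 385) (nat_lit 357)) (XT.lf (nat_lit 0) (nat_lit 15744049804) (nat_lit 152) (nat_lit 31772168868) (nat_lit 0) (nat_lit 12142192944) (nat_lit 14) (nat_lit 5) (nat_lit 16) (nat_lit 4) (nat_lit 14) (nat_lit 4) (nat_lit 459) (nat_lit 385) (nat_lit 356))) (XT.nd (nat_lit 78) (nat_lit 0) (nat_lit 0) (XT.lf (nat_lit 0) (nat_lit 127751392) (nat_lit 76) (nat_lit 33543825085) (nat_lit 76) (nat_lit 29909889904) (nat_lit 13) (nat_lit 4) (nat_lit 14) (nat_lit 5) (nat_lit 14) (nat_lit 4) (nat_lit 460) (nat_lit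 385) (nat_lit 355)) (XT.lf (nat_lit 0) (nat_lit 35262823924) (nat_lit 76) (nat_lit 18101319022) (nat_lit 76) (nat_lit 14437681692) (nat_lit 13) (nat_lit 4) (nat_lit 14) (nat_lit 5) (nat_lit 14) (nat_lit 4) (nat_lit 461) (nat_lit 385) (nat_lit 354))))) (XT.nd (nat_lit 312) (nat_lit 152) (nat_lit 0) (XT.nd (nat_lit 156) (nat_lit 76) (nat_lit 0) (XT.nd (nat_lit 78) (nat_lit 0) (nat_lit 0) (XT.lf (nat_lit 0) (nat_lit 401354449) (nat_lit 76) (nat_lit 1594983974) (nat_lit 152) (nat_lit 70371862002) (nat_lit 11) (nat_lit 5) (nat_lit 12) (nat_lit 5) (nat_lit 13) (nat_lit 4) (nat_lit 462) (nat_lit 385) (nat_lit 353)) (XT.lf (nat_lit 0) (nat_lit 19871993649) (nat_lit 152) (nat_lit 41052051622) (nat_lit 0) (nat_lit 16332370673) (nat_lit 11) (nat_lit 5) (nat_lit 13) (nat_lit 4) (nat_lit 11) (nat_lit 4) (nat_lit 463) (nat_lit 385) (nat_lit 352))) (XT.nd (nat_lit 78) (nat_lit 76) (nat_lit 0) (XT.lf (nat_lit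 0) (nat_lit 39016125289) (nat_lit 152) (nat_lit 8073596392) (nat_lit 0) (nat_lit 35454046577) (nat_lit 11) (nat_lit 5) (nat_lit 13) (nat_lit 4) (nat_lit 11) (nat_lit 4) (nat_lit 464) (nat_lit 385) (nat_lit 351)) (XT.lf (nat_lit 0) (nat_lit 28087835929) (nat_lit 76) (nat_lit 31867971786) (nat_lit 76) (nat_lit 28285100725) (nat_lit 10) (nat_lit 4) (nat_lit 11) (nat_lit 5) (nat_lit 11) (nat_lit 4) (nat_lit 465) (nat_lit 385) (nat_lit 350)))) (XT.nd (nat_lit 156) (nat_lit 0) (nat_lit 0) (XT.nd (nat_lit 78) (nat_lit 152) (nat_lit 0) (XT.lf (nat_lit 0) (nat_lit 67091599685) (nat_lit 76) (nat_lit 15452827943) (nat_lit 76) (nat_lit 11850704708) (nat_lit 10) (nat_lit 4) (nat_lit 11) (nat_lit 5) (nat_lit 11) (nat_lit 4) (nat_lit 466) (nat_lit 385) (nat_lit 349)) (XT.lf (nat_lit 0) (nat_lit 5714378977) (nat_lit 152) (nat_lit 93055666831) (nat_lit 0) (nat_lit 2266808193) (nat_lit 8) (nat_lit 5) (nat_lit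 10) (nat_lit 4) (nat_lit 8) (nat_lit 4) (nat_lit 467) (nat_lit 385) (nat_lit 348))) (XT.nd (nat_lit 78) (nat_lit 0) (nat_lit 0) (XT.lf (nat_lit 0) (nat_lit 24866402606) (nat_lit 152) (nat_lit 61900839247) (nat_lit 0) (nat_lit 21403112168) (nat_lit 8) (nat_lit 5) (nat_lit 10) (nat_lit 4) (nat_lit 8) (nat_lit 4) (nat_lit 468) (nat_lit 385) (nat_lit 347)) (XT.lf (nat_lit 0) (nat_lit 45409295365) (nat_lit 152) (nat_lit 28540854113) (nat_lit 0) (nat_lit 41931449692) (nat_lit 8) (nat_lit 5) (nat_lit 10) (nat_lit 4) (nat_lit 8) (nat_lit 4) (nat_lit 469) (nat_lit 385) (nat_lit 346)))))) (XT.nd (nat_lit 546) (nat_lit 76) (nat_lit 0) (XT.nd (nat_lit 234) (nat_lit 152) (nat_lit 0) (XT.nd (nat_lit 78) (nat_lit 0) (nat_lit 0) (XT.lf (nat_lit 0) (nat_lit 7460768561) (nat_lit 76) (nat_lit 60120507860) (nat_lit 76) (nat_lit 56629185117) (nat_lit 7) (nat_lit 4) (nat_lit 8) (nat_lit 5) (nat_lit 8) (nat_lit 4)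 (nat_lit 470) (nat_lit 385) (nat_lit 345)) (XT.nd (nat_lit 78) (nat_lit 0) (nat_lit 0) (XT.lf (nat_lit 0) (nat_lit 47107311255) (nat_lit 76) (nat_lit 44791760392) (nat_lit 76) (nat_lit 41287958881) (nat_lit 7) (nat_lit 4) (nat_lit 8) (nat_lit 5) (nat_lit 8) (nat_lit 4) (nat_lit 471) (nat_lit 385) (nat_lit 344)) (XT.lf (nat_lit 0) (nat_lit 89690026912) (nat_lit 76) (nat_lit 28356423228) (nat_lit 76) (nat_lit 24841067302) (nat_lit 7) (nat_lit 4) (nat_lit 8) (nat_lit 5) (nat_lit 8) (nat_lit 4) (nat_lit 472) (nat_lit 385) (nat_lit 343)))) (XT.nd (nat_lit 156) (nat_lit 0) (nat_lit 0) (XT.nd (nat_lit 78) (nat_lit 152) (nat_lit 0) (XT.lf (nat_lit 0) (nat_lit 135461257551) (nat_lit 76) (nat_lit 10717101777) (nat_lit 76) (nat_lit 7191047319) (nat_lit 7) (nat_lit 4) (nat_lit 8) (nat_lit 5) (nat_lit 8) (nat_lit 4) (nat_lit 473) (nat_lit 385) (nat_lit 342)) (XT.lf (nat_lit 0) (nat_lit 11846417579) (nat_lit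 152) (nat_lit 144337557190) (nat_lit 0) (nat_lit 8478836144) (nat_lit 5) (nat_lit 5) (nat_lit 7) (nat_lit 4) (nat_lit 5) (nat_lit 4) (nat_lit 474) (nat_lit 385) (nat_lit 341))) (XT.nd (nat_lit 78) (nat_lit 0) (nat_lit 0) (XT.lf (nat_lit 0) (nat_lit 32557990760) (nat_lit 152) (nat_lit 115093976403) (nat_lit 0) (nat_lit 29181673832) (nat_lit 5) (nat_lit 5) (nat_lit 7) (nat_lit 4) (nat_lit 5) (nat_lit 4) (nat_lit 475) (nat_lit 385) (nat_lit 340)) (XT.lf (nat_lit 0) (nat_lit 54835665686) (nat_lit 152) (nat_lit 83695752935) (nat_lit 0) (nat_lit 51451260339) (nat_lit 5) (nat_lit 5) (nat_lit 7) (nat_lit 4) (nat_lit 5) (nat_lit 4) (nat_lit 476) (nat_lit 385) (nat_lit 339))))) (XT.nd (nat_lit 312) (nat_lit 0) (nat_lit 0) (XT.nd (nat_lit 156) (nat_lit 76) (nat_lit 0) (XT.nd (nat_lit 78) (nat_lit 0) (nat_lit 0) (XT.lf (nat_lit 0) (nat_lit 78811458207) (nat_lit 152) (nat_lit 49956823241) (nat_lit 0) (nat_lit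 75419563584) (nat_lit 5) (nat_lit 5) (nat_lit 7) (nat_lit 4) (nat_lit 5) (nat_lit 4) (nat_lit 477) (nat_lit 385) (nat_lit 338)) (XT.lf (nat_lit 0) (nat_lit 104627447096) (nat_lit 152) (nat_lit 13677252921) (nat_lit 0) (nat_lit 101228617957) (nat_lit 5) (nat_lit 5) (nat_lit 7) (nat_lit 4) (nat_lit 5) (nat_lit 4) (nat_lit 478) (nat_lit 385) (nat_lit 337))) (XT.nd (nat_lit 78) (nat_lit 0) (nat_lit 0) (XT.lf (nat_lit 0) (nat_lit 26196396353) (nat_lit 76) (nat_lit 106649218798) (nat_lit 76) (nat_lit 103243968811) (nat_lit 4) (nat_lit 4) (nat_lit 5) (nat_lit 5) (nat_lit 5) (nat_lit 4) (nat_lit 479) (nat_lit 385) (nat_lit 336)) (XT.lf (nat_lit 0) (nat_lit 69607989827) (nat_lit 76) (nat_lit 93882545932) (nat_lit 76) (nat_lit 90471350715) (nat_lit 4) (nat_lit 4) (nat_lit 5) (nat_lit 5) (nat_lit 5) (nat_lit 4) (nat_lit 480) (nat_lit 385) (nat_lit 335)))) (XT.nd (nat_lit 156) (nat_lit 0) (nat_lit 0) (XT.nd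 (nat_lit 78) (nat_lit 0) (nat_lit 0) (XT.lf (nat_lit 0) (nat_lit 116362549639) (nat_lit 76) (nat_lit 80160657956) (nat_lit 76) (nat_lit 76743957898) (nat_lit 4) (nat_lit 4) (nat_lit 5) (nat_lit 5) (nat_lit 5) (nat_lit 4) (nat_lit 481) (nat_lit 385) (nat_lit 334)) (XT.lf (nat_lit 0) (nat_lit 166737139847) (nat_lit 76) (nat_lit 65402239980) (nat_lit 76) (nat_lit 61980442845) (nat_lit 4) (nat_lit 4) (nat_lit 5) (nat_lit 5) (nat_lit 5) (nat_lit 4) (nat_lit 482) (nat_lit 385) (nat_lit 333))) (XT.nd (nat_lit 78) (nat_lit 0) (nat_lit 0) (XT.lf (nat_lit 0) (nat_lit 221030276540) (nat_lit 76) (nat_lit 49519834710) (nat_lit 76) (nat_lit 46093318061) (nat_lit 4) (nat_lit 4) (nat_lit 5) (nat_lit 5) (nat_lit 5) (nat_lit 4) (nat_lit 483) (nat_lit 385) (nat_lit 332)) (XT.lf (nat_lit 0) (nat_lit 279563696825) (nat_lit 76) (nat_lit 32419324191) (nat_lit 76) (nat_lit 28988437621) (nat_lit 4) (nat_lit 4) (nat_lit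 5) (nat_lit 5) (nat_lit 5) (nat_lit 4) (nat_lit 484) (nat_lit 385) (nat_lit 331))))))))
noncomputable def xc24 : XT := (XT.nd (nat_lit 58734) (nat_lit 0) (nat_lit 684) (XT.nd (nat_lit 1092) (nat_lit 76) (nat_lit 0) (XT.nd (nat_lit 546) (nat_lit 0) (nat_lit 0) (XT.nd (nat_lit 234) (nat_lit 0) (nat_lit 0) (XT.nd (nat_lit 78) (nat_lit 152) (nat_lit 0) (XT.lf (nat_lit 0) (nat_lit 342684265415) (nat_lit 76) (nat_lit 13999372063) (nat_lit 76) (nat_lit 10564439270) (nat_lit 4) (nat_lit 4) (nat_lit 5) (nat_lit 5) (nat_lit 5) (nat_lit 4) (nat_lit 485) (nat_lit 385) (nat_lit 330)) (XT.nd (nat_lit 78) (nat_lit 0) (nat_lit 0) (XT.lf (nat_lit 0) (nat_lit 9330056966) (nat_lit 152) (nat_lit 380219591689) (nat_lit 0) (nat_lit 6055124303) (nat_lit 2) (nat_lit 5) (nat_lit 4) (nat_lit 4) (nat_lit 2) (nat_lit 4) (nat_lit 486) (nat_lit 385) (nat_lit 329)) (XT.lf (nat_lit 0) (nat_lit 31078972593) (nat_lit 152) (nat_lit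 367309987562) (nat_lit 0) (nat_lit 27800736135) (nat_lit 2) (nat_lit 5) (nat_lit 4) (nat_lit 4) (nat_lit 2) (nat_lit 4) (nat_lit 487) (nat_lit 385) (nat_lit 328)))) (XT.nd (nat_lit 156) (nat_lit 0) (nat_lit 0) (XT.nd (nat_lit 78) (nat_lit 0) (nat_lit 0) (XT.lf (nat_lit 0) (nat_lit 54528063243) (nat_lit 152) (nat_lit 353448569543) (nat_lit 0) (nat_lit 51246767716) (nat_lit 2) (nat_lit 5) (nat_lit 4) (nat_lit 4) (nat_lit 2) (nat_lit 4) (nat_lit 488) (nat_lit 385) (nat_lit 327)) (XT.lf (nat_lit 0) (nat_lit 79816286491) (nat_lit 152) (nat_lit 338553195896) (nat_lit 0) (nat_lit 76532158492) (nat_lit 2) (nat_lit 5) (nat_lit 4) (nat_lit 4) (nat_lit 2) (nat_lit 4) (nat_lit 489) (nat_lit 385) (nat_lit 326))) (XT.nd (nat_lit 78) (nat_lit 0) (nat_lit 0) (XT.lf (nat_lit 0) (nat_lit 107093498473) (nat_lit 152) (nat_lit 322535597740) (nat_lit 0) (nat_lit 103806747817) (nat_lit 2) (nat_lit 5) (nat_lit 4) (nat_lit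 4) (nat_lit 2) (nat_lit 4) (nat_lit 490) (nat_lit 385) (nat_lit 325)) (XT.lf (nat_lit 0) (nat_lit 136521341929) (nat_lit 152) (nat_lit 305300855975) (nat_lit 0) (nat_lit 133232162884) (nat_lit 2) (nat_lit 5) (nat_lit 4) (nat_lit 4) (nat_lit 2) (nat_lit 4) (nat_lit 491) (nat_lit 385) (nat_lit 324))))) (XT.nd (nat_lit 234) (nat_lit 0) (nat_lit 0) (XT.nd (nat_lit 78) (nat_lit 0) (nat_lit 0) (XT.lf (nat_lit 0) (nat_lit 168274204078) (nat_lit 152) (nat_lit 286746838798) (nat_lit 0) (nat_lit 164982776526) (nat_lit 2) (nat_lit 5) (nat_lit 4) (nat_lit 4) (nat_lit 2) (nat_lit 4) (nat_lit 492) (nat_lit 385) (nat_lit 323)) (XT.nd (nat_lit 78) (nat_lit 0) (nat_lit 0) (XT.lf (nat_lit 0) (nat_lit 202540250029) (nat_lit 152) (nat_lit 266763596478) (nat_lit 0) (nat_lit 199246740526) (nat_lit 2) (nat_lit 5) (nat_lit 4) (nat_lit 4) (nat_lit 2) (nat_lit 4) (nat_lit 493) (nat_lit 385) (nat_lit 322)) (XT.lf (nat_lit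 0) (nat_lit 239522537833) (nat_lit 152) (nat_lit 245232709800) (nat_lit 0) (nat_lit 236227100598) (nat_lit 2) (nat_lit 5) (nat_lit 4) (nat_lit 4) (nat_lit 2) (nat_lit 4) (nat_lit 494) (nat_lit 385) (nat_lit 321)))) (XT.nd (nat_lit 156) (nat_lit 0) (nat_lit 0) (XT.nd (nat_lit 78) (nat_lit 0) (nat_lit 0) (XT.lf (nat_lit 0) (nat_lit 279440221787) (nat_lit 152) (nat_lit 222026588326) (nat_lit 0) (nat_lit 276142999614) (nat_lit 2) (nat_lit 5) (nat_lit 4) (nat_lit 4) (nat_lit 2) (nat_lit 4) (nat_lit 495) (nat_lit 385) (nat_lit 320)) (XT.lf (nat_lit 0) (nat_lit 322529851130) (nat_lit 152) (nat_lit 197007714298) (nat_lit 0) (nat_lit 319230976238) (nat_lit 2) (nat_lit 5) (nat_lit 4) (nat_lit 4) (nat_lit 2) (nat_lit 4) (nat_lit 496) (nat_lit 385) (nat_lit 319))) (XT.nd (nat_lit 78) (nat_lit 0) (nat_lit 0) (XT.lf (nat_lit 0) (nat_lit 369046771813) (nat_lit 152) (nat_lit 170027827722) (nat_lit 0) (nat_lit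 365746366625) (nat_lit 2) (nat_lit 5) (nat_lit 4) (nat_lit 4) (nat_lit 2) (nat_lit 4) (nat_lit 497) (nat_lit 385) (nat_lit 318)) (XT.lf (nat_lit 0) (nat_lit 419266639663) (nat_lit 152) (nat_lit 140927047788) (nat_lit 0) (nat_lit 415964817534) (nat_lit 2) (nat_lit 5) (nat_lit 4) (nat_lit 4) (nat_lit 2) (nat_lit 4) (nat_lit 498) (nat_lit 385) (nat_lit 317)))))) (XT.nd (nat_lit 57018) (nat_lit 0) (nat_lit 3420) (XT.nd (nat_lit 234) (nat_lit 76) (nat_lit 0) (XT.nd (nat_lit 78) (nat_lit 0) (nat_lit 0) (XT.lf (nat_lit 0) (nat_lit 473487053897) (nat_lit 152) (nat_lit 109532925432) (nat_lit 0) (nat_lit 470183919785) (nat_lit 2) (nat_lit 5) (nat_lit 4) (nat_lit 4) (nat_lit 2) (nat_lit 4) (nat_lit 499) (nat_lit 385) (nat_lit 316)) (XT.nd (nat_lit 78) (nat_lit 0) (nat_lit 0) (XT.lf (nat_lit 0) (nat_lit 532029320672) (nat_lit 152) (nat_lit 75659421408) (nat_lit 0) (nat_lit 528724971762) (nat_lit 2) (nat_lit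 5) (nat_lit 4) (nat_lit 4) (nat_lit 2) (nat_lit 4) (nat_lit 500) (nat_lit 385) (nat_lit 315)) (XT.lf (nat_lit 0) (nat_lit 595240357126) (nat_lit 152) (nat_lit 39105803841) (nat_lit 0) (nat_lit 591934883403) (nat_lit 2) (nat_lit 5) (nat_lit 4) (nat_lit 4) (nat_lit 2) (nat_lit 4) (nat_lit 501) (nat_lit 385) (nat_lit 314)))) (XT.nd (nat_lit 156) (nat_lit 0) (nat_lit 0) (XT.nd (nat_lit 78) (nat_lit 0) (nat_lit 0) (XT.lf (nat_lit 0) (nat_lit 355933389) (nat_lit 76) (nat_lit 663144370907) (nat_lit 76) (nat_lit 659837855690) (nat_lit 1) (nat_lit 4) (nat_lit 2) (nat_lit 5) (nat_lit 2) (nat_lit 4) (nat_lit 502) (nat_lit 385) (nat_lit 313)) (XT.lf (nat_lit 0) (nat_lit 44344701210) (nat_lit 76) (nat_lit 693544605140) (nat_lit 76) (nat_lit 690237125577) (nat_lit 1) (nat_lit 4) (nat_lit 2) (nat_lit 5) (nat_lit 2) (nat_lit 4) (nat_lit 503) (nat_lit 385) (nat_lit 312))) (XT.nd (nat_lit 56550) (nat_lit 0) (nat_lit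 4864) (XT.lf (nat_lit 0) (nat_lit 91828159318) (nat_lit 76) (nat_lit 726389288914) (nat_lit 76) (nat_lit 723080916438) (nat_lit 1) (nat_lit 4) (nat_lit 2) (nat_lit 5) (nat_lit 2) (nat_lit 4) (nat_lit 504) (nat_lit 385) (nat_lit 311)) (XT.lf (nat_lit 0) (nat_lit 1708198153) (nat_lit 152) (nat_lit 2788102135) (nat_lit 0) (nat_lit 1708198153) (nat_lit 65) (nat_lit 5) (nat_lit 67) (nat_lit 4) (nat_lit 65) (nat_lit 4) (nat_lit 428) (nat_lit 386) (nat_lit 386))))) (XT.nd (nat_lit 312) (nat_lit 532) (nat_lit 0) (XT.nd (nat_lit 156) (nat_lit 456) (nat_lit 0) (XT.nd (nat_lit 78) (nat_lit 228) (nat_lit 0) (XT.lf (nat_lit 0) (nat_lit 220812086) (nat_lit 228) (nat_lit 251952154) (nat_lit 76) (nat_lit 12418771075) (nat_lit 62) (nat_lit 5) (nat_lit 65) (nat_lit 5) (nat_lit 63) (nat_lit 4) (nat_lit 429) (nat_lit 386) (nat_lit 385)) (XT.lf (nat_lit 0) (nat_lit 5227338407) (nat_lit 152) (nat_lit 4732610936)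 (nat_lit 152) (nat_lit 3440191872) (nat_lit 59) (nat_lit 4) (nat_lit 61) (nat_lit 5) (nat_lit 61) (nat_lit 4) (nat_lit 430) (nat_lit 386) (nat_lit 384))) (XT.nd (nat_lit 78) (nat_lit 304) (nat_lit 0) (XT.lf (nat_lit 0) (nat_lit 6292312700) (nat_lit 152) (nat_lit 3139914958) (nat_lit 0) (nat_lit 4513505020) (nat_lit 57) (nat_lit 5) (nat_lit 59) (nat_lit 4) (nat_lit 57) (nat_lit 4) (nat_lit 431) (nat_lit 386) (nat_lit 383)) (XT.lf (nat_lit 0) (nat_lit 2016222315) (nat_lit 76) (nat_lit 82497095) (nat_lit 152) (nat_lit 12430928542) (nat_lit 53) (nat_lit 5) (nat_lit 54) (nat_lit 5) (nat_lit 55) (nat_lit 4) (nat_lit 432) (nat_lit 386) (nat_lit 382)))) (XT.nd (nat_lit 156) (nat_lit 304) (nat_lit 0) (XT.nd (nat_lit 78) (nat_lit 152) (nat_lit 0) (XT.lf (nat_lit 0) (nat_lit 7210371563) (nat_lit 76) (nat_lit 5280953480) (nat_lit 76) (nat_lit 2656271406) (nat_lit 52) (nat_lit 4) (nat_lit 53) (nat_lit 5)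 (nat_lit 53) (nat_lit 4) (nat_lit 433) (nat_lit 386) (nat_lit 381)) (XT.lf (nat_lit 0) (nat_lit 7652384583) (nat_lit 152) (nat_lit 3398037728) (nat_lit 0) (nat_lit 4758160033) (nat_lit 50) (nat_lit 5) (nat_lit 52) (nat_lit 4) (nat_lit 50) (nat_lit 4) (nat_lit 434) (nat_lit 386) (nat_lit 380))) (XT.nd (nat_lit 78) (nat_lit 76) (nat_lit 0) (XT.lf (nat_lit 0) (nat_lit 1156183602) (nat_lit 76) (nat_lit 997821881) (nat_lit 152) (nat_lit 14362023368) (nat_lit 47) (nat_lit 5) (nat_lit 48) (nat_lit 5) (nat_lit 49) (nat_lit 4) (nat_lit 435) (nat_lit 386) (nat_lit 379)) (XT.lf (nat_lit 0) (nat_lit 5650902145) (nat_lit 76) (nat_lit 7520273943) (nat_lit 76) (nat_lit 4093825141) (nat_lit 46) (nat_lit 4) (nat_lit 47) (nat_lit 5) (nat_lit 47) (nat_lit 4) (nat_lit 436) (nat_lit 386) (nat_lit 378))))))) (XT.nd (nat_lit 1170) (nat_lit 988) (nat_lit 0) (XT.nd (nat_lit 546) (nat_lit 836) (nat_lit 0) (XT.nd (nat_lit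 234) (nat_lit 532) (nat_lit 0) (XT.nd (nat_lit 78) (nat_lit 228) (nat_lit 0) (XT.lf (nat_lit 0) (nat_lit 6804035541) (nat_lit 152) (nat_lit 8006118555) (nat_lit 0) (nat_lit 3256679747) (nat_lit 44) (nat_lit 5) (nat_lit 46) (nat_lit 4) (nat_lit 44) (nat_lit 4) (nat_lit 437) (nat_lit 386) (nat_lit 377)) (XT.nd (nat_lit 78) (nat_lit 152) (nat_lit 0) (XT.lf (nat_lit 0) (nat_lit 14337060907) (nat_lit 76) (nat_lit 4198757023) (nat_lit 76) (nat_lit 388372321) (nat_lit 43) (nat_lit 4) (nat_lit 44) (nat_lit 5) (nat_lit 44) (nat_lit 4) (nat_lit 438) (nat_lit 386) (nat_lit 376)) (XT.lf (nat_lit 0) (nat_lit 11099843416) (nat_lit 152) (nat_lit 1497111910) (nat_lit 0) (nat_lit 7238957714) (nat_lit 41) (nat_lit 5) (nat_lit 43) (nat_lit 4) (nat_lit 41) (nat_lit 4) (nat_lit 439) (nat_lit 386) (nat_lit 375)))) (XT.nd (nat_lit 156) (nat_lit 228) (nat_lit 0) (XT.nd (nat_lit 78) (nat_lit 76) (nat_lit 0) (XT.lf (nat_lit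 0) (nat_lit 1427774206) (nat_lit 76) (nat_lit 1256824073) (nat_lit 152) (nat_lit 18128731800) (nat_lit 38) (nat_lit 5) (nat_lit 39) (nat_lit 5) (nat_lit 40) (nat_lit 4) (nat_lit 440) (nat_lit 386) (nat_lit 374)) (XT.lf (nat_lit 0) (nat_lit 3921726723) (nat_lit 76) (nat_lit 11000281783) (nat_lit 76) (nat_lit 6929319691) (nat_lit 37) (nat_lit 4) (nat_lit 38) (nat_lit 5) (nat_lit 38) (nat_lit 4) (nat_lit 441) (nat_lit 386) (nat_lit 373))) (XT.nd (nat_lit 78) (nat_lit 76) (nat_lit 0) (XT.lf (nat_lit 0) (nat_lit 5055641309) (nat_lit 152) (nat_lit 16898425252) (nat_lit 0) (nat_lit 1011525291) (nat_lit 35) (nat_lit 5) (nat_lit 37) (nat_lit 4) (nat_lit 35) (nat_lit 4) (nat_lit 442) (nat_lit 386) (nat_lit 372)) (XT.lf (nat_lit 0) (nat_lit 7595064493) (nat_lit 76) (nat_lit 10378092680) (nat_lit 76) (nat_lit 6179338454) (nat_lit 34) (nat_lit 4) (nat_lit 35) (nat_lit 5) (nat_lit 35) (nat_lit 4) (nat_lit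 443) (nat_lit 386) (nat_lit 371))))) (XT.nd (nat_lit 312) (nat_lit 380) (nat_lit 0) (XT.nd (nat_lit 156) (nat_lit 228) (nat_lit 0) (XT.nd (nat_lit 78) (nat_lit 76) (nat_lit 0) (XT.lf (nat_lit 0) (nat_lit 6354962133) (nat_lit 152) (nat_lit 16850897117) (nat_lit 0) (nat_lit 2219783322) (nat_lit 32) (nat_lit 5) (nat_lit 34) (nat_lit 4) (nat_lit 32) (nat_lit 4) (nat_lit 444) (nat_lit 386) (nat_lit 370)) (XT.lf (nat_lit 0) (nat_lit 8750911064) (nat_lit 76) (nat_lit 11147484116) (nat_lit 76) (nat_lit 6886041173) (nat_lit 31) (nat_lit 4) (nat_lit 32) (nat_lit 5) (nat_lit 32) (nat_lit 4) (nat_lit 445) (nat_lit 386) (nat_lit 369))) (XT.nd (nat_lit 78) (nat_lit 76) (nat_lit 0) (XT.lf (nat_lit 0) (nat_lit 6156872408) (nat_lit 152) (nat_lit 20098941916) (nat_lit 0) (nat_lit 1987011288) (nat_lit 29) (nat_lit 5) (nat_lit 31) (nat_lit 4) (nat_lit 29) (nat_lit 4) (nat_lit 446) (nat_lit 386) (nat_lit 368)) (XT.lf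 (nat_lit 0) (nat_lit 6427134486) (nat_lit 76) (nat_lit 13822833995) (nat_lit 76) (nat_lit 9549876550) (nat_lit 28) (nat_lit 4) (nat_lit 29) (nat_lit 5) (nat_lit 29) (nat_lit 4) (nat_lit 447) (nat_lit 386) (nat_lit 367)))) (XT.nd (nat_lit 156) (nat_lit 228) (nat_lit 0) (XT.nd (nat_lit 78) (nat_lit 0) (nat_lit 0) (XT.lf (nat_lit 0) (nat_lit 3671903824) (nat_lit 76) (nat_lit 250203897) (nat_lit 152) (nat_lit 27553172427) (nat_lit 26) (nat_lit 5) (nat_lit 27) (nat_lit 5) (nat_lit 28) (nat_lit 4) (nat_lit 448) (nat_lit 386) (nat_lit 366)) (XT.lf (nat_lit 0) (nat_lit 18438287696) (nat_lit 152) (nat_lit 629875482) (nat_lit 0) (nat_lit 14193711041) (nat_lit 26) (nat_lit 5) (nat_lit 28) (nat_lit 4) (nat_lit 26) (nat_lit 4) (nat_lit 449) (nat_lit 386) (nat_lit 365))) (XT.nd (nat_lit 78) (nat_lit 152) (nat_lit 0) (XT.lf (nat_lit 0) (nat_lit 29005011484) (nat_lit 76) (nat_lit 5250948837) (nat_lit 76) (nat_lit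 928428194) (nat_lit 25) (nat_lit 4) (nat_lit 26) (nat_lit 5) (nat_lit 26) (nat_lit 4) (nat_lit 450) (nat_lit 386) (nat_lit 364)) (XT.lf (nat_lit 0) (nat_lit 13856919835) (nat_lit 152) (nat_lit 13709837870) (nat_lit 0) (nat_lit 9671499833) (nat_lit 23) (nat_lit 5) (nat_lit 25) (nat_lit 4) (nat_lit 23) (nat_lit 4) (nat_lit 451) (nat_lit 386) (nat_lit 363)))))) (XT.nd (nat_lit 546) (nat_lit 456) (nat_lit 0) (XT.nd (nat_lit 234) (nat_lit 304) (nat_lit 0) (XT.nd (nat_lit 78) (nat_lit 152) (nat_lit 0) (XT.lf (nat_lit 0) (nat_lit 16192457300) (nat_lit 76) (nat_lit 13752335484) (nat_lit 76) (nat_lit 9503273190) (nat_lit 22) (nat_lit 4) (nat_lit 23) (nat_lit 5) (nat_lit 23) (nat_lit 4) (nat_lit 452) (nat_lit 386) (nat_lit 362)) (XT.nd (nat_lit 78) (nat_lit 0) (nat_lit 0) (XT.lf (nat_lit 0) (nat_lit 5386913172) (nat_lit 152) (nat_lit 35155529118) (nat_lit 0) (nat_lit 1284065228) (nat_lit 20) (nat_lit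 5) (nat_lit 22) (nat_lit 4) (nat_lit 20) (nat_lit 4) (nat_lit 453) (nat_lit 386) (nat_lit 361)) (XT.lf (nat_lit 0) (nat_lit 21501303110) (nat_lit 152) (nat_lit 5521346198) (nat_lit 0) (nat_lit 17346490396) (nat_lit 20) (nat_lit 5) (nat_lit 22) (nat_lit 4) (nat_lit 20) (nat_lit 4) (nat_lit 454) (nat_lit 386) (nat_lit 360)))) (XT.nd (nat_lit 156) (nat_lit 76) (nat_lit 0) (XT.nd (nat_lit 78) (nat_lit 152) (nat_lit 0) (XT.lf (nat_lit 0) (nat_lit 26814251880) (nat_lit 76) (nat_lit 12247995149) (nat_lit 76) (nat_lit 8045066908) (nat_lit 19) (nat_lit 4) (nat_lit 20) (nat_lit 5) (nat_lit 20) (nat_lit 4) (nat_lit 455) (nat_lit 386) (nat_lit 359)) (XT.lf (nat_lit 0) (nat_lit 7794211462) (nat_lit 152) (nat_lit 38510844196) (nat_lit 0) (nat_lit 3748992743) (nat_lit 17) (nat_lit 5) (nat_lit 19) (nat_lit 4) (nat_lit 17) (nat_lit 4) (nat_lit 456) (nat_lit 386) (nat_lit 358))) (XT.nd (nat_lit 78) (nat_lit 76)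 (nat_lit 0) (XT.lf (nat_lit 0) (nat_lit 24941756407) (nat_lit 152) (nat_lit 7414772274) (nat_lit 0) (nat_lit 20857250727) (nat_lit 17) (nat_lit 5) (nat_lit 19) (nat_lit 4) (nat_lit 17) (nat_lit 4) (nat_lit 457) (nat_lit 386) (nat_lit 357)) (XT.lf (nat_lit 0) (nat_lit 26556952744) (nat_lit 76) (nat_lit 17090452426) (nat_lit 76) (nat_lit 12969569931) (nat_lit 16) (nat_lit 4) (nat_lit 17) (nat_lit 5) (nat_lit 17) (nat_lit 4) (nat_lit 458) (nat_lit 386) (nat_lit 356))))) (XT.nd (nat_lit 312) (nat_lit 228) (nat_lit 0) (XT.nd (nat_lit 156) (nat_lit 76) (nat_lit 0) (XT.nd (nat_lit 78) (nat_lit 0) (nat_lit 0) (XT.lf (nat_lit 0) (nat_lit 2808172095) (nat_lit 76) (nat_lit 588284893) (nat_lit 152) (nat_lit 56895532420) (nat_lit 14) (nat_lit 5) (nat_lit 15) (nat_lit 5) (nat_lit 16) (nat_lit 4) (nat_lit 459) (nat_lit 386) (nat_lit 355)) (XT.lf (nat_lit 0) (nat_lit 21209167230) (nat_lit 152) (nat_lit 25788881477)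 (nat_lit 0) (nat_lit 17222736765) (nat_lit 14) (nat_lit 5) (nat_lit 16) (nat_lit 4) (nat_lit 14) (nat_lit 4) (nat_lit 460) (nat_lit 386) (nat_lit 354))) (XT.nd (nat_lit 78) (nat_lit 0) (nat_lit 0) (XT.lf (nat_lit 0) (nat_lit 8292543646) (nat_lit 76) (nat_lit 32094142675) (nat_lit 76) (nat_lit 28080210220) (nat_lit 13) (nat_lit 4) (nat_lit 14) (nat_lit 5) (nat_lit 14) (nat_lit 4) (nat_lit 461) (nat_lit 386) (nat_lit 353)) (XT.lf (nat_lit 0) (nat_lit 45634379600) (nat_lit 76) (nat_lit 15722398232) (nat_lit 76) (nat_lit 11683000972) (nat_lit 13) (nat_lit 4) (nat_lit 14) (nat_lit 5) (nat_lit 14) (nat_lit 4) (nat_lit 462) (nat_lit 386) (nat_lit 352)))) (XT.nd (nat_lit 156) (nat_lit 76) (nat_lit 0) (XT.nd (nat_lit 78) (nat_lit 0) (nat_lit 0) (XT.lf (nat_lit 0) (nat_lit 5806135134) (nat_lit 152) (nat_lit 70232367787) (nat_lit 0) (nat_lit 1936634388) (nat_lit 11) (nat_lit 5) (nat_lit 13) (nat_lit 4)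 (nat_lit 11) (nat_lit 4) (nat_lit 463) (nat_lit 386) (nat_lit 351)) (XT.lf (nat_lit 0) (nat_lit 24866367937) (nat_lit 152) (nat_lit 37424242119) (nat_lit 0) (nat_lit 20976074843) (nat_lit 11) (nat_lit 5) (nat_lit 13) (nat_lit 4) (nat_lit 11) (nat_lit 4) (nat_lit 464) (nat_lit 386) (nat_lit 350))) (XT.nd (nat_lit 78) (nat_lit 76) (nat_lit 0) (XT.lf (nat_lit 0) (nat_lit 45289836420) (nat_lit 152) (nat_lit 2319508517) (nat_lit 0) (nat_lit 41380291151) (nat_lit 11) (nat_lit 5) (nat_lit 13) (nat_lit 4) (nat_lit 11) (nat_lit 4) (nat_lit 465) (nat_lit 386) (nat_lit 349)) (XT.lf (nat_lit 0) (nat_lit 36456703250) (nat_lit 76) (nat_lit 31310056601) (nat_lit 76) (nat_lit 27382685244) (nat_lit 10) (nat_lit 4) (nat_lit 11) (nat_lit 5) (nat_lit 11) (nat_lit 4) (nat_lit 466) (nat_lit 386) (nat_lit 348))))))))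
noncomputable def xc25 : XT := (XT.nd (nat_lit 2262) (nat_lit 76) (nat_lit 0) (XT.nd (nat_lit 1092) (nat_lit 152) (nat_lit 0) (XT.nd (nat_lit 546) (nat_lit 228) (nat_lit 0) (XT.nd (nat_lit 234) (nat_lit 76) (nat_lit 0) (XT.nd (nat_lit 78) (nat_lit 152) (nat_lit 0) (XT.lf (nat_lit 0) (nat_lit 78127298444) (nat_lit 76) (nat_lit 13811875542) (nat_lit 76) (nat_lit 9867998548) (nat_lit 10) (nat_lit 4) (nat_lit 11) (nat_lit 5) (nat_lit 11) (nat_lit 4) (nat_lit 467) (nat_lit 386) (nat_lit 347)) (XT.nd (nat_lit 78) (nat_lit 0) (nat_lit 0) (XT.lf (nat_lit 0) (nat_lit 8928096706) (nat_lit 152) (nat_lit 94896399592) (nat_lit 0) (nat_lit 5157468144) (nat_lit 8) (nat_lit 5) (nat_lit 10) (nat_lit 4) (nat_lit 8) (nat_lit 4) (nat_lit 468) (nat_lit 386) (nat_lit 346)) (XT.lf (nat_lit 0) (nat_lit 29408092047) (nat_lit 152) (nat_lit 61664276216) (nat_lit 0) (nat_lit 25623986415) (nat_lit 8) (nat_lit 5) (nat_lit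 10) (nat_lit 4) (nat_lit 8) (nat_lit 4) (nat_lit 469) (nat_lit 386) (nat_lit 345)))) (XT.nd (nat_lit 156) (nat_lit 0) (nat_lit 0) (XT.nd (nat_lit 78) (nat_lit 76) (nat_lit 0) (XT.lf (nat_lit 0) (nat_lit 51405351247) (nat_lit 152) (nat_lit 26019835246) (nat_lit 0) (nat_lit 47608766847) (nat_lit 8) (nat_lit 5) (nat_lit 10) (nat_lit 4) (nat_lit 8) (nat_lit 4) (nat_lit 470) (nat_lit 386) (nat_lit 344)) (XT.lf (nat_lit 0) (nat_lit 12653128774) (nat_lit 76) (nat_lit 62594650460) (nat_lit 76) (nat_lit 58786511644) (nat_lit 7) (nat_lit 4) (nat_lit 8) (nat_lit 5) (nat_lit 8) (nat_lit 4) (nat_lit 471) (nat_lit 386) (nat_lit 343))) (XT.nd (nat_lit 78) (nat_lit 0) (nat_lit 0) (XT.lf (nat_lit 0) (nat_lit 55130987571) (nat_lit 76) (nat_lit 46212603049) (nat_lit 76) (nat_lit 42393765701) (nat_lit 7) (nat_lit 4) (nat_lit 8) (nat_lit 5) (nat_lit 8) (nat_lit 4) (nat_lit 472) (nat_lit 386) (nat_lit 342)) (XT.lf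 (nat_lit 0) (nat_lit 100805128523) (nat_lit 76) (nat_lit 28622623962) (nat_lit 76) (nat_lit 24793880566) (nat_lit 7) (nat_lit 4) (nat_lit 8) (nat_lit 5) (nat_lit 8) (nat_lit 4) (nat_lit 473) (nat_lit 386) (nat_lit 341))))) (XT.nd (nat_lit 234) (nat_lit 76) (nat_lit 0) (XT.nd (nat_lit 78) (nat_lit 152) (nat_lit 0) (XT.lf (nat_lit 0) (nat_lit 149946213209) (nat_lit 76) (nat_lit 9720476285) (nat_lit 76) (nat_lit 5882560622) (nat_lit 7) (nat_lit 4) (nat_lit 8) (nat_lit 5) (nat_lit 8) (nat_lit 4) (nat_lit 474) (nat_lit 386) (nat_lit 340)) (XT.nd (nat_lit 78) (nat_lit 0) (nat_lit 0) (XT.lf (nat_lit 0) (nat_lit 14566074431) (nat_lit 152) (nat_lit 152278330664) (nat_lit 0) (nat_lit 10902828237) (nat_lit 5) (nat_lit 5) (nat_lit 7) (nat_lit 4) (nat_lit 5) (nat_lit 4) (nat_lit 475) (nat_lit 386) (nat_lit 339)) (XT.lf (nat_lit 0) (nat_lit 36803318396) (nat_lit 152) (nat_lit 120962391643) (nat_lit 0) (nat_lit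 33132582925) (nat_lit 5) (nat_lit 5) (nat_lit 7) (nat_lit 4) (nat_lit 5) (nat_lit 4) (nat_lit 476) (nat_lit 386) (nat_lit 338)))) (XT.nd (nat_lit 156) (nat_lit 76) (nat_lit 0) (XT.nd (nat_lit 78) (nat_lit 0) (nat_lit 0) (XT.lf (nat_lit 0) (nat_lit 60741674843) (nat_lit 152) (nat_lit 87299651252) (nat_lit 0) (nat_lit 57064004857) (nat_lit 5) (nat_lit 5) (nat_lit 7) (nat_lit 4) (nat_lit 5) (nat_lit 4) (nat_lit 477) (nat_lit 386) (nat_lit 337)) (XT.lf (nat_lit 0) (nat_lit 86523000700) (nat_lit 152) (nat_lit 51090626583) (nat_lit 0) (nat_lit 82838909866) (nat_lit 5) (nat_lit 5) (nat_lit 7) (nat_lit 4) (nat_lit 5) (nat_lit 4) (nat_lit 478) (nat_lit 386) (nat_lit 336))) (XT.nd (nat_lit 78) (nat_lit 76) (nat_lit 0) (XT.lf (nat_lit 0) (nat_lit 114300074193) (nat_lit 152) (nat_lit 12120745638) (nat_lit 0) (nat_lit 110610038130) (nat_lit 5) (nat_lit 5) (nat_lit 7) (nat_lit 4) (nat_lit 5) (nat_lit 4) (nat_lit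 479) (nat_lit 386) (nat_lit 335)) (XT.lf (nat_lit 0) (nat_lit 30827599928) (nat_lit 76) (nat_lit 113891205504) (nat_lit 76) (nat_lit 110195664599) (nat_lit 4) (nat_lit 4) (nat_lit 5) (nat_lit 5) (nat_lit 5) (nat_lit 4) (nat_lit 480) (nat_lit 386) (nat_lit 334)))))) (XT.nd (nat_lit 546) (nat_lit 0) (nat_lit 0) (XT.nd (nat_lit 234) (nat_lit 152) (nat_lit 0) (XT.nd (nat_lit 78) (nat_lit 0) (nat_lit 0) (XT.lf (nat_lit 0) (nat_lit 77524306668) (nat_lit 76) (nat_lit 100198750719) (nat_lit 76) (nat_lit 96498112738) (nat_lit 4) (nat_lit 4) (nat_lit 5) (nat_lit 5) (nat_lit 5) (nat_lit 4) (nat_lit 481) (nat_lit 386) (nat_lit 333)) (XT.nd (nat_lit 78) (nat_lit 0) (nat_lit 0) (XT.lf (nat_lit 0) (nat_lit 127845329216) (nat_lit 76) (nat_lit 85467585697) (nat_lit 76) (nat_lit 81762228201) (nat_lit 4) (nat_lit 4) (nat_lit 5) (nat_lit 5) (nat_lit 5) (nat_lit 4) (nat_lit 482) (nat_lit 386) (nat_lit 332)) (XT.lf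 (nat_lit 0) (nat_lit 182088866225) (nat_lit 76) (nat_lit 69610414645) (nat_lit 76) (nat_lit 65900687228) (nat_lit 4) (nat_lit 4) (nat_lit 5) (nat_lit 5) (nat_lit 5) (nat_lit 4) (nat_lit 483) (nat_lit 386) (nat_lit 331)))) (XT.nd (nat_lit 156) (nat_lit 152) (nat_lit 0) (XT.nd (nat_lit 78) (nat_lit 0) (nat_lit 0) (XT.lf (nat_lit 0) (nat_lit 240576360877) (nat_lit 76) (nat_lit 52533269142) (nat_lit 76) (nat_lit 48819495501) (nat_lit 4) (nat_lit 4) (nat_lit 5) (nat_lit 5) (nat_lit 5) (nat_lit 4) (nat_lit 484) (nat_lit 386) (nat_lit 330)) (XT.lf (nat_lit 0) (nat_lit 303654405732) (nat_lit 76) (nat_lit 34134951288) (nat_lit 76) (nat_lit 30417431145) (nat_lit 4) (nat_lit 4) (nat_lit 5) (nat_lit 5) (nat_lit 5) (nat_lit 4) (nat_lit 485) (nat_lit 386) (nat_lit 329))) (XT.nd (nat_lit 78) (nat_lit 152) (nat_lit 0) (XT.lf (nat_lit 0) (nat_lit 371696796612) (nat_lit 76) (nat_lit 14306434015) (nat_lit 76)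 (nat_lit 10585444888) (nat_lit 4) (nat_lit 4) (nat_lit 5) (nat_lit 5) (nat_lit 5) (nat_lit 4) (nat_lit 486) (nat_lit 386) (nat_lit 328)) (XT.lf (nat_lit 0) (nat_lit 10851739048) (nat_lit 152) (nat_lit 409057769062) (nat_lit 0) (nat_lit 7304880810) (nat_lit 2) (nat_lit 5) (nat_lit 4) (nat_lit 4) (nat_lit 2) (nat_lit 4) (nat_lit 487) (nat_lit 386) (nat_lit 327))))) (XT.nd (nat_lit 312) (nat_lit 0) (nat_lit 0) (XT.nd (nat_lit 156) (nat_lit 0) (nat_lit 0) (XT.nd (nat_lit 78) (nat_lit 0) (nat_lit 0) (XT.lf (nat_lit 0) (nat_lit 34283139960) (nat_lit 152) (nat_lit 395232388454) (nat_lit 0) (nat_lit 30733449251) (nat_lit 2) (nat_lit 5) (nat_lit 4) (nat_lit 4) (nat_lit 2) (nat_lit 4) (nat_lit 488) (nat_lit 386) (nat_lit 326)) (XT.lf (nat_lit 0) (nat_lit 59554983821) (nat_lit 152) (nat_lit 380370382779) (nat_lit 0) (nat_lit 56002670453) (nat_lit 2) (nat_lit 5) (nat_lit 4) (nat_lit 4) (nat_lit 2) (nat_lit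 4) (nat_lit 489) (nat_lit 386) (nat_lit 325))) (XT.nd (nat_lit 78) (nat_lit 0) (nat_lit 0) (XT.lf (nat_lit 0) (nat_lit 86817029705) (nat_lit 152) (nat_lit 364383680894) (nat_lit 0) (nat_lit 83262287949) (nat_lit 2) (nat_lit 5) (nat_lit 4) (nat_lit 4) (nat_lit 2) (nat_lit 4) (nat_lit 490) (nat_lit 386) (nat_lit 324)) (XT.lf (nat_lit 0) (nat_lit 116230830476) (nat_lit 152) (nat_lit 347177546788) (nat_lit 0) (nat_lit 112673840213) (nat_lit 2) (nat_lit 5) (nat_lit 4) (nat_lit 4) (nat_lit 2) (nat_lit 4) (nat_lit 491) (nat_lit 386) (nat_lit 323)))) (XT.nd (nat_lit 156) (nat_lit 0) (nat_lit 0) (XT.nd (nat_lit 78) (nat_lit 0) (nat_lit 0) (XT.lf (nat_lit 0) (nat_lit 147970690140) (nat_lit 152) (nat_lit 328650018183) (nat_lit 0) (nat_lit 144411617926) (nat_lit 2) (nat_lit 5) (nat_lit 4) (nat_lit 4) (nat_lit 2) (nat_lit 4) (nat_lit 492) (nat_lit 386) (nat_lit 322)) (XT.lf (nat_lit 0) (nat_lit 182224696753)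 (nat_lit 152) (nat_lit 308691302319) (nat_lit 0) (nat_lit 178663696806) (nat_lit 2) (nat_lit 5) (nat_lit 4) (nat_lit 4) (nat_lit 2) (nat_lit 4) (nat_lit 493) (nat_lit 386) (nat_lit 321))) (XT.nd (nat_lit 78) (nat_lit 0) (nat_lit 0) (XT.lf (nat_lit 0) (nat_lit 219195837021) (nat_lit 152) (nat_lit 287183125323) (nat_lit 0) (nat_lit 215633052137) (nat_lit 2) (nat_lit 5) (nat_lit 4) (nat_lit 4) (nat_lit 2) (nat_lit 4) (nat_lit 494) (nat_lit 386) (nat_lit 320)) (XT.lf (nat_lit 0) (nat_lit 259103199183) (nat_lit 152) (nat_lit 263998031331) (nat_lit 0) (nat_lit 255538761579) (nat_lit 2) (nat_lit 5) (nat_lit 4) (nat_lit 4) (nat_lit 2) (nat_lit 4) (nat_lit 495) (nat_lit 386) (nat_lit 319))))))) (XT.nd (nat_lit 57486) (nat_lit 0) (nat_lit 2280) (XT.nd (nat_lit 546) (nat_lit 76) (nat_lit 0) (XT.nd (nat_lit 234) (nat_lit 0) (nat_lit 0) (XT.nd (nat_lit 78) (nat_lit 0) (nat_lit 0) (XT.lf (nat_lit 0) (nat_lit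 302183271311) (nat_lit 152) (nat_lit 238998627194) (nat_lit 0) (nat_lit 298617303411) (nat_lit 2) (nat_lit 5) (nat_lit 4) (nat_lit 4) (nat_lit 2) (nat_lit 4) (nat_lit 496) (nat_lit 386) (nat_lit 318)) (XT.nd (nat_lit 78) (nat_lit 0) (nat_lit 0) (XT.lf (nat_lit 0) (nat_lit 348691342721) (nat_lit 152) (nat_lit 212036768296) (nat_lit 0) (nat_lit 345123957881) (nat_lit 2) (nat_lit 5) (nat_lit 4) (nat_lit 4) (nat_lit 2) (nat_lit 4) (nat_lit 497) (nat_lit 386) (nat_lit 317)) (XT.lf (nat_lit 0) (nat_lit 398903016800) (nat_lit 152) (nat_lit 182952680656) (nat_lit 0) (nat_lit 395334319977) (nat_lit 2) (nat_lit 5) (nat_lit 4) (nat_lit 4) (nat_lit 2) (nat_lit 4) (nat_lit 498) (nat_lit 386) (nat_lit 316)))) (XT.nd (nat_lit 156) (nat_lit 0) (nat_lit 0) (XT.nd (nat_lit 78) (nat_lit 0) (nat_lit 0) (XT.lf (nat_lit 0) (nat_lit 453115844208) (nat_lit 152) (nat_lit 151574014127) (nat_lit 0) (nat_lit 449545932587)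 (nat_lit 2) (nat_lit 5) (nat_lit 4) (nat_lit 4) (nat_lit 2) (nat_lit 4) (nat_lit 499) (nat_lit 386) (nat_lit 315)) (XT.lf (nat_lit 0) (nat_lit 511651086145) (nat_lit 152) (nat_lit 117714821055) (nat_lit 0) (nat_lit 508080049711) (nat_lit 2) (nat_lit 5) (nat_lit 4) (nat_lit 4) (nat_lit 2) (nat_lit 4) (nat_lit 500) (nat_lit 386) (nat_lit 314))) (XT.nd (nat_lit 78) (nat_lit 0) (nat_lit 0) (XT.lf (nat_lit 0) (nat_lit 574855618119) (nat_lit 152) (nat_lit 81174454369) (nat_lit 0) (nat_lit 571283540191) (nat_lit 2) (nat_lit 5) (nat_lit 4) (nat_lit 4) (nat_lit 2) (nat_lit 4) (nat_lit 501) (nat_lit 386) (nat_lit 313)) (XT.lf (nat_lit 0) (nat_lit 643103985505) (nat_lit 152) (nat_lit 41736378564) (nat_lit 0) (nat_lit 639530943231) (nat_lit 2) (nat_lit 5) (nat_lit 4) (nat_lit 4) (nat_lit 2) (nat_lit 4) (nat_lit 502) (nat_lit 386) (nat_lit 312))))) (XT.nd (nat_lit 56628) (nat_lit 0) (nat_lit 4256) (XT.nd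 (nat_lit 56472) (nat_lit 0) (nat_lit 5016) (XT.nd (nat_lit 78) (nat_lit 0) (nat_lit 0) (XT.lf (nat_lit 0) (nat_lit 860659970) (nat_lit 76) (nat_lit 715953400416) (nat_lit 76) (nat_lit 712379465228) (nat_lit 1) (nat_lit 4) (nat_lit 2) (nat_lit 5) (nat_lit 2) (nat_lit 4) (nat_lit 503) (nat_lit 386) (nat_lit 311)) (XT.lf (nat_lit 0) (nat_lit 48333251297) (nat_lit 76) (nat_lit 748803617844) (nat_lit 76) (nat_lit 745228855885) (nat_lit 1) (nat_lit 4) (nat_lit 2) (nat_lit 5) (nat_lit 2) (nat_lit 4) (nat_lit 504) (nat_lit 386) (nat_lit 310))) (XT.nd (nat_lit 78) (nat_lit 304) (nat_lit 0) (XT.lf (nat_lit 0) (nat_lit 3849650136) (nat_lit 152) (nat_lit 957091523) (nat_lit 152) (nat_lit 957091523) (nat_lit 71) (nat_lit 4) (nat_lit 73) (nat_lit 5) (nat_lit 73) (nat_lit 4) (nat_lit 426) (nat_lit 387) (nat_lit 387)) (XT.lf (nat_lit 0) (nat_lit 1152634555) (nat_lit 152) (nat_lit 5803194796) (nat_lit 152) (nat_lit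 5004159195) (nat_lit 67) (nat_lit 4) (nat_lit 69) (nat_lit 5) (nat_lit 69) (nat_lit 4) (nat_lit 427) (nat_lit 387) (nat_lit 386)))) (XT.nd (nat_lit 156) (nat_lit 380) (nat_lit 0) (XT.nd (nat_lit 78) (nat_lit 228) (nat_lit 0) (XT.lf (nat_lit 0) (nat_lit 3924377350) (nat_lit 152) (nat_lit 6038507007) (nat_lit 0) (nat_lit 2458774131) (nat_lit 65) (nat_lit 5) (nat_lit 67) (nat_lit 4) (nat_lit 65) (nat_lit 4) (nat_lit 428) (nat_lit 387) (nat_lit 385)) (XT.lf (nat_lit 0) (nat_lit 447567457) (nat_lit 228) (nat_lit 1200513017) (nat_lit 76) (nat_lit 11268375319) (nat_lit 62) (nat_lit 5) (nat_lit 65) (nat_lit 5) (nat_lit 63) (nat_lit 4) (nat_lit 429) (nat_lit 387) (nat_lit 384))) (XT.nd (nat_lit 78) (nat_lit 152) (nat_lit 0) (XT.lf (nat_lit 0) (nat_lit 3753792754) (nat_lit 152) (nat_lit 6139229612) (nat_lit 152) (nat_lit 3546732704) (nat_lit 59) (nat_lit 4) (nat_lit 61) (nat_lit 5) (nat_lit 61) (nat_lit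 4) (nat_lit 430) (nat_lit 387) (nat_lit 383)) (XT.lf (nat_lit 0) (nat_lit 5902794558) (nat_lit 152) (nat_lit 5170557589) (nat_lit 0) (nat_lit 2926405087) (nat_lit 57) (nat_lit 5) (nat_lit 59) (nat_lit 4) (nat_lit 57) (nat_lit 4) (nat_lit 431) (nat_lit 387) (nat_lit 382)))))) (XT.nd (nat_lit 546) (nat_lit 912) (nat_lit 0) (XT.nd (nat_lit 234) (nat_lit 532) (nat_lit 0) (XT.nd (nat_lit 78) (nat_lit 304) (nat_lit 0) (XT.lf (nat_lit 0) (nat_lit 1372249370) (nat_lit 228) (nat_lit 633041961) (nat_lit 76) (nat_lit 12593590798) (nat_lit 54) (nat_lit 5) (nat_lit 57) (nat_lit 5) (nat_lit 55) (nat_lit 4) (nat_lit 432) (nat_lit 387) (nat_lit 381)) (XT.nd (nat_lit 78) (nat_lit 152) (nat_lit 0) (XT.lf (nat_lit 0) (nat_lit 3969200857) (nat_lit 76) (nat_lit 7479865117) (nat_lit 76) (nat_lit 3783560773) (nat_lit 52) (nat_lit 4) (nat_lit 53) (nat_lit 5) (nat_lit 53) (nat_lit 4) (nat_lit 433) (nat_lit 387) (nat_lit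 380)) (XT.lf (nat_lit 0) (nat_lit 6244349999) (nat_lit 152) (nat_lit 7307232749) (nat_lit 0) (nat_lit 2358757057) (nat_lit 50) (nat_lit 5) (nat_lit 52) (nat_lit 4) (nat_lit 50) (nat_lit 4) (nat_lit 434) (nat_lit 387) (nat_lit 379)))) (XT.nd (nat_lit 156) (nat_lit 228) (nat_lit 0) (XT.nd (nat_lit 78) (nat_lit 152) (nat_lit 0) (XT.lf (nat_lit 0) (nat_lit 389203963) (nat_lit 152) (nat_lit 3425968417) (nat_lit 76) (nat_lit 12818964334) (nat_lit 48) (nat_lit 5) (nat_lit 50) (nat_lit 5) (nat_lit 49) (nat_lit 4) (nat_lit 435) (nat_lit 387) (nat_lit 378)) (XT.lf (nat_lit 0) (nat_lit 292641759) (nat_lit 76) (nat_lit 10715675623) (nat_lit 76) (nat_lit 6394699371) (nat_lit 46) (nat_lit 4) (nat_lit 47) (nat_lit 5) (nat_lit 47) (nat_lit 4) (nat_lit 436) (nat_lit 387) (nat_lit 377))) (XT.nd (nat_lit 78) (nat_lit 76) (nat_lit 0) (XT.lf (nat_lit 0) (nat_lit 4057424548) (nat_lit 76) (nat_lit 164322355) (nat_lit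 152) (nat_lit 14002655690) (nat_lit 44) (nat_lit 5) (nat_lit 45) (nat_lit 5) (nat_lit 46) (nat_lit 4) (nat_lit 437) (nat_lit 387) (nat_lit 376)) (XT.lf (nat_lit 0) (nat_lit 7568516552) (nat_lit 76) (nat_lit 8075261793) (nat_lit 76) (nat_lit 3453472123) (nat_lit 43) (nat_lit 4) (nat_lit 44) (nat_lit 5) (nat_lit 44) (nat_lit 4) (nat_lit 438) (nat_lit 387) (nat_lit 375))))) (XT.nd (nat_lit 312) (nat_lit 380) (nat_lit 0) (XT.nd (nat_lit 156) (nat_lit 304) (nat_lit 0) (XT.nd (nat_lit 78) (nat_lit 76) (nat_lit 0) (XT.lf (nat_lit 0) (nat_lit 7753702652) (nat_lit 152) (nat_lit 9139392328) (nat_lit 0) (nat_lit 3137231640) (nat_lit 41) (nat_lit 5) (nat_lit 43) (nat_lit 4) (nat_lit 41) (nat_lit 4) (nat_lit 439) (nat_lit 387) (nat_lit 374)) (XT.lf (nat_lit 0) (nat_lit 13961431097) (nat_lit 76) (nat_lit 5940426354) (nat_lit 76) (nat_lit 1125097411) (nat_lit 40) (nat_lit 4) (nat_lit 41) (nat_lit 5) (nat_lit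 41) (nat_lit 4) (nat_lit 440) (nat_lit 387) (nat_lit 373))) (XT.nd (nat_lit 78) (nat_lit 152) (nat_lit 0) (XT.lf (nat_lit 0) (nat_lit 10705260985) (nat_lit 152) (nat_lit 5438852520) (nat_lit 0) (nat_lit 5943873693) (nat_lit 38) (nat_lit 5) (nat_lit 40) (nat_lit 4) (nat_lit 38) (nat_lit 4) (nat_lit 441) (nat_lit 387) (nat_lit 372)) (XT.lf (nat_lit 0) (nat_lit 356989983) (nat_lit 152) (nat_lit 4191927944) (nat_lit 76) (nat_lit 18676201004) (nat_lit 36) (nat_lit 5) (nat_lit 38) (nat_lit 5) (nat_lit 37) (nat_lit 4) (nat_lit 442) (nat_lit 387) (nat_lit 371)))) (XT.nd (nat_lit 156) (nat_lit 152) (nat_lit 0) (XT.nd (nat_lit 78) (nat_lit 152) (nat_lit 0) (XT.lf (nat_lit 0) (nat_lit 12834459935) (nat_lit 152) (nat_lit 3597583733) (nat_lit 0) (nat_lit 8001983638) (nat_lit 35) (nat_lit 5) (nat_lit 37) (nat_lit 4) (nat_lit 35) (nat_lit 4) (nat_lit 443) (nat_lit 387) (nat_lit 370)) (XT.lf (nat_lit 0) (nat_lit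 702467393) (nat_lit 152) (nat_lit 3524995478) (nat_lit 76) (nat_lit 21504232012) (nat_lit 33) (nat_lit 5) (nat_lit 35) (nat_lit 5) (nat_lit 34) (nat_lit 4) (nat_lit 444) (nat_lit 387) (nat_lit 369))) (XT.nd (nat_lit 78) (nat_lit 76) (nat_lit 0) (XT.lf (nat_lit 0) (nat_lit 13814197545) (nat_lit 152) (nat_lit 4329214343) (nat_lit 0) (nat_lit 8968663802) (nat_lit 32) (nat_lit 5) (nat_lit 34) (nat_lit 4) (nat_lit 32) (nat_lit 4) (nat_lit 445) (nat_lit 387) (nat_lit 368)) (XT.lf (nat_lit 0) (nat_lit 22717975863) (nat_lit 76) (nat_lit 5415387376) (nat_lit 76) (nat_lit 461602491) (nat_lit 31) (nat_lit 4) (nat_lit 32) (nat_lit 5) (nat_lit 32) (nat_lit 4) (nat_lit 446) (nat_lit 387) (nat_lit 367))))))))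
noncomputable def xc26 : XT := (XT.nd (nat_lit 2262) (nat_lit 456) (nat_lit 0) (XT.nd (nat_lit 1092) (nat_lit 532) (nat_lit 0) (XT.nd (nat_lit 546) (nat_lit 608) (nat_lit 0) (XT.nd (nat_lit 234) (nat_lit 304) (nat_lit 0) (XT.nd (nat_lit 78) (nat_lit 228) (nat_lit 0) (XT.lf (nat_lit 0) (nat_lit 13203518195) (nat_lit 152) (nat_lit 8580798045) (nat_lit 0) (nat_lit 8390168268) (nat_lit 29) (nat_lit 5) (nat_lit 31) (nat_lit 4) (nat_lit 29) (nat_lit 4) (nat_lit 447) (nat_lit 387) (nat_lit 366)) (XT.nd (nat_lit 78) (nat_lit 152) (nat_lit 0) (XT.lf (nat_lit 0) (nat_lit 19496921932) (nat_lit 76) (nat_lit 8637679794) (nat_lit 76) (nat_lit 3735941385) (nat_lit 28) (nat_lit 4) (nat_lit 29) (nat_lit 5) (nat_lit 29) (nat_lit 4) (nat_lit 448) (nat_lit 387) (nat_lit 365)) (XT.lf (nat_lit 0) (nat_lit 10413672369) (nat_lit 152) (nat_lit 17603283391) (nat_lit 0) (nat_lit 5667406087) (nat_lit 26) (nat_lit 5) (nat_lit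 28) (nat_lit 4) (nat_lit 26) (nat_lit 4) (nat_lit 449) (nat_lit 387) (nat_lit 364)))) (XT.nd (nat_lit 156) (nat_lit 76) (nat_lit 0) (XT.nd (nat_lit 78) (nat_lit 152) (nat_lit 0) (XT.lf (nat_lit 0) (nat_lit 11177621644) (nat_lit 76) (nat_lit 14634330959) (nat_lit 76) (nat_lit 9815894318) (nat_lit 25) (nat_lit 4) (nat_lit 26) (nat_lit 5) (nat_lit 26) (nat_lit 4) (nat_lit 450) (nat_lit 387) (nat_lit 363)) (XT.lf (nat_lit 0) (nat_lit 4664151591) (nat_lit 152) (nat_lit 33042469097) (nat_lit 0) (nat_lit 11522022) (nat_lit 23) (nat_lit 5) (nat_lit 25) (nat_lit 4) (nat_lit 23) (nat_lit 4) (nat_lit 451) (nat_lit 387) (nat_lit 362))) (XT.nd (nat_lit 78) (nat_lit 76) (nat_lit 0) (XT.lf (nat_lit 0) (nat_lit 20366128286) (nat_lit 152) (nat_lit 3926547950) (nat_lit 0) (nat_lit 15654570669) (nat_lit 23) (nat_lit 5) (nat_lit 25) (nat_lit 4) (nat_lit 23) (nat_lit 4) (nat_lit 452) (nat_lit 387) (nat_lit 361))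 (XT.lf (nat_lit 0) (nat_lit 27895095948) (nat_lit 76) (nat_lit 9608372830) (nat_lit 76) (nat_lit 4842252205) (nat_lit 22) (nat_lit 4) (nat_lit 23) (nat_lit 5) (nat_lit 23) (nat_lit 4) (nat_lit 453) (nat_lit 387) (nat_lit 360))))) (XT.nd (nat_lit 234) (nat_lit 380) (nat_lit 0) (XT.nd (nat_lit 78) (nat_lit 76) (nat_lit 0) (XT.lf (nat_lit 0) (nat_lit 10914613408) (nat_lit 152) (nat_lit 27675810543) (nat_lit 0) (nat_lit 6327335381) (nat_lit 20) (nat_lit 5) (nat_lit 22) (nat_lit 4) (nat_lit 20) (nat_lit 4) (nat_lit 454) (nat_lit 387) (nat_lit 359)) (XT.nd (nat_lit 78) (nat_lit 0) (nat_lit 0) (XT.lf (nat_lit 0) (nat_lit 3684656748) (nat_lit 76) (nat_lit 24313488782) (nat_lit 76) (nat_lit 19681659341) (nat_lit 19) (nat_lit 4) (nat_lit 20) (nat_lit 5) (nat_lit 20) (nat_lit 4) (nat_lit 455) (nat_lit 387) (nat_lit 358)) (XT.lf (nat_lit 0) (nat_lit 38075018081) (nat_lit 76) (nat_lit 8624168395) (nat_lit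 76) (nat_lit 3951087646) (nat_lit 19) (nat_lit 4) (nat_lit 20) (nat_lit 5) (nat_lit 20) (nat_lit 4) (nat_lit 456) (nat_lit 387) (nat_lit 357)))) (XT.nd (nat_lit 156) (nat_lit 152) (nat_lit 0) (XT.nd (nat_lit 78) (nat_lit 76) (nat_lit 0) (XT.lf (nat_lit 0) (nat_lit 12872344412) (nat_lit 152) (nat_lit 32577859797) (nat_lit 0) (nat_lit 8385414501) (nat_lit 17) (nat_lit 5) (nat_lit 19) (nat_lit 4) (nat_lit 17) (nat_lit 4) (nat_lit 457) (nat_lit 387) (nat_lit 356)) (XT.lf (nat_lit 0) (nat_lit 349387732) (nat_lit 76) (nat_lit 30717790065) (nat_lit 76) (nat_lit 26197177918) (nat_lit 16) (nat_lit 4) (nat_lit 17) (nat_lit 5) (nat_lit 17) (nat_lit 4) (nat_lit 458) (nat_lit 387) (nat_lit 355))) (XT.nd (nat_lit 78) (nat_lit 152) (nat_lit 0) (XT.lf (nat_lit 0) (nat_lit 36664954255) (nat_lit 76) (nat_lit 14417985392) (nat_lit 76) (nat_lit 9866185988) (nat_lit 16) (nat_lit 4) (nat_lit 17) (nat_lit 5) (nat_lit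 17) (nat_lit 4) (nat_lit 459) (nat_lit 387) (nat_lit 354)) (XT.lf (nat_lit 0) (nat_lit 7552321991) (nat_lit 152) (nat_lit 54179028232) (nat_lit 0) (nat_lit 3189772951) (nat_lit 14) (nat_lit 5) (nat_lit 16) (nat_lit 4) (nat_lit 14) (nat_lit 4) (nat_lit 460) (nat_lit 387) (nat_lit 353)))))) (XT.nd (nat_lit 546) (nat_lit 228) (nat_lit 0) (XT.nd (nat_lit 234) (nat_lit 228) (nat_lit 0) (XT.nd (nat_lit 78) (nat_lit 76) (nat_lit 0) (XT.lf (nat_lit 0) (nat_lit 26511519129) (nat_lit 152) (nat_lit 20543126339) (nat_lit 0) (nat_lit 22123505283) (nat_lit 14) (nat_lit 5) (nat_lit 16) (nat_lit 4) (nat_lit 14) (nat_lit 4) (nat_lit 461) (nat_lit 387) (nat_lit 352)) (XT.nd (nat_lit 78) (nat_lit 0) (nat_lit 0) (XT.lf (nat_lit 0) (nat_lit 15947178399) (nat_lit 76) (nat_lit 31118131207) (nat_lit 76) (nat_lit 26706538838) (nat_lit 13) (nat_lit 4) (nat_lit 14) (nat_lit 5) (nat_lit 14) (nat_lit 4) (nat_lit 462) (nat_lit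 387) (nat_lit 351)) (XT.lf (nat_lit 0) (nat_lit 55758492248) (nat_lit 76) (nat_lit 13699131866) (nat_lit 76) (nat_lit 9265707531) (nat_lit 13) (nat_lit 4) (nat_lit 14) (nat_lit 5) (nat_lit 14) (nat_lit 4) (nat_lit 463) (nat_lit 387) (nat_lit 350)))) (XT.nd (nat_lit 156) (nat_lit 76) (nat_lit 0) (XT.nd (nat_lit 78) (nat_lit 0) (nat_lit 0) (XT.lf (nat_lit 0) (nat_lit 9423047052) (nat_lit 152) (nat_lit 69450981624) (nat_lit 0) (nat_lit 5181485987) (nat_lit 11) (nat_lit 5) (nat_lit 13) (nat_lit 4) (nat_lit 11) (nat_lit 4) (nat_lit 464) (nat_lit 387) (nat_lit 349)) (XT.lf (nat_lit 0) (nat_lit 29774585805) (nat_lit 152) (nat_lit 34492278168) (nat_lit 0) (nat_lit 25515198652) (nat_lit 11) (nat_lit 5) (nat_lit 13) (nat_lit 4) (nat_lit 11) (nat_lit 4) (nat_lit 465) (nat_lit 387) (nat_lit 348))) (XT.nd (nat_lit 78) (nat_lit 0) (nat_lit 0) (XT.lf (nat_lit 0) (nat_lit 3080472684) (nat_lit 76) (nat_lit 48583338455)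 (nat_lit 76) (nat_lit 44307445665) (nat_lit 10) (nat_lit 4) (nat_lit 11) (nat_lit 5) (nat_lit 11) (nat_lit 4) (nat_lit 466) (nat_lit 387) (nat_lit 347)) (XT.lf (nat_lit 0) (nat_lit 44621730976) (nat_lit 76) (nat_lit 31150806836) (nat_lit 76) (nat_lit 26859631049) (nat_lit 10) (nat_lit 4) (nat_lit 11) (nat_lit 5) (nat_lit 11) (nat_lit 4) (nat_lit 467) (nat_lit 387) (nat_lit 346))))) (XT.nd (nat_lit 312) (nat_lit 76) (nat_lit 0) (XT.nd (nat_lit 156) (nat_lit 0) (nat_lit 0) (XT.nd (nat_lit 78) (nat_lit 152) (nat_lit 0) (XT.lf (nat_lit 0) (nat_lit 89237196640) (nat_lit 76) (nat_lit 12450108647) (nat_lit 76) (nat_lit 8144781937) (nat_lit 10) (nat_lit 4) (nat_lit 11) (nat_lit 5) (nat_lit 11) (nat_lit 4) (nat_lit 468) (nat_lit 387) (nat_lit 345)) (XT.lf (nat_lit 0) (nat_lit 12005656695) (nat_lit 152) (nat_lit 97683824364) (nat_lit 0) (nat_lit 7892866775) (nat_lit 8) (nat_lit 5) (nat_lit 10) (nat_lit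 4) (nat_lit 8) (nat_lit 4) (nat_lit 469) (nat_lit 387) (nat_lit 344))) (XT.nd (nat_lit 78) (nat_lit 0) (nat_lit 0) (XT.lf (nat_lit 0) (nat_lit 33948991497) (nat_lit 152) (nat_lit 62149004244) (nat_lit 0) (nat_lit 29824647161) (nat_lit 8) (nat_lit 5) (nat_lit 10) (nat_lit 4) (nat_lit 8) (nat_lit 4) (nat_lit 470) (nat_lit 387) (nat_lit 343)) (XT.lf (nat_lit 0) (nat_lit 57543938685) (nat_lit 152) (nat_lit 23982520150) (nat_lit 0) (nat_lit 53408895817) (nat_lit 8) (nat_lit 5) (nat_lit 10) (nat_lit 4) (nat_lit 8) (nat_lit 4) (nat_lit 471) (nat_lit 387) (nat_lit 342)))) (XT.nd (nat_lit 156) (nat_lit 0) (nat_lit 0) (XT.nd (nat_lit 78) (nat_lit 0) (nat_lit 0) (XT.lf (nat_lit 0) (nat_lit 17605278535) (nat_lit 76) (nat_lit 65599909371) (nat_lit 76) (nat_lit 61454960455) (nat_lit 7) (nat_lit 4) (nat_lit 8) (nat_lit 5) (nat_lit 8) (nat_lit 4) (nat_lit 472) (nat_lit 387) (nat_lit 341)) (XT.lf (nat_lit 0)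 (nat_lit 63189521631) (nat_lit 76) (nat_lit 48055617658) (nat_lit 76) (nat_lit 43901496475) (nat_lit 7) (nat_lit 4) (nat_lit 8) (nat_lit 5) (nat_lit 8) (nat_lit 4) (nat_lit 473) (nat_lit 387) (nat_lit 340))) (XT.nd (nat_lit 78) (nat_lit 0) (nat_lit 0) (XT.lf (nat_lit 0) (nat_lit 112247367559) (nat_lit 76) (nat_lit 29195773106) (nat_lit 76) (nat_lit 25033159083) (nat_lit 7) (nat_lit 4) (nat_lit 8) (nat_lit 5) (nat_lit 8) (nat_lit 4) (nat_lit 474) (nat_lit 387) (nat_lit 339)) (XT.lf (nat_lit 0) (nat_lit 165069529482) (nat_lit 76) (nat_lit 8908613673) (nat_lit 76) (nat_lit 4738135909) (nat_lit 7) (nat_lit 4) (nat_lit 8) (nat_lit 5) (nat_lit 8) (nat_lit 4) (nat_lit 475) (nat_lit 387) (nat_lit 338))))))) (XT.nd (nat_lit 1170) (nat_lit 76) (nat_lit 0) (XT.nd (nat_lit 546) (nat_lit 152) (nat_lit 0) (XT.nd (nat_lit 234) (nat_lit 76) (nat_lit 0) (XT.nd (nat_lit 78) (nat_lit 0) (nat_lit 0) (XT.lf (nat_lit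 0) (nat_lit 17250516288) (nat_lit 152) (nat_lit 161368835198) (nat_lit 0) (nat_lit 13271698187) (nat_lit 5) (nat_lit 5) (nat_lit 7) (nat_lit 4) (nat_lit 5) (nat_lit 4) (nat_lit 476) (nat_lit 387) (nat_lit 337)) (XT.nd (nat_lit 78) (nat_lit 0) (nat_lit 0) (XT.lf (nat_lit 0) (nat_lit 41154209703) (nat_lit 152) (nat_lit 127776640457) (nat_lit 0) (nat_lit 37168970755) (nat_lit 5) (nat_lit 5) (nat_lit 7) (nat_lit 4) (nat_lit 5) (nat_lit 4) (nat_lit 477) (nat_lit 387) (nat_lit 336)) (XT.lf (nat_lit 0) (nat_lit 66903440160) (nat_lit 152) (nat_lit 91632935836) (nat_lit 0) (nat_lit 62912255982) (nat_lit 5) (nat_lit 5) (nat_lit 7) (nat_lit 4) (nat_lit 5) (nat_lit 4) (nat_lit 478) (nat_lit 387) (nat_lit 335)))) (XT.nd (nat_lit 156) (nat_lit 76) (nat_lit 0) (XT.nd (nat_lit 78) (nat_lit 0) (nat_lit 0) (XT.lf (nat_lit 0) (nat_lit 94650795691) (nat_lit 152) (nat_lit 52723536416) (nat_lit 0) (nat_lit 90654106671)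 (nat_lit 5) (nat_lit 5) (nat_lit 7) (nat_lit 4) (nat_lit 5) (nat_lit 4) (nat_lit 479) (nat_lit 387) (nat_lit 334)) (XT.lf (nat_lit 0) (nat_lit 124560705068) (nat_lit 152) (nat_lit 10817867981) (nat_lit 0) (nat_lit 120558918973) (nat_lit 5) (nat_lit 5) (nat_lit 7) (nat_lit 4) (nat_lit 5) (nat_lit 4) (nat_lit 480) (nat_lit 387) (nat_lit 333))) (XT.nd (nat_lit 78) (nat_lit 0) (nat_lit 0) (XT.lf (nat_lit 0) (nat_lit 35467583528) (nat_lit 76) (nat_lit 121896577049) (nat_lit 76) (nat_lit 117890071438) (nat_lit 4) (nat_lit 4) (nat_lit 5) (nat_lit 5) (nat_lit 5) (nat_lit 4) (nat_lit 481) (nat_lit 387) (nat_lit 332)) (XT.lf (nat_lit 0) (nat_lit 85739006392) (nat_lit 76) (nat_lit 107190646244) (nat_lit 76) (nat_lit 103179770712) (nat_lit 4) (nat_lit 4) (nat_lit 5) (nat_lit 5) (nat_lit 5) (nat_lit 4) (nat_lit 482) (nat_lit 387) (nat_lit 331))))) (XT.nd (nat_lit 312) (nat_lit 152) (nat_lit 0) (XT.nd (nat_lit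 156) (nat_lit 0) (nat_lit 0) (XT.nd (nat_lit 78) (nat_lit 0) (nat_lit 0) (XT.lf (nat_lit 0) (nat_lit 139936617767) (nat_lit 76) (nat_lit 91356840207) (nat_lit 76) (nat_lit 87341918452) (nat_lit 4) (nat_lit 4) (nat_lit 5) (nat_lit 5) (nat_lit 5) (nat_lit 4) (nat_lit 483) (nat_lit 387) (nat_lit 330)) (XT.lf (nat_lit 0) (nat_lit 198381588684) (nat_lit 76) (nat_lit 74301328978) (nat_lit 76) (nat_lit 70282660720) (nat_lit 4) (nat_lit 4) (nat_lit 5) (nat_lit 5) (nat_lit 5) (nat_lit 4) (nat_lit 484) (nat_lit 387) (nat_lit 329))) (XT.nd (nat_lit 78) (nat_lit 0) (nat_lit 0) (XT.lf (nat_lit 0) (nat_lit 261420259710) (nat_lit 76) (nat_lit 55923042860) (nat_lit 76) (nat_lit 51900905618) (nat_lit 4) (nat_lit 4) (nat_lit 5) (nat_lit 5) (nat_lit 5) (nat_lit 4) (nat_lit 485) (nat_lit 387) (nat_lit 328)) (XT.lf (nat_lit 0) (nat_lit 329426193342) (nat_lit 76) (nat_lit 36113073490) (nat_lit 76) (nat_lit 32087724225)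 (nat_lit 4) (nat_lit 4) (nat_lit 5) (nat_lit 5) (nat_lit 5) (nat_lit 4) (nat_lit 486) (nat_lit 387) (nat_lit 327)))) (XT.nd (nat_lit 156) (nat_lit 0) (nat_lit 0) (XT.nd (nat_lit 78) (nat_lit 152) (nat_lit 0) (XT.lf (nat_lit 0) (nat_lit 402802387703) (nat_lit 76) (nat_lit 14754028458) (nat_lit 76) (nat_lit 10725705098) (nat_lit 4) (nat_lit 4) (nat_lit 5) (nat_lit 5) (nat_lit 5) (nat_lit 4) (nat_lit 487) (nat_lit 387) (nat_lit 326)) (XT.lf (nat_lit 0) (nat_lit 12384553690) (nat_lit 152) (nat_lit 440428318260) (nat_lit 0) (nat_lit 8545432594) (nat_lit 2) (nat_lit 5) (nat_lit 4) (nat_lit 4) (nat_lit 2) (nat_lit 4) (nat_lit 488) (nat_lit 387) (nat_lit 325))) (XT.nd (nat_lit 78) (nat_lit 0) (nat_lit 0) (XT.lf (nat_lit 0) (nat_lit 37641231452) (nat_lit 152) (nat_lit 425597208857) (nat_lit 0) (nat_lit 33799681968) (nat_lit 2) (nat_lit 5) (nat_lit 4) (nat_lit 4) (nat_lit 2) (nat_lit 4) (nat_lit 489)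 (nat_lit 387) (nat_lit 324)) (XT.lf (nat_lit 0) (nat_lit 64889234652) (nat_lit 152) (nat_lit 409639114630) (nat_lit 0) (nat_lit 61045436661) (nat_lit 2) (nat_lit 5) (nat_lit 4) (nat_lit 4) (nat_lit 2) (nat_lit 4) (nat_lit 490) (nat_lit 387) (nat_lit 323)))))) (XT.nd (nat_lit 546) (nat_lit 76) (nat_lit 0) (XT.nd (nat_lit 234) (nat_lit 0) (nat_lit 0) (XT.nd (nat_lit 78) (nat_lit 0) (nat_lit 0) (XT.lf (nat_lit 0) (nat_lit 94290032938) (nat_lit 152) (nat_lit 392459469096) (nat_lit 0) (nat_lit 90444152996) (nat_lit 2) (nat_lit 5) (nat_lit 4) (nat_lit 4) (nat_lit 2) (nat_lit 4) (nat_lit 491) (nat_lit 387) (nat_lit 322)) (XT.nd (nat_lit 78) (nat_lit 0) (nat_lit 0) (XT.lf (nat_lit 0) (nat_lit 126017853263) (nat_lit 152) (nat_lit 373956466947) (nat_lit 0) (nat_lit 122170045589) (nat_lit 2) (nat_lit 5) (nat_lit 4) (nat_lit 4) (nat_lit 2) (nat_lit 4) (nat_lit 492) (nat_lit 387) (nat_lit 321)) (XT.lf (nat_lit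 0) (nat_lit 160260712340) (nat_lit 152) (nat_lit 354020460764) (nat_lit 0) (nat_lit 156411119729) (nat_lit 2) (nat_lit 5) (nat_lit 4) (nat_lit 4) (nat_lit 2) (nat_lit 4) (nat_lit 493) (nat_lit 387) (nat_lit 320)))) (XT.nd (nat_lit 156) (nat_lit 0) (nat_lit 0) (XT.nd (nat_lit 78) (nat_lit 0) (nat_lit 0) (XT.lf (nat_lit 0) (nat_lit 197221530816) (nat_lit 152) (nat_lit 332533311251) (nat_lit 0) (nat_lit 193370285485) (nat_lit 2) (nat_lit 5) (nat_lit 4) (nat_lit 4) (nat_lit 2) (nat_lit 4) (nat_lit 494) (nat_lit 387) (nat_lit 319)) (XT.lf (nat_lit 0) (nat_lit 237119335764) (nat_lit 152) (nat_lit 309367687151) (nat_lit 0) (nat_lit 233266560136) (nat_lit 2) (nat_lit 5) (nat_lit 4) (nat_lit 4) (nat_lit 2) (nat_lit 4) (nat_lit 495) (nat_lit 387) (nat_lit 318))) (XT.nd (nat_lit 78) (nat_lit 0) (nat_lit 0) (XT.lf (nat_lit 0) (nat_lit 280190558618) (nat_lit 152) (nat_lit 284386310692) (nat_lit 0) (nat_lit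 276336366050) (nat_lit 2) (nat_lit 5) (nat_lit 4) (nat_lit 4) (nat_lit 2) (nat_lit 4) (nat_lit 496) (nat_lit 387) (nat_lit 317)) (XT.lf (nat_lit 0) (nat_lit 326690436257) (nat_lit 152) (nat_lit 257441144087) (nat_lit 0) (nat_lit 322834931707) (nat_lit 2) (nat_lit 5) (nat_lit 4) (nat_lit 4) (nat_lit 2) (nat_lit 4) (nat_lit 497) (nat_lit 387) (nat_lit 316))))) (XT.nd (nat_lit 312) (nat_lit 76) (nat_lit 0) (XT.nd (nat_lit 156) (nat_lit 0) (nat_lit 0) (XT.nd (nat_lit 78) (nat_lit 0) (nat_lit 0) (XT.lf (nat_lit 0) (nat_lit 376894523511) (nat_lit 152) (nat_lit 228372512275) (nat_lit 0) (nat_lit 373037804162) (nat_lit 2) (nat_lit 5) (nat_lit 4) (nat_lit 4) (nat_lit 2) (nat_lit 4) (nat_lit 498) (nat_lit 387) (nat_lit 315)) (XT.lf (nat_lit 0) (nat_lit 431100326081) (nat_lit 152) (nat_lit 197008156698) (nat_lit 0) (nat_lit 427242481918) (nat_lit 2) (nat_lit 5) (nat_lit 4) (nat_lit 4) (nat_lit 2) (nat_lit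 4) (nat_lit 499) (nat_lit 387) (nat_lit 314))) (XT.nd (nat_lit 78) (nat_lit 0) (nat_lit 0) (XT.lf (nat_lit 0) (nat_lit 489629063538) (nat_lit 152) (nat_lit 163162214506) (nat_lit 0) (nat_lit 485770177882) (nat_lit 2) (nat_lit 5) (nat_lit 4) (nat_lit 4) (nat_lit 2) (nat_lit 4) (nat_lit 500) (nat_lit 387) (nat_lit 313)) (XT.lf (nat_lit 0) (nat_lit 552827572846) (nat_lit 152) (nat_lit 126634117155) (nat_lit 0) (nat_lit 548967722843) (nat_lit 2) (nat_lit 5) (nat_lit 4) (nat_lit 4) (nat_lit 2) (nat_lit 4) (nat_lit 501) (nat_lit 387) (nat_lit 312)))) (XT.nd (nat_lit 156) (nat_lit 76) (nat_lit 0) (XT.nd (nat_lit 78) (nat_lit 0) (nat_lit 0) (XT.lf (nat_lit 0) (nat_lit 621070363688) (nat_lit 152) (nat_lit 87207401844) (nat_lit 0) (nat_lit 617209620773) (nat_lit 2) (nat_lit 5) (nat_lit 4) (nat_lit 4) (nat_lit 2) (nat_lit 4) (nat_lit 502) (nat_lit 387) (nat_lit 311)) (XT.lf (nat_lit 0) (nat_lit 694761837789)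 (nat_lit 152) (nat_lit 44648428780) (nat_lit 0) (nat_lit 690900268102) (nat_lit 2) (nat_lit 5) (nat_lit 4) (nat_lit 4) (nat_lit 2) (nat_lit 4) (nat_lit 503) (nat_lit 387) (nat_lit 310))) (XT.nd (nat_lit 56238) (nat_lit 0) (nat_lit 5852) (XT.lf (nat_lit 0) (nat_lit 1337822018) (nat_lit 76) (nat_lit 773021750498) (nat_lit 76) (nat_lit 769159415282) (nat_lit 1) (nat_lit 4) (nat_lit 2) (nat_lit 5) (nat_lit 2) (nat_lit 4) (nat_lit 504) (nat_lit 387) (nat_lit 309)) (XT.lf (nat_lit 0) (nat_lit 2113783039) (nat_lit 228) (nat_lit 1138467001) (nat_lit 0) (nat_lit 2113783039) (nat_lit 78) (nat_lit 5) (nat_lit 81) (nat_lit 4) (nat_lit 78) (nat_lit 4) (nat_lit 424) (nat_lit 388) (nat_lit 388))))))))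
noncomputable def xc27 : XT := (XT.nd (nat_lit 2340) (nat_lit 1368) (nat_lit 0) (XT.nd (nat_lit 1170) (nat_lit 1444) (nat_lit 0) (XT.nd (nat_lit 546) (nat_lit 1216) (nat_lit 0) (XT.nd (nat_lit 234) (nat_lit 760) (nat_lit 0) (XT.nd (nat_lit 78) (nat_lit 456) (nat_lit 0) (XT.lf (nat_lit 0) (nat_lit 1666260454) (nat_lit 228) (nat_lit 8696880888) (nat_lit 0) (nat_lit 760154083) (nat_lit 73) (nat_lit 5) (nat_lit 76) (nat_lit 4) (nat_lit 73) (nat_lit 4) (nat_lit 425) (nat_lit 388) (nat_lit 387)) (XT.nd (nat_lit 78) (nat_lit 304) (nat_lit 0) (XT.lf (nat_lit 0) (nat_lit 7280769863) (nat_lit 152) (nat_lit 3001924268) (nat_lit 152) (nat_lit 1256830516) (nat_lit 71) (nat_lit 4) (nat_lit 73) (nat_lit 5) (nat_lit 73) (nat_lit 4) (nat_lit 426) (nat_lit 388) (nat_lit 386)) (XT.lf (nat_lit 0) (nat_lit 257329316) (nat_lit 152) (nat_lit 7064682319) (nat_lit 152) (nat_lit 4662840490) (nat_lit 67) (nat_lit 4) (nat_lit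 69) (nat_lit 5) (nat_lit 69) (nat_lit 4) (nat_lit 427) (nat_lit 388) (nat_lit 385)))) (XT.nd (nat_lit 156) (nat_lit 380) (nat_lit 0) (XT.nd (nat_lit 78) (nat_lit 228) (nat_lit 0) (XT.lf (nat_lit 0) (nat_lit 3985727521) (nat_lit 152) (nat_lit 7428154785) (nat_lit 0) (nat_lit 1045836027) (nat_lit 65) (nat_lit 5) (nat_lit 67) (nat_lit 4) (nat_lit 65) (nat_lit 4) (nat_lit 428) (nat_lit 388) (nat_lit 384)) (XT.lf (nat_lit 0) (nat_lit 220357143) (nat_lit 228) (nat_lit 3092254799) (nat_lit 76) (nat_lit 9654382534) (nat_lit 62) (nat_lit 5) (nat_lit 65) (nat_lit 5) (nat_lit 63) (nat_lit 4) (nat_lit 429) (nat_lit 388) (nat_lit 383))) (XT.nd (nat_lit 78) (nat_lit 152) (nat_lit 0) (XT.lf (nat_lit 0) (nat_lit 1288182887) (nat_lit 152) (nat_lit 8062896876) (nat_lit 152) (nat_lit 4154959180) (nat_lit 59) (nat_lit 4) (nat_lit 61) (nat_lit 5) (nat_lit 61) (nat_lit 4) (nat_lit 430) (nat_lit 388) (nat_lit 382))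 (XT.lf (nat_lit 0) (nat_lit 5020624347) (nat_lit 152) (nat_lit 8231554446) (nat_lit 0) (nat_lit 829015221) (nat_lit 57) (nat_lit 5) (nat_lit 59) (nat_lit 4) (nat_lit 57) (nat_lit 4) (nat_lit 431) (nat_lit 388) (nat_lit 381))))) (XT.nd (nat_lit 312) (nat_lit 608) (nat_lit 0) (XT.nd (nat_lit 156) (nat_lit 304) (nat_lit 0) (XT.nd (nat_lit 78) (nat_lit 76) (nat_lit 0) (XT.lf (nat_lit 0) (nat_lit 174159680) (nat_lit 228) (nat_lit 4269548170) (nat_lit 76) (nat_lit 10250636165) (nat_lit 54) (nat_lit 5) (nat_lit 57) (nat_lit 5) (nat_lit 55) (nat_lit 4) (nat_lit 432) (nat_lit 388) (nat_lit 380)) (XT.lf (nat_lit 0) (nat_lit 9883184150) (nat_lit 152) (nat_lit 369946752) (nat_lit 0) (nat_lit 5093353510) (nat_lit 53) (nat_lit 5) (nat_lit 55) (nat_lit 4) (nat_lit 53) (nat_lit 4) (nat_lit 433) (nat_lit 388) (nat_lit 379))) (XT.nd (nat_lit 78) (nat_lit 76) (nat_lit 0) (XT.lf (nat_lit 0) (nat_lit 3658843766)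 (nat_lit 76) (nat_lit 635707545) (nat_lit 152) (nat_lit 11747153944) (nat_lit 50) (nat_lit 5) (nat_lit 51) (nat_lit 5) (nat_lit 52) (nat_lit 4) (nat_lit 434) (nat_lit 388) (nat_lit 378)) (XT.lf (nat_lit 0) (nat_lit 7593530478) (nat_lit 76) (nat_lit 7200061416) (nat_lit 76) (nat_lit 1986885827) (nat_lit 49) (nat_lit 4) (nat_lit 50) (nat_lit 5) (nat_lit 50) (nat_lit 4) (nat_lit 435) (nat_lit 388) (nat_lit 377)))) (XT.nd (nat_lit 156) (nat_lit 304) (nat_lit 0) (XT.nd (nat_lit 78) (nat_lit 152) (nat_lit 0) (XT.lf (nat_lit 0) (nat_lit 8345582276) (nat_lit 152) (nat_lit 6118370085) (nat_lit 0) (nat_lit 3104472790) (nat_lit 47) (nat_lit 5) (nat_lit 49) (nat_lit 4) (nat_lit 47) (nat_lit 4) (nat_lit 436) (nat_lit 388) (nat_lit 376)) (XT.lf (nat_lit 0) (nat_lit 1127935360) (nat_lit 152) (nat_lit 3184564546) (nat_lit 76) (nat_lit 14097332083) (nat_lit 45) (nat_lit 5) (nat_lit 47) (nat_lit 5) (nat_lit 46)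 (nat_lit 4) (nat_lit 437) (nat_lit 388) (nat_lit 375))) (XT.nd (nat_lit 78) (nat_lit 228) (nat_lit 0) (XT.lf (nat_lit 0) (nat_lit 12128247554) (nat_lit 152) (nat_lit 507857369) (nat_lit 0) (nat_lit 6667664533) (nat_lit 44) (nat_lit 5) (nat_lit 46) (nat_lit 4) (nat_lit 44) (nat_lit 4) (nat_lit 438) (nat_lit 388) (nat_lit 374)) (XT.lf (nat_lit 0) (nat_lit 2063367103) (nat_lit 76) (nat_lit 1708706531) (nat_lit 152) (nat_lit 16486616159) (nat_lit 41) (nat_lit 5) (nat_lit 42) (nat_lit 5) (nat_lit 43) (nat_lit 4) (nat_lit 439) (nat_lit 388) (nat_lit 373)))))) (XT.nd (nat_lit 546) (nat_lit 684) (nat_lit 0) (XT.nd (nat_lit 234) (nat_lit 456) (nat_lit 0) (XT.nd (nat_lit 78) (nat_lit 228) (nat_lit 0) (XT.lf (nat_lit 0) (nat_lit 4276955741) (nat_lit 76) (nat_lit 11289790144) (nat_lit 76) (nat_lit 5706249241) (nat_lit 40) (nat_lit 4) (nat_lit 41) (nat_lit 5) (nat_lit 41) (nat_lit 4) (nat_lit 440) (nat_lit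 388) (nat_lit 372)) (XT.nd (nat_lit 78) (nat_lit 76) (nat_lit 0) (XT.lf (nat_lit 0) (nat_lit 5845827749) (nat_lit 152) (nat_lit 16147224274) (nat_lit 0) (nat_lit 365799628) (nat_lit 38) (nat_lit 5) (nat_lit 40) (nat_lit 4) (nat_lit 38) (nat_lit 4) (nat_lit 441) (nat_lit 388) (nat_lit 371)) (XT.lf (nat_lit 0) (nat_lit 7639015835) (nat_lit 76) (nat_lit 10752398175) (nat_lit 76) (nat_lit 5122027352) (nat_lit 37) (nat_lit 4) (nat_lit 38) (nat_lit 5) (nat_lit 38) (nat_lit 4) (nat_lit 442) (nat_lit 388) (nat_lit 370)))) (XT.nd (nat_lit 156) (nat_lit 228) (nat_lit 0) (XT.nd (nat_lit 78) (nat_lit 76) (nat_lit 0) (XT.lf (nat_lit 0) (nat_lit 7062746265) (nat_lit 152) (nat_lit 16118524727) (nat_lit 0) (nat_lit 1567911000) (nat_lit 35) (nat_lit 5) (nat_lit 37) (nat_lit 4) (nat_lit 35) (nat_lit 4) (nat_lit 443) (nat_lit 388) (nat_lit 369)) (XT.lf (nat_lit 0) (nat_lit 8963850622) (nat_lit 76) (nat_lit 11359648317)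 (nat_lit 76) (nat_lit 5742056258) (nat_lit 34) (nat_lit 4) (nat_lit 35) (nat_lit 5) (nat_lit 35) (nat_lit 4) (nat_lit 444) (nat_lit 388) (nat_lit 368))) (XT.nd (nat_lit 78) (nat_lit 76) (nat_lit 0) (XT.lf (nat_lit 0) (nat_lit 7060933802) (nat_lit 152) (nat_lit 18811517527) (nat_lit 0) (nat_lit 1602594985) (nat_lit 32) (nat_lit 5) (nat_lit 34) (nat_lit 4) (nat_lit 32) (nat_lit 4) (nat_lit 445) (nat_lit 388) (nat_lit 367)) (XT.lf (nat_lit 0) (nat_lit 7454105433) (nat_lit 76) (nat_lit 13540831021) (nat_lit 76) (nat_lit 7982259665) (nat_lit 31) (nat_lit 4) (nat_lit 32) (nat_lit 5) (nat_lit 32) (nat_lit 4) (nat_lit 446) (nat_lit 388) (nat_lit 366))))) (XT.nd (nat_lit 312) (nat_lit 304) (nat_lit 0) (XT.nd (nat_lit 156) (nat_lit 152) (nat_lit 0) (XT.nd (nat_lit 78) (nat_lit 76) (nat_lit 0) (XT.lf (nat_lit 0) (nat_lit 5390667859) (nat_lit 152) (nat_lit 25190162551) (nat_lit 0) (nat_lit 8401894) (nat_lit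 29) (nat_lit 5) (nat_lit 31) (nat_lit 4) (nat_lit 29) (nat_lit 4) (nat_lit 447) (nat_lit 388) (nat_lit 365)) (XT.lf (nat_lit 0) (nat_lit 2051891586) (nat_lit 76) (nat_lit 17859024770) (nat_lit 76) (nat_lit 12394917619) (nat_lit 28) (nat_lit 4) (nat_lit 29) (nat_lit 5) (nat_lit 29) (nat_lit 4) (nat_lit 448) (nat_lit 388) (nat_lit 364))) (XT.nd (nat_lit 78) (nat_lit 76) (nat_lit 0) (XT.lf (nat_lit 0) (nat_lit 1553333781) (nat_lit 152) (nat_lit 2355551775) (nat_lit 76) (nat_lit 30241453044) (nat_lit 27) (nat_lit 5) (nat_lit 29) (nat_lit 5) (nat_lit 28) (nat_lit 4) (nat_lit 449) (nat_lit 388) (nat_lit 363)) (XT.lf (nat_lit 0) (nat_lit 16546847541) (nat_lit 152) (nat_lit 8363274332) (nat_lit 0) (nat_lit 11203941203) (nat_lit 26) (nat_lit 5) (nat_lit 28) (nat_lit 4) (nat_lit 26) (nat_lit 4) (nat_lit 450) (nat_lit 388) (nat_lit 362)))) (XT.nd (nat_lit 156) (nat_lit 76) (nat_lit 0) (XT.nd (nat_lit 78)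 (nat_lit 152) (nat_lit 0) (XT.lf (nat_lit 0) (nat_lit 22257342193) (nat_lit 76) (nat_lit 10686073749) (nat_lit 76) (nat_lit 5281292960) (nat_lit 25) (nat_lit 4) (nat_lit 26) (nat_lit 5) (nat_lit 26) (nat_lit 4) (nat_lit 451) (nat_lit 388) (nat_lit 361)) (XT.lf (nat_lit 0) (nat_lit 10037890074) (nat_lit 152) (nat_lit 25611721301) (nat_lit 0) (nat_lit 4835916792) (nat_lit 23) (nat_lit 5) (nat_lit 25) (nat_lit 4) (nat_lit 23) (nat_lit 4) (nat_lit 452) (nat_lit 388) (nat_lit 360))) (XT.nd (nat_lit 78) (nat_lit 0) (nat_lit 0) (XT.lf (nat_lit 0) (nat_lit 5255447696) (nat_lit 76) (nat_lit 21452214190) (nat_lit 76) (nat_lit 16199719605) (nat_lit 22) (nat_lit 4) (nat_lit 23) (nat_lit 5) (nat_lit 23) (nat_lit 4) (nat_lit 453) (nat_lit 388) (nat_lit 359)) (XT.lf (nat_lit 0) (nat_lit 39049236257) (nat_lit 76) (nat_lit 5881029716) (nat_lit 76) (nat_lit 581756147) (nat_lit 22) (nat_lit 4) (nat_lit 23) (nat_lit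 5) (nat_lit 23) (nat_lit 4) (nat_lit 454) (nat_lit 388) (nat_lit 358))))))) (XT.nd (nat_lit 1170) (nat_lit 456) (nat_lit 0) (XT.nd (nat_lit 546) (nat_lit 304) (nat_lit 0) (XT.nd (nat_lit 234) (nat_lit 380) (nat_lit 0) (XT.nd (nat_lit 78) (nat_lit 76) (nat_lit 0) (XT.lf (nat_lit 0) (nat_lit 16157421696) (nat_lit 152) (nat_lit 21066006298) (nat_lit 0) (nat_lit 11069243178) (nat_lit 20) (nat_lit 5) (nat_lit 22) (nat_lit 4) (nat_lit 20) (nat_lit 4) (nat_lit 455) (nat_lit 388) (nat_lit 357)) (XT.nd (nat_lit 78) (nat_lit 0) (nat_lit 0) (XT.lf (nat_lit 0) (nat_lit 12419823779) (nat_lit 76) (nat_lit 21995913842) (nat_lit 76) (nat_lit 16869539668) (nat_lit 19) (nat_lit 4) (nat_lit 20) (nat_lit 5) (nat_lit 20) (nat_lit 4) (nat_lit 456) (nat_lit 388) (nat_lit 356)) (XT.lf (nat_lit 0) (nat_lit 48936199611) (nat_lit 76) (nat_lit 5367199977) (nat_lit 76) (nat_lit 205459453) (nat_lit 19) (nat_lit 4) (nat_lit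 20) (nat_lit 5) (nat_lit 20) (nat_lit 4) (nat_lit 457) (nat_lit 388) (nat_lit 355)))) (XT.nd (nat_lit 156) (nat_lit 152) (nat_lit 0) (XT.nd (nat_lit 78) (nat_lit 76) (nat_lit 0) (XT.lf (nat_lit 0) (nat_lit 17721230073) (nat_lit 152) (nat_lit 27456163397) (nat_lit 0) (nat_lit 12774099461) (nat_lit 17) (nat_lit 5) (nat_lit 19) (nat_lit 4) (nat_lit 17) (nat_lit 4) (nat_lit 458) (nat_lit 388) (nat_lit 354)) (XT.lf (nat_lit 0) (nat_lit 7769417723) (nat_lit 76) (nat_lit 29434747318) (nat_lit 76) (nat_lit 24458739617) (nat_lit 16) (nat_lit 4) (nat_lit 17) (nat_lit 5) (nat_lit 17) (nat_lit 4) (nat_lit 459) (nat_lit 388) (nat_lit 353))) (XT.nd (nat_lit 78) (nat_lit 152) (nat_lit 0) (XT.lf (nat_lit 0) (nat_lit 46442668163) (nat_lit 76) (nat_lit 12108029823) (nat_lit 76) (nat_lit 7105284076) (nat_lit 16) (nat_lit 4) (nat_lit 17) (nat_lit 5) (nat_lit 17) (nat_lit 4) (nat_lit 460) (nat_lit 388) (nat_lit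 352)) (XT.lf (nat_lit 0) (nat_lit 11495043417) (nat_lit 152) (nat_lit 51745882291) (nat_lit 0) (nat_lit 6706945135) (nat_lit 14) (nat_lit 5) (nat_lit 16) (nat_lit 4) (nat_lit 14) (nat_lit 4) (nat_lit 461) (nat_lit 388) (nat_lit 351))))) (XT.nd (nat_lit 312) (nat_lit 76) (nat_lit 0) (XT.nd (nat_lit 156) (nat_lit 152) (nat_lit 0) (XT.nd (nat_lit 78) (nat_lit 76) (nat_lit 0) (XT.lf (nat_lit 0) (nat_lit 31723677388) (nat_lit 152) (nat_lit 15920402187) (nat_lit 0) (nat_lit 26913747139) (nat_lit 14) (nat_lit 5) (nat_lit 16) (nat_lit 4) (nat_lit 14) (nat_lit 4) (nat_lit 462) (nat_lit 388) (nat_lit 350)) (XT.lf (nat_lit 0) (nat_lit 23216806633) (nat_lit 76) (nat_lit 30569564830) (nat_lit 76) (nat_lit 25739419798) (nat_lit 13) (nat_lit 4) (nat_lit 14) (nat_lit 5) (nat_lit 14) (nat_lit 4) (nat_lit 463) (nat_lit 388) (nat_lit 349))) (XT.nd (nat_lit 78) (nat_lit 152) (nat_lit 0) (XT.lf (nat_lit 0) (nat_lit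 65769036407) (nat_lit 76) (nat_lit 11982083829) (nat_lit 76) (nat_lit 7133221405) (nat_lit 13) (nat_lit 4) (nat_lit 14) (nat_lit 5) (nat_lit 14) (nat_lit 4) (nat_lit 464) (nat_lit 388) (nat_lit 348)) (XT.lf (nat_lit 0) (nat_lit 12879583810) (nat_lit 152) (nat_lit 69520112635) (nat_lit 0) (nat_lit 8245113961) (nat_lit 11) (nat_lit 5) (nat_lit 13) (nat_lit 4) (nat_lit 11) (nat_lit 4) (nat_lit 465) (nat_lit 388) (nat_lit 347)))) (XT.nd (nat_lit 156) (nat_lit 0) (nat_lit 0) (XT.nd (nat_lit 78) (nat_lit 76) (nat_lit 0) (XT.lf (nat_lit 0) (nat_lit 34659046183) (nat_lit 152) (nat_lit 32171153459) (nat_lit 0) (nat_lit 30009293336) (nat_lit 11) (nat_lit 5) (nat_lit 13) (nat_lit 4) (nat_lit 11) (nat_lit 4) (nat_lit 466) (nat_lit 388) (nat_lit 346)) (XT.lf (nat_lit 0) (nat_lit 8186624820) (nat_lit 76) (nat_lit 50003288593) (nat_lit 76) (nat_lit 45339384823) (nat_lit 10) (nat_lit 4) (nat_lit 11) (nat_lit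 5) (nat_lit 11) (nat_lit 4) (nat_lit 467) (nat_lit 388) (nat_lit 345))) (XT.nd (nat_lit 78) (nat_lit 0) (nat_lit 0) (XT.lf (nat_lit 0) (nat_lit 52691204937) (nat_lit 76) (nat_lit 31358874218) (nat_lit 76) (nat_lit 26681867741) (nat_lit 10) (nat_lit 4) (nat_lit 11) (nat_lit 5) (nat_lit 11) (nat_lit 4) (nat_lit 468) (nat_lit 388) (nat_lit 344)) (XT.lf (nat_lit 0) (nat_lit 100542594114) (nat_lit 76) (nat_lit 11331305149) (nat_lit 76) (nat_lit 6642166537) (nat_lit 10) (nat_lit 4) (nat_lit 11) (nat_lit 5) (nat_lit 11) (nat_lit 4) (nat_lit 469) (nat_lit 388) (nat_lit 343)))))) (XT.nd (nat_lit 546) (nat_lit 228) (nat_lit 0) (XT.nd (nat_lit 234) (nat_lit 76) (nat_lit 0) (XT.nd (nat_lit 78) (nat_lit 0) (nat_lit 0) (XT.lf (nat_lit 0) (nat_lit 14992268569) (nat_lit 152) (nat_lit 101379628397) (nat_lit 0) (nat_lit 10515723740) (nat_lit 8) (nat_lit 5) (nat_lit 10) (nat_lit 4) (nat_lit 8) (nat_lit 4) (nat_lit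 470) (nat_lit 388) (nat_lit 342)) (XT.nd (nat_lit 78) (nat_lit 0) (nat_lit 0) (XT.lf (nat_lit 0) (nat_lit 38540984278) (nat_lit 152) (nat_lit 63307126513) (nat_lit 0) (nat_lit 34054533400) (nat_lit 8) (nat_lit 5) (nat_lit 10) (nat_lit 4) (nat_lit 8) (nat_lit 4) (nat_lit 471) (nat_lit 388) (nat_lit 341)) (XT.lf (nat_lit 0) (nat_lit 63884558837) (nat_lit 152) (nat_lit 22369827252) (nat_lit 0) (nat_lit 59388935692) (nat_lit 8) (nat_lit 5) (nat_lit 10) (nat_lit 4) (nat_lit 8) (nat_lit 4) (nat_lit 472) (nat_lit 388) (nat_lit 340)))) (XT.nd (nat_lit 156) (nat_lit 0) (nat_lit 0) (XT.nd (nat_lit 78) (nat_lit 0) (nat_lit 0) (XT.lf (nat_lit 0) (nat_lit 22391529572) (nat_lit 76) (nat_lit 69131241349) (nat_lit 76) (nat_lit 64627125363) (nat_lit 7) (nat_lit 4) (nat_lit 8) (nat_lit 5) (nat_lit 8) (nat_lit 4) (nat_lit 473) (nat_lit 388) (nat_lit 339)) (XT.lf (nat_lit 0) (nat_lit 71372302578) (nat_lit 76) (nat_lit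 50310566356) (nat_lit 76) (nat_lit 45798586630) (nat_lit 7) (nat_lit 4) (nat_lit 8) (nat_lit 5) (nat_lit 8) (nat_lit 4) (nat_lit 474) (nat_lit 388) (nat_lit 338))) (XT.nd (nat_lit 78) (nat_lit 0) (nat_lit 0) (XT.lf (nat_lit 0) (nat_lit 124123100683) (nat_lit 76) (nat_lit 30059675033) (nat_lit 76) (nat_lit 25540414066) (nat_lit 7) (nat_lit 4) (nat_lit 8) (nat_lit 5) (nat_lit 8) (nat_lit 4) (nat_lit 475) (nat_lit 388) (nat_lit 337)) (XT.lf (nat_lit 0) (nat_lit 180956521211) (nat_lit 76) (nat_lit 8258562099) (nat_lit 76) (nat_lit 3732559241) (nat_lit 7) (nat_lit 4) (nat_lit 8) (nat_lit 5) (nat_lit 8) (nat_lit 4) (nat_lit 476) (nat_lit 388) (nat_lit 336))))) (XT.nd (nat_lit 312) (nat_lit 76) (nat_lit 0) (XT.nd (nat_lit 156) (nat_lit 0) (nat_lit 0) (XT.nd (nat_lit 78) (nat_lit 0) (nat_lit 0) (XT.lf (nat_lit 0) (nat_lit 19932988920) (nat_lit 152) (nat_lit 171627654498) (nat_lit 0) (nat_lit 15616564779)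 (nat_lit 5) (nat_lit 5) (nat_lit 7) (nat_lit 4) (nat_lit 5) (nat_lit 4) (nat_lit 477) (nat_lit 388) (nat_lit 335)) (XT.lf (nat_lit 0) (nat_lit 45652501414) (nat_lit 152) (nat_lit 135544431401) (nat_lit 0) (nat_lit 41330572431) (nat_lit 5) (nat_lit 5) (nat_lit 7) (nat_lit 4) (nat_lit 5) (nat_lit 4) (nat_lit 478) (nat_lit 388) (nat_lit 334))) (XT.nd (nat_lit 78) (nat_lit 0) (nat_lit 0) (XT.lf (nat_lit 0) (nat_lit 73372340313) (nat_lit 152) (nat_lit 96691033394) (nat_lit 0) (nat_lit 69045314253) (nat_lit 5) (nat_lit 5) (nat_lit 7) (nat_lit 4) (nat_lit 5) (nat_lit 4) (nat_lit 479) (nat_lit 388) (nat_lit 333)) (XT.lf (nat_lit 0) (nat_lit 103256771327) (nat_lit 152) (nat_lit 54837218119) (nat_lit 0) (nat_lit 98925025753) (nat_lit 5) (nat_lit 5) (nat_lit 7) (nat_lit 4) (nat_lit 5) (nat_lit 4) (nat_lit 480) (nat_lit 388) (nat_lit 332)))) (XT.nd (nat_lit 156) (nat_lit 0) (nat_lit 0) (XT.nd (nat_lit 78)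 (nat_lit 76) (nat_lit 0) (XT.lf (nat_lit 0) (nat_lit 135482887382) (nat_lit 152) (nat_lit 9734962965) (nat_lit 0) (nat_lit 131146771887) (nat_lit 5) (nat_lit 5) (nat_lit 7) (nat_lit 4) (nat_lit 5) (nat_lit 4) (nat_lit 481) (nat_lit 388) (nat_lit 331)) (XT.lf (nat_lit 0) (nat_lit 40168652424) (nat_lit 76) (nat_lit 130700150867) (nat_lit 76) (nat_lit 126359989149) (nat_lit 4) (nat_lit 4) (nat_lit 5) (nat_lit 5) (nat_lit 5) (nat_lit 4) (nat_lit 482) (nat_lit 388) (nat_lit 330))) (XT.nd (nat_lit 78) (nat_lit 0) (nat_lit 0) (XT.lf (nat_lit 0) (nat_lit 94323740064) (nat_lit 76) (nat_lit 114887979105) (nat_lit 76) (nat_lit 110544070883) (nat_lit 4) (nat_lit 4) (nat_lit 5) (nat_lit 5) (nat_lit 5) (nat_lit 4) (nat_lit 483) (nat_lit 388) (nat_lit 329)) (XT.lf (nat_lit 0) (nat_lit 152729337152) (nat_lit 76) (nat_lit 97852499611) (nat_lit 76) (nat_lit 93505122405) (nat_lit 4) (nat_lit 4) (nat_lit 5) (nat_lit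 5) (nat_lit 5) (nat_lit 4) (nat_lit 484) (nat_lit 388) (nat_lit 328))))))))
noncomputable def xc28 : XT := (XT.nd (nat_lit 58266) (nat_lit 0) (nat_lit 1064) (XT.nd (nat_lit 1092) (nat_lit 0) (nat_lit 0) (XT.nd (nat_lit 546) (nat_lit 0) (nat_lit 0) (XT.nd (nat_lit 234) (nat_lit 152) (nat_lit 0) (XT.nd (nat_lit 78) (nat_lit 0) (nat_lit 0) (XT.lf (nat_lit 0) (nat_lit 215731550930) (nat_lit 76) (nat_lit 79492761395) (nat_lit 76) (nat_lit 75142172167) (nat_lit 4) (nat_lit 4) (nat_lit 5) (nat_lit 5) (nat_lit 5) (nat_lit 4) (nat_lit 485) (nat_lit 388) (nat_lit 327)) (XT.nd (nat_lit 78) (nat_lit 0) (nat_lit 0) (XT.lf (nat_lit 0) (nat_lit 283703727850) (nat_lit 76) (nat_lit 59699966010) (nat_lit 76) (nat_lit 55346402686) (nat_lit 4) (nat_lit 4) (nat_lit 5) (nat_lit 5) (nat_lit 5) (nat_lit 4) (nat_lit 486) (nat_lit 388) (nat_lit 326)) (XT.lf (nat_lit 0) (nat_lit 357048665997) (nat_lit 76) (nat_lit 38356822815)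 (nat_lit 76) (nat_lit 34000505700) (nat_lit 4) (nat_lit 4) (nat_lit 5) (nat_lit 5) (nat_lit 5) (nat_lit 4) (nat_lit 487) (nat_lit 388) (nat_lit 325)))) (XT.nd (nat_lit 156) (nat_lit 0) (nat_lit 0) (XT.nd (nat_lit 78) (nat_lit 152) (nat_lit 0) (XT.lf (nat_lit 0) (nat_lit 436201002041) (nat_lit 76) (nat_lit 15336853925) (nat_lit 76) (nat_lit 10977987003) (nat_lit 4) (nat_lit 4) (nat_lit 5) (nat_lit 5) (nat_lit 5) (nat_lit 4) (nat_lit 488) (nat_lit 388) (nat_lit 324)) (XT.lf (nat_lit 0) (nat_lit 13945170111) (nat_lit 152) (nat_lit 474501684950) (nat_lit 0) (nat_lit 9791619773) (nat_lit 2) (nat_lit 5) (nat_lit 4) (nat_lit 4) (nat_lit 2) (nat_lit 4) (nat_lit 489) (nat_lit 388) (nat_lit 323))) (XT.nd (nat_lit 78) (nat_lit 0) (nat_lit 0) (XT.lf (nat_lit 0) (nat_lit 41180170825) (nat_lit 152) (nat_lit 458570079296) (nat_lit 0) (nat_lit 37024538537) (nat_lit 2) (nat_lit 5) (nat_lit 4) (nat_lit 4) (nat_lit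 2) (nat_lit 4) (nat_lit 490) (nat_lit 388) (nat_lit 322)) (XT.lf (nat_lit 0) (nat_lit 70568929772) (nat_lit 152) (nat_lit 441414960217) (nat_lit 0) (nat_lit 66411369752) (nat_lit 2) (nat_lit 5) (nat_lit 4) (nat_lit 4) (nat_lit 2) (nat_lit 4) (nat_lit 491) (nat_lit 388) (nat_lit 321))))) (XT.nd (nat_lit 234) (nat_lit 0) (nat_lit 0) (XT.nd (nat_lit 78) (nat_lit 0) (nat_lit 0) (XT.lf (nat_lit 0) (nat_lit 102285602562) (nat_lit 152) (nat_lit 422934667750) (nat_lit 0) (nat_lit 98126257604) (nat_lit 2) (nat_lit 5) (nat_lit 4) (nat_lit 4) (nat_lit 2) (nat_lit 4) (nat_lit 492) (nat_lit 388) (nat_lit 320)) (XT.nd (nat_lit 78) (nat_lit 0) (nat_lit 0) (XT.lf (nat_lit 0) (nat_lit 136518139847) (nat_lit 152) (nat_lit 403019689050) (nat_lit 0) (nat_lit 132357142170) (nat_lit 2) (nat_lit 5) (nat_lit 4) (nat_lit 4) (nat_lit 2) (nat_lit 4) (nat_lit 493) (nat_lit 388) (nat_lit 319)) (XT.lf (nat_lit 0) (nat_lit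 173469401109) (nat_lit 152) (nat_lit 381552009428) (nat_lit 0) (nat_lit 169306873135) (nat_lit 2) (nat_lit 5) (nat_lit 4) (nat_lit 4) (nat_lit 2) (nat_lit 4) (nat_lit 494) (nat_lit 388) (nat_lit 318)))) (XT.nd (nat_lit 156) (nat_lit 0) (nat_lit 0) (XT.nd (nat_lit 78) (nat_lit 0) (nat_lit 0) (XT.lf (nat_lit 0) (nat_lit 213358356783) (nat_lit 152) (nat_lit 358404413006) (nat_lit 0) (nat_lit 209194411868) (nat_lit 2) (nat_lit 5) (nat_lit 4) (nat_lit 4) (nat_lit 2) (nat_lit 4) (nat_lit 495) (nat_lit 388) (nat_lit 317)) (XT.lf (nat_lit 0) (nat_lit 256421385866) (nat_lit 152) (nat_lit 333439728840) (nat_lit 0) (nat_lit 252256128969) (nat_lit 2) (nat_lit 5) (nat_lit 4) (nat_lit 4) (nat_lit 2) (nat_lit 4) (nat_lit 496) (nat_lit 388) (nat_lit 316))) (XT.nd (nat_lit 78) (nat_lit 0) (nat_lit 0) (XT.lf (nat_lit 0) (nat_lit 302913676680) (nat_lit 152) (nat_lit 306510018063) (nat_lit 0) (nat_lit 298747204984)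 (nat_lit 2) (nat_lit 5) (nat_lit 4) (nat_lit 4) (nat_lit 2) (nat_lit 4) (nat_lit 497) (nat_lit 388) (nat_lit 315)) (XT.lf (nat_lit 0) (nat_lit 353110739095) (nat_lit 152) (nat_lit 277455697203) (nat_lit 0) (nat_lit 348943142586) (nat_lit 2) (nat_lit 5) (nat_lit 4) (nat_lit 4) (nat_lit 2) (nat_lit 4) (nat_lit 498) (nat_lit 388) (nat_lit 314)))))) (XT.nd (nat_lit 56550) (nat_lit 0) (nat_lit 4484) (XT.nd (nat_lit 234) (nat_lit 0) (nat_lit 0) (XT.nd (nat_lit 78) (nat_lit 0) (nat_lit 0) (XT.lf (nat_lit 0) (nat_lit 407310037185) (nat_lit 152) (nat_lit 246104592506) (nat_lit 0) (nat_lit 403141399182) (nat_lit 2) (nat_lit 5) (nat_lit 4) (nat_lit 4) (nat_lit 2) (nat_lit 4) (nat_lit 499) (nat_lit 388) (nat_lit 313)) (XT.nd (nat_lit 78) (nat_lit 0) (nat_lit 0) (XT.lf (nat_lit 0) (nat_lit 465832751976) (nat_lit 152) (nat_lit 212270919649) (nat_lit 0) (nat_lit 461663149627) (nat_lit 2) (nat_lit 5) (nat_lit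 4) (nat_lit 4) (nat_lit 2) (nat_lit 4) (nat_lit 500) (nat_lit 388) (nat_lit 312)) (XT.lf (nat_lit 0) (nat_lit 529025684740) (nat_lit 152) (nat_lit 175754182792) (nat_lit 0) (nat_lit 524855189478) (nat_lit 2) (nat_lit 5) (nat_lit 4) (nat_lit 4) (nat_lit 2) (nat_lit 4) (nat_lit 501) (nat_lit 388) (nat_lit 311)))) (XT.nd (nat_lit 156) (nat_lit 0) (nat_lit 0) (XT.nd (nat_lit 78) (nat_lit 0) (nat_lit 0) (XT.lf (nat_lit 0) (nat_lit 597263312117) (nat_lit 152) (nat_lit 136337986458) (nat_lit 0) (nat_lit 593091990084) (nat_lit 2) (nat_lit 5) (nat_lit 4) (nat_lit 4) (nat_lit 2) (nat_lit 4) (nat_lit 502) (nat_lit 388) (nat_lit 310)) (XT.lf (nat_lit 0) (nat_lit 670950005231) (nat_lit 152) (nat_lit 93788753187) (nat_lit 0) (nat_lit 666777917669) (nat_lit 2) (nat_lit 5) (nat_lit 4) (nat_lit 4) (nat_lit 2) (nat_lit 4) (nat_lit 503) (nat_lit 388) (nat_lit 309))) (XT.nd (nat_lit 56082) (nat_lit 0) (nat_lit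 6384) (XT.lf (nat_lit 0) (nat_lit 750522425968) (nat_lit 152) (nat_lit 47854339374) (nat_lit 0) (nat_lit 746349629582) (nat_lit 2) (nat_lit 5) (nat_lit 4) (nat_lit 4) (nat_lit 2) (nat_lit 4) (nat_lit 504) (nat_lit 388) (nat_lit 308)) (XT.lf (nat_lit 0) (nat_lit 4662471276) (nat_lit 228) (nat_lit 173572923) (nat_lit 228) (nat_lit 173572923) (nat_lit 86) (nat_lit 4) (nat_lit 89) (nat_lit 5) (nat_lit 89) (nat_lit 4) (nat_lit 422) (nat_lit 389) (nat_lit 389))))) (XT.nd (nat_lit 312) (nat_lit 760) (nat_lit 0) (XT.nd (nat_lit 156) (nat_lit 532) (nat_lit 0) (XT.nd (nat_lit 78) (nat_lit 228) (nat_lit 0) (XT.lf (nat_lit 0) (nat_lit 3601518084) (nat_lit 152) (nat_lit 3922575615) (nat_lit 152) (nat_lit 2843674758) (nat_lit 81) (nat_lit 4) (nat_lit 83) (nat_lit 5) (nat_lit 83) (nat_lit 4) (nat_lit 423) (nat_lit 389) (nat_lit 388)) (XT.lf (nat_lit 0) (nat_lit 5026047243) (nat_lit 228) (nat_lit 2670375480)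 (nat_lit 0) (nat_lit 3047110927) (nat_lit 78) (nat_lit 5) (nat_lit 81) (nat_lit 4) (nat_lit 78) (nat_lit 4) (nat_lit 424) (nat_lit 389) (nat_lit 387))) (XT.nd (nat_lit 78) (nat_lit 152) (nat_lit 0) (XT.lf (nat_lit 0) (nat_lit 1598270016) (nat_lit 152) (nat_lit 576433926) (nat_lit 228) (nat_lit 8972127143) (nat_lit 73) (nat_lit 5) (nat_lit 75) (nat_lit 5) (nat_lit 76) (nat_lit 4) (nat_lit 425) (nat_lit 389) (nat_lit 386)) (XT.lf (nat_lit 0) (nat_lit 6022698453) (nat_lit 152) (nat_lit 4526500058) (nat_lit 152) (nat_lit 1025971256) (nat_lit 71) (nat_lit 4) (nat_lit 73) (nat_lit 5) (nat_lit 73) (nat_lit 4) (nat_lit 426) (nat_lit 389) (nat_lit 385)))) (XT.nd (nat_lit 156) (nat_lit 304) (nat_lit 0) (XT.nd (nat_lit 78) (nat_lit 304) (nat_lit 0) (XT.lf (nat_lit 0) (nat_lit 7281532220) (nat_lit 152) (nat_lit 1489342293) (nat_lit 0) (nat_lit 3262651027) (nat_lit 69) (nat_lit 5) (nat_lit 71) (nat_lit 4)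 (nat_lit 69) (nat_lit 4) (nat_lit 427) (nat_lit 389) (nat_lit 384)) (XT.lf (nat_lit 0) (nat_lit 2755949554) (nat_lit 76) (nat_lit 858260674) (nat_lit 152) (nat_lit 8908521735) (nat_lit 65) (nat_lit 5) (nat_lit 66) (nat_lit 5) (nat_lit 67) (nat_lit 4) (nat_lit 428) (nat_lit 389) (nat_lit 383))) (XT.nd (nat_lit 78) (nat_lit 152) (nat_lit 0) (XT.lf (nat_lit 0) (nat_lit 7097236041) (nat_lit 152) (nat_lit 5468395543) (nat_lit 152) (nat_lit 477446557) (nat_lit 63) (nat_lit 4) (nat_lit 65) (nat_lit 5) (nat_lit 65) (nat_lit 4) (nat_lit 429) (nat_lit 389) (nat_lit 382)) (XT.lf (nat_lit 0) (nat_lit 8365009980) (nat_lit 152) (nat_lit 2114197303) (nat_lit 0) (nat_lit 3118473346) (nat_lit 61) (nat_lit 5) (nat_lit 63) (nat_lit 4) (nat_lit 61) (nat_lit 4) (nat_lit 430) (nat_lit 389) (nat_lit 381))))))) (XT.nd (nat_lit 1170) (nat_lit 1368) (nat_lit 0) (XT.nd (nat_lit 546) (nat_lit 912) (nat_lit 0) (XT.nd (nat_lit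 234) (nat_lit 532) (nat_lit 0) (XT.nd (nat_lit 78) (nat_lit 304) (nat_lit 0) (XT.lf (nat_lit 0) (nat_lit 1819147801) (nat_lit 76) (nat_lit 1850315196) (nat_lit 152) (nat_lit 10519618178) (nat_lit 57) (nat_lit 5) (nat_lit 58) (nat_lit 5) (nat_lit 59) (nat_lit 4) (nat_lit 431) (nat_lit 389) (nat_lit 380)) (XT.nd (nat_lit 78) (nat_lit 152) (nat_lit 0) (XT.lf (nat_lit 0) (nat_lit 5812814363) (nat_lit 152) (nat_lit 7419268145) (nat_lit 152) (nat_lit 1584853542) (nat_lit 55) (nat_lit 4) (nat_lit 57) (nat_lit 5) (nat_lit 57) (nat_lit 4) (nat_lit 432) (nat_lit 389) (nat_lit 379)) (XT.lf (nat_lit 0) (nat_lit 7858104442) (nat_lit 152) (nat_lit 5681691183) (nat_lit 0) (nat_lit 1946363324) (nat_lit 53) (nat_lit 5) (nat_lit 55) (nat_lit 4) (nat_lit 53) (nat_lit 4) (nat_lit 433) (nat_lit 389) (nat_lit 378)))) (XT.nd (nat_lit 156) (nat_lit 228) (nat_lit 0) (XT.nd (nat_lit 78) (nat_lit 152) (nat_lit 0) (XT.lf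 (nat_lit 0) (nat_lit 1867940605) (nat_lit 152) (nat_lit 2411310822) (nat_lit 76) (nat_lit 11920380405) (nat_lit 51) (nat_lit 5) (nat_lit 53) (nat_lit 5) (nat_lit 52) (nat_lit 4) (nat_lit 434) (nat_lit 389) (nat_lit 377)) (XT.lf (nat_lit 0) (nat_lit 775284820) (nat_lit 76) (nat_lit 11207861703) (nat_lit 76) (nat_lit 4974454176) (nat_lit 49) (nat_lit 4) (nat_lit 50) (nat_lit 5) (nat_lit 50) (nat_lit 4) (nat_lit 435) (nat_lit 389) (nat_lit 376))) (XT.nd (nat_lit 78) (nat_lit 76) (nat_lit 0) (XT.lf (nat_lit 0) (nat_lit 3974474817) (nat_lit 76) (nat_lit 1135959827) (nat_lit 152) (nat_lit 12654609824) (nat_lit 47) (nat_lit 5) (nat_lit 48) (nat_lit 5) (nat_lit 49) (nat_lit 4) (nat_lit 436) (nat_lit 389) (nat_lit 375)) (XT.lf (nat_lit 0) (nat_lit 6996190539) (nat_lit 76) (nat_lit 9028042518) (nat_lit 76) (nat_lit 2598961233) (nat_lit 46) (nat_lit 4) (nat_lit 47) (nat_lit 5) (nat_lit 47) (nat_lit 4)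 (nat_lit 437) (nat_lit 389) (nat_lit 374))))) (XT.nd (nat_lit 312) (nat_lit 380) (nat_lit 0) (XT.nd (nat_lit 156) (nat_lit 304) (nat_lit 0) (XT.nd (nat_lit 78) (nat_lit 76) (nat_lit 0) (XT.lf (nat_lit 0) (nat_lit 8099748584) (nat_lit 152) (nat_lit 9670641456) (nat_lit 0) (nat_lit 1768013199) (nat_lit 44) (nat_lit 5) (nat_lit 46) (nat_lit 4) (nat_lit 44) (nat_lit 4) (nat_lit 438) (nat_lit 389) (nat_lit 373)) (XT.lf (nat_lit 0) (nat_lit 12532420702) (nat_lit 76) (nat_lit 7253120898) (nat_lit 76) (nat_lit 728051415) (nat_lit 43) (nat_lit 4) (nat_lit 44) (nat_lit 5) (nat_lit 44) (nat_lit 4) (nat_lit 439) (nat_lit 389) (nat_lit 372))) (XT.nd (nat_lit 78) (nat_lit 152) (nat_lit 0) (XT.lf (nat_lit 0) (nat_lit 10643149609) (nat_lit 152) (nat_lit 6649349405) (nat_lit 0) (nat_lit 4258309096) (nat_lit 41) (nat_lit 5) (nat_lit 43) (nat_lit 4) (nat_lit 41) (nat_lit 4) (nat_lit 440) (nat_lit 389) (nat_lit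 371)) (XT.lf (nat_lit 0) (nat_lit 441038364) (nat_lit 152) (nat_lit 5638571701) (nat_lit 76) (nat_lit 16579610302) (nat_lit 39) (nat_lit 5) (nat_lit 41) (nat_lit 5) (nat_lit 40) (nat_lit 4) (nat_lit 441) (nat_lit 389) (nat_lit 370)))) (XT.nd (nat_lit 156) (nat_lit 152) (nat_lit 0) (XT.nd (nat_lit 78) (nat_lit 152) (nat_lit 0) (XT.lf (nat_lit 0) (nat_lit 12526888137) (nat_lit 152) (nat_lit 5153372267) (nat_lit 0) (nat_lit 6156538741) (nat_lit 38) (nat_lit 5) (nat_lit 40) (nat_lit 4) (nat_lit 38) (nat_lit 4) (nat_lit 442) (nat_lit 389) (nat_lit 369)) (XT.lf (nat_lit 0) (nat_lit 679285305) (nat_lit 152) (nat_lit 5106709153) (nat_lit 76) (nat_lit 19311059214) (nat_lit 36) (nat_lit 5) (nat_lit 38) (nat_lit 5) (nat_lit 37) (nat_lit 4) (nat_lit 443) (nat_lit 389) (nat_lit 368))) (XT.nd (nat_lit 78) (nat_lit 76) (nat_lit 0) (XT.lf (nat_lit 0) (nat_lit 13481776503) (nat_lit 152) (nat_lit 5776208692)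 (nat_lit 0) (nat_lit 7178356585) (nat_lit 35) (nat_lit 5) (nat_lit 37) (nat_lit 4) (nat_lit 35) (nat_lit 4) (nat_lit 444) (nat_lit 389) (nat_lit 367)) (XT.lf (nat_lit 0) (nat_lit 20807252918) (nat_lit 76) (nat_lit 6736218697) (nat_lit 76) (nat_lit 327554614) (nat_lit 34) (nat_lit 4) (nat_lit 35) (nat_lit 5) (nat_lit 35) (nat_lit 4) (nat_lit 445) (nat_lit 389) (nat_lit 366)))))) (XT.nd (nat_lit 546) (nat_lit 684) (nat_lit 0) (XT.nd (nat_lit 234) (nat_lit 304) (nat_lit 0) (XT.nd (nat_lit 78) (nat_lit 228) (nat_lit 0) (XT.lf (nat_lit 0) (nat_lit 13143608163) (nat_lit 152) (nat_lit 9306180597) (nat_lit 0) (nat_lit 6947310654) (nat_lit 32) (nat_lit 5) (nat_lit 34) (nat_lit 4) (nat_lit 32) (nat_lit 4) (nat_lit 446) (nat_lit 389) (nat_lit 365)) (XT.nd (nat_lit 78) (nat_lit 152) (nat_lit 0) (XT.lf (nat_lit 0) (nat_lit 18582199790) (nat_lit 76) (nat_lit 9365835718) (nat_lit 76) (nat_lit 3083604962) (nat_lit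 31) (nat_lit 4) (nat_lit 32) (nat_lit 5) (nat_lit 32) (nat_lit 4) (nat_lit 447) (nat_lit 389) (nat_lit 364)) (XT.lf (nat_lit 0) (nat_lit 11024773998) (nat_lit 152) (nat_lit 16785486545) (nat_lit 0) (nat_lit 4965918211) (nat_lit 29) (nat_lit 5) (nat_lit 31) (nat_lit 4) (nat_lit 29) (nat_lit 4) (nat_lit 448) (nat_lit 389) (nat_lit 363)))) (XT.nd (nat_lit 156) (nat_lit 76) (nat_lit 0) (XT.nd (nat_lit 78) (nat_lit 152) (nat_lit 0) (XT.lf (nat_lit 0) (nat_lit 12183096245) (nat_lit 76) (nat_lit 14293763269) (nat_lit 76) (nat_lit 8164741855) (nat_lit 28) (nat_lit 4) (nat_lit 29) (nat_lit 5) (nat_lit 29) (nat_lit 4) (nat_lit 449) (nat_lit 389) (nat_lit 362)) (XT.lf (nat_lit 0) (nat_lit 6477467443) (nat_lit 152) (nat_lit 29586434740) (nat_lit 0) (nat_lit 578429741) (nat_lit 26) (nat_lit 5) (nat_lit 28) (nat_lit 4) (nat_lit 26) (nat_lit 4) (nat_lit 450) (nat_lit 389) (nat_lit 361))) (XT.nd (nat_lit 78)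 (nat_lit 0) (nat_lit 0) (XT.lf (nat_lit 0) (nat_lit 100042426) (nat_lit 76) (nat_lit 22316080380) (nat_lit 76) (nat_lit 16359751520) (nat_lit 25) (nat_lit 4) (nat_lit 26) (nat_lit 5) (nat_lit 26) (nat_lit 4) (nat_lit 451) (nat_lit 389) (nat_lit 360)) (XT.lf (nat_lit 0) (nat_lit 32770363397) (nat_lit 76) (nat_lit 7152239067) (nat_lit 76) (nat_lit 1142862839) (nat_lit 25) (nat_lit 4) (nat_lit 26) (nat_lit 5) (nat_lit 26) (nat_lit 4) (nat_lit 452) (nat_lit 389) (nat_lit 359))))) (XT.nd (nat_lit 312) (nat_lit 304) (nat_lit 0) (XT.nd (nat_lit 156) (nat_lit 152) (nat_lit 0) (XT.nd (nat_lit 78) (nat_lit 76) (nat_lit 0) (XT.lf (nat_lit 0) (nat_lit 15128135235) (nat_lit 152) (nat_lit 19023703138) (nat_lit 0) (nat_lit 9358140795) (nat_lit 23) (nat_lit 5) (nat_lit 25) (nat_lit 4) (nat_lit 23) (nat_lit 4) (nat_lit 453) (nat_lit 389) (nat_lit 358)) (XT.lf (nat_lit 0) (nat_lit 13937487802) (nat_lit 76) (nat_lit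 19005416381) (nat_lit 76) (nat_lit 13192108067) (nat_lit 22) (nat_lit 4) (nat_lit 23) (nat_lit 5) (nat_lit 23) (nat_lit 4) (nat_lit 454) (nat_lit 389) (nat_lit 357))) (XT.nd (nat_lit 78) (nat_lit 0) (nat_lit 0) (XT.lf (nat_lit 0) (nat_lit 833887535) (nat_lit 76) (nat_lit 2428210654) (nat_lit 152) (nat_lit 45697836955) (nat_lit 20) (nat_lit 5) (nat_lit 21) (nat_lit 5) (nat_lit 22) (nat_lit 4) (nat_lit 455) (nat_lit 389) (nat_lit 356)) (XT.lf (nat_lit 0) (nat_lit 21196276762) (nat_lit 152) (nat_lit 15186241287) (nat_lit 0) (nat_lit 15586230648) (nat_lit 20) (nat_lit 5) (nat_lit 22) (nat_lit 4) (nat_lit 20) (nat_lit 4) (nat_lit 456) (nat_lit 389) (nat_lit 355)))) (XT.nd (nat_lit 156) (nat_lit 76) (nat_lit 0) (XT.nd (nat_lit 78) (nat_lit 152) (nat_lit 0) (XT.lf (nat_lit 0) (nat_lit 20649687537) (nat_lit 76) (nat_lit 20101048162) (nat_lit 76) (nat_lit 14458255429) (nat_lit 19) (nat_lit 4) (nat_lit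 20) (nat_lit 5) (nat_lit 20) (nat_lit 4) (nat_lit 457) (nat_lit 389) (nat_lit 354)) (XT.lf (nat_lit 0) (nat_lit 823065884) (nat_lit 76) (nat_lit 2345802194) (nat_lit 152) (nat_lit 55531670934) (nat_lit 17) (nat_lit 5) (nat_lit 18) (nat_lit 5) (nat_lit 19) (nat_lit 4) (nat_lit 458) (nat_lit 389) (nat_lit 353))) (XT.nd (nat_lit 78) (nat_lit 76) (nat_lit 0) (XT.lf (nat_lit 0) (nat_lit 22413189545) (nat_lit 152) (nat_lit 23027206207) (nat_lit 0) (nat_lit 16983486093) (nat_lit 17) (nat_lit 5) (nat_lit 19) (nat_lit 4) (nat_lit 17) (nat_lit 4) (nat_lit 459) (nat_lit 389) (nat_lit 352)) (XT.lf (nat_lit 0) (nat_lit 14728487408) (nat_lit 76) (nat_lit 28582680437) (nat_lit 76) (nat_lit 23128219535) (nat_lit 16) (nat_lit 4) (nat_lit 17) (nat_lit 5) (nat_lit 17) (nat_lit 4) (nat_lit 460) (nat_lit 389) (nat_lit 351))))))))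
noncomputable def xc29 : XT := (XT.nd (nat_lit 2340) (nat_lit 0) (nat_lit 0) (XT.nd (nat_lit 1170) (nat_lit 380) (nat_lit 0) (XT.nd (nat_lit 546) (nat_lit 304) (nat_lit 0) (XT.nd (nat_lit 234) (nat_lit 228) (nat_lit 0) (XT.nd (nat_lit 78) (nat_lit 152) (nat_lit 0) (XT.lf (nat_lit 0) (nat_lit 56026152234) (nat_lit 76) (nat_lit 10107369739) (nat_lit 76) (nat_lit 4629985273) (nat_lit 16) (nat_lit 4) (nat_lit 17) (nat_lit 5) (nat_lit 17) (nat_lit 4) (nat_lit 461) (nat_lit 389) (nat_lit 350)) (XT.nd (nat_lit 78) (nat_lit 0) (nat_lit 0) (XT.lf (nat_lit 0) (nat_lit 15276903121) (nat_lit 152) (nat_lit 50083539672) (nat_lit 0) (nat_lit 10040131703) (nat_lit 14) (nat_lit 5) (nat_lit 16) (nat_lit 4) (nat_lit 14) (nat_lit 4) (nat_lit 462) (nat_lit 389) (nat_lit 349)) (XT.lf (nat_lit 0) (nat_lit 36911808829) (nat_lit 152) (nat_lit 11821799915) (nat_lit 0) (nat_lit 31656320019) (nat_lit 14) (nat_lit 5) (nat_lit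 16) (nat_lit 4) (nat_lit 14) (nat_lit 4) (nat_lit 463) (nat_lit 389) (nat_lit 348)))) (XT.nd (nat_lit 156) (nat_lit 152) (nat_lit 0) (XT.nd (nat_lit 78) (nat_lit 0) (nat_lit 0) (XT.lf (nat_lit 0) (nat_lit 30212914849) (nat_lit 76) (nat_lit 30410520213) (nat_lit 76) (nat_lit 25137700485) (nat_lit 13) (nat_lit 4) (nat_lit 14) (nat_lit 5) (nat_lit 14) (nat_lit 4) (nat_lit 464) (nat_lit 389) (nat_lit 347)) (XT.lf (nat_lit 0) (nat_lit 75788673843) (nat_lit 76) (nat_lit 10528974792) (nat_lit 76) (nat_lit 5240107917) (nat_lit 13) (nat_lit 4) (nat_lit 14) (nat_lit 5) (nat_lit 14) (nat_lit 4) (nat_lit 465) (nat_lit 389) (nat_lit 346))) (XT.nd (nat_lit 78) (nat_lit 0) (nat_lit 0) (XT.lf (nat_lit 0) (nat_lit 16227074138) (nat_lit 152) (nat_lit 70377548532) (nat_lit 0) (nat_lit 11175907143) (nat_lit 11) (nat_lit 5) (nat_lit 13) (nat_lit 4) (nat_lit 11) (nat_lit 4) (nat_lit 466) (nat_lit 389) (nat_lit 345))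 (XT.lf (nat_lit 0) (nat_lit 39577254713) (nat_lit 152) (nat_lit 30389129890) (nat_lit 0) (nat_lit 34512985012) (nat_lit 11) (nat_lit 5) (nat_lit 13) (nat_lit 4) (nat_lit 11) (nat_lit 4) (nat_lit 467) (nat_lit 389) (nat_lit 344))))) (XT.nd (nat_lit 312) (nat_lit 76) (nat_lit 0) (XT.nd (nat_lit 156) (nat_lit 152) (nat_lit 0) (XT.nd (nat_lit 78) (nat_lit 0) (nat_lit 0) (XT.lf (nat_lit 0) (nat_lit 13007976548) (nat_lit 76) (nat_lit 51888739490) (nat_lit 76) (nat_lit 46812337653) (nat_lit 10) (nat_lit 4) (nat_lit 11) (nat_lit 5) (nat_lit 11) (nat_lit 4) (nat_lit 468) (nat_lit 389) (nat_lit 343)) (XT.lf (nat_lit 0) (nat_lit 60764299242) (nat_lit 76) (nat_lit 31909424720) (nat_lit 76) (nat_lit 26821789424) (nat_lit 10) (nat_lit 4) (nat_lit 11) (nat_lit 5) (nat_lit 11) (nat_lit 4) (nat_lit 469) (nat_lit 389) (nat_lit 342))) (XT.nd (nat_lit 78) (nat_lit 152) (nat_lit 0) (XT.lf (nat_lit 0) (nat_lit 112158036745)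 (nat_lit 76) (nat_lit 10424698973) (nat_lit 76) (nat_lit 5326662326) (nat_lit 10) (nat_lit 4) (nat_lit 11) (nat_lit 5) (nat_lit 11) (nat_lit 4) (nat_lit 470) (nat_lit 389) (nat_lit 341)) (XT.lf (nat_lit 0) (nat_lit 17928755112) (nat_lit 152) (nat_lit 105958704159) (nat_lit 0) (nat_lit 13064309848) (nat_lit 8) (nat_lit 5) (nat_lit 10) (nat_lit 4) (nat_lit 8) (nat_lit 4) (nat_lit 471) (nat_lit 389) (nat_lit 340)))) (XT.nd (nat_lit 156) (nat_lit 76) (nat_lit 0) (XT.nd (nat_lit 78) (nat_lit 0) (nat_lit 0) (XT.lf (nat_lit 0) (nat_lit 43232693628) (nat_lit 152) (nat_lit 65101979495) (nat_lit 0) (nat_lit 38359755524) (nat_lit 8) (nat_lit 5) (nat_lit 10) (nat_lit 4) (nat_lit 8) (nat_lit 4) (nat_lit 472) (nat_lit 389) (nat_lit 339)) (XT.lf (nat_lit 0) (nat_lit 70484611144) (nat_lit 152) (nat_lit 21131897563) (nat_lit 0) (nat_lit 65603809300) (nat_lit 8) (nat_lit 5) (nat_lit 10) (nat_lit 4) (nat_lit 8)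 (nat_lit 4) (nat_lit 473) (nat_lit 389) (nat_lit 338))) (XT.nd (nat_lit 78) (nat_lit 0) (nat_lit 0) (XT.lf (nat_lit 0) (nat_lit 27078795657) (nat_lit 76) (nat_lit 73189980735) (nat_lit 76) (nat_lit 68301897649) (nat_lit 7) (nat_lit 4) (nat_lit 8) (nat_lit 5) (nat_lit 8) (nat_lit 4) (nat_lit 474) (nat_lit 389) (nat_lit 337)) (XT.lf (nat_lit 0) (nat_lit 79763516153) (nat_lit 76) (nat_lit 52972670996) (nat_lit 76) (nat_lit 48077846020) (nat_lit 7) (nat_lit 4) (nat_lit 8) (nat_lit 5) (nat_lit 8) (nat_lit 4) (nat_lit 475) (nat_lit 389) (nat_lit 336)))))) (XT.nd (nat_lit 546) (nat_lit 228) (nat_lit 0) (XT.nd (nat_lit 234) (nat_lit 0) (nat_lit 0) (XT.nd (nat_lit 78) (nat_lit 152) (nat_lit 0) (XT.lf (nat_lit 0) (nat_lit 136535753710) (nat_lit 76) (nat_lit 31202652121) (nat_lit 76) (nat_lit 26301584654) (nat_lit 7) (nat_lit 4) (nat_lit 8) (nat_lit 5) (nat_lit 8) (nat_lit 4) (nat_lit 476) (nat_lit 389)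 (nat_lit 335)) (XT.nd (nat_lit 78) (nat_lit 152) (nat_lit 0) (XT.lf (nat_lit 0) (nat_lit 197731936400) (nat_lit 76) (nat_lit 7750916590) (nat_lit 76) (nat_lit 2844069039) (nat_lit 7) (nat_lit 4) (nat_lit 8) (nat_lit 5) (nat_lit 8) (nat_lit 4) (nat_lit 477) (nat_lit 389) (nat_lit 334)) (XT.lf (nat_lit 0) (nat_lit 22644252974) (nat_lit 152) (nat_lit 183085329550) (nat_lit 0) (nat_lit 17965967754) (nat_lit 5) (nat_lit 5) (nat_lit 7) (nat_lit 4) (nat_lit 5) (nat_lit 4) (nat_lit 478) (nat_lit 389) (nat_lit 333)))) (XT.nd (nat_lit 156) (nat_lit 0) (nat_lit 0) (XT.nd (nat_lit 78) (nat_lit 0) (nat_lit 0) (XT.lf (nat_lit 0) (nat_lit 50338613509) (nat_lit 152) (nat_lit 144283784702) (nat_lit 0) (nat_lit 45655608774) (nat_lit 5) (nat_lit 5) (nat_lit 7) (nat_lit 4) (nat_lit 5) (nat_lit 4) (nat_lit 479) (nat_lit 389) (nat_lit 332)) (XT.lf (nat_lit 0) (nat_lit 80199453446) (nat_lit 152) (nat_lit 102477981611)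 (nat_lit 0) (nat_lit 75512078790) (nat_lit 5) (nat_lit 5) (nat_lit 7) (nat_lit 4) (nat_lit 5) (nat_lit 4) (nat_lit 480) (nat_lit 389) (nat_lit 331))) (XT.nd (nat_lit 78) (nat_lit 0) (nat_lit 0) (XT.lf (nat_lit 0) (nat_lit 112403725911) (nat_lit 152) (nat_lit 57420182184) (nat_lit 0) (nat_lit 107712305032) (nat_lit 5) (nat_lit 5) (nat_lit 7) (nat_lit 4) (nat_lit 5) (nat_lit 4) (nat_lit 481) (nat_lit 389) (nat_lit 330)) (XT.lf (nat_lit 0) (nat_lit 147142271038) (nat_lit 152) (nat_lit 8843377239) (nat_lit 0) (nat_lit 142447103655) (nat_lit 5) (nat_lit 5) (nat_lit 7) (nat_lit 4) (nat_lit 5) (nat_lit 4) (nat_lit 482) (nat_lit 389) (nat_lit 329))))) (XT.nd (nat_lit 312) (nat_lit 152) (nat_lit 0) (XT.nd (nat_lit 156) (nat_lit 0) (nat_lit 0) (XT.nd (nat_lit 78) (nat_lit 0) (nat_lit 0) (XT.lf (nat_lit 0) (nat_lit 44979934582) (nat_lit 76) (nat_lit 140343275123) (nat_lit 76) (nat_lit 135644638757) (nat_lit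 4) (nat_lit 4) (nat_lit 5) (nat_lit 5) (nat_lit 5) (nat_lit 4) (nat_lit 483) (nat_lit 389) (nat_lit 328)) (XT.lf (nat_lit 0) (nat_lit 103349074421) (nat_lit 76) (nat_lit 123326343532) (nat_lit 76) (nat_lit 118624495143) (nat_lit 4) (nat_lit 4) (nat_lit 5) (nat_lit 5) (nat_lit 5) (nat_lit 4) (nat_lit 484) (nat_lit 389) (nat_lit 327))) (XT.nd (nat_lit 78) (nat_lit 0) (nat_lit 0) (XT.lf (nat_lit 0) (nat_lit 166317531487) (nat_lit 76) (nat_lit 104983779301) (nat_lit 76) (nat_lit 100278956817) (nat_lit 4) (nat_lit 4) (nat_lit 5) (nat_lit 5) (nat_lit 5) (nat_lit 4) (nat_lit 485) (nat_lit 389) (nat_lit 326)) (XT.lf (nat_lit 0) (nat_lit 234258452192) (nat_lit 76) (nat_lit 85206885752) (nat_lit 76) (nat_lit 80499309477) (nat_lit 4) (nat_lit 4) (nat_lit 5) (nat_lit 5) (nat_lit 5) (nat_lit 4) (nat_lit 486) (nat_lit 389) (nat_lit 325)))) (XT.nd (nat_lit 156) (nat_lit 152) (nat_lit 0) (XT.nd (nat_lit 78)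 (nat_lit 0) (nat_lit 0) (XT.lf (nat_lit 0) (nat_lit 307574449400) (nat_lit 76) (nat_lit 63878466481) (nat_lit 76) (nat_lit 59168340398) (nat_lit 4) (nat_lit 4) (nat_lit 5) (nat_lit 5) (nat_lit 5) (nat_lit 4) (nat_lit 487) (nat_lit 389) (nat_lit 324)) (XT.lf (nat_lit 0) (nat_lit 386699988278) (nat_lit 76) (nat_lit 40872130853) (nat_lit 76) (nat_lit 36159643838) (nat_lit 4) (nat_lit 4) (nat_lit 5) (nat_lit 5) (nat_lit 5) (nat_lit 4) (nat_lit 488) (nat_lit 389) (nat_lit 323))) (XT.nd (nat_lit 78) (nat_lit 152) (nat_lit 0) (XT.lf (nat_lit 0) (nat_lit 472103960910) (nat_lit 76) (nat_lit 16051545028) (nat_lit 76) (nat_lit 11336871965) (nat_lit 4) (nat_lit 4) (nat_lit 5) (nat_lit 5) (nat_lit 5) (nat_lit 4) (nat_lit 489) (nat_lit 389) (nat_lit 322)) (XT.lf (nat_lit 0) (nat_lit 15549340068) (nat_lit 152) (nat_lit 511466536163) (nat_lit 0) (nat_lit 11057247513) (nat_lit 2) (nat_lit 5) (nat_lit 4) (nat_lit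 4) (nat_lit 2) (nat_lit 4) (nat_lit 490) (nat_lit 389) (nat_lit 321))))))) (XT.nd (nat_lit 57096) (nat_lit 0) (nat_lit 3496) (XT.nd (nat_lit 546) (nat_lit 0) (nat_lit 0) (XT.nd (nat_lit 234) (nat_lit 0) (nat_lit 0) (XT.nd (nat_lit 78) (nat_lit 0) (nat_lit 0) (XT.lf (nat_lit 0) (nat_lit 44926951480) (nat_lit 152) (nat_lit 494334126766) (nat_lit 0) (nat_lit 40433073988) (nat_lit 2) (nat_lit 5) (nat_lit 4) (nat_lit 4) (nat_lit 2) (nat_lit 4) (nat_lit 491) (nat_lit 389) (nat_lit 320)) (XT.nd (nat_lit 78) (nat_lit 0) (nat_lit 0) (XT.lf (nat_lit 0) (nat_lit 76633302478) (nat_lit 152) (nat_lit 475874861782) (nat_lit 0) (nat_lit 72137772266) (nat_lit 2) (nat_lit 5) (nat_lit 4) (nat_lit 4) (nat_lit 2) (nat_lit 4) (nat_lit 492) (nat_lit 389) (nat_lit 319)) (XT.lf (nat_lit 0) (nat_lit 110856282548) (nat_lit 152) (nat_lit 455979352973) (nat_lit 0) (nat_lit 106359222040) (nat_lit 2) (nat_lit 5) (nat_lit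 4) (nat_lit 4) (nat_lit 2) (nat_lit 4) (nat_lit 493) (nat_lit 389) (nat_lit 318)))) (XT.nd (nat_lit 156) (nat_lit 0) (nat_lit 0) (XT.nd (nat_lit 78) (nat_lit 0) (nat_lit 0) (XT.lf (nat_lit 0) (nat_lit 147798694536) (nat_lit 152) (nat_lit 434529701029) (nat_lit 0) (nat_lit 143300217087) (nat_lit 2) (nat_lit 5) (nat_lit 4) (nat_lit 4) (nat_lit 2) (nat_lit 4) (nat_lit 494) (nat_lit 389) (nat_lit 317)) (XT.lf (nat_lit 0) (nat_lit 187679456439) (nat_lit 152) (nat_lit 411398796900) (nat_lit 0) (nat_lit 183179667008) (nat_lit 2) (nat_lit 5) (nat_lit 4) (nat_lit 4) (nat_lit 2) (nat_lit 4) (nat_lit 495) (nat_lit 389) (nat_lit 316))) (XT.nd (nat_lit 78) (nat_lit 0) (nat_lit 0) (XT.lf (nat_lit 0) (nat_lit 230734898697) (nat_lit 152) (nat_lit 386449568562) (nat_lit 0) (nat_lit 226233894468) (nat_lit 2) (nat_lit 5) (nat_lit 4) (nat_lit 4) (nat_lit 2) (nat_lit 4) (nat_lit 496) (nat_lit 389) (nat_lit 315))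 (XT.lf (nat_lit 0) (nat_lit 277220164672) (nat_lit 152) (nat_lit 359534168736) (nat_lit 0) (nat_lit 272718035630) (nat_lit 2) (nat_lit 5) (nat_lit 4) (nat_lit 4) (nat_lit 2) (nat_lit 4) (nat_lit 497) (nat_lit 389) (nat_lit 314))))) (XT.nd (nat_lit 312) (nat_lit 0) (nat_lit 0) (XT.nd (nat_lit 156) (nat_lit 0) (nat_lit 0) (XT.nd (nat_lit 78) (nat_lit 0) (nat_lit 0) (XT.lf (nat_lit 0) (nat_lit 327410722608) (nat_lit 152) (nat_lit 330493098757) (nat_lit 0) (nat_lit 322907552071) (nat_lit 2) (nat_lit 5) (nat_lit 4) (nat_lit 4) (nat_lit 2) (nat_lit 4) (nat_lit 498) (nat_lit 389) (nat_lit 313)) (XT.lf (nat_lit 0) (nat_lit 381603998031) (nat_lit 152) (nat_lit 299154263394) (nat_lit 0) (nat_lit 377099863148) (nat_lit 2) (nat_lit 5) (nat_lit 4) (nat_lit 4) (nat_lit 2) (nat_lit 4) (nat_lit 499) (nat_lit 389) (nat_lit 312))) (XT.nd (nat_lit 78) (nat_lit 0) (nat_lit 0) (XT.lf (nat_lit 0) (nat_lit 440121136279)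 (nat_lit 152) (nat_lit 265331951032) (nat_lit 0) (nat_lit 435616108483) (nat_lit 2) (nat_lit 5) (nat_lit 4) (nat_lit 4) (nat_lit 2) (nat_lit 4) (nat_lit 500) (nat_lit 389) (nat_lit 311)) (XT.lf (nat_lit 0) (nat_lit 503308905578) (nat_lit 152) (nat_lit 228825733152) (nat_lit 0) (nat_lit 498803051010) (nat_lit 2) (nat_lit 5) (nat_lit 4) (nat_lit 4) (nat_lit 2) (nat_lit 4) (nat_lit 501) (nat_lit 389) (nat_lit 310)))) (XT.nd (nat_lit 56082) (nat_lit 0) (nat_lit 6612) (XT.nd (nat_lit 78) (nat_lit 0) (nat_lit 0) (XT.lf (nat_lit 0) (nat_lit 571541751967) (nat_lit 152) (nat_lit 189419276611) (nat_lit 0) (nat_lit 567035131871) (nat_lit 2) (nat_lit 5) (nat_lit 4) (nat_lit 4) (nat_lit 2) (nat_lit 4) (nat_lit 502) (nat_lit 389) (nat_lit 309)) (XT.lf (nat_lit 0) (nat_lit 645224018242) (nat_lit 152) (nat_lit 146879061667) (nat_lit 0) (nat_lit 640716689322) (nat_lit 2) (nat_lit 5) (nat_lit 4) (nat_lit 4) (nat_lit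 2) (nat_lit 4) (nat_lit 503) (nat_lit 389) (nat_lit 308))) (XT.nd (nat_lit 78) (nat_lit 228) (nat_lit 0) (XT.lf (nat_lit 0) (nat_lit 472592456) (nat_lit 228) (nat_lit 2107923469) (nat_lit 228) (nat_lit 2107923469) (nat_lit 92) (nat_lit 4) (nat_lit 95) (nat_lit 5) (nat_lit 95) (nat_lit 4) (nat_lit 420) (nat_lit 390) (nat_lit 390)) (XT.lf (nat_lit 0) (nat_lit 3052941118) (nat_lit 228) (nat_lit 4808312913) (nat_lit 0) (nat_lit 1829467547) (nat_lit 89) (nat_lit 5) (nat_lit 92) (nat_lit 4) (nat_lit 89) (nat_lit 4) (nat_lit 421) (nat_lit 390) (nat_lit 389)))))) (XT.nd (nat_lit 546) (nat_lit 1368) (nat_lit 0) (XT.nd (nat_lit 234) (nat_lit 912) (nat_lit 0) (XT.nd (nat_lit 78) (nat_lit 532) (nat_lit 0) (XT.lf (nat_lit 0) (nat_lit 628178107) (nat_lit 304) (nat_lit 1068554351) (nat_lit 76) (nat_lit 8332840140) (nat_lit 85) (nat_lit 5) (nat_lit 89) (nat_lit 5) (nat_lit 86) (nat_lit 4) (nat_lit 422) (nat_lit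 390) (nat_lit 388)) (XT.nd (nat_lit 78) (nat_lit 228) (nat_lit 0) (XT.lf (nat_lit 0) (nat_lit 2842428221) (nat_lit 152) (nat_lit 5395518858) (nat_lit 152) (nat_lit 2152422801) (nat_lit 81) (nat_lit 4) (nat_lit 83) (nat_lit 5) (nat_lit 83) (nat_lit 4) (nat_lit 423) (nat_lit 390) (nat_lit 387)) (XT.lf (nat_lit 0) (nat_lit 5447286157) (nat_lit 228) (nat_lit 3853031415) (nat_lit 0) (nat_lit 1477686496) (nat_lit 78) (nat_lit 5) (nat_lit 81) (nat_lit 4) (nat_lit 78) (nat_lit 4) (nat_lit 424) (nat_lit 390) (nat_lit 386)))) (XT.nd (nat_lit 156) (nat_lit 380) (nat_lit 0) (XT.nd (nat_lit 78) (nat_lit 304) (nat_lit 0) (XT.lf (nat_lit 0) (nat_lit 2299622733) (nat_lit 228) (nat_lit 71055234) (nat_lit 76) (nat_lit 8822807649) (nat_lit 75) (nat_lit 5) (nat_lit 78) (nat_lit 5) (nat_lit 76) (nat_lit 4) (nat_lit 425) (nat_lit 390) (nat_lit 385)) (XT.lf (nat_lit 0) (nat_lit 3917630805) (nat_lit 152) (nat_lit 6496944937)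 (nat_lit 152) (nat_lit 1220237212) (nat_lit 71) (nat_lit 4) (nat_lit 73) (nat_lit 5) (nat_lit 73) (nat_lit 4) (nat_lit 426) (nat_lit 390) (nat_lit 384))) (XT.nd (nat_lit 78) (nat_lit 228) (nat_lit 0) (XT.lf (nat_lit 0) (nat_lit 6828232077) (nat_lit 152) (nat_lit 4109865180) (nat_lit 0) (nat_lit 1168495927) (nat_lit 69) (nat_lit 5) (nat_lit 71) (nat_lit 4) (nat_lit 69) (nat_lit 4) (nat_lit 427) (nat_lit 390) (nat_lit 383)) (XT.lf (nat_lit 0) (nat_lit 2825990069) (nat_lit 228) (nat_lit 453771529) (nat_lit 76) (nat_lit 9330392889) (nat_lit 66) (nat_lit 5) (nat_lit 69) (nat_lit 5) (nat_lit 67) (nat_lit 4) (nat_lit 428) (nat_lit 390) (nat_lit 382))))) (XT.nd (nat_lit 312) (nat_lit 532) (nat_lit 0) (XT.nd (nat_lit 156) (nat_lit 456) (nat_lit 0) (XT.nd (nat_lit 78) (nat_lit 152) (nat_lit 0) (XT.lf (nat_lit 0) (nat_lit 3363334677) (nat_lit 152) (nat_lit 8124568383) (nat_lit 152) (nat_lit 1657081359)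 (nat_lit 63) (nat_lit 4) (nat_lit 65) (nat_lit 5) (nat_lit 65) (nat_lit 4) (nat_lit 429) (nat_lit 390) (nat_lit 381)) (XT.lf (nat_lit 0) (nat_lit 6930818032) (nat_lit 152) (nat_lit 6469720866) (nat_lit 0) (nat_lit 314591872) (nat_lit 61) (nat_lit 5) (nat_lit 63) (nat_lit 4) (nat_lit 61) (nat_lit 4) (nat_lit 430) (nat_lit 390) (nat_lit 380))) (XT.nd (nat_lit 78) (nat_lit 228) (nat_lit 0) (XT.lf (nat_lit 0) (nat_lit 1885487716) (nat_lit 228) (nat_lit 3173860330) (nat_lit 76) (nat_lit 9262500798) (nat_lit 58) (nat_lit 5) (nat_lit 61) (nat_lit 5) (nat_lit 59) (nat_lit 4) (nat_lit 431) (nat_lit 390) (nat_lit 379)) (XT.lf (nat_lit 0) (nat_lit 116939254) (nat_lit 152) (nat_lit 10963978959) (nat_lit 152) (nat_lit 3887150960) (nat_lit 55) (nat_lit 4) (nat_lit 57) (nat_lit 5) (nat_lit 57) (nat_lit 4) (nat_lit 432) (nat_lit 390) (nat_lit 378)))) (XT.nd (nat_lit 156) (nat_lit 304) (nat_lit 0) (XT.nd (nat_lit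 78) (nat_lit 76) (nat_lit 0) (XT.lf (nat_lit 0) (nat_lit 3501071963) (nat_lit 76) (nat_lit 1827313552) (nat_lit 152) (nat_lit 10325764587) (nat_lit 53) (nat_lit 5) (nat_lit 54) (nat_lit 5) (nat_lit 55) (nat_lit 4) (nat_lit 433) (nat_lit 390) (nat_lit 377)) (XT.lf (nat_lit 0) (nat_lit 6839316108) (nat_lit 76) (nat_lit 8459064134) (nat_lit 76) (nat_lit 1085891159) (nat_lit 52) (nat_lit 4) (nat_lit 53) (nat_lit 5) (nat_lit 53) (nat_lit 4) (nat_lit 434) (nat_lit 390) (nat_lit 376))) (XT.nd (nat_lit 78) (nat_lit 152) (nat_lit 0) (XT.lf (nat_lit 0) (nat_lit 8702199954) (nat_lit 152) (nat_lit 7047364053) (nat_lit 0) (nat_lit 1411621777) (nat_lit 50) (nat_lit 5) (nat_lit 52) (nat_lit 4) (nat_lit 50) (nat_lit 4) (nat_lit 435) (nat_lit 390) (nat_lit 375)) (XT.lf (nat_lit 0) (nat_lit 1397260985) (nat_lit 152) (nat_lit 4674812302) (nat_lit 76) (nat_lit 11916288683) (nat_lit 48) (nat_lit 5) (nat_lit 50)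 (nat_lit 5) (nat_lit 49) (nat_lit 4) (nat_lit 436) (nat_lit 390) (nat_lit 374))))))))
noncomputable def xc30 : XT := (XT.nd (nat_lit 2262) (nat_lit 836) (nat_lit 0) (XT.nd (nat_lit 1092) (nat_lit 1140) (nat_lit 0) (XT.nd (nat_lit 546) (nat_lit 684) (nat_lit 0) (XT.nd (nat_lit 234) (nat_lit 456) (nat_lit 0) (XT.nd (nat_lit 78) (nat_lit 304) (nat_lit 0) (XT.lf (nat_lit 0) (nat_lit 11890646593) (nat_lit 152) (nat_lit 2485671567) (nat_lit 0) (nat_lit 4491217799) (nat_lit 47) (nat_lit 5) (nat_lit 49) (nat_lit 4) (nat_lit 47) (nat_lit 4) (nat_lit 437) (nat_lit 390) (nat_lit 373)) (XT.nd (nat_lit 78) (nat_lit 152) (nat_lit 0) (XT.lf (nat_lit 0) (nat_lit 3485303161) (nat_lit 152) (nat_lit 457558118) (nat_lit 76) (nat_lit 15862136246) (nat_lit 45) (nat_lit 5) (nat_lit 47) (nat_lit 5) (nat_lit 46) (nat_lit 4) (nat_lit 438) (nat_lit 390) (nat_lit 372)) (XT.lf (nat_lit 0) (nat_lit 1339114411) (nat_lit 76)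 (nat_lit 13440047344) (nat_lit 76) (nat_lit 6020625148) (nat_lit 43) (nat_lit 4) (nat_lit 44) (nat_lit 5) (nat_lit 44) (nat_lit 4) (nat_lit 439) (nat_lit 390) (nat_lit 371)))) (XT.nd (nat_lit 156) (nat_lit 228) (nat_lit 0) (XT.nd (nat_lit 78) (nat_lit 76) (nat_lit 0) (XT.lf (nat_lit 0) (nat_lit 2909065404) (nat_lit 76) (nat_lit 2210076268) (nat_lit 152) (nat_lit 16742035943) (nat_lit 41) (nat_lit 5) (nat_lit 42) (nat_lit 5) (nat_lit 43) (nat_lit 4) (nat_lit 440) (nat_lit 390) (nat_lit 370)) (XT.lf (nat_lit 0) (nat_lit 4071076579) (nat_lit 76) (nat_lit 13143912041) (nat_lit 76) (nat_lit 5773769311) (nat_lit 40) (nat_lit 4) (nat_lit 41) (nat_lit 5) (nat_lit 41) (nat_lit 4) (nat_lit 441) (nat_lit 390) (nat_lit 369))) (XT.nd (nat_lit 78) (nat_lit 76) (nat_lit 0) (XT.lf (nat_lit 0) (nat_lit 4887178652) (nat_lit 76) (nat_lit 1158021712) (nat_lit 152) (nat_lit 18148229493) (nat_lit 38) (nat_lit 5)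 (nat_lit 39) (nat_lit 5) (nat_lit 40) (nat_lit 4) (nat_lit 442) (nat_lit 390) (nat_lit 368)) (XT.lf (nat_lit 0) (nat_lit 5131546988) (nat_lit 76) (nat_lit 13804594055) (nat_lit 76) (nat_lit 6537168984) (nat_lit 37) (nat_lit 4) (nat_lit 38) (nat_lit 5) (nat_lit 38) (nat_lit 4) (nat_lit 443) (nat_lit 390) (nat_lit 367))))) (XT.nd (nat_lit 234) (nat_lit 304) (nat_lit 0) (XT.nd (nat_lit 78) (nat_lit 228) (nat_lit 0) (XT.lf (nat_lit 0) (nat_lit 4887501274) (nat_lit 76) (nat_lit 1095636636) (nat_lit 152) (nat_lit 20859135820) (nat_lit 35) (nat_lit 5) (nat_lit 36) (nat_lit 5) (nat_lit 37) (nat_lit 4) (nat_lit 444) (nat_lit 390) (nat_lit 366)) (XT.nd (nat_lit 78) (nat_lit 152) (nat_lit 0) (XT.lf (nat_lit 0) (nat_lit 3857552365) (nat_lit 76) (nat_lit 15781863949) (nat_lit 76) (nat_lit 8657814271) (nat_lit 34) (nat_lit 4) (nat_lit 35) (nat_lit 5) (nat_lit 35) (nat_lit 4) (nat_lit 445) (nat_lit 390) (nat_lit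 365)) (XT.lf (nat_lit 0) (nat_lit 2145559450) (nat_lit 76) (nat_lit 2420215689) (nat_lit 152) (nat_lit 25289742634) (nat_lit 32) (nat_lit 5) (nat_lit 33) (nat_lit 5) (nat_lit 34) (nat_lit 4) (nat_lit 446) (nat_lit 390) (nat_lit 364)))) (XT.nd (nat_lit 156) (nat_lit 152) (nat_lit 0) (XT.nd (nat_lit 78) (nat_lit 152) (nat_lit 0) (XT.lf (nat_lit 0) (nat_lit 18925720665) (nat_lit 152) (nat_lit 611153155) (nat_lit 0) (nat_lit 11975410381) (nat_lit 32) (nat_lit 5) (nat_lit 34) (nat_lit 4) (nat_lit 32) (nat_lit 4) (nat_lit 447) (nat_lit 390) (nat_lit 363)) (XT.lf (nat_lit 0) (nat_lit 1371640927) (nat_lit 152) (nat_lit 4212120290) (nat_lit 76) (nat_lit 27703197214) (nat_lit 30) (nat_lit 5) (nat_lit 32) (nat_lit 5) (nat_lit 31) (nat_lit 4) (nat_lit 448) (nat_lit 390) (nat_lit 362))) (XT.nd (nat_lit 78) (nat_lit 76) (nat_lit 0) (XT.lf (nat_lit 0) (nat_lit 16367363523) (nat_lit 152) (nat_lit 9194950118)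 (nat_lit 0) (nat_lit 9612886596) (nat_lit 29) (nat_lit 5) (nat_lit 31) (nat_lit 4) (nat_lit 29) (nat_lit 4) (nat_lit 449) (nat_lit 390) (nat_lit 361)) (XT.lf (nat_lit 0) (nat_lit 21702885689) (nat_lit 76) (nat_lit 11155728423) (nat_lit 76) (nat_lit 4341095780) (nat_lit 28) (nat_lit 4) (nat_lit 29) (nat_lit 5) (nat_lit 29) (nat_lit 4) (nat_lit 450) (nat_lit 390) (nat_lit 360)))))) (XT.nd (nat_lit 546) (nat_lit 532) (nat_lit 0) (XT.nd (nat_lit 234) (nat_lit 304) (nat_lit 0) (XT.nd (nat_lit 78) (nat_lit 152) (nat_lit 0) (XT.lf (nat_lit 0) (nat_lit 11203040320) (nat_lit 152) (nat_lit 23500408109) (nat_lit 0) (nat_lit 4659866625) (nat_lit 26) (nat_lit 5) (nat_lit 28) (nat_lit 4) (nat_lit 26) (nat_lit 4) (nat_lit 451) (nat_lit 390) (nat_lit 359)) (XT.nd (nat_lit 78) (nat_lit 76) (nat_lit 0) (XT.lf (nat_lit 0) (nat_lit 8193632698) (nat_lit 76) (nat_lit 20037736642) (nat_lit 76) (nat_lit 13445445013)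 (nat_lit 25) (nat_lit 4) (nat_lit 26) (nat_lit 5) (nat_lit 26) (nat_lit 4) (nat_lit 452) (nat_lit 390) (nat_lit 358)) (XT.lf (nat_lit 0) (nat_lit 2590325665) (nat_lit 152) (nat_lit 1327603582) (nat_lit 76) (nat_lit 40244452901) (nat_lit 24) (nat_lit 5) (nat_lit 26) (nat_lit 5) (nat_lit 25) (nat_lit 4) (nat_lit 453) (nat_lit 390) (nat_lit 357)))) (XT.nd (nat_lit 156) (nat_lit 152) (nat_lit 0) (XT.nd (nat_lit 78) (nat_lit 76) (nat_lit 0) (XT.lf (nat_lit 0) (nat_lit 20013981007) (nat_lit 152) (nat_lit 13140801835) (nat_lit 0) (nat_lit 13652188714) (nat_lit 23) (nat_lit 5) (nat_lit 25) (nat_lit 4) (nat_lit 23) (nat_lit 4) (nat_lit 454) (nat_lit 390) (nat_lit 356)) (XT.lf (nat_lit 0) (nat_lit 22135480903) (nat_lit 76) (nat_lit 16956769664) (nat_lit 76) (nat_lit 10557842705) (nat_lit 22) (nat_lit 4) (nat_lit 23) (nat_lit 5) (nat_lit 23) (nat_lit 4) (nat_lit 455) (nat_lit 390) (nat_lit 355))) (XT.nd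 (nat_lit 78) (nat_lit 0) (nat_lit 0) (XT.lf (nat_lit 0) (nat_lit 6950882468) (nat_lit 152) (nat_lit 44930515578) (nat_lit 0) (nat_lit 823919698) (nat_lit 20) (nat_lit 5) (nat_lit 22) (nat_lit 4) (nat_lit 20) (nat_lit 4) (nat_lit 456) (nat_lit 390) (nat_lit 354)) (XT.lf (nat_lit 0) (nat_lit 26103794173) (nat_lit 152) (nat_lit 9915333393) (nat_lit 0) (nat_lit 19946510459) (nat_lit 20) (nat_lit 5) (nat_lit 22) (nat_lit 4) (nat_lit 20) (nat_lit 4) (nat_lit 457) (nat_lit 390) (nat_lit 353))))) (XT.nd (nat_lit 312) (nat_lit 228) (nat_lit 0) (XT.nd (nat_lit 156) (nat_lit 76) (nat_lit 0) (XT.nd (nat_lit 78) (nat_lit 152) (nat_lit 0) (XT.lf (nat_lit 0) (nat_lit 28505604460) (nat_lit 76) (nat_lit 18575954043) (nat_lit 76) (nat_lit 12390595380) (nat_lit 19) (nat_lit 4) (nat_lit 20) (nat_lit 5) (nat_lit 20) (nat_lit 4) (nat_lit 458) (nat_lit 390) (nat_lit 352)) (XT.lf (nat_lit 0) (nat_lit 6414546224) (nat_lit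 152) (nat_lit 56333440302) (nat_lit 0) (nat_lit 498971001) (nat_lit 17) (nat_lit 5) (nat_lit 19) (nat_lit 4) (nat_lit 17) (nat_lit 4) (nat_lit 459) (nat_lit 390) (nat_lit 351))) (XT.nd (nat_lit 78) (nat_lit 76) (nat_lit 0) (XT.lf (nat_lit 0) (nat_lit 27013395829) (nat_lit 152) (nat_lit 19189126994) (nat_lit 0) (nat_lit 21074897042) (nat_lit 17) (nat_lit 5) (nat_lit 19) (nat_lit 4) (nat_lit 17) (nat_lit 4) (nat_lit 460) (nat_lit 390) (nat_lit 350)) (XT.lf (nat_lit 0) (nat_lit 21340165120) (nat_lit 76) (nat_lit 28119940734) (nat_lit 76) (nat_lit 22160216423) (nat_lit 16) (nat_lit 4) (nat_lit 17) (nat_lit 5) (nat_lit 17) (nat_lit 4) (nat_lit 461) (nat_lit 390) (nat_lit 349)))) (XT.nd (nat_lit 156) (nat_lit 76) (nat_lit 0) (XT.nd (nat_lit 78) (nat_lit 152) (nat_lit 0) (XT.lf (nat_lit 0) (nat_lit 65539169153) (nat_lit 76) (nat_lit 8370261042) (nat_lit 76) (nat_lit 2390883470) (nat_lit 16) (nat_lit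 4) (nat_lit 17) (nat_lit 5) (nat_lit 17) (nat_lit 4) (nat_lit 462) (nat_lit 390) (nat_lit 348)) (XT.lf (nat_lit 0) (nat_lit 18952978750) (nat_lit 152) (nat_lit 49115931691) (nat_lit 0) (nat_lit 13241002525) (nat_lit 14) (nat_lit 5) (nat_lit 16) (nat_lit 4) (nat_lit 14) (nat_lit 4) (nat_lit 463) (nat_lit 390) (nat_lit 347))) (XT.nd (nat_lit 78) (nat_lit 76) (nat_lit 0) (XT.lf (nat_lit 0) (nat_lit 42136904812) (nat_lit 152) (nat_lit 8161718765) (nat_lit 0) (nat_lit 36408881441) (nat_lit 14) (nat_lit 5) (nat_lit 16) (nat_lit 4) (nat_lit 14) (nat_lit 4) (nat_lit 464) (nat_lit 390) (nat_lit 346)) (XT.lf (nat_lit 0) (nat_lit 37035609632) (nat_lit 76) (nat_lit 30610328735) (nat_lit 76) (nat_lit 24867446894) (nat_lit 13) (nat_lit 4) (nat_lit 14) (nat_lit 5) (nat_lit 14) (nat_lit 4) (nat_lit 465) (nat_lit 390) (nat_lit 345))))))) (XT.nd (nat_lit 1170) (nat_lit 228) (nat_lit 0) (XT.nd (nat_lit 546) (nat_lit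 228) (nat_lit 0) (XT.nd (nat_lit 234) (nat_lit 228) (nat_lit 0) (XT.nd (nat_lit 78) (nat_lit 152) (nat_lit 0) (XT.lf (nat_lit 0) (nat_lit 85931084042) (nat_lit 76) (nat_lit 9303669538) (nat_lit 76) (nat_lit 3547029855) (nat_lit 13) (nat_lit 4) (nat_lit 14) (nat_lit 5) (nat_lit 14) (nat_lit 4) (nat_lit 466) (nat_lit 390) (nat_lit 344)) (XT.nd (nat_lit 78) (nat_lit 0) (nat_lit 0) (XT.lf (nat_lit 0) (nat_lit 19511800102) (nat_lit 152) (nat_lit 71974682188) (nat_lit 0) (nat_lit 14017153983) (nat_lit 11) (nat_lit 5) (nat_lit 13) (nat_lit 4) (nat_lit 11) (nat_lit 4) (nat_lit 467) (nat_lit 390) (nat_lit 343)) (XT.lf (nat_lit 0) (nat_lit 44582842528) (nat_lit 152) (nat_lit 29085935997) (nat_lit 0) (nat_lit 39076962950) (nat_lit 11) (nat_lit 5) (nat_lit 13) (nat_lit 4) (nat_lit 11) (nat_lit 4) (nat_lit 468) (nat_lit 390) (nat_lit 342)))) (XT.nd (nat_lit 156) (nat_lit 152) (nat_lit 0) (XT.nd (nat_lit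 78) (nat_lit 0) (nat_lit 0) (XT.lf (nat_lit 0) (nat_lit 17620649774) (nat_lit 76) (nat_lit 54226728061) (nat_lit 76) (nat_lit 48710447132) (nat_lit 10) (nat_lit 4) (nat_lit 11) (nat_lit 5) (nat_lit 11) (nat_lit 4) (nat_lit 469) (nat_lit 390) (nat_lit 341)) (XT.lf (nat_lit 0) (nat_lit 68932883090) (nat_lit 76) (nat_lit 32783372598) (nat_lit 76) (nat_lit 27257460788) (nat_lit 10) (nat_lit 4) (nat_lit 11) (nat_lit 5) (nat_lit 11) (nat_lit 4) (nat_lit 470) (nat_lit 390) (nat_lit 340))) (XT.nd (nat_lit 78) (nat_lit 152) (nat_lit 0) (XT.lf (nat_lit 0) (nat_lit 124193124045) (nat_lit 76) (nat_lit 9704224798) (nat_lit 76) (nat_lit 4169395506) (nat_lit 10) (nat_lit 4) (nat_lit 11) (nat_lit 5) (nat_lit 11) (nat_lit 4) (nat_lit 471) (nat_lit 390) (nat_lit 339)) (XT.lf (nat_lit 0) (nat_lit 20852343121) (nat_lit 152) (nat_lit 111407884622) (nat_lit 0) (nat_lit 15573213388) (nat_lit 8) (nat_lit 5) (nat_lit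 10) (nat_lit 4) (nat_lit 8) (nat_lit 4) (nat_lit 472) (nat_lit 390) (nat_lit 338))))) (XT.nd (nat_lit 312) (nat_lit 152) (nat_lit 0) (XT.nd (nat_lit 156) (nat_lit 76) (nat_lit 0) (XT.nd (nat_lit 78) (nat_lit 0) (nat_lit 0) (XT.lf (nat_lit 0) (nat_lit 48070279119) (nat_lit 152) (nat_lit 67506882420) (nat_lit 0) (nat_lit 42783868145) (nat_lit 8) (nat_lit 5) (nat_lit 10) (nat_lit 4) (nat_lit 8) (nat_lit 4) (nat_lit 473) (nat_lit 390) (nat_lit 337)) (XT.lf (nat_lit 0) (nat_lit 77400204110) (nat_lit 152) (nat_lit 20226842484) (nat_lit 0) (nat_lit 72107051246) (nat_lit 8) (nat_lit 5) (nat_lit 10) (nat_lit 4) (nat_lit 8) (nat_lit 4) (nat_lit 474) (nat_lit 390) (nat_lit 336))) (XT.nd (nat_lit 78) (nat_lit 0) (nat_lit 0) (XT.lf (nat_lit 0) (nat_lit 31727904281) (nat_lit 76) (nat_lit 77783382279) (nat_lit 76) (nat_lit 72483986924) (nat_lit 7) (nat_lit 4) (nat_lit 8) (nat_lit 5) (nat_lit 8) (nat_lit 4)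 (nat_lit 475) (nat_lit 390) (nat_lit 335)) (XT.lf (nat_lit 0) (nat_lit 88443490938) (nat_lit 76) (nat_lit 56042154199) (nat_lit 76) (nat_lit 50736978760) (nat_lit 7) (nat_lit 4) (nat_lit 8) (nat_lit 5) (nat_lit 8) (nat_lit 4) (nat_lit 476) (nat_lit 390) (nat_lit 334)))) (XT.nd (nat_lit 156) (nat_lit 152) (nat_lit 0) (XT.nd (nat_lit 78) (nat_lit 0) (nat_lit 0) (XT.lf (nat_lit 0) (nat_lit 149587219092) (nat_lit 76) (nat_lit 32617076812) (nat_lit 76) (nat_lit 27306549443) (nat_lit 7) (nat_lit 4) (nat_lit 8) (nat_lit 5) (nat_lit 8) (nat_lit 4) (nat_lit 477) (nat_lit 390) (nat_lit 333)) (XT.lf (nat_lit 0) (nat_lit 215521421947) (nat_lit 76) (nat_lit 7369334845) (nat_lit 76) (nat_lit 2053851985) (nat_lit 7) (nat_lit 4) (nat_lit 8) (nat_lit 5) (nat_lit 8) (nat_lit 4) (nat_lit 478) (nat_lit 390) (nat_lit 332))) (XT.nd (nat_lit 78) (nat_lit 0) (nat_lit 0) (XT.lf (nat_lit 0) (nat_lit 25413119120) (nat_lit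 152) (nat_lit 195783821459) (nat_lit 0) (nat_lit 20346384570) (nat_lit 5) (nat_lit 5) (nat_lit 7) (nat_lit 4) (nat_lit 5) (nat_lit 4) (nat_lit 479) (nat_lit 390) (nat_lit 331)) (XT.lf (nat_lit 0) (nat_lit 55252115467) (nat_lit 152) (nat_lit 154022474094) (nat_lit 0) (nat_lit 50181334695) (nat_lit 5) (nat_lit 5) (nat_lit 7) (nat_lit 4) (nat_lit 5) (nat_lit 4) (nat_lit 480) (nat_lit 390) (nat_lit 330)))))) (XT.nd (nat_lit 546) (nat_lit 152) (nat_lit 0) (XT.nd (nat_lit 234) (nat_lit 76) (nat_lit 0) (XT.nd (nat_lit 78) (nat_lit 0) (nat_lit 0) (XT.lf (nat_lit 0) (nat_lit 87436162387) (nat_lit 152) (nat_lit 109005837377) (nat_lit 0) (nat_lit 82361635111) (nat_lit 5) (nat_lit 5) (nat_lit 7) (nat_lit 4) (nat_lit 5) (nat_lit 4) (nat_lit 481) (nat_lit 390) (nat_lit 329)) (XT.nd (nat_lit 78) (nat_lit 0) (nat_lit 0) (XT.lf (nat_lit 0) (nat_lit 122155980155) (nat_lit 152) (nat_lit 60467146053) (nat_lit 0)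 (nat_lit 117077983895) (nat_lit 5) (nat_lit 5) (nat_lit 7) (nat_lit 4) (nat_lit 5) (nat_lit 4) (nat_lit 482) (nat_lit 390) (nat_lit 328)) (XT.lf (nat_lit 0) (nat_lit 159617315842) (nat_lit 152) (nat_lit 8118763431) (nat_lit 0) (nat_lit 154536107560) (nat_lit 5) (nat_lit 5) (nat_lit 7) (nat_lit 4) (nat_lit 5) (nat_lit 4) (nat_lit 483) (nat_lit 390) (nat_lit 327)))) (XT.nd (nat_lit 156) (nat_lit 0) (nat_lit 0) (XT.nd (nat_lit 78) (nat_lit 0) (nat_lit 0) (XT.lf (nat_lit 0) (nat_lit 49948176711) (nat_lit 76) (nat_lit 150873816854) (nat_lit 76) (nat_lit 145789634477) (nat_lit 4) (nat_lit 4) (nat_lit 5) (nat_lit 5) (nat_lit 5) (nat_lit 4) (nat_lit 484) (nat_lit 390) (nat_lit 326)) (XT.lf (nat_lit 0) (nat_lit 112885377563) (nat_lit 76) (nat_lit 132547154460) (nat_lit 76) (nat_lit 127460218291) (nat_lit 4) (nat_lit 4) (nat_lit 5) (nat_lit 5) (nat_lit 5) (nat_lit 4) (nat_lit 485) (nat_lit 390) (nat_lit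 325))) (XT.nd (nat_lit 78) (nat_lit 0) (nat_lit 0) (XT.lf (nat_lit 0) (nat_lit 180797357328) (nat_lit 76) (nat_lit 112784984835) (nat_lit 76) (nat_lit 107695498859) (nat_lit 4) (nat_lit 4) (nat_lit 5) (nat_lit 5) (nat_lit 5) (nat_lit 4) (nat_lit 486) (nat_lit 390) (nat_lit 324)) (XT.lf (nat_lit 0) (nat_lit 254086557369) (nat_lit 76) (nat_lit 91470198826) (nat_lit 76) (nat_lit 86378351917) (nat_lit 4) (nat_lit 4) (nat_lit 5) (nat_lit 5) (nat_lit 5) (nat_lit 4) (nat_lit 487) (nat_lit 390) (nat_lit 323))))) (XT.nd (nat_lit 312) (nat_lit 0) (nat_lit 0) (XT.nd (nat_lit 156) (nat_lit 152) (nat_lit 0) (XT.nd (nat_lit 78) (nat_lit 0) (nat_lit 0) (XT.lf (nat_lit 0) (nat_lit 333187284057) (nat_lit 76) (nat_lit 68476486589) (nat_lit 76) (nat_lit 63382453632) (nat_lit 4) (nat_lit 4) (nat_lit 5) (nat_lit 5) (nat_lit 5) (nat_lit 4) (nat_lit 488) (nat_lit 390) (nat_lit 322)) (XT.lf (nat_lit 0) (nat_lit 418568282438)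 (nat_lit 76) (nat_lit 43667589090) (nat_lit 76) (nat_lit 38571532014) (nat_lit 4) (nat_lit 4) (nat_lit 5) (nat_lit 5) (nat_lit 5) (nat_lit 4) (nat_lit 489) (nat_lit 390) (nat_lit 321))) (XT.nd (nat_lit 78) (nat_lit 152) (nat_lit 0) (XT.lf (nat_lit 0) (nat_lit 510735513984) (nat_lit 76) (nat_lit 16896490639) (nat_lit 76) (nat_lit 11798559378) (nat_lit 4) (nat_lit 4) (nat_lit 5) (nat_lit 5) (nat_lit 5) (nat_lit 4) (nat_lit 490) (nat_lit 390) (nat_lit 320)) (XT.lf (nat_lit 0) (nat_lit 17212145597) (nat_lit 152) (nat_lit 551530563803) (nat_lit 0) (nat_lit 12355320248) (nat_lit 2) (nat_lit 5) (nat_lit 4) (nat_lit 4) (nat_lit 2) (nat_lit 4) (nat_lit 491) (nat_lit 390) (nat_lit 319)))) (XT.nd (nat_lit 156) (nat_lit 0) (nat_lit 0) (XT.nd (nat_lit 78) (nat_lit 0) (nat_lit 0) (XT.lf (nat_lit 0) (nat_lit 48908939380) (nat_lit 152) (nat_lit 533090768710) (nat_lit 0) (nat_lit 44050583735) (nat_lit 2) (nat_lit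 5) (nat_lit 4) (nat_lit 4) (nat_lit 2) (nat_lit 4) (nat_lit 492) (nat_lit 390) (nat_lit 318)) (XT.lf (nat_lit 0) (nat_lit 83123070177) (nat_lit 152) (nat_lit 513213287579) (nat_lit 0) (nat_lit 78263297591) (nat_lit 2) (nat_lit 5) (nat_lit 4) (nat_lit 4) (nat_lit 2) (nat_lit 4) (nat_lit 493) (nat_lit 390) (nat_lit 317))) (XT.nd (nat_lit 78) (nat_lit 0) (nat_lit 0) (XT.lf (nat_lit 0) (nat_lit 120057288394) (nat_lit 152) (nat_lit 491780327928) (nat_lit 0) (nat_lit 115196203826) (nat_lit 2) (nat_lit 5) (nat_lit 4) (nat_lit 4) (nat_lit 2) (nat_lit 4) (nat_lit 494) (nat_lit 390) (nat_lit 316)) (XT.lf (nat_lit 0) (nat_lit 159930463471) (nat_lit 152) (nat_lit 468664879627) (nat_lit 0) (nat_lit 155068164105) (nat_lit 2) (nat_lit 5) (nat_lit 4) (nat_lit 4) (nat_lit 2) (nat_lit 4) (nat_lit 495) (nat_lit 390) (nat_lit 315))))))))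
noncomputable def xc31 : XT := (XT.nd (nat_lit 58110) (nat_lit 0) (nat_lit 684) (XT.nd (nat_lit 56940) (nat_lit 0) (nat_lit 3192) (XT.nd (nat_lit 546) (nat_lit 0) (nat_lit 0) (XT.nd (nat_lit 234) (nat_lit 0) (nat_lit 0) (XT.nd (nat_lit 78) (nat_lit 0) (nat_lit 0) (XT.lf (nat_lit 0) (nat_lit 202978880891) (nat_lit 152) (nat_lit 443729962240) (nat_lit 0) (nat_lit 198115456711) (nat_lit 2) (nat_lit 5) (nat_lit 4) (nat_lit 4) (nat_lit 2) (nat_lit 4) (nat_lit 496) (nat_lit 390) (nat_lit 314)) (XT.nd (nat_lit 78) (nat_lit 0) (nat_lit 0) (XT.lf (nat_lit 0) (nat_lit 249457642386) (nat_lit 152) (nat_lit 416827813296) (nat_lit 0) (nat_lit 244593176713) (nat_lit 2) (nat_lit 5) (nat_lit 4) (nat_lit 4) (nat_lit 2) (nat_lit 4) (nat_lit 497) (nat_lit 390) (nat_lit 313)) (XT.lf (nat_lit 0) (nat_lit 299642177655) (nat_lit 152) (nat_lit 387799012651) (nat_lit 0) (nat_lit 294776747636) (nat_lit 2) (nat_lit 5)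 (nat_lit 4) (nat_lit 4) (nat_lit 2) (nat_lit 4) (nat_lit 498) (nat_lit 390) (nat_lit 312)))) (XT.nd (nat_lit 156) (nat_lit 0) (nat_lit 0) (XT.nd (nat_lit 78) (nat_lit 0) (nat_lit 0) (XT.lf (nat_lit 0) (nat_lit 353829876535) (nat_lit 152) (nat_lit 356471537783) (nat_lit 0) (nat_lit 348963553603) (nat_lit 2) (nat_lit 5) (nat_lit 4) (nat_lit 4) (nat_lit 2) (nat_lit 4) (nat_lit 499) (nat_lit 390) (nat_lit 311)) (XT.lf (nat_lit 0) (nat_lit 412341851317) (nat_lit 152) (nat_lit 322659744397) (nat_lit 0) (nat_lit 407474701613) (nat_lit 2) (nat_lit 5) (nat_lit 4) (nat_lit 4) (nat_lit 2) (nat_lit 4) (nat_lit 500) (nat_lit 390) (nat_lit 310))) (XT.nd (nat_lit 78) (nat_lit 0) (nat_lit 0) (XT.lf (nat_lit 0) (nat_lit 475524839629) (nat_lit 152) (nat_lit 286163266310) (nat_lit 0) (nat_lit 470656924396) (nat_lit 2) (nat_lit 5) (nat_lit 4) (nat_lit 4) (nat_lit 2) (nat_lit 4) (nat_lit 501) (nat_lit 390) (nat_lit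 309)) (XT.lf (nat_lit 0) (nat_lit 543753259179) (nat_lit 152) (nat_lit 246765828096) (nat_lit 0) (nat_lit 538884635123) (nat_lit 2) (nat_lit 5) (nat_lit 4) (nat_lit 4) (nat_lit 2) (nat_lit 4) (nat_lit 502) (nat_lit 390) (nat_lit 308))))) (XT.nd (nat_lit 56082) (nat_lit 0) (nat_lit 5776) (XT.nd (nat_lit 55926) (nat_lit 0) (nat_lit 6840) (XT.nd (nat_lit 55848) (nat_lit 0) (nat_lit 7524) (XT.lf (nat_lit 0) (nat_lit 617431426528) (nat_lit 152) (nat_lit 204233963455) (nat_lit 0) (nat_lit 612562146154) (nat_lit 2) (nat_lit 5) (nat_lit 4) (nat_lit 4) (nat_lit 2) (nat_lit 4) (nat_lit 503) (nat_lit 390) (nat_lit 307)) (XT.lf (nat_lit 0) (nat_lit 713124115) (nat_lit 304) (nat_lit 2976987110) (nat_lit 0) (nat_lit 713124115) (nat_lit 101) (nat_lit 5) (nat_lit 105) (nat_lit 4) (nat_lit 101) (nat_lit 4) (nat_lit 418) (nat_lit 391) (nat_lit 391))) (XT.nd (nat_lit 78) (nat_lit 456) (nat_lit 0) (XT.lf (nat_lit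 0) (nat_lit 6349216826) (nat_lit 228) (nat_lit 2096841536) (nat_lit 228) (nat_lit 640051554) (nat_lit 98) (nat_lit 4) (nat_lit 101) (nat_lit 5) (nat_lit 101) (nat_lit 4) (nat_lit 419) (nat_lit 391) (nat_lit 390)) (XT.lf (nat_lit 0) (nat_lit 603886955) (nat_lit 228) (nat_lit 5727954630) (nat_lit 228) (nat_lit 3055888350) (nat_lit 92) (nat_lit 4) (nat_lit 95) (nat_lit 5) (nat_lit 95) (nat_lit 4) (nat_lit 420) (nat_lit 391) (nat_lit 389)))) (XT.nd (nat_lit 156) (nat_lit 532) (nat_lit 0) (XT.nd (nat_lit 78) (nat_lit 304) (nat_lit 0) (XT.lf (nat_lit 0) (nat_lit 3935374130) (nat_lit 228) (nat_lit 5519628096) (nat_lit 0) (nat_lit 257703202) (nat_lit 89) (nat_lit 5) (nat_lit 92) (nat_lit 4) (nat_lit 89) (nat_lit 4) (nat_lit 421) (nat_lit 391) (nat_lit 388)) (XT.lf (nat_lit 0) (nat_lit 1245628785) (nat_lit 304) (nat_lit 2173063306) (nat_lit 76) (nat_lit 6642981673) (nat_lit 85) (nat_lit 5) (nat_lit 89)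 (nat_lit 5) (nat_lit 86) (nat_lit 4) (nat_lit 422) (nat_lit 391) (nat_lit 387))) (XT.nd (nat_lit 78) (nat_lit 228) (nat_lit 0) (XT.lf (nat_lit 0) (nat_lit 1319750186) (nat_lit 152) (nat_lit 7271233040) (nat_lit 152) (nat_lit 1844723437) (nat_lit 81) (nat_lit 4) (nat_lit 83) (nat_lit 5) (nat_lit 83) (nat_lit 4) (nat_lit 423) (nat_lit 391) (nat_lit 386)) (XT.lf (nat_lit 0) (nat_lit 4995473031) (nat_lit 152) (nat_lit 506209368) (nat_lit 228) (nat_lit 5333604120) (nat_lit 78) (nat_lit 5) (nat_lit 80) (nat_lit 5) (nat_lit 81) (nat_lit 4) (nat_lit 424) (nat_lit 391) (nat_lit 385)))))) (XT.nd (nat_lit 546) (nat_lit 1140) (nat_lit 0) (XT.nd (nat_lit 234) (nat_lit 760) (nat_lit 0) (XT.nd (nat_lit 78) (nat_lit 456) (nat_lit 0) (XT.lf (nat_lit 0) (nat_lit 2066420706) (nat_lit 228) (nat_lit 2502885385) (nat_lit 76) (nat_lit 6692996216) (nat_lit 75) (nat_lit 5) (nat_lit 78) (nat_lit 5) (nat_lit 76) (nat_lit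 4) (nat_lit 425) (nat_lit 391) (nat_lit 384)) (XT.nd (nat_lit 78) (nat_lit 152) (nat_lit 0) (XT.lf (nat_lit 0) (nat_lit 953092444) (nat_lit 152) (nat_lit 8924935616) (nat_lit 152) (nat_lit 1840779588) (nat_lit 71) (nat_lit 4) (nat_lit 73) (nat_lit 5) (nat_lit 73) (nat_lit 4) (nat_lit 426) (nat_lit 391) (nat_lit 383)) (XT.lf (nat_lit 0) (nat_lit 4553335078) (nat_lit 76) (nat_lit 1424309739) (nat_lit 152) (nat_lit 6225932242) (nat_lit 69) (nat_lit 5) (nat_lit 70) (nat_lit 5) (nat_lit 71) (nat_lit 4) (nat_lit 427) (nat_lit 391) (nat_lit 382)))) (XT.nd (nat_lit 156) (nat_lit 456) (nat_lit 0) (XT.nd (nat_lit 78) (nat_lit 76) (nat_lit 0) (XT.lf (nat_lit 0) (nat_lit 1650033714) (nat_lit 228) (nat_lit 4495371373) (nat_lit 76) (nat_lit 6575416993) (nat_lit 66) (nat_lit 5) (nat_lit 69) (nat_lit 5) (nat_lit 67) (nat_lit 4) (nat_lit 428) (nat_lit 391) (nat_lit 381)) (XT.lf (nat_lit 0) (nat_lit 9976248047)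 (nat_lit 152) (nat_lit 1302299480) (nat_lit 0) (nat_lit 1993897138) (nat_lit 65) (nat_lit 5) (nat_lit 67) (nat_lit 4) (nat_lit 65) (nat_lit 4) (nat_lit 429) (nat_lit 391) (nat_lit 380))) (XT.nd (nat_lit 78) (nat_lit 152) (nat_lit 0) (XT.lf (nat_lit 0) (nat_lit 1963767742) (nat_lit 76) (nat_lit 3104596570) (nat_lit 152) (nat_lit 8789303090) (nat_lit 61) (nat_lit 5) (nat_lit 62) (nat_lit 5) (nat_lit 63) (nat_lit 4) (nat_lit 430) (nat_lit 391) (nat_lit 379)) (XT.lf (nat_lit 0) (nat_lit 5317549960) (nat_lit 152) (nat_lit 8790050918) (nat_lit 152) (nat_lit 373368717) (nat_lit 59) (nat_lit 4) (nat_lit 61) (nat_lit 5) (nat_lit 61) (nat_lit 4) (nat_lit 431) (nat_lit 391) (nat_lit 378))))) (XT.nd (nat_lit 312) (nat_lit 456) (nat_lit 0) (XT.nd (nat_lit 156) (nat_lit 304) (nat_lit 0) (XT.nd (nat_lit 78) (nat_lit 228) (nat_lit 0) (XT.lf (nat_lit 0) (nat_lit 8512668504) (nat_lit 152) (nat_lit 6479395267)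 (nat_lit 0) (nat_lit 151490349) (nat_lit 57) (nat_lit 5) (nat_lit 59) (nat_lit 4) (nat_lit 57) (nat_lit 4) (nat_lit 432) (nat_lit 391) (nat_lit 377)) (XT.lf (nat_lit 0) (nat_lit 2353449199) (nat_lit 228) (nat_lit 3856320576) (nat_lit 76) (nat_lit 9637962959) (nat_lit 54) (nat_lit 5) (nat_lit 57) (nat_lit 5) (nat_lit 55) (nat_lit 4) (nat_lit 433) (nat_lit 391) (nat_lit 376))) (XT.nd (nat_lit 78) (nat_lit 228) (nat_lit 0) (XT.lf (nat_lit 0) (nat_lit 11932035765) (nat_lit 152) (nat_lit 1282807214) (nat_lit 0) (nat_lit 3382586001) (nat_lit 53) (nat_lit 5) (nat_lit 55) (nat_lit 4) (nat_lit 53) (nat_lit 4) (nat_lit 434) (nat_lit 391) (nat_lit 375)) (XT.lf (nat_lit 0) (nat_lit 1247341578) (nat_lit 76) (nat_lit 3658922540) (nat_lit 152) (nat_lit 12487427561) (nat_lit 50) (nat_lit 5) (nat_lit 51) (nat_lit 5) (nat_lit 52) (nat_lit 4) (nat_lit 435) (nat_lit 391) (nat_lit 374)))) (XT.nd (nat_lit 156) (nat_lit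 228) (nat_lit 0) (XT.nd (nat_lit 78) (nat_lit 152) (nat_lit 0) (XT.lf (nat_lit 0) (nat_lit 3711174162) (nat_lit 76) (nat_lit 11574766523) (nat_lit 76) (nat_lit 2953611358) (nat_lit 49) (nat_lit 4) (nat_lit 50) (nat_lit 5) (nat_lit 50) (nat_lit 4) (nat_lit 436) (nat_lit 391) (nat_lit 373)) (XT.lf (nat_lit 0) (nat_lit 6048611614) (nat_lit 76) (nat_lit 1211348201) (nat_lit 152) (nat_lit 11879792614) (nat_lit 47) (nat_lit 5) (nat_lit 48) (nat_lit 5) (nat_lit 49) (nat_lit 4) (nat_lit 437) (nat_lit 391) (nat_lit 372))) (XT.nd (nat_lit 78) (nat_lit 152) (nat_lit 0) (XT.lf (nat_lit 0) (nat_lit 8199470437) (nat_lit 76) (nat_lit 10249295363) (nat_lit 76) (nat_lit 1647706884) (nat_lit 46) (nat_lit 4) (nat_lit 47) (nat_lit 5) (nat_lit 47) (nat_lit 4) (nat_lit 438) (nat_lit 391) (nat_lit 371)) (XT.lf (nat_lit 0) (nat_lit 9254844353) (nat_lit 152) (nat_lit 10962806361) (nat_lit 0) (nat_lit 897102497) (nat_lit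 44) (nat_lit 5) (nat_lit 46) (nat_lit 4) (nat_lit 44) (nat_lit 4) (nat_lit 439) (nat_lit 391) (nat_lit 370))))))) (XT.nd (nat_lit 1170) (nat_lit 912) (nat_lit 0) (XT.nd (nat_lit 546) (nat_lit 836) (nat_lit 0) (XT.nd (nat_lit 234) (nat_lit 456) (nat_lit 0) (XT.nd (nat_lit 78) (nat_lit 228) (nat_lit 0) (XT.lf (nat_lit 0) (nat_lit 11844685498) (nat_lit 76) (nat_lit 9432215251) (nat_lit 76) (nat_lit 920998554) (nat_lit 43) (nat_lit 4) (nat_lit 44) (nat_lit 5) (nat_lit 44) (nat_lit 4) (nat_lit 440) (nat_lit 391) (nat_lit 369)) (XT.nd (nat_lit 78) (nat_lit 76) (nat_lit 0) (XT.lf (nat_lit 0) (nat_lit 10729209054) (nat_lit 152) (nat_lit 10132798540) (nat_lit 0) (nat_lit 2487949024) (nat_lit 41) (nat_lit 5) (nat_lit 43) (nat_lit 4) (nat_lit 41) (nat_lit 4) (nat_lit 441) (nat_lit 391) (nat_lit 368)) (XT.lf (nat_lit 0) (nat_lit 14247431482) (nat_lit 76) (nat_lit 9348369413) (nat_lit 76) (nat_lit 981795155)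 (nat_lit 40) (nat_lit 4) (nat_lit 41) (nat_lit 5) (nat_lit 41) (nat_lit 4) (nat_lit 442) (nat_lit 391) (nat_lit 367)))) (XT.nd (nat_lit 156) (nat_lit 228) (nat_lit 0) (XT.nd (nat_lit 78) (nat_lit 76) (nat_lit 0) (XT.lf (nat_lit 0) (nat_lit 11441682649) (nat_lit 152) (nat_lit 11078495786) (nat_lit 0) (nat_lit 3363010315) (nat_lit 38) (nat_lit 5) (nat_lit 40) (nat_lit 4) (nat_lit 38) (nat_lit 4) (nat_lit 443) (nat_lit 391) (nat_lit 366)) (XT.lf (nat_lit 0) (nat_lit 14870958177) (nat_lit 76) (nat_lit 10292754426) (nat_lit 76) (nat_lit 2111761376) (nat_lit 37) (nat_lit 4) (nat_lit 38) (nat_lit 5) (nat_lit 38) (nat_lit 4) (nat_lit 444) (nat_lit 391) (nat_lit 365))) (XT.nd (nat_lit 78) (nat_lit 76) (nat_lit 0) (XT.lf (nat_lit 0) (nat_lit 11090416813) (nat_lit 152) (nat_lit 14458983535) (nat_lit 0) (nat_lit 3208764951) (nat_lit 35) (nat_lit 5) (nat_lit 37) (nat_lit 4) (nat_lit 35) (nat_lit 4) (nat_lit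 445) (nat_lit 391) (nat_lit 364)) (XT.lf (nat_lit 0) (nat_lit 12998567650) (nat_lit 76) (nat_lit 12652773162) (nat_lit 76) (nat_lit 4687575088) (nat_lit 34) (nat_lit 4) (nat_lit 35) (nat_lit 5) (nat_lit 35) (nat_lit 4) (nat_lit 446) (nat_lit 391) (nat_lit 363))))) (XT.nd (nat_lit 312) (nat_lit 456) (nat_lit 0) (XT.nd (nat_lit 156) (nat_lit 152) (nat_lit 0) (XT.nd (nat_lit 78) (nat_lit 76) (nat_lit 0) (XT.lf (nat_lit 0) (nat_lit 9270435160) (nat_lit 152) (nat_lit 21145647686) (nat_lit 0) (nat_lit 1610858325) (nat_lit 32) (nat_lit 5) (nat_lit 34) (nat_lit 4) (nat_lit 32) (nat_lit 4) (nat_lit 447) (nat_lit 391) (nat_lit 362)) (XT.lf (nat_lit 0) (nat_lit 7678585853) (nat_lit 76) (nat_lit 16936824178) (nat_lit 76) (nat_lit 9209030761) (nat_lit 31) (nat_lit 4) (nat_lit 32) (nat_lit 5) (nat_lit 32) (nat_lit 4) (nat_lit 448) (nat_lit 391) (nat_lit 361))) (XT.nd (nat_lit 78) (nat_lit 0) (nat_lit 0) (XT.lf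 (nat_lit 0) (nat_lit 3432231049) (nat_lit 76) (nat_lit 2042494788) (nat_lit 152) (nat_lit 30275482293) (nat_lit 29) (nat_lit 5) (nat_lit 30) (nat_lit 5) (nat_lit 31) (nat_lit 4) (nat_lit 449) (nat_lit 391) (nat_lit 360)) (XT.lf (nat_lit 0) (nat_lit 21501004668) (nat_lit 152) (nat_lit 2271616642) (nat_lit 0) (nat_lit 14025345961) (nat_lit 29) (nat_lit 5) (nat_lit 31) (nat_lit 4) (nat_lit 29) (nat_lit 4) (nat_lit 450) (nat_lit 391) (nat_lit 359)))) (XT.nd (nat_lit 156) (nat_lit 228) (nat_lit 0) (XT.nd (nat_lit 78) (nat_lit 152) (nat_lit 0) (XT.lf (nat_lit 0) (nat_lit 30765198288) (nat_lit 76) (nat_lit 8377459753) (nat_lit 76) (nat_lit 850227216) (nat_lit 28) (nat_lit 4) (nat_lit 29) (nat_lit 5) (nat_lit 29) (nat_lit 4) (nat_lit 451) (nat_lit 391) (nat_lit 358)) (XT.lf (nat_lit 0) (nat_lit 15706429877) (nat_lit 152) (nat_lit 18133405941) (nat_lit 0) (nat_lit 8492157416) (nat_lit 26) (nat_lit 5)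 (nat_lit 28) (nat_lit 4) (nat_lit 26) (nat_lit 4) (nat_lit 452) (nat_lit 391) (nat_lit 357))) (XT.nd (nat_lit 78) (nat_lit 152) (nat_lit 0) (XT.lf (nat_lit 0) (nat_lit 15781210829) (nat_lit 76) (nat_lit 18156847678) (nat_lit 76) (nat_lit 10900464506) (nat_lit 25) (nat_lit 4) (nat_lit 26) (nat_lit 5) (nat_lit 26) (nat_lit 4) (nat_lit 453) (nat_lit 391) (nat_lit 356)) (XT.lf (nat_lit 0) (nat_lit 5260478555) (nat_lit 76) (nat_lit 864327847) (nat_lit 152) (nat_lit 41404179326) (nat_lit 23) (nat_lit 5) (nat_lit 24) (nat_lit 5) (nat_lit 25) (nat_lit 4) (nat_lit 454) (nat_lit 391) (nat_lit 355)))))) (XT.nd (nat_lit 546) (nat_lit 456) (nat_lit 0) (XT.nd (nat_lit 234) (nat_lit 228) (nat_lit 0) (XT.nd (nat_lit 78) (nat_lit 228) (nat_lit 0) (XT.lf (nat_lit 0) (nat_lit 24766329730) (nat_lit 152) (nat_lit 7843645582) (nat_lit 0) (nat_lit 17783969997) (nat_lit 23) (nat_lit 5) (nat_lit 25) (nat_lit 4) (nat_lit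 23) (nat_lit 4) (nat_lit 455) (nat_lit 391) (nat_lit 354)) (XT.nd (nat_lit 78) (nat_lit 152) (nat_lit 0) (XT.lf (nat_lit 0) (nat_lit 29978845160) (nat_lit 76) (nat_lit 15253400377) (nat_lit 76) (nat_lit 8239203654) (nat_lit 22) (nat_lit 4) (nat_lit 23) (nat_lit 5) (nat_lit 23) (nat_lit 4) (nat_lit 456) (nat_lit 391) (nat_lit 353)) (XT.lf (nat_lit 0) (nat_lit 10480856093) (nat_lit 152) (nat_lit 42519579790) (nat_lit 0) (nat_lit 3772593790) (nat_lit 20) (nat_lit 5) (nat_lit 22) (nat_lit 4) (nat_lit 20) (nat_lit 4) (nat_lit 457) (nat_lit 391) (nat_lit 352)))) (XT.nd (nat_lit 156) (nat_lit 152) (nat_lit 0) (XT.nd (nat_lit 78) (nat_lit 76) (nat_lit 0) (XT.lf (nat_lit 0) (nat_lit 30945711621) (nat_lit 152) (nat_lit 5148025773) (nat_lit 0) (nat_lit 24211453996) (nat_lit 20) (nat_lit 5) (nat_lit 22) (nat_lit 4) (nat_lit 20) (nat_lit 4) (nat_lit 458) (nat_lit 391) (nat_lit 351)) (XT.lf (nat_lit 0) (nat_lit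 36104933064) (nat_lit 76) (nat_lit 17375835259) (nat_lit 76) (nat_lit 10617507891) (nat_lit 19) (nat_lit 4) (nat_lit 20) (nat_lit 5) (nat_lit 20) (nat_lit 4) (nat_lit 459) (nat_lit 391) (nat_lit 350))) (XT.nd (nat_lit 78) (nat_lit 0) (nat_lit 0) (XT.lf (nat_lit 0) (nat_lit 9526923922) (nat_lit 152) (nat_lit 55580619497) (nat_lit 0) (nat_lit 3069196145) (nat_lit 17) (nat_lit 5) (nat_lit 19) (nat_lit 4) (nat_lit 17) (nat_lit 4) (nat_lit 460) (nat_lit 391) (nat_lit 349)) (XT.lf (nat_lit 0) (nat_lit 31581147125) (nat_lit 152) (nat_lit 15854353423) (nat_lit 0) (nat_lit 25103766086) (nat_lit 17) (nat_lit 5) (nat_lit 19) (nat_lit 4) (nat_lit 17) (nat_lit 4) (nat_lit 461) (nat_lit 391) (nat_lit 348))))) (XT.nd (nat_lit 312) (nat_lit 228) (nat_lit 0) (XT.nd (nat_lit 156) (nat_lit 152) (nat_lit 0) (XT.nd (nat_lit 78) (nat_lit 0) (nat_lit 0) (XT.lf (nat_lit 0) (nat_lit 27705641978) (nat_lit 76) (nat_lit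 28012407959) (nat_lit 76) (nat_lit 21516829455) (nat_lit 16) (nat_lit 4) (nat_lit 17) (nat_lit 5) (nat_lit 17) (nat_lit 4) (nat_lit 462) (nat_lit 391) (nat_lit 347)) (XT.lf (nat_lit 0) (nat_lit 75095509767) (nat_lit 76) (nat_lit 6857355969) (nat_lit 76) (nat_lit 344927961) (nat_lit 16) (nat_lit 4) (nat_lit 17) (nat_lit 5) (nat_lit 17) (nat_lit 4) (nat_lit 463) (nat_lit 391) (nat_lit 346))) (XT.nd (nat_lit 78) (nat_lit 0) (nat_lit 0) (XT.lf (nat_lit 0) (nat_lit 22573060825) (nat_lit 152) (nat_lit 48780553315) (nat_lit 0) (nat_lit 16355889968) (nat_lit 14) (nat_lit 5) (nat_lit 16) (nat_lit 4) (nat_lit 14) (nat_lit 4) (nat_lit 464) (nat_lit 391) (nat_lit 345)) (XT.lf (nat_lit 0) (nat_lit 47455860693) (nat_lit 152) (nat_lit 4865903571) (nat_lit 0) (nat_lit 41224931994) (nat_lit 14) (nat_lit 5) (nat_lit 16) (nat_lit 4) (nat_lit 14) (nat_lit 4) (nat_lit 465) (nat_lit 391) (nat_lit 344)))) (XT.nd (nat_lit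 156) (nat_lit 152) (nat_lit 0) (XT.nd (nat_lit 78) (nat_lit 0) (nat_lit 0) (XT.lf (nat_lit 0) (nat_lit 43775603118) (nat_lit 76) (nat_lit 31144689074) (nat_lit 76) (nat_lit 24901021632) (nat_lit 13) (nat_lit 4) (nat_lit 14) (nat_lit 5) (nat_lit 14) (nat_lit 4) (nat_lit 466) (nat_lit 391) (nat_lit 343)) (XT.lf (nat_lit 0) (nat_lit 96302926983) (nat_lit 76) (nat_lit 8275309435) (nat_lit 76) (nat_lit 2019846861) (nat_lit 13) (nat_lit 4) (nat_lit 14) (nat_lit 5) (nat_lit 14) (nat_lit 4) (nat_lit 467) (nat_lit 391) (nat_lit 342))) (XT.nd (nat_lit 78) (nat_lit 0) (nat_lit 0) (XT.lf (nat_lit 0) (nat_lit 22775899146) (nat_lit 152) (nat_lit 74274949092) (nat_lit 0) (nat_lit 16807914391) (nat_lit 11) (nat_lit 5) (nat_lit 13) (nat_lit 4) (nat_lit 11) (nat_lit 4) (nat_lit 468) (nat_lit 391) (nat_lit 341)) (XT.lf (nat_lit 0) (nat_lit 49726465334) (nat_lit 152) (nat_lit 28211229700) (nat_lit 0) (nat_lit 43748849698)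 (nat_lit 11) (nat_lit 5) (nat_lit 13) (nat_lit 4) (nat_lit 11) (nat_lit 4) (nat_lit 469) (nat_lit 391) (nat_lit 340))))))))
noncomputable def xc32 : XT := (XT.nd (nat_lit 2262) (nat_lit 0) (nat_lit 0) (XT.nd (nat_lit 1092) (nat_lit 228) (nat_lit 0) (XT.nd (nat_lit 546) (nat_lit 152) (nat_lit 0) (XT.nd (nat_lit 234) (nat_lit 228) (nat_lit 0) (XT.nd (nat_lit 78) (nat_lit 0) (nat_lit 0) (XT.lf (nat_lit 0) (nat_lit 22092746116) (nat_lit 76) (nat_lit 57010416214) (nat_lit 76) (nat_lit 51023883097) (nat_lit 10) (nat_lit 4) (nat_lit 11) (nat_lit 5) (nat_lit 11) (nat_lit 4) (nat_lit 470) (nat_lit 391) (nat_lit 339)) (XT.nd (nat_lit 78) (nat_lit 0) (nat_lit 0) (XT.lf (nat_lit 0) (nat_lit 77283110368) (nat_lit 76) (nat_lit 33966736764) (nat_lit 76) (nat_lit 27971946719) (nat_lit 10) (nat_lit 4) (nat_lit 11) (nat_lit 5) (nat_lit 11) (nat_lit 4) (nat_lit 471) (nat_lit 391) (nat_lit 338)) (XT.lf (nat_lit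 0) (nat_lit 136754126404) (nat_lit 76) (nat_lit 9147872373) (nat_lit 76) (nat_lit 3145437025) (nat_lit 10) (nat_lit 4) (nat_lit 11) (nat_lit 5) (nat_lit 11) (nat_lit 4) (nat_lit 472) (nat_lit 391) (nat_lit 337)))) (XT.nd (nat_lit 156) (nat_lit 76) (nat_lit 0) (XT.nd (nat_lit 78) (nat_lit 0) (nat_lit 0) (XT.lf (nat_lit 0) (nat_lit 23797354645) (nat_lit 152) (nat_lit 117724908508) (nat_lit 0) (nat_lit 18074007661) (nat_lit 8) (nat_lit 5) (nat_lit 10) (nat_lit 4) (nat_lit 8) (nat_lit 4) (nat_lit 473) (nat_lit 391) (nat_lit 336)) (XT.lf (nat_lit 0) (nat_lit 53098145962) (nat_lit 152) (nat_lit 70504093306) (nat_lit 0) (nat_lit 47368556487) (nat_lit 8) (nat_lit 5) (nat_lit 10) (nat_lit 4) (nat_lit 8) (nat_lit 4) (nat_lit 474) (nat_lit 391) (nat_lit 335))) (XT.nd (nat_lit 78) (nat_lit 76) (nat_lit 0) (XT.lf (nat_lit 0) (nat_lit 84686891285) (nat_lit 152) (nat_lit 19619675339) (nat_lit 0) (nat_lit 78951521726)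 (nat_lit 8) (nat_lit 5) (nat_lit 10) (nat_lit 4) (nat_lit 8) (nat_lit 4) (nat_lit 475) (nat_lit 391) (nat_lit 334)) (XT.lf (nat_lit 0) (nat_lit 36394741709) (nat_lit 76) (nat_lit 82924265383) (nat_lit 76) (nat_lit 77183543894) (nat_lit 7) (nat_lit 4) (nat_lit 8) (nat_lit 5) (nat_lit 8) (nat_lit 4) (nat_lit 476) (nat_lit 391) (nat_lit 333))))) (XT.nd (nat_lit 234) (nat_lit 152) (nat_lit 0) (XT.nd (nat_lit 78) (nat_lit 0) (nat_lit 0) (XT.lf (nat_lit 0) (nat_lit 97489900848) (nat_lit 76) (nat_lit 59523871463) (nat_lit 76) (nat_lit 53778194483) (nat_lit 7) (nat_lit 4) (nat_lit 8) (nat_lit 5) (nat_lit 8) (nat_lit 4) (nat_lit 477) (nat_lit 391) (nat_lit 332)) (XT.nd (nat_lit 78) (nat_lit 0) (nat_lit 0) (XT.lf (nat_lit 0) (nat_lit 163379132392) (nat_lit 76) (nat_lit 34298984557) (nat_lit 76) (nat_lit 28548719160) (nat_lit 7) (nat_lit 4) (nat_lit 8) (nat_lit 5) (nat_lit 8) (nat_lit 4) (nat_lit 478)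 (nat_lit 391) (nat_lit 331)) (XT.lf (nat_lit 0) (nat_lit 234452891048) (nat_lit 76) (nat_lit 7100123854) (nat_lit 76) (nat_lit 1345609923) (nat_lit 7) (nat_lit 4) (nat_lit 8) (nat_lit 5) (nat_lit 8) (nat_lit 4) (nat_lit 479) (nat_lit 391) (nat_lit 330)))) (XT.nd (nat_lit 156) (nat_lit 0) (nat_lit 0) (XT.nd (nat_lit 78) (nat_lit 0) (nat_lit 0) (XT.lf (nat_lit 0) (nat_lit 28266921315) (nat_lit 152) (nat_lit 209776144413) (nat_lit 0) (nat_lit 22782685354) (nat_lit 5) (nat_lit 5) (nat_lit 7) (nat_lit 4) (nat_lit 5) (nat_lit 4) (nat_lit 480) (nat_lit 391) (nat_lit 329)) (XT.lf (nat_lit 0) (nat_lit 60432240876) (nat_lit 152) (nat_lit 164797621316) (nat_lit 0) (nat_lit 54944535931) (nat_lit 5) (nat_lit 5) (nat_lit 7) (nat_lit 4) (nat_lit 5) (nat_lit 4) (nat_lit 481) (nat_lit 391) (nat_lit 328))) (XT.nd (nat_lit 78) (nat_lit 0) (nat_lit 0) (XT.lf (nat_lit 0) (nat_lit 95134718499) (nat_lit 152) (nat_lit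 116294220380) (nat_lit 0) (nat_lit 89643801531) (nat_lit 5) (nat_lit 5) (nat_lit 7) (nat_lit 4) (nat_lit 5) (nat_lit 4) (nat_lit 482) (nat_lit 391) (nat_lit 327)) (XT.lf (nat_lit 0) (nat_lit 132579998495) (nat_lit 152) (nat_lit 63978514045) (nat_lit 0) (nat_lit 127086107433) (nat_lit 5) (nat_lit 5) (nat_lit 7) (nat_lit 4) (nat_lit 5) (nat_lit 4) (nat_lit 483) (nat_lit 391) (nat_lit 326)))))) (XT.nd (nat_lit 546) (nat_lit 152) (nat_lit 0) (XT.nd (nat_lit 234) (nat_lit 0) (nat_lit 0) (XT.nd (nat_lit 78) (nat_lit 76) (nat_lit 0) (XT.lf (nat_lit 0) (nat_lit 172989978820) (nat_lit 152) (nat_lit 7540483309) (nat_lit 0) (nat_lit 167493333966) (nat_lit 5) (nat_lit 5) (nat_lit 7) (nat_lit 4) (nat_lit 5) (nat_lit 4) (nat_lit 484) (nat_lit 391) (nat_lit 325)) (XT.nd (nat_lit 78) (nat_lit 0) (nat_lit 0) (XT.lf (nat_lit 0) (nat_lit 55118454170) (nat_lit 76) (nat_lit 162346225393) (nat_lit 76) (nat_lit 156847030732)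 (nat_lit 4) (nat_lit 4) (nat_lit 5) (nat_lit 5) (nat_lit 5) (nat_lit 4) (nat_lit 485) (nat_lit 391) (nat_lit 324)) (XT.lf (nat_lit 0) (nat_lit 123003636769) (nat_lit 76) (nat_lit 142597689030) (nat_lit 76) (nat_lit 137096133437) (nat_lit 4) (nat_lit 4) (nat_lit 5) (nat_lit 5) (nat_lit 5) (nat_lit 4) (nat_lit 486) (nat_lit 391) (nat_lit 323)))) (XT.nd (nat_lit 156) (nat_lit 0) (nat_lit 0) (XT.nd (nat_lit 78) (nat_lit 0) (nat_lit 0) (XT.lf (nat_lit 0) (nat_lit 196268024620) (nat_lit 76) (nat_lit 121295526412) (nat_lit 76) (nat_lit 115791784770) (nat_lit 4) (nat_lit 4) (nat_lit 5) (nat_lit 5) (nat_lit 5) (nat_lit 4) (nat_lit 487) (nat_lit 391) (nat_lit 322)) (XT.lf (nat_lit 0) (nat_lit 275345777056) (nat_lit 76) (nat_lit 98313502500) (nat_lit 76) (nat_lit 92807736739) (nat_lit 4) (nat_lit 4) (nat_lit 5) (nat_lit 5) (nat_lit 5) (nat_lit 4) (nat_lit 488) (nat_lit 391) (nat_lit 321))) (XT.nd (nat_lit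 78) (nat_lit 0) (nat_lit 0) (XT.lf (nat_lit 0) (nat_lit 360705502983) (nat_lit 76) (nat_lit 73515427524) (nat_lit 76) (nat_lit 68007787579) (nat_lit 4) (nat_lit 4) (nat_lit 5) (nat_lit 5) (nat_lit 5) (nat_lit 4) (nat_lit 489) (nat_lit 391) (nat_lit 320)) (XT.lf (nat_lit 0) (nat_lit 452853037812) (nat_lit 76) (nat_lit 46754349928) (nat_lit 76) (nat_lit 41244974627) (nat_lit 4) (nat_lit 4) (nat_lit 5) (nat_lit 5) (nat_lit 5) (nat_lit 4) (nat_lit 490) (nat_lit 391) (nat_lit 319))))) (XT.nd (nat_lit 312) (nat_lit 0) (nat_lit 0) (XT.nd (nat_lit 156) (nat_lit 0) (nat_lit 0) (XT.nd (nat_lit 78) (nat_lit 152) (nat_lit 0) (XT.lf (nat_lit 0) (nat_lit 552334441009) (nat_lit 76) (nat_lit 17871685548) (nat_lit 76) (nat_lit 12360703436) (nat_lit 4) (nat_lit 4) (nat_lit 5) (nat_lit 5) (nat_lit 5) (nat_lit 4) (nat_lit 491) (nat_lit 391) (nat_lit 318)) (XT.lf (nat_lit 0) (nat_lit 18948220746) (nat_lit 152) (nat_lit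 594921445761) (nat_lit 0) (nat_lit 13698249412) (nat_lit 2) (nat_lit 5) (nat_lit 4) (nat_lit 4) (nat_lit 2) (nat_lit 4) (nat_lit 492) (nat_lit 391) (nat_lit 317))) (XT.nd (nat_lit 78) (nat_lit 0) (nat_lit 0) (XT.lf (nat_lit 0) (nat_lit 53154157772) (nat_lit 152) (nat_lit 575060656924) (nat_lit 0) (nat_lit 47902874456) (nat_lit 2) (nat_lit 5) (nat_lit 4) (nat_lit 4) (nat_lit 2) (nat_lit 4) (nat_lit 493) (nat_lit 391) (nat_lit 316)) (XT.lf (nat_lit 0) (nat_lit 90080789163) (nat_lit 152) (nat_lit 553643153101) (nat_lit 0) (nat_lit 84828291049) (nat_lit 2) (nat_lit 5) (nat_lit 4) (nat_lit 4) (nat_lit 2) (nat_lit 4) (nat_lit 494) (nat_lit 391) (nat_lit 315)))) (XT.nd (nat_lit 156) (nat_lit 0) (nat_lit 0) (XT.nd (nat_lit 78) (nat_lit 0) (nat_lit 0) (XT.lf (nat_lit 0) (nat_lit 129946939402) (nat_lit 152) (nat_lit 530542015751) (nat_lit 0) (nat_lit 124693316475) (nat_lit 2) (nat_lit 5) (nat_lit 4) (nat_lit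 4) (nat_lit 2) (nat_lit 4) (nat_lit 495) (nat_lit 391) (nat_lit 314)) (XT.lf (nat_lit 0) (nat_lit 172988852342) (nat_lit 152) (nat_lit 505620349246) (nat_lit 0) (nat_lit 167734187921) (nat_lit 2) (nat_lit 5) (nat_lit 4) (nat_lit 4) (nat_lit 2) (nat_lit 4) (nat_lit 496) (nat_lit 391) (nat_lit 313))) (XT.nd (nat_lit 78) (nat_lit 0) (nat_lit 0) (XT.lf (nat_lit 0) (nat_lit 219461591171) (nat_lit 152) (nat_lit 478730469635) (nat_lit 0) (nat_lit 214205962404) (nat_lit 2) (nat_lit 5) (nat_lit 4) (nat_lit 4) (nat_lit 2) (nat_lit 4) (nat_lit 497) (nat_lit 391) (nat_lit 312)) (XT.lf (nat_lit 0) (nat_lit 269640549897) (nat_lit 152) (nat_lit 449713029485) (nat_lit 0) (nat_lit 264384028216) (nat_lit 2) (nat_lit 5) (nat_lit 4) (nat_lit 4) (nat_lit 2) (nat_lit 4) (nat_lit 498) (nat_lit 391) (nat_lit 311))))))) (XT.nd (nat_lit 56784) (nat_lit 0) (nat_lit 3192) (XT.nd (nat_lit 56160) (nat_lit 0) (nat_lit 5548)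 (XT.nd (nat_lit 234) (nat_lit 0) (nat_lit 0) (XT.nd (nat_lit 78) (nat_lit 0) (nat_lit 0) (XT.lf (nat_lit 0) (nat_lit 323823085311) (nat_lit 152) (nat_lit 418396073594) (nat_lit 0) (nat_lit 318565736859) (nat_lit 2) (nat_lit 5) (nat_lit 4) (nat_lit 4) (nat_lit 2) (nat_lit 4) (nat_lit 499) (nat_lit 391) (nat_lit 310)) (XT.nd (nat_lit 78) (nat_lit 0) (nat_lit 0) (XT.lf (nat_lit 0) (nat_lit 382330279106) (nat_lit 152) (nat_lit 384594020001) (nat_lit 0) (nat_lit 377072165125) (nat_lit 2) (nat_lit 5) (nat_lit 4) (nat_lit 4) (nat_lit 2) (nat_lit 4) (nat_lit 500) (nat_lit 391) (nat_lit 309)) (XT.lf (nat_lit 0) (nat_lit 445508840578) (nat_lit 152) (nat_lit 348106560241) (nat_lit 0) (nat_lit 440250017774) (nat_lit 2) (nat_lit 5) (nat_lit 4) (nat_lit 4) (nat_lit 2) (nat_lit 4) (nat_lit 501) (nat_lit 391) (nat_lit 308)))) (XT.nd (nat_lit 55770) (nat_lit 0) (nat_lit 8056) (XT.nd (nat_lit 78) (nat_lit 0)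 (nat_lit 0) (XT.lf (nat_lit 0) (nat_lit 513733161203) (nat_lit 152) (nat_lit 308717472330) (nat_lit 0) (nat_lit 508473682081) (nat_lit 2) (nat_lit 5) (nat_lit 4) (nat_lit 4) (nat_lit 2) (nat_lit 4) (nat_lit 502) (nat_lit 391) (nat_lit 307)) (XT.lf (nat_lit 0) (nat_lit 587407533250) (nat_lit 152) (nat_lit 266193339450) (nat_lit 0) (nat_lit 582147446427) (nat_lit 2) (nat_lit 5) (nat_lit 4) (nat_lit 4) (nat_lit 2) (nat_lit 4) (nat_lit 503) (nat_lit 391) (nat_lit 306))) (XT.nd (nat_lit 78) (nat_lit 304) (nat_lit 0) (XT.lf (nat_lit 0) (nat_lit 2508056533) (nat_lit 304) (nat_lit 821424309) (nat_lit 304) (nat_lit 821424309) (nat_lit 112) (nat_lit 4) (nat_lit 116) (nat_lit 5) (nat_lit 116) (nat_lit 4) (nat_lit 416) (nat_lit 392) (nat_lit 392)) (XT.lf (nat_lit 0) (nat_lit 4853441023) (nat_lit 304) (nat_lit 493653156) (nat_lit 0) (nat_lit 3201441184) (nat_lit 108) (nat_lit 5) (nat_lit 112) (nat_lit 4)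 (nat_lit 108) (nat_lit 4) (nat_lit 417) (nat_lit 392) (nat_lit 391))))) (XT.nd (nat_lit 312) (nat_lit 1064) (nat_lit 0) (XT.nd (nat_lit 156) (nat_lit 608) (nat_lit 0) (XT.nd (nat_lit 78) (nat_lit 304) (nat_lit 0) (XT.lf (nat_lit 0) (nat_lit 2540630100) (nat_lit 228) (nat_lit 250715957) (nat_lit 304) (nat_lit 6025559842) (nat_lit 101) (nat_lit 5) (nat_lit 104) (nat_lit 5) (nat_lit 105) (nat_lit 4) (nat_lit 418) (nat_lit 392) (nat_lit 390)) (XT.lf (nat_lit 0) (nat_lit 478031994) (nat_lit 304) (nat_lit 3399037186) (nat_lit 76) (nat_lit 5229624130) (nat_lit 97) (nat_lit 5) (nat_lit 101) (nat_lit 5) (nat_lit 98) (nat_lit 4) (nat_lit 419) (nat_lit 392) (nat_lit 389))) (XT.nd (nat_lit 78) (nat_lit 456) (nat_lit 0) (XT.lf (nat_lit 0) (nat_lit 7185731696) (nat_lit 228) (nat_lit 408521850) (nat_lit 0) (nat_lit 1825764669) (nat_lit 95) (nat_lit 5) (nat_lit 98) (nat_lit 4) (nat_lit 95) (nat_lit 4) (nat_lit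 420) (nat_lit 392) (nat_lit 388)) (XT.lf (nat_lit 0) (nat_lit 2782019268) (nat_lit 152) (nat_lit 1726938903) (nat_lit 228) (nat_lit 5246497116) (nat_lit 89) (nat_lit 5) (nat_lit 91) (nat_lit 5) (nat_lit 92) (nat_lit 4) (nat_lit 421) (nat_lit 392) (nat_lit 387)))) (XT.nd (nat_lit 156) (nat_lit 608) (nat_lit 0) (XT.nd (nat_lit 78) (nat_lit 152) (nat_lit 0) (XT.lf (nat_lit 0) (nat_lit 1519975990) (nat_lit 304) (nat_lit 4008943877) (nat_lit 76) (nat_lit 4587079103) (nat_lit 85) (nat_lit 5) (nat_lit 89) (nat_lit 5) (nat_lit 86) (nat_lit 4) (nat_lit 422) (nat_lit 392) (nat_lit 386)) (XT.lf (nat_lit 0) (nat_lit 8600525109) (nat_lit 228) (nat_lit 944315948) (nat_lit 0) (nat_lit 958444865) (nat_lit 83) (nat_lit 5) (nat_lit 86) (nat_lit 4) (nat_lit 83) (nat_lit 4) (nat_lit 423) (nat_lit 392) (nat_lit 385))) (XT.nd (nat_lit 78) (nat_lit 228) (nat_lit 0) (XT.lf (nat_lit 0) (nat_lit 2249605225) (nat_lit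 152) (nat_lit 2962448339) (nat_lit 228) (nat_lit 5702542127) (nat_lit 78) (nat_lit 5) (nat_lit 80) (nat_lit 5) (nat_lit 81) (nat_lit 4) (nat_lit 424) (nat_lit 392) (nat_lit 384)) (XT.lf (nat_lit 0) (nat_lit 1448762452) (nat_lit 228) (nat_lit 5762785902) (nat_lit 76) (nat_lit 4143388282) (nat_lit 75) (nat_lit 5) (nat_lit 78) (nat_lit 5) (nat_lit 76) (nat_lit 4) (nat_lit 425) (nat_lit 392) (nat_lit 383)))))) (XT.nd (nat_lit 546) (nat_lit 988) (nat_lit 0) (XT.nd (nat_lit 234) (nat_lit 684) (nat_lit 0) (XT.nd (nat_lit 78) (nat_lit 532) (nat_lit 0) (XT.lf (nat_lit 0) (nat_lit 8981473259) (nat_lit 228) (nat_lit 2796034728) (nat_lit 0) (nat_lit 47888745) (nat_lit 73) (nat_lit 5) (nat_lit 76) (nat_lit 4) (nat_lit 73) (nat_lit 4) (nat_lit 426) (nat_lit 392) (nat_lit 382)) (XT.nd (nat_lit 78) (nat_lit 228) (nat_lit 0) (XT.lf (nat_lit 0) (nat_lit 189369349) (nat_lit 76) (nat_lit 4539388980) (nat_lit 152)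 (nat_lit 7596092134) (nat_lit 69) (nat_lit 5) (nat_lit 70) (nat_lit 5) (nat_lit 71) (nat_lit 4) (nat_lit 427) (nat_lit 392) (nat_lit 381)) (XT.lf (nat_lit 0) (nat_lit 36344440) (nat_lit 228) (nat_lit 9481007796) (nat_lit 76) (nat_lit 3340189724) (nat_lit 66) (nat_lit 5) (nat_lit 69) (nat_lit 5) (nat_lit 67) (nat_lit 4) (nat_lit 428) (nat_lit 392) (nat_lit 380)))) (XT.nd (nat_lit 156) (nat_lit 380) (nat_lit 0) (XT.nd (nat_lit 78) (nat_lit 228) (nat_lit 0) (XT.lf (nat_lit 0) (nat_lit 6567979993) (nat_lit 76) (nat_lit 1524568050) (nat_lit 152) (nat_lit 5330124184) (nat_lit 65) (nat_lit 5) (nat_lit 66) (nat_lit 5) (nat_lit 67) (nat_lit 4) (nat_lit 429) (nat_lit 392) (nat_lit 379)) (XT.lf (nat_lit 0) (nat_lit 2799574847) (nat_lit 228) (nat_lit 4216526390) (nat_lit 76) (nat_lit 7008385809) (nat_lit 62) (nat_lit 5) (nat_lit 65) (nat_lit 5) (nat_lit 63) (nat_lit 4) (nat_lit 430) (nat_lit 392) (nat_lit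 378))) (XT.nd (nat_lit 78) (nat_lit 304) (nat_lit 0) (XT.lf (nat_lit 0) (nat_lit 11476387572) (nat_lit 152) (nat_lit 1557272011) (nat_lit 0) (nat_lit 1632256684) (nat_lit 61) (nat_lit 5) (nat_lit 63) (nat_lit 4) (nat_lit 61) (nat_lit 4) (nat_lit 431) (nat_lit 392) (nat_lit 377)) (XT.lf (nat_lit 0) (nat_lit 1086335192) (nat_lit 76) (nat_lit 4409355064) (nat_lit 152) (nat_lit 9849561739) (nat_lit 57) (nat_lit 5) (nat_lit 58) (nat_lit 5) (nat_lit 59) (nat_lit 4) (nat_lit 432) (nat_lit 392) (nat_lit 376))))) (XT.nd (nat_lit 312) (nat_lit 456) (nat_lit 0) (XT.nd (nat_lit 156) (nat_lit 228) (nat_lit 0) (XT.nd (nat_lit 78) (nat_lit 152) (nat_lit 0) (XT.lf (nat_lit 0) (nat_lit 3794000594) (nat_lit 152) (nat_lit 11132651417) (nat_lit 152) (nat_lit 1141544570) (nat_lit 55) (nat_lit 4) (nat_lit 57) (nat_lit 5) (nat_lit 57) (nat_lit 4) (nat_lit 433) (nat_lit 392) (nat_lit 375)) (XT.lf (nat_lit 0) (nat_lit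 6429641533) (nat_lit 76) (nat_lit 1714188216) (nat_lit 152) (nat_lit 8691445855) (nat_lit 53) (nat_lit 5) (nat_lit 54) (nat_lit 5) (nat_lit 55) (nat_lit 4) (nat_lit 434) (nat_lit 392) (nat_lit 374))) (XT.nd (nat_lit 78) (nat_lit 76) (nat_lit 0) (XT.lf (nat_lit 0) (nat_lit 675871851) (nat_lit 152) (nat_lit 8632565718) (nat_lit 76) (nat_lit 8342907260) (nat_lit 51) (nat_lit 5) (nat_lit 53) (nat_lit 5) (nat_lit 52) (nat_lit 4) (nat_lit 435) (nat_lit 392) (nat_lit 373)) (XT.lf (nat_lit 0) (nat_lit 10634868117) (nat_lit 152) (nat_lit 7002707741) (nat_lit 0) (nat_lit 880666782) (nat_lit 50) (nat_lit 5) (nat_lit 52) (nat_lit 4) (nat_lit 50) (nat_lit 4) (nat_lit 436) (nat_lit 392) (nat_lit 372)))) (XT.nd (nat_lit 156) (nat_lit 228) (nat_lit 0) (XT.nd (nat_lit 78) (nat_lit 76) (nat_lit 0) (XT.lf (nat_lit 0) (nat_lit 2149679957) (nat_lit 152) (nat_lit 5544719314) (nat_lit 76) (nat_lit 11744810147) (nat_lit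 48) (nat_lit 5) (nat_lit 50) (nat_lit 5) (nat_lit 49) (nat_lit 4) (nat_lit 437) (nat_lit 392) (nat_lit 371)) (XT.lf (nat_lit 0) (nat_lit 12893341028) (nat_lit 152) (nat_lit 4283227399) (nat_lit 0) (nat_lit 3241621293) (nat_lit 47) (nat_lit 5) (nat_lit 49) (nat_lit 4) (nat_lit 47) (nat_lit 4) (nat_lit 438) (nat_lit 392) (nat_lit 370))) (XT.nd (nat_lit 78) (nat_lit 76) (nat_lit 0) (XT.lf (nat_lit 0) (nat_lit 3201052797) (nat_lit 152) (nat_lit 3250710083) (nat_lit 76) (nat_lit 15007535519) (nat_lit 45) (nat_lit 5) (nat_lit 47) (nat_lit 5) (nat_lit 46) (nat_lit 4) (nat_lit 439) (nat_lit 392) (nat_lit 369)) (XT.lf (nat_lit 0) (nat_lit 14766581191) (nat_lit 152) (nat_lit 2519806007) (nat_lit 0) (nat_lit 5278885982) (nat_lit 44) (nat_lit 5) (nat_lit 46) (nat_lit 4) (nat_lit 44) (nat_lit 4) (nat_lit 440) (nat_lit 392) (nat_lit 368))))))))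
noncomputable def xc33 : XT := (XT.nd (nat_lit 2262) (nat_lit 684) (nat_lit 0) (XT.nd (nat_lit 1092) (nat_lit 1064) (nat_lit 0) (XT.nd (nat_lit 546) (nat_lit 684) (nat_lit 0) (XT.nd (nat_lit 234) (nat_lit 380) (nat_lit 0) (XT.nd (nat_lit 78) (nat_lit 228) (nat_lit 0) (XT.lf (nat_lit 0) (nat_lit 3669051256) (nat_lit 152) (nat_lit 2097720071) (nat_lit 76) (nat_lit 17976059862) (nat_lit 42) (nat_lit 5) (nat_lit 44) (nat_lit 5) (nat_lit 43) (nat_lit 4) (nat_lit 441) (nat_lit 392) (nat_lit 367)) (XT.nd (nat_lit 78) (nat_lit 152) (nat_lit 0) (XT.lf (nat_lit 0) (nat_lit 16078116741) (nat_lit 152) (nat_lit 2114361445) (nat_lit 0) (nat_lit 6800870622) (nat_lit 41) (nat_lit 5) (nat_lit 43) (nat_lit 4) (nat_lit 41) (nat_lit 4) (nat_lit 442) (nat_lit 392) (nat_lit 366)) (XT.lf (nat_lit 0) (nat_lit 3333782907) (nat_lit 152) (nat_lit 2550427911) (nat_lit 76) (nat_lit 20442344614) (nat_lit 39) (nat_lit 5)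 (nat_lit 41) (nat_lit 5) (nat_lit 40) (nat_lit 4) (nat_lit 443) (nat_lit 392) (nat_lit 365)))) (XT.nd (nat_lit 156) (nat_lit 152) (nat_lit 0) (XT.nd (nat_lit 78) (nat_lit 152) (nat_lit 0) (XT.lf (nat_lit 0) (nat_lit 16585748928) (nat_lit 152) (nat_lit 3603382141) (nat_lit 0) (nat_lit 7553214313) (nat_lit 38) (nat_lit 5) (nat_lit 40) (nat_lit 4) (nat_lit 38) (nat_lit 4) (nat_lit 444) (nat_lit 392) (nat_lit 364)) (XT.lf (nat_lit 0) (nat_lit 1898949117) (nat_lit 152) (nat_lit 5227412446) (nat_lit 76) (nat_lit 22127543435) (nat_lit 36) (nat_lit 5) (nat_lit 38) (nat_lit 5) (nat_lit 37) (nat_lit 4) (nat_lit 445) (nat_lit 392) (nat_lit 363))) (XT.nd (nat_lit 78) (nat_lit 76) (nat_lit 0) (XT.lf (nat_lit 0) (nat_lit 15961791364) (nat_lit 152) (nat_lit 7699295939) (nat_lit 0) (nat_lit 7198473629) (nat_lit 35) (nat_lit 5) (nat_lit 37) (nat_lit 4) (nat_lit 35) (nat_lit 4) (nat_lit 446) (nat_lit 392) (nat_lit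 362)) (XT.lf (nat_lit 0) (nat_lit 21610821971) (nat_lit 76) (nat_lit 9899871641) (nat_lit 76) (nat_lit 1064926495) (nat_lit 34) (nat_lit 4) (nat_lit 35) (nat_lit 5) (nat_lit 35) (nat_lit 4) (nat_lit 447) (nat_lit 392) (nat_lit 361))))) (XT.nd (nat_lit 234) (nat_lit 304) (nat_lit 0) (XT.nd (nat_lit 78) (nat_lit 228) (nat_lit 0) (XT.lf (nat_lit 0) (nat_lit 13767391704) (nat_lit 152) (nat_lit 15343902685) (nat_lit 0) (nat_lit 5289994730) (nat_lit 32) (nat_lit 5) (nat_lit 34) (nat_lit 4) (nat_lit 32) (nat_lit 4) (nat_lit 448) (nat_lit 392) (nat_lit 360)) (XT.nd (nat_lit 78) (nat_lit 152) (nat_lit 0) (XT.lf (nat_lit 0) (nat_lit 15460615643) (nat_lit 76) (nat_lit 14713085496) (nat_lit 76) (nat_lit 6177203799) (nat_lit 31) (nat_lit 4) (nat_lit 32) (nat_lit 5) (nat_lit 32) (nat_lit 4) (nat_lit 449) (nat_lit 392) (nat_lit 359)) (XT.lf (nat_lit 0) (nat_lit 9419237843) (nat_lit 152) (nat_lit 27777373680)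 (nat_lit 0) (nat_lit 1238252873) (nat_lit 29) (nat_lit 5) (nat_lit 31) (nat_lit 4) (nat_lit 29) (nat_lit 4) (nat_lit 450) (nat_lit 392) (nat_lit 358)))) (XT.nd (nat_lit 156) (nat_lit 152) (nat_lit 0) (XT.nd (nat_lit 78) (nat_lit 76) (nat_lit 0) (XT.lf (nat_lit 0) (nat_lit 4248944349) (nat_lit 76) (nat_lit 22317158372) (nat_lit 76) (nat_lit 14088419855) (nat_lit 28) (nat_lit 4) (nat_lit 29) (nat_lit 5) (nat_lit 29) (nat_lit 4) (nat_lit 451) (nat_lit 392) (nat_lit 357)) (XT.lf (nat_lit 0) (nat_lit 2296424764) (nat_lit 152) (nat_lit 3565283996) (nat_lit 76) (nat_lit 37172032601) (nat_lit 27) (nat_lit 5) (nat_lit 29) (nat_lit 5) (nat_lit 28) (nat_lit 4) (nat_lit 452) (nat_lit 392) (nat_lit 356))) (XT.nd (nat_lit 78) (nat_lit 76) (nat_lit 0) (XT.lf (nat_lit 0) (nat_lit 20055490848) (nat_lit 152) (nat_lit 13370914136) (nat_lit 0) (nat_lit 12137494911) (nat_lit 26) (nat_lit 5) (nat_lit 28) (nat_lit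 4) (nat_lit 26) (nat_lit 4) (nat_lit 453) (nat_lit 392) (nat_lit 355)) (XT.lf (nat_lit 0) (nat_lit 22986855428) (nat_lit 76) (nat_lit 16622506008) (nat_lit 76) (nat_lit 8668406924) (nat_lit 25) (nat_lit 4) (nat_lit 26) (nat_lit 5) (nat_lit 26) (nat_lit 4) (nat_lit 454) (nat_lit 392) (nat_lit 354)))))) (XT.nd (nat_lit 546) (nat_lit 456) (nat_lit 0) (XT.nd (nat_lit 234) (nat_lit 380) (nat_lit 0) (XT.nd (nat_lit 78) (nat_lit 76) (nat_lit 0) (XT.lf (nat_lit 0) (nat_lit 9518022548) (nat_lit 152) (nat_lit 39757246565) (nat_lit 0) (nat_lit 1910853096) (nat_lit 23) (nat_lit 5) (nat_lit 25) (nat_lit 4) (nat_lit 23) (nat_lit 4) (nat_lit 455) (nat_lit 392) (nat_lit 353)) (XT.nd (nat_lit 78) (nat_lit 76) (nat_lit 0) (XT.lf (nat_lit 0) (nat_lit 29449308126) (nat_lit 152) (nat_lit 3028389973) (nat_lit 0) (nat_lit 21812659979) (nat_lit 23) (nat_lit 5) (nat_lit 25) (nat_lit 4) (nat_lit 23) (nat_lit 4) (nat_lit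 456) (nat_lit 392) (nat_lit 352)) (XT.lf (nat_lit 0) (nat_lit 37583364866) (nat_lit 76) (nat_lit 13850292040) (nat_lit 76) (nat_lit 6186348805) (nat_lit 22) (nat_lit 4) (nat_lit 23) (nat_lit 5) (nat_lit 23) (nat_lit 4) (nat_lit 457) (nat_lit 392) (nat_lit 351)))) (XT.nd (nat_lit 156) (nat_lit 228) (nat_lit 0) (XT.nd (nat_lit 78) (nat_lit 0) (nat_lit 0) (XT.lf (nat_lit 0) (nat_lit 13868967094) (nat_lit 152) (nat_lit 40772503311) (nat_lit 0) (nat_lit 6545903795) (nat_lit 20) (nat_lit 5) (nat_lit 22) (nat_lit 4) (nat_lit 20) (nat_lit 4) (nat_lit 458) (nat_lit 392) (nat_lit 350)) (XT.lf (nat_lit 0) (nat_lit 35782148656) (nat_lit 152) (nat_lit 792605926) (nat_lit 0) (nat_lit 28436798558) (nat_lit 20) (nat_lit 5) (nat_lit 22) (nat_lit 4) (nat_lit 20) (nat_lit 4) (nat_lit 459) (nat_lit 392) (nat_lit 349))) (XT.nd (nat_lit 78) (nat_lit 152) (nat_lit 0) (XT.lf (nat_lit 0) (nat_lit 43553410226) (nat_lit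 76) (nat_lit 16462922736) (nat_lit 76) (nat_lit 9096936713) (nat_lit 19) (nat_lit 4) (nat_lit 20) (nat_lit 5) (nat_lit 20) (nat_lit 4) (nat_lit 460) (nat_lit 392) (nat_lit 348)) (XT.lf (nat_lit 0) (nat_lit 12517484901) (nat_lit 152) (nat_lit 55517898937) (nat_lit 0) (nat_lit 5484062652) (nat_lit 17) (nat_lit 5) (nat_lit 19) (nat_lit 4) (nat_lit 17) (nat_lit 4) (nat_lit 461) (nat_lit 392) (nat_lit 347))))) (XT.nd (nat_lit 312) (nat_lit 228) (nat_lit 0) (XT.nd (nat_lit 156) (nat_lit 152) (nat_lit 0) (XT.nd (nat_lit 78) (nat_lit 76) (nat_lit 0) (XT.lf (nat_lit 0) (nat_lit 36170978770) (nat_lit 152) (nat_lit 12947544178) (nat_lit 0) (nat_lit 29120707017) (nat_lit 17) (nat_lit 5) (nat_lit 19) (nat_lit 4) (nat_lit 17) (nat_lit 4) (nat_lit 462) (nat_lit 392) (nat_lit 346)) (XT.lf (nat_lit 0) (nat_lit 33915803598) (nat_lit 76) (nat_lit 28232543228) (nat_lit 76) (nat_lit 21166670083) (nat_lit 16) (nat_lit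 4) (nat_lit 17) (nat_lit 5) (nat_lit 17) (nat_lit 4) (nat_lit 463) (nat_lit 392) (nat_lit 345))) (XT.nd (nat_lit 78) (nat_lit 76) (nat_lit 0) (XT.lf (nat_lit 0) (nat_lit 1496071772) (nat_lit 152) (nat_lit 4013371745) (nat_lit 76) (nat_lit 83279621948) (nat_lit 15) (nat_lit 5) (nat_lit 17) (nat_lit 5) (nat_lit 16) (nat_lit 4) (nat_lit 464) (nat_lit 392) (nat_lit 344)) (XT.lf (nat_lit 0) (nat_lit 26182612632) (nat_lit 152) (nat_lit 49026745085) (nat_lit 0) (nat_lit 19426713052) (nat_lit 14) (nat_lit 5) (nat_lit 16) (nat_lit 4) (nat_lit 14) (nat_lit 4) (nat_lit 465) (nat_lit 392) (nat_lit 343)))) (XT.nd (nat_lit 156) (nat_lit 152) (nat_lit 0) (XT.nd (nat_lit 78) (nat_lit 76) (nat_lit 0) (XT.lf (nat_lit 0) (nat_lit 52922428568) (nat_lit 152) (nat_lit 1869756880) (nat_lit 0) (nat_lit 46154733856) (nat_lit 14) (nat_lit 5) (nat_lit 16) (nat_lit 4) (nat_lit 14) (nat_lit 4) (nat_lit 466) (nat_lit 392)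 (nat_lit 342)) (XT.lf (nat_lit 0) (nat_lit 50515944161) (nat_lit 76) (nat_lit 31994918212) (nat_lit 76) (nat_lit 25216302082) (nat_lit 13) (nat_lit 4) (nat_lit 14) (nat_lit 5) (nat_lit 14) (nat_lit 4) (nat_lit 467) (nat_lit 392) (nat_lit 341))) (XT.nd (nat_lit 78) (nat_lit 152) (nat_lit 0) (XT.lf (nat_lit 0) (nat_lit 107005580395) (nat_lit 76) (nat_lit 7417569386) (nat_lit 76) (nat_lit 628840831) (nat_lit 13) (nat_lit 4) (nat_lit 14) (nat_lit 5) (nat_lit 14) (nat_lit 4) (nat_lit 468) (nat_lit 392) (nat_lit 340)) (XT.lf (nat_lit 0) (nat_lit 26058152006) (nat_lit 152) (nat_lit 77252518004) (nat_lit 0) (nat_lit 19583778758) (nat_lit 11) (nat_lit 5) (nat_lit 13) (nat_lit 4) (nat_lit 11) (nat_lit 4) (nat_lit 469) (nat_lit 392) (nat_lit 339))))))) (XT.nd (nat_lit 1170) (nat_lit 228) (nat_lit 0) (XT.nd (nat_lit 546) (nat_lit 228) (nat_lit 0) (XT.nd (nat_lit 234) (nat_lit 152) (nat_lit 0) (XT.nd (nat_lit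 78) (nat_lit 76) (nat_lit 0) (XT.lf (nat_lit 0) (nat_lit 55056601939) (nat_lit 152) (nat_lit 27723288247) (nat_lit 0) (nat_lit 48573971763) (nat_lit 11) (nat_lit 5) (nat_lit 13) (nat_lit 4) (nat_lit 11) (nat_lit 4) (nat_lit 470) (nat_lit 392) (nat_lit 338)) (XT.nd (nat_lit 78) (nat_lit 0) (nat_lit 0) (XT.lf (nat_lit 0) (nat_lit 26485718241) (nat_lit 76) (nat_lit 60238559102) (nat_lit 76) (nat_lit 53748283623) (nat_lit 10) (nat_lit 4) (nat_lit 11) (nat_lit 5) (nat_lit 11) (nat_lit 4) (nat_lit 471) (nat_lit 392) (nat_lit 337)) (XT.lf (nat_lit 0) (nat_lit 85896826267) (nat_lit 76) (nat_lit 35450103105) (nat_lit 76) (nat_lit 28952748640) (nat_lit 10) (nat_lit 4) (nat_lit 11) (nat_lit 5) (nat_lit 11) (nat_lit 4) (nat_lit 472) (nat_lit 392) (nat_lit 336)))) (XT.nd (nat_lit 156) (nat_lit 0) (nat_lit 0) (XT.nd (nat_lit 78) (nat_lit 152) (nat_lit 0) (XT.lf (nat_lit 0) (nat_lit 149945444544) (nat_lit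 76) (nat_lit 8737134940) (nat_lit 76) (nat_lit 2233225860) (nat_lit 10) (nat_lit 4) (nat_lit 11) (nat_lit 5) (nat_lit 11) (nat_lit 4) (nat_lit 473) (nat_lit 392) (nat_lit 335)) (XT.lf (nat_lit 0) (nat_lit 26795813862) (nat_lit 152) (nat_lit 124917586645) (nat_lit 0) (nat_lit 20595834655) (nat_lit 8) (nat_lit 5) (nat_lit 10) (nat_lit 4) (nat_lit 8) (nat_lit 4) (nat_lit 474) (nat_lit 392) (nat_lit 334))) (XT.nd (nat_lit 78) (nat_lit 0) (nat_lit 0) (XT.lf (nat_lit 0) (nat_lit 58359581755) (nat_lit 152) (nat_lit 74083944341) (nat_lit 0) (nat_lit 52154250617) (nat_lit 8) (nat_lit 5) (nat_lit 10) (nat_lit 4) (nat_lit 8) (nat_lit 4) (nat_lit 475) (nat_lit 392) (nat_lit 333)) (XT.lf (nat_lit 0) (nat_lit 92400346399) (nat_lit 152) (nat_lit 19281400820) (nat_lit 0) (nat_lit 86190059771) (nat_lit 8) (nat_lit 5) (nat_lit 10) (nat_lit 4) (nat_lit 8) (nat_lit 4) (nat_lit 476) (nat_lit 392) (nat_lit 332)))))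 (XT.nd (nat_lit 312) (nat_lit 152) (nat_lit 0) (XT.nd (nat_lit 156) (nat_lit 0) (nat_lit 0) (XT.nd (nat_lit 78) (nat_lit 0) (nat_lit 0) (XT.lf (nat_lit 0) (nat_lit 41131256819) (nat_lit 76) (nat_lit 88630748213) (nat_lit 76) (nat_lit 82415873168) (nat_lit 7) (nat_lit 4) (nat_lit 8) (nat_lit 5) (nat_lit 8) (nat_lit 4) (nat_lit 477) (nat_lit 392) (nat_lit 331)) (XT.lf (nat_lit 0) (nat_lit 106978848261) (nat_lit 76) (nat_lit 63427023401) (nat_lit 76) (nat_lit 57207899822) (nat_lit 7) (nat_lit 4) (nat_lit 8) (nat_lit 5) (nat_lit 8) (nat_lit 4) (nat_lit 478) (nat_lit 392) (nat_lit 330))) (XT.nd (nat_lit 78) (nat_lit 0) (nat_lit 0) (XT.lf (nat_lit 0) (nat_lit 178014051266) (nat_lit 76) (nat_lit 36247757230) (nat_lit 76) (nat_lit 30024699822) (nat_lit 7) (nat_lit 4) (nat_lit 8) (nat_lit 5) (nat_lit 8) (nat_lit 4) (nat_lit 479) (nat_lit 392) (nat_lit 329)) (XT.lf (nat_lit 0) (nat_lit 254657815186) (nat_lit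 76) (nat_lit 6931887382) (nat_lit 76) (nat_lit 705187540) (nat_lit 7) (nat_lit 4) (nat_lit 8) (nat_lit 5) (nat_lit 8) (nat_lit 4) (nat_lit 480) (nat_lit 392) (nat_lit 328)))) (XT.nd (nat_lit 156) (nat_lit 0) (nat_lit 0) (XT.nd (nat_lit 78) (nat_lit 0) (nat_lit 0) (XT.lf (nat_lit 0) (nat_lit 31231938141) (nat_lit 152) (nat_lit 225126151978) (nat_lit 0) (nat_lit 25298535794) (nat_lit 5) (nat_lit 5) (nat_lit 7) (nat_lit 4) (nat_lit 5) (nat_lit 4) (nat_lit 481) (nat_lit 392) (nat_lit 327)) (XT.lf (nat_lit 0) (nat_lit 65918360074) (nat_lit 152) (nat_lit 176655427329) (nat_lit 0) (nat_lit 59981983631) (nat_lit 5) (nat_lit 5) (nat_lit 7) (nat_lit 4) (nat_lit 5) (nat_lit 4) (nat_lit 482) (nat_lit 392) (nat_lit 326))) (XT.nd (nat_lit 78) (nat_lit 0) (nat_lit 0) (XT.lf (nat_lit 0) (nat_lit 103348773690) (nat_lit 152) (nat_lit 124369976814) (nat_lit 0) (nat_lit 97409643456) (nat_lit 5) (nat_lit 5) (nat_lit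 7) (nat_lit 4) (nat_lit 5) (nat_lit 4) (nat_lit 483) (nat_lit 392) (nat_lit 325)) (XT.lf (nat_lit 0) (nat_lit 143744988848) (nat_lit 152) (nat_lit 67959960727) (nat_lit 0) (nat_lit 137803308807) (nat_lit 5) (nat_lit 5) (nat_lit 7) (nat_lit 4) (nat_lit 5) (nat_lit 4) (nat_lit 484) (nat_lit 392) (nat_lit 324)))))) (XT.nd (nat_lit 546) (nat_lit 152) (nat_lit 0) (XT.nd (nat_lit 234) (nat_lit 0) (nat_lit 0) (XT.nd (nat_lit 78) (nat_lit 76) (nat_lit 0) (XT.lf (nat_lit 0) (nat_lit 187346390527) (nat_lit 152) (nat_lit 7091097491) (nat_lit 0) (nat_lit 181402349553) (nat_lit 5) (nat_lit 5) (nat_lit 7) (nat_lit 4) (nat_lit 5) (nat_lit 4) (nat_lit 485) (nat_lit 392) (nat_lit 323)) (XT.nd (nat_lit 78) (nat_lit 0) (nat_lit 0) (XT.lf (nat_lit 0) (nat_lit 60534809209) (nat_lit 76) (nat_lit 174821666214) (nat_lit 76) (nat_lit 168875439192) (nat_lit 4) (nat_lit 4) (nat_lit 5) (nat_lit 5) (nat_lit 5) (nat_lit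 4) (nat_lit 486) (nat_lit 392) (nat_lit 322)) (XT.lf (nat_lit 0) (nat_lit 133776222808) (nat_lit 76) (nat_lit 153531191921) (nat_lit 76) (nat_lit 147582940780) (nat_lit 4) (nat_lit 4) (nat_lit 5) (nat_lit 5) (nat_lit 5) (nat_lit 4) (nat_lit 487) (nat_lit 392) (nat_lit 321)))) (XT.nd (nat_lit 156) (nat_lit 0) (nat_lit 0) (XT.nd (nat_lit 78) (nat_lit 0) (nat_lit 0) (XT.lf (nat_lit 0) (nat_lit 212832702791) (nat_lit 76) (nat_lit 130559990533) (nat_lit 76) (nat_lit 124609865208) (nat_lit 4) (nat_lit 4) (nat_lit 5) (nat_lit 5) (nat_lit 5) (nat_lit 4) (nat_lit 488) (nat_lit 392) (nat_lit 320)) (XT.lf (nat_lit 0) (nat_lit 298172732000) (nat_lit 76) (nat_lit 105771936411) (nat_lit 76) (nat_lit 99820075730) (nat_lit 4) (nat_lit 4) (nat_lit 5) (nat_lit 5) (nat_lit 5) (nat_lit 4) (nat_lit 489) (nat_lit 392) (nat_lit 319))) (XT.nd (nat_lit 78) (nat_lit 0) (nat_lit 0) (XT.lf (nat_lit 0) (nat_lit 390302029128)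 (nat_lit 76) (nat_lit 79020137384) (nat_lit 76) (nat_lit 73066669893) (nat_lit 4) (nat_lit 4) (nat_lit 5) (nat_lit 5) (nat_lit 5) (nat_lit 4) (nat_lit 490) (nat_lit 392) (nat_lit 318)) (XT.lf (nat_lit 0) (nat_lit 489766545565) (nat_lit 76) (nat_lit 50146064272) (nat_lit 76) (nat_lit 44191108993) (nat_lit 4) (nat_lit 4) (nat_lit 5) (nat_lit 5) (nat_lit 5) (nat_lit 4) (nat_lit 491) (nat_lit 392) (nat_lit 317))))) (XT.nd (nat_lit 312) (nat_lit 0) (nat_lit 0) (XT.nd (nat_lit 156) (nat_lit 0) (nat_lit 0) (XT.nd (nat_lit 78) (nat_lit 152) (nat_lit 0) (XT.lf (nat_lit 0) (nat_lit 597155700668) (nat_lit 76) (nat_lit 18978611457) (nat_lit 76) (nat_lit 13022278596) (nat_lit 4) (nat_lit 4) (nat_lit 5) (nat_lit 5) (nat_lit 5) (nat_lit 4) (nat_lit 492) (nat_lit 392) (nat_lit 316)) (XT.lf (nat_lit 0) (nat_lit 20771951777) (nat_lit 152) (nat_lit 641887963938) (nat_lit 0) (nat_lit 15098039016) (nat_lit 2) (nat_lit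 5) (nat_lit 4) (nat_lit 4) (nat_lit 2) (nat_lit 4) (nat_lit 493) (nat_lit 392) (nat_lit 315))) (XT.nd (nat_lit 78) (nat_lit 0) (nat_lit 0) (XT.lf (nat_lit 0) (nat_lit 57691558330) (nat_lit 152) (nat_lit 620484771066) (nat_lit 0) (nat_lit 52016520756) (nat_lit 2) (nat_lit 5) (nat_lit 4) (nat_lit 4) (nat_lit 2) (nat_lit 4) (nat_lit 494) (nat_lit 392) (nat_lit 314)) (XT.lf (nat_lit 0) (nat_lit 97551204089) (nat_lit 152) (nat_lit 597396884598) (nat_lit 0) (nat_lit 91875125021) (nat_lit 2) (nat_lit 5) (nat_lit 4) (nat_lit 4) (nat_lit 2) (nat_lit 4) (nat_lit 495) (nat_lit 392) (nat_lit 313)))) (XT.nd (nat_lit 156) (nat_lit 0) (nat_lit 0) (XT.nd (nat_lit 78) (nat_lit 0) (nat_lit 0) (XT.lf (nat_lit 0) (nat_lit 140587094363) (nat_lit 152) (nat_lit 572487487426) (nat_lit 0) (nat_lit 134910050948) (nat_lit 2) (nat_lit 5) (nat_lit 4) (nat_lit 4) (nat_lit 2) (nat_lit 4) (nat_lit 496) (nat_lit 392) (nat_lit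 312)) (XT.lf (nat_lit 0) (nat_lit 187054256649) (nat_lit 152) (nat_lit 545608968311) (nat_lit 0) (nat_lit 181376320321) (nat_lit 2) (nat_lit 5) (nat_lit 4) (nat_lit 4) (nat_lit 2) (nat_lit 4) (nat_lit 497) (nat_lit 392) (nat_lit 311))) (XT.nd (nat_lit 78) (nat_lit 0) (nat_lit 0) (XT.lf (nat_lit 0) (nat_lit 237228051908) (nat_lit 152) (nat_lit 516602047137) (nat_lit 0) (nat_lit 231549288809) (nat_lit 2) (nat_lit 5) (nat_lit 4) (nat_lit 4) (nat_lit 2) (nat_lit 4) (nat_lit 498) (nat_lit 392) (nat_lit 310)) (XT.lf (nat_lit 0) (nat_lit 291405806336) (nat_lit 152) (nat_lit 485294831039) (nat_lit 0) (nat_lit 285726277708) (nat_lit 2) (nat_lit 5) (nat_lit 4) (nat_lit 4) (nat_lit 2) (nat_lit 4) (nat_lit 499) (nat_lit 392) (nat_lit 309))))))))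
noncomputable def xc34 : XT := (XT.nd (nat_lit 57720) (nat_lit 0) (nat_lit 836) (XT.nd (nat_lit 56550) (nat_lit 0) (nat_lit 3420) (XT.nd (nat_lit 56004) (nat_lit 0) (nat_lit 6156) (XT.nd (nat_lit 234) (nat_lit 0) (nat_lit 0) (XT.nd (nat_lit 78) (nat_lit 0) (nat_lit 0) (XT.lf (nat_lit 0) (nat_lit 349908573291) (nat_lit 152) (nat_lit 451501795773) (nat_lit 0) (nat_lit 344228335840) (nat_lit 2) (nat_lit 5) (nat_lit 4) (nat_lit 4) (nat_lit 2) (nat_lit 4) (nat_lit 500) (nat_lit 392) (nat_lit 308)) (XT.nd (nat_lit 78) (nat_lit 0) (nat_lit 0) (XT.lf (nat_lit 0) (nat_lit 413083035838) (nat_lit 152) (nat_lit 415022686316) (nat_lit 0) (nat_lit 407402142069) (nat_lit 2) (nat_lit 5) (nat_lit 4) (nat_lit 4) (nat_lit 2) (nat_lit 4) (nat_lit 501) (nat_lit 392) (nat_lit 307)) (XT.lf (nat_lit 0) (nat_lit 481303561161) (nat_lit 152) (nat_lit 375641330166) (nat_lit 0) (nat_lit 475622059690) (nat_lit 2) (nat_lit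 5) (nat_lit 4) (nat_lit 4) (nat_lit 2) (nat_lit 4) (nat_lit 502) (nat_lit 392) (nat_lit 306)))) (XT.nd (nat_lit 55614) (nat_lit 0) (nat_lit 8284) (XT.nd (nat_lit 55536) (nat_lit 0) (nat_lit 9348) (XT.lf (nat_lit 0) (nat_lit 554974419040) (nat_lit 152) (nat_lit 333124356326) (nat_lit 0) (nat_lit 549292354882) (nat_lit 2) (nat_lit 5) (nat_lit 4) (nat_lit 4) (nat_lit 2) (nat_lit 4) (nat_lit 503) (nat_lit 392) (nat_lit 305)) (XT.lf (nat_lit 0) (nat_lit 1880286474) (nat_lit 380) (nat_lit 169913482) (nat_lit 0) (nat_lit 1880286474) (nat_lit 125) (nat_lit 5) (nat_lit 130) (nat_lit 4) (nat_lit 125) (nat_lit 4) (nat_lit 414) (nat_lit 393) (nat_lit 393))) (XT.nd (nat_lit 78) (nat_lit 380) (nat_lit 0) (XT.lf (nat_lit 0) (nat_lit 2001280722) (nat_lit 380) (nat_lit 5947362339) (nat_lit 0) (nat_lit 127912905) (nat_lit 116) (nat_lit 5) (nat_lit 121) (nat_lit 4) (nat_lit 116) (nat_lit 4) (nat_lit 415) (nat_lit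 393) (nat_lit 392)) (XT.lf (nat_lit 0) (nat_lit 15391877) (nat_lit 380) (nat_lit 3576414299) (nat_lit 76) (nat_lit 4720238231) (nat_lit 111) (nat_lit 5) (nat_lit 116) (nat_lit 5) (nat_lit 112) (nat_lit 4) (nat_lit 416) (nat_lit 393) (nat_lit 391))))) (XT.nd (nat_lit 234) (nat_lit 1064) (nat_lit 0) (XT.nd (nat_lit 78) (nat_lit 836) (nat_lit 0) (XT.lf (nat_lit 0) (nat_lit 6226039554) (nat_lit 304) (nat_lit 1082874677) (nat_lit 0) (nat_lit 1260250409) (nat_lit 108) (nat_lit 5) (nat_lit 112) (nat_lit 4) (nat_lit 108) (nat_lit 4) (nat_lit 417) (nat_lit 393) (nat_lit 390)) (XT.nd (nat_lit 78) (nat_lit 304) (nat_lit 0) (XT.lf (nat_lit 0) (nat_lit 1581893772) (nat_lit 228) (nat_lit 2302987452) (nat_lit 304) (nat_lit 4962378396) (nat_lit 101) (nat_lit 5) (nat_lit 104) (nat_lit 5) (nat_lit 105) (nat_lit 4) (nat_lit 418) (nat_lit 393) (nat_lit 389)) (XT.lf (nat_lit 0) (nat_lit 1269568477) (nat_lit 304)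 (nat_lit 4724549834) (nat_lit 76) (nat_lit 3153998730) (nat_lit 97) (nat_lit 5) (nat_lit 101) (nat_lit 5) (nat_lit 98) (nat_lit 4) (nat_lit 419) (nat_lit 393) (nat_lit 388)))) (XT.nd (nat_lit 156) (nat_lit 456) (nat_lit 0) (XT.nd (nat_lit 78) (nat_lit 456) (nat_lit 0) (XT.lf (nat_lit 0) (nat_lit 7397332980) (nat_lit 152) (nat_lit 349469482) (nat_lit 228) (nat_lit 1726180498) (nat_lit 95) (nat_lit 5) (nat_lit 97) (nat_lit 5) (nat_lit 98) (nat_lit 4) (nat_lit 420) (nat_lit 393) (nat_lit 387)) (XT.lf (nat_lit 0) (nat_lit 658736714) (nat_lit 152) (nat_lit 4101342144) (nat_lit 228) (nat_lit 5059996299) (nat_lit 89) (nat_lit 5) (nat_lit 91) (nat_lit 5) (nat_lit 92) (nat_lit 4) (nat_lit 421) (nat_lit 393) (nat_lit 386))) (XT.nd (nat_lit 78) (nat_lit 152) (nat_lit 0) (XT.lf (nat_lit 0) (nat_lit 1452845482) (nat_lit 304) (nat_lit 6587075356) (nat_lit 76) (nat_lit 2152949304) (nat_lit 85) (nat_lit 5)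 (nat_lit 89) (nat_lit 5) (nat_lit 86) (nat_lit 4) (nat_lit 422) (nat_lit 393) (nat_lit 385)) (XT.lf (nat_lit 0) (nat_lit 6638024615) (nat_lit 152) (nat_lit 1672272343) (nat_lit 228) (nat_lit 2281027782) (nat_lit 83) (nat_lit 5) (nat_lit 85) (nat_lit 5) (nat_lit 86) (nat_lit 4) (nat_lit 423) (nat_lit 393) (nat_lit 384)))))) (XT.nd (nat_lit 546) (nat_lit 1140) (nat_lit 0) (XT.nd (nat_lit 234) (nat_lit 836) (nat_lit 0) (XT.nd (nat_lit 78) (nat_lit 532) (nat_lit 0) (XT.lf (nat_lit 0) (nat_lit 4573206857) (nat_lit 228) (nat_lit 1262145023) (nat_lit 76) (nat_lit 5181223509) (nat_lit 80) (nat_lit 5) (nat_lit 83) (nat_lit 5) (nat_lit 81) (nat_lit 4) (nat_lit 424) (nat_lit 393) (nat_lit 383)) (XT.nd (nat_lit 78) (nat_lit 152) (nat_lit 0) (XT.lf (nat_lit 0) (nat_lit 442987772) (nat_lit 228) (nat_lit 9870074715) (nat_lit 76) (nat_lit 1158875060) (nat_lit 75) (nat_lit 5) (nat_lit 78) (nat_lit 5) (nat_lit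 76) (nat_lit 4) (nat_lit 425) (nat_lit 393) (nat_lit 382)) (XT.lf (nat_lit 0) (nat_lit 4517317397) (nat_lit 152) (nat_lit 3236374210) (nat_lit 228) (nat_lit 4199815576) (nat_lit 73) (nat_lit 5) (nat_lit 75) (nat_lit 5) (nat_lit 76) (nat_lit 4) (nat_lit 426) (nat_lit 393) (nat_lit 381)))) (XT.nd (nat_lit 156) (nat_lit 532) (nat_lit 0) (XT.nd (nat_lit 78) (nat_lit 76) (nat_lit 0) (XT.lf (nat_lit 0) (nat_lit 3134969761) (nat_lit 228) (nat_lit 4937969114) (nat_lit 76) (nat_lit 4395153282) (nat_lit 70) (nat_lit 5) (nat_lit 73) (nat_lit 5) (nat_lit 71) (nat_lit 4) (nat_lit 427) (nat_lit 393) (nat_lit 380)) (XT.lf (nat_lit 0) (nat_lit 10637232200) (nat_lit 76) (nat_lit 334197265) (nat_lit 152) (nat_lit 2045885972) (nat_lit 69) (nat_lit 5) (nat_lit 70) (nat_lit 5) (nat_lit 71) (nat_lit 4) (nat_lit 428) (nat_lit 393) (nat_lit 379))) (XT.nd (nat_lit 78) (nat_lit 228) (nat_lit 0) (XT.lf (nat_lit 0) (nat_lit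 147419459) (nat_lit 76) (nat_lit 5642251812) (nat_lit 152) (nat_lit 7808684526) (nat_lit 65) (nat_lit 5) (nat_lit 66) (nat_lit 5) (nat_lit 67) (nat_lit 4) (nat_lit 429) (nat_lit 393) (nat_lit 378)) (XT.lf (nat_lit 0) (nat_lit 84888002) (nat_lit 228) (nat_lit 11369906624) (nat_lit 76) (nat_lit 2763089485) (nat_lit 62) (nat_lit 5) (nat_lit 65) (nat_lit 5) (nat_lit 63) (nat_lit 4) (nat_lit 430) (nat_lit 393) (nat_lit 377))))) (XT.nd (nat_lit 312) (nat_lit 532) (nat_lit 0) (XT.nd (nat_lit 156) (nat_lit 304) (nat_lit 0) (XT.nd (nat_lit 78) (nat_lit 228) (nat_lit 0) (XT.lf (nat_lit 0) (nat_lit 5495041953) (nat_lit 76) (nat_lit 2988593596) (nat_lit 152) (nat_lit 6389586448) (nat_lit 61) (nat_lit 5) (nat_lit 62) (nat_lit 5) (nat_lit 63) (nat_lit 4) (nat_lit 431) (nat_lit 393) (nat_lit 376)) (XT.lf (nat_lit 0) (nat_lit 2072305548) (nat_lit 228) (nat_lit 7392521147) (nat_lit 76) (nat_lit 6106521326) (nat_lit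 58) (nat_lit 5) (nat_lit 61) (nat_lit 5) (nat_lit 59) (nat_lit 4) (nat_lit 432) (nat_lit 393) (nat_lit 375))) (XT.nd (nat_lit 78) (nat_lit 228) (nat_lit 0) (XT.lf (nat_lit 0) (nat_lit 10864211929) (nat_lit 76) (nat_lit 254211089) (nat_lit 152) (nat_lit 5195116215) (nat_lit 57) (nat_lit 5) (nat_lit 58) (nat_lit 5) (nat_lit 59) (nat_lit 4) (nat_lit 433) (nat_lit 393) (nat_lit 374)) (XT.lf (nat_lit 0) (nat_lit 3900776428) (nat_lit 228) (nat_lit 3617735850) (nat_lit 76) (nat_lit 9581235315) (nat_lit 54) (nat_lit 5) (nat_lit 57) (nat_lit 5) (nat_lit 55) (nat_lit 4) (nat_lit 434) (nat_lit 393) (nat_lit 373)))) (XT.nd (nat_lit 156) (nat_lit 304) (nat_lit 0) (XT.nd (nat_lit 78) (nat_lit 152) (nat_lit 0) (XT.lf (nat_lit 0) (nat_lit 13694694161) (nat_lit 152) (nat_lit 1832667939) (nat_lit 0) (nat_lit 2409621461) (nat_lit 53) (nat_lit 5) (nat_lit 55) (nat_lit 4) (nat_lit 53) (nat_lit 4) (nat_lit 435) (nat_lit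 393) (nat_lit 372)) (XT.lf (nat_lit 0) (nat_lit 5510412334) (nat_lit 152) (nat_lit 195957401) (nat_lit 76) (nat_lit 13117930227) (nat_lit 51) (nat_lit 5) (nat_lit 53) (nat_lit 5) (nat_lit 52) (nat_lit 4) (nat_lit 436) (nat_lit 393) (nat_lit 371))) (XT.nd (nat_lit 78) (nat_lit 152) (nat_lit 0) (XT.lf (nat_lit 0) (nat_lit 1374814796) (nat_lit 76) (nat_lit 14760050097) (nat_lit 76) (nat_lit 3632257424) (nat_lit 49) (nat_lit 4) (nat_lit 50) (nat_lit 5) (nat_lit 50) (nat_lit 4) (nat_lit 437) (nat_lit 393) (nat_lit 370)) (XT.lf (nat_lit 0) (nat_lit 2755703189) (nat_lit 76) (nat_lit 4099273334) (nat_lit 152) (nat_lit 13912598278) (nat_lit 47) (nat_lit 5) (nat_lit 48) (nat_lit 5) (nat_lit 49) (nat_lit 4) (nat_lit 438) (nat_lit 393) (nat_lit 369))))))) (XT.nd (nat_lit 1170) (nat_lit 988) (nat_lit 0) (XT.nd (nat_lit 546) (nat_lit 836) (nat_lit 0) (XT.nd (nat_lit 234) (nat_lit 456) (nat_lit 0) (XT.nd (nat_lit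 78) (nat_lit 228) (nat_lit 0) (XT.lf (nat_lit 0) (nat_lit 3931691019) (nat_lit 76) (nat_lit 14403790388) (nat_lit 76) (nat_lit 3495532370) (nat_lit 46) (nat_lit 4) (nat_lit 47) (nat_lit 5) (nat_lit 47) (nat_lit 4) (nat_lit 439) (nat_lit 393) (nat_lit 368)) (XT.nd (nat_lit 78) (nat_lit 76) (nat_lit 0) (XT.lf (nat_lit 0) (nat_lit 4849407569) (nat_lit 76) (nat_lit 2904653173) (nat_lit 152) (nat_lit 15207049394) (nat_lit 44) (nat_lit 5) (nat_lit 45) (nat_lit 5) (nat_lit 46) (nat_lit 4) (nat_lit 440) (nat_lit 393) (nat_lit 367)) (XT.lf (nat_lit 0) (nat_lit 5443246516) (nat_lit 76) (nat_lit 14680308474) (nat_lit 76) (nat_lit 4038078097) (nat_lit 43) (nat_lit 4) (nat_lit 44) (nat_lit 5) (nat_lit 44) (nat_lit 4) (nat_lit 441) (nat_lit 393) (nat_lit 366)))) (XT.nd (nat_lit 156) (nat_lit 228) (nat_lit 0) (XT.nd (nat_lit 78) (nat_lit 76) (nat_lit 0) (XT.lf (nat_lit 0) (nat_lit 5691152752) (nat_lit 76)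 (nat_lit 2331379793) (nat_lit 152) (nat_lit 17416657103) (nat_lit 41) (nat_lit 5) (nat_lit 42) (nat_lit 5) (nat_lit 43) (nat_lit 4) (nat_lit 442) (nat_lit 393) (nat_lit 365)) (XT.lf (nat_lit 0) (nat_lit 5460764943) (nat_lit 76) (nat_lit 15838799793) (nat_lit 76) (nat_lit 5496427065) (nat_lit 40) (nat_lit 4) (nat_lit 41) (nat_lit 5) (nat_lit 41) (nat_lit 4) (nat_lit 443) (nat_lit 393) (nat_lit 364))) (XT.nd (nat_lit 78) (nat_lit 76) (nat_lit 0) (XT.lf (nat_lit 0) (nat_lit 4762149597) (nat_lit 76) (nat_lit 2650841633) (nat_lit 152) (nat_lit 20829006050) (nat_lit 38) (nat_lit 5) (nat_lit 39) (nat_lit 5) (nat_lit 40) (nat_lit 4) (nat_lit 444) (nat_lit 393) (nat_lit 363)) (XT.lf (nat_lit 0) (nat_lit 3385243287) (nat_lit 76) (nat_lit 18205674508) (nat_lit 76) (nat_lit 8186846713) (nat_lit 37) (nat_lit 4) (nat_lit 38) (nat_lit 5) (nat_lit 38) (nat_lit 4) (nat_lit 445) (nat_lit 393) (nat_lit 362)))))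 (XT.nd (nat_lit 312) (nat_lit 456) (nat_lit 0) (XT.nd (nat_lit 156) (nat_lit 228) (nat_lit 0) (XT.nd (nat_lit 78) (nat_lit 0) (nat_lit 0) (XT.lf (nat_lit 0) (nat_lit 1371770694) (nat_lit 76) (nat_lit 4221306022) (nat_lit 152) (nat_lit 25823983312) (nat_lit 35) (nat_lit 5) (nat_lit 36) (nat_lit 5) (nat_lit 37) (nat_lit 4) (nat_lit 446) (nat_lit 393) (nat_lit 361)) (XT.lf (nat_lit 0) (nat_lit 20654493595) (nat_lit 152) (nat_lit 1528197194) (nat_lit 0) (nat_lit 10974803751) (nat_lit 35) (nat_lit 5) (nat_lit 37) (nat_lit 4) (nat_lit 35) (nat_lit 4) (nat_lit 447) (nat_lit 393) (nat_lit 360))) (XT.nd (nat_lit 78) (nat_lit 76) (nat_lit 0) (XT.lf (nat_lit 0) (nat_lit 2204338477) (nat_lit 152) (nat_lit 5222204925) (nat_lit 76) (nat_lit 27590103540) (nat_lit 33) (nat_lit 5) (nat_lit 35) (nat_lit 5) (nat_lit 34) (nat_lit 4) (nat_lit 448) (nat_lit 393) (nat_lit 359)) (XT.lf (nat_lit 0) (nat_lit 18088366143)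 (nat_lit 152) (nat_lit 10147034914) (nat_lit 0) (nat_lit 8756976665) (nat_lit 32) (nat_lit 5) (nat_lit 34) (nat_lit 4) (nat_lit 32) (nat_lit 4) (nat_lit 449) (nat_lit 393) (nat_lit 358)))) (XT.nd (nat_lit 156) (nat_lit 228) (nat_lit 0) (XT.nd (nat_lit 78) (nat_lit 152) (nat_lit 0) (XT.lf (nat_lit 0) (nat_lit 22842649156) (nat_lit 76) (nat_lit 12821987089) (nat_lit 76) (nat_lit 3440456386) (nat_lit 31) (nat_lit 4) (nat_lit 32) (nat_lit 5) (nat_lit 32) (nat_lit 4) (nat_lit 450) (nat_lit 393) (nat_lit 357)) (XT.lf (nat_lit 0) (nat_lit 13208591456) (nat_lit 152) (nat_lit 23919658417) (nat_lit 0) (nat_lit 4229584064) (nat_lit 29) (nat_lit 5) (nat_lit 31) (nat_lit 4) (nat_lit 29) (nat_lit 4) (nat_lit 451) (nat_lit 393) (nat_lit 356))) (XT.nd (nat_lit 78) (nat_lit 152) (nat_lit 0) (XT.lf (nat_lit 0) (nat_lit 10404539786) (nat_lit 76) (nat_lit 21188589645) (nat_lit 76) (nat_lit 12168641284) (nat_lit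 28) (nat_lit 4) (nat_lit 29) (nat_lit 5) (nat_lit 29) (nat_lit 4) (nat_lit 452) (nat_lit 393) (nat_lit 355)) (XT.lf (nat_lit 0) (nat_lit 1678420302) (nat_lit 76) (nat_lit 3558787974) (nat_lit 152) (nat_lit 41101355335) (nat_lit 26) (nat_lit 5) (nat_lit 27) (nat_lit 5) (nat_lit 28) (nat_lit 4) (nat_lit 453) (nat_lit 393) (nat_lit 354)))))) (XT.nd (nat_lit 546) (nat_lit 456) (nat_lit 0) (XT.nd (nat_lit 234) (nat_lit 304) (nat_lit 0) (XT.nd (nat_lit 78) (nat_lit 228) (nat_lit 0) (XT.lf (nat_lit 0) (nat_lit 24311290353) (nat_lit 152) (nat_lit 9113800332) (nat_lit 0) (nat_lit 15651331354) (nat_lit 26) (nat_lit 5) (nat_lit 28) (nat_lit 4) (nat_lit 26) (nat_lit 4) (nat_lit 454) (nat_lit 393) (nat_lit 353)) (XT.nd (nat_lit 78) (nat_lit 152) (nat_lit 0) (XT.lf (nat_lit 0) (nat_lit 29921095128) (nat_lit 76) (nat_lit 15391530181) (nat_lit 76) (nat_lit 6700618553) (nat_lit 25) (nat_lit 4) (nat_lit 26) (nat_lit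 5) (nat_lit 26) (nat_lit 4) (nat_lit 455) (nat_lit 393) (nat_lit 352)) (XT.lf (nat_lit 0) (nat_lit 12781012517) (nat_lit 152) (nat_lit 37898245498) (nat_lit 0) (nat_lit 4476658735) (nat_lit 23) (nat_lit 5) (nat_lit 25) (nat_lit 4) (nat_lit 23) (nat_lit 4) (nat_lit 456) (nat_lit 393) (nat_lit 351)))) (XT.nd (nat_lit 156) (nat_lit 228) (nat_lit 0) (XT.nd (nat_lit 78) (nat_lit 0) (nat_lit 0) (XT.lf (nat_lit 0) (nat_lit 1441762752) (nat_lit 76) (nat_lit 32702248281) (nat_lit 76) (nat_lit 24372621270) (nat_lit 22) (nat_lit 4) (nat_lit 23) (nat_lit 5) (nat_lit 23) (nat_lit 4) (nat_lit 457) (nat_lit 393) (nat_lit 350)) (XT.lf (nat_lit 0) (nat_lit 45053521790) (nat_lit 76) (nat_lit 12709189574) (nat_lit 76) (nat_lit 4356161424) (nat_lit 22) (nat_lit 4) (nat_lit 23) (nat_lit 5) (nat_lit 23) (nat_lit 4) (nat_lit 458) (nat_lit 393) (nat_lit 349))) (XT.nd (nat_lit 78) (nat_lit 76) (nat_lit 0) (XT.lf (nat_lit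 0) (nat_lit 17164391966) (nat_lit 152) (nat_lit 39620172178) (nat_lit 0) (nat_lit 9188491137) (nat_lit 20) (nat_lit 5) (nat_lit 22) (nat_lit 4) (nat_lit 20) (nat_lit 4) (nat_lit 459) (nat_lit 393) (nat_lit 348)) (XT.lf (nat_lit 0) (nat_lit 3337980524) (nat_lit 76) (nat_lit 37382843685) (nat_lit 76) (nat_lit 29387835518) (nat_lit 19) (nat_lit 4) (nat_lit 20) (nat_lit 5) (nat_lit 20) (nat_lit 4) (nat_lit 460) (nat_lit 393) (nat_lit 347))))) (XT.nd (nat_lit 312) (nat_lit 228) (nat_lit 0) (XT.nd (nat_lit 156) (nat_lit 76) (nat_lit 0) (XT.nd (nat_lit 78) (nat_lit 152) (nat_lit 0) (XT.lf (nat_lit 0) (nat_lit 50947218809) (nat_lit 76) (nat_lit 15805522960) (nat_lit 76) (nat_lit 7792822814) (nat_lit 19) (nat_lit 4) (nat_lit 20) (nat_lit 5) (nat_lit 20) (nat_lit 4) (nat_lit 461) (nat_lit 393) (nat_lit 346)) (XT.lf (nat_lit 0) (nat_lit 15429383577) (nat_lit 152) (nat_lit 56093444260) (nat_lit 0) (nat_lit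 7782639187) (nat_lit 17) (nat_lit 5) (nat_lit 19) (nat_lit 4) (nat_lit 17) (nat_lit 4) (nat_lit 462) (nat_lit 393) (nat_lit 345))) (XT.nd (nat_lit 78) (nat_lit 76) (nat_lit 0) (XT.lf (nat_lit 0) (nat_lit 40833638446) (nat_lit 152) (nat_lit 10403823091) (nat_lit 0) (nat_lit 33172448322) (nat_lit 17) (nat_lit 5) (nat_lit 19) (nat_lit 4) (nat_lit 17) (nat_lit 4) (nat_lit 463) (nat_lit 393) (nat_lit 344)) (XT.lf (nat_lit 0) (nat_lit 40053030729) (nat_lit 76) (nat_lit 28758587215) (nat_lit 76) (nat_lit 21084021411) (nat_lit 16) (nat_lit 4) (nat_lit 17) (nat_lit 5) (nat_lit 17) (nat_lit 4) (nat_lit 464) (nat_lit 393) (nat_lit 343)))) (XT.nd (nat_lit 156) (nat_lit 76) (nat_lit 0) (XT.nd (nat_lit 78) (nat_lit 76) (nat_lit 0) (XT.lf (nat_lit 0) (nat_lit 3207553582) (nat_lit 152) (nat_lit 1111465847) (nat_lit 76) (nat_lit 91493573765) (nat_lit 15) (nat_lit 5) (nat_lit 17) (nat_lit 5) (nat_lit 16) (nat_lit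 4) (nat_lit 465) (nat_lit 393) (nat_lit 342)) (XT.lf (nat_lit 0) (nat_lit 29823609623) (nat_lit 152) (nat_lit 49814237491) (nat_lit 0) (nat_lit 22491782784) (nat_lit 14) (nat_lit 5) (nat_lit 16) (nat_lit 4) (nat_lit 14) (nat_lit 4) (nat_lit 466) (nat_lit 393) (nat_lit 341))) (XT.nd (nat_lit 78) (nat_lit 0) (nat_lit 0) (XT.lf (nat_lit 0) (nat_lit 912313408) (nat_lit 76) (nat_lit 57689993937) (nat_lit 76) (nat_lit 50348054673) (nat_lit 13) (nat_lit 4) (nat_lit 14) (nat_lit 5) (nat_lit 14) (nat_lit 4) (nat_lit 467) (nat_lit 393) (nat_lit 340)) (XT.lf (nat_lit 0) (nat_lit 57333533818) (nat_lit 76) (nat_lit 33147322036) (nat_lit 76) (nat_lit 25796019417) (nat_lit 13) (nat_lit 4) (nat_lit 14) (nat_lit 5) (nat_lit 14) (nat_lit 4) (nat_lit 468) (nat_lit 393) (nat_lit 339))))))))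
noncomputable def xc35 : XT := (XT.nd (nat_lit 2340) (nat_lit 0) (nat_lit 0) (XT.nd (nat_lit 1170) (nat_lit 228) (nat_lit 0) (XT.nd (nat_lit 546) (nat_lit 228) (nat_lit 0) (XT.nd (nat_lit 234) (nat_lit 228) (nat_lit 0) (XT.nd (nat_lit 78) (nat_lit 76) (nat_lit 0) (XT.lf (nat_lit 0) (nat_lit 631084322) (nat_lit 152) (nat_lit 6066249533) (nat_lit 76) (nat_lit 117494916012) (nat_lit 12) (nat_lit 5) (nat_lit 14) (nat_lit 5) (nat_lit 13) (nat_lit 4) (nat_lit 469) (nat_lit 393) (nat_lit 338)) (XT.nd (nat_lit 78) (nat_lit 0) (nat_lit 0) (XT.lf (nat_lit 0) (nat_lit 29394673962) (nat_lit 152) (nat_lit 80891201084) (nat_lit 0) (nat_lit 22377531140) (nat_lit 11) (nat_lit 5) (nat_lit 13) (nat_lit 4) (nat_lit 11) (nat_lit 4) (nat_lit 470) (nat_lit 393) (nat_lit 337)) (XT.lf (nat_lit 0) (nat_lit 60620268793) (nat_lit 152) (nat_lit 27587893565) (nat_lit 0) (nat_lit 53596046987) (nat_lit 11) (nat_lit 5) (nat_lit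 13) (nat_lit 4) (nat_lit 11) (nat_lit 4) (nat_lit 471) (nat_lit 393) (nat_lit 336)))) (XT.nd (nat_lit 156) (nat_lit 152) (nat_lit 0) (XT.nd (nat_lit 78) (nat_lit 0) (nat_lit 0) (XT.lf (nat_lit 0) (nat_lit 30855563728) (nat_lit 76) (nat_lit 63915076608) (nat_lit 76) (nat_lit 56884300186) (nat_lit 10) (nat_lit 4) (nat_lit 11) (nat_lit 5) (nat_lit 11) (nat_lit 4) (nat_lit 472) (nat_lit 393) (nat_lit 335)) (XT.lf (nat_lit 0) (nat_lit 94852820542) (nat_lit 76) (nat_lit 37228178739) (nat_lit 76) (nat_lit 30191333229) (nat_lit 10) (nat_lit 4) (nat_lit 11) (nat_lit 5) (nat_lit 11) (nat_lit 4) (nat_lit 473) (nat_lit 393) (nat_lit 334))) (XT.nd (nat_lit 78) (nat_lit 152) (nat_lit 0) (XT.lf (nat_lit 0) (nat_lit 163870939528) (nat_lit 76) (nat_lit 8456538501) (nat_lit 76) (nat_lit 1414073464) (nat_lit 10) (nat_lit 4) (nat_lit 11) (nat_lit 5) (nat_lit 11) (nat_lit 4) (nat_lit 474) (nat_lit 393) (nat_lit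 333)) (XT.lf (nat_lit 0) (nat_lit 29877982783) (nat_lit 152) (nat_lit 133003145031) (nat_lit 0) (nat_lit 23165917734) (nat_lit 8) (nat_lit 5) (nat_lit 10) (nat_lit 4) (nat_lit 8) (nat_lit 4) (nat_lit 475) (nat_lit 393) (nat_lit 332))))) (XT.nd (nat_lit 312) (nat_lit 152) (nat_lit 0) (XT.nd (nat_lit 156) (nat_lit 76) (nat_lit 0) (XT.nd (nat_lit 78) (nat_lit 0) (nat_lit 0) (XT.lf (nat_lit 0) (nat_lit 63897333306) (nat_lit 152) (nat_lit 78244133458) (nat_lit 0) (nat_lit 57180679840) (nat_lit 8) (nat_lit 5) (nat_lit 10) (nat_lit 4) (nat_lit 8) (nat_lit 4) (nat_lit 476) (nat_lit 393) (nat_lit 331)) (XT.lf (nat_lit 0) (nat_lit 100596989861) (nat_lit 152) (nat_lit 19188240264) (nat_lit 0) (nat_lit 93876087861) (nat_lit 8) (nat_lit 5) (nat_lit 10) (nat_lit 4) (nat_lit 8) (nat_lit 4) (nat_lit 477) (nat_lit 393) (nat_lit 330))) (XT.nd (nat_lit 78) (nat_lit 0) (nat_lit 0) (XT.lf (nat_lit 0) (nat_lit 45986345647)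 (nat_lit 76) (nat_lit 94926061979) (nat_lit 76) (nat_lit 88201226150) (nat_lit 7) (nat_lit 4) (nat_lit 8) (nat_lit 5) (nat_lit 8) (nat_lit 4) (nat_lit 478) (nat_lit 393) (nat_lit 329)) (XT.lf (nat_lit 0) (nat_lit 116985848976) (nat_lit 76) (nat_lit 67764938893) (nat_lit 76) (nat_lit 61036460631) (nat_lit 7) (nat_lit 4) (nat_lit 8) (nat_lit 5) (nat_lit 8) (nat_lit 4) (nat_lit 479) (nat_lit 393) (nat_lit 328)))) (XT.nd (nat_lit 156) (nat_lit 152) (nat_lit 0) (XT.nd (nat_lit 78) (nat_lit 0) (nat_lit 0) (XT.lf (nat_lit 0) (nat_lit 193596557640) (nat_lit 76) (nat_lit 38465868197) (nat_lit 76) (nat_lit 31734017311) (nat_lit 7) (nat_lit 4) (nat_lit 8) (nat_lit 5) (nat_lit 8) (nat_lit 4) (nat_lit 480) (nat_lit 393) (nat_lit 327)) (XT.lf (nat_lit 0) (nat_lit 276272461024) (nat_lit 76) (nat_lit 6855225769) (nat_lit 76) (nat_lit 120252084) (nat_lit 7) (nat_lit 4) (nat_lit 8) (nat_lit 5) (nat_lit 8) (nat_lit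 4) (nat_lit 481) (nat_lit 393) (nat_lit 326))) (XT.nd (nat_lit 78) (nat_lit 0) (nat_lit 0) (XT.lf (nat_lit 0) (nat_lit 34333770903) (nat_lit 152) (nat_lit 241908462940) (nat_lit 0) (nat_lit 27916756459) (nat_lit 5) (nat_lit 5) (nat_lit 7) (nat_lit 4) (nat_lit 5) (nat_lit 4) (nat_lit 482) (nat_lit 393) (nat_lit 325)) (XT.lf (nat_lit 0) (nat_lit 71750419352) (nat_lit 152) (nat_lit 189651027074) (nat_lit 0) (nat_lit 65330855101) (nat_lit 5) (nat_lit 5) (nat_lit 7) (nat_lit 4) (nat_lit 5) (nat_lit 4) (nat_lit 483) (nat_lit 393) (nat_lit 324)))))) (XT.nd (nat_lit 546) (nat_lit 152) (nat_lit 0) (XT.nd (nat_lit 234) (nat_lit 76) (nat_lit 0) (XT.nd (nat_lit 78) (nat_lit 0) (nat_lit 0) (XT.lf (nat_lit 0) (nat_lit 112133888985) (nat_lit 152) (nat_lit 133266950477) (nat_lit 0) (nat_lit 105711963802) (nat_lit 5) (nat_lit 5) (nat_lit 7) (nat_lit 4) (nat_lit 5) (nat_lit 4) (nat_lit 484) (nat_lit 393) (nat_lit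 323)) (XT.nd (nat_lit 78) (nat_lit 0) (nat_lit 0) (XT.lf (nat_lit 0) (nat_lit 155723489252) (nat_lit 152) (nat_lit 72422105287) (nat_lit 0) (nat_lit 149299378020) (nat_lit 5) (nat_lit 5) (nat_lit 7) (nat_lit 4) (nat_lit 5) (nat_lit 4) (nat_lit 485) (nat_lit 393) (nat_lit 322)) (XT.lf (nat_lit 0) (nat_lit 202777528895) (nat_lit 152) (nat_lit 6755929459) (nat_lit 0) (nat_lit 196351393544) (nat_lit 5) (nat_lit 5) (nat_lit 7) (nat_lit 4) (nat_lit 5) (nat_lit 4) (nat_lit 486) (nat_lit 393) (nat_lit 321)))) (XT.nd (nat_lit 156) (nat_lit 0) (nat_lit 0) (XT.nd (nat_lit 78) (nat_lit 0) (nat_lit 0) (XT.lf (nat_lit 0) (nat_lit 66240830147) (nat_lit 76) (nat_lit 188368221519) (nat_lit 76) (nat_lit 181940211984) (nat_lit 4) (nat_lit 4) (nat_lit 5) (nat_lit 5) (nat_lit 5) (nat_lit 4) (nat_lit 487) (nat_lit 393) (nat_lit 320)) (XT.lf (nat_lit 0) (nat_lit 145277613412) (nat_lit 76) (nat_lit 165407040986) (nat_lit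 76) (nat_lit 158977296094) (nat_lit 4) (nat_lit 4) (nat_lit 5) (nat_lit 5) (nat_lit 5) (nat_lit 4) (nat_lit 488) (nat_lit 393) (nat_lit 319))) (XT.nd (nat_lit 78) (nat_lit 0) (nat_lit 0) (XT.lf (nat_lit 0) (nat_lit 230599404920) (nat_lit 76) (nat_lit 140628265434) (nat_lit 76) (nat_lit 134196913731) (nat_lit 4) (nat_lit 4) (nat_lit 5) (nat_lit 5) (nat_lit 5) (nat_lit 4) (nat_lit 489) (nat_lit 393) (nat_lit 318)) (XT.lf (nat_lit 0) (nat_lit 322711815288) (nat_lit 76) (nat_lit 113885057675) (nat_lit 76) (nat_lit 107452218185) (nat_lit 4) (nat_lit 4) (nat_lit 5) (nat_lit 5) (nat_lit 5) (nat_lit 4) (nat_lit 490) (nat_lit 393) (nat_lit 317))))) (XT.nd (nat_lit 312) (nat_lit 0) (nat_lit 0) (XT.nd (nat_lit 156) (nat_lit 152) (nat_lit 0) (XT.nd (nat_lit 78) (nat_lit 0) (nat_lit 0) (XT.lf (nat_lit 0) (nat_lit 422160695836) (nat_lit 76) (nat_lit 85018939440) (nat_lit 76) (nat_lit 78584722369) (nat_lit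 4) (nat_lit 4) (nat_lit 5) (nat_lit 5) (nat_lit 5) (nat_lit 4) (nat_lit 491) (nat_lit 393) (nat_lit 316)) (XT.lf (nat_lit 0) (nat_lit 529535373264) (nat_lit 76) (nat_lit 53858852252) (nat_lit 76) (nat_lit 47423359643) (nat_lit 4) (nat_lit 4) (nat_lit 5) (nat_lit 5) (nat_lit 5) (nat_lit 4) (nat_lit 492) (nat_lit 393) (nat_lit 315))) (XT.nd (nat_lit 78) (nat_lit 152) (nat_lit 0) (XT.lf (nat_lit 0) (nat_lit 645472141957) (nat_lit 76) (nat_lit 20220143742) (nat_lit 76) (nat_lit 13783470079) (nat_lit 4) (nat_lit 4) (nat_lit 5) (nat_lit 5) (nat_lit 5) (nat_lit 4) (nat_lit 493) (nat_lit 393) (nat_lit 314)) (XT.lf (nat_lit 0) (nat_lit 22697659713) (nat_lit 152) (nat_lit 692701280302) (nat_lit 0) (nat_lit 16566452825) (nat_lit 2) (nat_lit 5) (nat_lit 4) (nat_lit 4) (nat_lit 2) (nat_lit 4) (nat_lit 494) (nat_lit 393) (nat_lit 313)))) (XT.nd (nat_lit 156) (nat_lit 0) (nat_lit 0) (XT.nd (nat_lit 78) (nat_lit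 0) (nat_lit 0) (XT.lf (nat_lit 0) (nat_lit 62551282805) (nat_lit 152) (nat_lit 669625663167) (nat_lit 0) (nat_lit 56419111571) (nat_lit 2) (nat_lit 5) (nat_lit 4) (nat_lit 4) (nat_lit 2) (nat_lit 4) (nat_lit 495) (nat_lit 393) (nat_lit 312)) (XT.lf (nat_lit 0) (nat_lit 105581596536) (nat_lit 152) (nat_lit 644727626491) (nat_lit 0) (nat_lit 99448532389) (nat_lit 2) (nat_lit 5) (nat_lit 4) (nat_lit 4) (nat_lit 2) (nat_lit 4) (nat_lit 496) (nat_lit 393) (nat_lit 311))) (XT.nd (nat_lit 78) (nat_lit 0) (nat_lit 0) (XT.lf (nat_lit 0) (nat_lit 152043595356) (nat_lit 152) (nat_lit 617859626352) (nat_lit 0) (nat_lit 145909704437) (nat_lit 2) (nat_lit 5) (nat_lit 4) (nat_lit 4) (nat_lit 2) (nat_lit 4) (nat_lit 497) (nat_lit 393) (nat_lit 310)) (XT.lf (nat_lit 0) (nat_lit 202212609629) (nat_lit 152) (nat_lit 588862444971) (nat_lit 0) (nat_lit 196077953181) (nat_lit 2) (nat_lit 5) (nat_lit 4) (nat_lit 4)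 (nat_lit 2) (nat_lit 4) (nat_lit 498) (nat_lit 393) (nat_lit 309))))))) (XT.nd (nat_lit 56472) (nat_lit 0) (nat_lit 3800) (XT.nd (nat_lit 55848) (nat_lit 0) (nat_lit 6764) (XT.nd (nat_lit 234) (nat_lit 0) (nat_lit 0) (XT.nd (nat_lit 78) (nat_lit 0) (nat_lit 0) (XT.lf (nat_lit 0) (nat_lit 256385937217) (nat_lit 152) (nat_lit 557564247200) (nat_lit 0) (nat_lit 250250571946) (nat_lit 2) (nat_lit 5) (nat_lit 4) (nat_lit 4) (nat_lit 2) (nat_lit 4) (nat_lit 499) (nat_lit 393) (nat_lit 308)) (XT.nd (nat_lit 78) (nat_lit 0) (nat_lit 0) (XT.lf (nat_lit 0) (nat_lit 314884605246) (nat_lit 152) (nat_lit 523779562237) (nat_lit 0) (nat_lit 308748583658) (nat_lit 2) (nat_lit 5) (nat_lit 4) (nat_lit 4) (nat_lit 2) (nat_lit 4) (nat_lit 500) (nat_lit 393) (nat_lit 307)) (XT.lf (nat_lit 0) (nat_lit 378055272491) (nat_lit 152) (nat_lit 487308184541) (nat_lit 0) (nat_lit 371918643201) (nat_lit 2) (nat_lit 5) (nat_lit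 4) (nat_lit 4) (nat_lit 2) (nat_lit 4) (nat_lit 501) (nat_lit 393) (nat_lit 306)))) (XT.nd (nat_lit 55458) (nat_lit 0) (nat_lit 9728) (XT.nd (nat_lit 78) (nat_lit 0) (nat_lit 0) (XT.lf (nat_lit 0) (nat_lit 446272283646) (nat_lit 152) (nat_lit 447933987431) (nat_lit 0) (nat_lit 440135091669) (nat_lit 2) (nat_lit 5) (nat_lit 4) (nat_lit 4) (nat_lit 2) (nat_lit 4) (nat_lit 502) (nat_lit 393) (nat_lit 305)) (XT.lf (nat_lit 0) (nat_lit 519939887666) (nat_lit 152) (nat_lit 405423642329) (nat_lit 0) (nat_lit 513802174683) (nat_lit 2) (nat_lit 5) (nat_lit 4) (nat_lit 4) (nat_lit 2) (nat_lit 4) (nat_lit 503) (nat_lit 393) (nat_lit 304))) (XT.nd (nat_lit 78) (nat_lit 380) (nat_lit 0) (XT.lf (nat_lit 0) (nat_lit 771509012) (nat_lit 456) (nat_lit 2197744549) (nat_lit 0) (nat_lit 771509012) (nat_lit 135) (nat_lit 5) (nat_lit 141) (nat_lit 4) (nat_lit 135) (nat_lit 4) (nat_lit 412) (nat_lit 394) (nat_lit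 394)) (XT.lf (nat_lit 0) (nat_lit 5106731145) (nat_lit 380) (nat_lit 2395146245) (nat_lit 380) (nat_lit 164527185) (nat_lit 130) (nat_lit 4) (nat_lit 135) (nat_lit 5) (nat_lit 135) (nat_lit 4) (nat_lit 413) (nat_lit 394) (nat_lit 393))))) (XT.nd (nat_lit 312) (nat_lit 1292) (nat_lit 0) (XT.nd (nat_lit 156) (nat_lit 608) (nat_lit 0) (XT.nd (nat_lit 78) (nat_lit 684) (nat_lit 0) (XT.lf (nat_lit 0) (nat_lit 5682061263) (nat_lit 380) (nat_lit 598462848) (nat_lit 0) (nat_lit 1590625950) (nat_lit 125) (nat_lit 5) (nat_lit 130) (nat_lit 4) (nat_lit 125) (nat_lit 4) (nat_lit 414) (nat_lit 394) (nat_lit 392)) (XT.lf (nat_lit 0) (nat_lit 1551589177) (nat_lit 304) (nat_lit 2089559268) (nat_lit 380) (nat_lit 4454634073) (nat_lit 116) (nat_lit 5) (nat_lit 120) (nat_lit 5) (nat_lit 121) (nat_lit 4) (nat_lit 415) (nat_lit 394) (nat_lit 391))) (XT.nd (nat_lit 78) (nat_lit 228) (nat_lit 0) (XT.lf (nat_lit 0)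 (nat_lit 1349393987) (nat_lit 380) (nat_lit 4471058171) (nat_lit 76) (nat_lit 2521316706) (nat_lit 111) (nat_lit 5) (nat_lit 116) (nat_lit 5) (nat_lit 112) (nat_lit 4) (nat_lit 416) (nat_lit 394) (nat_lit 390)) (XT.lf (nat_lit 0) (nat_lit 6329111583) (nat_lit 228) (nat_lit 1014091929) (nat_lit 304) (nat_lit 1266550291) (nat_lit 108) (nat_lit 5) (nat_lit 111) (nat_lit 5) (nat_lit 112) (nat_lit 4) (nat_lit 417) (nat_lit 394) (nat_lit 389)))) (XT.nd (nat_lit 156) (nat_lit 456) (nat_lit 0) (XT.nd (nat_lit 78) (nat_lit 532) (nat_lit 0) (XT.lf (nat_lit 0) (nat_lit 4690411742) (nat_lit 304) (nat_lit 5072013) (nat_lit 76) (nat_lit 4203374072) (nat_lit 104) (nat_lit 5) (nat_lit 108) (nat_lit 5) (nat_lit 105) (nat_lit 4) (nat_lit 418) (nat_lit 394) (nat_lit 388)) (XT.lf (nat_lit 0) (nat_lit 1759734128) (nat_lit 304) (nat_lit 6711292927) (nat_lit 76) (nat_lit 740099178) (nat_lit 97) (nat_lit 5) (nat_lit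 101) (nat_lit 5) (nat_lit 98) (nat_lit 4) (nat_lit 419) (nat_lit 394) (nat_lit 387))) (XT.nd (nat_lit 78) (nat_lit 304) (nat_lit 0) (XT.lf (nat_lit 0) (nat_lit 5089581123) (nat_lit 152) (nat_lit 2949010651) (nat_lit 228) (nat_lit 1507335610) (nat_lit 95) (nat_lit 5) (nat_lit 97) (nat_lit 5) (nat_lit 98) (nat_lit 4) (nat_lit 420) (nat_lit 394) (nat_lit 386)) (XT.lf (nat_lit 0) (nat_lit 4720181603) (nat_lit 304) (nat_lit 2115055139) (nat_lit 76) (nat_lit 3070213362) (nat_lit 91) (nat_lit 5) (nat_lit 95) (nat_lit 5) (nat_lit 92) (nat_lit 4) (nat_lit 421) (nat_lit 394) (nat_lit 385)))))) (XT.nd (nat_lit 546) (nat_lit 1292) (nat_lit 0) (XT.nd (nat_lit 234) (nat_lit 836) (nat_lit 0) (XT.nd (nat_lit 78) (nat_lit 380) (nat_lit 0) (XT.lf (nat_lit 0) (nat_lit 358595581) (nat_lit 228) (nat_lit 696112133) (nat_lit 304) (nat_lit 9237491686) (nat_lit 85) (nat_lit 5) (nat_lit 88) (nat_lit 5) (nat_lit 89) (nat_lit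 5) (nat_lit 422) (nat_lit 394) (nat_lit 384)) (XT.nd (nat_lit 78) (nat_lit 228) (nat_lit 0) (XT.lf (nat_lit 0) (nat_lit 2938553034) (nat_lit 152) (nat_lit 4755181285) (nat_lit 228) (nat_lit 3007852742) (nat_lit 83) (nat_lit 5) (nat_lit 85) (nat_lit 5) (nat_lit 86) (nat_lit 4) (nat_lit 423) (nat_lit 394) (nat_lit 383)) (XT.lf (nat_lit 0) (nat_lit 3608939245) (nat_lit 228) (nat_lit 5504043498) (nat_lit 76) (nat_lit 2027468058) (nat_lit 80) (nat_lit 5) (nat_lit 83) (nat_lit 5) (nat_lit 81) (nat_lit 4) (nat_lit 424) (nat_lit 394) (nat_lit 382)))) (XT.nd (nat_lit 156) (nat_lit 456) (nat_lit 0) (XT.nd (nat_lit 78) (nat_lit 228) (nat_lit 0) (XT.lf (nat_lit 0) (nat_lit 8425990708) (nat_lit 152) (nat_lit 2285174144) (nat_lit 228) (nat_lit 897739871) (nat_lit 78) (nat_lit 5) (nat_lit 80) (nat_lit 5) (nat_lit 81) (nat_lit 4) (nat_lit 425) (nat_lit 394) (nat_lit 381)) (XT.lf (nat_lit 0) (nat_lit 6143704733)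 (nat_lit 228) (nat_lit 848066059) (nat_lit 76) (nat_lit 5114312513) (nat_lit 75) (nat_lit 5) (nat_lit 78) (nat_lit 5) (nat_lit 76) (nat_lit 4) (nat_lit 426) (nat_lit 394) (nat_lit 380))) (XT.nd (nat_lit 78) (nat_lit 76) (nat_lit 0) (XT.lf (nat_lit 0) (nat_lit 1124631395) (nat_lit 228) (nat_lit 10986580778) (nat_lit 76) (nat_lit 526048958) (nat_lit 70) (nat_lit 5) (nat_lit 73) (nat_lit 5) (nat_lit 71) (nat_lit 4) (nat_lit 427) (nat_lit 394) (nat_lit 379)) (XT.lf (nat_lit 0) (nat_lit 4150579796) (nat_lit 76) (nat_lit 4579143965) (nat_lit 152) (nat_lit 4468335965) (nat_lit 69) (nat_lit 5) (nat_lit 70) (nat_lit 5) (nat_lit 71) (nat_lit 4) (nat_lit 428) (nat_lit 394) (nat_lit 378))))) (XT.nd (nat_lit 312) (nat_lit 684) (nat_lit 0) (XT.nd (nat_lit 156) (nat_lit 304) (nat_lit 0) (XT.nd (nat_lit 78) (nat_lit 76) (nat_lit 0) (XT.lf (nat_lit 0) (nat_lit 3135719567) (nat_lit 228) (nat_lit 7062304874) (nat_lit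 76) (nat_lit 3598424598) (nat_lit 66) (nat_lit 5) (nat_lit 69) (nat_lit 5) (nat_lit 67) (nat_lit 4) (nat_lit 429) (nat_lit 394) (nat_lit 377)) (XT.lf (nat_lit 0) (nat_lit 9354576193) (nat_lit 76) (nat_lit 1969918571) (nat_lit 152) (nat_lit 3107916766) (nat_lit 65) (nat_lit 5) (nat_lit 66) (nat_lit 5) (nat_lit 67) (nat_lit 4) (nat_lit 430) (nat_lit 394) (nat_lit 376))) (XT.nd (nat_lit 78) (nat_lit 76) (nat_lit 0) (XT.lf (nat_lit 0) (nat_lit 5067884329) (nat_lit 228) (nat_lit 3137818788) (nat_lit 76) (nat_lit 6900598424) (nat_lit 62) (nat_lit 5) (nat_lit 65) (nat_lit 5) (nat_lit 63) (nat_lit 4) (nat_lit 431) (nat_lit 394) (nat_lit 375)) (XT.lf (nat_lit 0) (nat_lit 13918510689) (nat_lit 152) (nat_lit 1158708585) (nat_lit 0) (nat_lit 747863271) (nat_lit 61) (nat_lit 5) (nat_lit 63) (nat_lit 4) (nat_lit 61) (nat_lit 4) (nat_lit 432) (nat_lit 394) (nat_lit 374)))) (XT.nd (nat_lit 156) (nat_lit 228)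 (nat_lit 0) (XT.nd (nat_lit 78) (nat_lit 152) (nat_lit 0) (XT.lf (nat_lit 0) (nat_lit 725212913) (nat_lit 76) (nat_lit 6183250002) (nat_lit 152) (nat_lit 9674908520) (nat_lit 57) (nat_lit 5) (nat_lit 58) (nat_lit 5) (nat_lit 59) (nat_lit 4) (nat_lit 433) (nat_lit 394) (nat_lit 373)) (XT.lf (nat_lit 0) (nat_lit 2675072685) (nat_lit 152) (nat_lit 13874296899) (nat_lit 152) (nat_lit 842025651) (nat_lit 55) (nat_lit 4) (nat_lit 57) (nat_lit 5) (nat_lit 57) (nat_lit 4) (nat_lit 434) (nat_lit 394) (nat_lit 372))) (XT.nd (nat_lit 78) (nat_lit 76) (nat_lit 0) (XT.lf (nat_lit 0) (nat_lit 4483204204) (nat_lit 76) (nat_lit 4167072351) (nat_lit 152) (nat_lit 9595443582) (nat_lit 53) (nat_lit 5) (nat_lit 54) (nat_lit 5) (nat_lit 55) (nat_lit 4) (nat_lit 435) (nat_lit 394) (nat_lit 371)) (XT.lf (nat_lit 0) (nat_lit 6259923447) (nat_lit 76) (nat_lit 12853271845) (nat_lit 76) (nat_lit 42475337) (nat_lit 52)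 (nat_lit 4) (nat_lit 53) (nat_lit 5) (nat_lit 53) (nat_lit 4) (nat_lit 436) (nat_lit 394) (nat_lit 370))))))))
noncomputable def xc36 : XT := (XT.nd (nat_lit 2262) (nat_lit 1064) (nat_lit 0) (XT.nd (nat_lit 1092) (nat_lit 1216) (nat_lit 0) (XT.nd (nat_lit 546) (nat_lit 684) (nat_lit 0) (XT.nd (nat_lit 234) (nat_lit 456) (nat_lit 0) (XT.nd (nat_lit 78) (nat_lit 228) (nat_lit 0) (XT.lf (nat_lit 0) (nat_lit 7865216575) (nat_lit 76) (nat_lit 2307309959) (nat_lit 152) (nat_lit 9946542840) (nat_lit 50) (nat_lit 5) (nat_lit 51) (nat_lit 5) (nat_lit 52) (nat_lit 4) (nat_lit 437) (nat_lit 394) (nat_lit 369)) (XT.nd (nat_lit 78) (nat_lit 76) (nat_lit 0) (XT.lf (nat_lit 0) (nat_lit 360400556) (nat_lit 152) (nat_lit 11787815686) (nat_lit 76) (nat_lit 8995356559) (nat_lit 48) (nat_lit 5) (nat_lit 50) (nat_lit 5) (nat_lit 49) (nat_lit 4) (nat_lit 438) (nat_lit 394) (nat_lit 368)) (XT.lf (nat_lit 0) (nat_lit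 10642483337) (nat_lit 76) (nat_lit 730290831) (nat_lit 152) (nat_lit 10857646396) (nat_lit 47) (nat_lit 5) (nat_lit 48) (nat_lit 5) (nat_lit 49) (nat_lit 4) (nat_lit 439) (nat_lit 394) (nat_lit 367)))) (XT.nd (nat_lit 156) (nat_lit 228) (nat_lit 0) (XT.nd (nat_lit 78) (nat_lit 76) (nat_lit 0) (XT.lf (nat_lit 0) (nat_lit 254182807) (nat_lit 152) (nat_lit 11675139433) (nat_lit 76) (nat_lit 11455613682) (nat_lit 45) (nat_lit 5) (nat_lit 47) (nat_lit 5) (nat_lit 46) (nat_lit 4) (nat_lit 440) (nat_lit 394) (nat_lit 366)) (XT.lf (nat_lit 0) (nat_lit 12113058743) (nat_lit 152) (nat_lit 12113124791) (nat_lit 0) (nat_lit 384808069) (nat_lit 44) (nat_lit 5) (nat_lit 46) (nat_lit 4) (nat_lit 44) (nat_lit 4) (nat_lit 441) (nat_lit 394) (nat_lit 365))) (XT.nd (nat_lit 78) (nat_lit 152) (nat_lit 0) (XT.lf (nat_lit 0) (nat_lit 12955711092) (nat_lit 76) (nat_lit 12395304342) (nat_lit 76) (nat_lit 562601270)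 (nat_lit 43) (nat_lit 4) (nat_lit 44) (nat_lit 5) (nat_lit 44) (nat_lit 4) (nat_lit 442) (nat_lit 394) (nat_lit 364)) (XT.lf (nat_lit 0) (nat_lit 12189783837) (nat_lit 152) (nat_lit 14279775264) (nat_lit 0) (nat_lit 828433118) (nat_lit 41) (nat_lit 5) (nat_lit 43) (nat_lit 4) (nat_lit 41) (nat_lit 4) (nat_lit 443) (nat_lit 394) (nat_lit 363))))) (XT.nd (nat_lit 234) (nat_lit 380) (nat_lit 0) (XT.nd (nat_lit 78) (nat_lit 228) (nat_lit 0) (XT.lf (nat_lit 0) (nat_lit 12601825787) (nat_lit 76) (nat_lit 13807079187) (nat_lit 76) (nat_lit 2360441709) (nat_lit 40) (nat_lit 4) (nat_lit 41) (nat_lit 5) (nat_lit 41) (nat_lit 4) (nat_lit 444) (nat_lit 394) (nat_lit 362)) (XT.nd (nat_lit 78) (nat_lit 76) (nat_lit 0) (XT.lf (nat_lit 0) (nat_lit 11318236033) (nat_lit 152) (nat_lit 18675993879) (nat_lit 0) (nat_lit 341467749) (nat_lit 38) (nat_lit 5) (nat_lit 40) (nat_lit 4) (nat_lit 38) (nat_lit 4) (nat_lit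 445) (nat_lit 394) (nat_lit 361)) (XT.lf (nat_lit 0) (nat_lit 10005146782) (nat_lit 76) (nat_lit 16520415446) (nat_lit 76) (nat_lit 5474009403) (nat_lit 37) (nat_lit 4) (nat_lit 38) (nat_lit 5) (nat_lit 38) (nat_lit 4) (nat_lit 446) (nat_lit 394) (nat_lit 360)))) (XT.nd (nat_lit 156) (nat_lit 152) (nat_lit 0) (XT.nd (nat_lit 78) (nat_lit 76) (nat_lit 0) (XT.lf (nat_lit 0) (nat_lit 7657820091) (nat_lit 76) (nat_lit 1497646027) (nat_lit 152) (nat_lit 24619171438) (nat_lit 35) (nat_lit 5) (nat_lit 36) (nat_lit 5) (nat_lit 37) (nat_lit 4) (nat_lit 447) (nat_lit 394) (nat_lit 359)) (XT.lf (nat_lit 0) (nat_lit 4306166182) (nat_lit 76) (nat_lit 20996380947) (nat_lit 76) (nat_lit 10357725131) (nat_lit 34) (nat_lit 4) (nat_lit 35) (nat_lit 5) (nat_lit 35) (nat_lit 4) (nat_lit 448) (nat_lit 394) (nat_lit 358))) (XT.nd (nat_lit 78) (nat_lit 0) (nat_lit 0) (XT.lf (nat_lit 0) (nat_lit 20677451) (nat_lit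 76) (nat_lit 5204679403) (nat_lit 152) (nat_lit 32450355526) (nat_lit 32) (nat_lit 5) (nat_lit 33) (nat_lit 5) (nat_lit 34) (nat_lit 4) (nat_lit 449) (nat_lit 394) (nat_lit 357)) (XT.lf (nat_lit 0) (nat_lit 22295709013) (nat_lit 152) (nat_lit 5450927349) (nat_lit 0) (nat_lit 12067087572) (nat_lit 32) (nat_lit 5) (nat_lit 34) (nat_lit 4) (nat_lit 32) (nat_lit 4) (nat_lit 450) (nat_lit 394) (nat_lit 356)))))) (XT.nd (nat_lit 546) (nat_lit 532) (nat_lit 0) (XT.nd (nat_lit 234) (nat_lit 380) (nat_lit 0) (XT.nd (nat_lit 78) (nat_lit 228) (nat_lit 0) (XT.lf (nat_lit 0) (nat_lit 29938566113) (nat_lit 76) (nat_lit 11217306029) (nat_lit 76) (nat_lit 945696570) (nat_lit 31) (nat_lit 4) (nat_lit 32) (nat_lit 5) (nat_lit 32) (nat_lit 4) (nat_lit 451) (nat_lit 394) (nat_lit 355)) (XT.nd (nat_lit 78) (nat_lit 76) (nat_lit 0) (XT.lf (nat_lit 0) (nat_lit 16868000467) (nat_lit 152) (nat_lit 20620692376) (nat_lit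 0) (nat_lit 7047606963) (nat_lit 29) (nat_lit 5) (nat_lit 31) (nat_lit 4) (nat_lit 29) (nat_lit 4) (nat_lit 452) (nat_lit 394) (nat_lit 354)) (XT.lf (nat_lit 0) (nat_lit 16222911103) (nat_lit 76) (nat_lit 20385441738) (nat_lit 76) (nat_lit 10529947951) (nat_lit 28) (nat_lit 4) (nat_lit 29) (nat_lit 5) (nat_lit 29) (nat_lit 4) (nat_lit 453) (nat_lit 394) (nat_lit 353)))) (XT.nd (nat_lit 156) (nat_lit 228) (nat_lit 0) (XT.nd (nat_lit 78) (nat_lit 0) (nat_lit 0) (XT.lf (nat_lit 0) (nat_lit 6662009907) (nat_lit 76) (nat_lit 1411162753) (nat_lit 152) (nat_lit 41851606436) (nat_lit 26) (nat_lit 5) (nat_lit 27) (nat_lit 5) (nat_lit 28) (nat_lit 4) (nat_lit 454) (nat_lit 394) (nat_lit 352)) (XT.lf (nat_lit 0) (nat_lit 28529307639) (nat_lit 152) (nat_lit 5276043132) (nat_lit 0) (nat_lit 19083510608) (nat_lit 26) (nat_lit 5) (nat_lit 28) (nat_lit 4) (nat_lit 26) (nat_lit 4) (nat_lit 455) (nat_lit 394)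 (nat_lit 351))) (XT.nd (nat_lit 78) (nat_lit 152) (nat_lit 0) (XT.lf (nat_lit 0) (nat_lit 36683173741) (nat_lit 76) (nat_lit 14427399657) (nat_lit 76) (nat_lit 4955065735) (nat_lit 25) (nat_lit 4) (nat_lit 26) (nat_lit 5) (nat_lit 26) (nat_lit 4) (nat_lit 456) (nat_lit 394) (nat_lit 350)) (XT.lf (nat_lit 0) (nat_lit 15948167870) (nat_lit 152) (nat_lit 36609476886) (nat_lit 0) (nat_lit 6903496330) (nat_lit 23) (nat_lit 5) (nat_lit 25) (nat_lit 4) (nat_lit 23) (nat_lit 4) (nat_lit 457) (nat_lit 394) (nat_lit 349))))) (XT.nd (nat_lit 312) (nat_lit 228) (nat_lit 0) (XT.nd (nat_lit 156) (nat_lit 228) (nat_lit 0) (XT.nd (nat_lit 78) (nat_lit 0) (nat_lit 0) (XT.lf (nat_lit 0) (nat_lit 5689962785) (nat_lit 76) (nat_lit 33235904228) (nat_lit 76) (nat_lit 24169564966) (nat_lit 22) (nat_lit 4) (nat_lit 23) (nat_lit 5) (nat_lit 23) (nat_lit 4) (nat_lit 458) (nat_lit 394) (nat_lit 348)) (XT.lf (nat_lit 0)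 (nat_lit 52484524842) (nat_lit 76) (nat_lit 11797661855) (nat_lit 76) (nat_lit 2711259889) (nat_lit 22) (nat_lit 4) (nat_lit 23) (nat_lit 5) (nat_lit 23) (nat_lit 4) (nat_lit 459) (nat_lit 394) (nat_lit 347))) (XT.nd (nat_lit 78) (nat_lit 76) (nat_lit 0) (XT.lf (nat_lit 0) (nat_lit 20411606685) (nat_lit 152) (nat_lit 39005379747) (nat_lit 0) (nat_lit 11740198547) (nat_lit 20) (nat_lit 5) (nat_lit 22) (nat_lit 4) (nat_lit 20) (nat_lit 4) (nat_lit 460) (nat_lit 394) (nat_lit 346)) (XT.lf (nat_lit 0) (nat_lit 7224959489) (nat_lit 76) (nat_lit 38545291926) (nat_lit 76) (nat_lit 29857502326) (nat_lit 19) (nat_lit 4) (nat_lit 20) (nat_lit 5) (nat_lit 20) (nat_lit 4) (nat_lit 461) (nat_lit 394) (nat_lit 345)))) (XT.nd (nat_lit 156) (nat_lit 76) (nat_lit 0) (XT.nd (nat_lit 78) (nat_lit 152) (nat_lit 0) (XT.lf (nat_lit 0) (nat_lit 58374793094) (nat_lit 76) (nat_lit 15377206229) (nat_lit 76) (nat_lit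 6674248608) (nat_lit 19) (nat_lit 4) (nat_lit 20) (nat_lit 5) (nat_lit 20) (nat_lit 4) (nat_lit 462) (nat_lit 394) (nat_lit 344)) (XT.lf (nat_lit 0) (nat_lit 18301679979) (nat_lit 152) (nat_lit 57266545151) (nat_lit 0) (nat_lit 9999773232) (nat_lit 17) (nat_lit 5) (nat_lit 19) (nat_lit 4) (nat_lit 17) (nat_lit 4) (nat_lit 463) (nat_lit 394) (nat_lit 343))) (XT.nd (nat_lit 78) (nat_lit 76) (nat_lit 0) (XT.lf (nat_lit 0) (nat_lit 45616945926) (nat_lit 152) (nat_lit 8167263521) (nat_lit 0) (nat_lit 37302654290) (nat_lit 17) (nat_lit 5) (nat_lit 19) (nat_lit 4) (nat_lit 17) (nat_lit 4) (nat_lit 464) (nat_lit 394) (nat_lit 342)) (XT.lf (nat_lit 0) (nat_lit 46192769453) (nat_lit 76) (nat_lit 29573883698) (nat_lit 76) (nat_lit 21248124573) (nat_lit 16) (nat_lit 4) (nat_lit 17) (nat_lit 5) (nat_lit 17) (nat_lit 4) (nat_lit 465) (nat_lit 394) (nat_lit 341))))))) (XT.nd (nat_lit 1170) (nat_lit 380) (nat_lit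 0) (XT.nd (nat_lit 546) (nat_lit 304) (nat_lit 0) (XT.nd (nat_lit 234) (nat_lit 152) (nat_lit 0) (XT.nd (nat_lit 78) (nat_lit 76) (nat_lit 0) (XT.lf (nat_lit 0) (nat_lit 1614472209) (nat_lit 76) (nat_lit 3239600658) (nat_lit 152) (nat_lit 98554025427) (nat_lit 14) (nat_lit 5) (nat_lit 15) (nat_lit 5) (nat_lit 16) (nat_lit 4) (nat_lit 466) (nat_lit 394) (nat_lit 340)) (XT.nd (nat_lit 78) (nat_lit 76) (nat_lit 0) (XT.lf (nat_lit 0) (nat_lit 33535276840) (nat_lit 152) (nat_lit 51111921757) (nat_lit 0) (nat_lit 25586506655) (nat_lit 14) (nat_lit 5) (nat_lit 16) (nat_lit 4) (nat_lit 14) (nat_lit 4) (nat_lit 467) (nat_lit 394) (nat_lit 339)) (XT.lf (nat_lit 0) (nat_lit 3555959706) (nat_lit 76) (nat_lit 61002240088) (nat_lit 76) (nat_lit 53044800129) (nat_lit 13) (nat_lit 4) (nat_lit 14) (nat_lit 5) (nat_lit 14) (nat_lit 4) (nat_lit 468) (nat_lit 394) (nat_lit 338)))) (XT.nd (nat_lit 156) (nat_lit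 76) (nat_lit 0) (XT.nd (nat_lit 78) (nat_lit 76) (nat_lit 0) (XT.lf (nat_lit 0) (nat_lit 64300458399) (nat_lit 76) (nat_lit 34592669500) (nat_lit 76) (nat_lit 26627201971) (nat_lit 13) (nat_lit 4) (nat_lit 14) (nat_lit 5) (nat_lit 14) (nat_lit 4) (nat_lit 469) (nat_lit 394) (nat_lit 337)) (XT.lf (nat_lit 0) (nat_lit 1786248228) (nat_lit 152) (nat_lit 4311091593) (nat_lit 76) (nat_lit 127975051553) (nat_lit 12) (nat_lit 5) (nat_lit 14) (nat_lit 5) (nat_lit 13) (nat_lit 4) (nat_lit 470) (nat_lit 394) (nat_lit 336))) (XT.nd (nat_lit 78) (nat_lit 0) (nat_lit 0) (XT.lf (nat_lit 0) (nat_lit 32819524452) (nat_lit 152) (nat_lit 85183554818) (nat_lit 0) (nat_lit 25219731301) (nat_lit 11) (nat_lit 5) (nat_lit 13) (nat_lit 4) (nat_lit 11) (nat_lit 4) (nat_lit 471) (nat_lit 394) (nat_lit 335)) (XT.lf (nat_lit 0) (nat_lit 66463664901) (nat_lit 152) (nat_lit 27777385835) (nat_lit 0) (nat_lit 58857802662)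 (nat_lit 11) (nat_lit 5) (nat_lit 13) (nat_lit 4) (nat_lit 11) (nat_lit 4) (nat_lit 472) (nat_lit 394) (nat_lit 334))))) (XT.nd (nat_lit 312) (nat_lit 76) (nat_lit 0) (XT.nd (nat_lit 156) (nat_lit 152) (nat_lit 0) (XT.nd (nat_lit 78) (nat_lit 0) (nat_lit 0) (XT.lf (nat_lit 0) (nat_lit 35253868246) (nat_lit 76) (nat_lit 68048715501) (nat_lit 76) (nat_lit 60437233736) (nat_lit 10) (nat_lit 4) (nat_lit 11) (nat_lit 5) (nat_lit 11) (nat_lit 4) (nat_lit 473) (nat_lit 394) (nat_lit 333)) (XT.lf (nat_lit 0) (nat_lit 104227953055) (nat_lit 76) (nat_lit 39299426340) (nat_lit 76) (nat_lit 31682741309) (nat_lit 10) (nat_lit 4) (nat_lit 11) (nat_lit 5) (nat_lit 11) (nat_lit 4) (nat_lit 474) (nat_lit 394) (nat_lit 332))) (XT.nd (nat_lit 78) (nat_lit 152) (nat_lit 0) (XT.lf (nat_lit 0) (nat_lit 178635158088) (nat_lit 76) (nat_lit 8293240563) (nat_lit 76) (nat_lit 671737695) (nat_lit 10) (nat_lit 4) (nat_lit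 11) (nat_lit 5) (nat_lit 11) (nat_lit 4) (nat_lit 475) (nat_lit 394) (nat_lit 331)) (XT.lf (nat_lit 0) (nat_lit 33072837156) (nat_lit 152) (nat_lit 142007724012) (nat_lit 0) (nat_lit 25810014461) (nat_lit 8) (nat_lit 5) (nat_lit 10) (nat_lit 4) (nat_lit 8) (nat_lit 4) (nat_lit 476) (nat_lit 394) (nat_lit 330)))) (XT.nd (nat_lit 156) (nat_lit 76) (nat_lit 0) (XT.nd (nat_lit 78) (nat_lit 0) (nat_lit 0) (XT.lf (nat_lit 0) (nat_lit 69754134554) (nat_lit 152) (nat_lit 82989152448) (nat_lit 0) (nat_lit 62487378031) (nat_lit 8) (nat_lit 5) (nat_lit 10) (nat_lit 4) (nat_lit 8) (nat_lit 4) (nat_lit 477) (nat_lit 394) (nat_lit 329)) (XT.lf (nat_lit 0) (nat_lit 109334577368) (nat_lit 152) (nat_lit 19320973850) (nat_lit 0) (nat_lit 102064178412) (nat_lit 8) (nat_lit 5) (nat_lit 10) (nat_lit 4) (nat_lit 8) (nat_lit 4) (nat_lit 478) (nat_lit 394) (nat_lit 328))) (XT.nd (nat_lit 78) (nat_lit 0) (nat_lit 0)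 (XT.lf (nat_lit 0) (nat_lit 51006635572) (nat_lit 76) (nat_lit 101838437326) (nat_lit 76) (nat_lit 94564665746) (nat_lit 7) (nat_lit 4) (nat_lit 8) (nat_lit 5) (nat_lit 8) (nat_lit 4) (nat_lit 479) (nat_lit 394) (nat_lit 327)) (XT.lf (nat_lit 0) (nat_lit 127586737517) (nat_lit 76) (nat_lit 72554921401) (nat_lit 76) (nat_lit 65278027021) (nat_lit 7) (nat_lit 4) (nat_lit 8) (nat_lit 5) (nat_lit 8) (nat_lit 4) (nat_lit 480) (nat_lit 394) (nat_lit 326)))))) (XT.nd (nat_lit 546) (nat_lit 228) (nat_lit 0) (XT.nd (nat_lit 234) (nat_lit 0) (nat_lit 0) (XT.nd (nat_lit 78) (nat_lit 152) (nat_lit 0) (XT.lf (nat_lit 0) (nat_lit 210234301347) (nat_lit 76) (nat_lit 40958681538) (nat_lit 76) (nat_lit 33678895678) (nat_lit 7) (nat_lit 4) (nat_lit 8) (nat_lit 5) (nat_lit 8) (nat_lit 4) (nat_lit 481) (nat_lit 394) (nat_lit 325)) (XT.nd (nat_lit 78) (nat_lit 76) (nat_lit 0) (XT.lf (nat_lit 0) (nat_lit 406540336)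 (nat_lit 152) (nat_lit 6449055468) (nat_lit 76) (nat_lit 299025665107) (nat_lit 6) (nat_lit 5) (nat_lit 8) (nat_lit 5) (nat_lit 7) (nat_lit 4) (nat_lit 482) (nat_lit 394) (nat_lit 324)) (XT.lf (nat_lit 0) (nat_lit 37597685976) (nat_lit 152) (nat_lit 260208515493) (nat_lit 0) (nat_lit 30659645845) (nat_lit 5) (nat_lit 5) (nat_lit 7) (nat_lit 4) (nat_lit 5) (nat_lit 4) (nat_lit 483) (nat_lit 394) (nat_lit 323)))) (XT.nd (nat_lit 156) (nat_lit 0) (nat_lit 0) (XT.nd (nat_lit 78) (nat_lit 0) (nat_lit 0) (XT.lf (nat_lit 0) (nat_lit 77969354197) (nat_lit 152) (nat_lit 203848456941) (nat_lit 0) (nat_lit 71029128018) (nat_lit 5) (nat_lit 5) (nat_lit 7) (nat_lit 4) (nat_lit 5) (nat_lit 4) (nat_lit 484) (nat_lit 394) (nat_lit 322)) (XT.lf (nat_lit 0) (nat_lit 121548027231) (nat_lit 152) (nat_lit 143025850683) (nat_lit 0) (nat_lit 114605776933) (nat_lit 5) (nat_lit 5) (nat_lit 7) (nat_lit 4) (nat_lit 5)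 (nat_lit 4) (nat_lit 485) (nat_lit 394) (nat_lit 321))) (XT.nd (nat_lit 78) (nat_lit 0) (nat_lit 0) (XT.lf (nat_lit 0) (nat_lit 168591949066) (nat_lit 152) (nat_lit 77380266458) (nat_lit 0) (nat_lit 161647824583) (nat_lit 5) (nat_lit 5) (nat_lit 7) (nat_lit 4) (nat_lit 5) (nat_lit 4) (nat_lit 486) (nat_lit 394) (nat_lit 320)) (XT.lf (nat_lit 0) (nat_lit 219379898497) (nat_lit 152) (nat_lit 6522693397) (nat_lit 0) (nat_lit 212434038659) (nat_lit 5) (nat_lit 5) (nat_lit 7) (nat_lit 4) (nat_lit 5) (nat_lit 4) (nat_lit 487) (nat_lit 394) (nat_lit 319))))) (XT.nd (nat_lit 312) (nat_lit 152) (nat_lit 0) (XT.nd (nat_lit 156) (nat_lit 0) (nat_lit 0) (XT.nd (nat_lit 78) (nat_lit 0) (nat_lit 0) (XT.lf (nat_lit 0) (nat_lit 72280182465) (nat_lit 76) (nat_lit 203061154899) (nat_lit 76) (nat_lit 196113688250) (nat_lit 4) (nat_lit 4) (nat_lit 5) (nat_lit 5) (nat_lit 5) (nat_lit 4) (nat_lit 488) (nat_lit 394)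 (nat_lit 318)) (XT.lf (nat_lit 0) (nat_lit 157585087213) (nat_lit 76) (nat_lit 178290970615) (nat_lit 76) (nat_lit 171342016178) (nat_lit 4) (nat_lit 4) (nat_lit 5) (nat_lit 5) (nat_lit 5) (nat_lit 4) (nat_lit 489) (nat_lit 394) (nat_lit 317))) (XT.nd (nat_lit 78) (nat_lit 0) (nat_lit 0) (XT.lf (nat_lit 0) (nat_lit 249681861692) (nat_lit 76) (nat_lit 151555717733) (nat_lit 76) (nat_lit 144605385715) (nat_lit 4) (nat_lit 4) (nat_lit 5) (nat_lit 5) (nat_lit 5) (nat_lit 4) (nat_lit 490) (nat_lit 394) (nat_lit 316)) (XT.lf (nat_lit 0) (nat_lit 349116264565) (nat_lit 76) (nat_lit 122696965127) (nat_lit 76) (nat_lit 115745357570) (nat_lit 4) (nat_lit 4) (nat_lit 5) (nat_lit 5) (nat_lit 5) (nat_lit 4) (nat_lit 491) (nat_lit 394) (nat_lit 315)))) (XT.nd (nat_lit 156) (nat_lit 152) (nat_lit 0) (XT.nd (nat_lit 78) (nat_lit 0) (nat_lit 0) (XT.lf (nat_lit 0) (nat_lit 456477536738) (nat_lit 76) (nat_lit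 91543697964) (nat_lit 76) (nat_lit 84590909353) (nat_lit 4) (nat_lit 4) (nat_lit 5) (nat_lit 5) (nat_lit 5) (nat_lit 4) (nat_lit 492) (nat_lit 394) (nat_lit 314)) (XT.lf (nat_lit 0) (nat_lit 572401893158) (nat_lit 76) (nat_lit 57911304292) (nat_lit 76) (nat_lit 50957422113) (nat_lit 4) (nat_lit 4) (nat_lit 5) (nat_lit 5) (nat_lit 5) (nat_lit 4) (nat_lit 493) (nat_lit 394) (nat_lit 313))) (XT.nd (nat_lit 78) (nat_lit 152) (nat_lit 0) (XT.lf (nat_lit 0) (nat_lit 697576292973) (nat_lit 76) (nat_lit 21600481038) (nat_lit 76) (nat_lit 14645586295) (nat_lit 4) (nat_lit 4) (nat_lit 5) (nat_lit 5) (nat_lit 5) (nat_lit 4) (nat_lit 494) (nat_lit 394) (nat_lit 312)) (XT.lf (nat_lit 0) (nat_lit 24739768609) (nat_lit 152) (nat_lit 747656373851) (nat_lit 0) (nat_lit 18115166417) (nat_lit 2) (nat_lit 5) (nat_lit 4) (nat_lit 4) (nat_lit 2) (nat_lit 4) (nat_lit 495) (nat_lit 394) (nat_lit 311))))))))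
noncomputable def xc37 : XT := (XT.nd (nat_lit 57408) (nat_lit 0) (nat_lit 1520) (XT.nd (nat_lit 56238) (nat_lit 0) (nat_lit 4788) (XT.nd (nat_lit 546) (nat_lit 0) (nat_lit 0) (XT.nd (nat_lit 234) (nat_lit 0) (nat_lit 0) (XT.nd (nat_lit 78) (nat_lit 0) (nat_lit 0) (XT.lf (nat_lit 0) (nat_lit 67764918874) (nat_lit 152) (nat_lit 722768856152) (nat_lit 0) (nat_lit 61139489910) (nat_lit 2) (nat_lit 5) (nat_lit 4) (nat_lit 4) (nat_lit 2) (nat_lit 4) (nat_lit 496) (nat_lit 394) (nat_lit 310)) (XT.nd (nat_lit 78) (nat_lit 0) (nat_lit 0) (XT.lf (nat_lit 0) (nat_lit 114222136707) (nat_lit 152) (nat_lit 695910595806) (nat_lit 0) (nat_lit 107595942214) (nat_lit 2) (nat_lit 5) (nat_lit 4) (nat_lit 4) (nat_lit 2) (nat_lit 4) (nat_lit 497) (nat_lit 394) (nat_lit 309)) (XT.lf (nat_lit 0) (nat_lit 164386724140) (nat_lit 152) (nat_lit 666922432752) (nat_lit 0) (nat_lit 157759820824) (nat_lit 2) (nat_lit 5) (nat_lit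 4) (nat_lit 4) (nat_lit 2) (nat_lit 4) (nat_lit 498) (nat_lit 394) (nat_lit 308)))) (XT.nd (nat_lit 156) (nat_lit 0) (nat_lit 0) (XT.nd (nat_lit 78) (nat_lit 0) (nat_lit 0) (XT.lf (nat_lit 0) (nat_lit 218555952802) (nat_lit 152) (nat_lit 635632585283) (nat_lit 0) (nat_lit 211928393169) (nat_lit 2) (nat_lit 5) (nat_lit 4) (nat_lit 4) (nat_lit 2) (nat_lit 4) (nat_lit 499) (nat_lit 394) (nat_lit 307)) (XT.lf (nat_lit 0) (nat_lit 277050825530) (nat_lit 152) (nat_lit 601855632082) (nat_lit 0) (nat_lit 270422658195) (nat_lit 2) (nat_lit 5) (nat_lit 4) (nat_lit 4) (nat_lit 2) (nat_lit 4) (nat_lit 500) (nat_lit 394) (nat_lit 306))) (XT.nd (nat_lit 78) (nat_lit 0) (nat_lit 0) (XT.lf (nat_lit 0) (nat_lit 340217978607) (nat_lit 152) (nat_lit 565391413425) (nat_lit 0) (nat_lit 333589248585) (nat_lit 2) (nat_lit 5) (nat_lit 4) (nat_lit 4) (nat_lit 2) (nat_lit 4) (nat_lit 501) (nat_lit 394) (nat_lit 305))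 (XT.lf (nat_lit 0) (nat_lit 408431735902) (nat_lit 152) (nat_lit 526023845054) (nat_lit 0) (nat_lit 401802484875) (nat_lit 2) (nat_lit 5) (nat_lit 4) (nat_lit 4) (nat_lit 2) (nat_lit 4) (nat_lit 502) (nat_lit 394) (nat_lit 304))))) (XT.nd (nat_lit 55380) (nat_lit 0) (nat_lit 8664) (XT.nd (nat_lit 55224) (nat_lit 0) (nat_lit 10564) (XT.lf (nat_lit 0) (nat_lit 482096327090) (nat_lit 152) (nat_lit 483519637675) (nat_lit 0) (nat_lit 475466593648) (nat_lit 2) (nat_lit 5) (nat_lit 4) (nat_lit 4) (nat_lit 2) (nat_lit 4) (nat_lit 503) (nat_lit 394) (nat_lit 303)) (XT.nd (nat_lit 78) (nat_lit 1216) (nat_lit 0) (XT.lf (nat_lit 0) (nat_lit 3487657097) (nat_lit 684) (nat_lit 47096120) (nat_lit 684) (nat_lit 47096120) (nat_lit 157) (nat_lit 4) (nat_lit 166) (nat_lit 5) (nat_lit 166) (nat_lit 4) (nat_lit 410) (nat_lit 395) (nat_lit 395)) (XT.lf (nat_lit 0) (nat_lit 1228332422) (nat_lit 380) (nat_lit 4309034572)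 (nat_lit 380) (nat_lit 1779512558) (nat_lit 141) (nat_lit 4) (nat_lit 146) (nat_lit 5) (nat_lit 146) (nat_lit 4) (nat_lit 411) (nat_lit 395) (nat_lit 394)))) (XT.nd (nat_lit 156) (nat_lit 988) (nat_lit 0) (XT.nd (nat_lit 78) (nat_lit 456) (nat_lit 0) (XT.lf (nat_lit 0) (nat_lit 2835934737) (nat_lit 380) (nat_lit 923873440) (nat_lit 456) (nat_lit 3731366799) (nat_lit 135) (nat_lit 5) (nat_lit 140) (nat_lit 5) (nat_lit 141) (nat_lit 4) (nat_lit 412) (nat_lit 395) (nat_lit 393)) (XT.lf (nat_lit 0) (nat_lit 1760269327) (nat_lit 456) (nat_lit 3096523543) (nat_lit 76) (nat_lit 2828547021) (nat_lit 129) (nat_lit 5) (nat_lit 135) (nat_lit 5) (nat_lit 130) (nat_lit 4) (nat_lit 413) (nat_lit 395) (nat_lit 392))) (XT.nd (nat_lit 78) (nat_lit 684) (nat_lit 0) (XT.lf (nat_lit 0) (nat_lit 6511602197) (nat_lit 304) (nat_lit 868433985) (nat_lit 380) (nat_lit 521027861) (nat_lit 125) (nat_lit 5) (nat_lit 129)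 (nat_lit 5) (nat_lit 130) (nat_lit 4) (nat_lit 414) (nat_lit 395) (nat_lit 391)) (XT.lf (nat_lit 0) (nat_lit 420338455) (nat_lit 304) (nat_lit 4610818191) (nat_lit 380) (nat_lit 3104496768) (nat_lit 116) (nat_lit 5) (nat_lit 120) (nat_lit 5) (nat_lit 121) (nat_lit 4) (nat_lit 415) (nat_lit 395) (nat_lit 390)))))) (XT.nd (nat_lit 546) (nat_lit 1748) (nat_lit 0) (XT.nd (nat_lit 234) (nat_lit 1216) (nat_lit 0) (XT.nd (nat_lit 78) (nat_lit 532) (nat_lit 0) (XT.lf (nat_lit 0) (nat_lit 2419644323) (nat_lit 380) (nat_lit 5949280978) (nat_lit 76) (nat_lit 23516994) (nat_lit 111) (nat_lit 5) (nat_lit 116) (nat_lit 5) (nat_lit 112) (nat_lit 4) (nat_lit 416) (nat_lit 395) (nat_lit 389)) (XT.nd (nat_lit 78) (nat_lit 304) (nat_lit 0) (XT.lf (nat_lit 0) (nat_lit 4566552340) (nat_lit 228) (nat_lit 3654464953) (nat_lit 304) (nat_lit 449052878) (nat_lit 108) (nat_lit 5) (nat_lit 111) (nat_lit 5) (nat_lit 112)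 (nat_lit 4) (nat_lit 417) (nat_lit 395) (nat_lit 388)) (XT.lf (nat_lit 0) (nat_lit 5247284510) (nat_lit 304) (nat_lit 2158796059) (nat_lit 76) (nat_lit 1564197051) (nat_lit 104) (nat_lit 5) (nat_lit 108) (nat_lit 5) (nat_lit 105) (nat_lit 4) (nat_lit 418) (nat_lit 395) (nat_lit 387)))) (XT.nd (nat_lit 156) (nat_lit 532) (nat_lit 0) (XT.nd (nat_lit 78) (nat_lit 380) (nat_lit 0) (XT.lf (nat_lit 0) (nat_lit 1985823070) (nat_lit 304) (nat_lit 105766088) (nat_lit 76) (nat_lit 7202785643) (nat_lit 100) (nat_lit 5) (nat_lit 104) (nat_lit 5) (nat_lit 101) (nat_lit 5) (nat_lit 419) (nat_lit 395) (nat_lit 386)) (XT.lf (nat_lit 0) (nat_lit 2105485436) (nat_lit 152) (nat_lit 5927895500) (nat_lit 228) (nat_lit 1607375204) (nat_lit 95) (nat_lit 5) (nat_lit 97) (nat_lit 5) (nat_lit 98) (nat_lit 4) (nat_lit 420) (nat_lit 395) (nat_lit 385))) (XT.nd (nat_lit 78) (nat_lit 228) (nat_lit 0) (XT.lf (nat_lit 0) (nat_lit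 4376509985) (nat_lit 304) (nat_lit 5581459563) (nat_lit 76) (nat_lit 54742508) (nat_lit 91) (nat_lit 5) (nat_lit 95) (nat_lit 5) (nat_lit 92) (nat_lit 4) (nat_lit 421) (nat_lit 395) (nat_lit 384)) (XT.lf (nat_lit 0) (nat_lit 411143062) (nat_lit 228) (nat_lit 3567735127) (nat_lit 76) (nat_lit 6431300188) (nat_lit 88) (nat_lit 5) (nat_lit 91) (nat_lit 5) (nat_lit 89) (nat_lit 5) (nat_lit 422) (nat_lit 395) (nat_lit 383))))) (XT.nd (nat_lit 312) (nat_lit 760) (nat_lit 0) (XT.nd (nat_lit 156) (nat_lit 380) (nat_lit 0) (XT.nd (nat_lit 78) (nat_lit 380) (nat_lit 0) (XT.lf (nat_lit 0) (nat_lit 6755848600) (nat_lit 304) (nat_lit 1495681838) (nat_lit 76) (nat_lit 2582762597) (nat_lit 85) (nat_lit 5) (nat_lit 89) (nat_lit 5) (nat_lit 86) (nat_lit 4) (nat_lit 423) (nat_lit 395) (nat_lit 382)) (XT.lf (nat_lit 0) (nat_lit 689014360) (nat_lit 152) (nat_lit 1614608106) (nat_lit 228) (nat_lit 8983829241) (nat_lit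 80) (nat_lit 5) (nat_lit 82) (nat_lit 5) (nat_lit 83) (nat_lit 5) (nat_lit 424) (nat_lit 395) (nat_lit 381))) (XT.nd (nat_lit 78) (nat_lit 228) (nat_lit 0) (XT.lf (nat_lit 0) (nat_lit 2964805890) (nat_lit 152) (nat_lit 6201867162) (nat_lit 228) (nat_lit 2601200263) (nat_lit 78) (nat_lit 5) (nat_lit 80) (nat_lit 5) (nat_lit 81) (nat_lit 4) (nat_lit 425) (nat_lit 395) (nat_lit 380)) (XT.lf (nat_lit 0) (nat_lit 4212215163) (nat_lit 228) (nat_lit 6952190254) (nat_lit 76) (nat_lit 1116111678) (nat_lit 75) (nat_lit 5) (nat_lit 78) (nat_lit 5) (nat_lit 76) (nat_lit 4) (nat_lit 426) (nat_lit 395) (nat_lit 379)))) (XT.nd (nat_lit 156) (nat_lit 380) (nat_lit 0) (XT.nd (nat_lit 78) (nat_lit 228) (nat_lit 0) (XT.lf (nat_lit 0) (nat_lit 7743817284) (nat_lit 152) (nat_lit 3869349222) (nat_lit 228) (nat_lit 1212209112) (nat_lit 73) (nat_lit 5) (nat_lit 75) (nat_lit 5) (nat_lit 76) (nat_lit 4) (nat_lit 427)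 (nat_lit 395) (nat_lit 378)) (XT.lf (nat_lit 0) (nat_lit 6102707682) (nat_lit 228) (nat_lit 3207412828) (nat_lit 76) (nat_lit 4093455129) (nat_lit 70) (nat_lit 5) (nat_lit 73) (nat_lit 5) (nat_lit 71) (nat_lit 4) (nat_lit 428) (nat_lit 395) (nat_lit 377))) (XT.nd (nat_lit 78) (nat_lit 228) (nat_lit 0) (XT.lf (nat_lit 0) (nat_lit 60530179) (nat_lit 152) (nat_lit 1257422365) (nat_lit 76) (nat_lit 12702895074) (nat_lit 68) (nat_lit 5) (nat_lit 70) (nat_lit 5) (nat_lit 69) (nat_lit 5) (nat_lit 429) (nat_lit 395) (nat_lit 376)) (XT.lf (nat_lit 0) (nat_lit 634743270) (nat_lit 76) (nat_lit 7324785095) (nat_lit 152) (nat_lit 6711775847) (nat_lit 65) (nat_lit 5) (nat_lit 66) (nat_lit 5) (nat_lit 67) (nat_lit 4) (nat_lit 430) (nat_lit 395) (nat_lit 375))))))) (XT.nd (nat_lit 1170) (nat_lit 1292) (nat_lit 0) (XT.nd (nat_lit 546) (nat_lit 912) (nat_lit 0) (XT.nd (nat_lit 234) (nat_lit 532) (nat_lit 0) (XT.nd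 (nat_lit 78) (nat_lit 304) (nat_lit 0) (XT.lf (nat_lit 0) (nat_lit 1235358861) (nat_lit 228) (nat_lit 12705226630) (nat_lit 76) (nat_lit 1424627303) (nat_lit 62) (nat_lit 5) (nat_lit 65) (nat_lit 5) (nat_lit 63) (nat_lit 4) (nat_lit 431) (nat_lit 395) (nat_lit 374)) (XT.nd (nat_lit 78) (nat_lit 228) (nat_lit 0) (XT.lf (nat_lit 0) (nat_lit 4595766394) (nat_lit 76) (nat_lit 5215595444) (nat_lit 152) (nat_lit 6286367418) (nat_lit 61) (nat_lit 5) (nat_lit 62) (nat_lit 5) (nat_lit 63) (nat_lit 4) (nat_lit 432) (nat_lit 395) (nat_lit 373)) (XT.lf (nat_lit 0) (nat_lit 2300227015) (nat_lit 228) (nat_lit 10309878960) (nat_lit 76) (nat_lit 4267766056) (nat_lit 58) (nat_lit 5) (nat_lit 61) (nat_lit 5) (nat_lit 59) (nat_lit 4) (nat_lit 433) (nat_lit 395) (nat_lit 372)))) (XT.nd (nat_lit 156) (nat_lit 228) (nat_lit 0) (XT.nd (nat_lit 78) (nat_lit 228) (nat_lit 0) (XT.lf (nat_lit 0) (nat_lit 8476234316) (nat_lit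 76) (nat_lit 3099399692) (nat_lit 152) (nat_lit 6128540308) (nat_lit 57) (nat_lit 5) (nat_lit 58) (nat_lit 5) (nat_lit 59) (nat_lit 4) (nat_lit 434) (nat_lit 395) (nat_lit 371)) (XT.lf (nat_lit 0) (nat_lit 3163646744) (nat_lit 228) (nat_lit 8243441014) (nat_lit 76) (nat_lit 7174007247) (nat_lit 54) (nat_lit 5) (nat_lit 57) (nat_lit 5) (nat_lit 55) (nat_lit 4) (nat_lit 435) (nat_lit 395) (nat_lit 370))) (XT.nd (nat_lit 78) (nat_lit 152) (nat_lit 0) (XT.lf (nat_lit 0) (nat_lit 12145999003) (nat_lit 76) (nat_lit 1054715861) (nat_lit 152) (nat_lit 6311626024) (nat_lit 53) (nat_lit 5) (nat_lit 54) (nat_lit 5) (nat_lit 55) (nat_lit 4) (nat_lit 436) (nat_lit 395) (nat_lit 369)) (XT.lf (nat_lit 0) (nat_lit 3750486666) (nat_lit 152) (nat_lit 6681214339) (nat_lit 76) (nat_lit 10066612157) (nat_lit 51) (nat_lit 5) (nat_lit 53) (nat_lit 5) (nat_lit 52) (nat_lit 4) (nat_lit 437) (nat_lit 395) (nat_lit 368)))))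 (XT.nd (nat_lit 312) (nat_lit 456) (nat_lit 0) (XT.nd (nat_lit 156) (nat_lit 228) (nat_lit 0) (XT.nd (nat_lit 78) (nat_lit 152) (nat_lit 0) (XT.lf (nat_lit 0) (nat_lit 14621074488) (nat_lit 152) (nat_lit 6135120788) (nat_lit 0) (nat_lit 790567599) (nat_lit 50) (nat_lit 5) (nat_lit 52) (nat_lit 4) (nat_lit 50) (nat_lit 4) (nat_lit 438) (nat_lit 395) (nat_lit 367)) (XT.lf (nat_lit 0) (nat_lit 3953775861) (nat_lit 152) (nat_lit 5859587560) (nat_lit 76) (nat_lit 12843384479) (nat_lit 48) (nat_lit 5) (nat_lit 50) (nat_lit 5) (nat_lit 49) (nat_lit 4) (nat_lit 439) (nat_lit 395) (nat_lit 366))) (XT.nd (nat_lit 78) (nat_lit 152) (nat_lit 0) (XT.lf (nat_lit 0) (nat_lit 15722887408) (nat_lit 152) (nat_lit 5809272740) (nat_lit 0) (nat_lit 2304602125) (nat_lit 47) (nat_lit 5) (nat_lit 49) (nat_lit 4) (nat_lit 47) (nat_lit 4) (nat_lit 440) (nat_lit 395) (nat_lit 365)) (XT.lf (nat_lit 0) (nat_lit 3625450723)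 (nat_lit 152) (nat_lit 6095786317) (nat_lit 76) (nat_lit 15366878863) (nat_lit 45) (nat_lit 5) (nat_lit 47) (nat_lit 5) (nat_lit 46) (nat_lit 4) (nat_lit 441) (nat_lit 395) (nat_lit 364)))) (XT.nd (nat_lit 156) (nat_lit 228) (nat_lit 0) (XT.nd (nat_lit 78) (nat_lit 152) (nat_lit 0) (XT.lf (nat_lit 0) (nat_lit 16329403597) (nat_lit 152) (nat_lit 6739122457) (nat_lit 0) (nat_lit 3348916697) (nat_lit 44) (nat_lit 5) (nat_lit 46) (nat_lit 4) (nat_lit 44) (nat_lit 4) (nat_lit 442) (nat_lit 395) (nat_lit 363)) (XT.lf (nat_lit 0) (nat_lit 2564226995) (nat_lit 152) (nat_lit 7813372653) (nat_lit 76) (nat_lit 17451905553) (nat_lit 42) (nat_lit 5) (nat_lit 44) (nat_lit 5) (nat_lit 43) (nat_lit 4) (nat_lit 443) (nat_lit 395) (nat_lit 362))) (XT.nd (nat_lit 78) (nat_lit 152) (nat_lit 0) (XT.lf (nat_lit 0) (nat_lit 16221173687) (nat_lit 152) (nat_lit 9413246738) (nat_lit 0) (nat_lit 3694549233) (nat_lit 41)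 (nat_lit 5) (nat_lit 43) (nat_lit 4) (nat_lit 41) (nat_lit 4) (nat_lit 444) (nat_lit 395) (nat_lit 361)) (XT.lf (nat_lit 0) (nat_lit 499783851) (nat_lit 152) (nat_lit 11575187207) (nat_lit 76) (nat_lit 18849494535) (nat_lit 39) (nat_lit 5) (nat_lit 41) (nat_lit 5) (nat_lit 40) (nat_lit 4) (nat_lit 445) (nat_lit 395) (nat_lit 360)))))) (XT.nd (nat_lit 546) (nat_lit 608) (nat_lit 0) (XT.nd (nat_lit 234) (nat_lit 380) (nat_lit 0) (XT.nd (nat_lit 78) (nat_lit 228) (nat_lit 0) (XT.lf (nat_lit 0) (nat_lit 15101698633) (nat_lit 152) (nat_lit 14479449600) (nat_lit 0) (nat_lit 3037462937) (nat_lit 38) (nat_lit 5) (nat_lit 40) (nat_lit 4) (nat_lit 38) (nat_lit 4) (nat_lit 446) (nat_lit 395) (nat_lit 359)) (XT.nd (nat_lit 78) (nat_lit 152) (nat_lit 0) (XT.lf (nat_lit 0) (nat_lit 16248874739) (nat_lit 76) (nat_lit 15148536146) (nat_lit 76) (nat_lit 3024597295) (nat_lit 37) (nat_lit 4) (nat_lit 38) (nat_lit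 5) (nat_lit 38) (nat_lit 4) (nat_lit 447) (nat_lit 395) (nat_lit 358)) (XT.lf (nat_lit 0) (nat_lit 12574189919) (nat_lit 152) (nat_lit 22793136720) (nat_lit 0) (nat_lit 974933205) (nat_lit 35) (nat_lit 5) (nat_lit 37) (nat_lit 4) (nat_lit 35) (nat_lit 4) (nat_lit 448) (nat_lit 395) (nat_lit 357)))) (XT.nd (nat_lit 156) (nat_lit 152) (nat_lit 0) (XT.nd (nat_lit 78) (nat_lit 152) (nat_lit 0) (XT.lf (nat_lit 0) (nat_lit 9804286518) (nat_lit 76) (nat_lit 20113611720) (nat_lit 76) (nat_lit 8465606593) (nat_lit 34) (nat_lit 4) (nat_lit 35) (nat_lit 5) (nat_lit 35) (nat_lit 4) (nat_lit 449) (nat_lit 395) (nat_lit 356)) (XT.lf (nat_lit 0) (nat_lit 5035313492) (nat_lit 76) (nat_lit 3124908965) (nat_lit 152) (nat_lit 32403676982) (nat_lit 32) (nat_lit 5) (nat_lit 33) (nat_lit 5) (nat_lit 34) (nat_lit 4) (nat_lit 450) (nat_lit 395) (nat_lit 355))) (XT.nd (nat_lit 78) (nat_lit 152) (nat_lit 0) (XT.lf (nat_lit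 0) (nat_lit 26445855429) (nat_lit 152) (nat_lit 1164890461) (nat_lit 0) (nat_lit 15269725475) (nat_lit 32) (nat_lit 5) (nat_lit 34) (nat_lit 4) (nat_lit 32) (nat_lit 4) (nat_lit 451) (nat_lit 395) (nat_lit 354)) (XT.lf (nat_lit 0) (nat_lit 1310153496) (nat_lit 152) (nat_lit 8527170582) (nat_lit 76) (nat_lit 35518203705) (nat_lit 30) (nat_lit 5) (nat_lit 32) (nat_lit 5) (nat_lit 31) (nat_lit 4) (nat_lit 452) (nat_lit 395) (nat_lit 353))))) (XT.nd (nat_lit 312) (nat_lit 304) (nat_lit 0) (XT.nd (nat_lit 156) (nat_lit 152) (nat_lit 0) (XT.nd (nat_lit 78) (nat_lit 76) (nat_lit 0) (XT.lf (nat_lit 0) (nat_lit 20448854851) (nat_lit 152) (nat_lit 17801435973) (nat_lit 0) (nat_lit 9737321018) (nat_lit 29) (nat_lit 5) (nat_lit 31) (nat_lit 4) (nat_lit 29) (nat_lit 4) (nat_lit 453) (nat_lit 395) (nat_lit 352)) (XT.lf (nat_lit 0) (nat_lit 21795442323) (nat_lit 76) (nat_lit 19874443161) (nat_lit 76) (nat_lit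 9132816493) (nat_lit 28) (nat_lit 4) (nat_lit 29) (nat_lit 5) (nat_lit 29) (nat_lit 4) (nat_lit 454) (nat_lit 395) (nat_lit 351))) (XT.nd (nat_lit 78) (nat_lit 0) (nat_lit 0) (XT.lf (nat_lit 0) (nat_lit 10799966931) (nat_lit 152) (nat_lit 42471420733) (nat_lit 0) (nat_lit 543309403) (nat_lit 26) (nat_lit 5) (nat_lit 28) (nat_lit 4) (nat_lit 26) (nat_lit 4) (nat_lit 455) (nat_lit 395) (nat_lit 350)) (XT.lf (nat_lit 0) (nat_lit 32760481175) (nat_lit 152) (nat_lit 1782779167) (nat_lit 0) (nat_lit 22479252452) (nat_lit 26) (nat_lit 5) (nat_lit 28) (nat_lit 4) (nat_lit 26) (nat_lit 4) (nat_lit 456) (nat_lit 395) (nat_lit 349)))) (XT.nd (nat_lit 156) (nat_lit 76) (nat_lit 0) (XT.nd (nat_lit 78) (nat_lit 152) (nat_lit 0) (XT.lf (nat_lit 0) (nat_lit 43363018830) (nat_lit 76) (nat_lit 13699344598) (nat_lit 76) (nat_lit 3395364768) (nat_lit 25) (nat_lit 4) (nat_lit 26) (nat_lit 5) (nat_lit 26) (nat_lit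 4) (nat_lit 457) (nat_lit 395) (nat_lit 348)) (XT.lf (nat_lit 0) (nat_lit 19062733879) (nat_lit 152) (nat_lit 35833992708) (nat_lit 0) (nat_lit 9229357051) (nat_lit 23) (nat_lit 5) (nat_lit 25) (nat_lit 4) (nat_lit 23) (nat_lit 4) (nat_lit 458) (nat_lit 395) (nat_lit 347))) (XT.nd (nat_lit 78) (nat_lit 0) (nat_lit 0) (XT.lf (nat_lit 0) (nat_lit 9688420279) (nat_lit 76) (nat_lit 34109347969) (nat_lit 76) (nat_lit 24257394562) (nat_lit 22) (nat_lit 4) (nat_lit 23) (nat_lit 5) (nat_lit 23) (nat_lit 4) (nat_lit 459) (nat_lit 395) (nat_lit 346)) (XT.lf (nat_lit 0) (nat_lit 59964083561) (nat_lit 76) (nat_lit 11088300176) (nat_lit 76) (nat_lit 1219146234) (nat_lit 22) (nat_lit 4) (nat_lit 23) (nat_lit 5) (nat_lit 23) (nat_lit 4) (nat_lit 460) (nat_lit 395) (nat_lit 345))))))))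
noncomputable def xc38 : XT := (XT.nd (nat_lit 2262) (nat_lit 152) (nat_lit 0) (XT.nd (nat_lit 1092) (nat_lit 456) (nat_lit 0) (XT.nd (nat_lit 546) (nat_lit 304) (nat_lit 0) (XT.nd (nat_lit 234) (nat_lit 380) (nat_lit 0) (XT.nd (nat_lit 78) (nat_lit 76) (nat_lit 0) (XT.lf (nat_lit 0) (nat_lit 23651242491) (nat_lit 152) (nat_lit 38881291776) (nat_lit 0) (nat_lit 14236880240) (nat_lit 20) (nat_lit 5) (nat_lit 22) (nat_lit 4) (nat_lit 20) (nat_lit 4) (nat_lit 461) (nat_lit 395) (nat_lit 344)) (XT.nd (nat_lit 78) (nat_lit 0) (nat_lit 0) (XT.lf (nat_lit 0) (nat_lit 10906471786) (nat_lit 76) (nat_lit 40061546236) (nat_lit 76) (nat_lit 30633139521) (nat_lit 19) (nat_lit 4) (nat_lit 20) (nat_lit 5) (nat_lit 20) (nat_lit 4) (nat_lit 462) (nat_lit 395) (nat_lit 343)) (XT.lf (nat_lit 0) (nat_lit 65918402040) (nat_lit 76) (nat_lit 15156115093) (nat_lit 76) (nat_lit 5714704245) (nat_lit 19) (nat_lit 4) (nat_lit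 20) (nat_lit 5) (nat_lit 20) (nat_lit 4) (nat_lit 463) (nat_lit 395) (nat_lit 342)))) (XT.nd (nat_lit 156) (nat_lit 228) (nat_lit 0) (XT.nd (nat_lit 78) (nat_lit 0) (nat_lit 0) (XT.lf (nat_lit 0) (nat_lit 21170088826) (nat_lit 152) (nat_lit 59006326711) (nat_lit 0) (nat_lit 12166801482) (nat_lit 17) (nat_lit 5) (nat_lit 19) (nat_lit 4) (nat_lit 17) (nat_lit 4) (nat_lit 464) (nat_lit 395) (nat_lit 341)) (XT.lf (nat_lit 0) (nat_lit 50566555719) (nat_lit 152) (nat_lit 6189587147) (nat_lit 0) (nat_lit 41552650328) (nat_lit 17) (nat_lit 5) (nat_lit 19) (nat_lit 4) (nat_lit 17) (nat_lit 4) (nat_lit 465) (nat_lit 395) (nat_lit 340))) (XT.nd (nat_lit 78) (nat_lit 152) (nat_lit 0) (XT.lf (nat_lit 0) (nat_lit 52404905915) (nat_lit 76) (nat_lit 30666311461) (nat_lit 76) (nat_lit 21642574547) (nat_lit 16) (nat_lit 4) (nat_lit 17) (nat_lit 5) (nat_lit 17) (nat_lit 4) (nat_lit 466) (nat_lit 395) (nat_lit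 339)) (XT.lf (nat_lit 0) (nat_lit 4190942581) (nat_lit 76) (nat_lit 2259683154) (nat_lit 152) (nat_lit 105169703408) (nat_lit 14) (nat_lit 5) (nat_lit 15) (nat_lit 5) (nat_lit 16) (nat_lit 4) (nat_lit 467) (nat_lit 395) (nat_lit 338))))) (XT.nd (nat_lit 234) (nat_lit 228) (nat_lit 0) (XT.nd (nat_lit 78) (nat_lit 76) (nat_lit 0) (XT.lf (nat_lit 0) (nat_lit 37354740317) (nat_lit 152) (nat_lit 52896816227) (nat_lit 0) (nat_lit 28744007818) (nat_lit 14) (nat_lit 5) (nat_lit 16) (nat_lit 4) (nat_lit 14) (nat_lit 4) (nat_lit 468) (nat_lit 395) (nat_lit 337)) (XT.nd (nat_lit 78) (nat_lit 0) (nat_lit 0) (XT.lf (nat_lit 0) (nat_lit 6044364145) (nat_lit 76) (nat_lit 64765346796) (nat_lit 76) (nat_lit 56147181363) (nat_lit 13) (nat_lit 4) (nat_lit 14) (nat_lit 5) (nat_lit 14) (nat_lit 4) (nat_lit 469) (nat_lit 395) (nat_lit 336)) (XT.lf (nat_lit 0) (nat_lit 71485168833) (nat_lit 76) (nat_lit 36325756671)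 (nat_lit 76) (nat_lit 27700708892) (nat_lit 13) (nat_lit 4) (nat_lit 14) (nat_lit 5) (nat_lit 14) (nat_lit 4) (nat_lit 470) (nat_lit 395) (nat_lit 335)))) (XT.nd (nat_lit 156) (nat_lit 76) (nat_lit 0) (XT.nd (nat_lit 78) (nat_lit 76) (nat_lit 0) (XT.lf (nat_lit 0) (nat_lit 2876230700) (nat_lit 152) (nat_lit 2735147386) (nat_lit 76) (nat_lit 139139446504) (nat_lit 12) (nat_lit 5) (nat_lit 14) (nat_lit 5) (nat_lit 13) (nat_lit 4) (nat_lit 471) (nat_lit 395) (nat_lit 334)) (XT.lf (nat_lit 0) (nat_lit 36365248079) (nat_lit 152) (nat_lit 90130147337) (nat_lit 0) (nat_lit 28139228246) (nat_lit 11) (nat_lit 5) (nat_lit 13) (nat_lit 4) (nat_lit 11) (nat_lit 4) (nat_lit 472) (nat_lit 395) (nat_lit 333))) (XT.nd (nat_lit 78) (nat_lit 76) (nat_lit 0) (XT.lf (nat_lit 0) (nat_lit 72632759641) (nat_lit 152) (nat_lit 28269862011) (nat_lit 0) (nat_lit 64401536543) (nat_lit 11) (nat_lit 5) (nat_lit 13) (nat_lit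 4) (nat_lit 11) (nat_lit 4) (nat_lit 473) (nat_lit 395) (nat_lit 332)) (XT.lf (nat_lit 0) (nat_lit 39728721104) (nat_lit 76) (nat_lit 72652791724) (nat_lit 76) (nat_lit 64416750788) (nat_lit 10) (nat_lit 4) (nat_lit 11) (nat_lit 5) (nat_lit 11) (nat_lit 4) (nat_lit 474) (nat_lit 395) (nat_lit 331)))))) (XT.nd (nat_lit 546) (nat_lit 228) (nat_lit 0) (XT.nd (nat_lit 234) (nat_lit 76) (nat_lit 0) (XT.nd (nat_lit 78) (nat_lit 152) (nat_lit 0) (XT.lf (nat_lit 0) (nat_lit 114098173928) (nat_lit 76) (nat_lit 41665768394) (nat_lit 76) (nat_lit 33425266496) (nat_lit 10) (nat_lit 4) (nat_lit 11) (nat_lit 5) (nat_lit 11) (nat_lit 4) (nat_lit 475) (nat_lit 395) (nat_lit 330)) (XT.nd (nat_lit 78) (nat_lit 76) (nat_lit 0) (XT.lf (nat_lit 0) (nat_lit 7689518) (nat_lit 152) (nat_lit 8228868904) (nat_lit 76) (nat_lit 194336655277) (nat_lit 9) (nat_lit 5) (nat_lit 11) (nat_lit 5) (nat_lit 10) (nat_lit 4) (nat_lit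 476) (nat_lit 395) (nat_lit 329)) (XT.lf (nat_lit 0) (nat_lit 36408492447) (nat_lit 152) (nat_lit 151966016298) (nat_lit 0) (nat_lit 28552819140) (nat_lit 8) (nat_lit 5) (nat_lit 10) (nat_lit 4) (nat_lit 8) (nat_lit 4) (nat_lit 477) (nat_lit 395) (nat_lit 328)))) (XT.nd (nat_lit 156) (nat_lit 76) (nat_lit 0) (XT.nd (nat_lit 78) (nat_lit 0) (nat_lit 0) (XT.lf (nat_lit 0) (nat_lit 75973195243) (nat_lit 152) (nat_lit 88329834981) (nat_lit 0) (nat_lit 68114149313) (nat_lit 8) (nat_lit 5) (nat_lit 10) (nat_lit 4) (nat_lit 8) (nat_lit 4) (nat_lit 478) (nat_lit 395) (nat_lit 327)) (XT.lf (nat_lit 0) (nat_lit 118672760155) (nat_lit 152) (nat_lit 19664383551) (nat_lit 0) (nat_lit 110810591425) (nat_lit 8) (nat_lit 5) (nat_lit 10) (nat_lit 4) (nat_lit 8) (nat_lit 4) (nat_lit 479) (nat_lit 395) (nat_lit 326))) (XT.nd (nat_lit 78) (nat_lit 0) (nat_lit 0) (XT.lf (nat_lit 0) (nat_lit 56237185512) (nat_lit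 76) (nat_lit 109401056198) (nat_lit 76) (nat_lit 101535995987) (nat_lit 7) (nat_lit 4) (nat_lit 8) (nat_lit 5) (nat_lit 8) (nat_lit 4) (nat_lit 480) (nat_lit 395) (nat_lit 325)) (XT.lf (nat_lit 0) (nat_lit 138858509014) (nat_lit 76) (nat_lit 77818152044) (nat_lit 76) (nat_lit 69950414536) (nat_lit 7) (nat_lit 4) (nat_lit 8) (nat_lit 5) (nat_lit 8) (nat_lit 4) (nat_lit 481) (nat_lit 395) (nat_lit 324))))) (XT.nd (nat_lit 312) (nat_lit 76) (nat_lit 0) (XT.nd (nat_lit 156) (nat_lit 76) (nat_lit 0) (XT.nd (nat_lit 78) (nat_lit 76) (nat_lit 0) (XT.lf (nat_lit 0) (nat_lit 228039001469) (nat_lit 76) (nat_lit 43734299146) (nat_lit 76) (nat_lit 35864082659) (nat_lit 7) (nat_lit 4) (nat_lit 8) (nat_lit 5) (nat_lit 8) (nat_lit 4) (nat_lit 482) (nat_lit 395) (nat_lit 323)) (XT.lf (nat_lit 0) (nat_lit 895387178) (nat_lit 152) (nat_lit 6036968122) (nat_lit 76) (nat_lit 323396588875) (nat_lit 6) (nat_lit 5)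 (nat_lit 8) (nat_lit 5) (nat_lit 7) (nat_lit 4) (nat_lit 483) (nat_lit 395) (nat_lit 322))) (XT.nd (nat_lit 78) (nat_lit 0) (nat_lit 0) (XT.lf (nat_lit 0) (nat_lit 41048927981) (nat_lit 152) (nat_lit 280122740900) (nat_lit 0) (nat_lit 33549273540) (nat_lit 5) (nat_lit 5) (nat_lit 7) (nat_lit 4) (nat_lit 5) (nat_lit 4) (nat_lit 484) (nat_lit 395) (nat_lit 321)) (XT.lf (nat_lit 0) (nat_lit 84617483206) (nat_lit 152) (nat_lit 219320726245) (nat_lit 0) (nat_lit 77115954581) (nat_lit 5) (nat_lit 5) (nat_lit 7) (nat_lit 4) (nat_lit 5) (nat_lit 4) (nat_lit 485) (nat_lit 395) (nat_lit 320)))) (XT.nd (nat_lit 156) (nat_lit 76) (nat_lit 0) (XT.nd (nat_lit 78) (nat_lit 0) (nat_lit 0) (XT.lf (nat_lit 0) (nat_lit 131652036699) (nat_lit 152) (nat_lit 153694208319) (nat_lit 0) (nat_lit 124148772718) (nat_lit 5) (nat_lit 5) (nat_lit 7) (nat_lit 4) (nat_lit 5) (nat_lit 4) (nat_lit 486) (nat_lit 395) (nat_lit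 319)) (XT.lf (nat_lit 0) (nat_lit 182431311741) (nat_lit 152) (nat_lit 82854289239) (nat_lit 0) (nat_lit 174926440948) (nat_lit 5) (nat_lit 5) (nat_lit 7) (nat_lit 4) (nat_lit 5) (nat_lit 4) (nat_lit 487) (nat_lit 395) (nat_lit 318))) (XT.nd (nat_lit 78) (nat_lit 76) (nat_lit 0) (XT.lf (nat_lit 0) (nat_lit 237256222552) (nat_lit 152) (nat_lit 6381176891) (nat_lit 0) (nat_lit 229749863972) (nat_lit 5) (nat_lit 5) (nat_lit 7) (nat_lit 4) (nat_lit 5) (nat_lit 4) (nat_lit 488) (nat_lit 395) (nat_lit 317)) (XT.lf (nat_lit 0) (nat_lit 78697101440) (nat_lit 76) (nat_lit 218983238356) (nat_lit 76) (nat_lit 211475502195) (nat_lit 4) (nat_lit 4) (nat_lit 5) (nat_lit 5) (nat_lit 5) (nat_lit 4) (nat_lit 489) (nat_lit 395) (nat_lit 316))))))) (XT.nd (nat_lit 56160) (nat_lit 0) (nat_lit 6308) (XT.nd (nat_lit 546) (nat_lit 0) (nat_lit 0) (XT.nd (nat_lit 234) (nat_lit 152) (nat_lit 0) (XT.nd (nat_lit 78) (nat_lit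 0) (nat_lit 0) (XT.lf (nat_lit 0) (nat_lit 170779398244) (nat_lit 76) (nat_lit 192255351102) (nat_lit 76) (nat_lit 184746339402) (nat_lit 4) (nat_lit 4) (nat_lit 5) (nat_lit 5) (nat_lit 5) (nat_lit 4) (nat_lit 490) (nat_lit 395) (nat_lit 315)) (XT.nd (nat_lit 78) (nat_lit 0) (nat_lit 0) (XT.lf (nat_lit 0) (nat_lit 270200395863) (nat_lit 76) (nat_lit 163403418521) (nat_lit 76) (nat_lit 155893225767) (nat_lit 4) (nat_lit 4) (nat_lit 5) (nat_lit 5) (nat_lit 5) (nat_lit 4) (nat_lit 491) (nat_lit 395) (nat_lit 314)) (XT.lf (nat_lit 0) (nat_lit 377549255763) (nat_lit 76) (nat_lit 132256466197) (nat_lit 76) (nat_lit 124745179874) (nat_lit 4) (nat_lit 4) (nat_lit 5) (nat_lit 5) (nat_lit 5) (nat_lit 4) (nat_lit 492) (nat_lit 395) (nat_lit 313)))) (XT.nd (nat_lit 156) (nat_lit 152) (nat_lit 0) (XT.nd (nat_lit 78) (nat_lit 0) (nat_lit 0) (XT.lf (nat_lit 0) (nat_lit 493462119337) (nat_lit 76) (nat_lit 98629919597)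 (nat_lit 76) (nat_lit 91117620712) (nat_lit 4) (nat_lit 4) (nat_lit 5) (nat_lit 5) (nat_lit 5) (nat_lit 4) (nat_lit 493) (nat_lit 395) (nat_lit 312)) (XT.lf (nat_lit 0) (nat_lit 618625877629) (nat_lit 76) (nat_lit 62324510299) (nat_lit 76) (nat_lit 54811273854) (nat_lit 4) (nat_lit 4) (nat_lit 5) (nat_lit 5) (nat_lit 5) (nat_lit 4) (nat_lit 494) (nat_lit 395) (nat_lit 311))) (XT.nd (nat_lit 78) (nat_lit 152) (nat_lit 0) (XT.lf (nat_lit 0) (nat_lit 753782241798) (nat_lit 76) (nat_lit 23125095135) (nat_lit 76) (nat_lit 15610990580) (nat_lit 4) (nat_lit 4) (nat_lit 5) (nat_lit 5) (nat_lit 5) (nat_lit 4) (nat_lit 495) (nat_lit 395) (nat_lit 310)) (XT.lf (nat_lit 0) (nat_lit 26912962546) (nat_lit 152) (nat_lit 807073642955) (nat_lit 0) (nat_lit 19755906965) (nat_lit 2) (nat_lit 5) (nat_lit 4) (nat_lit 4) (nat_lit 2) (nat_lit 4) (nat_lit 496) (nat_lit 395) (nat_lit 309))))) (XT.nd (nat_lit 312) (nat_lit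 0) (nat_lit 0) (XT.nd (nat_lit 156) (nat_lit 0) (nat_lit 0) (XT.nd (nat_lit 78) (nat_lit 0) (nat_lit 0) (XT.lf (nat_lit 0) (nat_lit 73365753539) (nat_lit 152) (nat_lit 780224400936) (nat_lit 0) (nat_lit 66207989135) (nat_lit 2) (nat_lit 5) (nat_lit 4) (nat_lit 4) (nat_lit 2) (nat_lit 4) (nat_lit 497) (nat_lit 395) (nat_lit 308)) (XT.lf (nat_lit 0) (nat_lit 123526242046) (nat_lit 152) (nat_lit 751244588185) (nat_lit 0) (nat_lit 116367821325) (nat_lit 2) (nat_lit 5) (nat_lit 4) (nat_lit 4) (nat_lit 2) (nat_lit 4) (nat_lit 498) (nat_lit 395) (nat_lit 307))) (XT.nd (nat_lit 78) (nat_lit 0) (nat_lit 0) (XT.lf (nat_lit 0) (nat_lit 177691675407) (nat_lit 152) (nat_lit 719962472478) (nat_lit 0) (nat_lit 170532646984) (nat_lit 2) (nat_lit 5) (nat_lit 4) (nat_lit 4) (nat_lit 2) (nat_lit 4) (nat_lit 499) (nat_lit 395) (nat_lit 306)) (XT.lf (nat_lit 0) (nat_lit 236183033967) (nat_lit 152) (nat_lit 686192678316)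 (nat_lit 0) (nat_lit 229023442857) (nat_lit 2) (nat_lit 5) (nat_lit 4) (nat_lit 4) (nat_lit 2) (nat_lit 4) (nat_lit 500) (nat_lit 395) (nat_lit 305)))) (XT.nd (nat_lit 156) (nat_lit 0) (nat_lit 0) (XT.nd (nat_lit 78) (nat_lit 0) (nat_lit 0) (XT.lf (nat_lit 0) (nat_lit 299346933185) (nat_lit 152) (nat_lit 649735088398) (nat_lit 0) (nat_lit 292186821068) (nat_lit 2) (nat_lit 5) (nat_lit 4) (nat_lit 4) (nat_lit 2) (nat_lit 4) (nat_lit 501) (nat_lit 395) (nat_lit 304)) (XT.lf (nat_lit 0) (nat_lit 367557677647) (nat_lit 152) (nat_lit 610373657749) (nat_lit 0) (nat_lit 360397083118) (nat_lit 2) (nat_lit 5) (nat_lit 4) (nat_lit 4) (nat_lit 2) (nat_lit 4) (nat_lit 502) (nat_lit 395) (nat_lit 303))) (XT.nd (nat_lit 55068) (nat_lit 0) (nat_lit 13148) (XT.lf (nat_lit 0) (nat_lit 441219479175) (nat_lit 152) (nat_lit 567875133445) (nat_lit 0) (nat_lit 434058437966) (nat_lit 2) (nat_lit 5) (nat_lit 4) (nat_lit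 4) (nat_lit 2) (nat_lit 4) (nat_lit 503) (nat_lit 395) (nat_lit 302)) (XT.lf (nat_lit 0) (nat_lit 2296664124) (nat_lit 532) (nat_lit 577201976) (nat_lit 532) (nat_lit 577201976) (nat_lit 175) (nat_lit 4) (nat_lit 182) (nat_lit 5) (nat_lit 182) (nat_lit 4) (nat_lit 408) (nat_lit 396) (nat_lit 396)))))) (XT.nd (nat_lit 546) (nat_lit 2660) (nat_lit 0) (XT.nd (nat_lit 234) (nat_lit 1520) (nat_lit 0) (XT.nd (nat_lit 78) (nat_lit 1976) (nat_lit 0) (XT.lf (nat_lit 0) (nat_lit 4220793746) (nat_lit 684) (nat_lit 1454066854) (nat_lit 0) (nat_lit 1352315782) (nat_lit 166) (nat_lit 5) (nat_lit 175) (nat_lit 4) (nat_lit 166) (nat_lit 4) (nat_lit 409) (nat_lit 396) (nat_lit 395)) (XT.nd (nat_lit 78) (nat_lit 1216) (nat_lit 0) (XT.lf (nat_lit 0) (nat_lit 2477604688) (nat_lit 760) (nat_lit 445386467) (nat_lit 76) (nat_lit 4248976847) (nat_lit 156) (nat_lit 5) (nat_lit 166) (nat_lit 5) (nat_lit 157) (nat_lit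 4) (nat_lit 410) (nat_lit 396) (nat_lit 394)) (XT.lf (nat_lit 0) (nat_lit 500541293) (nat_lit 456) (nat_lit 6577446152) (nat_lit 76) (nat_lit 259290736) (nat_lit 140) (nat_lit 5) (nat_lit 146) (nat_lit 5) (nat_lit 141) (nat_lit 4) (nat_lit 411) (nat_lit 396) (nat_lit 393)))) (XT.nd (nat_lit 156) (nat_lit 684) (nat_lit 0) (XT.nd (nat_lit 78) (nat_lit 456) (nat_lit 0) (XT.lf (nat_lit 0) (nat_lit 2084173940) (nat_lit 380) (nat_lit 3699429553) (nat_lit 456) (nat_lit 1736579349) (nat_lit 135) (nat_lit 5) (nat_lit 140) (nat_lit 5) (nat_lit 141) (nat_lit 4) (nat_lit 412) (nat_lit 396) (nat_lit 392)) (XT.lf (nat_lit 0) (nat_lit 3451480234) (nat_lit 456) (nat_lit 4143731569) (nat_lit 76) (nat_lit 129594605) (nat_lit 129) (nat_lit 5) (nat_lit 135) (nat_lit 5) (nat_lit 130) (nat_lit 4) (nat_lit 413) (nat_lit 396) (nat_lit 391))) (XT.nd (nat_lit 78) (nat_lit 304) (nat_lit 0) (XT.lf (nat_lit 0) (nat_lit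 901157926) (nat_lit 380) (nat_lit 2748509567) (nat_lit 76) (nat_lit 4299674668) (nat_lit 124) (nat_lit 5) (nat_lit 129) (nat_lit 5) (nat_lit 125) (nat_lit 5) (nat_lit 414) (nat_lit 396) (nat_lit 390)) (XT.lf (nat_lit 0) (nat_lit 6197293447) (nat_lit 380) (nat_lit 1228476982) (nat_lit 76) (nat_lit 769746948) (nat_lit 120) (nat_lit 5) (nat_lit 125) (nat_lit 5) (nat_lit 121) (nat_lit 4) (nat_lit 415) (nat_lit 396) (nat_lit 389))))) (XT.nd (nat_lit 312) (nat_lit 1140) (nat_lit 0) (XT.nd (nat_lit 156) (nat_lit 532) (nat_lit 0) (XT.nd (nat_lit 78) (nat_lit 304) (nat_lit 0) (XT.lf (nat_lit 0) (nat_lit 397306931) (nat_lit 304) (nat_lit 2880145317) (nat_lit 380) (nat_lit 5184664381) (nat_lit 111) (nat_lit 5) (nat_lit 115) (nat_lit 5) (nat_lit 116) (nat_lit 5) (nat_lit 416) (nat_lit 396) (nat_lit 388)) (XT.lf (nat_lit 0) (nat_lit 89896253) (nat_lit 304) (nat_lit 6543427057) (nat_lit 76) (nat_lit 2118091698)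 (nat_lit 107) (nat_lit 5) (nat_lit 111) (nat_lit 5) (nat_lit 108) (nat_lit 5) (nat_lit 417) (nat_lit 396) (nat_lit 387))) (XT.nd (nat_lit 78) (nat_lit 304) (nat_lit 0) (XT.lf (nat_lit 0) (nat_lit 4096565528) (nat_lit 228) (nat_lit 1460336132) (nat_lit 304) (nat_lit 3505135459) (nat_lit 104) (nat_lit 5) (nat_lit 107) (nat_lit 5) (nat_lit 108) (nat_lit 5) (nat_lit 418) (nat_lit 396) (nat_lit 386)) (XT.lf (nat_lit 0) (nat_lit 1982195628) (nat_lit 304) (nat_lit 3294513695) (nat_lit 76) (nat_lit 4119995723) (nat_lit 100) (nat_lit 5) (nat_lit 104) (nat_lit 5) (nat_lit 101) (nat_lit 5) (nat_lit 419) (nat_lit 396) (nat_lit 385)))) (XT.nd (nat_lit 156) (nat_lit 456) (nat_lit 0) (XT.nd (nat_lit 78) (nat_lit 456) (nat_lit 0) (XT.lf (nat_lit 0) (nat_lit 7755692351) (nat_lit 304) (nat_lit 1522303385) (nat_lit 76) (nat_lit 478807779) (nat_lit 97) (nat_lit 5) (nat_lit 101) (nat_lit 5) (nat_lit 98) (nat_lit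 4) (nat_lit 420) (nat_lit 396) (nat_lit 384)) (XT.lf (nat_lit 0) (nat_lit 304076305) (nat_lit 228) (nat_lit 3466792749) (nat_lit 304) (nat_lit 6369435500) (nat_lit 91) (nat_lit 5) (nat_lit 94) (nat_lit 5) (nat_lit 95) (nat_lit 5) (nat_lit 421) (nat_lit 396) (nat_lit 383))) (XT.nd (nat_lit 78) (nat_lit 304) (nat_lit 0) (XT.lf (nat_lit 0) (nat_lit 2299742703) (nat_lit 152) (nat_lit 7676231189) (nat_lit 228) (nat_lit 574821663) (nat_lit 89) (nat_lit 5) (nat_lit 91) (nat_lit 5) (nat_lit 92) (nat_lit 4) (nat_lit 422) (nat_lit 396) (nat_lit 382)) (XT.lf (nat_lit 0) (nat_lit 4348210340) (nat_lit 228) (nat_lit 1195812455) (nat_lit 304) (nat_lit 5443559229) (nat_lit 85) (nat_lit 5) (nat_lit 88) (nat_lit 5) (nat_lit 89) (nat_lit 5) (nat_lit 423) (nat_lit 396) (nat_lit 381))))))))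
noncomputable def xc39 : XT := (XT.nd (nat_lit 2340) (nat_lit 1748) (nat_lit 0) (XT.nd (nat_lit 1170) (nat_lit 1596) (nat_lit 0) (XT.nd (nat_lit 546) (nat_lit 1140) (nat_lit 0) (XT.nd (nat_lit 234) (nat_lit 836) (nat_lit 0) (XT.nd (nat_lit 78) (nat_lit 380) (nat_lit 0) (XT.lf (nat_lit 0) (nat_lit 744383472) (nat_lit 228) (nat_lit 4968258683) (nat_lit 76) (nat_lit 5741063962) (nat_lit 82) (nat_lit 5) (nat_lit 85) (nat_lit 5) (nat_lit 83) (nat_lit 5) (nat_lit 424) (nat_lit 396) (nat_lit 380)) (XT.nd (nat_lit 78) (nat_lit 228) (nat_lit 0) (XT.lf (nat_lit 0) (nat_lit 7296547891) (nat_lit 228) (nat_lit 3257716200) (nat_lit 76) (nat_lit 1395416215) (nat_lit 80) (nat_lit 5) (nat_lit 83) (nat_lit 5) (nat_lit 81) (nat_lit 4) (nat_lit 425) (nat_lit 396) (nat_lit 379)) (XT.lf (nat_lit 0) (nat_lit 1955855085) (nat_lit 228) (nat_lit 1501883663) (nat_lit 76) (nat_lit 9019699583) (nat_lit 77) (nat_lit 5) (nat_lit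 80) (nat_lit 5) (nat_lit 78) (nat_lit 5) (nat_lit 426) (nat_lit 396) (nat_lit 378)))) (XT.nd (nat_lit 156) (nat_lit 304) (nat_lit 0) (XT.nd (nat_lit 78) (nat_lit 228) (nat_lit 0) (XT.lf (nat_lit 0) (nat_lit 289682197) (nat_lit 152) (nat_lit 8761313213) (nat_lit 228) (nat_lit 3986598752) (nat_lit 73) (nat_lit 5) (nat_lit 75) (nat_lit 5) (nat_lit 76) (nat_lit 4) (nat_lit 427) (nat_lit 396) (nat_lit 377)) (XT.lf (nat_lit 0) (nat_lit 2197063819) (nat_lit 152) (nat_lit 920840356) (nat_lit 228) (nat_lit 10515022346) (nat_lit 70) (nat_lit 5) (nat_lit 72) (nat_lit 5) (nat_lit 73) (nat_lit 5) (nat_lit 428) (nat_lit 396) (nat_lit 376))) (XT.nd (nat_lit 78) (nat_lit 228) (nat_lit 0) (XT.lf (nat_lit 0) (nat_lit 4089814191) (nat_lit 76) (nat_lit 6755726405) (nat_lit 152) (nat_lit 3417366432) (nat_lit 69) (nat_lit 5) (nat_lit 70) (nat_lit 5) (nat_lit 71) (nat_lit 4) (nat_lit 429) (nat_lit 396) (nat_lit 375))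 (XT.lf (nat_lit 0) (nat_lit 4245925013) (nat_lit 228) (nat_lit 8892727497) (nat_lit 76) (nat_lit 1794637901) (nat_lit 66) (nat_lit 5) (nat_lit 69) (nat_lit 5) (nat_lit 67) (nat_lit 4) (nat_lit 430) (nat_lit 396) (nat_lit 374))))) (XT.nd (nat_lit 312) (nat_lit 532) (nat_lit 0) (XT.nd (nat_lit 156) (nat_lit 304) (nat_lit 0) (XT.nd (nat_lit 78) (nat_lit 228) (nat_lit 0) (XT.lf (nat_lit 0) (nat_lit 7985098489) (nat_lit 76) (nat_lit 4637231264) (nat_lit 152) (nat_lit 3021194067) (nat_lit 65) (nat_lit 5) (nat_lit 66) (nat_lit 5) (nat_lit 67) (nat_lit 4) (nat_lit 431) (nat_lit 396) (nat_lit 373)) (XT.lf (nat_lit 0) (nat_lit 5284459764) (nat_lit 228) (nat_lit 6464684148) (nat_lit 76) (nat_lit 4647611119) (nat_lit 62) (nat_lit 5) (nat_lit 65) (nat_lit 5) (nat_lit 63) (nat_lit 4) (nat_lit 432) (nat_lit 396) (nat_lit 372))) (XT.nd (nat_lit 78) (nat_lit 228) (nat_lit 0) (XT.lf (nat_lit 0) (nat_lit 11905009653)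 (nat_lit 76) (nat_lit 2457298119) (nat_lit 152) (nat_lit 2834788738) (nat_lit 61) (nat_lit 5) (nat_lit 62) (nat_lit 5) (nat_lit 63) (nat_lit 4) (nat_lit 433) (nat_lit 396) (nat_lit 371)) (XT.lf (nat_lit 0) (nat_lit 6182749530) (nat_lit 228) (nat_lit 4239502437) (nat_lit 76) (nat_lit 7620793005) (nat_lit 58) (nat_lit 5) (nat_lit 61) (nat_lit 5) (nat_lit 59) (nat_lit 4) (nat_lit 434) (nat_lit 396) (nat_lit 370)))) (XT.nd (nat_lit 156) (nat_lit 228) (nat_lit 0) (XT.nd (nat_lit 78) (nat_lit 228) (nat_lit 0) (XT.lf (nat_lit 0) (nat_lit 15749844353) (nat_lit 76) (nat_lit 279355860) (nat_lit 152) (nat_lit 2914810420) (nat_lit 57) (nat_lit 5) (nat_lit 58) (nat_lit 5) (nat_lit 59) (nat_lit 4) (nat_lit 435) (nat_lit 396) (nat_lit 369)) (XT.lf (nat_lit 0) (nat_lit 6883755254) (nat_lit 228) (nat_lit 2356286280) (nat_lit 76) (nat_lit 10654082777) (nat_lit 54) (nat_lit 5) (nat_lit 57) (nat_lit 5) (nat_lit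 55) (nat_lit 4) (nat_lit 436) (nat_lit 396) (nat_lit 368))) (XT.nd (nat_lit 78) (nat_lit 152) (nat_lit 0) (XT.lf (nat_lit 0) (nat_lit 17593080180) (nat_lit 152) (nat_lit 1556367936) (nat_lit 0) (nat_lit 1756965140) (nat_lit 53) (nat_lit 5) (nat_lit 55) (nat_lit 4) (nat_lit 53) (nat_lit 4) (nat_lit 437) (nat_lit 396) (nat_lit 367)) (XT.lf (nat_lit 0) (nat_lit 7304033656) (nat_lit 152) (nat_lit 1003883291) (nat_lit 76) (nat_lit 13667498127) (nat_lit 51) (nat_lit 5) (nat_lit 53) (nat_lit 5) (nat_lit 52) (nat_lit 4) (nat_lit 438) (nat_lit 396) (nat_lit 366)))))) (XT.nd (nat_lit 546) (nat_lit 836) (nat_lit 0) (XT.nd (nat_lit 234) (nat_lit 456) (nat_lit 0) (XT.nd (nat_lit 78) (nat_lit 228) (nat_lit 0) (XT.lf (nat_lit 0) (nat_lit 18940324311) (nat_lit 152) (nat_lit 573002831) (nat_lit 0) (nat_lit 3599617329) (nat_lit 50) (nat_lit 5) (nat_lit 52) (nat_lit 4) (nat_lit 50) (nat_lit 4) (nat_lit 439) (nat_lit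 396) (nat_lit 365)) (XT.nd (nat_lit 78) (nat_lit 76) (nat_lit 0) (XT.lf (nat_lit 0) (nat_lit 7326099245) (nat_lit 152) (nat_lit 437362298) (nat_lit 76) (nat_lit 16552953484) (nat_lit 48) (nat_lit 5) (nat_lit 50) (nat_lit 5) (nat_lit 49) (nat_lit 4) (nat_lit 440) (nat_lit 396) (nat_lit 364)) (XT.lf (nat_lit 0) (nat_lit 19940770993) (nat_lit 152) (nat_lit 535515392) (nat_lit 0) (nat_lit 5119347907) (nat_lit 47) (nat_lit 5) (nat_lit 49) (nat_lit 4) (nat_lit 47) (nat_lit 4) (nat_lit 441) (nat_lit 396) (nat_lit 363)))) (XT.nd (nat_lit 156) (nat_lit 228) (nat_lit 0) (XT.nd (nat_lit 78) (nat_lit 76) (nat_lit 0) (XT.lf (nat_lit 0) (nat_lit 6788371977) (nat_lit 152) (nat_lit 999289183) (nat_lit 76) (nat_lit 19163801261) (nat_lit 45) (nat_lit 5) (nat_lit 47) (nat_lit 5) (nat_lit 46) (nat_lit 4) (nat_lit 442) (nat_lit 396) (nat_lit 362)) (XT.lf (nat_lit 0) (nat_lit 20419792367) (nat_lit 152) (nat_lit 1840107262)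 (nat_lit 0) (nat_lit 6131682555) (nat_lit 44) (nat_lit 5) (nat_lit 46) (nat_lit 4) (nat_lit 44) (nat_lit 4) (nat_lit 443) (nat_lit 396) (nat_lit 361))) (XT.nd (nat_lit 78) (nat_lit 76) (nat_lit 0) (XT.lf (nat_lit 0) (nat_lit 5472030684) (nat_lit 152) (nat_lit 3147222538) (nat_lit 76) (nat_lit 21301431356) (nat_lit 42) (nat_lit 5) (nat_lit 44) (nat_lit 5) (nat_lit 43) (nat_lit 4) (nat_lit 444) (nat_lit 396) (nat_lit 360)) (XT.lf (nat_lit 0) (nat_lit 20139072608) (nat_lit 152) (nat_lit 5014634197) (nat_lit 0) (nat_lit 6390525951) (nat_lit 41) (nat_lit 5) (nat_lit 43) (nat_lit 4) (nat_lit 41) (nat_lit 4) (nat_lit 445) (nat_lit 396) (nat_lit 359))))) (XT.nd (nat_lit 312) (nat_lit 380) (nat_lit 0) (XT.nd (nat_lit 156) (nat_lit 228) (nat_lit 0) (XT.nd (nat_lit 78) (nat_lit 76) (nat_lit 0) (XT.lf (nat_lit 0) (nat_lit 3083892169) (nat_lit 152) (nat_lit 7489256022) (nat_lit 76) (nat_lit 22698029370)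 (nat_lit 39) (nat_lit 5) (nat_lit 41) (nat_lit 5) (nat_lit 40) (nat_lit 4) (nat_lit 446) (nat_lit 396) (nat_lit 358)) (XT.lf (nat_lit 0) (nat_lit 18777258836) (nat_lit 152) (nat_lit 10759012882) (nat_lit 0) (nat_lit 5568421022) (nat_lit 38) (nat_lit 5) (nat_lit 40) (nat_lit 4) (nat_lit 38) (nat_lit 4) (nat_lit 447) (nat_lit 396) (nat_lit 357))) (XT.nd (nat_lit 78) (nat_lit 152) (nat_lit 0) (XT.lf (nat_lit 0) (nat_lit 22215551020) (nat_lit 76) (nat_lit 14051166177) (nat_lit 76) (nat_lit 791142531) (nat_lit 37) (nat_lit 4) (nat_lit 38) (nat_lit 5) (nat_lit 38) (nat_lit 4) (nat_lit 448) (nat_lit 396) (nat_lit 356)) (XT.lf (nat_lit 0) (nat_lit 15904833240) (nat_lit 152) (nat_lit 19997440629) (nat_lit 0) (nat_lit 3231101873) (nat_lit 35) (nat_lit 5) (nat_lit 37) (nat_lit 4) (nat_lit 35) (nat_lit 4) (nat_lit 449) (nat_lit 396) (nat_lit 355)))) (XT.nd (nat_lit 156) (nat_lit 152) (nat_lit 0) (XT.nd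 (nat_lit 78) (nat_lit 152) (nat_lit 0) (XT.lf (nat_lit 0) (nat_lit 15007033968) (nat_lit 76) (nat_lit 19525787332) (nat_lit 76) (nat_lit 6810262058) (nat_lit 34) (nat_lit 4) (nat_lit 35) (nat_lit 5) (nat_lit 35) (nat_lit 4) (nat_lit 450) (nat_lit 396) (nat_lit 354)) (XT.lf (nat_lit 0) (nat_lit 9735962512) (nat_lit 76) (nat_lit 1234859852) (nat_lit 152) (nat_lit 32730275851) (nat_lit 32) (nat_lit 5) (nat_lit 33) (nat_lit 5) (nat_lit 34) (nat_lit 4) (nat_lit 451) (nat_lit 396) (nat_lit 353))) (XT.nd (nat_lit 78) (nat_lit 76) (nat_lit 0) (XT.lf (nat_lit 0) (nat_lit 2882629589) (nat_lit 76) (nat_lit 27752783683) (nat_lit 76) (nat_lit 15571779041) (nat_lit 31) (nat_lit 4) (nat_lit 32) (nat_lit 5) (nat_lit 32) (nat_lit 4) (nat_lit 452) (nat_lit 396) (nat_lit 352)) (XT.lf (nat_lit 0) (nat_lit 3385830094) (nat_lit 152) (nat_lit 5271650424) (nat_lit 76) (nat_lit 40227926615) (nat_lit 30) (nat_lit 5)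 (nat_lit 32) (nat_lit 5) (nat_lit 31) (nat_lit 4) (nat_lit 453) (nat_lit 396) (nat_lit 351))))))) (XT.nd (nat_lit 1170) (nat_lit 532) (nat_lit 0) (XT.nd (nat_lit 546) (nat_lit 608) (nat_lit 0) (XT.nd (nat_lit 234) (nat_lit 304) (nat_lit 0) (XT.nd (nat_lit 78) (nat_lit 228) (nat_lit 0) (XT.lf (nat_lit 0) (nat_lit 23997841384) (nat_lit 152) (nat_lit 15394179287) (nat_lit 0) (nat_lit 12338928012) (nat_lit 29) (nat_lit 5) (nat_lit 31) (nat_lit 4) (nat_lit 29) (nat_lit 4) (nat_lit 454) (nat_lit 396) (nat_lit 350)) (XT.nd (nat_lit 78) (nat_lit 152) (nat_lit 0) (XT.lf (nat_lit 0) (nat_lit 27203942534) (nat_lit 76) (nat_lit 19628121252) (nat_lit 76) (nat_lit 7943408125) (nat_lit 28) (nat_lit 4) (nat_lit 29) (nat_lit 5) (nat_lit 29) (nat_lit 4) (nat_lit 455) (nat_lit 396) (nat_lit 349)) (XT.lf (nat_lit 0) (nat_lit 13468435512) (nat_lit 152) (nat_lit 42243812710) (nat_lit 0) (nat_lit 2317386188) (nat_lit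 26) (nat_lit 5) (nat_lit 28) (nat_lit 4) (nat_lit 26) (nat_lit 4) (nat_lit 456) (nat_lit 396) (nat_lit 348)))) (XT.nd (nat_lit 156) (nat_lit 228) (nat_lit 0) (XT.nd (nat_lit 78) (nat_lit 0) (nat_lit 0) (XT.lf (nat_lit 0) (nat_lit 1478705650) (nat_lit 76) (nat_lit 35596507449) (nat_lit 76) (nat_lit 24424392286) (nat_lit 25) (nat_lit 4) (nat_lit 26) (nat_lit 5) (nat_lit 26) (nat_lit 4) (nat_lit 457) (nat_lit 396) (nat_lit 347)) (XT.lf (nat_lit 0) (nat_lit 50042958132) (nat_lit 76) (nat_lit 13181568716) (nat_lit 76) (nat_lit 1989948146) (nat_lit 25) (nat_lit 4) (nat_lit 26) (nat_lit 5) (nat_lit 26) (nat_lit 4) (nat_lit 458) (nat_lit 396) (nat_lit 346))) (XT.nd (nat_lit 78) (nat_lit 76) (nat_lit 0) (XT.lf (nat_lit 0) (nat_lit 22164152263) (nat_lit 152) (nat_lit 35524921377) (nat_lit 0) (nat_lit 11488265470) (nat_lit 23) (nat_lit 5) (nat_lit 25) (nat_lit 4) (nat_lit 23) (nat_lit 4) (nat_lit 459)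 (nat_lit 396) (nat_lit 345)) (XT.lf (nat_lit 0) (nat_lit 13501268653) (nat_lit 76) (nat_lit 35307378559) (nat_lit 76) (nat_lit 24615565344) (nat_lit 22) (nat_lit 4) (nat_lit 23) (nat_lit 5) (nat_lit 23) (nat_lit 4) (nat_lit 460) (nat_lit 396) (nat_lit 344))))) (XT.nd (nat_lit 312) (nat_lit 380) (nat_lit 0) (XT.nd (nat_lit 156) (nat_lit 76) (nat_lit 0) (XT.nd (nat_lit 78) (nat_lit 76) (nat_lit 0) (XT.lf (nat_lit 0) (nat_lit 143772720) (nat_lit 152) (nat_lit 10411825825) (nat_lit 76) (nat_lit 67427757066) (nat_lit 21) (nat_lit 5) (nat_lit 23) (nat_lit 5) (nat_lit 22) (nat_lit 4) (nat_lit 461) (nat_lit 396) (nat_lit 343)) (XT.lf (nat_lit 0) (nat_lit 26920834407) (nat_lit 152) (nat_lit 39210143582) (nat_lit 0) (nat_lit 16711106558) (nat_lit 20) (nat_lit 5) (nat_lit 22) (nat_lit 4) (nat_lit 20) (nat_lit 4) (nat_lit 462) (nat_lit 396) (nat_lit 342))) (XT.nd (nat_lit 78) (nat_lit 0) (nat_lit 0) (XT.lf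 (nat_lit 0) (nat_lit 14439753879) (nat_lit 76) (nat_lit 41922703607) (nat_lit 76) (nat_lit 31700934894) (nat_lit 19) (nat_lit 4) (nat_lit 20) (nat_lit 5) (nat_lit 20) (nat_lit 4) (nat_lit 463) (nat_lit 396) (nat_lit 341)) (XT.lf (nat_lit 0) (nat_lit 73655544897) (nat_lit 76) (nat_lit 15124376220) (nat_lit 76) (nat_lit 4891458559) (nat_lit 19) (nat_lit 4) (nat_lit 20) (nat_lit 5) (nat_lit 20) (nat_lit 4) (nat_lit 464) (nat_lit 396) (nat_lit 340)))) (XT.nd (nat_lit 156) (nat_lit 228) (nat_lit 0) (XT.nd (nat_lit 78) (nat_lit 0) (nat_lit 0) (XT.lf (nat_lit 0) (nat_lit 24067634932) (nat_lit 152) (nat_lit 61290668537) (nat_lit 0) (nat_lit 14312167540) (nat_lit 17) (nat_lit 5) (nat_lit 19) (nat_lit 4) (nat_lit 17) (nat_lit 4) (nat_lit 465) (nat_lit 396) (nat_lit 339)) (XT.lf (nat_lit 0) (nat_lit 55726638509) (nat_lit 152) (nat_lit 4429046424) (nat_lit 0) (nat_lit 45962067855) (nat_lit 17) (nat_lit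 5) (nat_lit 19) (nat_lit 4) (nat_lit 17) (nat_lit 4) (nat_lit 466) (nat_lit 396) (nat_lit 338))) (XT.nd (nat_lit 78) (nat_lit 152) (nat_lit 0) (XT.lf (nat_lit 0) (nat_lit 58754975776) (nat_lit 76) (nat_lit 32027810022) (nat_lit 76) (nat_lit 22254810421) (nat_lit 16) (nat_lit 4) (nat_lit 17) (nat_lit 5) (nat_lit 17) (nat_lit 4) (nat_lit 467) (nat_lit 396) (nat_lit 337)) (XT.lf (nat_lit 0) (nat_lit 6624394081) (nat_lit 76) (nat_lit 1378141656) (nat_lit 152) (nat_lit 112495621885) (nat_lit 14) (nat_lit 5) (nat_lit 15) (nat_lit 5) (nat_lit 16) (nat_lit 4) (nat_lit 468) (nat_lit 396) (nat_lit 336)))))) (XT.nd (nat_lit 546) (nat_lit 228) (nat_lit 0) (XT.nd (nat_lit 234) (nat_lit 228) (nat_lit 0) (XT.nd (nat_lit 78) (nat_lit 76) (nat_lit 0) (XT.lf (nat_lit 0) (nat_lit 41317606279) (nat_lit 152) (nat_lit 55153202068) (nat_lit 0) (nat_lit 31995672331) (nat_lit 14) (nat_lit 5) (nat_lit 16) (nat_lit 4)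 (nat_lit 14) (nat_lit 4) (nat_lit 469) (nat_lit 396) (nat_lit 335)) (XT.nd (nat_lit 78) (nat_lit 0) (nat_lit 0) (XT.lf (nat_lit 0) (nat_lit 8417426019) (nat_lit 76) (nat_lit 68988864920) (nat_lit 76) (nat_lit 59660558430) (nat_lit 13) (nat_lit 4) (nat_lit 14) (nat_lit 5) (nat_lit 14) (nat_lit 4) (nat_lit 470) (nat_lit 396) (nat_lit 334)) (XT.lf (nat_lit 0) (nat_lit 78953531175) (nat_lit 76) (nat_lit 38345049039) (nat_lit 76) (nat_lit 29010842046) (nat_lit 13) (nat_lit 4) (nat_lit 14) (nat_lit 5) (nat_lit 14) (nat_lit 4) (nat_lit 471) (nat_lit 396) (nat_lit 333)))) (XT.nd (nat_lit 156) (nat_lit 76) (nat_lit 0) (XT.nd (nat_lit 78) (nat_lit 76) (nat_lit 0) (XT.lf (nat_lit 0) (nat_lit 3918299846) (nat_lit 152) (nat_lit 1307155735) (nat_lit 76) (nat_lit 151064833043) (nat_lit 12) (nat_lit 5) (nat_lit 14) (nat_lit 5) (nat_lit 13) (nat_lit 4) (nat_lit 472) (nat_lit 396) (nat_lit 332)) (XT.lf (nat_lit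 0) (nat_lit 40063358247) (nat_lit 152) (nat_lit 95738971447) (nat_lit 0) (nat_lit 31163616198) (nat_lit 11) (nat_lit 5) (nat_lit 13) (nat_lit 4) (nat_lit 11) (nat_lit 4) (nat_lit 473) (nat_lit 396) (nat_lit 331))) (XT.nd (nat_lit 78) (nat_lit 76) (nat_lit 0) (XT.lf (nat_lit 0) (nat_lit 79173834414) (nat_lit 152) (nat_lit 29048499419) (nat_lit 0) (nat_lit 70269631403) (nat_lit 11) (nat_lit 5) (nat_lit 13) (nat_lit 4) (nat_lit 11) (nat_lit 4) (nat_lit 474) (nat_lit 396) (nat_lit 330)) (XT.lf (nat_lit 0) (nat_lit 44325523078) (nat_lit 76) (nat_lit 77745003902) (nat_lit 76) (nat_lit 68836670372) (nat_lit 10) (nat_lit 4) (nat_lit 11) (nat_lit 5) (nat_lit 11) (nat_lit 4) (nat_lit 475) (nat_lit 396) (nat_lit 329))))) (XT.nd (nat_lit 312) (nat_lit 76) (nat_lit 0) (XT.nd (nat_lit 156) (nat_lit 76) (nat_lit 0) (XT.nd (nat_lit 78) (nat_lit 76) (nat_lit 0) (XT.lf (nat_lit 0) (nat_lit 124539457736) (nat_lit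 76) (nat_lit 44332352865) (nat_lit 76) (nat_lit 35420194780) (nat_lit 10) (nat_lit 4) (nat_lit 11) (nat_lit 5) (nat_lit 11) (nat_lit 4) (nat_lit 476) (nat_lit 396) (nat_lit 328)) (XT.lf (nat_lit 0) (nat_lit 616969326) (nat_lit 152) (nat_lit 7650912221) (nat_lit 76) (nat_lit 210480753813) (nat_lit 9) (nat_lit 5) (nat_lit 11) (nat_lit 5) (nat_lit 10) (nat_lit 4) (nat_lit 477) (nat_lit 396) (nat_lit 327))) (XT.nd (nat_lit 78) (nat_lit 0) (nat_lit 0) (XT.lf (nat_lit 0) (nat_lit 39912588439) (nat_lit 152) (nat_lit 162921029395) (nat_lit 0) (nat_lit 31418323411) (nat_lit 8) (nat_lit 5) (nat_lit 10) (nat_lit 4) (nat_lit 8) (nat_lit 4) (nat_lit 478) (nat_lit 396) (nat_lit 326)) (XT.lf (nat_lit 0) (nat_lit 82598658822) (nat_lit 152) (nat_lit 94283010477) (nat_lit 0) (nat_lit 74101502313) (nat_lit 8) (nat_lit 5) (nat_lit 10) (nat_lit 4) (nat_lit 8) (nat_lit 4) (nat_lit 479) (nat_lit 396) (nat_lit 325))))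 (XT.nd (nat_lit 156) (nat_lit 0) (nat_lit 0) (XT.nd (nat_lit 78) (nat_lit 76) (nat_lit 0) (XT.lf (nat_lit 0) (nat_lit 128673625374) (nat_lit 152) (nat_lit 20206783030) (nat_lit 0) (nat_lit 120173791568) (nat_lit 8) (nat_lit 5) (nat_lit 10) (nat_lit 4) (nat_lit 8) (nat_lit 4) (nat_lit 480) (nat_lit 396) (nat_lit 324)) (XT.lf (nat_lit 0) (nat_lit 61722116368) (nat_lit 76) (nat_lit 117652063778) (nat_lit 76) (nat_lit 109149750993) (nat_lit 7) (nat_lit 4) (nat_lit 8) (nat_lit 5) (nat_lit 8) (nat_lit 4) (nat_lit 481) (nat_lit 396) (nat_lit 323))) (XT.nd (nat_lit 78) (nat_lit 0) (nat_lit 0) (XT.lf (nat_lit 0) (nat_lit 150880111971) (nat_lit 76) (nat_lit 83579644101) (nat_lit 76) (nat_lit 75075035965) (nat_lit 7) (nat_lit 4) (nat_lit 8) (nat_lit 5) (nat_lit 8) (nat_lit 4) (nat_lit 482) (nat_lit 396) (nat_lit 322)) (XT.lf (nat_lit 0) (nat_lit 247127419953) (nat_lit 76) (nat_lit 46803450386) (nat_lit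 76) (nat_lit 38296716925) (nat_lit 7) (nat_lit 4) (nat_lit 8) (nat_lit 5) (nat_lit 8) (nat_lit 4) (nat_lit 483) (nat_lit 396) (nat_lit 321))))))))
noncomputable def xc40 : XT := (XT.nd (nat_lit 57096) (nat_lit 0) (nat_lit 3116) (XT.nd (nat_lit 1092) (nat_lit 0) (nat_lit 0) (XT.nd (nat_lit 546) (nat_lit 152) (nat_lit 0) (XT.nd (nat_lit 234) (nat_lit 76) (nat_lit 0) (XT.nd (nat_lit 78) (nat_lit 76) (nat_lit 0) (XT.lf (nat_lit 0) (nat_lit 1358242102) (nat_lit 152) (nat_lit 5724305045) (nat_lit 76) (nat_lit 349653150141) (nat_lit 6) (nat_lit 5) (nat_lit 8) (nat_lit 5) (nat_lit 7) (nat_lit 4) (nat_lit 484) (nat_lit 396) (nat_lit 320)) (XT.nd (nat_lit 78) (nat_lit 0) (nat_lit 0) (XT.lf (nat_lit 0) (nat_lit 44713009509) (nat_lit 152) (nat_lit 301758849754) (nat_lit 0) (nat_lit 36607749054) (nat_lit 5) (nat_lit 5) (nat_lit 7) (nat_lit 4) (nat_lit 5) (nat_lit 4) (nat_lit 485) (nat_lit 396) (nat_lit 319))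 (XT.lf (nat_lit 0) (nat_lit 91738888612) (nat_lit 152) (nat_lit 236149985809) (nat_lit 0) (nat_lit 83632021346) (nat_lit 5) (nat_lit 5) (nat_lit 7) (nat_lit 4) (nat_lit 5) (nat_lit 4) (nat_lit 486) (nat_lit 396) (nat_lit 318)))) (XT.nd (nat_lit 156) (nat_lit 76) (nat_lit 0) (XT.nd (nat_lit 78) (nat_lit 0) (nat_lit 0) (XT.lf (nat_lit 0) (nat_lit 142510131811) (nat_lit 152) (nat_lit 165326413007) (nat_lit 0) (nat_lit 134401776757) (nat_lit 5) (nat_lit 5) (nat_lit 7) (nat_lit 4) (nat_lit 5) (nat_lit 4) (nat_lit 487) (nat_lit 396) (nat_lit 317)) (XT.lf (nat_lit 0) (nat_lit 197327605731) (nat_lit 152) (nat_lit 88868436103) (nat_lit 0) (nat_lit 189217873096) (nat_lit 5) (nat_lit 5) (nat_lit 7) (nat_lit 4) (nat_lit 5) (nat_lit 4) (nat_lit 488) (nat_lit 396) (nat_lit 316))) (XT.nd (nat_lit 78) (nat_lit 76) (nat_lit 0) (XT.lf (nat_lit 0) (nat_lit 256516154664) (nat_lit 152) (nat_lit 6322970788) (nat_lit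 0) (nat_lit 248405146490) (nat_lit 5) (nat_lit 5) (nat_lit 7) (nat_lit 4) (nat_lit 5) (nat_lit 4) (nat_lit 489) (nat_lit 396) (nat_lit 315)) (XT.lf (nat_lit 0) (nat_lit 85536854791) (nat_lit 76) (nat_lit 236225140793) (nat_lit 76) (nat_lit 228112951565) (nat_lit 4) (nat_lit 4) (nat_lit 5) (nat_lit 5) (nat_lit 5) (nat_lit 4) (nat_lit 490) (nat_lit 396) (nat_lit 314))))) (XT.nd (nat_lit 234) (nat_lit 152) (nat_lit 0) (XT.nd (nat_lit 78) (nat_lit 0) (nat_lit 0) (XT.lf (nat_lit 0) (nat_lit 184945440136) (nat_lit 76) (nat_lit 207379523050) (nat_lit 76) (nat_lit 199266240254) (nat_lit 4) (nat_lit 4) (nat_lit 5) (nat_lit 5) (nat_lit 5) (nat_lit 4) (nat_lit 491) (nat_lit 396) (nat_lit 313)) (XT.nd (nat_lit 78) (nat_lit 0) (nat_lit 0) (XT.lf (nat_lit 0) (nat_lit 292282807191) (nat_lit 76) (nat_lit 176238417799) (nat_lit 76) (nat_lit 168124122439) (nat_lit 4) (nat_lit 4) (nat_lit 5) (nat_lit 5) (nat_lit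 5) (nat_lit 4) (nat_lit 492) (nat_lit 396) (nat_lit 312)) (XT.lf (nat_lit 0) (nat_lit 408185029242) (nat_lit 76) (nat_lit 142617285155) (nat_lit 76) (nat_lit 134502052237) (nat_lit 4) (nat_lit 4) (nat_lit 5) (nat_lit 5) (nat_lit 5) (nat_lit 4) (nat_lit 493) (nat_lit 396) (nat_lit 311)))) (XT.nd (nat_lit 156) (nat_lit 152) (nat_lit 0) (XT.nd (nat_lit 78) (nat_lit 0) (nat_lit 0) (XT.lf (nat_lit 0) (nat_lit 533338934271) (nat_lit 76) (nat_lit 106316888779) (nat_lit 76) (nat_lit 98200787751) (nat_lit 4) (nat_lit 4) (nat_lit 5) (nat_lit 5) (nat_lit 5) (nat_lit 4) (nat_lit 494) (nat_lit 396) (nat_lit 310)) (XT.lf (nat_lit 0) (nat_lit 668486175049) (nat_lit 76) (nat_lit 67122115210) (nat_lit 76) (nat_lit 59005210376) (nat_lit 4) (nat_lit 4) (nat_lit 5) (nat_lit 5) (nat_lit 5) (nat_lit 4) (nat_lit 495) (nat_lit 396) (nat_lit 309))) (XT.nd (nat_lit 78) (nat_lit 152) (nat_lit 0) (XT.lf (nat_lit 0) (nat_lit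 814427624114) (nat_lit 76) (nat_lit 24800699122) (nat_lit 76) (nat_lit 16683050024) (nat_lit 4) (nat_lit 4) (nat_lit 5) (nat_lit 5) (nat_lit 5) (nat_lit 4) (nat_lit 496) (nat_lit 396) (nat_lit 308)) (XT.lf (nat_lit 0) (nat_lit 29232333952) (nat_lit 152) (nat_lit 871300679106) (nat_lit 0) (nat_lit 21500583255) (nat_lit 2) (nat_lit 5) (nat_lit 4) (nat_lit 4) (nat_lit 2) (nat_lit 4) (nat_lit 497) (nat_lit 396) (nat_lit 307)))))) (XT.nd (nat_lit 55380) (nat_lit 0) (nat_lit 9272) (XT.nd (nat_lit 234) (nat_lit 0) (nat_lit 0) (XT.nd (nat_lit 78) (nat_lit 0) (nat_lit 0) (XT.lf (nat_lit 0) (nat_lit 79389027158) (nat_lit 152) (nat_lit 842328598117) (nat_lit 0) (nat_lit 71656668759) (nat_lit 2) (nat_lit 5) (nat_lit 4) (nat_lit 4) (nat_lit 2) (nat_lit 4) (nat_lit 498) (nat_lit 396) (nat_lit 306)) (XT.nd (nat_lit 78) (nat_lit 0) (nat_lit 0) (XT.lf (nat_lit 0) (nat_lit 133550946351) (nat_lit 152) (nat_lit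 811053641449) (nat_lit 0) (nat_lit 125818025265) (nat_lit 2) (nat_lit 5) (nat_lit 4) (nat_lit 4) (nat_lit 2) (nat_lit 4) (nat_lit 499) (nat_lit 396) (nat_lit 305)) (XT.lf (nat_lit 0) (nat_lit 192039051052) (nat_lit 152) (nat_lit 777290476026) (nat_lit 0) (nat_lit 184305608960) (nat_lit 2) (nat_lit 5) (nat_lit 4) (nat_lit 4) (nat_lit 2) (nat_lit 4) (nat_lit 500) (nat_lit 396) (nat_lit 304)))) (XT.nd (nat_lit 156) (nat_lit 0) (nat_lit 0) (XT.nd (nat_lit 78) (nat_lit 0) (nat_lit 0) (XT.lf (nat_lit 0) (nat_lit 255199937437) (nat_lit 152) (nat_lit 740839023831) (nat_lit 0) (nat_lit 247466012932) (nat_lit 2) (nat_lit 5) (nat_lit 4) (nat_lit 4) (nat_lit 2) (nat_lit 4) (nat_lit 501) (nat_lit 396) (nat_lit 303)) (XT.lf (nat_lit 0) (nat_lit 323407892239) (nat_lit 152) (nat_lit 701483276257) (nat_lit 0) (nat_lit 315673521056) (nat_lit 2) (nat_lit 5) (nat_lit 4) (nat_lit 4) (nat_lit 2) (nat_lit 4) (nat_lit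 502) (nat_lit 396) (nat_lit 302))) (XT.nd (nat_lit 54912) (nat_lit 0) (nat_lit 14212) (XT.lf (nat_lit 0) (nat_lit 397067110748) (nat_lit 152) (nat_lit 658990014060) (nat_lit 0) (nat_lit 389332325973) (nat_lit 2) (nat_lit 5) (nat_lit 4) (nat_lit 4) (nat_lit 2) (nat_lit 4) (nat_lit 503) (nat_lit 396) (nat_lit 301)) (XT.lf (nat_lit 0) (nat_lit 1676262075) (nat_lit 380) (nat_lit 836838166) (nat_lit 380) (nat_lit 836838166) (nat_lit 189) (nat_lit 4) (nat_lit 194) (nat_lit 5) (nat_lit 194) (nat_lit 4) (nat_lit 406) (nat_lit 397) (nat_lit 397))))) (XT.nd (nat_lit 312) (nat_lit 2432) (nat_lit 0) (XT.nd (nat_lit 156) (nat_lit 1368) (nat_lit 0) (XT.nd (nat_lit 78) (nat_lit 608) (nat_lit 0) (XT.lf (nat_lit 0) (nat_lit 3517387882) (nat_lit 532) (nat_lit 3014278701) (nat_lit 0) (nat_lit 264533870) (nat_lit 182) (nat_lit 5) (nat_lit 189) (nat_lit 4) (nat_lit 182) (nat_lit 4) (nat_lit 407) (nat_lit 397) (nat_lit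 396)) (XT.lf (nat_lit 0) (nat_lit 1816926869) (nat_lit 608) (nat_lit 2540055792) (nat_lit 76) (nat_lit 2554279516) (nat_lit 174) (nat_lit 5) (nat_lit 182) (nat_lit 5) (nat_lit 175) (nat_lit 4) (nat_lit 408) (nat_lit 397) (nat_lit 395))) (XT.nd (nat_lit 78) (nat_lit 760) (nat_lit 0) (XT.lf (nat_lit 0) (nat_lit 5148638974) (nat_lit 608) (nat_lit 1779259986) (nat_lit 684) (nat_lit 118908897) (nat_lit 166) (nat_lit 5) (nat_lit 174) (nat_lit 5) (nat_lit 175) (nat_lit 4) (nat_lit 409) (nat_lit 397) (nat_lit 394)) (XT.lf (nat_lit 0) (nat_lit 4851515328) (nat_lit 760) (nat_lit 1136083371) (nat_lit 76) (nat_lit 1213317887) (nat_lit 156) (nat_lit 5) (nat_lit 166) (nat_lit 5) (nat_lit 157) (nat_lit 4) (nat_lit 410) (nat_lit 397) (nat_lit 393)))) (XT.nd (nat_lit 156) (nat_lit 760) (nat_lit 0) (XT.nd (nat_lit 78) (nat_lit 836) (nat_lit 0) (XT.lf (nat_lit 0) (nat_lit 2558825117) (nat_lit 836) (nat_lit 235089061)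 (nat_lit 76) (nat_lit 4581096499) (nat_lit 145) (nat_lit 5) (nat_lit 156) (nat_lit 5) (nat_lit 146) (nat_lit 5) (nat_lit 411) (nat_lit 397) (nat_lit 392)) (XT.lf (nat_lit 0) (nat_lit 30534812) (nat_lit 456) (nat_lit 6718026974) (nat_lit 76) (nat_lit 821378606) (nat_lit 134) (nat_lit 5) (nat_lit 140) (nat_lit 5) (nat_lit 135) (nat_lit 5) (nat_lit 412) (nat_lit 397) (nat_lit 391))) (XT.nd (nat_lit 78) (nat_lit 380) (nat_lit 0) (XT.lf (nat_lit 0) (nat_lit 2032064732) (nat_lit 380) (nat_lit 2938202262) (nat_lit 456) (nat_lit 2812605765) (nat_lit 129) (nat_lit 5) (nat_lit 134) (nat_lit 5) (nat_lit 135) (nat_lit 5) (nat_lit 413) (nat_lit 397) (nat_lit 390)) (XT.lf (nat_lit 0) (nat_lit 2079757750) (nat_lit 380) (nat_lit 4647858299) (nat_lit 76) (nat_lit 1290444525) (nat_lit 124) (nat_lit 5) (nat_lit 129) (nat_lit 5) (nat_lit 125) (nat_lit 5) (nat_lit 414) (nat_lit 397) (nat_lit 389))))))) (XT.nd (nat_lit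 1170) (nat_lit 2052) (nat_lit 0) (XT.nd (nat_lit 546) (nat_lit 1824) (nat_lit 0) (XT.nd (nat_lit 234) (nat_lit 1216) (nat_lit 0) (XT.nd (nat_lit 78) (nat_lit 760) (nat_lit 0) (XT.lf (nat_lit 0) (nat_lit 4823495067) (nat_lit 304) (nat_lit 2355248465) (nat_lit 380) (nat_lit 1095371910) (nat_lit 120) (nat_lit 5) (nat_lit 124) (nat_lit 5) (nat_lit 125) (nat_lit 5) (nat_lit 415) (nat_lit 397) (nat_lit 388)) (XT.nd (nat_lit 78) (nat_lit 380) (nat_lit 0) (XT.lf (nat_lit 0) (nat_lit 3923308071) (nat_lit 380) (nat_lit 2165860377) (nat_lit 76) (nat_lit 2462265954) (nat_lit 115) (nat_lit 5) (nat_lit 120) (nat_lit 5) (nat_lit 116) (nat_lit 5) (nat_lit 416) (nat_lit 397) (nat_lit 387)) (XT.lf (nat_lit 0) (nat_lit 380963283) (nat_lit 380) (nat_lit 755778813) (nat_lit 76) (nat_lit 7715956381) (nat_lit 110) (nat_lit 5) (nat_lit 115) (nat_lit 5) (nat_lit 111) (nat_lit 5) (nat_lit 417) (nat_lit 397) (nat_lit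 386)))) (XT.nd (nat_lit 156) (nat_lit 456) (nat_lit 0) (XT.nd (nat_lit 78) (nat_lit 304) (nat_lit 0) (XT.lf (nat_lit 0) (nat_lit 724507214) (nat_lit 228) (nat_lit 4904630850) (nat_lit 304) (nat_lit 3545140014) (nat_lit 104) (nat_lit 5) (nat_lit 107) (nat_lit 5) (nat_lit 108) (nat_lit 5) (nat_lit 418) (nat_lit 397) (nat_lit 385)) (XT.lf (nat_lit 0) (nat_lit 1697668127) (nat_lit 304) (nat_lit 7153183301) (nat_lit 76) (nat_lit 670430047) (nat_lit 100) (nat_lit 5) (nat_lit 104) (nat_lit 5) (nat_lit 101) (nat_lit 5) (nat_lit 419) (nat_lit 397) (nat_lit 384))) (XT.nd (nat_lit 78) (nat_lit 228) (nat_lit 0) (XT.lf (nat_lit 0) (nat_lit 4065587725) (nat_lit 228) (nat_lit 3207724051) (nat_lit 304) (nat_lit 2617973853) (nat_lit 97) (nat_lit 5) (nat_lit 100) (nat_lit 5) (nat_lit 101) (nat_lit 5) (nat_lit 420) (nat_lit 397) (nat_lit 383)) (XT.lf (nat_lit 0) (nat_lit 2924098347) (nat_lit 228) (nat_lit 4420229408)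 (nat_lit 76) (nat_lit 2943434526) (nat_lit 94) (nat_lit 5) (nat_lit 97) (nat_lit 5) (nat_lit 95) (nat_lit 5) (nat_lit 421) (nat_lit 397) (nat_lit 382))))) (XT.nd (nat_lit 312) (nat_lit 760) (nat_lit 0) (XT.nd (nat_lit 156) (nat_lit 608) (nat_lit 0) (XT.nd (nat_lit 78) (nat_lit 228) (nat_lit 0) (XT.lf (nat_lit 0) (nat_lit 7772890849) (nat_lit 228) (nat_lit 1085394432) (nat_lit 304) (nat_lit 1853524535) (nat_lit 91) (nat_lit 5) (nat_lit 94) (nat_lit 5) (nat_lit 95) (nat_lit 5) (nat_lit 422) (nat_lit 397) (nat_lit 381)) (XT.lf (nat_lit 0) (nat_lit 4058414668) (nat_lit 228) (nat_lit 1436449730) (nat_lit 76) (nat_lit 5667131063) (nat_lit 88) (nat_lit 5) (nat_lit 91) (nat_lit 5) (nat_lit 89) (nat_lit 5) (nat_lit 423) (nat_lit 397) (nat_lit 380))) (XT.nd (nat_lit 78) (nat_lit 228) (nat_lit 0) (XT.lf (nat_lit 0) (nat_lit 175071475) (nat_lit 152) (nat_lit 10263129267) (nat_lit 228) (nat_lit 1205502494)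 (nat_lit 83) (nat_lit 5) (nat_lit 85) (nat_lit 5) (nat_lit 86) (nat_lit 4) (nat_lit 424) (nat_lit 397) (nat_lit 379)) (XT.lf (nat_lit 0) (nat_lit 1837847787) (nat_lit 152) (nat_lit 3311143348) (nat_lit 228) (nat_lit 7003447736) (nat_lit 80) (nat_lit 5) (nat_lit 82) (nat_lit 5) (nat_lit 83) (nat_lit 5) (nat_lit 425) (nat_lit 397) (nat_lit 378)))) (XT.nd (nat_lit 156) (nat_lit 380) (nat_lit 0) (XT.nd (nat_lit 78) (nat_lit 228) (nat_lit 0) (XT.lf (nat_lit 0) (nat_lit 3593749008) (nat_lit 152) (nat_lit 8488602461) (nat_lit 228) (nat_lit 612911418) (nat_lit 78) (nat_lit 5) (nat_lit 80) (nat_lit 5) (nat_lit 81) (nat_lit 4) (nat_lit 426) (nat_lit 397) (nat_lit 377)) (XT.lf (nat_lit 0) (nat_lit 5375785823) (nat_lit 152) (nat_lit 828730363) (nat_lit 228) (nat_lit 7066253735) (nat_lit 75) (nat_lit 5) (nat_lit 77) (nat_lit 5) (nat_lit 78) (nat_lit 5) (nat_lit 427) (nat_lit 397) (nat_lit 376))) (XT.nd (nat_lit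 78) (nat_lit 228) (nat_lit 0) (XT.lf (nat_lit 0) (nat_lit 7211269103) (nat_lit 152) (nat_lit 6527202460) (nat_lit 228) (nat_lit 143725266) (nat_lit 73) (nat_lit 5) (nat_lit 75) (nat_lit 5) (nat_lit 76) (nat_lit 4) (nat_lit 428) (nat_lit 397) (nat_lit 375)) (XT.lf (nat_lit 0) (nat_lit 7232145421) (nat_lit 228) (nat_lit 5462130178) (nat_lit 76) (nat_lit 1835837333) (nat_lit 70) (nat_lit 5) (nat_lit 73) (nat_lit 5) (nat_lit 71) (nat_lit 4) (nat_lit 429) (nat_lit 397) (nat_lit 374)))))) (XT.nd (nat_lit 546) (nat_lit 836) (nat_lit 0) (XT.nd (nat_lit 234) (nat_lit 760) (nat_lit 0) (XT.nd (nat_lit 78) (nat_lit 304) (nat_lit 0) (XT.lf (nat_lit 0) (nat_lit 183688162) (nat_lit 152) (nat_lit 4230554608) (nat_lit 76) (nat_lit 10804579365) (nat_lit 68) (nat_lit 5) (nat_lit 70) (nat_lit 5) (nat_lit 69) (nat_lit 5) (nat_lit 430) (nat_lit 397) (nat_lit 373)) (XT.nd (nat_lit 78) (nat_lit 152) (nat_lit 0) (XT.lf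 (nat_lit 0) (nat_lit 8207888166) (nat_lit 228) (nat_lit 3061605191) (nat_lit 76) (nat_lit 4677176594) (nat_lit 66) (nat_lit 5) (nat_lit 69) (nat_lit 5) (nat_lit 67) (nat_lit 4) (nat_lit 431) (nat_lit 397) (nat_lit 372)) (XT.lf (nat_lit 0) (nat_lit 349959476) (nat_lit 152) (nat_lit 1845793517) (nat_lit 76) (nat_lit 14526229828) (nat_lit 64) (nat_lit 5) (nat_lit 66) (nat_lit 5) (nat_lit 65) (nat_lit 5) (nat_lit 432) (nat_lit 397) (nat_lit 371)))) (XT.nd (nat_lit 156) (nat_lit 304) (nat_lit 0) (XT.nd (nat_lit 78) (nat_lit 304) (nat_lit 0) (XT.lf (nat_lit 0) (nat_lit 9093938249) (nat_lit 228) (nat_lit 760184830) (nat_lit 76) (nat_lit 7684898087) (nat_lit 62) (nat_lit 5) (nat_lit 65) (nat_lit 5) (nat_lit 63) (nat_lit 4) (nat_lit 433) (nat_lit 397) (nat_lit 370)) (XT.lf (nat_lit 0) (nat_lit 325828150) (nat_lit 228) (nat_lit 18006746774) (nat_lit 76) (nat_lit 78086911) (nat_lit 58) (nat_lit 5) (nat_lit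 61) (nat_lit 5) (nat_lit 59) (nat_lit 4) (nat_lit 434) (nat_lit 397) (nat_lit 369))) (XT.nd (nat_lit 78) (nat_lit 228) (nat_lit 0) (XT.lf (nat_lit 0) (nat_lit 1376901002) (nat_lit 76) (nat_lit 8492837134) (nat_lit 152) (nat_lit 9457019175) (nat_lit 57) (nat_lit 5) (nat_lit 58) (nat_lit 5) (nat_lit 59) (nat_lit 4) (nat_lit 435) (nat_lit 397) (nat_lit 368)) (XT.lf (nat_lit 0) (nat_lit 101698065) (nat_lit 228) (nat_lit 17909609659) (nat_lit 76) (nat_lit 2293134826) (nat_lit 54) (nat_lit 5) (nat_lit 57) (nat_lit 5) (nat_lit 55) (nat_lit 4) (nat_lit 436) (nat_lit 397) (nat_lit 367))))) (XT.nd (nat_lit 312) (nat_lit 456) (nat_lit 0) (XT.nd (nat_lit 156) (nat_lit 228) (nat_lit 0) (XT.nd (nat_lit 78) (nat_lit 76) (nat_lit 0) (XT.lf (nat_lit 0) (nat_lit 3169329198) (nat_lit 76) (nat_lit 7287016656) (nat_lit 152) (nat_lit 10878121768) (nat_lit 53) (nat_lit 5) (nat_lit 54) (nat_lit 5) (nat_lit 55) (nat_lit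 4) (nat_lit 437) (nat_lit 397) (nat_lit 366)) (XT.lf (nat_lit 0) (nat_lit 3915549663) (nat_lit 76) (nat_lit 18021703396) (nat_lit 76) (nat_lit 494751634) (nat_lit 52) (nat_lit 4) (nat_lit 53) (nat_lit 5) (nat_lit 53) (nat_lit 4) (nat_lit 438) (nat_lit 397) (nat_lit 365))) (XT.nd (nat_lit 78) (nat_lit 76) (nat_lit 0) (XT.lf (nat_lit 0) (nat_lit 4381688910) (nat_lit 76) (nat_lit 6364436640) (nat_lit 152) (nat_lit 12844359048) (nat_lit 50) (nat_lit 5) (nat_lit 51) (nat_lit 5) (nat_lit 52) (nat_lit 4) (nat_lit 439) (nat_lit 397) (nat_lit 364)) (XT.lf (nat_lit 0) (nat_lit 4721690344) (nat_lit 76) (nat_lit 18507822098) (nat_lit 76) (nat_lit 1593699828) (nat_lit 49) (nat_lit 4) (nat_lit 50) (nat_lit 5) (nat_lit 50) (nat_lit 4) (nat_lit 440) (nat_lit 397) (nat_lit 363)))) (XT.nd (nat_lit 156) (nat_lit 228) (nat_lit 0) (XT.nd (nat_lit 78) (nat_lit 76) (nat_lit 0) (XT.lf (nat_lit 0) (nat_lit 4729601874)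 (nat_lit 76) (nat_lit 5876473358) (nat_lit 152) (nat_lit 15520897175) (nat_lit 47) (nat_lit 5) (nat_lit 48) (nat_lit 5) (nat_lit 49) (nat_lit 4) (nat_lit 441) (nat_lit 397) (nat_lit 362)) (XT.lf (nat_lit 0) (nat_lit 4485030466) (nat_lit 76) (nat_lit 19658794098) (nat_lit 76) (nat_lit 3369014006) (nat_lit 46) (nat_lit 4) (nat_lit 47) (nat_lit 5) (nat_lit 47) (nat_lit 4) (nat_lit 442) (nat_lit 397) (nat_lit 361))) (XT.nd (nat_lit 78) (nat_lit 76) (nat_lit 0) (XT.lf (nat_lit 0) (nat_lit 3830897507) (nat_lit 76) (nat_lit 6023391278) (nat_lit 152) (nat_lit 19127098127) (nat_lit 44) (nat_lit 5) (nat_lit 45) (nat_lit 5) (nat_lit 46) (nat_lit 4) (nat_lit 443) (nat_lit 397) (nat_lit 360)) (XT.lf (nat_lit 0) (nat_lit 2763465109) (nat_lit 76) (nat_lit 21719918636) (nat_lit 76) (nat_lit 6057978180) (nat_lit 43) (nat_lit 4) (nat_lit 44) (nat_lit 5) (nat_lit 44) (nat_lit 4) (nat_lit 444) (nat_lit 397) (nat_lit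 359))))))))
noncomputable def xc41 : XT := (XT.nd (nat_lit 2262) (nat_lit 684) (nat_lit 0) (XT.nd (nat_lit 1092) (nat_lit 1064) (nat_lit 0) (XT.nd (nat_lit 546) (nat_lit 684) (nat_lit 0) (XT.nd (nat_lit 234) (nat_lit 380) (nat_lit 0) (XT.nd (nat_lit 78) (nat_lit 152) (nat_lit 0) (XT.lf (nat_lit 0) (nat_lit 1174974427) (nat_lit 76) (nat_lit 7070263432) (nat_lit 152) (nat_lit 23952288303) (nat_lit 41) (nat_lit 5) (nat_lit 42) (nat_lit 5) (nat_lit 43) (nat_lit 4) (nat_lit 445) (nat_lit 397) (nat_lit 358)) (XT.nd (nat_lit 78) (nat_lit 152) (nat_lit 0) (XT.lf (nat_lit 0) (nat_lit 23996601902) (nat_lit 152) (nat_lit 999076298) (nat_lit 0) (nat_lit 8959735087) (nat_lit 41) (nat_lit 5) (nat_lit 43) (nat_lit 4) (nat_lit 41) (nat_lit 4) (nat_lit 446) (nat_lit 397) (nat_lit 357)) (XT.lf (nat_lit 0) (nat_lit 5511781192) (nat_lit 152) (nat_lit 3791460495) (nat_lit 76) (nat_lit 26520537762) (nat_lit 39) (nat_lit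 5) (nat_lit 41) (nat_lit 5) (nat_lit 40) (nat_lit 4) (nat_lit 447) (nat_lit 397) (nat_lit 356)))) (XT.nd (nat_lit 156) (nat_lit 152) (nat_lit 0) (XT.nd (nat_lit 78) (nat_lit 152) (nat_lit 0) (XT.lf (nat_lit 0) (nat_lit 22394858191) (nat_lit 152) (nat_lit 7436955547) (nat_lit 0) (nat_lit 7975452531) (nat_lit 38) (nat_lit 5) (nat_lit 40) (nat_lit 4) (nat_lit 38) (nat_lit 4) (nat_lit 448) (nat_lit 397) (nat_lit 355)) (XT.lf (nat_lit 0) (nat_lit 1227263053) (nat_lit 152) (nat_lit 11947400001) (nat_lit 76) (nat_lit 26745747669) (nat_lit 36) (nat_lit 5) (nat_lit 38) (nat_lit 5) (nat_lit 37) (nat_lit 4) (nat_lit 449) (nat_lit 397) (nat_lit 354))) (XT.nd (nat_lit 78) (nat_lit 76) (nat_lit 0) (XT.lf (nat_lit 0) (nat_lit 19170282423) (nat_lit 152) (nat_lit 17637061815) (nat_lit 0) (nat_lit 5357023160) (nat_lit 35) (nat_lit 5) (nat_lit 37) (nat_lit 4) (nat_lit 35) (nat_lit 4) (nat_lit 450) (nat_lit 397)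 (nat_lit 353)) (XT.lf (nat_lit 0) (nat_lit 19995666411) (nat_lit 76) (nat_lit 19204351240) (nat_lit 76) (nat_lit 5355260438) (nat_lit 34) (nat_lit 4) (nat_lit 35) (nat_lit 5) (nat_lit 35) (nat_lit 4) (nat_lit 451) (nat_lit 397) (nat_lit 352))))) (XT.nd (nat_lit 234) (nat_lit 380) (nat_lit 0) (XT.nd (nat_lit 78) (nat_lit 152) (nat_lit 0) (XT.lf (nat_lit 0) (nat_lit 13706261978) (nat_lit 152) (nat_lit 32912960549) (nat_lit 0) (nat_lit 485054214) (nat_lit 32) (nat_lit 5) (nat_lit 34) (nat_lit 4) (nat_lit 32) (nat_lit 4) (nat_lit 452) (nat_lit 397) (nat_lit 351)) (XT.nd (nat_lit 78) (nat_lit 76) (nat_lit 0) (XT.lf (nat_lit 0) (nat_lit 6698895949) (nat_lit 76) (nat_lit 28182773094) (nat_lit 76) (nat_lit 14932308408) (nat_lit 31) (nat_lit 4) (nat_lit 32) (nat_lit 5) (nat_lit 32) (nat_lit 4) (nat_lit 453) (nat_lit 397) (nat_lit 350)) (XT.lf (nat_lit 0) (nat_lit 5346394991) (nat_lit 152) (nat_lit 2317444697)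 (nat_lit 76) (nat_lit 45047898239) (nat_lit 30) (nat_lit 5) (nat_lit 32) (nat_lit 5) (nat_lit 31) (nat_lit 4) (nat_lit 454) (nat_lit 397) (nat_lit 349)))) (XT.nd (nat_lit 156) (nat_lit 228) (nat_lit 0) (XT.nd (nat_lit 78) (nat_lit 76) (nat_lit 0) (XT.lf (nat_lit 0) (nat_lit 27557824854) (nat_lit 152) (nat_lit 13340930053) (nat_lit 0) (nat_lit 14888646259) (nat_lit 29) (nat_lit 5) (nat_lit 31) (nat_lit 4) (nat_lit 29) (nat_lit 4) (nat_lit 455) (nat_lit 397) (nat_lit 348)) (XT.lf (nat_lit 0) (nat_lit 32522288823) (nat_lit 76) (nat_lit 19624059084) (nat_lit 76) (nat_lit 6932761357) (nat_lit 28) (nat_lit 4) (nat_lit 29) (nat_lit 5) (nat_lit 29) (nat_lit 4) (nat_lit 456) (nat_lit 397) (nat_lit 347))) (XT.nd (nat_lit 78) (nat_lit 76) (nat_lit 0) (XT.lf (nat_lit 0) (nat_lit 16092953586) (nat_lit 152) (nat_lit 42515188713) (nat_lit 0) (nat_lit 3986497962) (nat_lit 26) (nat_lit 5) (nat_lit 28) (nat_lit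 4) (nat_lit 26) (nat_lit 4) (nat_lit 457) (nat_lit 397) (nat_lit 346)) (XT.lf (nat_lit 0) (nat_lit 4570055616) (nat_lit 76) (nat_lit 36950039666) (nat_lit 76) (nat_lit 24825523480) (nat_lit 25) (nat_lit 4) (nat_lit 26) (nat_lit 5) (nat_lit 26) (nat_lit 4) (nat_lit 458) (nat_lit 397) (nat_lit 345)))))) (XT.nd (nat_lit 546) (nat_lit 608) (nat_lit 0) (XT.nd (nat_lit 234) (nat_lit 228) (nat_lit 0) (XT.nd (nat_lit 78) (nat_lit 228) (nat_lit 0) (XT.lf (nat_lit 0) (nat_lit 56799222111) (nat_lit 76) (nat_lit 12852586454) (nat_lit 76) (nat_lit 711347526) (nat_lit 25) (nat_lit 4) (nat_lit 26) (nat_lit 5) (nat_lit 26) (nat_lit 4) (nat_lit 459) (nat_lit 397) (nat_lit 344)) (XT.nd (nat_lit 78) (nat_lit 76) (nat_lit 0) (XT.lf (nat_lit 0) (nat_lit 25288793081) (nat_lit 152) (nat_lit 35644186394) (nat_lit 0) (nat_lit 13710961700) (nat_lit 23) (nat_lit 5) (nat_lit 25) (nat_lit 4) (nat_lit 23) (nat_lit 4) (nat_lit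 460) (nat_lit 397) (nat_lit 343)) (XT.lf (nat_lit 0) (nat_lit 17185772368) (nat_lit 76) (nat_lit 36819625524) (nat_lit 76) (nat_lit 25228139804) (nat_lit 22) (nat_lit 4) (nat_lit 23) (nat_lit 5) (nat_lit 23) (nat_lit 4) (nat_lit 461) (nat_lit 397) (nat_lit 342)))) (XT.nd (nat_lit 156) (nat_lit 76) (nat_lit 0) (XT.nd (nat_lit 78) (nat_lit 76) (nat_lit 0) (XT.lf (nat_lit 0) (nat_lit 1371245676) (nat_lit 152) (nat_lit 8793074990) (nat_lit 76) (nat_lit 73996896971) (nat_lit 21) (nat_lit 5) (nat_lit 23) (nat_lit 5) (nat_lit 22) (nat_lit 4) (nat_lit 462) (nat_lit 397) (nat_lit 341)) (XT.lf (nat_lit 0) (nat_lit 30255478969) (nat_lit 152) (nat_lit 39962137222) (nat_lit 0) (nat_lit 19192778947) (nat_lit 20) (nat_lit 5) (nat_lit 22) (nat_lit 4) (nat_lit 20) (nat_lit 4) (nat_lit 463) (nat_lit 397) (nat_lit 340))) (XT.nd (nat_lit 78) (nat_lit 0) (nat_lit 0) (XT.lf (nat_lit 0) (nat_lit 17876110758) (nat_lit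 76) (nat_lit 44124456857) (nat_lit 76) (nat_lit 33051433735) (nat_lit 19) (nat_lit 4) (nat_lit 20) (nat_lit 5) (nat_lit 20) (nat_lit 4) (nat_lit 464) (nat_lit 397) (nat_lit 339)) (XT.lf (nat_lit 0) (nat_lit 81660189016) (nat_lit 76) (nat_lit 15267601282) (nat_lit 76) (nat_lit 4185019734) (nat_lit 19) (nat_lit 4) (nat_lit 20) (nat_lit 5) (nat_lit 20) (nat_lit 4) (nat_lit 465) (nat_lit 397) (nat_lit 338))))) (XT.nd (nat_lit 312) (nat_lit 228) (nat_lit 0) (XT.nd (nat_lit 156) (nat_lit 228) (nat_lit 0) (XT.nd (nat_lit 78) (nat_lit 0) (nat_lit 0) (XT.lf (nat_lit 0) (nat_lit 27025229367) (nat_lit 152) (nat_lit 64105303784) (nat_lit 0) (nat_lit 16461960851) (nat_lit 17) (nat_lit 5) (nat_lit 19) (nat_lit 4) (nat_lit 17) (nat_lit 4) (nat_lit 466) (nat_lit 397) (nat_lit 337)) (XT.lf (nat_lit 0) (nat_lit 61140495183) (nat_lit 152) (nat_lit 2849464363) (nat_lit 0) (nat_lit 50569422086) (nat_lit 17) (nat_lit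 5) (nat_lit 19) (nat_lit 4) (nat_lit 17) (nat_lit 4) (nat_lit 467) (nat_lit 397) (nat_lit 336))) (XT.nd (nat_lit 78) (nat_lit 152) (nat_lit 0) (XT.lf (nat_lit 0) (nat_lit 65305234424) (nat_lit 76) (nat_lit 33653986851) (nat_lit 76) (nat_lit 23075687291) (nat_lit 16) (nat_lit 4) (nat_lit 17) (nat_lit 5) (nat_lit 17) (nat_lit 4) (nat_lit 468) (nat_lit 397) (nat_lit 335)) (XT.lf (nat_lit 0) (nat_lit 8953193425) (nat_lit 76) (nat_lit 577628113) (nat_lit 152) (nat_lit 120562780384) (nat_lit 14) (nat_lit 5) (nat_lit 15) (nat_lit 5) (nat_lit 16) (nat_lit 4) (nat_lit 469) (nat_lit 397) (nat_lit 334)))) (XT.nd (nat_lit 156) (nat_lit 152) (nat_lit 0) (XT.nd (nat_lit 78) (nat_lit 76) (nat_lit 0) (XT.lf (nat_lit 0) (nat_lit 45458480091) (nat_lit 152) (nat_lit 57871905887) (nat_lit 0) (nat_lit 35371636036) (nat_lit 14) (nat_lit 5) (nat_lit 16) (nat_lit 4) (nat_lit 14) (nat_lit 4) (nat_lit 470) (nat_lit 397)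 (nat_lit 333)) (XT.lf (nat_lit 0) (nat_lit 10710772726) (nat_lit 76) (nat_lit 73686892479) (nat_lit 76) (nat_lit 63594584995) (nat_lit 13) (nat_lit 4) (nat_lit 14) (nat_lit 5) (nat_lit 14) (nat_lit 4) (nat_lit 471) (nat_lit 397) (nat_lit 332))) (XT.nd (nat_lit 78) (nat_lit 152) (nat_lit 0) (XT.lf (nat_lit 0) (nat_lit 86769769804) (nat_lit 76) (nat_lit 40652392189) (nat_lit 76) (nat_lit 30555025976) (nat_lit 13) (nat_lit 4) (nat_lit 14) (nat_lit 5) (nat_lit 14) (nat_lit 4) (nat_lit 472) (nat_lit 397) (nat_lit 331)) (XT.lf (nat_lit 0) (nat_lit 144966) (nat_lit 76) (nat_lit 4927755125) (nat_lit 152) (nat_lit 163830801896) (nat_lit 11) (nat_lit 5) (nat_lit 12) (nat_lit 5) (nat_lit 13) (nat_lit 4) (nat_lit 473) (nat_lit 397) (nat_lit 330))))))) (XT.nd (nat_lit 1170) (nat_lit 228) (nat_lit 0) (XT.nd (nat_lit 546) (nat_lit 228) (nat_lit 0) (XT.nd (nat_lit 234) (nat_lit 152) (nat_lit 0) (XT.nd (nat_lit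 78) (nat_lit 76) (nat_lit 0) (XT.lf (nat_lit 0) (nat_lit 43944773204) (nat_lit 152) (nat_lit 102024985873) (nat_lit 0) (nat_lit 34319642473) (nat_lit 11) (nat_lit 5) (nat_lit 13) (nat_lit 4) (nat_lit 11) (nat_lit 4) (nat_lit 474) (nat_lit 397) (nat_lit 329)) (XT.nd (nat_lit 78) (nat_lit 76) (nat_lit 0) (XT.lf (nat_lit 0) (nat_lit 86133987739) (nat_lit 152) (nat_lit 30100987438) (nat_lit 0) (nat_lit 76505032452) (nat_lit 11) (nat_lit 5) (nat_lit 13) (nat_lit 4) (nat_lit 11) (nat_lit 4) (nat_lit 475) (nat_lit 397) (nat_lit 328)) (XT.lf (nat_lit 0) (nat_lit 49087703714) (nat_lit 76) (nat_lit 83347310695) (nat_lit 76) (nat_lit 73714814153) (nat_lit 10) (nat_lit 4) (nat_lit 11) (nat_lit 5) (nat_lit 11) (nat_lit 4) (nat_lit 476) (nat_lit 397) (nat_lit 327)))) (XT.nd (nat_lit 156) (nat_lit 76) (nat_lit 0) (XT.nd (nat_lit 78) (nat_lit 76) (nat_lit 0) (XT.lf (nat_lit 0) (nat_lit 135628668791) (nat_lit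 76) (nat_lit 47307373021) (nat_lit 76) (nat_lit 37671597540) (nat_lit 10) (nat_lit 4) (nat_lit 11) (nat_lit 5) (nat_lit 11) (nat_lit 4) (nat_lit 477) (nat_lit 397) (nat_lit 326)) (XT.lf (nat_lit 0) (nat_lit 1188158702) (nat_lit 152) (nat_lit 7203086197) (nat_lit 76) (nat_lit 227831187810) (nat_lit 9) (nat_lit 5) (nat_lit 11) (nat_lit 5) (nat_lit 10) (nat_lit 4) (nat_lit 478) (nat_lit 397) (nat_lit 325))) (XT.nd (nat_lit 78) (nat_lit 0) (nat_lit 0) (XT.lf (nat_lit 0) (nat_lit 43612639922) (nat_lit 152) (nat_lit 174923960541) (nat_lit 0) (nat_lit 34430142113) (nat_lit 8) (nat_lit 5) (nat_lit 10) (nat_lit 4) (nat_lit 8) (nat_lit 4) (nat_lit 479) (nat_lit 397) (nat_lit 324)) (XT.lf (nat_lit 0) (nat_lit 89676037090) (nat_lit 152) (nat_lit 100871252051) (nat_lit 0) (nat_lit 80491060303) (nat_lit 8) (nat_lit 5) (nat_lit 10) (nat_lit 4) (nat_lit 8) (nat_lit 4) (nat_lit 480) (nat_lit 397) (nat_lit 323)))))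 (XT.nd (nat_lit 312) (nat_lit 152) (nat_lit 0) (XT.nd (nat_lit 156) (nat_lit 0) (nat_lit 0) (XT.nd (nat_lit 78) (nat_lit 76) (nat_lit 0) (XT.lf (nat_lit 0) (nat_lit 139402224258) (nat_lit 152) (nat_lit 20939622650) (nat_lit 0) (nat_lit 130214952120) (nat_lit 8) (nat_lit 5) (nat_lit 10) (nat_lit 4) (nat_lit 8) (nat_lit 4) (nat_lit 481) (nat_lit 397) (nat_lit 322)) (XT.lf (nat_lit 0) (nat_lit 67505184043) (nat_lit 76) (nat_lit 126634636189) (nat_lit 76) (nat_lit 117445238726) (nat_lit 7) (nat_lit 4) (nat_lit 8) (nat_lit 5) (nat_lit 8) (nat_lit 4) (nat_lit 482) (nat_lit 397) (nat_lit 321))) (XT.nd (nat_lit 78) (nat_lit 0) (nat_lit 0) (XT.lf (nat_lit 0) (nat_lit 163733204601) (nat_lit 76) (nat_lit 89868244618) (nat_lit 76) (nat_lit 80676879262) (nat_lit 7) (nat_lit 4) (nat_lit 8) (nat_lit 5) (nat_lit 8) (nat_lit 4) (nat_lit 483) (nat_lit 397) (nat_lit 320)) (XT.lf (nat_lit 0) (nat_lit 267622320653)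 (nat_lit 76) (nat_lit 50179419926) (nat_lit 76) (nat_lit 40986232446) (nat_lit 7) (nat_lit 4) (nat_lit 8) (nat_lit 5) (nat_lit 8) (nat_lit 4) (nat_lit 484) (nat_lit 397) (nat_lit 319)))) (XT.nd (nat_lit 156) (nat_lit 0) (nat_lit 0) (XT.nd (nat_lit 78) (nat_lit 76) (nat_lit 0) (XT.lf (nat_lit 0) (nat_lit 1802312949) (nat_lit 152) (nat_lit 5500133084) (nat_lit 76) (nat_lit 377955335414) (nat_lit 6) (nat_lit 5) (nat_lit 8) (nat_lit 5) (nat_lit 7) (nat_lit 4) (nat_lit 485) (nat_lit 397) (nat_lit 318)) (XT.lf (nat_lit 0) (nat_lit 48615982446) (nat_lit 152) (nat_lit 325236225757) (nat_lit 0) (nat_lit 39857471199) (nat_lit 5) (nat_lit 5) (nat_lit 7) (nat_lit 4) (nat_lit 5) (nat_lit 4) (nat_lit 486) (nat_lit 397) (nat_lit 317))) (XT.nd (nat_lit 78) (nat_lit 0) (nat_lit 0) (XT.lf (nat_lit 0) (nat_lit 99379788753) (nat_lit 152) (nat_lit 254427788398) (nat_lit 0) (nat_lit 90619899925) (nat_lit 5) (nat_lit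 5) (nat_lit 7) (nat_lit 4) (nat_lit 5) (nat_lit 4) (nat_lit 487) (nat_lit 397) (nat_lit 316)) (XT.lf (nat_lit 0) (nat_lit 154190376663) (nat_lit 152) (nat_lit 177983825793) (nat_lit 0) (nat_lit 145429212297) (nat_lit 5) (nat_lit 5) (nat_lit 7) (nat_lit 4) (nat_lit 5) (nat_lit 4) (nat_lit 488) (nat_lit 397) (nat_lit 315)))))) (XT.nd (nat_lit 546) (nat_lit 152) (nat_lit 0) (XT.nd (nat_lit 234) (nat_lit 0) (nat_lit 0) (XT.nd (nat_lit 78) (nat_lit 76) (nat_lit 0) (XT.lf (nat_lit 0) (nat_lit 213372549659) (nat_lit 152) (nat_lit 95451336681) (nat_lit 0) (nat_lit 204610204239) (nat_lit 5) (nat_lit 5) (nat_lit 7) (nat_lit 4) (nat_lit 5) (nat_lit 4) (nat_lit 489) (nat_lit 397) (nat_lit 314)) (XT.nd (nat_lit 78) (nat_lit 76) (nat_lit 0) (XT.lf (nat_lit 0) (nat_lit 277277016916) (nat_lit 152) (nat_lit 6341239645) (nat_lit 0) (nat_lit 268513577927) (nat_lit 5) (nat_lit 5) (nat_lit 7) (nat_lit 4) (nat_lit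 5) (nat_lit 4) (nat_lit 490) (nat_lit 397) (nat_lit 313)) (XT.lf (nat_lit 0) (nat_lit 92846182833) (nat_lit 76) (nat_lit 254885877853) (nat_lit 76) (nat_lit 246121426301) (nat_lit 4) (nat_lit 4) (nat_lit 5) (nat_lit 5) (nat_lit 5) (nat_lit 4) (nat_lit 491) (nat_lit 397) (nat_lit 312)))) (XT.nd (nat_lit 156) (nat_lit 0) (nat_lit 0) (XT.nd (nat_lit 78) (nat_lit 0) (nat_lit 0) (XT.lf (nat_lit 0) (nat_lit 200172908365) (nat_lit 76) (nat_lit 223750186557) (nat_lit 76) (nat_lit 214984797446) (nat_lit 4) (nat_lit 4) (nat_lit 5) (nat_lit 5) (nat_lit 5) (nat_lit 4) (nat_lit 492) (nat_lit 397) (nat_lit 311)) (XT.lf (nat_lit 0) (nat_lit 316065277154) (nat_lit 76) (nat_lit 190134066836) (nat_lit 76) (nat_lit 181367809616) (nat_lit 4) (nat_lit 4) (nat_lit 5) (nat_lit 5) (nat_lit 5) (nat_lit 4) (nat_lit 493) (nat_lit 397) (nat_lit 310))) (XT.nd (nat_lit 78) (nat_lit 0) (nat_lit 0) (XT.lf (nat_lit 0) (nat_lit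 441210058792) (nat_lit 76) (nat_lit 153838312055) (nat_lit 76) (nat_lit 145071251029) (nat_lit 4) (nat_lit 4) (nat_lit 5) (nat_lit 5) (nat_lit 5) (nat_lit 4) (nat_lit 494) (nat_lit 397) (nat_lit 309)) (XT.lf (nat_lit 0) (nat_lit 576348851985) (nat_lit 76) (nat_lit 114647836258) (nat_lit 76) (nat_lit 105880030968) (nat_lit 4) (nat_lit 4) (nat_lit 5) (nat_lit 5) (nat_lit 5) (nat_lit 4) (nat_lit 495) (nat_lit 397) (nat_lit 308))))) (XT.nd (nat_lit 312) (nat_lit 0) (nat_lit 0) (XT.nd (nat_lit 156) (nat_lit 152) (nat_lit 0) (XT.nd (nat_lit 78) (nat_lit 0) (nat_lit 0) (XT.lf (nat_lit 0) (nat_lit 722282479213) (nat_lit 76) (nat_lit 72330399590) (nat_lit 76) (nat_lit 63561905166) (nat_lit 4) (nat_lit 4) (nat_lit 5) (nat_lit 5) (nat_lit 5) (nat_lit 4) (nat_lit 496) (nat_lit 397) (nat_lit 307)) (XT.lf (nat_lit 0) (nat_lit 879875732339) (nat_lit 76) (nat_lit 26635232056) (nat_lit 76) (nat_lit 17866099545)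 (nat_lit 4) (nat_lit 4) (nat_lit 5) (nat_lit 5) (nat_lit 5) (nat_lit 4) (nat_lit 497) (nat_lit 397) (nat_lit 306))) (XT.nd (nat_lit 78) (nat_lit 0) (nat_lit 0) (XT.lf (nat_lit 0) (nat_lit 31713525610) (nat_lit 152) (nat_lit 940714219644) (nat_lit 0) (nat_lit 23361408151) (nat_lit 2) (nat_lit 5) (nat_lit 4) (nat_lit 4) (nat_lit 2) (nat_lit 4) (nat_lit 498) (nat_lit 397) (nat_lit 305)) (XT.lf (nat_lit 0) (nat_lit 85872190943) (nat_lit 152) (nat_lit 909445891716) (nat_lit 0) (nat_lit 77519552478) (nat_lit 2) (nat_lit 5) (nat_lit 4) (nat_lit 4) (nat_lit 2) (nat_lit 4) (nat_lit 499) (nat_lit 397) (nat_lit 304)))) (XT.nd (nat_lit 156) (nat_lit 0) (nat_lit 0) (XT.nd (nat_lit 78) (nat_lit 0) (nat_lit 0) (XT.lf (nat_lit 0) (nat_lit 144357282811) (nat_lit 152) (nat_lit 875688864015) (nat_lit 0) (nat_lit 136004161933) (nat_lit 2) (nat_lit 5) (nat_lit 4) (nat_lit 4) (nat_lit 2) (nat_lit 4) (nat_lit 500)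 (nat_lit 397) (nat_lit 303)) (XT.lf (nat_lit 0) (nat_lit 207515379536) (nat_lit 152) (nat_lit 839243094895) (nat_lit 0) (nat_lit 199161811978) (nat_lit 2) (nat_lit 5) (nat_lit 4) (nat_lit 4) (nat_lit 2) (nat_lit 4) (nat_lit 501) (nat_lit 397) (nat_lit 302))) (XT.nd (nat_lit 78) (nat_lit 0) (nat_lit 0) (XT.lf (nat_lit 0) (nat_lit 275720751320) (nat_lit 152) (nat_lit 799892609429) (nat_lit 0) (nat_lit 267366770171) (nat_lit 2) (nat_lit 5) (nat_lit 4) (nat_lit 4) (nat_lit 2) (nat_lit 4) (nat_lit 502) (nat_lit 397) (nat_lit 301)) (XT.lf (nat_lit 0) (nat_lit 349377578145) (nat_lit 152) (nat_lit 757404219553) (nat_lit 0) (nat_lit 341023214041) (nat_lit 2) (nat_lit 5) (nat_lit 4) (nat_lit 4) (nat_lit 2) (nat_lit 4) (nat_lit 503) (nat_lit 397) (nat_lit 300))))))))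
noncomputable def xc42 : XT := (XT.nd (nat_lit 2262) (nat_lit 3268) (nat_lit 0) (XT.nd (nat_lit 1092) (nat_lit 3420) (nat_lit 0) (XT.nd (nat_lit 546) (nat_lit 3496) (nat_lit 0) (XT.nd (nat_lit 234) (nat_lit 2432) (nat_lit 0) (XT.nd (nat_lit 78) (nat_lit 836) (nat_lit 0) (XT.lf (nat_lit 0) (nat_lit 1621161098) (nat_lit 228) (nat_lit 828390614) (nat_lit 228) (nat_lit 828390614) (nat_lit 199) (nat_lit 4) (nat_lit 202) (nat_lit 5) (nat_lit 202) (nat_lit 4) (nat_lit 404) (nat_lit 398) (nat_lit 398)) (XT.nd (nat_lit 78) (nat_lit 456) (nat_lit 0) (XT.lf (nat_lit 0) (nat_lit 3111195632) (nat_lit 304) (nat_lit 295813588) (nat_lit 380) (nat_lit 3216252731) (nat_lit 194) (nat_lit 5) (nat_lit 198) (nat_lit 5) (nat_lit 199) (nat_lit 4) (nat_lit 405) (nat_lit 398) (nat_lit 397)) (XT.lf (nat_lit 0) (nat_lit 1728429011) (nat_lit 456) (nat_lit 3560953688) (nat_lit 76) (nat_lit 1420080268) (nat_lit 188) (nat_lit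 5) (nat_lit 194) (nat_lit 5) (nat_lit 189) (nat_lit 4) (nat_lit 406) (nat_lit 398) (nat_lit 396)))) (XT.nd (nat_lit 156) (nat_lit 1368) (nat_lit 0) (XT.nd (nat_lit 78) (nat_lit 608) (nat_lit 0) (XT.lf (nat_lit 0) (nat_lit 3364518650) (nat_lit 456) (nat_lit 3284870991) (nat_lit 532) (nat_lit 165965680) (nat_lit 182) (nat_lit 5) (nat_lit 188) (nat_lit 5) (nat_lit 189) (nat_lit 4) (nat_lit 407) (nat_lit 398) (nat_lit 395)) (XT.lf (nat_lit 0) (nat_lit 3735386519) (nat_lit 532) (nat_lit 851121169) (nat_lit 608) (nat_lit 2353703874) (nat_lit 174) (nat_lit 5) (nat_lit 181) (nat_lit 5) (nat_lit 182) (nat_lit 5) (nat_lit 408) (nat_lit 398) (nat_lit 394))) (XT.nd (nat_lit 78) (nat_lit 684) (nat_lit 0) (XT.lf (nat_lit 0) (nat_lit 2324005179) (nat_lit 684) (nat_lit 2823975181) (nat_lit 76) (nat_lit 1936458254) (nat_lit 165) (nat_lit 5) (nat_lit 174) (nat_lit 5) (nat_lit 166) (nat_lit 5) (nat_lit 409) (nat_lit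 398) (nat_lit 393)) (XT.lf (nat_lit 0) (nat_lit 4952856790) (nat_lit 684) (nat_lit 2124941539) (nat_lit 760) (nat_lit 171332360) (nat_lit 156) (nat_lit 5) (nat_lit 165) (nat_lit 5) (nat_lit 166) (nat_lit 5) (nat_lit 410) (nat_lit 398) (nat_lit 392))))) (XT.nd (nat_lit 234) (nat_lit 1824) (nat_lit 0) (XT.nd (nat_lit 78) (nat_lit 836) (nat_lit 0) (XT.lf (nat_lit 0) (nat_lit 4444441837) (nat_lit 836) (nat_lit 1664223844) (nat_lit 76) (nat_lit 1324026613) (nat_lit 145) (nat_lit 5) (nat_lit 156) (nat_lit 5) (nat_lit 146) (nat_lit 5) (nat_lit 411) (nat_lit 398) (nat_lit 391)) (XT.nd (nat_lit 78) (nat_lit 380) (nat_lit 0) (XT.lf (nat_lit 0) (nat_lit 1586496158) (nat_lit 456) (nat_lit 903746034) (nat_lit 76) (nat_lit 5146653424) (nat_lit 139) (nat_lit 5) (nat_lit 145) (nat_lit 5) (nat_lit 140) (nat_lit 5) (nat_lit 412) (nat_lit 398) (nat_lit 390)) (XT.lf (nat_lit 0) (nat_lit 6286698497) (nat_lit 456)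 (nat_lit 25252755) (nat_lit 76) (nat_lit 1549878358) (nat_lit 134) (nat_lit 5) (nat_lit 140) (nat_lit 5) (nat_lit 135) (nat_lit 5) (nat_lit 413) (nat_lit 398) (nat_lit 389)))) (XT.nd (nat_lit 156) (nat_lit 760) (nat_lit 0) (XT.nd (nat_lit 78) (nat_lit 304) (nat_lit 0) (XT.lf (nat_lit 0) (nat_lit 983177422) (nat_lit 304) (nat_lit 2087851849) (nat_lit 380) (nat_lit 5035374107) (nat_lit 124) (nat_lit 5) (nat_lit 128) (nat_lit 5) (nat_lit 129) (nat_lit 5) (nat_lit 414) (nat_lit 398) (nat_lit 388)) (XT.lf (nat_lit 0) (nat_lit 2119926359) (nat_lit 304) (nat_lit 5835406944) (nat_lit 380) (nat_lit 417879553) (nat_lit 120) (nat_lit 5) (nat_lit 124) (nat_lit 5) (nat_lit 125) (nat_lit 5) (nat_lit 415) (nat_lit 398) (nat_lit 387))) (XT.nd (nat_lit 78) (nat_lit 380) (nat_lit 0) (XT.lf (nat_lit 0) (nat_lit 3344199993) (nat_lit 304) (nat_lit 1012767086) (nat_lit 380) (nat_lit 4304161425) (nat_lit 115) (nat_lit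 5) (nat_lit 119) (nat_lit 5) (nat_lit 120) (nat_lit 5) (nat_lit 416) (nat_lit 398) (nat_lit 386)) (XT.lf (nat_lit 0) (nat_lit 494722966) (nat_lit 380) (nat_lit 4291182418) (nat_lit 76) (nat_lit 4186242071) (nat_lit 110) (nat_lit 5) (nat_lit 115) (nat_lit 5) (nat_lit 111) (nat_lit 5) (nat_lit 417) (nat_lit 398) (nat_lit 385)))))) (XT.nd (nat_lit 546) (nat_lit 1520) (nat_lit 0) (XT.nd (nat_lit 234) (nat_lit 1140) (nat_lit 0) (XT.nd (nat_lit 78) (nat_lit 532) (nat_lit 0) (XT.lf (nat_lit 0) (nat_lit 5490686725) (nat_lit 304) (nat_lit 3192622980) (nat_lit 76) (nat_lit 623042679) (nat_lit 107) (nat_lit 5) (nat_lit 111) (nat_lit 5) (nat_lit 108) (nat_lit 5) (nat_lit 418) (nat_lit 398) (nat_lit 384)) (XT.nd (nat_lit 78) (nat_lit 228) (nat_lit 0) (XT.lf (nat_lit 0) (nat_lit 1214246433) (nat_lit 304) (nat_lit 2022547930) (nat_lit 76) (nat_lit 6427863359) (nat_lit 103) (nat_lit 5) (nat_lit 107) (nat_lit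 5) (nat_lit 104) (nat_lit 5) (nat_lit 419) (nat_lit 398) (nat_lit 383)) (XT.lf (nat_lit 0) (nat_lit 6527060540) (nat_lit 304) (nat_lit 786976558) (nat_lit 76) (nat_lit 2733778321) (nat_lit 100) (nat_lit 5) (nat_lit 104) (nat_lit 5) (nat_lit 101) (nat_lit 5) (nat_lit 420) (nat_lit 398) (nat_lit 382)))) (XT.nd (nat_lit 156) (nat_lit 456) (nat_lit 0) (XT.nd (nat_lit 78) (nat_lit 228) (nat_lit 0) (XT.lf (nat_lit 0) (nat_lit 557125484) (nat_lit 152) (nat_lit 1237565232) (nat_lit 228) (nat_lit 8663092805) (nat_lit 94) (nat_lit 5) (nat_lit 96) (nat_lit 5) (nat_lit 97) (nat_lit 5) (nat_lit 421) (nat_lit 398) (nat_lit 381)) (XT.lf (nat_lit 0) (nat_lit 1961352123) (nat_lit 228) (nat_lit 5550923494) (nat_lit 304) (nat_lit 3380395393) (nat_lit 91) (nat_lit 5) (nat_lit 94) (nat_lit 5) (nat_lit 95) (nat_lit 5) (nat_lit 422) (nat_lit 398) (nat_lit 380))) (XT.nd (nat_lit 78) (nat_lit 228) (nat_lit 0) (XT.lf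 (nat_lit 0) (nat_lit 2306143898) (nat_lit 228) (nat_lit 7887867623) (nat_lit 76) (nat_lit 1163759223) (nat_lit 88) (nat_lit 5) (nat_lit 91) (nat_lit 5) (nat_lit 89) (nat_lit 5) (nat_lit 423) (nat_lit 398) (nat_lit 379)) (XT.lf (nat_lit 0) (nat_lit 5008982865) (nat_lit 228) (nat_lit 3446952885) (nat_lit 304) (nat_lit 3395050524) (nat_lit 85) (nat_lit 5) (nat_lit 88) (nat_lit 5) (nat_lit 89) (nat_lit 5) (nat_lit 424) (nat_lit 398) (nat_lit 378))))) (XT.nd (nat_lit 312) (nat_lit 760) (nat_lit 0) (XT.nd (nat_lit 156) (nat_lit 380) (nat_lit 0) (XT.nd (nat_lit 78) (nat_lit 152) (nat_lit 0) (XT.lf (nat_lit 0) (nat_lit 2736360038) (nat_lit 228) (nat_lit 5750291107) (nat_lit 76) (nat_lit 3889445219) (nat_lit 82) (nat_lit 5) (nat_lit 85) (nat_lit 5) (nat_lit 83) (nat_lit 5) (nat_lit 425) (nat_lit 398) (nat_lit 377)) (XT.lf (nat_lit 0) (nat_lit 8312878079) (nat_lit 152) (nat_lit 1047415788) (nat_lit 228)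 (nat_lit 3574104408) (nat_lit 80) (nat_lit 5) (nat_lit 82) (nat_lit 5) (nat_lit 83) (nat_lit 5) (nat_lit 426) (nat_lit 398) (nat_lit 376))) (XT.nd (nat_lit 78) (nat_lit 152) (nat_lit 0) (XT.lf (nat_lit 0) (nat_lit 3070595365) (nat_lit 228) (nat_lit 3499150682) (nat_lit 76) (nat_lit 6955851905) (nat_lit 77) (nat_lit 5) (nat_lit 80) (nat_lit 5) (nat_lit 78) (nat_lit 5) (nat_lit 427) (nat_lit 398) (nat_lit 375)) (XT.lf (nat_lit 0) (nat_lit 10256989659) (nat_lit 228) (nat_lit 2329627386) (nat_lit 76) (nat_lit 1567791232) (nat_lit 75) (nat_lit 5) (nat_lit 78) (nat_lit 5) (nat_lit 76) (nat_lit 4) (nat_lit 428) (nat_lit 398) (nat_lit 374)))) (XT.nd (nat_lit 156) (nat_lit 380) (nat_lit 0) (XT.nd (nat_lit 78) (nat_lit 152) (nat_lit 0) (XT.lf (nat_lit 0) (nat_lit 3303618070) (nat_lit 228) (nat_lit 1173509224) (nat_lit 76) (nat_lit 10342880881) (nat_lit 72) (nat_lit 5) (nat_lit 75) (nat_lit 5) (nat_lit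 73) (nat_lit 5) (nat_lit 429) (nat_lit 398) (nat_lit 373)) (XT.lf (nat_lit 0) (nat_lit 11137479711) (nat_lit 228) (nat_lit 6547016) (nat_lit 76) (nat_lit 4381979411) (nat_lit 70) (nat_lit 5) (nat_lit 73) (nat_lit 5) (nat_lit 71) (nat_lit 4) (nat_lit 430) (nat_lit 398) (nat_lit 372))) (XT.nd (nat_lit 78) (nat_lit 76) (nat_lit 0) (XT.lf (nat_lit 0) (nat_lit 1212931650) (nat_lit 152) (nat_lit 2224824935) (nat_lit 228) (nat_lit 12836445953) (nat_lit 66) (nat_lit 5) (nat_lit 68) (nat_lit 5) (nat_lit 69) (nat_lit 5) (nat_lit 431) (nat_lit 398) (nat_lit 371)) (XT.lf (nat_lit 0) (nat_lit 2378776041) (nat_lit 76) (nat_lit 9628411647) (nat_lit 152) (nat_lit 5057937344) (nat_lit 65) (nat_lit 5) (nat_lit 66) (nat_lit 5) (nat_lit 67) (nat_lit 4) (nat_lit 432) (nat_lit 398) (nat_lit 370))))))) (XT.nd (nat_lit 1170) (nat_lit 1368) (nat_lit 0) (XT.nd (nat_lit 546) (nat_lit 836) (nat_lit 0) (XT.nd (nat_lit 234)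 (nat_lit 532) (nat_lit 0) (XT.nd (nat_lit 78) (nat_lit 304) (nat_lit 0) (XT.lf (nat_lit 0) (nat_lit 3444105633) (nat_lit 228) (nat_lit 14322357960) (nat_lit 76) (nat_lit 139842436) (nat_lit 62) (nat_lit 5) (nat_lit 65) (nat_lit 5) (nat_lit 63) (nat_lit 4) (nat_lit 433) (nat_lit 398) (nat_lit 369)) (XT.nd (nat_lit 78) (nat_lit 228) (nat_lit 0) (XT.lf (nat_lit 0) (nat_lit 4662305980) (nat_lit 76) (nat_lit 8135506979) (nat_lit 152) (nat_lit 5995393448) (nat_lit 61) (nat_lit 5) (nat_lit 62) (nat_lit 5) (nat_lit 63) (nat_lit 4) (nat_lit 434) (nat_lit 398) (nat_lit 368)) (XT.lf (nat_lit 0) (nat_lit 3287886402) (nat_lit 228) (nat_lit 13973680771) (nat_lit 76) (nat_lit 2475043538) (nat_lit 58) (nat_lit 5) (nat_lit 61) (nat_lit 5) (nat_lit 59) (nat_lit 4) (nat_lit 435) (nat_lit 398) (nat_lit 367)))) (XT.nd (nat_lit 156) (nat_lit 228) (nat_lit 0) (XT.nd (nat_lit 78) (nat_lit 228) (nat_lit 0) (XT.lf (nat_lit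 0) (nat_lit 6722782592) (nat_lit 76) (nat_lit 6736790117) (nat_lit 152) (nat_lit 7273215679) (nat_lit 57) (nat_lit 5) (nat_lit 58) (nat_lit 5) (nat_lit 59) (nat_lit 4) (nat_lit 436) (nat_lit 398) (nat_lit 366)) (XT.lf (nat_lit 0) (nat_lit 2862063604) (nat_lit 228) (nat_lit 14145452455) (nat_lit 76) (nat_lit 4783585109) (nat_lit 54) (nat_lit 5) (nat_lit 57) (nat_lit 5) (nat_lit 55) (nat_lit 4) (nat_lit 437) (nat_lit 398) (nat_lit 365))) (XT.nd (nat_lit 78) (nat_lit 152) (nat_lit 0) (XT.lf (nat_lit 0) (nat_lit 8393949441) (nat_lit 76) (nat_lit 5524877304) (nat_lit 152) (nat_lit 8991020644) (nat_lit 53) (nat_lit 5) (nat_lit 54) (nat_lit 5) (nat_lit 55) (nat_lit 4) (nat_lit 438) (nat_lit 398) (nat_lit 364)) (XT.lf (nat_lit 0) (nat_lit 2065509779) (nat_lit 152) (nat_lit 15058279519) (nat_lit 76) (nat_lit 6973986261) (nat_lit 51) (nat_lit 5) (nat_lit 53) (nat_lit 5) (nat_lit 52) (nat_lit 4) (nat_lit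 439) (nat_lit 398) (nat_lit 363))))) (XT.nd (nat_lit 312) (nat_lit 456) (nat_lit 0) (XT.nd (nat_lit 156) (nat_lit 152) (nat_lit 0) (XT.nd (nat_lit 78) (nat_lit 152) (nat_lit 0) (XT.lf (nat_lit 0) (nat_lit 9449071772) (nat_lit 76) (nat_lit 4621812582) (nat_lit 152) (nat_lit 11283521084) (nat_lit 50) (nat_lit 5) (nat_lit 51) (nat_lit 5) (nat_lit 52) (nat_lit 4) (nat_lit 440) (nat_lit 398) (nat_lit 362)) (XT.lf (nat_lit 0) (nat_lit 759861448) (nat_lit 152) (nat_lit 17006311398) (nat_lit 76) (nat_lit 8922884759) (nat_lit 48) (nat_lit 5) (nat_lit 50) (nat_lit 5) (nat_lit 49) (nat_lit 4) (nat_lit 441) (nat_lit 398) (nat_lit 361))) (XT.nd (nat_lit 78) (nat_lit 76) (nat_lit 0) (XT.lf (nat_lit 0) (nat_lit 9581196383) (nat_lit 76) (nat_lit 4189471365) (nat_lit 152) (nat_lit 14330604471) (nat_lit 47) (nat_lit 5) (nat_lit 48) (nat_lit 5) (nat_lit 49) (nat_lit 4) (nat_lit 442) (nat_lit 398) (nat_lit 360))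 (XT.lf (nat_lit 0) (nat_lit 9201266179) (nat_lit 76) (nat_lit 19117823117) (nat_lit 76) (nat_lit 1282539666) (nat_lit 46) (nat_lit 4) (nat_lit 47) (nat_lit 5) (nat_lit 47) (nat_lit 4) (nat_lit 443) (nat_lit 398) (nat_lit 359)))) (XT.nd (nat_lit 156) (nat_lit 228) (nat_lit 0) (XT.nd (nat_lit 78) (nat_lit 76) (nat_lit 0) (XT.lf (nat_lit 0) (nat_lit 8377607751) (nat_lit 76) (nat_lit 4442882525) (nat_lit 152) (nat_lit 18370471674) (nat_lit 44) (nat_lit 5) (nat_lit 45) (nat_lit 5) (nat_lit 46) (nat_lit 4) (nat_lit 444) (nat_lit 398) (nat_lit 358)) (XT.lf (nat_lit 0) (nat_lit 7113906678) (nat_lit 76) (nat_lit 21438968643) (nat_lit 76) (nat_lit 4326214703) (nat_lit 43) (nat_lit 4) (nat_lit 44) (nat_lit 5) (nat_lit 44) (nat_lit 4) (nat_lit 445) (nat_lit 398) (nat_lit 357))) (XT.nd (nat_lit 78) (nat_lit 76) (nat_lit 0) (XT.lf (nat_lit 0) (nat_lit 5286771653) (nat_lit 76) (nat_lit 5667354187) (nat_lit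 152) (nat_lit 23716703861) (nat_lit 41) (nat_lit 5) (nat_lit 42) (nat_lit 5) (nat_lit 43) (nat_lit 4) (nat_lit 446) (nat_lit 398) (nat_lit 356)) (XT.lf (nat_lit 0) (nat_lit 2797157008) (nat_lit 76) (nat_lit 25088773420) (nat_lit 76) (nat_lit 8687403397) (nat_lit 40) (nat_lit 4) (nat_lit 41) (nat_lit 5) (nat_lit 41) (nat_lit 4) (nat_lit 447) (nat_lit 398) (nat_lit 355)))))) (XT.nd (nat_lit 546) (nat_lit 684) (nat_lit 0) (XT.nd (nat_lit 234) (nat_lit 380) (nat_lit 0) (XT.nd (nat_lit 78) (nat_lit 228) (nat_lit 0) (XT.lf (nat_lit 0) (nat_lit 7822731960) (nat_lit 152) (nat_lit 410847285) (nat_lit 76) (nat_lit 30362573481) (nat_lit 39) (nat_lit 5) (nat_lit 41) (nat_lit 5) (nat_lit 40) (nat_lit 4) (nat_lit 448) (nat_lit 398) (nat_lit 354)) (XT.nd (nat_lit 78) (nat_lit 152) (nat_lit 0) (XT.lf (nat_lit 0) (nat_lit 26000077375) (nat_lit 152) (nat_lit 4445853721) (nat_lit 0) (nat_lit 10295208406) (nat_lit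 38) (nat_lit 5) (nat_lit 40) (nat_lit 4) (nat_lit 38) (nat_lit 4) (nat_lit 449) (nat_lit 398) (nat_lit 353)) (XT.lf (nat_lit 0) (nat_lit 3086717902) (nat_lit 152) (nat_lit 9414720382) (nat_lit 76) (nat_lit 30524518202) (nat_lit 36) (nat_lit 5) (nat_lit 38) (nat_lit 5) (nat_lit 37) (nat_lit 4) (nat_lit 450) (nat_lit 398) (nat_lit 352)))) (XT.nd (nat_lit 156) (nat_lit 228) (nat_lit 0) (XT.nd (nat_lit 78) (nat_lit 76) (nat_lit 0) (XT.lf (nat_lit 0) (nat_lit 22412634890) (nat_lit 152) (nat_lit 15652815799) (nat_lit 0) (nat_lit 7386607935) (nat_lit 35) (nat_lit 5) (nat_lit 37) (nat_lit 4) (nat_lit 35) (nat_lit 4) (nat_lit 451) (nat_lit 398) (nat_lit 351)) (XT.lf (nat_lit 0) (nat_lit 24842978954) (nat_lit 76) (nat_lit 19125902461) (nat_lit 76) (nat_lit 4069155738) (nat_lit 34) (nat_lit 4) (nat_lit 35) (nat_lit 5) (nat_lit 35) (nat_lit 4) (nat_lit 452) (nat_lit 398) (nat_lit 350))) (XT.nd (nat_lit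 78) (nat_lit 76) (nat_lit 0) (XT.lf (nat_lit 0) (nat_lit 16413356058) (nat_lit 152) (nat_lit 32332207940) (nat_lit 0) (nat_lit 2046507531) (nat_lit 32) (nat_lit 5) (nat_lit 34) (nat_lit 4) (nat_lit 32) (nat_lit 4) (nat_lit 453) (nat_lit 398) (nat_lit 349)) (XT.lf (nat_lit 0) (nat_lit 10308929705) (nat_lit 76) (nat_lit 28902558451) (nat_lit 76) (nat_lit 14510626829) (nat_lit 31) (nat_lit 4) (nat_lit 32) (nat_lit 5) (nat_lit 32) (nat_lit 4) (nat_lit 454) (nat_lit 398) (nat_lit 348))))) (XT.nd (nat_lit 312) (nat_lit 304) (nat_lit 0) (XT.nd (nat_lit 156) (nat_lit 228) (nat_lit 0) (XT.nd (nat_lit 78) (nat_lit 0) (nat_lit 0) (XT.lf (nat_lit 0) (nat_lit 404426394) (nat_lit 76) (nat_lit 6824638534) (nat_lit 152) (nat_lit 49626849668) (nat_lit 29) (nat_lit 5) (nat_lit 30) (nat_lit 5) (nat_lit 31) (nat_lit 4) (nat_lit 455) (nat_lit 398) (nat_lit 347)) (XT.lf (nat_lit 0) (nat_lit 31168620389) (nat_lit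 152) (nat_lit 11592031981) (nat_lit 0) (nat_lit 17419419034) (nat_lit 29) (nat_lit 5) (nat_lit 31) (nat_lit 4) (nat_lit 29) (nat_lit 4) (nat_lit 456) (nat_lit 398) (nat_lit 346))) (XT.nd (nat_lit 78) (nat_lit 152) (nat_lit 0) (XT.lf (nat_lit 0) (nat_lit 37817856981) (nat_lit 76) (nat_lit 19844265132) (nat_lit 76) (nat_lit 6076100187) (nat_lit 28) (nat_lit 4) (nat_lit 29) (nat_lit 5) (nat_lit 29) (nat_lit 4) (nat_lit 457) (nat_lit 398) (nat_lit 345)) (XT.lf (nat_lit 0) (nat_lit 18706730093) (nat_lit 152) (nat_lit 43251684147) (nat_lit 0) (nat_lit 5577469307) (nat_lit 26) (nat_lit 5) (nat_lit 28) (nat_lit 4) (nat_lit 26) (nat_lit 4) (nat_lit 458) (nat_lit 398) (nat_lit 344)))) (XT.nd (nat_lit 156) (nat_lit 152) (nat_lit 0) (XT.nd (nat_lit 78) (nat_lit 76) (nat_lit 0) (XT.lf (nat_lit 0) (nat_lit 7484574259) (nat_lit 76) (nat_lit 38625017136) (nat_lit 76) (nat_lit 25480272330) (nat_lit 25) (nat_lit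 4) (nat_lit 26) (nat_lit 5) (nat_lit 26) (nat_lit 4) (nat_lit 459) (nat_lit 398) (nat_lit 343)) (XT.lf (nat_lit 0) (nat_lit 449558952) (nat_lit 152) (nat_lit 12237486010) (nat_lit 76) (nat_lit 63246093163) (nat_lit 24) (nat_lit 5) (nat_lit 26) (nat_lit 5) (nat_lit 25) (nat_lit 4) (nat_lit 460) (nat_lit 398) (nat_lit 342))) (XT.nd (nat_lit 78) (nat_lit 76) (nat_lit 0) (XT.lf (nat_lit 0) (nat_lit 28470597348) (nat_lit 152) (nat_lit 36161420300) (nat_lit 0) (nat_lit 15925495523) (nat_lit 23) (nat_lit 5) (nat_lit 25) (nat_lit 4) (nat_lit 23) (nat_lit 4) (nat_lit 461) (nat_lit 398) (nat_lit 341)) (XT.lf (nat_lit 0) (nat_lit 20793489286) (nat_lit 76) (nat_lit 38640072693) (nat_lit 76) (nat_lit 26083264473) (nat_lit 22) (nat_lit 4) (nat_lit 23) (nat_lit 5) (nat_lit 23) (nat_lit 4) (nat_lit 462) (nat_lit 398) (nat_lit 340))))))))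
noncomputable def xc43 : XT := (XT.nd (nat_lit 2340) (nat_lit 152) (nat_lit 0) (XT.nd (nat_lit 1170) (nat_lit 456) (nat_lit 0) (XT.nd (nat_lit 546) (nat_lit 456) (nat_lit 0) (XT.nd (nat_lit 234) (nat_lit 228) (nat_lit 0) (XT.nd (nat_lit 78) (nat_lit 152) (nat_lit 0) (XT.lf (nat_lit 0) (nat_lit 2523444592) (nat_lit 152) (nat_lit 7394586059) (nat_lit 76) (nat_lit 80923952690) (nat_lit 21) (nat_lit 5) (nat_lit 23) (nat_lit 5) (nat_lit 22) (nat_lit 4) (nat_lit 463) (nat_lit 398) (nat_lit 339)) (XT.nd (nat_lit 78) (nat_lit 76) (nat_lit 0) (XT.lf (nat_lit 0) (nat_lit 33688415408) (nat_lit 152) (nat_lit 41114511281) (nat_lit 0) (nat_lit 21709668910) (nat_lit 20) (nat_lit 5) (nat_lit 22) (nat_lit 4) (nat_lit 20) (nat_lit 4) (nat_lit 464) (nat_lit 398) (nat_lit 338)) (XT.lf (nat_lit 0) (nat_lit 21261940847) (nat_lit 76) (nat_lit 46666705039) (nat_lit 76) (nat_lit 34679108148) (nat_lit 19) (nat_lit 4)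 (nat_lit 20) (nat_lit 5) (nat_lit 20) (nat_lit 4) (nat_lit 465) (nat_lit 398) (nat_lit 337)))) (XT.nd (nat_lit 156) (nat_lit 76) (nat_lit 0) (XT.nd (nat_lit 78) (nat_lit 152) (nat_lit 0) (XT.lf (nat_lit 0) (nat_lit 90003875645) (nat_lit 76) (nat_lit 15574464601) (nat_lit 76) (nat_lit 3578672900) (nat_lit 19) (nat_lit 4) (nat_lit 20) (nat_lit 5) (nat_lit 20) (nat_lit 4) (nat_lit 466) (nat_lit 398) (nat_lit 336)) (XT.lf (nat_lit 0) (nat_lit 30072178822) (nat_lit 152) (nat_lit 67443074592) (nat_lit 0) (nat_lit 18640388833) (nat_lit 17) (nat_lit 5) (nat_lit 19) (nat_lit 4) (nat_lit 17) (nat_lit 4) (nat_lit 467) (nat_lit 398) (nat_lit 335))) (XT.nd (nat_lit 78) (nat_lit 76) (nat_lit 0) (XT.lf (nat_lit 0) (nat_lit 66851115451) (nat_lit 152) (nat_lit 1419409017) (nat_lit 0) (nat_lit 55412634292) (nat_lit 17) (nat_lit 5) (nat_lit 19) (nat_lit 4) (nat_lit 17) (nat_lit 4) (nat_lit 468) (nat_lit 398) (nat_lit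 334)) (XT.lf (nat_lit 0) (nat_lit 72115610470) (nat_lit 76) (nat_lit 35543795534) (nat_lit 76) (nat_lit 24099118848) (nat_lit 16) (nat_lit 4) (nat_lit 17) (nat_lit 5) (nat_lit 17) (nat_lit 4) (nat_lit 469) (nat_lit 398) (nat_lit 333))))) (XT.nd (nat_lit 312) (nat_lit 228) (nat_lit 0) (XT.nd (nat_lit 156) (nat_lit 76) (nat_lit 0) (XT.nd (nat_lit 78) (nat_lit 0) (nat_lit 0) (XT.lf (nat_lit 0) (nat_lit 11057126387) (nat_lit 152) (nat_lit 129253797288) (nat_lit 0) (nat_lit 151970876) (nat_lit 14) (nat_lit 5) (nat_lit 16) (nat_lit 4) (nat_lit 14) (nat_lit 4) (nat_lit 470) (nat_lit 398) (nat_lit 332)) (XT.lf (nat_lit 0) (nat_lit 49811435341) (nat_lit 152) (nat_lit 61049710187) (nat_lit 0) (nat_lit 38901221100) (nat_lit 14) (nat_lit 5) (nat_lit 16) (nat_lit 4) (nat_lit 14) (nat_lit 4) (nat_lit 471) (nat_lit 398) (nat_lit 331))) (XT.nd (nat_lit 78) (nat_lit 0) (nat_lit 0) (XT.lf (nat_lit 0) (nat_lit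 12956482817) (nat_lit 76) (nat_lit 78877898717) (nat_lit 76) (nat_lit 67963000467) (nat_lit 13) (nat_lit 4) (nat_lit 14) (nat_lit 5) (nat_lit 14) (nat_lit 4) (nat_lit 472) (nat_lit 398) (nat_lit 330)) (XT.lf (nat_lit 0) (nat_lit 94997322011) (nat_lit 76) (nat_lit 43252782490) (nat_lit 76) (nat_lit 32333547195) (nat_lit 13) (nat_lit 4) (nat_lit 14) (nat_lit 5) (nat_lit 14) (nat_lit 4) (nat_lit 473) (nat_lit 398) (nat_lit 329)))) (XT.nd (nat_lit 156) (nat_lit 76) (nat_lit 0) (XT.nd (nat_lit 78) (nat_lit 0) (nat_lit 0) (XT.lf (nat_lit 0) (nat_lit 1250629188) (nat_lit 76) (nat_lit 4687848990) (nat_lit 152) (nat_lit 176290100166) (nat_lit 11) (nat_lit 5) (nat_lit 12) (nat_lit 5) (nat_lit 13) (nat_lit 4) (nat_lit 474) (nat_lit 398) (nat_lit 328)) (XT.lf (nat_lit 0) (nat_lit 48040212998) (nat_lit 152) (nat_lit 109009769989) (nat_lit 0) (nat_lit 37633575478) (nat_lit 11) (nat_lit 5) (nat_lit 13) (nat_lit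 4) (nat_lit 11) (nat_lit 4) (nat_lit 475) (nat_lit 398) (nat_lit 327))) (XT.nd (nat_lit 78) (nat_lit 76) (nat_lit 0) (XT.lf (nat_lit 0) (nat_lit 93561612255) (nat_lit 152) (nat_lit 31419052772) (nat_lit 0) (nat_lit 83151695796) (nat_lit 11) (nat_lit 5) (nat_lit 13) (nat_lit 4) (nat_lit 11) (nat_lit 4) (nat_lit 476) (nat_lit 398) (nat_lit 326)) (XT.lf (nat_lit 0) (nat_lit 54057363008) (nat_lit 76) (nat_lit 89485865853) (nat_lit 76) (nat_lit 79072913339) (nat_lit 10) (nat_lit 4) (nat_lit 11) (nat_lit 5) (nat_lit 11) (nat_lit 4) (nat_lit 477) (nat_lit 398) (nat_lit 325)))))) (XT.nd (nat_lit 546) (nat_lit 228) (nat_lit 0) (XT.nd (nat_lit 234) (nat_lit 76) (nat_lit 0) (XT.nd (nat_lit 78) (nat_lit 152) (nat_lit 0) (XT.lf (nat_lit 0) (nat_lit 147444372476) (nat_lit 76) (nat_lit 50601935365) (nat_lit 76) (nat_lit 40186171688) (nat_lit 10) (nat_lit 4) (nat_lit 11) (nat_lit 5) (nat_lit 11) (nat_lit 4)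 (nat_lit 478) (nat_lit 398) (nat_lit 324)) (XT.nd (nat_lit 78) (nat_lit 76) (nat_lit 0) (XT.lf (nat_lit 0) (nat_lit 1730598083) (nat_lit 152) (nat_lit 6870640533) (nat_lit 76) (nat_lit 246496617755) (nat_lit 9) (nat_lit 5) (nat_lit 11) (nat_lit 5) (nat_lit 10) (nat_lit 4) (nat_lit 479) (nat_lit 398) (nat_lit 323)) (XT.lf (nat_lit 0) (nat_lit 47536359969) (nat_lit 152) (nat_lit 188034174362) (nat_lit 0) (nat_lit 37611810709) (nat_lit 8) (nat_lit 5) (nat_lit 10) (nat_lit 4) (nat_lit 8) (nat_lit 4) (nat_lit 480) (nat_lit 398) (nat_lit 322)))) (XT.nd (nat_lit 156) (nat_lit 76) (nat_lit 0) (XT.nd (nat_lit 78) (nat_lit 0) (nat_lit 0) (XT.lf (nat_lit 0) (nat_lit 97252628256) (nat_lit 152) (nat_lit 108122708675) (nat_lit 0) (nat_lit 87325953671) (nat_lit 8) (nat_lit 5) (nat_lit 10) (nat_lit 4) (nat_lit 8) (nat_lit 4) (nat_lit 481) (nat_lit 398) (nat_lit 321)) (XT.lf (nat_lit 0) (nat_lit 150927094975)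 (nat_lit 152) (nat_lit 21857159555) (nat_lit 0) (nat_lit 140998452496) (nat_lit 8) (nat_lit 5) (nat_lit 10) (nat_lit 4) (nat_lit 8) (nat_lit 4) (nat_lit 482) (nat_lit 398) (nat_lit 320))) (XT.nd (nat_lit 78) (nat_lit 0) (nat_lit 0) (XT.lf (nat_lit 0) (nat_lit 73630305871) (nat_lit 76) (nat_lit 136397100592) (nat_lit 76) (nat_lit 126466635990) (nat_lit 7) (nat_lit 4) (nat_lit 8) (nat_lit 5) (nat_lit 8) (nat_lit 4) (nat_lit 483) (nat_lit 398) (nat_lit 319)) (XT.lf (nat_lit 0) (nat_lit 177502886066) (nat_lit 76) (nat_lit 96716679659) (nat_lit 76) (nat_lit 86784527905) (nat_lit 7) (nat_lit 4) (nat_lit 8) (nat_lit 5) (nat_lit 8) (nat_lit 4) (nat_lit 484) (nat_lit 398) (nat_lit 318))))) (XT.nd (nat_lit 312) (nat_lit 76) (nat_lit 0) (XT.nd (nat_lit 156) (nat_lit 76) (nat_lit 0) (XT.nd (nat_lit 78) (nat_lit 76) (nat_lit 0) (XT.lf (nat_lit 0) (nat_lit 289653425839) (nat_lit 76) (nat_lit 53878010067)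 (nat_lit 76) (nat_lit 43944296136) (nat_lit 7) (nat_lit 4) (nat_lit 8) (nat_lit 5) (nat_lit 8) (nat_lit 4) (nat_lit 485) (nat_lit 398) (nat_lit 317)) (XT.lf (nat_lit 0) (nat_lit 2234059267) (nat_lit 152) (nat_lit 5355338892) (nat_lit 76) (nat_lit 408474626840) (nat_lit 6) (nat_lit 5) (nat_lit 8) (nat_lit 5) (nat_lit 7) (nat_lit 4) (nat_lit 486) (nat_lit 398) (nat_lit 316))) (XT.nd (nat_lit 78) (nat_lit 0) (nat_lit 0) (XT.lf (nat_lit 0) (nat_lit 52784695348) (nat_lit 152) (nat_lit 350686423563) (nat_lit 0) (nat_lit 43321362295) (nat_lit 5) (nat_lit 5) (nat_lit 7) (nat_lit 4) (nat_lit 5) (nat_lit 4) (nat_lit 487) (nat_lit 398) (nat_lit 315)) (XT.lf (nat_lit 0) (nat_lit 107588907323) (nat_lit 152) (nat_lit 274255437160) (nat_lit 0) (nat_lit 98124393215) (nat_lit 5) (nat_lit 5) (nat_lit 7) (nat_lit 4) (nat_lit 5) (nat_lit 4) (nat_lit 488) (nat_lit 398) (nat_lit 314)))) (XT.nd (nat_lit 156) (nat_lit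 76) (nat_lit 0) (XT.nd (nat_lit 78) (nat_lit 0) (nat_lit 0) (XT.lf (nat_lit 0) (nat_lit 166765176675) (nat_lit 152) (nat_lit 191734963051) (nat_lit 0) (nat_lit 157299568999) (nat_lit 5) (nat_lit 5) (nat_lit 7) (nat_lit 4) (nat_lit 5) (nat_lit 4) (nat_lit 489) (nat_lit 398) (nat_lit 313)) (XT.lf (nat_lit 0) (nat_lit 230664177594) (nat_lit 152) (nat_lit 102635991017) (nat_lit 0) (nat_lit 221197557355) (nat_lit 5) (nat_lit 5) (nat_lit 7) (nat_lit 4) (nat_lit 5) (nat_lit 4) (nat_lit 490) (nat_lit 398) (nat_lit 312))) (XT.nd (nat_lit 78) (nat_lit 76) (nat_lit 0) (XT.lf (nat_lit 0) (nat_lit 299664570827) (nat_lit 152) (nat_lit 6430527152) (nat_lit 0) (nat_lit 290197013028) (nat_lit 5) (nat_lit 5) (nat_lit 7) (nat_lit 4) (nat_lit 5) (nat_lit 4) (nat_lit 491) (nat_lit 398) (nat_lit 311)) (XT.lf (nat_lit 0) (nat_lit 100673722847) (nat_lit 76) (nat_lit 275073323695) (nat_lit 76) (nat_lit 265604897787)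 (nat_lit 4) (nat_lit 4) (nat_lit 5) (nat_lit 5) (nat_lit 5) (nat_lit 4) (nat_lit 492) (nat_lit 398) (nat_lit 310))))))) (XT.nd (nat_lit 55692) (nat_lit 0) (nat_lit 7448) (XT.nd (nat_lit 546) (nat_lit 0) (nat_lit 0) (XT.nd (nat_lit 234) (nat_lit 152) (nat_lit 0) (XT.nd (nat_lit 78) (nat_lit 0) (nat_lit 0) (XT.lf (nat_lit 0) (nat_lit 216556968245) (nat_lit 76) (nat_lit 241461845569) (nat_lit 76) (nat_lit 231992615855) (nat_lit 4) (nat_lit 4) (nat_lit 5) (nat_lit 5) (nat_lit 5) (nat_lit 4) (nat_lit 493) (nat_lit 398) (nat_lit 309)) (XT.nd (nat_lit 78) (nat_lit 0) (nat_lit 0) (XT.lf (nat_lit 0) (nat_lit 341693302298) (nat_lit 76) (nat_lit 205170388560) (nat_lit 76) (nat_lit 195700414582) (nat_lit 4) (nat_lit 4) (nat_lit 5) (nat_lit 5) (nat_lit 5) (nat_lit 4) (nat_lit 494) (nat_lit 398) (nat_lit 308)) (XT.lf (nat_lit 0) (nat_lit 476824273655) (nat_lit 76) (nat_lit 165983892183) (nat_lit 76) (nat_lit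 156513229071) (nat_lit 4) (nat_lit 4) (nat_lit 5) (nat_lit 5) (nat_lit 5) (nat_lit 4) (nat_lit 495) (nat_lit 398) (nat_lit 307)))) (XT.nd (nat_lit 156) (nat_lit 152) (nat_lit 0) (XT.nd (nat_lit 78) (nat_lit 0) (nat_lit 0) (XT.lf (nat_lit 0) (nat_lit 622750658440) (nat_lit 76) (nat_lit 123670140163) (nat_lit 76) (nat_lit 114198838964) (nat_lit 4) (nat_lit 4) (nat_lit 5) (nat_lit 5) (nat_lit 5) (nat_lit 4) (nat_lit 496) (nat_lit 398) (nat_lit 306)) (XT.lf (nat_lit 0) (nat_lit 780337205602) (nat_lit 76) (nat_lit 77978384339) (nat_lit 76) (nat_lit 68506492319) (nat_lit 4) (nat_lit 4) (nat_lit 5) (nat_lit 5) (nat_lit 5) (nat_lit 4) (nat_lit 497) (nat_lit 398) (nat_lit 305))) (XT.nd (nat_lit 78) (nat_lit 152) (nat_lit 0) (XT.lf (nat_lit 0) (nat_lit 950517761345) (nat_lit 76) (nat_lit 28637858751) (nat_lit 76) (nat_lit 19165419675) (nat_lit 4) (nat_lit 4) (nat_lit 5) (nat_lit 5) (nat_lit 5) (nat_lit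 4) (nat_lit 498) (nat_lit 398) (nat_lit 304)) (XT.lf (nat_lit 0) (nat_lit 34372868410) (nat_lit 152) (nat_lit 1015722288465) (nat_lit 0) (nat_lit 25351015448) (nat_lit 2) (nat_lit 5) (nat_lit 4) (nat_lit 4) (nat_lit 2) (nat_lit 4) (nat_lit 499) (nat_lit 398) (nat_lit 303))))) (XT.nd (nat_lit 54834) (nat_lit 0) (nat_lit 14516) (XT.nd (nat_lit 156) (nat_lit 0) (nat_lit 0) (XT.nd (nat_lit 78) (nat_lit 0) (nat_lit 0) (XT.lf (nat_lit 0) (nat_lit 92855170618) (nat_lit 152) (nat_lit 981970943840) (nat_lit 0) (nat_lit 83832870978) (nat_lit 2) (nat_lit 5) (nat_lit 4) (nat_lit 4) (nat_lit 2) (nat_lit 4) (nat_lit 500) (nat_lit 398) (nat_lit 302)) (XT.lf (nat_lit 0) (nat_lit 156010684325) (nat_lit 152) (nat_lit 945530436827) (nat_lit 0) (nat_lit 146987971092) (nat_lit 2) (nat_lit 5) (nat_lit 4) (nat_lit 4) (nat_lit 2) (nat_lit 4) (nat_lit 501) (nat_lit 398) (nat_lit 301))) (XT.nd (nat_lit 78) (nat_lit 0)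 (nat_lit 0) (XT.lf (nat_lit 0) (nat_lit 224213664425) (nat_lit 152) (nat_lit 906184823682) (nat_lit 0) (nat_lit 215190568238) (nat_lit 2) (nat_lit 5) (nat_lit 4) (nat_lit 4) (nat_lit 2) (nat_lit 4) (nat_lit 502) (nat_lit 398) (nat_lit 300)) (XT.lf (nat_lit 0) (nat_lit 297868276728) (nat_lit 152) (nat_lit 863700945216) (nat_lit 0) (nat_lit 288844825953) (nat_lit 2) (nat_lit 5) (nat_lit 4) (nat_lit 4) (nat_lit 2) (nat_lit 4) (nat_lit 503) (nat_lit 398) (nat_lit 299)))) (XT.nd (nat_lit 156) (nat_lit 684) (nat_lit 0) (XT.nd (nat_lit 78) (nat_lit 228) (nat_lit 0) (XT.lf (nat_lit 0) (nat_lit 2133114011) (nat_lit 76) (nat_lit 550918268) (nat_lit 76) (nat_lit 550918268) (nat_lit 205) (nat_lit 4) (nat_lit 206) (nat_lit 5) (nat_lit 206) (nat_lit 4) (nat_lit 402) (nat_lit 399) (nat_lit 399)) (XT.lf (nat_lit 0) (nat_lit 3566772510) (nat_lit 152) (nat_lit 315642611) (nat_lit 228) (nat_lit 2625748332) (nat_lit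 202) (nat_lit 5) (nat_lit 204) (nat_lit 5) (nat_lit 205) (nat_lit 4) (nat_lit 403) (nat_lit 399) (nat_lit 398))) (XT.nd (nat_lit 78) (nat_lit 380) (nat_lit 0) (XT.lf (nat_lit 0) (nat_lit 2214007142) (nat_lit 304) (nat_lit 3517485761) (nat_lit 76) (nat_lit 834048193) (nat_lit 198) (nat_lit 5) (nat_lit 202) (nat_lit 5) (nat_lit 199) (nat_lit 4) (nat_lit 404) (nat_lit 399) (nat_lit 397)) (XT.lf (nat_lit 0) (nat_lit 350088077) (nat_lit 380) (nat_lit 3931872856) (nat_lit 76) (nat_lit 2360457077) (nat_lit 193) (nat_lit 5) (nat_lit 198) (nat_lit 5) (nat_lit 194) (nat_lit 5) (nat_lit 405) (nat_lit 399) (nat_lit 396)))))) (XT.nd (nat_lit 546) (nat_lit 2964) (nat_lit 0) (XT.nd (nat_lit 234) (nat_lit 2584) (nat_lit 0) (XT.nd (nat_lit 78) (nat_lit 1140) (nat_lit 0) (XT.lf (nat_lit 0) (nat_lit 2529483084) (nat_lit 380) (nat_lit 2425415048) (nat_lit 456) (nat_lit 1783105214) (nat_lit 188) (nat_lit 5) (nat_lit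 193) (nat_lit 5) (nat_lit 194) (nat_lit 5) (nat_lit 406) (nat_lit 399) (nat_lit 395)) (XT.nd (nat_lit 78) (nat_lit 608) (nat_lit 0) (XT.lf (nat_lit 0) (nat_lit 2525028298) (nat_lit 456) (nat_lit 167858595) (nat_lit 532) (nat_lit 4160786410) (nat_lit 181) (nat_lit 5) (nat_lit 187) (nat_lit 5) (nat_lit 188) (nat_lit 5) (nat_lit 407) (nat_lit 399) (nat_lit 394)) (XT.lf (nat_lit 0) (nat_lit 242614826) (nat_lit 608) (nat_lit 4324368346) (nat_lit 76) (nat_lit 2421307025) (nat_lit 173) (nat_lit 5) (nat_lit 181) (nat_lit 5) (nat_lit 174) (nat_lit 5) (nat_lit 408) (nat_lit 399) (nat_lit 393)))) (XT.nd (nat_lit 156) (nat_lit 1216) (nat_lit 0) (XT.nd (nat_lit 78) (nat_lit 760) (nat_lit 0) (XT.lf (nat_lit 0) (nat_lit 2939201695) (nat_lit 608) (nat_lit 1680077771) (nat_lit 684) (nat_lit 2522720854) (nat_lit 165) (nat_lit 5) (nat_lit 173) (nat_lit 5) (nat_lit 174) (nat_lit 5) (nat_lit 409) (nat_lit 399) (nat_lit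 392)) (XT.lf (nat_lit 0) (nat_lit 1783584751) (nat_lit 760) (nat_lit 3951893766) (nat_lit 76) (nat_lit 1580464482) (nat_lit 155) (nat_lit 5) (nat_lit 165) (nat_lit 5) (nat_lit 156) (nat_lit 5) (nat_lit 410) (nat_lit 399) (nat_lit 391))) (XT.nd (nat_lit 78) (nat_lit 456) (nat_lit 0) (XT.lf (nat_lit 0) (nat_lit 3918151769) (nat_lit 760) (nat_lit 2269736887) (nat_lit 836) (nat_lit 1321810032) (nat_lit 145) (nat_lit 5) (nat_lit 155) (nat_lit 5) (nat_lit 156) (nat_lit 5) (nat_lit 411) (nat_lit 399) (nat_lit 390)) (XT.lf (nat_lit 0) (nat_lit 2981388038) (nat_lit 456) (nat_lit 3128680972) (nat_lit 76) (nat_lit 1613467845) (nat_lit 139) (nat_lit 5) (nat_lit 145) (nat_lit 5) (nat_lit 140) (nat_lit 5) (nat_lit 412) (nat_lit 399) (nat_lit 389))))) (XT.nd (nat_lit 312) (nat_lit 1444) (nat_lit 0) (XT.nd (nat_lit 156) (nat_lit 684) (nat_lit 0) (XT.nd (nat_lit 78) (nat_lit 456) (nat_lit 0) (XT.lf (nat_lit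 0) (nat_lit 5406251270) (nat_lit 380) (nat_lit 2072005933) (nat_lit 456) (nat_lit 480403579) (nat_lit 134) (nat_lit 5) (nat_lit 139) (nat_lit 5) (nat_lit 140) (nat_lit 5) (nat_lit 413) (nat_lit 399) (nat_lit 388)) (XT.lf (nat_lit 0) (nat_lit 3904775786) (nat_lit 456) (nat_lit 1904297952) (nat_lit 76) (nat_lit 2404623891) (nat_lit 128) (nat_lit 5) (nat_lit 134) (nat_lit 5) (nat_lit 129) (nat_lit 5) (nat_lit 414) (nat_lit 399) (nat_lit 387))) (XT.nd (nat_lit 78) (nat_lit 304) (nat_lit 0) (XT.lf (nat_lit 0) (nat_lit 61537920) (nat_lit 380) (nat_lit 1129555984) (nat_lit 76) (nat_lit 7301048343) (nat_lit 123) (nat_lit 5) (nat_lit 128) (nat_lit 5) (nat_lit 124) (nat_lit 5) (nat_lit 415) (nat_lit 399) (nat_lit 386)) (XT.lf (nat_lit 0) (nat_lit 4609332010) (nat_lit 380) (nat_lit 315609924) (nat_lit 76) (nat_lit 3865490394) (nat_lit 119) (nat_lit 5) (nat_lit 124) (nat_lit 5) (nat_lit 120) (nat_lit 5)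 (nat_lit 416) (nat_lit 399) (nat_lit 385)))) (XT.nd (nat_lit 156) (nat_lit 532) (nat_lit 0) (XT.nd (nat_lit 78) (nat_lit 228) (nat_lit 0) (XT.lf (nat_lit 0) (nat_lit 362653737) (nat_lit 380) (nat_lit 8455119992) (nat_lit 76) (nat_lit 296155842) (nat_lit 110) (nat_lit 5) (nat_lit 115) (nat_lit 5) (nat_lit 111) (nat_lit 5) (nat_lit 417) (nat_lit 399) (nat_lit 384)) (XT.lf (nat_lit 0) (nat_lit 1663685016) (nat_lit 228) (nat_lit 3501757345) (nat_lit 304) (nat_lit 4292364578) (nat_lit 107) (nat_lit 5) (nat_lit 110) (nat_lit 5) (nat_lit 111) (nat_lit 5) (nat_lit 418) (nat_lit 399) (nat_lit 383))) (XT.nd (nat_lit 78) (nat_lit 228) (nat_lit 0) (XT.lf (nat_lit 0) (nat_lit 510426747) (nat_lit 304) (nat_lit 7028739085) (nat_lit 76) (nat_lit 2289449547) (nat_lit 103) (nat_lit 5) (nat_lit 107) (nat_lit 5) (nat_lit 104) (nat_lit 5) (nat_lit 419) (nat_lit 399) (nat_lit 382)) (XT.lf (nat_lit 0) (nat_lit 3981690654)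 (nat_lit 228) (nat_lit 1610356812) (nat_lit 304) (nat_lit 4631296451) (nat_lit 100) (nat_lit 5) (nat_lit 103) (nat_lit 5) (nat_lit 104) (nat_lit 5) (nat_lit 420) (nat_lit 399) (nat_lit 381))))))))
noncomputable def xc44 : XT := (XT.nd (nat_lit 2262) (nat_lit 2128) (nat_lit 0) (XT.nd (nat_lit 1092) (nat_lit 1824) (nat_lit 0) (XT.nd (nat_lit 546) (nat_lit 1216) (nat_lit 0) (XT.nd (nat_lit 234) (nat_lit 912) (nat_lit 0) (XT.nd (nat_lit 78) (nat_lit 456) (nat_lit 0) (XT.lf (nat_lit 0) (nat_lit 493231441) (nat_lit 304) (nat_lit 5386602074) (nat_lit 76) (nat_lit 4765678388) (nat_lit 96) (nat_lit 5) (nat_lit 100) (nat_lit 5) (nat_lit 97) (nat_lit 5) (nat_lit 421) (nat_lit 399) (nat_lit 380)) (XT.nd (nat_lit 78) (nat_lit 304) (nat_lit 0) (XT.lf (nat_lit 0) (nat_lit 5920756880) (nat_lit 228) (nat_lit 4493672359) (nat_lit 76) (nat_lit 680482247) (nat_lit 94) (nat_lit 5) (nat_lit 97) (nat_lit 5) (nat_lit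 95) (nat_lit 5) (nat_lit 422) (nat_lit 399) (nat_lit 379)) (XT.lf (nat_lit 0) (nat_lit 327714050) (nat_lit 304) (nat_lit 3551138415) (nat_lit 76) (nat_lit 7694671187) (nat_lit 90) (nat_lit 5) (nat_lit 94) (nat_lit 5) (nat_lit 91) (nat_lit 5) (nat_lit 423) (nat_lit 399) (nat_lit 378)))) (XT.nd (nat_lit 156) (nat_lit 456) (nat_lit 0) (XT.nd (nat_lit 78) (nat_lit 304) (nat_lit 0) (XT.lf (nat_lit 0) (nat_lit 6189379529) (nat_lit 228) (nat_lit 2592943476) (nat_lit 76) (nat_lit 3298829943) (nat_lit 88) (nat_lit 5) (nat_lit 91) (nat_lit 5) (nat_lit 89) (nat_lit 5) (nat_lit 424) (nat_lit 399) (nat_lit 377)) (XT.lf (nat_lit 0) (nat_lit 21829634) (nat_lit 304) (nat_lit 1545353926) (nat_lit 76) (nat_lit 11055921002) (nat_lit 84) (nat_lit 5) (nat_lit 88) (nat_lit 5) (nat_lit 85) (nat_lit 5) (nat_lit 425) (nat_lit 399) (nat_lit 376))) (XT.nd (nat_lit 78) (nat_lit 304) (nat_lit 0) (XT.lf (nat_lit 0) (nat_lit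 6381736979) (nat_lit 228) (nat_lit 538585812) (nat_lit 76) (nat_lit 6274291086) (nat_lit 82) (nat_lit 5) (nat_lit 85) (nat_lit 5) (nat_lit 83) (nat_lit 5) (nat_lit 426) (nat_lit 399) (nat_lit 375)) (XT.lf (nat_lit 0) (nat_lit 600118981) (nat_lit 152) (nat_lit 12791912242) (nat_lit 228) (nat_lit 412744711) (nat_lit 78) (nat_lit 5) (nat_lit 80) (nat_lit 5) (nat_lit 81) (nat_lit 4) (nat_lit 427) (nat_lit 399) (nat_lit 374))))) (XT.nd (nat_lit 234) (nat_lit 608) (nat_lit 0) (XT.nd (nat_lit 78) (nat_lit 380) (nat_lit 0) (XT.lf (nat_lit 0) (nat_lit 1693633633) (nat_lit 152) (nat_lit 4830939026) (nat_lit 228) (nat_lit 7922455138) (nat_lit 75) (nat_lit 5) (nat_lit 77) (nat_lit 5) (nat_lit 78) (nat_lit 5) (nat_lit 428) (nat_lit 399) (nat_lit 373)) (XT.nd (nat_lit 78) (nat_lit 228) (nat_lit 0) (XT.lf (nat_lit 0) (nat_lit 2876994300) (nat_lit 152) (nat_lit 11306245868) (nat_lit 228) (nat_lit 948049623)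 (nat_lit 73) (nat_lit 5) (nat_lit 75) (nat_lit 5) (nat_lit 76) (nat_lit 4) (nat_lit 429) (nat_lit 399) (nat_lit 372)) (XT.lf (nat_lit 0) (nat_lit 4030214245) (nat_lit 152) (nat_lit 2561755822) (nat_lit 228) (nat_lit 9262271101) (nat_lit 70) (nat_lit 5) (nat_lit 72) (nat_lit 5) (nat_lit 73) (nat_lit 5) (nat_lit 430) (nat_lit 399) (nat_lit 371)))) (XT.nd (nat_lit 156) (nat_lit 304) (nat_lit 0) (XT.nd (nat_lit 78) (nat_lit 228) (nat_lit 0) (XT.lf (nat_lit 0) (nat_lit 5211649484) (nat_lit 76) (nat_lit 9750359829) (nat_lit 152) (nat_lit 1659248409) (nat_lit 69) (nat_lit 5) (nat_lit 70) (nat_lit 5) (nat_lit 71) (nat_lit 4) (nat_lit 431) (nat_lit 399) (nat_lit 370)) (XT.lf (nat_lit 0) (nat_lit 6396559432) (nat_lit 152) (nat_lit 156638549) (nat_lit 228) (nat_lit 10880785373) (nat_lit 66) (nat_lit 5) (nat_lit 68) (nat_lit 5) (nat_lit 69) (nat_lit 5) (nat_lit 432) (nat_lit 399) (nat_lit 369))) (XT.nd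 (nat_lit 78) (nat_lit 228) (nat_lit 0) (XT.lf (nat_lit 0) (nat_lit 7537046731) (nat_lit 76) (nat_lit 8170770547) (nat_lit 152) (nat_lit 2585390635) (nat_lit 65) (nat_lit 5) (nat_lit 66) (nat_lit 5) (nat_lit 67) (nat_lit 4) (nat_lit 433) (nat_lit 399) (nat_lit 368)) (XT.lf (nat_lit 0) (nat_lit 6408122963) (nat_lit 228) (nat_lit 10529181143) (nat_lit 76) (nat_lit 2266972268) (nat_lit 62) (nat_lit 5) (nat_lit 65) (nat_lit 5) (nat_lit 63) (nat_lit 4) (nat_lit 434) (nat_lit 399) (nat_lit 367)))))) (XT.nd (nat_lit 546) (nat_lit 912) (nat_lit 0) (XT.nd (nat_lit 234) (nat_lit 532) (nat_lit 0) (XT.nd (nat_lit 78) (nat_lit 304) (nat_lit 0) (XT.lf (nat_lit 0) (nat_lit 9759614493) (nat_lit 76) (nat_lit 6625124997) (nat_lit 152) (nat_lit 3783666788) (nat_lit 61) (nat_lit 5) (nat_lit 62) (nat_lit 5) (nat_lit 63) (nat_lit 4) (nat_lit 435) (nat_lit 399) (nat_lit 366)) (XT.nd (nat_lit 78) (nat_lit 76) (nat_lit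 0) (XT.lf (nat_lit 0) (nat_lit 6068057232) (nat_lit 228) (nat_lit 10398840541) (nat_lit 76) (nat_lit 4722695233) (nat_lit 58) (nat_lit 5) (nat_lit 61) (nat_lit 5) (nat_lit 59) (nat_lit 4) (nat_lit 436) (nat_lit 399) (nat_lit 365)) (XT.lf (nat_lit 0) (nat_lit 11749399360) (nat_lit 76) (nat_lit 5187706931) (nat_lit 152) (nat_lit 5334183848) (nat_lit 57) (nat_lit 5) (nat_lit 58) (nat_lit 5) (nat_lit 59) (nat_lit 4) (nat_lit 437) (nat_lit 399) (nat_lit 364)))) (XT.nd (nat_lit 156) (nat_lit 228) (nat_lit 0) (XT.nd (nat_lit 78) (nat_lit 76) (nat_lit 0) (XT.lf (nat_lit 0) (nat_lit 5450622050) (nat_lit 228) (nat_lit 10821562266) (nat_lit 76) (nat_lit 7144152145) (nat_lit 54) (nat_lit 5) (nat_lit 57) (nat_lit 5) (nat_lit 55) (nat_lit 4) (nat_lit 438) (nat_lit 399) (nat_lit 363)) (XT.lf (nat_lit 0) (nat_lit 13327360034) (nat_lit 76) (nat_lit 3956321634) (nat_lit 152) (nat_lit 7346318357) (nat_lit 53)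 (nat_lit 5) (nat_lit 54) (nat_lit 5) (nat_lit 55) (nat_lit 4) (nat_lit 439) (nat_lit 399) (nat_lit 362))) (XT.nd (nat_lit 78) (nat_lit 76) (nat_lit 0) (XT.lf (nat_lit 0) (nat_lit 4445033476) (nat_lit 152) (nat_lit 12035275989) (nat_lit 76) (nat_lit 9434514281) (nat_lit 51) (nat_lit 5) (nat_lit 53) (nat_lit 5) (nat_lit 52) (nat_lit 4) (nat_lit 440) (nat_lit 399) (nat_lit 361)) (XT.lf (nat_lit 0) (nat_lit 14248934199) (nat_lit 76) (nat_lit 3061020047) (nat_lit 152) (nat_lit 9967078380) (nat_lit 50) (nat_lit 5) (nat_lit 51) (nat_lit 5) (nat_lit 52) (nat_lit 4) (nat_lit 441) (nat_lit 399) (nat_lit 360))))) (XT.nd (nat_lit 312) (nat_lit 456) (nat_lit 0) (XT.nd (nat_lit 156) (nat_lit 228) (nat_lit 0) (XT.nd (nat_lit 78) (nat_lit 76) (nat_lit 0) (XT.lf (nat_lit 0) (nat_lit 2900527120) (nat_lit 152) (nat_lit 14357505959) (nat_lit 76) (nat_lit 11462106540) (nat_lit 48) (nat_lit 5) (nat_lit 50) (nat_lit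 5) (nat_lit 49) (nat_lit 4) (nat_lit 442) (nat_lit 399) (nat_lit 359)) (XT.lf (nat_lit 0) (nat_lit 14182762702) (nat_lit 76) (nat_lit 2675246477) (nat_lit 152) (nat_lit 13392035271) (nat_lit 47) (nat_lit 5) (nat_lit 48) (nat_lit 5) (nat_lit 49) (nat_lit 4) (nat_lit 443) (nat_lit 399) (nat_lit 358))) (XT.nd (nat_lit 78) (nat_lit 76) (nat_lit 0) (XT.lf (nat_lit 0) (nat_lit 614427773) (nat_lit 152) (nat_lit 18210280352) (nat_lit 76) (nat_lit 13048330773) (nat_lit 45) (nat_lit 5) (nat_lit 47) (nat_lit 5) (nat_lit 46) (nat_lit 4) (nat_lit 444) (nat_lit 399) (nat_lit 357)) (XT.lf (nat_lit 0) (nat_lit 12683137396) (nat_lit 76) (nat_lit 3030154644) (nat_lit 152) (nat_lit 17879551879) (nat_lit 44) (nat_lit 5) (nat_lit 45) (nat_lit 5) (nat_lit 46) (nat_lit 4) (nat_lit 445) (nat_lit 399) (nat_lit 356)))) (XT.nd (nat_lit 156) (nat_lit 228) (nat_lit 0) (XT.nd (nat_lit 78) (nat_lit 152) (nat_lit 0) (XT.lf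 (nat_lit 0) (nat_lit 11223283582) (nat_lit 76) (nat_lit 21423510445) (nat_lit 76) (nat_lit 2772104635) (nat_lit 43) (nat_lit 4) (nat_lit 44) (nat_lit 5) (nat_lit 44) (nat_lit 4) (nat_lit 446) (nat_lit 399) (nat_lit 355)) (XT.lf (nat_lit 0) (nat_lit 9154328674) (nat_lit 76) (nat_lit 4433045060) (nat_lit 152) (nat_lit 23769246354) (nat_lit 41) (nat_lit 5) (nat_lit 42) (nat_lit 5) (nat_lit 43) (nat_lit 4) (nat_lit 447) (nat_lit 399) (nat_lit 354))) (XT.nd (nat_lit 78) (nat_lit 152) (nat_lit 0) (XT.lf (nat_lit 0) (nat_lit 6374698518) (nat_lit 76) (nat_lit 25445641700) (nat_lit 76) (nat_lit 7593655677) (nat_lit 40) (nat_lit 4) (nat_lit 41) (nat_lit 5) (nat_lit 41) (nat_lit 4) (nat_lit 448) (nat_lit 399) (nat_lit 353)) (XT.lf (nat_lit 0) (nat_lit 2804420131) (nat_lit 76) (nat_lit 7291145929) (nat_lit 152) (nat_lit 31505903532) (nat_lit 38) (nat_lit 5) (nat_lit 39) (nat_lit 5) (nat_lit 40) (nat_lit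 4) (nat_lit 449) (nat_lit 399) (nat_lit 352))))))) (XT.nd (nat_lit 1170) (nat_lit 836) (nat_lit 0) (XT.nd (nat_lit 546) (nat_lit 608) (nat_lit 0) (XT.nd (nat_lit 234) (nat_lit 456) (nat_lit 0) (XT.nd (nat_lit 78) (nat_lit 228) (nat_lit 0) (XT.lf (nat_lit 0) (nat_lit 29634979423) (nat_lit 152) (nat_lit 1727055052) (nat_lit 0) (nat_lit 12560628640) (nat_lit 38) (nat_lit 5) (nat_lit 40) (nat_lit 4) (nat_lit 38) (nat_lit 4) (nat_lit 450) (nat_lit 399) (nat_lit 351)) (XT.nd (nat_lit 78) (nat_lit 76) (nat_lit 0) (XT.lf (nat_lit 0) (nat_lit 4843663741) (nat_lit 152) (nat_lit 7177095871) (nat_lit 76) (nat_lit 34371752908) (nat_lit 36) (nat_lit 5) (nat_lit 38) (nat_lit 5) (nat_lit 37) (nat_lit 4) (nat_lit 451) (nat_lit 399) (nat_lit 350)) (XT.lf (nat_lit 0) (nat_lit 25670606134) (nat_lit 152) (nat_lit 13994194904) (nat_lit 0) (nat_lit 9350155674) (nat_lit 35) (nat_lit 5) (nat_lit 37) (nat_lit 4) (nat_lit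 35) (nat_lit 4) (nat_lit 452) (nat_lit 399) (nat_lit 349)))) (XT.nd (nat_lit 156) (nat_lit 228) (nat_lit 0) (XT.nd (nat_lit 78) (nat_lit 152) (nat_lit 0) (XT.lf (nat_lit 0) (nat_lit 29614761603) (nat_lit 76) (nat_lit 19271546607) (nat_lit 76) (nat_lit 2924758897) (nat_lit 34) (nat_lit 4) (nat_lit 35) (nat_lit 5) (nat_lit 35) (nat_lit 4) (nat_lit 453) (nat_lit 399) (nat_lit 348)) (XT.lf (nat_lit 0) (nat_lit 19107248549) (nat_lit 152) (nat_lit 32163478118) (nat_lit 0) (nat_lit 3515654213) (nat_lit 32) (nat_lit 5) (nat_lit 34) (nat_lit 4) (nat_lit 32) (nat_lit 4) (nat_lit 454) (nat_lit 399) (nat_lit 347))) (XT.nd (nat_lit 78) (nat_lit 152) (nat_lit 0) (XT.lf (nat_lit 0) (nat_lit 13769208278) (nat_lit 76) (nat_lit 29898888221) (nat_lit 76) (nat_lit 14285789173) (nat_lit 31) (nat_lit 4) (nat_lit 32) (nat_lit 5) (nat_lit 32) (nat_lit 4) (nat_lit 455) (nat_lit 399) (nat_lit 346)) (XT.lf (nat_lit 0)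 (nat_lit 3000242328) (nat_lit 76) (nat_lit 6089149449) (nat_lit 152) (nat_lit 52250883516) (nat_lit 29) (nat_lit 5) (nat_lit 30) (nat_lit 5) (nat_lit 31) (nat_lit 4) (nat_lit 456) (nat_lit 399) (nat_lit 345))))) (XT.nd (nat_lit 312) (nat_lit 304) (nat_lit 0) (XT.nd (nat_lit 156) (nat_lit 228) (nat_lit 0) (XT.nd (nat_lit 78) (nat_lit 76) (nat_lit 0) (XT.lf (nat_lit 0) (nat_lit 34867673760) (nat_lit 152) (nat_lit 10104980550) (nat_lit 0) (nat_lit 19961533150) (nat_lit 29) (nat_lit 5) (nat_lit 31) (nat_lit 4) (nat_lit 29) (nat_lit 4) (nat_lit 457) (nat_lit 399) (nat_lit 344)) (XT.lf (nat_lit 0) (nat_lit 43152772039) (nat_lit 76) (nat_lit 20274640122) (nat_lit 76) (nat_lit 5352241289) (nat_lit 28) (nat_lit 4) (nat_lit 29) (nat_lit 5) (nat_lit 29) (nat_lit 4) (nat_lit 458) (nat_lit 399) (nat_lit 343))) (XT.nd (nat_lit 78) (nat_lit 76) (nat_lit 0) (XT.lf (nat_lit 0) (nat_lit 21340391460) (nat_lit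 152) (nat_lit 44427251268) (nat_lit 0) (nat_lit 7114245991) (nat_lit 26) (nat_lit 5) (nat_lit 28) (nat_lit 4) (nat_lit 26) (nat_lit 4) (nat_lit 459) (nat_lit 399) (nat_lit 342)) (XT.lf (nat_lit 0) (nat_lit 10268623287) (nat_lit 76) (nat_lit 40616745442) (nat_lit 76) (nat_lit 26377324921) (nat_lit 25) (nat_lit 4) (nat_lit 26) (nat_lit 5) (nat_lit 26) (nat_lit 4) (nat_lit 460) (nat_lit 399) (nat_lit 341)))) (XT.nd (nat_lit 156) (nat_lit 152) (nat_lit 0) (XT.nd (nat_lit 78) (nat_lit 76) (nat_lit 0) (XT.lf (nat_lit 0) (nat_lit 1508522051) (nat_lit 152) (nat_lit 11159242031) (nat_lit 76) (nat_lit 69288867528) (nat_lit 24) (nat_lit 5) (nat_lit 26) (nat_lit 5) (nat_lit 25) (nat_lit 4) (nat_lit 461) (nat_lit 399) (nat_lit 340)) (XT.lf (nat_lit 0) (nat_lit 31741644329) (nat_lit 152) (nat_lit 37053047053) (nat_lit 0) (nat_lit 18157745801) (nat_lit 23) (nat_lit 5) (nat_lit 25) (nat_lit 4) (nat_lit 23)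 (nat_lit 4) (nat_lit 462) (nat_lit 399) (nat_lit 339))) (XT.nd (nat_lit 78) (nat_lit 76) (nat_lit 0) (XT.lf (nat_lit 0) (nat_lit 24371281811) (nat_lit 76) (nat_lit 40766666992) (nat_lit 76) (nat_lit 27172732117) (nat_lit 22) (nat_lit 4) (nat_lit 23) (nat_lit 5) (nat_lit 23) (nat_lit 4) (nat_lit 463) (nat_lit 399) (nat_lit 338)) (XT.lf (nat_lit 0) (nat_lit 3619095247) (nat_lit 152) (nat_lit 6184082532) (nat_lit 76) (nat_lit 88261469696) (nat_lit 21) (nat_lit 5) (nat_lit 23) (nat_lit 5) (nat_lit 22) (nat_lit 4) (nat_lit 464) (nat_lit 399) (nat_lit 337)))))) (XT.nd (nat_lit 546) (nat_lit 304) (nat_lit 0) (XT.nd (nat_lit 234) (nat_lit 380) (nat_lit 0) (XT.nd (nat_lit 78) (nat_lit 76) (nat_lit 0) (XT.lf (nat_lit 0) (nat_lit 37251542586) (nat_lit 152) (nat_lit 42650759873) (nat_lit 0) (nat_lit 24287892738) (nat_lit 20) (nat_lit 5) (nat_lit 22) (nat_lit 4) (nat_lit 20) (nat_lit 4) (nat_lit 465) (nat_lit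 399) (nat_lit 336)) (XT.nd (nat_lit 78) (nat_lit 0) (nat_lit 0) (XT.lf (nat_lit 0) (nat_lit 24639628992) (nat_lit 76) (nat_lit 49553240717) (nat_lit 76) (nat_lit 36582003083) (nat_lit 19) (nat_lit 4) (nat_lit 20) (nat_lit 5) (nat_lit 20) (nat_lit 4) (nat_lit 466) (nat_lit 399) (nat_lit 335)) (XT.lf (nat_lit 0) (nat_lit 98756716139) (nat_lit 76) (nat_lit 16036347023) (nat_lit 76) (nat_lit 3058083661) (nat_lit 19) (nat_lit 4) (nat_lit 20) (nat_lit 5) (nat_lit 20) (nat_lit 4) (nat_lit 467) (nat_lit 399) (nat_lit 334)))) (XT.nd (nat_lit 156) (nat_lit 228) (nat_lit 0) (XT.nd (nat_lit 78) (nat_lit 0) (nat_lit 0) (XT.lf (nat_lit 0) (nat_lit 33236638917) (nat_lit 152) (nat_lit 71303323804) (nat_lit 0) (nat_lit 20870192569) (nat_lit 17) (nat_lit 5) (nat_lit 19) (nat_lit 4) (nat_lit 17) (nat_lit 4) (nat_lit 468) (nat_lit 399) (nat_lit 333)) (XT.lf (nat_lit 0) (nat_lit 72901691529) (nat_lit 152) (nat_lit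 111483262) (nat_lit 0) (nat_lit 60529508581) (nat_lit 17) (nat_lit 5) (nat_lit 19) (nat_lit 4) (nat_lit 17) (nat_lit 4) (nat_lit 469) (nat_lit 399) (nat_lit 332))) (XT.nd (nat_lit 78) (nat_lit 152) (nat_lit 0) (XT.lf (nat_lit 0) (nat_lit 79244562063) (nat_lit 76) (nat_lit 37699275973) (nat_lit 76) (nat_lit 25321781358) (nat_lit 16) (nat_lit 4) (nat_lit 17) (nat_lit 5) (nat_lit 17) (nat_lit 4) (nat_lit 470) (nat_lit 399) (nat_lit 331)) (XT.lf (nat_lit 0) (nat_lit 12604915797) (nat_lit 152) (nat_lit 138249704617) (nat_lit 0) (nat_lit 812141678) (nat_lit 14) (nat_lit 5) (nat_lit 16) (nat_lit 4) (nat_lit 14) (nat_lit 4) (nat_lit 471) (nat_lit 399) (nat_lit 330))))) (XT.nd (nat_lit 312) (nat_lit 76) (nat_lit 0) (XT.nd (nat_lit 156) (nat_lit 152) (nat_lit 0) (XT.nd (nat_lit 78) (nat_lit 76) (nat_lit 0) (XT.lf (nat_lit 0) (nat_lit 54410442111) (nat_lit 152) (nat_lit 64688875470) (nat_lit 0) (nat_lit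 42613330947) (nat_lit 14) (nat_lit 5) (nat_lit 16) (nat_lit 4) (nat_lit 14) (nat_lit 4) (nat_lit 472) (nat_lit 399) (nat_lit 329)) (XT.lf (nat_lit 0) (nat_lit 15183714982) (nat_lit 76) (nat_lit 84584611101) (nat_lit 76) (nat_lit 72783484154) (nat_lit 13) (nat_lit 4) (nat_lit 14) (nat_lit 5) (nat_lit 14) (nat_lit 4) (nat_lit 473) (nat_lit 399) (nat_lit 328))) (XT.nd (nat_lit 78) (nat_lit 152) (nat_lit 0) (XT.lf (nat_lit 0) (nat_lit 103699620309) (nat_lit 76) (nat_lit 46154190725) (nat_lit 76) (nat_lit 34349345460) (nat_lit 13) (nat_lit 4) (nat_lit 14) (nat_lit 5) (nat_lit 14) (nat_lit 4) (nat_lit 474) (nat_lit 399) (nat_lit 327)) (XT.lf (nat_lit 0) (nat_lit 2422758248) (nat_lit 76) (nat_lit 4519215604) (nat_lit 152) (nat_lit 189838467746) (nat_lit 11) (nat_lit 5) (nat_lit 12) (nat_lit 5) (nat_lit 13) (nat_lit 4) (nat_lit 475) (nat_lit 399) (nat_lit 326)))) (XT.nd (nat_lit 156) (nat_lit 76) (nat_lit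 0) (XT.nd (nat_lit 78) (nat_lit 0) (nat_lit 0) (XT.lf (nat_lit 0) (nat_lit 52380564757) (nat_lit 152) (nat_lit 116721279679) (nat_lit 0) (nat_lit 41131539986) (nat_lit 11) (nat_lit 5) (nat_lit 13) (nat_lit 4) (nat_lit 11) (nat_lit 4) (nat_lit 476) (nat_lit 399) (nat_lit 325)) (XT.lf (nat_lit 0) (nat_lit 101506851161) (nat_lit 152) (nat_lit 32998065967) (nat_lit 0) (nat_lit 90255015228) (nat_lit 11) (nat_lit 5) (nat_lit 13) (nat_lit 4) (nat_lit 11) (nat_lit 4) (nat_lit 477) (nat_lit 399) (nat_lit 324))) (XT.nd (nat_lit 78) (nat_lit 0) (nat_lit 0) (XT.lf (nat_lit 0) (nat_lit 59275850365) (nat_lit 76) (nat_lit 96191005957) (nat_lit 76) (nat_lit 84936567096) (nat_lit 10) (nat_lit 4) (nat_lit 11) (nat_lit 5) (nat_lit 11) (nat_lit 4) (nat_lit 478) (nat_lit 399) (nat_lit 323)) (XT.lf (nat_lit 0) (nat_lit 160067605900) (nat_lit 76) (nat_lit 54229970598) (nat_lit 76) (nat_lit 42973121618) (nat_lit 10)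 (nat_lit 4) (nat_lit 11) (nat_lit 5) (nat_lit 11) (nat_lit 4) (nat_lit 479) (nat_lit 399) (nat_lit 322))))))))
noncomputable def xc45 : XT := (XT.nd (nat_lit 56706) (nat_lit 0) (nat_lit 4560) (XT.nd (nat_lit 1170) (nat_lit 152) (nat_lit 0) (XT.nd (nat_lit 546) (nat_lit 228) (nat_lit 0) (XT.nd (nat_lit 234) (nat_lit 76) (nat_lit 0) (XT.nd (nat_lit 78) (nat_lit 76) (nat_lit 0) (XT.lf (nat_lit 0) (nat_lit 2252607903) (nat_lit 152) (nat_lit 6641234368) (nat_lit 76) (nat_lit 266592663123) (nat_lit 9) (nat_lit 5) (nat_lit 11) (nat_lit 5) (nat_lit 10) (nat_lit 4) (nat_lit 480) (nat_lit 399) (nat_lit 321)) (XT.nd (nat_lit 78) (nat_lit 0) (nat_lit 0) (XT.lf (nat_lit 0) (nat_lit 51711961543) (nat_lit 152) (nat_lit 202319275404) (nat_lit 0) (nat_lit 40987059773) (nat_lit 8) (nat_lit 5) (nat_lit 10) (nat_lit 4) (nat_lit 8) (nat_lit 4) (nat_lit 481) (nat_lit 399) (nat_lit 320)) (XT.lf (nat_lit 0) (nat_lit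 105377924420) (nat_lit 152) (nat_lit 116071013419) (nat_lit 0) (nat_lit 94651200526) (nat_lit 8) (nat_lit 5) (nat_lit 10) (nat_lit 4) (nat_lit 8) (nat_lit 4) (nat_lit 482) (nat_lit 399) (nat_lit 319)))) (XT.nd (nat_lit 156) (nat_lit 0) (nat_lit 0) (XT.nd (nat_lit 78) (nat_lit 76) (nat_lit 0) (XT.lf (nat_lit 0) (nat_lit 163320786558) (nat_lit 152) (nat_lit 22956184217) (nat_lit 0) (nat_lit 152592375513) (nat_lit 8) (nat_lit 5) (nat_lit 10) (nat_lit 4) (nat_lit 8) (nat_lit 4) (nat_lit 483) (nat_lit 399) (nat_lit 318)) (XT.lf (nat_lit 0) (nat_lit 80142049874) (nat_lit 76) (nat_lit 146993105187) (nat_lit 76) (nat_lit 136263131964) (nat_lit 7) (nat_lit 4) (nat_lit 8) (nat_lit 5) (nat_lit 8) (nat_lit 4) (nat_lit 484) (nat_lit 399) (nat_lit 317))) (XT.nd (nat_lit 78) (nat_lit 0) (nat_lit 0) (XT.lf (nat_lit 0) (nat_lit 192278412815) (nat_lit 76) (nat_lit 104161640464) (nat_lit 76) (nat_lit 93430220781)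 (nat_lit 7) (nat_lit 4) (nat_lit 8) (nat_lit 5) (nat_lit 8) (nat_lit 4) (nat_lit 485) (nat_lit 399) (nat_lit 316)) (XT.lf (nat_lit 0) (nat_lit 313358381262) (nat_lit 76) (nat_lit 57917534606) (nat_lit 76) (nat_lit 47184775608) (nat_lit 7) (nat_lit 4) (nat_lit 8) (nat_lit 5) (nat_lit 8) (nat_lit 4) (nat_lit 486) (nat_lit 399) (nat_lit 315))))) (XT.nd (nat_lit 312) (nat_lit 76) (nat_lit 0) (XT.nd (nat_lit 156) (nat_lit 0) (nat_lit 0) (XT.nd (nat_lit 78) (nat_lit 76) (nat_lit 0) (XT.lf (nat_lit 0) (nat_lit 2659321459) (nat_lit 152) (nat_lit 5282390113) (nat_lit 76) (nat_lit 441395107784) (nat_lit 6) (nat_lit 5) (nat_lit 8) (nat_lit 5) (nat_lit 7) (nat_lit 4) (nat_lit 487) (nat_lit 399) (nat_lit 314)) (XT.lf (nat_lit 0) (nat_lit 57247040856) (nat_lit 152) (nat_lit 378253768642) (nat_lit 0) (nat_lit 47023090997) (nat_lit 5) (nat_lit 5) (nat_lit 7) (nat_lit 4) (nat_lit 5) (nat_lit 4) (nat_lit 488)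 (nat_lit 399) (nat_lit 313))) (XT.nd (nat_lit 78) (nat_lit 0) (nat_lit 0) (XT.lf (nat_lit 0) (nat_lit 116417843871) (nat_lit 152) (nat_lit 295744419535) (nat_lit 0) (nat_lit 106192881448) (nat_lit 5) (nat_lit 5) (nat_lit 7) (nat_lit 4) (nat_lit 5) (nat_lit 4) (nat_lit 489) (nat_lit 399) (nat_lit 312)) (XT.lf (nat_lit 0) (nat_lit 180311783367) (nat_lit 152) (nat_lit 206655748430) (nat_lit 0) (nat_lit 170085883386) (nat_lit 5) (nat_lit 5) (nat_lit 7) (nat_lit 4) (nat_lit 5) (nat_lit 4) (nat_lit 490) (nat_lit 399) (nat_lit 311)))) (XT.nd (nat_lit 156) (nat_lit 76) (nat_lit 0) (XT.nd (nat_lit 78) (nat_lit 0) (nat_lit 0) (XT.lf (nat_lit 0) (nat_lit 249307490096) (nat_lit 152) (nat_lit 110459822461) (nat_lit 0) (nat_lit 239080722005) (nat_lit 5) (nat_lit 5) (nat_lit 7) (nat_lit 4) (nat_lit 5) (nat_lit 4) (nat_lit 491) (nat_lit 399) (nat_lit 310)) (XT.lf (nat_lit 0) (nat_lit 323813827506) (nat_lit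 152) (nat_lit 6586591697) (nat_lit 0) (nat_lit 313586255609) (nat_lit 5) (nat_lit 5) (nat_lit 7) (nat_lit 4) (nat_lit 5) (nat_lit 4) (nat_lit 492) (nat_lit 399) (nat_lit 309))) (XT.nd (nat_lit 78) (nat_lit 0) (nat_lit 0) (XT.lf (nat_lit 0) (nat_lit 109070423648) (nat_lit 76) (nat_lit 296904785967) (nat_lit 76) (nat_lit 286676469807) (nat_lit 4) (nat_lit 4) (nat_lit 5) (nat_lit 5) (nat_lit 5) (nat_lit 4) (nat_lit 493) (nat_lit 399) (nat_lit 308)) (XT.lf (nat_lit 0) (nat_lit 234198935864) (nat_lit 76) (nat_lit 260617308378) (nat_lit 76) (nat_lit 250388303084) (nat_lit 4) (nat_lit 4) (nat_lit 5) (nat_lit 5) (nat_lit 5) (nat_lit 4) (nat_lit 494) (nat_lit 399) (nat_lit 307)))))) (XT.nd (nat_lit 546) (nat_lit 0) (nat_lit 0) (XT.nd (nat_lit 234) (nat_lit 152) (nat_lit 0) (XT.nd (nat_lit 78) (nat_lit 0) (nat_lit 0) (XT.lf (nat_lit 0) (nat_lit 369322664778) (nat_lit 76) (nat_lit 221434496649) (nat_lit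 76) (nat_lit 211204853267) (nat_lit 4) (nat_lit 4) (nat_lit 5) (nat_lit 5) (nat_lit 5) (nat_lit 4) (nat_lit 495) (nat_lit 399) (nat_lit 306)) (XT.nd (nat_lit 78) (nat_lit 0) (nat_lit 0) (XT.lf (nat_lit 0) (nat_lit 515242343599) (nat_lit 76) (nat_lit 179124156339) (nat_lit 76) (nat_lit 168893922136) (nat_lit 4) (nat_lit 4) (nat_lit 5) (nat_lit 5) (nat_lit 5) (nat_lit 4) (nat_lit 496) (nat_lit 399) (nat_lit 305)) (XT.lf (nat_lit 0) (nat_lit 672822681534) (nat_lit 76) (nat_lit 133435559506) (nat_lit 76) (nat_lit 123204778247) (nat_lit 4) (nat_lit 4) (nat_lit 5) (nat_lit 5) (nat_lit 5) (nat_lit 4) (nat_lit 497) (nat_lit 399) (nat_lit 304)))) (XT.nd (nat_lit 156) (nat_lit 152) (nat_lit 0) (XT.nd (nat_lit 78) (nat_lit 0) (nat_lit 0) (XT.lf (nat_lit 0) (nat_lit 842997487993) (nat_lit 76) (nat_lit 84097958910) (nat_lit 76) (nat_lit 73866671118) (nat_lit 4) (nat_lit 4) (nat_lit 5) (nat_lit 5) (nat_lit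 5) (nat_lit 4) (nat_lit 498) (nat_lit 399) (nat_lit 303)) (XT.lf (nat_lit 0) (nat_lit 1026775206274) (nat_lit 76) (nat_lit 30818983585) (nat_lit 76) (nat_lit 20587226779) (nat_lit 4) (nat_lit 4) (nat_lit 5) (nat_lit 5) (nat_lit 5) (nat_lit 4) (nat_lit 499) (nat_lit 399) (nat_lit 302))) (XT.nd (nat_lit 78) (nat_lit 0) (nat_lit 0) (XT.lf (nat_lit 0) (nat_lit 37227516772) (nat_lit 152) (nat_lit 1096766535234) (nat_lit 0) (nat_lit 27482572890) (nat_lit 2) (nat_lit 5) (nat_lit 4) (nat_lit 4) (nat_lit 2) (nat_lit 4) (nat_lit 500) (nat_lit 399) (nat_lit 301)) (XT.lf (nat_lit 0) (nat_lit 100380638795) (nat_lit 152) (nat_lit 1060330900543) (nat_lit 0) (nat_lit 90635311957) (nat_lit 2) (nat_lit 5) (nat_lit 4) (nat_lit 4) (nat_lit 2) (nat_lit 4) (nat_lit 501) (nat_lit 399) (nat_lit 300))))) (XT.nd (nat_lit 54678) (nat_lit 0) (nat_lit 14516) (XT.nd (nat_lit 54522) (nat_lit 0) (nat_lit 15504) (XT.nd (nat_lit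 78) (nat_lit 0) (nat_lit 0) (XT.lf (nat_lit 0) (nat_lit 168581404373) (nat_lit 152) (nat_lit 1020989798807) (nat_lit 0) (nat_lit 158835722948) (nat_lit 2) (nat_lit 5) (nat_lit 4) (nat_lit 4) (nat_lit 2) (nat_lit 4) (nat_lit 502) (nat_lit 399) (nat_lit 299)) (XT.lf (nat_lit 0) (nat_lit 242233966193) (nat_lit 152) (nat_lit 978510097571) (nat_lit 0) (nat_lit 232487956445) (nat_lit 2) (nat_lit 5) (nat_lit 4) (nat_lit 4) (nat_lit 2) (nat_lit 4) (nat_lit 503) (nat_lit 399) (nat_lit 298))) (XT.nd (nat_lit 78) (nat_lit 76) (nat_lit 0) (XT.lf (nat_lit 0) (nat_lit 0) (nat_lit 0) (nat_lit 0) (nat_lit 0) (nat_lit 1073741823) (nat_lit 1) (nat_lit 0) (nat_lit 1) (nat_lit 0) (nat_lit 207) (nat_lit 0) (nat_lit 400) (nat_lit 400) (nat_lit 400)) (XT.lf (nat_lit 0) (nat_lit 4951958038) (nat_lit 76) (nat_lit 1290717939) (nat_lit 0) (nat_lit 208405269) (nat_lit 206) (nat_lit 5) (nat_lit 207) (nat_lit 0) (nat_lit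 206) (nat_lit 4) (nat_lit 401) (nat_lit 400) (nat_lit 399)))) (XT.nd (nat_lit 156) (nat_lit 608) (nat_lit 0) (XT.nd (nat_lit 78) (nat_lit 228) (nat_lit 0) (XT.lf (nat_lit 0) (nat_lit 3282871131) (nat_lit 152) (nat_lit 2405845440) (nat_lit 76) (nat_lit 790523361) (nat_lit 204) (nat_lit 5) (nat_lit 206) (nat_lit 5) (nat_lit 205) (nat_lit 4) (nat_lit 402) (nat_lit 400) (nat_lit 398)) (XT.lf (nat_lit 0) (nat_lit 1426437052) (nat_lit 228) (nat_lit 3350069882) (nat_lit 76) (nat_lit 1750549643) (nat_lit 201) (nat_lit 5) (nat_lit 204) (nat_lit 5) (nat_lit 202) (nat_lit 5) (nat_lit 403) (nat_lit 400) (nat_lit 397))) (XT.nd (nat_lit 78) (nat_lit 380) (nat_lit 0) (XT.lf (nat_lit 0) (nat_lit 2457338737) (nat_lit 228) (nat_lit 3488691827) (nat_lit 304) (nat_lit 648214951) (nat_lit 198) (nat_lit 5) (nat_lit 201) (nat_lit 5) (nat_lit 202) (nat_lit 5) (nat_lit 404) (nat_lit 400) (nat_lit 396)) (XT.lf (nat_lit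 0) (nat_lit 1895584357) (nat_lit 304) (nat_lit 1798767718) (nat_lit 380) (nat_lit 2985954160) (nat_lit 193) (nat_lit 5) (nat_lit 197) (nat_lit 5) (nat_lit 198) (nat_lit 5) (nat_lit 405) (nat_lit 400) (nat_lit 395))))))) (XT.nd (nat_lit 1170) (nat_lit 3116) (nat_lit 0) (XT.nd (nat_lit 546) (nat_lit 2736) (nat_lit 0) (XT.nd (nat_lit 234) (nat_lit 2584) (nat_lit 0) (XT.nd (nat_lit 78) (nat_lit 1064) (nat_lit 0) (XT.lf (nat_lit 0) (nat_lit 1238120621) (nat_lit 456) (nat_lit 5275931737) (nat_lit 76) (nat_lit 272512626) (nat_lit 187) (nat_lit 5) (nat_lit 193) (nat_lit 5) (nat_lit 188) (nat_lit 5) (nat_lit 406) (nat_lit 400) (nat_lit 394)) (XT.nd (nat_lit 78) (nat_lit 608) (nat_lit 0) (XT.lf (nat_lit 0) (nat_lit 1247868816) (nat_lit 456) (nat_lit 4209297418) (nat_lit 532) (nat_lit 1453710129) (nat_lit 181) (nat_lit 5) (nat_lit 187) (nat_lit 5) (nat_lit 188) (nat_lit 5) (nat_lit 407) (nat_lit 400) (nat_lit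 393)) (XT.lf (nat_lit 0) (nat_lit 1137525031) (nat_lit 532) (nat_lit 1490482990) (nat_lit 608) (nat_lit 4427158879) (nat_lit 173) (nat_lit 5) (nat_lit 180) (nat_lit 5) (nat_lit 181) (nat_lit 5) (nat_lit 408) (nat_lit 400) (nat_lit 392)))) (XT.nd (nat_lit 156) (nat_lit 1216) (nat_lit 0) (XT.nd (nat_lit 78) (nat_lit 760) (nat_lit 0) (XT.lf (nat_lit 0) (nat_lit 1169571505) (nat_lit 608) (nat_lit 5623704087) (nat_lit 684) (nat_lit 426203608) (nat_lit 165) (nat_lit 5) (nat_lit 173) (nat_lit 5) (nat_lit 174) (nat_lit 5) (nat_lit 409) (nat_lit 400) (nat_lit 391)) (XT.lf (nat_lit 0) (nat_lit 1302257252) (nat_lit 684) (nat_lit 2299399023) (nat_lit 760) (nat_lit 3800724683) (nat_lit 155) (nat_lit 5) (nat_lit 164) (nat_lit 5) (nat_lit 165) (nat_lit 5) (nat_lit 410) (nat_lit 400) (nat_lit 390))) (XT.nd (nat_lit 78) (nat_lit 380) (nat_lit 0) (XT.lf (nat_lit 0) (nat_lit 176978106) (nat_lit 836) (nat_lit 6021637649)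 (nat_lit 76) (nat_lit 1408212528) (nat_lit 144) (nat_lit 5) (nat_lit 155) (nat_lit 5) (nat_lit 145) (nat_lit 5) (nat_lit 411) (nat_lit 400) (nat_lit 389)) (XT.lf (nat_lit 0) (nat_lit 1944328387) (nat_lit 380) (nat_lit 2288105857) (nat_lit 456) (nat_lit 3597495410) (nat_lit 139) (nat_lit 5) (nat_lit 144) (nat_lit 5) (nat_lit 145) (nat_lit 5) (nat_lit 412) (nat_lit 400) (nat_lit 388))))) (XT.nd (nat_lit 312) (nat_lit 1216) (nat_lit 0) (XT.nd (nat_lit 156) (nat_lit 684) (nat_lit 0) (XT.nd (nat_lit 78) (nat_lit 380) (nat_lit 0) (XT.lf (nat_lit 0) (nat_lit 427990111) (nat_lit 456) (nat_lit 5633837229) (nat_lit 76) (nat_lit 2013478202) (nat_lit 133) (nat_lit 5) (nat_lit 139) (nat_lit 5) (nat_lit 134) (nat_lit 5) (nat_lit 413) (nat_lit 400) (nat_lit 387)) (XT.lf (nat_lit 0) (nat_lit 3014798425) (nat_lit 380) (nat_lit 1567988582) (nat_lit 456) (nat_lit 3757949690) (nat_lit 128) (nat_lit 5) (nat_lit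 133) (nat_lit 5) (nat_lit 134) (nat_lit 5) (nat_lit 414) (nat_lit 400) (nat_lit 386))) (XT.nd (nat_lit 78) (nat_lit 304) (nat_lit 0) (XT.lf (nat_lit 0) (nat_lit 392784615) (nat_lit 380) (nat_lit 4925171102) (nat_lit 76) (nat_lit 3310916790) (nat_lit 123) (nat_lit 5) (nat_lit 128) (nat_lit 5) (nat_lit 124) (nat_lit 5) (nat_lit 415) (nat_lit 400) (nat_lit 385)) (XT.lf (nat_lit 0) (nat_lit 4477770685) (nat_lit 304) (nat_lit 224517712) (nat_lit 380) (nat_lit 4236804223) (nat_lit 119) (nat_lit 5) (nat_lit 123) (nat_lit 5) (nat_lit 124) (nat_lit 5) (nat_lit 416) (nat_lit 400) (nat_lit 384)))) (XT.nd (nat_lit 156) (nat_lit 532) (nat_lit 0) (XT.nd (nat_lit 78) (nat_lit 304) (nat_lit 0) (XT.lf (nat_lit 0) (nat_lit 111523381) (nat_lit 380) (nat_lit 3930771084) (nat_lit 76) (nat_lit 5230213031) (nat_lit 114) (nat_lit 5) (nat_lit 119) (nat_lit 5) (nat_lit 115) (nat_lit 5) (nat_lit 417) (nat_lit 400) (nat_lit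 383)) (XT.lf (nat_lit 0) (nat_lit 4655709345) (nat_lit 380) (nat_lit 3349202074) (nat_lit 76) (nat_lit 1624416247) (nat_lit 110) (nat_lit 5) (nat_lit 115) (nat_lit 5) (nat_lit 111) (nat_lit 5) (nat_lit 418) (nat_lit 400) (nat_lit 382))) (XT.nd (nat_lit 78) (nat_lit 304) (nat_lit 0) (XT.lf (nat_lit 0) (nat_lit 7327814427) (nat_lit 228) (nat_lit 2285406522) (nat_lit 304) (nat_lit 399007361) (nat_lit 107) (nat_lit 5) (nat_lit 110) (nat_lit 5) (nat_lit 111) (nat_lit 5) (nat_lit 419) (nat_lit 400) (nat_lit 381)) (XT.lf (nat_lit 0) (nat_lit 4457275673) (nat_lit 304) (nat_lit 1999738718) (nat_lit 76) (nat_lit 3962169704) (nat_lit 103) (nat_lit 5) (nat_lit 107) (nat_lit 5) (nat_lit 104) (nat_lit 5) (nat_lit 420) (nat_lit 400) (nat_lit 380)))))) (XT.nd (nat_lit 546) (nat_lit 1368) (nat_lit 0) (XT.nd (nat_lit 234) (nat_lit 836) (nat_lit 0) (XT.nd (nat_lit 78) (nat_lit 684) (nat_lit 0) (XT.lf (nat_lit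 0) (nat_lit 9648534338) (nat_lit 228) (nat_lit 91059367) (nat_lit 304) (nat_lit 1116219924) (nat_lit 100) (nat_lit 5) (nat_lit 103) (nat_lit 5) (nat_lit 104) (nat_lit 5) (nat_lit 421) (nat_lit 400) (nat_lit 379)) (XT.nd (nat_lit 78) (nat_lit 380) (nat_lit 0) (XT.lf (nat_lit 0) (nat_lit 4123121225) (nat_lit 304) (nat_lit 429867103) (nat_lit 76) (nat_lit 6764300212) (nat_lit 96) (nat_lit 5) (nat_lit 100) (nat_lit 5) (nat_lit 97) (nat_lit 5) (nat_lit 422) (nat_lit 400) (nat_lit 378)) (XT.lf (nat_lit 0) (nat_lit 458287503) (nat_lit 228) (nat_lit 9375519748) (nat_lit 304) (nat_lit 1976410301) (nat_lit 91) (nat_lit 5) (nat_lit 94) (nat_lit 5) (nat_lit 95) (nat_lit 5) (nat_lit 423) (nat_lit 400) (nat_lit 377)))) (XT.nd (nat_lit 156) (nat_lit 380) (nat_lit 0) (XT.nd (nat_lit 78) (nat_lit 228) (nat_lit 0) (XT.lf (nat_lit 0) (nat_lit 1385456662) (nat_lit 152) (nat_lit 2300883675) (nat_lit 228) (nat_lit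 8646164889) (nat_lit 88) (nat_lit 5) (nat_lit 90) (nat_lit 5) (nat_lit 91) (nat_lit 5) (nat_lit 424) (nat_lit 400) (nat_lit 376)) (XT.lf (nat_lit 0) (nat_lit 2355563830) (nat_lit 228) (nat_lit 7536819933) (nat_lit 304) (nat_lit 2994609597) (nat_lit 85) (nat_lit 5) (nat_lit 88) (nat_lit 5) (nat_lit 89) (nat_lit 5) (nat_lit 425) (nat_lit 400) (nat_lit 375))) (XT.nd (nat_lit 78) (nat_lit 152) (nat_lit 0) (XT.lf (nat_lit 0) (nat_lit 3142445745) (nat_lit 228) (nat_lit 10079997797) (nat_lit 76) (nat_lit 254337387) (nat_lit 82) (nat_lit 5) (nat_lit 85) (nat_lit 5) (nat_lit 83) (nat_lit 5) (nat_lit 426) (nat_lit 400) (nat_lit 374)) (XT.lf (nat_lit 0) (nat_lit 4422466978) (nat_lit 152) (nat_lit 5476500214) (nat_lit 228) (nat_lit 4200669649) (nat_lit 80) (nat_lit 5) (nat_lit 82) (nat_lit 5) (nat_lit 83) (nat_lit 5) (nat_lit 427) (nat_lit 400) (nat_lit 373))))) (XT.nd (nat_lit 312) (nat_lit 608) (nat_lit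 0) (XT.nd (nat_lit 156) (nat_lit 380) (nat_lit 0) (XT.nd (nat_lit 78) (nat_lit 152) (nat_lit 0) (XT.lf (nat_lit 0) (nat_lit 2514694895) (nat_lit 228) (nat_lit 9236931438) (nat_lit 76) (nat_lit 3010383479) (nat_lit 77) (nat_lit 5) (nat_lit 80) (nat_lit 5) (nat_lit 78) (nat_lit 5) (nat_lit 428) (nat_lit 400) (nat_lit 372)) (XT.lf (nat_lit 0) (nat_lit 6628224043) (nat_lit 152) (nat_lit 3221197328) (nat_lit 228) (nat_lit 5613051744) (nat_lit 75) (nat_lit 5) (nat_lit 77) (nat_lit 5) (nat_lit 78) (nat_lit 5) (nat_lit 429) (nat_lit 400) (nat_lit 371))) (XT.nd (nat_lit 78) (nat_lit 152) (nat_lit 0) (XT.lf (nat_lit 0) (nat_lit 1750673332) (nat_lit 228) (nat_lit 8432901262) (nat_lit 76) (nat_lit 6021775530) (nat_lit 72) (nat_lit 5) (nat_lit 75) (nat_lit 5) (nat_lit 73) (nat_lit 5) (nat_lit 430) (nat_lit 400) (nat_lit 370)) (XT.lf (nat_lit 0) (nat_lit 8930400455) (nat_lit 152) (nat_lit 799098963) (nat_lit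 228) (nat_lit 7262431395) (nat_lit 70) (nat_lit 5) (nat_lit 72) (nat_lit 5) (nat_lit 73) (nat_lit 5) (nat_lit 431) (nat_lit 400) (nat_lit 369)))) (XT.nd (nat_lit 156) (nat_lit 304) (nat_lit 0) (XT.nd (nat_lit 78) (nat_lit 152) (nat_lit 0) (XT.lf (nat_lit 0) (nat_lit 821852546) (nat_lit 152) (nat_lit 7735333661) (nat_lit 76) (nat_lit 9267222337) (nat_lit 68) (nat_lit 5) (nat_lit 70) (nat_lit 5) (nat_lit 69) (nat_lit 5) (nat_lit 432) (nat_lit 400) (nat_lit 368)) (XT.lf (nat_lit 0) (nat_lit 9540081740) (nat_lit 228) (nat_lit 7465033490) (nat_lit 76) (nat_lit 1700340218) (nat_lit 66) (nat_lit 5) (nat_lit 69) (nat_lit 5) (nat_lit 67) (nat_lit 4) (nat_lit 433) (nat_lit 400) (nat_lit 367))) (XT.nd (nat_lit 78) (nat_lit 228) (nat_lit 0) (XT.lf (nat_lit 0) (nat_lit 12399242814) (nat_lit 76) (nat_lit 6914355004) (nat_lit 152) (nat_lit 325502325) (nat_lit 65) (nat_lit 5) (nat_lit 66) (nat_lit 5) (nat_lit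 67) (nat_lit 4) (nat_lit 434) (nat_lit 400) (nat_lit 366)) (XT.lf (nat_lit 0) (nat_lit 9225718684) (nat_lit 228) (nat_lit 7137148819) (nat_lit 76) (nat_lit 4262409642) (nat_lit 62) (nat_lit 5) (nat_lit 65) (nat_lit 5) (nat_lit 63) (nat_lit 4) (nat_lit 435) (nat_lit 400) (nat_lit 365))))))))
noncomputable def xc46 : XT := (XT.nd (nat_lit 2262) (nat_lit 1368) (nat_lit 0) (XT.nd (nat_lit 1092) (nat_lit 1368) (nat_lit 0) (XT.nd (nat_lit 546) (nat_lit 760) (nat_lit 0) (XT.nd (nat_lit 234) (nat_lit 532) (nat_lit 0) (XT.nd (nat_lit 78) (nat_lit 304) (nat_lit 0) (XT.lf (nat_lit 0) (nat_lit 14590730047) (nat_lit 76) (nat_lit 5302235012) (nat_lit 152) (nat_lit 1778954322) (nat_lit 61) (nat_lit 5) (nat_lit 62) (nat_lit 5) (nat_lit 63) (nat_lit 4) (nat_lit 436) (nat_lit 400) (nat_lit 364)) (XT.nd (nat_lit 78) (nat_lit 76) (nat_lit 0) (XT.lf (nat_lit 0) (nat_lit 8711543578) (nat_lit 228) (nat_lit 7207484160)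 (nat_lit 76) (nat_lit 6857753832) (nat_lit 58) (nat_lit 5) (nat_lit 61) (nat_lit 5) (nat_lit 59) (nat_lit 4) (nat_lit 437) (nat_lit 400) (nat_lit 363)) (XT.lf (nat_lit 0) (nat_lit 16537768799) (nat_lit 76) (nat_lit 3812577399) (nat_lit 152) (nat_lit 3599662481) (nat_lit 57) (nat_lit 5) (nat_lit 58) (nat_lit 5) (nat_lit 59) (nat_lit 4) (nat_lit 438) (nat_lit 400) (nat_lit 362)))) (XT.nd (nat_lit 156) (nat_lit 228) (nat_lit 0) (XT.nd (nat_lit 78) (nat_lit 76) (nat_lit 0) (XT.lf (nat_lit 0) (nat_lit 7909642801) (nat_lit 228) (nat_lit 7867391512) (nat_lit 76) (nat_lit 9411397817) (nat_lit 54) (nat_lit 5) (nat_lit 57) (nat_lit 5) (nat_lit 55) (nat_lit 4) (nat_lit 439) (nat_lit 400) (nat_lit 361)) (XT.lf (nat_lit 0) (nat_lit 18047436559) (nat_lit 76) (nat_lit 2549108354) (nat_lit 152) (nat_lit 5907288624) (nat_lit 53) (nat_lit 5) (nat_lit 54) (nat_lit 5) (nat_lit 55) (nat_lit 4) (nat_lit 440) (nat_lit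 400) (nat_lit 360))) (XT.nd (nat_lit 78) (nat_lit 76) (nat_lit 0) (XT.lf (nat_lit 0) (nat_lit 6699026856) (nat_lit 152) (nat_lit 9373555979) (nat_lit 76) (nat_lit 11820456081) (nat_lit 51) (nat_lit 5) (nat_lit 53) (nat_lit 5) (nat_lit 52) (nat_lit 4) (nat_lit 441) (nat_lit 400) (nat_lit 359)) (XT.lf (nat_lit 0) (nat_lit 18855872841) (nat_lit 76) (nat_lit 1650776872) (nat_lit 152) (nat_lit 8861903164) (nat_lit 50) (nat_lit 5) (nat_lit 51) (nat_lit 5) (nat_lit 52) (nat_lit 4) (nat_lit 442) (nat_lit 400) (nat_lit 358))))) (XT.nd (nat_lit 234) (nat_lit 380) (nat_lit 0) (XT.nd (nat_lit 78) (nat_lit 228) (nat_lit 0) (XT.lf (nat_lit 0) (nat_lit 4915728375) (nat_lit 152) (nat_lit 12068769030) (nat_lit 76) (nat_lit 13944053629) (nat_lit 48) (nat_lit 5) (nat_lit 50) (nat_lit 5) (nat_lit 49) (nat_lit 4) (nat_lit 443) (nat_lit 400) (nat_lit 357)) (XT.nd (nat_lit 78) (nat_lit 152) (nat_lit 0) (XT.lf (nat_lit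 0) (nat_lit 18605338630) (nat_lit 76) (nat_lit 1303718701) (nat_lit 152) (nat_lit 12675831600) (nat_lit 47) (nat_lit 5) (nat_lit 48) (nat_lit 5) (nat_lit 49) (nat_lit 4) (nat_lit 444) (nat_lit 400) (nat_lit 356)) (XT.lf (nat_lit 0) (nat_lit 2339882913) (nat_lit 152) (nat_lit 16408799031) (nat_lit 76) (nat_lit 15590350888) (nat_lit 45) (nat_lit 5) (nat_lit 47) (nat_lit 5) (nat_lit 46) (nat_lit 4) (nat_lit 445) (nat_lit 400) (nat_lit 355)))) (XT.nd (nat_lit 156) (nat_lit 228) (nat_lit 0) (XT.nd (nat_lit 78) (nat_lit 76) (nat_lit 0) (XT.lf (nat_lit 0) (nat_lit 16814490226) (nat_lit 76) (nat_lit 1756656107) (nat_lit 152) (nat_lit 17629053949) (nat_lit 44) (nat_lit 5) (nat_lit 45) (nat_lit 5) (nat_lit 46) (nat_lit 4) (nat_lit 446) (nat_lit 400) (nat_lit 354)) (XT.lf (nat_lit 0) (nat_lit 15156352347) (nat_lit 76) (nat_lit 21653701561) (nat_lit 76) (nat_lit 1364751567) (nat_lit 43) (nat_lit 4) (nat_lit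 44) (nat_lit 5) (nat_lit 44) (nat_lit 4) (nat_lit 447) (nat_lit 400) (nat_lit 353))) (XT.nd (nat_lit 78) (nat_lit 76) (nat_lit 0) (XT.lf (nat_lit 0) (nat_lit 12839877376) (nat_lit 76) (nat_lit 3340760113) (nat_lit 152) (nat_lit 24089172709) (nat_lit 41) (nat_lit 5) (nat_lit 42) (nat_lit 5) (nat_lit 43) (nat_lit 4) (nat_lit 448) (nat_lit 400) (nat_lit 352)) (XT.lf (nat_lit 0) (nat_lit 9759990715) (nat_lit 76) (nat_lit 26066483713) (nat_lit 76) (nat_lit 6667591896) (nat_lit 40) (nat_lit 4) (nat_lit 41) (nat_lit 5) (nat_lit 41) (nat_lit 4) (nat_lit 449) (nat_lit 400) (nat_lit 351)))))) (XT.nd (nat_lit 546) (nat_lit 684) (nat_lit 0) (XT.nd (nat_lit 234) (nat_lit 380) (nat_lit 0) (XT.nd (nat_lit 78) (nat_lit 152) (nat_lit 0) (XT.lf (nat_lit 0) (nat_lit 5826104352) (nat_lit 76) (nat_lit 6495293069) (nat_lit 152) (nat_lit 32537259366) (nat_lit 38) (nat_lit 5) (nat_lit 39) (nat_lit 5) (nat_lit 40) (nat_lit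 4) (nat_lit 450) (nat_lit 400) (nat_lit 350)) (XT.nd (nat_lit 78) (nat_lit 76) (nat_lit 0) (XT.lf (nat_lit 0) (nat_lit 796121278) (nat_lit 76) (nat_lit 32555158764) (nat_lit 76) (nat_lit 14017901501) (nat_lit 37) (nat_lit 4) (nat_lit 38) (nat_lit 5) (nat_lit 38) (nat_lit 4) (nat_lit 451) (nat_lit 400) (nat_lit 349)) (XT.lf (nat_lit 0) (nat_lit 6525745666) (nat_lit 152) (nat_lit 5187132760) (nat_lit 76) (nat_lit 38326288451) (nat_lit 36) (nat_lit 5) (nat_lit 38) (nat_lit 5) (nat_lit 37) (nat_lit 4) (nat_lit 452) (nat_lit 400) (nat_lit 348)))) (XT.nd (nat_lit 156) (nat_lit 228) (nat_lit 0) (XT.nd (nat_lit 78) (nat_lit 76) (nat_lit 0) (XT.lf (nat_lit 0) (nat_lit 28980222092) (nat_lit 152) (nat_lit 12618149083) (nat_lit 0) (nat_lit 11274967772) (nat_lit 35) (nat_lit 5) (nat_lit 37) (nat_lit 4) (nat_lit 35) (nat_lit 4) (nat_lit 453) (nat_lit 400) (nat_lit 347)) (XT.lf (nat_lit 0) (nat_lit 34371069017)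 (nat_lit 76) (nat_lit 19626346424) (nat_lit 76) (nat_lit 1898512157) (nat_lit 34) (nat_lit 4) (nat_lit 35) (nat_lit 5) (nat_lit 35) (nat_lit 4) (nat_lit 454) (nat_lit 400) (nat_lit 346))) (XT.nd (nat_lit 78) (nat_lit 76) (nat_lit 0) (XT.lf (nat_lit 0) (nat_lit 21819662459) (nat_lit 152) (nat_lit 32374325179) (nat_lit 0) (nat_lit 4916099006) (nat_lit 32) (nat_lit 5) (nat_lit 34) (nat_lit 4) (nat_lit 32) (nat_lit 4) (nat_lit 455) (nat_lit 400) (nat_lit 345)) (XT.lf (nat_lit 0) (nat_lit 17130316440) (nat_lit 76) (nat_lit 31162648638) (nat_lit 76) (nat_lit 14240648362) (nat_lit 31) (nat_lit 4) (nat_lit 32) (nat_lit 5) (nat_lit 32) (nat_lit 4) (nat_lit 456) (nat_lit 400) (nat_lit 344))))) (XT.nd (nat_lit 312) (nat_lit 304) (nat_lit 0) (XT.nd (nat_lit 156) (nat_lit 228) (nat_lit 0) (XT.nd (nat_lit 78) (nat_lit 0) (nat_lit 0) (XT.lf (nat_lit 0) (nat_lit 5438017050) (nat_lit 76) (nat_lit 5477635857)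 (nat_lit 152) (nat_lit 55276878302) (nat_lit 29) (nat_lit 5) (nat_lit 30) (nat_lit 5) (nat_lit 31) (nat_lit 4) (nat_lit 457) (nat_lit 400) (nat_lit 343)) (XT.lf (nat_lit 0) (nat_lit 38690664256) (nat_lit 152) (nat_lit 8843408153) (nat_lit 0) (nat_lit 22543161385) (nat_lit 29) (nat_lit 5) (nat_lit 31) (nat_lit 4) (nat_lit 29) (nat_lit 4) (nat_lit 458) (nat_lit 400) (nat_lit 342))) (XT.nd (nat_lit 78) (nat_lit 152) (nat_lit 0) (XT.lf (nat_lit 0) (nat_lit 48585006234) (nat_lit 76) (nat_lit 20904527809) (nat_lit 76) (nat_lit 4743086133) (nat_lit 28) (nat_lit 4) (nat_lit 29) (nat_lit 5) (nat_lit 29) (nat_lit 4) (nat_lit 459) (nat_lit 400) (nat_lit 341)) (XT.lf (nat_lit 0) (nat_lit 24022522433) (nat_lit 152) (nat_lit 46022782868) (nat_lit 0) (nat_lit 8618381502) (nat_lit 26) (nat_lit 5) (nat_lit 28) (nat_lit 4) (nat_lit 26) (nat_lit 4) (nat_lit 460) (nat_lit 400) (nat_lit 340)))) (XT.nd (nat_lit 156)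 (nat_lit 152) (nat_lit 0) (XT.nd (nat_lit 78) (nat_lit 76) (nat_lit 0) (XT.lf (nat_lit 0) (nat_lit 12963641174) (nat_lit 76) (nat_lit 42924492944) (nat_lit 76) (nat_lit 27508970796) (nat_lit 25) (nat_lit 4) (nat_lit 26) (nat_lit 5) (nat_lit 26) (nat_lit 4) (nat_lit 461) (nat_lit 400) (nat_lit 339)) (XT.lf (nat_lit 0) (nat_lit 2506260041) (nat_lit 152) (nat_lit 10288227228) (nat_lit 76) (nat_lit 75674815503) (nat_lit 24) (nat_lit 5) (nat_lit 26) (nat_lit 5) (nat_lit 25) (nat_lit 4) (nat_lit 462) (nat_lit 400) (nat_lit 338))) (XT.nd (nat_lit 78) (nat_lit 76) (nat_lit 0) (XT.lf (nat_lit 0) (nat_lit 35132655569) (nat_lit 152) (nat_lit 38301509893) (nat_lit 0) (nat_lit 20431876642) (nat_lit 23) (nat_lit 5) (nat_lit 25) (nat_lit 4) (nat_lit 23) (nat_lit 4) (nat_lit 463) (nat_lit 400) (nat_lit 337)) (XT.lf (nat_lit 0) (nat_lit 27962199533) (nat_lit 76) (nat_lit 43201001452) (nat_lit 76) (nat_lit 28491617975)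 (nat_lit 22) (nat_lit 4) (nat_lit 23) (nat_lit 5) (nat_lit 23) (nat_lit 4) (nat_lit 464) (nat_lit 400) (nat_lit 336))))))) (XT.nd (nat_lit 1170) (nat_lit 456) (nat_lit 0) (XT.nd (nat_lit 546) (nat_lit 456) (nat_lit 0) (XT.nd (nat_lit 234) (nat_lit 228) (nat_lit 0) (XT.nd (nat_lit 78) (nat_lit 152) (nat_lit 0) (XT.lf (nat_lit 0) (nat_lit 4674890946) (nat_lit 152) (nat_lit 5133824212) (nat_lit 76) (nat_lit 96062785754) (nat_lit 21) (nat_lit 5) (nat_lit 23) (nat_lit 5) (nat_lit 22) (nat_lit 4) (nat_lit 465) (nat_lit 400) (nat_lit 335)) (XT.nd (nat_lit 78) (nat_lit 76) (nat_lit 0) (XT.lf (nat_lit 0) (nat_lit 40975882338) (nat_lit 152) (nat_lit 44559980891) (nat_lit 0) (nat_lit 26952332178) (nat_lit 20) (nat_lit 5) (nat_lit 22) (nat_lit 4) (nat_lit 20) (nat_lit 4) (nat_lit 466) (nat_lit 400) (nat_lit 334)) (XT.lf (nat_lit 0) (nat_lit 28048327499) (nat_lit 76) (nat_lit 52791504840) (nat_lit 76) (nat_lit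 38761449376) (nat_lit 19) (nat_lit 4) (nat_lit 20) (nat_lit 5) (nat_lit 20) (nat_lit 4) (nat_lit 467) (nat_lit 400) (nat_lit 333)))) (XT.nd (nat_lit 156) (nat_lit 76) (nat_lit 0) (XT.nd (nat_lit 78) (nat_lit 152) (nat_lit 0) (XT.lf (nat_lit 0) (nat_lit 107988298048) (nat_lit 76) (nat_lit 16647037068) (nat_lit 76) (nat_lit 2610958174) (nat_lit 19) (nat_lit 4) (nat_lit 20) (nat_lit 5) (nat_lit 20) (nat_lit 4) (nat_lit 468) (nat_lit 400) (nat_lit 332)) (XT.lf (nat_lit 0) (nat_lit 36546020811) (nat_lit 152) (nat_lit 75691405934) (nat_lit 0) (nat_lit 23173014960) (nat_lit 17) (nat_lit 5) (nat_lit 19) (nat_lit 4) (nat_lit 17) (nat_lit 4) (nat_lit 469) (nat_lit 400) (nat_lit 331))) (XT.nd (nat_lit 78) (nat_lit 0) (nat_lit 0) (XT.lf (nat_lit 0) (nat_lit 1134601076) (nat_lit 76) (nat_lit 78219209318) (nat_lit 76) (nat_lit 64841285258) (nat_lit 16) (nat_lit 4) (nat_lit 17) (nat_lit 5) (nat_lit 17) (nat_lit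 4) (nat_lit 470) (nat_lit 400) (nat_lit 330)) (XT.lf (nat_lit 0) (nat_lit 86749852983) (nat_lit 76) (nat_lit 40125349049) (nat_lit 76) (nat_lit 26742871091) (nat_lit 16) (nat_lit 4) (nat_lit 17) (nat_lit 5) (nat_lit 17) (nat_lit 4) (nat_lit 471) (nat_lit 400) (nat_lit 329))))) (XT.nd (nat_lit 312) (nat_lit 228) (nat_lit 0) (XT.nd (nat_lit 156) (nat_lit 76) (nat_lit 0) (XT.nd (nat_lit 78) (nat_lit 0) (nat_lit 0) (XT.lf (nat_lit 0) (nat_lit 14181912712) (nat_lit 152) (nat_lit 148157077716) (nat_lit 0) (nat_lit 1432679826) (nat_lit 14) (nat_lit 5) (nat_lit 16) (nat_lit 4) (nat_lit 14) (nat_lit 4) (nat_lit 472) (nat_lit 400) (nat_lit 328)) (XT.lf (nat_lit 0) (nat_lit 59289762342) (nat_lit 152) (nat_lit 68796760257) (nat_lit 0) (nat_lit 46536811139) (nat_lit 14) (nat_lit 5) (nat_lit 16) (nat_lit 4) (nat_lit 14) (nat_lit 4) (nat_lit 473) (nat_lit 400) (nat_lit 327))) (XT.nd (nat_lit 78) (nat_lit 0)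 (nat_lit 0) (XT.lf (nat_lit 0) (nat_lit 17419257123) (nat_lit 76) (nat_lit 90833959282) (nat_lit 76) (nat_lit 78077565192) (nat_lit 13) (nat_lit 4) (nat_lit 14) (nat_lit 5) (nat_lit 14) (nat_lit 4) (nat_lit 474) (nat_lit 400) (nat_lit 326)) (XT.lf (nat_lit 0) (nat_lit 112940816731) (nat_lit 76) (nat_lit 49367432735) (nat_lit 76) (nat_lit 36607850787) (nat_lit 13) (nat_lit 4) (nat_lit 14) (nat_lit 5) (nat_lit 14) (nat_lit 4) (nat_lit 475) (nat_lit 400) (nat_lit 325)))) (XT.nd (nat_lit 156) (nat_lit 76) (nat_lit 0) (XT.nd (nat_lit 78) (nat_lit 0) (nat_lit 0) (XT.lf (nat_lit 0) (nat_lit 3535713618) (nat_lit 76) (nat_lit 4414650911) (nat_lit 152) (nat_lit 204549858923) (nat_lit 11) (nat_lit 5) (nat_lit 12) (nat_lit 5) (nat_lit 13) (nat_lit 4) (nat_lit 476) (nat_lit 400) (nat_lit 324)) (XT.lf (nat_lit 0) (nat_lit 56997222832) (nat_lit 152) (nat_lit 125193694066) (nat_lit 0) (nat_lit 44839825934)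 (nat_lit 11) (nat_lit 5) (nat_lit 13) (nat_lit 4) (nat_lit 11) (nat_lit 4) (nat_lit 477) (nat_lit 400) (nat_lit 323))) (XT.nd (nat_lit 78) (nat_lit 76) (nat_lit 0) (XT.lf (nat_lit 0) (nat_lit 110022040822) (nat_lit 152) (nat_lit 34836718663) (nat_lit 0) (nat_lit 97862233806) (nat_lit 11) (nat_lit 5) (nat_lit 13) (nat_lit 4) (nat_lit 11) (nat_lit 4) (nat_lit 478) (nat_lit 400) (nat_lit 322)) (XT.lf (nat_lit 0) (nat_lit 64784292122) (nat_lit 76) (nat_lit 103497286807) (nat_lit 76) (nat_lit 91335248200) (nat_lit 10) (nat_lit 4) (nat_lit 11) (nat_lit 5) (nat_lit 11) (nat_lit 4) (nat_lit 479) (nat_lit 400) (nat_lit 321)))))) (XT.nd (nat_lit 546) (nat_lit 228) (nat_lit 0) (XT.nd (nat_lit 234) (nat_lit 76) (nat_lit 0) (XT.nd (nat_lit 78) (nat_lit 152) (nat_lit 0) (XT.lf (nat_lit 0) (nat_lit 173582619676) (nat_lit 76) (nat_lit 58208183406) (nat_lit 76) (nat_lit 46044078510) (nat_lit 10) (nat_lit 4)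 (nat_lit 11) (nat_lit 5) (nat_lit 11) (nat_lit 4) (nat_lit 480) (nat_lit 400) (nat_lit 320)) (XT.nd (nat_lit 78) (nat_lit 76) (nat_lit 0) (XT.lf (nat_lit 0) (nat_lit 2761659105) (nat_lit 152) (nat_lit 6504616959) (nat_lit 76) (nat_lit 288242706443) (nat_lit 9) (nat_lit 5) (nat_lit 11) (nat_lit 5) (nat_lit 10) (nat_lit 4) (nat_lit 481) (nat_lit 400) (nat_lit 319)) (XT.lf (nat_lit 0) (nat_lit 56168442451) (nat_lit 152) (nat_lit 217855269334) (nat_lit 0) (nat_lit 44580071371) (nat_lit 8) (nat_lit 5) (nat_lit 10) (nat_lit 4) (nat_lit 8) (nat_lit 4) (nat_lit 482) (nat_lit 400) (nat_lit 318)))) (XT.nd (nat_lit 156) (nat_lit 76) (nat_lit 0) (XT.nd (nat_lit 78) (nat_lit 0) (nat_lit 0) (XT.lf (nat_lit 0) (nat_lit 114104013915) (nat_lit 152) (nat_lit 124755261064) (nat_lit 0) (nat_lit 102514080658) (nat_lit 8) (nat_lit 5) (nat_lit 10) (nat_lit 4) (nat_lit 8) (nat_lit 4) (nat_lit 483) (nat_lit 400) (nat_lit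 317)) (XT.lf (nat_lit 0) (nat_lit 176660389799) (nat_lit 152) (nat_lit 24235796150) (nat_lit 0) (nat_lit 165069010081) (nat_lit 8) (nat_lit 5) (nat_lit 10) (nat_lit 4) (nat_lit 8) (nat_lit 4) (nat_lit 484) (nat_lit 400) (nat_lit 316))) (XT.nd (nat_lit 78) (nat_lit 0) (nat_lit 0) (XT.lf (nat_lit 0) (nat_lit 87086095220) (nat_lit 76) (nat_lit 158481837336) (nat_lit 76) (nat_lit 146889118302) (nat_lit 7) (nat_lit 4) (nat_lit 8) (nat_lit 5) (nat_lit 8) (nat_lit 4) (nat_lit 485) (nat_lit 400) (nat_lit 315)) (XT.lf (nat_lit 0) (nat_lit 208153909318) (nat_lit 76) (nat_lit 112243908491) (nat_lit 76) (nat_lit 100649949351) (nat_lit 7) (nat_lit 4) (nat_lit 8) (nat_lit 5) (nat_lit 8) (nat_lit 4) (nat_lit 486) (nat_lit 400) (nat_lit 314))))) (XT.nd (nat_lit 312) (nat_lit 76) (nat_lit 0) (XT.nd (nat_lit 156) (nat_lit 76) (nat_lit 0) (XT.nd (nat_lit 78) (nat_lit 76) (nat_lit 0) (XT.lf (nat_lit 0) (nat_lit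 338883740169) (nat_lit 76) (nat_lit 62318841810) (nat_lit 76) (nat_lit 50723734423) (nat_lit 7) (nat_lit 4) (nat_lit 8) (nat_lit 5) (nat_lit 8) (nat_lit 4) (nat_lit 487) (nat_lit 400) (nat_lit 313)) (XT.lf (nat_lit 0) (nat_lit 3083433302) (nat_lit 152) (nat_lit 5275132307) (nat_lit 76) (nat_lit 476914630327) (nat_lit 6) (nat_lit 5) (nat_lit 8) (nat_lit 5) (nat_lit 7) (nat_lit 4) (nat_lit 488) (nat_lit 400) (nat_lit 312))) (XT.nd (nat_lit 78) (nat_lit 0) (nat_lit 0) (XT.lf (nat_lit 0) (nat_lit 62032196682) (nat_lit 152) (nat_lit 408096058469) (nat_lit 0) (nat_lit 50987287143) (nat_lit 5) (nat_lit 5) (nat_lit 7) (nat_lit 4) (nat_lit 5) (nat_lit 4) (nat_lit 489) (nat_lit 400) (nat_lit 311)) (XT.lf (nat_lit 0) (nat_lit 125921449674) (nat_lit 152) (nat_lit 319016925260) (nat_lit 0) (nat_lit 114875672026) (nat_lit 5) (nat_lit 5) (nat_lit 7) (nat_lit 4) (nat_lit 5) (nat_lit 4) (nat_lit 490) (nat_lit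 400) (nat_lit 310)))) (XT.nd (nat_lit 156) (nat_lit 76) (nat_lit 0) (XT.nd (nat_lit 78) (nat_lit 0) (nat_lit 0) (XT.lf (nat_lit 0) (nat_lit 194912817049) (nat_lit 152) (nat_lit 222829830677) (nat_lit 0) (nat_lit 183866235595) (nat_lit 5) (nat_lit 5) (nat_lit 7) (nat_lit 4) (nat_lit 5) (nat_lit 4) (nat_lit 491) (nat_lit 400) (nat_lit 309)) (XT.lf (nat_lit 0) (nat_lit 269415136538) (nat_lit 152) (nat_lit 118964777122) (nat_lit 0) (nat_lit 258367810820) (nat_lit 5) (nat_lit 5) (nat_lit 7) (nat_lit 4) (nat_lit 5) (nat_lit 4) (nat_lit 492) (nat_lit 400) (nat_lit 308))) (XT.nd (nat_lit 78) (nat_lit 76) (nat_lit 0) (XT.lf (nat_lit 0) (nat_lit 349869903368) (nat_lit 152) (nat_lit 6806267980) (nat_lit 0) (nat_lit 338821888516) (nat_lit 5) (nat_lit 5) (nat_lit 7) (nat_lit 4) (nat_lit 5) (nat_lit 4) (nat_lit 493) (nat_lit 400) (nat_lit 307)) (XT.lf (nat_lit 0) (nat_lit 118089955836) (nat_lit 76) (nat_lit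 320507645848) (nat_lit 76) (nat_lit 309458992910) (nat_lit 4) (nat_lit 4) (nat_lit 5) (nat_lit 5) (nat_lit 5) (nat_lit 4) (nat_lit 494) (nat_lit 400) (nat_lit 306))))))))
noncomputable def xc47 : XT := (XT.nd (nat_lit 56784) (nat_lit 0) (nat_lit 2736) (XT.nd (nat_lit 55614) (nat_lit 0) (nat_lit 7448) (XT.nd (nat_lit 546) (nat_lit 0) (nat_lit 0) (XT.nd (nat_lit 234) (nat_lit 152) (nat_lit 0) (XT.nd (nat_lit 78) (nat_lit 0) (nat_lit 0) (XT.lf (nat_lit 0) (nat_lit 253206978785) (nat_lit 76) (nat_lit 281328245829) (nat_lit 76) (nat_lit 270279002070) (nat_lit 4) (nat_lit 4) (nat_lit 5) (nat_lit 5) (nat_lit 5) (nat_lit 4) (nat_lit 495) (nat_lit 400) (nat_lit 305)) (XT.nd (nat_lit 78) (nat_lit 0) (nat_lit 0) (XT.lf (nat_lit 0) (nat_lit 399120448379) (nat_lit 76) (nat_lit 239021064511) (nat_lit 76) (nat_lit 227971273695) (nat_lit 4) (nat_lit 4) (nat_lit 5) (nat_lit 5) (nat_lit 5) (nat_lit 4) (nat_lit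 496) (nat_lit 400) (nat_lit 304)) (XT.lf (nat_lit 0) (nat_lit 556695037030) (nat_lit 76) (nat_lit 193335392670) (nat_lit 76) (nat_lit 182285095320) (nat_lit 4) (nat_lit 4) (nat_lit 5) (nat_lit 5) (nat_lit 5) (nat_lit 4) (nat_lit 497) (nat_lit 400) (nat_lit 303)))) (XT.nd (nat_lit 156) (nat_lit 152) (nat_lit 0) (XT.nd (nat_lit 78) (nat_lit 0) (nat_lit 0) (XT.lf (nat_lit 0) (nat_lit 726864520078) (nat_lit 76) (nat_lit 144000500401) (nat_lit 76) (nat_lit 132949734038) (nat_lit 4) (nat_lit 4) (nat_lit 5) (nat_lit 5) (nat_lit 5) (nat_lit 4) (nat_lit 498) (nat_lit 400) (nat_lit 302)) (XT.lf (nat_lit 0) (nat_lit 910637309274) (nat_lit 76) (nat_lit 90724032784) (nat_lit 76) (nat_lit 79672832150) (nat_lit 4) (nat_lit 4) (nat_lit 5) (nat_lit 5) (nat_lit 5) (nat_lit 4) (nat_lit 499) (nat_lit 400) (nat_lit 301))) (XT.nd (nat_lit 78) (nat_lit 152) (nat_lit 0) (XT.lf (nat_lit 0) (nat_lit 1109102428555) (nat_lit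 76) (nat_lit 33190277421) (nat_lit 76) (nat_lit 22138674684) (nat_lit 4) (nat_lit 4) (nat_lit 5) (nat_lit 5) (nat_lit 5) (nat_lit 4) (nat_lit 500) (nat_lit 400) (nat_lit 300)) (XT.lf (nat_lit 0) (nat_lit 40295583416) (nat_lit 152) (nat_lit 1184324785086) (nat_lit 0) (nat_lit 29769892889) (nat_lit 2) (nat_lit 5) (nat_lit 4) (nat_lit 4) (nat_lit 2) (nat_lit 4) (nat_lit 501) (nat_lit 400) (nat_lit 299))))) (XT.nd (nat_lit 54756) (nat_lit 0) (nat_lit 14060) (XT.nd (nat_lit 54600) (nat_lit 0) (nat_lit 15048) (XT.nd (nat_lit 78) (nat_lit 0) (nat_lit 0) (XT.lf (nat_lit 0) (nat_lit 108494298512) (nat_lit 152) (nat_lit 1144987860580) (nat_lit 0) (nat_lit 97968279662) (nat_lit 2) (nat_lit 5) (nat_lit 4) (nat_lit 4) (nat_lit 2) (nat_lit 4) (nat_lit 502) (nat_lit 400) (nat_lit 298)) (XT.lf (nat_lit 0) (nat_lit 182144961736) (nat_lit 152) (nat_lit 1102512027150) (nat_lit 0) (nat_lit 171618638883) (nat_lit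 2) (nat_lit 5) (nat_lit 4) (nat_lit 4) (nat_lit 2) (nat_lit 4) (nat_lit 503) (nat_lit 400) (nat_lit 297))) (XT.nd (nat_lit 78) (nat_lit 228) (nat_lit 0) (XT.lf (nat_lit 0) (nat_lit 1542568622) (nat_lit 228) (nat_lit 846098628) (nat_lit 228) (nat_lit 846098628) (nat_lit 203) (nat_lit 3) (nat_lit 206) (nat_lit 3) (nat_lit 206) (nat_lit 5) (nat_lit 401) (nat_lit 401) (nat_lit 398)) (XT.lf (nat_lit 0) (nat_lit 1034054300) (nat_lit 228) (nat_lit 3002611820) (nat_lit 304) (nat_lit 2471193094) (nat_lit 200) (nat_lit 5) (nat_lit 203) (nat_lit 3) (nat_lit 204) (nat_lit 5) (nat_lit 402) (nat_lit 401) (nat_lit 397)))) (XT.nd (nat_lit 156) (nat_lit 684) (nat_lit 0) (XT.nd (nat_lit 78) (nat_lit 304) (nat_lit 0) (XT.lf (nat_lit 76) (nat_lit 2401592887) (nat_lit 0) (nat_lit 2912401573) (nat_lit 304) (nat_lit 1251269261) (nat_lit 201) (nat_lit 5) (nat_lit 200) (nat_lit 5) (nat_lit 204) (nat_lit 5) (nat_lit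 403) (nat_lit 401) (nat_lit 396)) (XT.lf (nat_lit 76) (nat_lit 1462972746) (nat_lit 0) (nat_lit 1395913137) (nat_lit 380) (nat_lit 3783105979) (nat_lit 197) (nat_lit 5) (nat_lit 196) (nat_lit 5) (nat_lit 201) (nat_lit 5) (nat_lit 404) (nat_lit 401) (nat_lit 395))) (XT.nd (nat_lit 78) (nat_lit 380) (nat_lit 0) (XT.lf (nat_lit 0) (nat_lit 206657725) (nat_lit 380) (nat_lit 6041981349) (nat_lit 76) (nat_lit 490196370) (nat_lit 192) (nat_lit 5) (nat_lit 197) (nat_lit 5) (nat_lit 193) (nat_lit 5) (nat_lit 405) (nat_lit 401) (nat_lit 394)) (XT.lf (nat_lit 0) (nat_lit 37074307) (nat_lit 380) (nat_lit 4091954164) (nat_lit 456) (nat_lit 2724081097) (nat_lit 187) (nat_lit 5) (nat_lit 192) (nat_lit 5) (nat_lit 193) (nat_lit 5) (nat_lit 406) (nat_lit 401) (nat_lit 393)))))) (XT.nd (nat_lit 546) (nat_lit 2888) (nat_lit 0) (XT.nd (nat_lit 234) (nat_lit 2584) (nat_lit 0) (XT.nd (nat_lit 78) (nat_lit 1064) (nat_lit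 0) (XT.lf (nat_lit 0) (nat_lit 1097378378) (nat_lit 456) (nat_lit 440878611) (nat_lit 76) (nat_lit 5449599143) (nat_lit 186) (nat_lit 5) (nat_lit 192) (nat_lit 5) (nat_lit 187) (nat_lit 5) (nat_lit 407) (nat_lit 401) (nat_lit 392)) (XT.nd (nat_lit 78) (nat_lit 608) (nat_lit 0) (XT.lf (nat_lit 0) (nat_lit 4924754707) (nat_lit 532) (nat_lit 808299578) (nat_lit 76) (nat_lit 1408380582) (nat_lit 180) (nat_lit 5) (nat_lit 187) (nat_lit 5) (nat_lit 181) (nat_lit 5) (nat_lit 408) (nat_lit 401) (nat_lit 391)) (XT.lf (nat_lit 0) (nat_lit 1518033694) (nat_lit 608) (nat_lit 1058387717) (nat_lit 76) (nat_lit 4738418055) (nat_lit 172) (nat_lit 5) (nat_lit 180) (nat_lit 5) (nat_lit 173) (nat_lit 5) (nat_lit 409) (nat_lit 401) (nat_lit 390)))) (XT.nd (nat_lit 156) (nat_lit 1216) (nat_lit 0) (XT.nd (nat_lit 78) (nat_lit 760) (nat_lit 0) (XT.lf (nat_lit 0) (nat_lit 5312451709) (nat_lit 684) (nat_lit 1196101033)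 (nat_lit 76) (nat_lit 999872198) (nat_lit 164) (nat_lit 5) (nat_lit 173) (nat_lit 5) (nat_lit 165) (nat_lit 5) (nat_lit 410) (nat_lit 401) (nat_lit 389)) (XT.lf (nat_lit 0) (nat_lit 1527370720) (nat_lit 760) (nat_lit 1242270799) (nat_lit 76) (nat_lit 4952151125) (nat_lit 154) (nat_lit 5) (nat_lit 164) (nat_lit 5) (nat_lit 155) (nat_lit 5) (nat_lit 411) (nat_lit 401) (nat_lit 388))) (XT.nd (nat_lit 78) (nat_lit 456) (nat_lit 0) (XT.lf (nat_lit 0) (nat_lit 5361453017) (nat_lit 836) (nat_lit 1189775811) (nat_lit 76) (nat_lit 1404755427) (nat_lit 144) (nat_lit 5) (nat_lit 155) (nat_lit 5) (nat_lit 145) (nat_lit 5) (nat_lit 412) (nat_lit 401) (nat_lit 387)) (XT.lf (nat_lit 0) (nat_lit 1186309127) (nat_lit 456) (nat_lit 1048768874) (nat_lit 76) (nat_lit 5976145392) (nat_lit 138) (nat_lit 5) (nat_lit 144) (nat_lit 5) (nat_lit 139) (nat_lit 5) (nat_lit 413) (nat_lit 401) (nat_lit 386))))) (XT.nd (nat_lit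 312) (nat_lit 1140) (nat_lit 0) (XT.nd (nat_lit 156) (nat_lit 912) (nat_lit 0) (XT.nd (nat_lit 78) (nat_lit 456) (nat_lit 0) (XT.lf (nat_lit 0) (nat_lit 5126995462) (nat_lit 456) (nat_lit 837499910) (nat_lit 76) (nat_lit 2522882298) (nat_lit 133) (nat_lit 5) (nat_lit 139) (nat_lit 5) (nat_lit 134) (nat_lit 5) (nat_lit 414) (nat_lit 401) (nat_lit 385)) (XT.lf (nat_lit 0) (nat_lit 541634785) (nat_lit 456) (nat_lit 521194677) (nat_lit 76) (nat_lit 7724188812) (nat_lit 127) (nat_lit 5) (nat_lit 133) (nat_lit 5) (nat_lit 128) (nat_lit 5) (nat_lit 415) (nat_lit 401) (nat_lit 384))) (XT.nd (nat_lit 78) (nat_lit 608) (nat_lit 0) (XT.lf (nat_lit 0) (nat_lit 4651908212) (nat_lit 380) (nat_lit 176245418) (nat_lit 76) (nat_lit 4279060641) (nat_lit 123) (nat_lit 5) (nat_lit 128) (nat_lit 5) (nat_lit 124) (nat_lit 5) (nat_lit 416) (nat_lit 401) (nat_lit 383)) (XT.lf (nat_lit 0) (nat_lit 300217342) (nat_lit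 304) (nat_lit 8784989608) (nat_lit 380) (nat_lit 368136495) (nat_lit 115) (nat_lit 5) (nat_lit 119) (nat_lit 5) (nat_lit 120) (nat_lit 5) (nat_lit 417) (nat_lit 401) (nat_lit 382)))) (XT.nd (nat_lit 156) (nat_lit 532) (nat_lit 0) (XT.nd (nat_lit 78) (nat_lit 228) (nat_lit 0) (XT.lf (nat_lit 0) (nat_lit 790979119) (nat_lit 304) (nat_lit 3189700089) (nat_lit 380) (nat_lit 5840141165) (nat_lit 110) (nat_lit 5) (nat_lit 114) (nat_lit 5) (nat_lit 115) (nat_lit 5) (nat_lit 418) (nat_lit 401) (nat_lit 381)) (XT.lf (nat_lit 0) (nat_lit 1384591175) (nat_lit 228) (nat_lit 7320922124) (nat_lit 304) (nat_lit 1509852456) (nat_lit 107) (nat_lit 5) (nat_lit 110) (nat_lit 5) (nat_lit 111) (nat_lit 5) (nat_lit 419) (nat_lit 401) (nat_lit 380))) (XT.nd (nat_lit 78) (nat_lit 228) (nat_lit 0) (XT.lf (nat_lit 0) (nat_lit 2031188226) (nat_lit 228) (nat_lit 1099458742) (nat_lit 304) (nat_lit 7505118201) (nat_lit 103)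 (nat_lit 5) (nat_lit 106) (nat_lit 5) (nat_lit 107) (nat_lit 5) (nat_lit 420) (nat_lit 401) (nat_lit 379)) (XT.lf (nat_lit 0) (nat_lit 2721009595) (nat_lit 228) (nat_lit 5484108826) (nat_lit 304) (nat_lit 2877677479) (nat_lit 100) (nat_lit 5) (nat_lit 103) (nat_lit 5) (nat_lit 104) (nat_lit 5) (nat_lit 421) (nat_lit 401) (nat_lit 378))))))) (XT.nd (nat_lit 1170) (nat_lit 1824) (nat_lit 0) (XT.nd (nat_lit 546) (nat_lit 1368) (nat_lit 0) (XT.nd (nat_lit 234) (nat_lit 760) (nat_lit 0) (XT.nd (nat_lit 78) (nat_lit 456) (nat_lit 0) (XT.lf (nat_lit 0) (nat_lit 2134629759) (nat_lit 304) (nat_lit 8063024744) (nat_lit 76) (nat_lit 1362169771) (nat_lit 96) (nat_lit 5) (nat_lit 100) (nat_lit 5) (nat_lit 97) (nat_lit 5) (nat_lit 422) (nat_lit 401) (nat_lit 377)) (XT.nd (nat_lit 78) (nat_lit 304) (nat_lit 0) (XT.lf (nat_lit 0) (nat_lit 4292172615) (nat_lit 152) (nat_lit 3306027259) (nat_lit 228) (nat_lit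 4466916448) (nat_lit 94) (nat_lit 5) (nat_lit 96) (nat_lit 5) (nat_lit 97) (nat_lit 5) (nat_lit 423) (nat_lit 401) (nat_lit 376)) (XT.lf (nat_lit 0) (nat_lit 999330409) (nat_lit 304) (nat_lit 7433848486) (nat_lit 76) (nat_lit 4169986452) (nat_lit 90) (nat_lit 5) (nat_lit 94) (nat_lit 5) (nat_lit 91) (nat_lit 5) (nat_lit 424) (nat_lit 401) (nat_lit 375)))) (XT.nd (nat_lit 156) (nat_lit 380) (nat_lit 0) (XT.nd (nat_lit 78) (nat_lit 228) (nat_lit 0) (XT.lf (nat_lit 0) (nat_lit 6080909243) (nat_lit 152) (nat_lit 810375789) (nat_lit 228) (nat_lit 6282078803) (nat_lit 88) (nat_lit 5) (nat_lit 90) (nat_lit 5) (nat_lit 91) (nat_lit 5) (nat_lit 425) (nat_lit 401) (nat_lit 374)) (XT.lf (nat_lit 0) (nat_lit 7043782565) (nat_lit 228) (nat_lit 6428933322) (nat_lit 304) (nat_lit 305567709) (nat_lit 85) (nat_lit 5) (nat_lit 88) (nat_lit 5) (nat_lit 89) (nat_lit 5) (nat_lit 426) (nat_lit 401) (nat_lit 373)))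 (XT.nd (nat_lit 78) (nat_lit 152) (nat_lit 0) (XT.lf (nat_lit 0) (nat_lit 6113882286) (nat_lit 228) (nat_lit 6383996608) (nat_lit 76) (nat_lit 1920846556) (nat_lit 82) (nat_lit 5) (nat_lit 85) (nat_lit 5) (nat_lit 83) (nat_lit 5) (nat_lit 427) (nat_lit 401) (nat_lit 372)) (XT.lf (nat_lit 0) (nat_lit 9082996487) (nat_lit 152) (nat_lit 4193684609) (nat_lit 228) (nat_lit 1821455467) (nat_lit 80) (nat_lit 5) (nat_lit 82) (nat_lit 5) (nat_lit 83) (nat_lit 5) (nat_lit 428) (nat_lit 401) (nat_lit 371))))) (XT.nd (nat_lit 312) (nat_lit 608) (nat_lit 0) (XT.nd (nat_lit 156) (nat_lit 380) (nat_lit 0) (XT.nd (nat_lit 78) (nat_lit 152) (nat_lit 0) (XT.lf (nat_lit 0) (nat_lit 5241755211) (nat_lit 228) (nat_lit 5674498400) (nat_lit 76) (nat_lit 4900262786) (nat_lit 77) (nat_lit 5) (nat_lit 80) (nat_lit 5) (nat_lit 78) (nat_lit 5) (nat_lit 429) (nat_lit 401) (nat_lit 370)) (XT.lf (nat_lit 0) (nat_lit 11272936459)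 (nat_lit 152) (nat_lit 1767458940) (nat_lit 228) (nat_lit 3538776436) (nat_lit 75) (nat_lit 5) (nat_lit 77) (nat_lit 5) (nat_lit 78) (nat_lit 5) (nat_lit 430) (nat_lit 401) (nat_lit 369))) (XT.nd (nat_lit 78) (nat_lit 152) (nat_lit 0) (XT.lf (nat_lit 0) (nat_lit 4241375293) (nat_lit 228) (nat_lit 5004522371) (nat_lit 76) (nat_lit 8138217454) (nat_lit 72) (nat_lit 5) (nat_lit 75) (nat_lit 5) (nat_lit 73) (nat_lit 5) (nat_lit 431) (nat_lit 401) (nat_lit 368)) (XT.lf (nat_lit 0) (nat_lit 12758523868) (nat_lit 228) (nat_lit 4682605568) (nat_lit 76) (nat_lit 797501680) (nat_lit 70) (nat_lit 5) (nat_lit 73) (nat_lit 5) (nat_lit 71) (nat_lit 4) (nat_lit 432) (nat_lit 401) (nat_lit 367)))) (XT.nd (nat_lit 156) (nat_lit 304) (nat_lit 0) (XT.nd (nat_lit 78) (nat_lit 152) (nat_lit 0) (XT.lf (nat_lit 0) (nat_lit 3079375452) (nat_lit 152) (nat_lit 4445496707) (nat_lit 76) (nat_lit 11615793687) (nat_lit 68)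 (nat_lit 5) (nat_lit 70) (nat_lit 5) (nat_lit 69) (nat_lit 5) (nat_lit 433) (nat_lit 401) (nat_lit 366)) (XT.lf (nat_lit 0) (nat_lit 12416859208) (nat_lit 228) (nat_lit 4244726623) (nat_lit 76) (nat_lit 3434528759) (nat_lit 66) (nat_lit 5) (nat_lit 69) (nat_lit 5) (nat_lit 67) (nat_lit 4) (nat_lit 434) (nat_lit 401) (nat_lit 365))) (XT.nd (nat_lit 78) (nat_lit 152) (nat_lit 0) (XT.lf (nat_lit 0) (nat_lit 1706836213) (nat_lit 152) (nat_lit 4094177771) (nat_lit 76) (nat_lit 15307045161) (nat_lit 64) (nat_lit 5) (nat_lit 66) (nat_lit 5) (nat_lit 65) (nat_lit 5) (nat_lit 435) (nat_lit 401) (nat_lit 364)) (XT.lf (nat_lit 0) (nat_lit 11939895764) (nat_lit 228) (nat_lit 4077833674) (nat_lit 76) (nat_lit 6158683272) (nat_lit 62) (nat_lit 5) (nat_lit 65) (nat_lit 5) (nat_lit 63) (nat_lit 4) (nat_lit 436) (nat_lit 401) (nat_lit 363)))))) (XT.nd (nat_lit 546) (nat_lit 912) (nat_lit 0) (XT.nd (nat_lit 234)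 (nat_lit 532) (nat_lit 0) (XT.nd (nat_lit 78) (nat_lit 228) (nat_lit 0) (XT.lf (nat_lit 0) (nat_lit 55134897) (nat_lit 152) (nat_lit 4081782094) (nat_lit 76) (nat_lit 19174439016) (nat_lit 60) (nat_lit 5) (nat_lit 62) (nat_lit 5) (nat_lit 61) (nat_lit 5) (nat_lit 437) (nat_lit 401) (nat_lit 362)) (XT.nd (nat_lit 78) (nat_lit 76) (nat_lit 0) (XT.lf (nat_lit 0) (nat_lit 11258640048) (nat_lit 228) (nat_lit 4334782803) (nat_lit 76) (nat_lit 8912926761) (nat_lit 58) (nat_lit 5) (nat_lit 61) (nat_lit 5) (nat_lit 59) (nat_lit 4) (nat_lit 438) (nat_lit 401) (nat_lit 361)) (XT.lf (nat_lit 0) (nat_lit 21160188014) (nat_lit 76) (nat_lit 2582821858) (nat_lit 152) (nat_lit 2034706745) (nat_lit 57) (nat_lit 5) (nat_lit 58) (nat_lit 5) (nat_lit 59) (nat_lit 4) (nat_lit 439) (nat_lit 401) (nat_lit 360)))) (XT.nd (nat_lit 156) (nat_lit 228) (nat_lit 0) (XT.nd (nat_lit 78) (nat_lit 76) (nat_lit 0) (XT.lf (nat_lit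 0) (nat_lit 10276785783) (nat_lit 228) (nat_lit 5221837930) (nat_lit 76) (nat_lit 11618110655) (nat_lit 54) (nat_lit 5) (nat_lit 57) (nat_lit 5) (nat_lit 55) (nat_lit 4) (nat_lit 440) (nat_lit 401) (nat_lit 359)) (XT.lf (nat_lit 0) (nat_lit 22623851273) (nat_lit 76) (nat_lit 1275225799) (nat_lit 152) (nat_lit 4642272948) (nat_lit 53) (nat_lit 5) (nat_lit 54) (nat_lit 5) (nat_lit 55) (nat_lit 4) (nat_lit 441) (nat_lit 401) (nat_lit 358))) (XT.nd (nat_lit 78) (nat_lit 76) (nat_lit 0) (XT.lf (nat_lit 0) (nat_lit 8862513049) (nat_lit 152) (nat_lit 7015979819) (nat_lit 76) (nat_lit 14164567068) (nat_lit 51) (nat_lit 5) (nat_lit 53) (nat_lit 5) (nat_lit 52) (nat_lit 4) (nat_lit 442) (nat_lit 401) (nat_lit 357)) (XT.lf (nat_lit 0) (nat_lit 23336756854) (nat_lit 76) (nat_lit 363836296) (nat_lit 152) (nat_lit 7939732744) (nat_lit 50) (nat_lit 5) (nat_lit 51) (nat_lit 5) (nat_lit 52) (nat_lit 4) (nat_lit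 443) (nat_lit 401) (nat_lit 356))))) (XT.nd (nat_lit 312) (nat_lit 456) (nat_lit 0) (XT.nd (nat_lit 156) (nat_lit 228) (nat_lit 0) (XT.nd (nat_lit 78) (nat_lit 76) (nat_lit 0) (XT.lf (nat_lit 0) (nat_lit 6837758151) (nat_lit 152) (nat_lit 10087307755) (nat_lit 76) (nat_lit 16401294797) (nat_lit 48) (nat_lit 5) (nat_lit 50) (nat_lit 5) (nat_lit 49) (nat_lit 4) (nat_lit 444) (nat_lit 401) (nat_lit 355)) (XT.lf (nat_lit 0) (nat_lit 22912657105) (nat_lit 76) (nat_lit 48664778) (nat_lit 152) (nat_lit 12157347980) (nat_lit 47) (nat_lit 5) (nat_lit 48) (nat_lit 5) (nat_lit 49) (nat_lit 4) (nat_lit 445) (nat_lit 401) (nat_lit 354))) (XT.nd (nat_lit 78) (nat_lit 76) (nat_lit 0) (XT.lf (nat_lit 0) (nat_lit 3964231398) (nat_lit 152) (nat_lit 14928032661) (nat_lit 76) (nat_lit 18122004245) (nat_lit 45) (nat_lit 5) (nat_lit 47) (nat_lit 5) (nat_lit 46) (nat_lit 4) (nat_lit 446) (nat_lit 401) (nat_lit 353))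 (XT.lf (nat_lit 0) (nat_lit 20831718922) (nat_lit 76) (nat_lit 597539325) (nat_lit 152) (nat_lit 17598309953) (nat_lit 44) (nat_lit 5) (nat_lit 45) (nat_lit 5) (nat_lit 46) (nat_lit 4) (nat_lit 447) (nat_lit 401) (nat_lit 352)))) (XT.nd (nat_lit 156) (nat_lit 228) (nat_lit 0) (XT.nd (nat_lit 78) (nat_lit 152) (nat_lit 0) (XT.lf (nat_lit 0) (nat_lit 18971060532) (nat_lit 76) (nat_lit 22113972892) (nat_lit 76) (nat_lit 77222641) (nat_lit 43) (nat_lit 4) (nat_lit 44) (nat_lit 5) (nat_lit 44) (nat_lit 4) (nat_lit 448) (nat_lit 401) (nat_lit 351)) (XT.lf (nat_lit 0) (nat_lit 16398962634) (nat_lit 76) (nat_lit 2367512905) (nat_lit 152) (nat_lit 24660327999) (nat_lit 41) (nat_lit 5) (nat_lit 42) (nat_lit 5) (nat_lit 43) (nat_lit 4) (nat_lit 449) (nat_lit 401) (nat_lit 350))) (XT.nd (nat_lit 78) (nat_lit 152) (nat_lit 0) (XT.lf (nat_lit 0) (nat_lit 13005910269) (nat_lit 76) (nat_lit 26938831455) (nat_lit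 76) (nat_lit 5886221955) (nat_lit 40) (nat_lit 4) (nat_lit 41) (nat_lit 5) (nat_lit 41) (nat_lit 4) (nat_lit 450) (nat_lit 401) (nat_lit 349)) (XT.lf (nat_lit 0) (nat_lit 8690452827) (nat_lit 76) (nat_lit 5832522365) (nat_lit 152) (nat_lit 33863562775) (nat_lit 38) (nat_lit 5) (nat_lit 39) (nat_lit 5) (nat_lit 40) (nat_lit 4) (nat_lit 451) (nat_lit 401) (nat_lit 348))))))))
noncomputable def xc48 : XT := (XT.nd (nat_lit 2262) (nat_lit 608) (nat_lit 0) (XT.nd (nat_lit 1092) (nat_lit 912) (nat_lit 0) (XT.nd (nat_lit 546) (nat_lit 532) (nat_lit 0) (XT.nd (nat_lit 234) (nat_lit 456) (nat_lit 0) (XT.nd (nat_lit 78) (nat_lit 152) (nat_lit 0) (XT.lf (nat_lit 0) (nat_lit 3194356002) (nat_lit 76) (nat_lit 34004370107) (nat_lit 76) (nat_lit 13901006048) (nat_lit 37) (nat_lit 4) (nat_lit 38) (nat_lit 5) (nat_lit 38) (nat_lit 4) (nat_lit 452) (nat_lit 401) (nat_lit 347)) (XT.nd (nat_lit 78) (nat_lit 76)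 (nat_lit 0) (XT.lf (nat_lit 0) (nat_lit 8157706575) (nat_lit 152) (nat_lit 3403774522) (nat_lit 76) (nat_lit 42425309317) (nat_lit 36) (nat_lit 5) (nat_lit 38) (nat_lit 5) (nat_lit 37) (nat_lit 4) (nat_lit 453) (nat_lit 401) (nat_lit 346)) (XT.lf (nat_lit 0) (nat_lit 32375429525) (nat_lit 152) (nat_lit 11488042186) (nat_lit 0) (nat_lit 13185881212) (nat_lit 35) (nat_lit 5) (nat_lit 37) (nat_lit 4) (nat_lit 35) (nat_lit 4) (nat_lit 454) (nat_lit 401) (nat_lit 345)))) (XT.nd (nat_lit 156) (nat_lit 228) (nat_lit 0) (XT.nd (nat_lit 78) (nat_lit 152) (nat_lit 0) (XT.lf (nat_lit 0) (nat_lit 39167330743) (nat_lit 76) (nat_lit 20178858192) (nat_lit 76) (nat_lit 969951213) (nat_lit 34) (nat_lit 4) (nat_lit 35) (nat_lit 5) (nat_lit 35) (nat_lit 4) (nat_lit 455) (nat_lit 401) (nat_lit 344)) (XT.lf (nat_lit 0) (nat_lit 24580182322) (nat_lit 152) (nat_lit 32939038693) (nat_lit 0) (nat_lit 6268914066) (nat_lit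 32) (nat_lit 5) (nat_lit 34) (nat_lit 4) (nat_lit 32) (nat_lit 4) (nat_lit 456) (nat_lit 401) (nat_lit 343))) (XT.nd (nat_lit 78) (nat_lit 152) (nat_lit 0) (XT.lf (nat_lit 0) (nat_lit 20437960119) (nat_lit 76) (nat_lit 32688453191) (nat_lit 76) (nat_lit 14361378330) (nat_lit 31) (nat_lit 4) (nat_lit 32) (nat_lit 5) (nat_lit 32) (nat_lit 4) (nat_lit 457) (nat_lit 401) (nat_lit 342)) (XT.lf (nat_lit 0) (nat_lit 7757279380) (nat_lit 76) (nat_lit 4973935246) (nat_lit 152) (nat_lit 58709594499) (nat_lit 29) (nat_lit 5) (nat_lit 30) (nat_lit 5) (nat_lit 31) (nat_lit 4) (nat_lit 458) (nat_lit 401) (nat_lit 341))))) (XT.nd (nat_lit 234) (nat_lit 304) (nat_lit 0) (XT.nd (nat_lit 78) (nat_lit 228) (nat_lit 0) (XT.lf (nat_lit 0) (nat_lit 42672042735) (nat_lit 152) (nat_lit 7776214446) (nat_lit 0) (nat_lit 25190840619) (nat_lit 29) (nat_lit 5) (nat_lit 31) (nat_lit 4) (nat_lit 29) (nat_lit 4) (nat_lit 459)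 (nat_lit 401) (nat_lit 340)) (XT.nd (nat_lit 78) (nat_lit 152) (nat_lit 0) (XT.lf (nat_lit 0) (nat_lit 54169348254) (nat_lit 76) (nat_lit 21726338318) (nat_lit 76) (nat_lit 4233185922) (nat_lit 28) (nat_lit 4) (nat_lit 29) (nat_lit 5) (nat_lit 29) (nat_lit 4) (nat_lit 460) (nat_lit 401) (nat_lit 339)) (XT.lf (nat_lit 0) (nat_lit 26780143550) (nat_lit 152) (nat_lit 48025380102) (nat_lit 0) (nat_lit 10109460247) (nat_lit 26) (nat_lit 5) (nat_lit 28) (nat_lit 4) (nat_lit 26) (nat_lit 4) (nat_lit 461) (nat_lit 401) (nat_lit 338)))) (XT.nd (nat_lit 156) (nat_lit 152) (nat_lit 0) (XT.nd (nat_lit 78) (nat_lit 76) (nat_lit 0) (XT.lf (nat_lit 0) (nat_lit 15606980774) (nat_lit 76) (nat_lit 45551188891) (nat_lit 76) (nat_lit 28870748028) (nat_lit 25) (nat_lit 4) (nat_lit 26) (nat_lit 5) (nat_lit 26) (nat_lit 4) (nat_lit 462) (nat_lit 401) (nat_lit 337)) (XT.lf (nat_lit 0) (nat_lit 3458695194) (nat_lit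 152) (nat_lit 9599150490) (nat_lit 76) (nat_lit 82451398971) (nat_lit 24) (nat_lit 5) (nat_lit 26) (nat_lit 5) (nat_lit 25) (nat_lit 4) (nat_lit 463) (nat_lit 401) (nat_lit 336))) (XT.nd (nat_lit 78) (nat_lit 76) (nat_lit 0) (XT.lf (nat_lit 0) (nat_lit 38673446078) (nat_lit 152) (nat_lit 39894625091) (nat_lit 0) (nat_lit 22770740197) (nat_lit 23) (nat_lit 5) (nat_lit 25) (nat_lit 4) (nat_lit 23) (nat_lit 4) (nat_lit 464) (nat_lit 401) (nat_lit 335)) (XT.lf (nat_lit 0) (nat_lit 31606252979) (nat_lit 76) (nat_lit 45948063307) (nat_lit 76) (nat_lit 30037980411) (nat_lit 22) (nat_lit 4) (nat_lit 23) (nat_lit 5) (nat_lit 23) (nat_lit 4) (nat_lit 465) (nat_lit 401) (nat_lit 334)))))) (XT.nd (nat_lit 546) (nat_lit 456) (nat_lit 0) (XT.nd (nat_lit 234) (nat_lit 228) (nat_lit 0) (XT.nd (nat_lit 78) (nat_lit 152) (nat_lit 0) (XT.lf (nat_lit 0) (nat_lit 5705833592) (nat_lit 152) (nat_lit 4219954599) (nat_lit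 76) (nat_lit 104382580975) (nat_lit 21) (nat_lit 5) (nat_lit 23) (nat_lit 5) (nat_lit 22) (nat_lit 4) (nat_lit 466) (nat_lit 401) (nat_lit 333)) (XT.nd (nat_lit 78) (nat_lit 76) (nat_lit 0) (XT.lf (nat_lit 0) (nat_lit 44891998488) (nat_lit 152) (nat_lit 46836336485) (nat_lit 0) (nat_lit 29727009854) (nat_lit 20) (nat_lit 5) (nat_lit 22) (nat_lit 4) (nat_lit 20) (nat_lit 4) (nat_lit 467) (nat_lit 401) (nat_lit 332)) (XT.lf (nat_lit 0) (nat_lit 31524642419) (nat_lit 76) (nat_lit 56392401414) (nat_lit 76) (nat_lit 41221835530) (nat_lit 19) (nat_lit 4) (nat_lit 20) (nat_lit 5) (nat_lit 20) (nat_lit 4) (nat_lit 468) (nat_lit 401) (nat_lit 331)))) (XT.nd (nat_lit 156) (nat_lit 76) (nat_lit 0) (XT.nd (nat_lit 78) (nat_lit 152) (nat_lit 0) (XT.lf (nat_lit 0) (nat_lit 117768518114) (nat_lit 76) (nat_lit 17402481688) (nat_lit 76) (nat_lit 2226751684) (nat_lit 19) (nat_lit 4) (nat_lit 20) (nat_lit 5) (nat_lit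 20) (nat_lit 4) (nat_lit 469) (nat_lit 401) (nat_lit 330)) (XT.lf (nat_lit 0) (nat_lit 40027359180) (nat_lit 152) (nat_lit 80618302964) (nat_lit 0) (nat_lit 25569729088) (nat_lit 17) (nat_lit 5) (nat_lit 19) (nat_lit 4) (nat_lit 17) (nat_lit 4) (nat_lit 470) (nat_lit 401) (nat_lit 329))) (XT.nd (nat_lit 78) (nat_lit 0) (nat_lit 0) (XT.lf (nat_lit 0) (nat_lit 2304745047) (nat_lit 76) (nat_lit 83930571062) (nat_lit 76) (nat_lit 69468724397) (nat_lit 16) (nat_lit 4) (nat_lit 17) (nat_lit 5) (nat_lit 17) (nat_lit 4) (nat_lit 471) (nat_lit 401) (nat_lit 328)) (XT.lf (nat_lit 0) (nat_lit 94689263337) (nat_lit 76) (nat_lit 42829659379) (nat_lit 76) (nat_lit 28363908481) (nat_lit 16) (nat_lit 4) (nat_lit 17) (nat_lit 5) (nat_lit 17) (nat_lit 4) (nat_lit 472) (nat_lit 401) (nat_lit 327))))) (XT.nd (nat_lit 312) (nat_lit 228) (nat_lit 0) (XT.nd (nat_lit 156) (nat_lit 76) (nat_lit 0) (XT.nd (nat_lit 78)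 (nat_lit 0) (nat_lit 0) (XT.lf (nat_lit 0) (nat_lit 15803951712) (nat_lit 152) (nat_lit 159021472405) (nat_lit 0) (nat_lit 2023603208) (nat_lit 14) (nat_lit 5) (nat_lit 16) (nat_lit 4) (nat_lit 14) (nat_lit 4) (nat_lit 473) (nat_lit 401) (nat_lit 326)) (XT.lf (nat_lit 0) (nat_lit 64484319240) (nat_lit 152) (nat_lit 73385527441) (nat_lit 0) (nat_lit 50700782879) (nat_lit 14) (nat_lit 5) (nat_lit 16) (nat_lit 4) (nat_lit 14) (nat_lit 4) (nat_lit 474) (nat_lit 401) (nat_lit 325))) (XT.nd (nat_lit 78) (nat_lit 0) (nat_lit 0) (XT.lf (nat_lit 0) (nat_lit 19688007690) (nat_lit 76) (nat_lit 97657071165) (nat_lit 76) (nat_lit 83870583083) (nat_lit 13) (nat_lit 4) (nat_lit 14) (nat_lit 5) (nat_lit 14) (nat_lit 4) (nat_lit 475) (nat_lit 401) (nat_lit 324)) (XT.lf (nat_lit 0) (nat_lit 122786461698) (nat_lit 76) (nat_lit 52906082114) (nat_lit 76) (nat_lit 39116860958) (nat_lit 13) (nat_lit 4) (nat_lit 14)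 (nat_lit 5) (nat_lit 14) (nat_lit 4) (nat_lit 476) (nat_lit 401) (nat_lit 323)))) (XT.nd (nat_lit 156) (nat_lit 76) (nat_lit 0) (XT.nd (nat_lit 78) (nat_lit 0) (nat_lit 0) (XT.lf (nat_lit 0) (nat_lit 4606580575) (nat_lit 76) (nat_lit 4368215696) (nat_lit 152) (nat_lit 220506023355) (nat_lit 11) (nat_lit 5) (nat_lit 12) (nat_lit 5) (nat_lit 13) (nat_lit 4) (nat_lit 477) (nat_lit 401) (nat_lit 322)) (XT.lf (nat_lit 0) (nat_lit 61922409518) (nat_lit 152) (nat_lit 134467344609) (nat_lit 0) (nat_lit 48785176231) (nat_lit 11) (nat_lit 5) (nat_lit 13) (nat_lit 4) (nat_lit 11) (nat_lit 4) (nat_lit 478) (nat_lit 401) (nat_lit 321))) (XT.nd (nat_lit 78) (nat_lit 76) (nat_lit 0) (XT.lf (nat_lit 0) (nat_lit 119162145625) (nat_lit 152) (nat_lit 36936762654) (nat_lit 0) (nat_lit 106022846049) (nat_lit 11) (nat_lit 5) (nat_lit 13) (nat_lit 4) (nat_lit 11) (nat_lit 4) (nat_lit 479) (nat_lit 401) (nat_lit 320))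 (XT.lf (nat_lit 0) (nat_lit 70624077439) (nat_lit 76) (nat_lit 111443565271) (nat_lit 76) (nat_lit 98302352466) (nat_lit 10) (nat_lit 4) (nat_lit 11) (nat_lit 5) (nat_lit 11) (nat_lit 4) (nat_lit 480) (nat_lit 401) (nat_lit 319))))))) (XT.nd (nat_lit 1170) (nat_lit 152) (nat_lit 0) (XT.nd (nat_lit 546) (nat_lit 228) (nat_lit 0) (XT.nd (nat_lit 234) (nat_lit 76) (nat_lit 0) (XT.nd (nat_lit 78) (nat_lit 152) (nat_lit 0) (XT.lf (nat_lit 0) (nat_lit 188077601424) (nat_lit 76) (nat_lit 62556037633) (nat_lit 76) (nat_lit 49413053319) (nat_lit 10) (nat_lit 4) (nat_lit 11) (nat_lit 5) (nat_lit 11) (nat_lit 4) (nat_lit 481) (nat_lit 401) (nat_lit 318)) (XT.nd (nat_lit 78) (nat_lit 76) (nat_lit 0) (XT.lf (nat_lit 0) (nat_lit 3264521334) (nat_lit 152) (nat_lit 6452355864) (nat_lit 76) (nat_lit 311578726414) (nat_lit 9) (nat_lit 5) (nat_lit 11) (nat_lit 5) (nat_lit 10) (nat_lit 4) (nat_lit 482) (nat_lit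 401) (nat_lit 317)) (XT.lf (nat_lit 0) (nat_lit 60935858164) (nat_lit 152) (nat_lit 234726808076) (nat_lit 0) (nat_lit 48415721608) (nat_lit 8) (nat_lit 5) (nat_lit 10) (nat_lit 4) (nat_lit 8) (nat_lit 4) (nat_lit 483) (nat_lit 401) (nat_lit 316)))) (XT.nd (nat_lit 156) (nat_lit 76) (nat_lit 0) (XT.nd (nat_lit 78) (nat_lit 0) (nat_lit 0) (XT.lf (nat_lit 0) (nat_lit 123485983470) (nat_lit 152) (nat_lit 134220049723) (nat_lit 0) (nat_lit 110964507598) (nat_lit 8) (nat_lit 5) (nat_lit 10) (nat_lit 4) (nat_lit 8) (nat_lit 4) (nat_lit 484) (nat_lit 401) (nat_lit 315)) (XT.lf (nat_lit 0) (nat_lit 191028080650) (nat_lit 152) (nat_lit 25697222596) (nat_lit 0) (nat_lit 178505364672) (nat_lit 8) (nat_lit 5) (nat_lit 10) (nat_lit 4) (nat_lit 8) (nat_lit 4) (nat_lit 485) (nat_lit 401) (nat_lit 314))) (XT.nd (nat_lit 78) (nat_lit 0) (nat_lit 0) (XT.lf (nat_lit 0) (nat_lit 94509671243) (nat_lit 76) (nat_lit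 170928288758) (nat_lit 76) (nat_lit 158404424533) (nat_lit 7) (nat_lit 4) (nat_lit 8) (nat_lit 5) (nat_lit 8) (nat_lit 4) (nat_lit 486) (nat_lit 401) (nat_lit 313)) (XT.lf (nat_lit 0) (nat_lit 225229081698) (nat_lit 76) (nat_lit 121008517871) (nat_lit 76) (nat_lit 108483590454) (nat_lit 7) (nat_lit 4) (nat_lit 8) (nat_lit 5) (nat_lit 8) (nat_lit 4) (nat_lit 487) (nat_lit 401) (nat_lit 312))))) (XT.nd (nat_lit 312) (nat_lit 76) (nat_lit 0) (XT.nd (nat_lit 156) (nat_lit 76) (nat_lit 0) (XT.nd (nat_lit 78) (nat_lit 76) (nat_lit 0) (XT.lf (nat_lit 0) (nat_lit 366385976081) (nat_lit 76) (nat_lit 67105364618) (nat_lit 76) (nat_lit 54579452765) (nat_lit 7) (nat_lit 4) (nat_lit 8) (nat_lit 5) (nat_lit 8) (nat_lit 4) (nat_lit 488) (nat_lit 401) (nat_lit 311)) (XT.lf (nat_lit 0) (nat_lit 3511320353) (nat_lit 152) (nat_lit 5328616644) (nat_lit 76) (nat_lit 515246053428) (nat_lit 6) (nat_lit 5) (nat_lit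 8) (nat_lit 5) (nat_lit 7) (nat_lit 4) (nat_lit 489) (nat_lit 401) (nat_lit 310))) (XT.nd (nat_lit 78) (nat_lit 0) (nat_lit 0) (XT.lf (nat_lit 0) (nat_lit 67170863429) (nat_lit 152) (nat_lit 440385365519) (nat_lit 0) (nat_lit 55239751653) (nat_lit 5) (nat_lit 5) (nat_lit 7) (nat_lit 4) (nat_lit 5) (nat_lit 4) (nat_lit 490) (nat_lit 401) (nat_lit 309)) (XT.lf (nat_lit 0) (nat_lit 136158212883) (nat_lit 152) (nat_lit 344206448144) (nat_lit 0) (nat_lit 124226356843) (nat_lit 5) (nat_lit 5) (nat_lit 7) (nat_lit 4) (nat_lit 5) (nat_lit 4) (nat_lit 491) (nat_lit 401) (nat_lit 308)))) (XT.nd (nat_lit 156) (nat_lit 76) (nat_lit 0) (XT.nd (nat_lit 78) (nat_lit 0) (nat_lit 0) (XT.lf (nat_lit 0) (nat_lit 210656812074) (nat_lit 152) (nat_lit 240348966079) (nat_lit 0) (nat_lit 198724266901) (nat_lit 5) (nat_lit 5) (nat_lit 7) (nat_lit 4) (nat_lit 5) (nat_lit 4) (nat_lit 492) (nat_lit 401) (nat_lit 307))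 (XT.lf (nat_lit 0) (nat_lit 291108134184) (nat_lit 152) (nat_lit 128197467576) (nat_lit 0) (nat_lit 279174950924) (nat_lit 5) (nat_lit 5) (nat_lit 7) (nat_lit 4) (nat_lit 5) (nat_lit 4) (nat_lit 493) (nat_lit 401) (nat_lit 306))) (XT.nd (nat_lit 78) (nat_lit 76) (nat_lit 0) (XT.lf (nat_lit 0) (nat_lit 377988927789) (nat_lit 152) (nat_lit 7087351164) (nat_lit 0) (nat_lit 366055153707) (nat_lit 5) (nat_lit 5) (nat_lit 7) (nat_lit 4) (nat_lit 5) (nat_lit 4) (nat_lit 494) (nat_lit 401) (nat_lit 305)) (XT.lf (nat_lit 0) (nat_lit 127789122721) (nat_lit 76) (nat_lit 346020065647) (nat_lit 76) (nat_lit 334085744509) (nat_lit 4) (nat_lit 4) (nat_lit 5) (nat_lit 5) (nat_lit 5) (nat_lit 4) (nat_lit 495) (nat_lit 401) (nat_lit 304)))))) (XT.nd (nat_lit 546) (nat_lit 0) (nat_lit 0) (XT.nd (nat_lit 234) (nat_lit 152) (nat_lit 0) (XT.nd (nat_lit 78) (nat_lit 0) (nat_lit 0) (XT.lf (nat_lit 0) (nat_lit 273696843031)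 (nat_lit 76) (nat_lit 303715809320) (nat_lit 76) (nat_lit 291780981649) (nat_lit 4) (nat_lit 4) (nat_lit 5) (nat_lit 5) (nat_lit 5) (nat_lit 4) (nat_lit 496) (nat_lit 401) (nat_lit 303)) (XT.nd (nat_lit 78) (nat_lit 0) (nat_lit 0) (XT.lf (nat_lit 0) (nat_lit 431266108271) (nat_lit 76) (nat_lit 258032845806) (nat_lit 76) (nat_lit 246097549121) (nat_lit 4) (nat_lit 4) (nat_lit 5) (nat_lit 5) (nat_lit 5) (nat_lit 4) (nat_lit 497) (nat_lit 401) (nat_lit 302)) (XT.lf (nat_lit 0) (nat_lit 601430662234) (nat_lit 76) (nat_lit 208700461245) (nat_lit 76) (nat_lit 196764730289) (nat_lit 4) (nat_lit 4) (nat_lit 5) (nat_lit 5) (nat_lit 5) (nat_lit 4) (nat_lit 498) (nat_lit 401) (nat_lit 301)))) (XT.nd (nat_lit 156) (nat_lit 152) (nat_lit 0) (XT.nd (nat_lit 78) (nat_lit 0) (nat_lit 0) (XT.lf (nat_lit 0) (nat_lit 785198887464) (nat_lit 76) (nat_lit 155426315582) (nat_lit 76) (nat_lit 143490182523) (nat_lit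 4) (nat_lit 4) (nat_lit 5) (nat_lit 5) (nat_lit 5) (nat_lit 4) (nat_lit 499) (nat_lit 401) (nat_lit 300)) (XT.lf (nat_lit 0) (nat_lit 983659780849) (nat_lit 76) (nat_lit 97894710175) (nat_lit 76) (nat_lit 85958204799) (nat_lit 4) (nat_lit 4) (nat_lit 5) (nat_lit 5) (nat_lit 5) (nat_lit 4) (nat_lit 500) (nat_lit 401) (nat_lit 299))) (XT.nd (nat_lit 78) (nat_lit 152) (nat_lit 0) (XT.lf (nat_lit 0) (nat_lit 1197989406944) (nat_lit 76) (nat_lit 35764716992) (nat_lit 76) (nat_lit 23827866877) (nat_lit 4) (nat_lit 4) (nat_lit 5) (nat_lit 5) (nat_lit 5) (nat_lit 4) (nat_lit 501) (nat_lit 401) (nat_lit 298)) (XT.lf (nat_lit 0) (nat_lit 43596275102) (nat_lit 152) (nat_lit 1278913812331) (nat_lit 0) (nat_lit 32227542420) (nat_lit 2) (nat_lit 5) (nat_lit 4) (nat_lit 4) (nat_lit 2) (nat_lit 4) (nat_lit 502) (nat_lit 401) (nat_lit 297))))) (XT.nd (nat_lit 54834) (nat_lit 0) (nat_lit 13528) (XT.nd (nat_lit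 54678) (nat_lit 0) (nat_lit 14668) (XT.nd (nat_lit 54600) (nat_lit 0) (nat_lit 15048) (XT.lf (nat_lit 0) (nat_lit 117245180367) (nat_lit 152) (nat_lit 1236441560203) (nat_lit 0) (nat_lit 105876166201) (nat_lit 2) (nat_lit 5) (nat_lit 4) (nat_lit 4) (nat_lit 2) (nat_lit 4) (nat_lit 503) (nat_lit 401) (nat_lit 296)) (XT.lf (nat_lit 0) (nat_lit 1275952212) (nat_lit 0) (nat_lit 1275952212) (nat_lit 228) (nat_lit 725904715) (nat_lit 200) (nat_lit 5) (nat_lit 200) (nat_lit 3) (nat_lit 203) (nat_lit 3) (nat_lit 402) (nat_lit 402) (nat_lit 396))) (XT.nd (nat_lit 78) (nat_lit 0) (nat_lit 76) (XT.lf (nat_lit 76) (nat_lit 1233232216) (nat_lit 0) (nat_lit 1209386399) (nat_lit 380) (nat_lit 4180261067) (nat_lit 196) (nat_lit 5) (nat_lit 195) (nat_lit 3) (nat_lit 200) (nat_lit 5) (nat_lit 403) (nat_lit 402) (nat_lit 395)) (XT.lf (nat_lit 76) (nat_lit 79876713) (nat_lit 0) (nat_lit 6205284658) (nat_lit 380)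 (nat_lit 424892748) (nat_lit 197) (nat_lit 5) (nat_lit 196) (nat_lit 5) (nat_lit 201) (nat_lit 5) (nat_lit 404) (nat_lit 402) (nat_lit 394)))) (XT.nd (nat_lit 156) (nat_lit 380) (nat_lit 0) (XT.nd (nat_lit 78) (nat_lit 456) (nat_lit 0) (XT.lf (nat_lit 0) (nat_lit 3260658511) (nat_lit 380) (nat_lit 934243673) (nat_lit 456) (nat_lit 2619249980) (nat_lit 191) (nat_lit 5) (nat_lit 196) (nat_lit 5) (nat_lit 197) (nat_lit 5) (nat_lit 405) (nat_lit 402) (nat_lit 393)) (XT.lf (nat_lit 0) (nat_lit 24236049) (nat_lit 456) (nat_lit 1782615063) (nat_lit 532) (nat_lit 5132522231) (nat_lit 185) (nat_lit 5) (nat_lit 191) (nat_lit 5) (nat_lit 192) (nat_lit 5) (nat_lit 406) (nat_lit 402) (nat_lit 392))) (XT.nd (nat_lit 78) (nat_lit 456) (nat_lit 0) (XT.lf (nat_lit 0) (nat_lit 3543573035) (nat_lit 456) (nat_lit 2538768485) (nat_lit 76) (nat_lit 1000430928) (nat_lit 186) (nat_lit 5) (nat_lit 192) (nat_lit 5) (nat_lit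 187) (nat_lit 5) (nat_lit 407) (nat_lit 402) (nat_lit 391)) (XT.lf (nat_lit 0) (nat_lit 4077138143) (nat_lit 456) (nat_lit 3089665691) (nat_lit 532) (nat_lit 79784553) (nat_lit 180) (nat_lit 5) (nat_lit 186) (nat_lit 5) (nat_lit 187) (nat_lit 5) (nat_lit 408) (nat_lit 402) (nat_lit 390))))))))
noncomputable def xc49 : XT := (XT.nd (nat_lit 2262) (nat_lit 3116) (nat_lit 0) (XT.nd (nat_lit 1092) (nat_lit 2888) (nat_lit 0) (XT.nd (nat_lit 546) (nat_lit 2052) (nat_lit 0) (XT.nd (nat_lit 234) (nat_lit 2052) (nat_lit 0) (XT.nd (nat_lit 78) (nat_lit 1368) (nat_lit 0) (XT.lf (nat_lit 0) (nat_lit 3359346866) (nat_lit 608) (nat_lit 3709140341) (nat_lit 76) (nat_lit 361223446) (nat_lit 172) (nat_lit 5) (nat_lit 180) (nat_lit 5) (nat_lit 173) (nat_lit 5) (nat_lit 409) (nat_lit 402) (nat_lit 389)) (XT.nd (nat_lit 78) (nat_lit 760) (nat_lit 0) (XT.lf (nat_lit 0) (nat_lit 3476098959) (nat_lit 608) (nat_lit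 3487138800) (nat_lit 684) (nat_lit 669609161) (nat_lit 164) (nat_lit 5) (nat_lit 172) (nat_lit 5) (nat_lit 173) (nat_lit 5) (nat_lit 410) (nat_lit 402) (nat_lit 388)) (XT.lf (nat_lit 0) (nat_lit 2776389591) (nat_lit 760) (nat_lit 4516739514) (nat_lit 76) (nat_lit 563340126) (nat_lit 154) (nat_lit 5) (nat_lit 164) (nat_lit 5) (nat_lit 155) (nat_lit 5) (nat_lit 411) (nat_lit 402) (nat_lit 387)))) (XT.nd (nat_lit 156) (nat_lit 836) (nat_lit 0) (XT.nd (nat_lit 78) (nat_lit 456) (nat_lit 0) (XT.lf (nat_lit 0) (nat_lit 3291982845) (nat_lit 760) (nat_lit 3125002300) (nat_lit 836) (nat_lit 1683369987) (nat_lit 144) (nat_lit 5) (nat_lit 154) (nat_lit 5) (nat_lit 155) (nat_lit 5) (nat_lit 412) (nat_lit 402) (nat_lit 386)) (XT.lf (nat_lit 0) (nat_lit 1847313345) (nat_lit 456) (nat_lit 5018503355) (nat_lit 76) (nat_lit 1500133586) (nat_lit 138) (nat_lit 5) (nat_lit 144) (nat_lit 5) (nat_lit 139) (nat_lit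 5) (nat_lit 413) (nat_lit 402) (nat_lit 385))) (XT.nd (nat_lit 78) (nat_lit 456) (nat_lit 0) (XT.lf (nat_lit 0) (nat_lit 3477092352) (nat_lit 380) (nat_lit 2099878538) (nat_lit 456) (nat_lit 3075701406) (nat_lit 133) (nat_lit 5) (nat_lit 138) (nat_lit 5) (nat_lit 139) (nat_lit 5) (nat_lit 414) (nat_lit 402) (nat_lit 384)) (XT.lf (nat_lit 0) (nat_lit 611302341) (nat_lit 456) (nat_lit 5259924253) (nat_lit 76) (nat_lit 3091173522) (nat_lit 127) (nat_lit 5) (nat_lit 133) (nat_lit 5) (nat_lit 128) (nat_lit 5) (nat_lit 415) (nat_lit 402) (nat_lit 383))))) (XT.nd (nat_lit 234) (nat_lit 1064) (nat_lit 0) (XT.nd (nat_lit 78) (nat_lit 684) (nat_lit 0) (XT.lf (nat_lit 0) (nat_lit 3995240241) (nat_lit 304) (nat_lit 484681409) (nat_lit 380) (nat_lit 4814770470) (nat_lit 123) (nat_lit 5) (nat_lit 127) (nat_lit 5) (nat_lit 128) (nat_lit 5) (nat_lit 416) (nat_lit 402) (nat_lit 382)) (XT.nd (nat_lit 78) (nat_lit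 380) (nat_lit 0) (XT.lf (nat_lit 0) (nat_lit 4358392295) (nat_lit 304) (nat_lit 4358287332) (nat_lit 380) (nat_lit 933981022) (nat_lit 119) (nat_lit 5) (nat_lit 123) (nat_lit 5) (nat_lit 124) (nat_lit 5) (nat_lit 417) (nat_lit 402) (nat_lit 381)) (XT.lf (nat_lit 0) (nat_lit 3177993936) (nat_lit 380) (nat_lit 5239450571) (nat_lit 76) (nat_lit 1613893219) (nat_lit 114) (nat_lit 5) (nat_lit 119) (nat_lit 5) (nat_lit 115) (nat_lit 5) (nat_lit 418) (nat_lit 402) (nat_lit 380)))) (XT.nd (nat_lit 156) (nat_lit 456) (nat_lit 0) (XT.nd (nat_lit 78) (nat_lit 304) (nat_lit 0) (XT.lf (nat_lit 0) (nat_lit 5292339117) (nat_lit 304) (nat_lit 2375026126) (nat_lit 380) (nat_lit 2770301061) (nat_lit 110) (nat_lit 5) (nat_lit 114) (nat_lit 5) (nat_lit 115) (nat_lit 5) (nat_lit 419) (nat_lit 402) (nat_lit 379)) (XT.lf (nat_lit 0) (nat_lit 1677170395) (nat_lit 304) (nat_lit 5013058676) (nat_lit 76) (nat_lit 4180497981)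 (nat_lit 106) (nat_lit 5) (nat_lit 110) (nat_lit 5) (nat_lit 107) (nat_lit 5) (nat_lit 420) (nat_lit 402) (nat_lit 378))) (XT.nd (nat_lit 78) (nat_lit 228) (nat_lit 0) (XT.lf (nat_lit 0) (nat_lit 6463280315) (nat_lit 304) (nat_lit 4835850409) (nat_lit 76) (nat_lit 33053349) (nat_lit 103) (nat_lit 5) (nat_lit 107) (nat_lit 5) (nat_lit 104) (nat_lit 5) (nat_lit 421) (nat_lit 402) (nat_lit 377)) (XT.lf (nat_lit 0) (nat_lit 7184350030) (nat_lit 228) (nat_lit 4614501984) (nat_lit 304) (nat_lit 23392805) (nat_lit 100) (nat_lit 5) (nat_lit 103) (nat_lit 5) (nat_lit 104) (nat_lit 5) (nat_lit 422) (nat_lit 402) (nat_lit 376)))))) (XT.nd (nat_lit 546) (nat_lit 1292) (nat_lit 0) (XT.nd (nat_lit 234) (nat_lit 836) (nat_lit 0) (XT.nd (nat_lit 78) (nat_lit 456) (nat_lit 0) (XT.lf (nat_lit 0) (nat_lit 5155600240) (nat_lit 304) (nat_lit 4431166021) (nat_lit 76) (nat_lit 2755061862) (nat_lit 96) (nat_lit 5)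 (nat_lit 100) (nat_lit 5) (nat_lit 97) (nat_lit 5) (nat_lit 423) (nat_lit 402) (nat_lit 375)) (XT.nd (nat_lit 78) (nat_lit 304) (nat_lit 0) (XT.lf (nat_lit 0) (nat_lit 8726578234) (nat_lit 152) (nat_lit 2182424269) (nat_lit 228) (nat_lit 1985923860) (nat_lit 94) (nat_lit 5) (nat_lit 96) (nat_lit 5) (nat_lit 97) (nat_lit 5) (nat_lit 424) (nat_lit 402) (nat_lit 374)) (XT.lf (nat_lit 0) (nat_lit 3707479400) (nat_lit 304) (nat_lit 3919408492) (nat_lit 76) (nat_lit 5852898392) (nat_lit 90) (nat_lit 5) (nat_lit 94) (nat_lit 5) (nat_lit 91) (nat_lit 5) (nat_lit 425) (nat_lit 402) (nat_lit 373)))) (XT.nd (nat_lit 156) (nat_lit 380) (nat_lit 0) (XT.nd (nat_lit 78) (nat_lit 304) (nat_lit 0) (XT.lf (nat_lit 0) (nat_lit 9946226516) (nat_lit 228) (nat_lit 3613082126) (nat_lit 76) (nat_lit 542536659) (nat_lit 88) (nat_lit 5) (nat_lit 91) (nat_lit 5) (nat_lit 89) (nat_lit 5) (nat_lit 426) (nat_lit 402) (nat_lit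 372)) (XT.lf (nat_lit 0) (nat_lit 2110999307) (nat_lit 304) (nat_lit 3329735019) (nat_lit 76) (nat_lit 9318365682) (nat_lit 84) (nat_lit 5) (nat_lit 88) (nat_lit 5) (nat_lit 85) (nat_lit 5) (nat_lit 427) (nat_lit 402) (nat_lit 371))) (XT.nd (nat_lit 78) (nat_lit 228) (nat_lit 0) (XT.lf (nat_lit 0) (nat_lit 8934989508) (nat_lit 228) (nat_lit 3034633164) (nat_lit 76) (nat_lit 3485833019) (nat_lit 82) (nat_lit 5) (nat_lit 85) (nat_lit 5) (nat_lit 83) (nat_lit 5) (nat_lit 428) (nat_lit 402) (nat_lit 370)) (XT.lf (nat_lit 0) (nat_lit 349186854) (nat_lit 228) (nat_lit 2698653959) (nat_lit 76) (nat_lit 13146864365) (nat_lit 79) (nat_lit 5) (nat_lit 82) (nat_lit 5) (nat_lit 80) (nat_lit 5) (nat_lit 429) (nat_lit 402) (nat_lit 369))))) (XT.nd (nat_lit 312) (nat_lit 608) (nat_lit 0) (XT.nd (nat_lit 156) (nat_lit 380) (nat_lit 0) (XT.nd (nat_lit 78) (nat_lit 152) (nat_lit 0) (XT.lf (nat_lit 0) (nat_lit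 7826634658) (nat_lit 228) (nat_lit 2440711741) (nat_lit 76) (nat_lit 6706077215) (nat_lit 77) (nat_lit 5) (nat_lit 80) (nat_lit 5) (nat_lit 78) (nat_lit 5) (nat_lit 430) (nat_lit 402) (nat_lit 368)) (XT.lf (nat_lit 0) (nat_lit 15702252936) (nat_lit 152) (nat_lit 441576699) (nat_lit 228) (nat_lit 1658538832) (nat_lit 75) (nat_lit 5) (nat_lit 77) (nat_lit 5) (nat_lit 78) (nat_lit 5) (nat_lit 431) (nat_lit 402) (nat_lit 367))) (XT.nd (nat_lit 78) (nat_lit 152) (nat_lit 0) (XT.lf (nat_lit 0) (nat_lit 6595987180) (nat_lit 228) (nat_lit 1887213557) (nat_lit 76) (nat_lit 10190766517) (nat_lit 72) (nat_lit 5) (nat_lit 75) (nat_lit 5) (nat_lit 73) (nat_lit 5) (nat_lit 432) (nat_lit 402) (nat_lit 366)) (XT.lf (nat_lit 0) (nat_lit 15720339834) (nat_lit 228) (nat_lit 1618965598) (nat_lit 76) (nat_lit 2261255786) (nat_lit 70) (nat_lit 5) (nat_lit 73) (nat_lit 5) (nat_lit 71) (nat_lit 4) (nat_lit 433) (nat_lit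 402) (nat_lit 365)))) (XT.nd (nat_lit 156) (nat_lit 304) (nat_lit 0) (XT.nd (nat_lit 78) (nat_lit 152) (nat_lit 0) (XT.lf (nat_lit 0) (nat_lit 5204819026) (nat_lit 152) (nat_lit 1450087364) (nat_lit 76) (nat_lit 13922966615) (nat_lit 68) (nat_lit 5) (nat_lit 70) (nat_lit 5) (nat_lit 69) (nat_lit 5) (nat_lit 434) (nat_lit 402) (nat_lit 364)) (XT.lf (nat_lit 0) (nat_lit 15222254352) (nat_lit 228) (nat_lit 1311405622) (nat_lit 76) (nat_lit 5079456803) (nat_lit 66) (nat_lit 5) (nat_lit 69) (nat_lit 5) (nat_lit 67) (nat_lit 4) (nat_lit 435) (nat_lit 402) (nat_lit 363))) (XT.nd (nat_lit 78) (nat_lit 152) (nat_lit 0) (XT.lf (nat_lit 0) (nat_lit 3598464703) (nat_lit 152) (nat_lit 1232943490) (nat_lit 76) (nat_lit 17877466948) (nat_lit 64) (nat_lit 5) (nat_lit 66) (nat_lit 5) (nat_lit 65) (nat_lit 5) (nat_lit 436) (nat_lit 402) (nat_lit 362)) (XT.lf (nat_lit 0) (nat_lit 14589291459) (nat_lit 228) (nat_lit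 1291674351) (nat_lit 76) (nat_lit 7984780589) (nat_lit 62) (nat_lit 5) (nat_lit 65) (nat_lit 5) (nat_lit 63) (nat_lit 4) (nat_lit 437) (nat_lit 402) (nat_lit 361))))))) (XT.nd (nat_lit 1170) (nat_lit 1292) (nat_lit 0) (XT.nd (nat_lit 546) (nat_lit 912) (nat_lit 0) (XT.nd (nat_lit 234) (nat_lit 532) (nat_lit 0) (XT.nd (nat_lit 78) (nat_lit 228) (nat_lit 0) (XT.lf (nat_lit 0) (nat_lit 1701274860) (nat_lit 152) (nat_lit 1376855209) (nat_lit 76) (nat_lit 22015987002) (nat_lit 60) (nat_lit 5) (nat_lit 62) (nat_lit 5) (nat_lit 61) (nat_lit 5) (nat_lit 438) (nat_lit 402) (nat_lit 360)) (XT.nd (nat_lit 78) (nat_lit 76) (nat_lit 0) (XT.lf (nat_lit 0) (nat_lit 13745556375) (nat_lit 228) (nat_lit 1724346557) (nat_lit 76) (nat_lit 10917586951) (nat_lit 58) (nat_lit 5) (nat_lit 61) (nat_lit 5) (nat_lit 59) (nat_lit 4) (nat_lit 439) (nat_lit 402) (nat_lit 359)) (XT.lf (nat_lit 0) (nat_lit 25681704797) (nat_lit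 76) (nat_lit 1473636792) (nat_lit 152) (nat_lit 608895551) (nat_lit 57) (nat_lit 5) (nat_lit 58) (nat_lit 5) (nat_lit 59) (nat_lit 4) (nat_lit 440) (nat_lit 402) (nat_lit 358)))) (XT.nd (nat_lit 156) (nat_lit 228) (nat_lit 0) (XT.nd (nat_lit 78) (nat_lit 76) (nat_lit 0) (XT.lf (nat_lit 0) (nat_lit 12585872712) (nat_lit 228) (nat_lit 2831847564) (nat_lit 76) (nat_lit 13793959552) (nat_lit 54) (nat_lit 5) (nat_lit 57) (nat_lit 5) (nat_lit 55) (nat_lit 4) (nat_lit 441) (nat_lit 402) (nat_lit 357)) (XT.lf (nat_lit 0) (nat_lit 27119475929) (nat_lit 76) (nat_lit 110258932) (nat_lit 152) (nat_lit 3523943907) (nat_lit 53) (nat_lit 5) (nat_lit 54) (nat_lit 5) (nat_lit 55) (nat_lit 4) (nat_lit 442) (nat_lit 402) (nat_lit 356))) (XT.nd (nat_lit 78) (nat_lit 76) (nat_lit 0) (XT.lf (nat_lit 0) (nat_lit 10966887931) (nat_lit 152) (nat_lit 4913111566) (nat_lit 76) (nat_lit 16496698912) (nat_lit 51) (nat_lit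 5) (nat_lit 53) (nat_lit 5) (nat_lit 52) (nat_lit 4) (nat_lit 443) (nat_lit 402) (nat_lit 355)) (XT.lf (nat_lit 0) (nat_lit 26941299614) (nat_lit 152) (nat_lit 6365722714) (nat_lit 0) (nat_lit 797261845) (nat_lit 50) (nat_lit 5) (nat_lit 52) (nat_lit 4) (nat_lit 50) (nat_lit 4) (nat_lit 444) (nat_lit 402) (nat_lit 354))))) (XT.nd (nat_lit 312) (nat_lit 456) (nat_lit 0) (XT.nd (nat_lit 156) (nat_lit 228) (nat_lit 0) (XT.nd (nat_lit 78) (nat_lit 76) (nat_lit 0) (XT.lf (nat_lit 0) (nat_lit 8695453962) (nat_lit 152) (nat_lit 8367746768) (nat_lit 76) (nat_lit 18863704347) (nat_lit 48) (nat_lit 5) (nat_lit 50) (nat_lit 5) (nat_lit 49) (nat_lit 4) (nat_lit 445) (nat_lit 402) (nat_lit 353)) (XT.lf (nat_lit 0) (nat_lit 26066922877) (nat_lit 152) (nat_lit 10720529272) (nat_lit 0) (nat_lit 1077248093) (nat_lit 47) (nat_lit 5) (nat_lit 49) (nat_lit 4) (nat_lit 47) (nat_lit 4) (nat_lit 446) (nat_lit 402)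 (nat_lit 352))) (XT.nd (nat_lit 78) (nat_lit 76) (nat_lit 0) (XT.lf (nat_lit 0) (nat_lit 5513501127) (nat_lit 152) (nat_lit 13727324749) (nat_lit 76) (nat_lit 20672952244) (nat_lit 45) (nat_lit 5) (nat_lit 47) (nat_lit 5) (nat_lit 46) (nat_lit 4) (nat_lit 447) (nat_lit 402) (nat_lit 351)) (XT.lf (nat_lit 0) (nat_lit 24327548831) (nat_lit 152) (nat_lit 17309114443) (nat_lit 0) (nat_lit 453889658) (nat_lit 44) (nat_lit 5) (nat_lit 46) (nat_lit 4) (nat_lit 44) (nat_lit 4) (nat_lit 448) (nat_lit 402) (nat_lit 350)))) (XT.nd (nat_lit 156) (nat_lit 228) (nat_lit 0) (XT.nd (nat_lit 78) (nat_lit 76) (nat_lit 0) (XT.lf (nat_lit 0) (nat_lit 1078395802) (nat_lit 152) (nat_lit 21695875530) (nat_lit 76) (nat_lit 21623053495) (nat_lit 42) (nat_lit 5) (nat_lit 44) (nat_lit 5) (nat_lit 43) (nat_lit 4) (nat_lit 449) (nat_lit 402) (nat_lit 349)) (XT.lf (nat_lit 0) (nat_lit 19881571576) (nat_lit 76) (nat_lit 1493378258)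 (nat_lit 152) (nat_lit 25470621209) (nat_lit 41) (nat_lit 5) (nat_lit 42) (nat_lit 5) (nat_lit 43) (nat_lit 4) (nat_lit 450) (nat_lit 402) (nat_lit 348))) (XT.nd (nat_lit 78) (nat_lit 152) (nat_lit 0) (XT.lf (nat_lit 0) (nat_lit 16159826418) (nat_lit 76) (nat_lit 28054010883) (nat_lit 76) (nat_lit 5229910098) (nat_lit 40) (nat_lit 4) (nat_lit 41) (nat_lit 5) (nat_lit 41) (nat_lit 4) (nat_lit 451) (nat_lit 402) (nat_lit 347)) (XT.lf (nat_lit 0) (nat_lit 11441810560) (nat_lit 76) (nat_lit 5285411750) (nat_lit 152) (nat_lit 35478102753) (nat_lit 38) (nat_lit 5) (nat_lit 39) (nat_lit 5) (nat_lit 40) (nat_lit 4) (nat_lit 452) (nat_lit 402) (nat_lit 346)))))) (XT.nd (nat_lit 546) (nat_lit 608) (nat_lit 0) (XT.nd (nat_lit 234) (nat_lit 456) (nat_lit 0) (XT.nd (nat_lit 78) (nat_lit 152) (nat_lit 0) (XT.lf (nat_lit 0) (nat_lit 5451400558) (nat_lit 76) (nat_lit 35734320745) (nat_lit 76) (nat_lit 13951420231)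 (nat_lit 37) (nat_lit 4) (nat_lit 38) (nat_lit 5) (nat_lit 38) (nat_lit 4) (nat_lit 453) (nat_lit 402) (nat_lit 345)) (XT.nd (nat_lit 78) (nat_lit 76) (nat_lit 0) (XT.lf (nat_lit 0) (nat_lit 9761884535) (nat_lit 152) (nat_lit 1791363814) (nat_lit 76) (nat_lit 46704894582) (nat_lit 36) (nat_lit 5) (nat_lit 38) (nat_lit 5) (nat_lit 37) (nat_lit 4) (nat_lit 454) (nat_lit 402) (nat_lit 344)) (XT.lf (nat_lit 0) (nat_lit 35888637469) (nat_lit 152) (nat_lit 10572758722) (nat_lit 0) (nat_lit 15105734577) (nat_lit 35) (nat_lit 5) (nat_lit 37) (nat_lit 4) (nat_lit 35) (nat_lit 4) (nat_lit 455) (nat_lit 402) (nat_lit 343)))) (XT.nd (nat_lit 156) (nat_lit 228) (nat_lit 0) (XT.nd (nat_lit 78) (nat_lit 152) (nat_lit 0) (XT.lf (nat_lit 0) (nat_lit 44055326432) (nat_lit 76) (nat_lit 20920742339) (nat_lit 76) (nat_lit 121242512) (nat_lit 34) (nat_lit 4) (nat_lit 35) (nat_lit 5) (nat_lit 35) (nat_lit 4) (nat_lit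 456) (nat_lit 402) (nat_lit 342)) (XT.lf (nat_lit 0) (nat_lit 27416750257) (nat_lit 152) (nat_lit 33837851346) (nat_lit 0) (nat_lit 7593067057) (nat_lit 32) (nat_lit 5) (nat_lit 34) (nat_lit 4) (nat_lit 32) (nat_lit 4) (nat_lit 457) (nat_lit 402) (nat_lit 341))) (XT.nd (nat_lit 78) (nat_lit 152) (nat_lit 0) (XT.lf (nat_lit 0) (nat_lit 23733849435) (nat_lit 76) (nat_lit 34474305047) (nat_lit 76) (nat_lit 14637070231) (nat_lit 31) (nat_lit 4) (nat_lit 32) (nat_lit 5) (nat_lit 32) (nat_lit 4) (nat_lit 458) (nat_lit 402) (nat_lit 340)) (XT.lf (nat_lit 0) (nat_lit 9993277511) (nat_lit 76) (nat_lit 4564312790) (nat_lit 152) (nat_lit 62558081823) (nat_lit 29) (nat_lit 5) (nat_lit 30) (nat_lit 5) (nat_lit 31) (nat_lit 4) (nat_lit 459) (nat_lit 402) (nat_lit 339))))) (XT.nd (nat_lit 312) (nat_lit 304) (nat_lit 0) (XT.nd (nat_lit 156) (nat_lit 228) (nat_lit 0) (XT.nd (nat_lit 78) (nat_lit 76) (nat_lit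 0) (XT.lf (nat_lit 0) (nat_lit 46845515806) (nat_lit 152) (nat_lit 6876821239) (nat_lit 0) (nat_lit 27929895868) (nat_lit 29) (nat_lit 5) (nat_lit 31) (nat_lit 4) (nat_lit 29) (nat_lit 4) (nat_lit 460) (nat_lit 402) (nat_lit 338)) (XT.lf (nat_lit 0) (nat_lit 59958264360) (nat_lit 76) (nat_lit 22735234378) (nat_lit 76) (nat_lit 3809369002) (nat_lit 28) (nat_lit 4) (nat_lit 29) (nat_lit 5) (nat_lit 29) (nat_lit 4) (nat_lit 461) (nat_lit 402) (nat_lit 337))) (XT.nd (nat_lit 78) (nat_lit 76) (nat_lit 0) (XT.lf (nat_lit 0) (nat_lit 29639135385) (nat_lit 152) (nat_lit 50427745391) (nat_lit 0) (nat_lit 11605466916) (nat_lit 26) (nat_lit 5) (nat_lit 28) (nat_lit 4) (nat_lit 26) (nat_lit 4) (nat_lit 462) (nat_lit 402) (nat_lit 336)) (XT.lf (nat_lit 0) (nat_lit 18232638263) (nat_lit 76) (nat_lit 48503185675) (nat_lit 76) (nat_lit 30461151671) (nat_lit 25) (nat_lit 4) (nat_lit 26) (nat_lit 5) (nat_lit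 26) (nat_lit 4) (nat_lit 463) (nat_lit 402) (nat_lit 335)))) (XT.nd (nat_lit 156) (nat_lit 152) (nat_lit 0) (XT.nd (nat_lit 78) (nat_lit 76) (nat_lit 0) (XT.lf (nat_lit 0) (nat_lit 4380053319) (nat_lit 152) (nat_lit 9070670565) (nat_lit 76) (nat_lit 89667022400) (nat_lit 24) (nat_lit 5) (nat_lit 26) (nat_lit 5) (nat_lit 25) (nat_lit 4) (nat_lit 464) (nat_lit 402) (nat_lit 334)) (XT.lf (nat_lit 0) (nat_lit 42393331764) (nat_lit 152) (nat_lit 41825044897) (nat_lit 0) (nat_lit 25196234652) (nat_lit 23) (nat_lit 5) (nat_lit 25) (nat_lit 4) (nat_lit 23) (nat_lit 4) (nat_lit 465) (nat_lit 402) (nat_lit 333))) (XT.nd (nat_lit 78) (nat_lit 76) (nat_lit 0) (XT.lf (nat_lit 0) (nat_lit 35341095367) (nat_lit 76) (nat_lit 49016039492) (nat_lit 76) (nat_lit 31812617779) (nat_lit 22) (nat_lit 4) (nat_lit 23) (nat_lit 5) (nat_lit 23) (nat_lit 4) (nat_lit 466) (nat_lit 402) (nat_lit 332)) (XT.lf (nat_lit 0)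 (nat_lit 6725530193) (nat_lit 152) (nat_lit 3421940928) (nat_lit 76) (nat_lit 113277402441) (nat_lit 21) (nat_lit 5) (nat_lit 23) (nat_lit 5) (nat_lit 22) (nat_lit 4) (nat_lit 467) (nat_lit 402) (nat_lit 331))))))))
noncomputable def xc50 : XT := (XT.nd (nat_lit 2262) (nat_lit 152) (nat_lit 0) (XT.nd (nat_lit 1092) (nat_lit 456) (nat_lit 0) (XT.nd (nat_lit 546) (nat_lit 304) (nat_lit 0) (XT.nd (nat_lit 234) (nat_lit 380) (nat_lit 0) (XT.nd (nat_lit 78) (nat_lit 76) (nat_lit 0) (XT.lf (nat_lit 0) (nat_lit 49030379598) (nat_lit 152) (nat_lit 49478611307) (nat_lit 0) (nat_lit 32635427073) (nat_lit 20) (nat_lit 5) (nat_lit 22) (nat_lit 4) (nat_lit 20) (nat_lit 4) (nat_lit 468) (nat_lit 402) (nat_lit 330)) (XT.nd (nat_lit 78) (nat_lit 0) (nat_lit 0) (XT.lf (nat_lit 0) (nat_lit 35103239944) (nat_lit 76) (nat_lit 60370165430) (nat_lit 76) (nat_lit 43970431313) (nat_lit 19) (nat_lit 4) (nat_lit 20)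 (nat_lit 5) (nat_lit 20) (nat_lit 4) (nat_lit 469) (nat_lit 402) (nat_lit 329)) (XT.lf (nat_lit 0) (nat_lit 128168357093) (nat_lit 76) (nat_lit 18300580133) (nat_lit 76) (nat_lit 1896418615) (nat_lit 19) (nat_lit 4) (nat_lit 20) (nat_lit 5) (nat_lit 20) (nat_lit 4) (nat_lit 470) (nat_lit 402) (nat_lit 328)))) (XT.nd (nat_lit 156) (nat_lit 152) (nat_lit 0) (XT.nd (nat_lit 78) (nat_lit 76) (nat_lit 0) (XT.lf (nat_lit 0) (nat_lit 43707648656) (nat_lit 152) (nat_lit 86100332835) (nat_lit 0) (nat_lit 28080733452) (nat_lit 17) (nat_lit 5) (nat_lit 19) (nat_lit 4) (nat_lit 17) (nat_lit 4) (nat_lit 471) (nat_lit 402) (nat_lit 327)) (XT.lf (nat_lit 0) (nat_lit 3414515499) (nat_lit 76) (nat_lit 90176759715) (nat_lit 76) (nat_lit 74546229481) (nat_lit 16) (nat_lit 4) (nat_lit 17) (nat_lit 5) (nat_lit 17) (nat_lit 4) (nat_lit 472) (nat_lit 402) (nat_lit 326))) (XT.nd (nat_lit 78) (nat_lit 152) (nat_lit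 0) (XT.lf (nat_lit 0) (nat_lit 103121247781) (nat_lit 76) (nat_lit 45822460804) (nat_lit 76) (nat_lit 30188583319) (nat_lit 16) (nat_lit 4) (nat_lit 17) (nat_lit 5) (nat_lit 17) (nat_lit 4) (nat_lit 473) (nat_lit 402) (nat_lit 325)) (XT.lf (nat_lit 0) (nat_lit 17486208507) (nat_lit 152) (nat_lit 170895992385) (nat_lit 0) (nat_lit 2593849658) (nat_lit 14) (nat_lit 5) (nat_lit 16) (nat_lit 4) (nat_lit 14) (nat_lit 4) (nat_lit 474) (nat_lit 402) (nat_lit 324))))) (XT.nd (nat_lit 234) (nat_lit 228) (nat_lit 0) (XT.nd (nat_lit 78) (nat_lit 76) (nat_lit 0) (XT.lf (nat_lit 0) (nat_lit 70030046871) (nat_lit 152) (nat_lit 78471927218) (nat_lit 0) (nat_lit 55134954947) (nat_lit 14) (nat_lit 5) (nat_lit 16) (nat_lit 4) (nat_lit 14) (nat_lit 4) (nat_lit 475) (nat_lit 402) (nat_lit 323)) (XT.nd (nat_lit 78) (nat_lit 0) (nat_lit 0) (XT.lf (nat_lit 0) (nat_lit 22013399813) (nat_lit 76) (nat_lit 105089317192)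 (nat_lit 76) (nat_lit 90191694644) (nat_lit 13) (nat_lit 4) (nat_lit 14) (nat_lit 5) (nat_lit 14) (nat_lit 4) (nat_lit 476) (nat_lit 402) (nat_lit 322)) (XT.lf (nat_lit 0) (nat_lit 133304148548) (nat_lit 76) (nat_lit 56786420844) (nat_lit 76) (nat_lit 41886455126) (nat_lit 13) (nat_lit 4) (nat_lit 14) (nat_lit 5) (nat_lit 14) (nat_lit 4) (nat_lit 477) (nat_lit 402) (nat_lit 321)))) (XT.nd (nat_lit 156) (nat_lit 76) (nat_lit 0) (XT.nd (nat_lit 78) (nat_lit 0) (nat_lit 0) (XT.lf (nat_lit 0) (nat_lit 5650698471) (nat_lit 76) (nat_lit 4375074110) (nat_lit 152) (nat_lit 237796861634) (nat_lit 11) (nat_lit 5) (nat_lit 12) (nat_lit 5) (nat_lit 13) (nat_lit 4) (nat_lit 478) (nat_lit 402) (nat_lit 320)) (XT.lf (nat_lit 0) (nat_lit 67189481480) (nat_lit 152) (nat_lit 144588719675) (nat_lit 0) (nat_lit 52995058421) (nat_lit 11) (nat_lit 5) (nat_lit 13) (nat_lit 4) (nat_lit 11) (nat_lit 4) (nat_lit 479)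 (nat_lit 402) (nat_lit 319))) (XT.nd (nat_lit 78) (nat_lit 76) (nat_lit 0) (XT.lf (nat_lit 0) (nat_lit 128985190609) (nat_lit 152) (nat_lit 39302803201) (nat_lit 0) (nat_lit 114788996041) (nat_lit 11) (nat_lit 5) (nat_lit 13) (nat_lit 4) (nat_lit 11) (nat_lit 4) (nat_lit 480) (nat_lit 402) (nat_lit 318)) (XT.lf (nat_lit 0) (nat_lit 76837311203) (nat_lit 76) (nat_lit 120073124154) (nat_lit 76) (nat_lit 105875289300) (nat_lit 10) (nat_lit 4) (nat_lit 11) (nat_lit 5) (nat_lit 11) (nat_lit 4) (nat_lit 481) (nat_lit 402) (nat_lit 317)))))) (XT.nd (nat_lit 546) (nat_lit 228) (nat_lit 0) (XT.nd (nat_lit 234) (nat_lit 76) (nat_lit 0) (XT.nd (nat_lit 78) (nat_lit 152) (nat_lit 0) (XT.lf (nat_lit 0) (nat_lit 203645390619) (nat_lit 76) (nat_lit 67295774035) (nat_lit 76) (nat_lit 53096420397) (nat_lit 10) (nat_lit 4) (nat_lit 11) (nat_lit 5) (nat_lit 11) (nat_lit 4) (nat_lit 482) (nat_lit 402) (nat_lit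 316)) (XT.nd (nat_lit 78) (nat_lit 76) (nat_lit 0) (XT.lf (nat_lit 0) (nat_lit 3767392146) (nat_lit 152) (nat_lit 6477606018) (nat_lit 76) (nat_lit 336742167407) (nat_lit 9) (nat_lit 5) (nat_lit 11) (nat_lit 5) (nat_lit 10) (nat_lit 4) (nat_lit 483) (nat_lit 402) (nat_lit 315)) (XT.lf (nat_lit 0) (nat_lit 66045586485) (nat_lit 152) (nat_lit 253027515476) (nat_lit 0) (nat_lit 52519813122) (nat_lit 8) (nat_lit 5) (nat_lit 10) (nat_lit 4) (nat_lit 8) (nat_lit 4) (nat_lit 484) (nat_lit 402) (nat_lit 314)))) (XT.nd (nat_lit 156) (nat_lit 76) (nat_lit 0) (XT.nd (nat_lit 78) (nat_lit 0) (nat_lit 0) (XT.lf (nat_lit 0) (nat_lit 133582324802) (nat_lit 152) (nat_lit 144515582177) (nat_lit 0) (nat_lit 120055403193) (nat_lit 8) (nat_lit 5) (nat_lit 10) (nat_lit 4) (nat_lit 8) (nat_lit 4) (nat_lit 485) (nat_lit 402) (nat_lit 313)) (XT.lf (nat_lit 0) (nat_lit 206511681413) (nat_lit 152) (nat_lit 27343674918)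 (nat_lit 0) (nat_lit 192983696611) (nat_lit 8) (nat_lit 5) (nat_lit 10) (nat_lit 4) (nat_lit 8) (nat_lit 4) (nat_lit 486) (nat_lit 402) (nat_lit 312))) (XT.nd (nat_lit 78) (nat_lit 0) (nat_lit 0) (XT.lf (nat_lit 0) (nat_lit 102461981642) (nat_lit 76) (nat_lit 184403567322) (nat_lit 76) (nat_lit 170874598084) (nat_lit 7) (nat_lit 4) (nat_lit 8) (nat_lit 5) (nat_lit 8) (nat_lit 4) (nat_lit 487) (nat_lit 402) (nat_lit 311)) (XT.lf (nat_lit 0) (nat_lit 243609942215) (nat_lit 76) (nat_lit 130504954358) (nat_lit 76) (nat_lit 116975073605) (nat_lit 7) (nat_lit 4) (nat_lit 8) (nat_lit 5) (nat_lit 8) (nat_lit 4) (nat_lit 488) (nat_lit 402) (nat_lit 310))))) (XT.nd (nat_lit 312) (nat_lit 76) (nat_lit 0) (XT.nd (nat_lit 156) (nat_lit 76) (nat_lit 0) (XT.nd (nat_lit 78) (nat_lit 76) (nat_lit 0) (XT.lf (nat_lit 0) (nat_lit 396032533779) (nat_lit 76) (nat_lit 72303196619) (nat_lit 76) (nat_lit 58772471869)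 (nat_lit 7) (nat_lit 4) (nat_lit 8) (nat_lit 5) (nat_lit 8) (nat_lit 4) (nat_lit 489) (nat_lit 402) (nat_lit 309)) (XT.lf (nat_lit 0) (nat_lit 3947586394) (nat_lit 152) (nat_lit 5438954118) (nat_lit 76) (nat_lit 556618560641) (nat_lit 6) (nat_lit 5) (nat_lit 8) (nat_lit 5) (nat_lit 7) (nat_lit 4) (nat_lit 490) (nat_lit 402) (nat_lit 308))) (XT.nd (nat_lit 78) (nat_lit 0) (nat_lit 0) (XT.lf (nat_lit 0) (nat_lit 72695502165) (nat_lit 152) (nat_lit 475308943708) (nat_lit 0) (nat_lit 59807664244) (nat_lit 5) (nat_lit 5) (nat_lit 7) (nat_lit 4) (nat_lit 5) (nat_lit 4) (nat_lit 491) (nat_lit 402) (nat_lit 307)) (XT.lf (nat_lit 0) (nat_lit 147190656637) (nat_lit 152) (nat_lit 371458472281) (nat_lit 0) (nat_lit 134302180629) (nat_lit 5) (nat_lit 5) (nat_lit 7) (nat_lit 4) (nat_lit 5) (nat_lit 4) (nat_lit 492) (nat_lit 402) (nat_lit 306)))) (XT.nd (nat_lit 156) (nat_lit 76) (nat_lit 0) (XT.nd (nat_lit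 78) (nat_lit 0) (nat_lit 0) (XT.lf (nat_lit 0) (nat_lit 227638789192) (nat_lit 152) (nat_lit 259313465110) (nat_lit 0) (nat_lit 214749722363) (nat_lit 5) (nat_lit 5) (nat_lit 7) (nat_lit 4) (nat_lit 5) (nat_lit 4) (nat_lit 493) (nat_lit 402) (nat_lit 305)) (XT.lf (nat_lit 0) (nat_lit 314516629504) (nat_lit 152) (nat_lit 138209359191) (nat_lit 0) (nat_lit 301627015618) (nat_lit 5) (nat_lit 5) (nat_lit 7) (nat_lit 4) (nat_lit 5) (nat_lit 4) (nat_lit 494) (nat_lit 402) (nat_lit 304))) (XT.nd (nat_lit 78) (nat_lit 76) (nat_lit 0) (XT.lf (nat_lit 0) (nat_lit 408339009220) (nat_lit 152) (nat_lit 7428500561) (nat_lit 0) (nat_lit 395448888800) (nat_lit 5) (nat_lit 5) (nat_lit 7) (nat_lit 4) (nat_lit 5) (nat_lit 4) (nat_lit 495) (nat_lit 402) (nat_lit 303)) (XT.lf (nat_lit 0) (nat_lit 138228276560) (nat_lit 76) (nat_lit 373591767032) (nat_lit 76) (nat_lit 360701177600) (nat_lit 4) (nat_lit 4) (nat_lit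 5) (nat_lit 5) (nat_lit 5) (nat_lit 4) (nat_lit 496) (nat_lit 402) (nat_lit 302))))))) (XT.nd (nat_lit 55770) (nat_lit 0) (nat_lit 6916) (XT.nd (nat_lit 55146) (nat_lit 0) (nat_lit 12236) (XT.nd (nat_lit 234) (nat_lit 152) (nat_lit 0) (XT.nd (nat_lit 78) (nat_lit 0) (nat_lit 0) (XT.lf (nat_lit 0) (nat_lit 295792612715) (nat_lit 76) (nat_lit 327911311227) (nat_lit 76) (nat_lit 315020287524) (nat_lit 4) (nat_lit 4) (nat_lit 5) (nat_lit 5) (nat_lit 5) (nat_lit 4) (nat_lit 497) (nat_lit 402) (nat_lit 301)) (XT.nd (nat_lit 78) (nat_lit 0) (nat_lit 0) (XT.lf (nat_lit 0) (nat_lit 465952602712) (nat_lit 76) (nat_lit 278581248619) (nat_lit 76) (nat_lit 265689822813) (nat_lit 4) (nat_lit 4) (nat_lit 5) (nat_lit 5) (nat_lit 5) (nat_lit 4) (nat_lit 498) (nat_lit 402) (nat_lit 300)) (XT.lf (nat_lit 0) (nat_lit 649716602046) (nat_lit 76) (nat_lit 225309252912) (nat_lit 76) (nat_lit 212417454789) (nat_lit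 4) (nat_lit 4) (nat_lit 5) (nat_lit 5) (nat_lit 5) (nat_lit 4) (nat_lit 499) (nat_lit 402) (nat_lit 299)))) (XT.nd (nat_lit 156) (nat_lit 152) (nat_lit 0) (XT.nd (nat_lit 78) (nat_lit 0) (nat_lit 0) (XT.lf (nat_lit 0) (nat_lit 848173582566) (nat_lit 76) (nat_lit 167779638206) (nat_lit 76) (nat_lit 154887495344) (nat_lit 4) (nat_lit 4) (nat_lit 5) (nat_lit 5) (nat_lit 5) (nat_lit 4) (nat_lit 500) (nat_lit 402) (nat_lit 298)) (XT.lf (nat_lit 0) (nat_lit 1062499585636) (nat_lit 76) (nat_lit 105651488264) (nat_lit 76) (nat_lit 92759026200) (nat_lit 4) (nat_lit 4) (nat_lit 5) (nat_lit 5) (nat_lit 5) (nat_lit 4) (nat_lit 501) (nat_lit 402) (nat_lit 297))) (XT.nd (nat_lit 78) (nat_lit 152) (nat_lit 0) (XT.lf (nat_lit 0) (nat_lit 1293964691277) (nat_lit 76) (nat_lit 38556636273) (nat_lit 76) (nat_lit 25663878651) (nat_lit 4) (nat_lit 4) (nat_lit 5) (nat_lit 5) (nat_lit 5) (nat_lit 4) (nat_lit 502) (nat_lit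 402) (nat_lit 296)) (XT.lf (nat_lit 0) (nat_lit 47150030790) (nat_lit 152) (nat_lit 1381092353222) (nat_lit 0) (nat_lit 34870953375) (nat_lit 2) (nat_lit 5) (nat_lit 4) (nat_lit 4) (nat_lit 2) (nat_lit 4) (nat_lit 503) (nat_lit 402) (nat_lit 295))))) (XT.nd (nat_lit 312) (nat_lit 1672) (nat_lit 0) (XT.nd (nat_lit 156) (nat_lit 380) (nat_lit 0) (XT.nd (nat_lit 78) (nat_lit 380) (nat_lit 0) (XT.lf (nat_lit 0) (nat_lit 3032603202) (nat_lit 380) (nat_lit 158778723) (nat_lit 380) (nat_lit 158778723) (nat_lit 195) (nat_lit 3) (nat_lit 200) (nat_lit 3) (nat_lit 200) (nat_lit 5) (nat_lit 403) (nat_lit 403) (nat_lit 394)) (XT.lf (nat_lit 0) (nat_lit 2828268786) (nat_lit 380) (nat_lit 1701791035) (nat_lit 456) (nat_lit 2264645556) (nat_lit 190) (nat_lit 5) (nat_lit 195) (nat_lit 3) (nat_lit 196) (nat_lit 5) (nat_lit 404) (nat_lit 403) (nat_lit 393))) (XT.nd (nat_lit 78) (nat_lit 380) (nat_lit 0) (XT.lf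 (nat_lit 76) (nat_lit 3975497320) (nat_lit 0) (nat_lit 2297324557) (nat_lit 456) (nat_lit 637056458) (nat_lit 191) (nat_lit 5) (nat_lit 190) (nat_lit 5) (nat_lit 196) (nat_lit 5) (nat_lit 405) (nat_lit 403) (nat_lit 392)) (XT.lf (nat_lit 0) (nat_lit 2622102885) (nat_lit 456) (nat_lit 4060867323) (nat_lit 532) (nat_lit 361146248) (nat_lit 185) (nat_lit 5) (nat_lit 191) (nat_lit 5) (nat_lit 192) (nat_lit 5) (nat_lit 406) (nat_lit 403) (nat_lit 391)))) (XT.nd (nat_lit 156) (nat_lit 1140) (nat_lit 0) (XT.nd (nat_lit 78) (nat_lit 532) (nat_lit 0) (XT.lf (nat_lit 76) (nat_lit 2106445359) (nat_lit 0) (nat_lit 3835565268) (nat_lit 532) (nat_lit 1255506324) (nat_lit 186) (nat_lit 5) (nat_lit 185) (nat_lit 5) (nat_lit 192) (nat_lit 5) (nat_lit 407) (nat_lit 403) (nat_lit 390)) (XT.lf (nat_lit 76) (nat_lit 1357081109) (nat_lit 0) (nat_lit 544131923) (nat_lit 608) (nat_lit 5470033623) (nat_lit 179) (nat_lit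 5) (nat_lit 178) (nat_lit 5) (nat_lit 186) (nat_lit 5) (nat_lit 408) (nat_lit 403) (nat_lit 389))) (XT.nd (nat_lit 78) (nat_lit 684) (nat_lit 0) (XT.lf (nat_lit 0) (nat_lit 691261443) (nat_lit 532) (nat_lit 4456180048) (nat_lit 608) (nat_lit 2416407050) (nat_lit 172) (nat_lit 5) (nat_lit 179) (nat_lit 5) (nat_lit 180) (nat_lit 5) (nat_lit 409) (nat_lit 403) (nat_lit 388)) (XT.lf (nat_lit 0) (nat_lit 152443904) (nat_lit 608) (nat_lit 563853809) (nat_lit 684) (nat_lit 7061767453) (nat_lit 163) (nat_lit 5) (nat_lit 171) (nat_lit 5) (nat_lit 172) (nat_lit 5) (nat_lit 410) (nat_lit 403) (nat_lit 387)))))) (XT.nd (nat_lit 546) (nat_lit 2280) (nat_lit 0) (XT.nd (nat_lit 234) (nat_lit 1520) (nat_lit 0) (XT.nd (nat_lit 78) (nat_lit 1520) (nat_lit 0) (XT.lf (nat_lit 0) (nat_lit 3955948005) (nat_lit 684) (nat_lit 330653507) (nat_lit 76) (nat_lit 3723829034) (nat_lit 163) (nat_lit 5) (nat_lit 172) (nat_lit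 5) (nat_lit 164) (nat_lit 5) (nat_lit 411) (nat_lit 403) (nat_lit 386)) (XT.nd (nat_lit 78) (nat_lit 836) (nat_lit 0) (XT.lf (nat_lit 0) (nat_lit 7365193064) (nat_lit 760) (nat_lit 685234880) (nat_lit 76) (nat_lit 215474503) (nat_lit 154) (nat_lit 5) (nat_lit 164) (nat_lit 5) (nat_lit 155) (nat_lit 5) (nat_lit 412) (nat_lit 403) (nat_lit 385)) (XT.lf (nat_lit 0) (nat_lit 2413980776) (nat_lit 836) (nat_lit 1015362620) (nat_lit 76) (nat_lit 5111106677) (nat_lit 143) (nat_lit 5) (nat_lit 154) (nat_lit 5) (nat_lit 144) (nat_lit 5) (nat_lit 413) (nat_lit 403) (nat_lit 384)))) (XT.nd (nat_lit 156) (nat_lit 684) (nat_lit 0) (XT.nd (nat_lit 78) (nat_lit 456) (nat_lit 0) (XT.lf (nat_lit 0) (nat_lit 5922385336) (nat_lit 456) (nat_lit 1254729858) (nat_lit 76) (nat_lit 1661134622) (nat_lit 138) (nat_lit 5) (nat_lit 144) (nat_lit 5) (nat_lit 139) (nat_lit 5) (nat_lit 414) (nat_lit 403) (nat_lit 383)) (XT.lf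 (nat_lit 0) (nat_lit 544322502) (nat_lit 456) (nat_lit 1428672927) (nat_lit 76) (nat_lit 7185955785) (nat_lit 132) (nat_lit 5) (nat_lit 138) (nat_lit 5) (nat_lit 133) (nat_lit 5) (nat_lit 415) (nat_lit 403) (nat_lit 382))) (XT.nd (nat_lit 78) (nat_lit 304) (nat_lit 0) (XT.lf (nat_lit 0) (nat_lit 4208890960) (nat_lit 456) (nat_lit 1578627587) (nat_lit 76) (nat_lit 3713939531) (nat_lit 127) (nat_lit 5) (nat_lit 133) (nat_lit 5) (nat_lit 128) (nat_lit 5) (nat_lit 416) (nat_lit 403) (nat_lit 381)) (XT.lf (nat_lit 0) (nat_lit 8186227991) (nat_lit 380) (nat_lit 1632604329) (nat_lit 76) (nat_lit 51576739) (nat_lit 123) (nat_lit 5) (nat_lit 128) (nat_lit 5) (nat_lit 124) (nat_lit 5) (nat_lit 417) (nat_lit 403) (nat_lit 380))))) (XT.nd (nat_lit 312) (nat_lit 988) (nat_lit 0) (XT.nd (nat_lit 156) (nat_lit 608) (nat_lit 0) (XT.nd (nat_lit 78) (nat_lit 304) (nat_lit 0) (XT.lf (nat_lit 0) (nat_lit 2244399419)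 (nat_lit 380) (nat_lit 1687793503) (nat_lit 76) (nat_lit 6329859184) (nat_lit 118) (nat_lit 5) (nat_lit 123) (nat_lit 5) (nat_lit 119) (nat_lit 5) (nat_lit 418) (nat_lit 403) (nat_lit 379)) (XT.lf (nat_lit 0) (nat_lit 6486808271) (nat_lit 380) (nat_lit 1680796118) (nat_lit 76) (nat_lit 2513133730) (nat_lit 114) (nat_lit 5) (nat_lit 119) (nat_lit 5) (nat_lit 115) (nat_lit 5) (nat_lit 419) (nat_lit 403) (nat_lit 378))) (XT.nd (nat_lit 78) (nat_lit 228) (nat_lit 0) (XT.lf (nat_lit 0) (nat_lit 39229231) (nat_lit 380) (nat_lit 1607910708) (nat_lit 76) (nat_lit 9480772352) (nat_lit 109) (nat_lit 5) (nat_lit 114) (nat_lit 5) (nat_lit 110) (nat_lit 5) (nat_lit 420) (nat_lit 403) (nat_lit 377)) (XT.lf (nat_lit 0) (nat_lit 4602513749) (nat_lit 304) (nat_lit 1557176930) (nat_lit 76) (nat_lit 5440827505) (nat_lit 106) (nat_lit 5) (nat_lit 110) (nat_lit 5) (nat_lit 107) (nat_lit 5) (nat_lit 421) (nat_lit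 403) (nat_lit 376)))) (XT.nd (nat_lit 156) (nat_lit 456) (nat_lit 0) (XT.nd (nat_lit 78) (nat_lit 304) (nat_lit 0) (XT.lf (nat_lit 0) (nat_lit 9638710771) (nat_lit 304) (nat_lit 1417373957) (nat_lit 76) (nat_lit 1049469978) (nat_lit 103) (nat_lit 5) (nat_lit 107) (nat_lit 5) (nat_lit 104) (nat_lit 5) (nat_lit 422) (nat_lit 403) (nat_lit 375)) (XT.lf (nat_lit 0) (nat_lit 2535365752) (nat_lit 304) (nat_lit 1283671889) (nat_lit 76) (nat_lit 8820763485) (nat_lit 99) (nat_lit 5) (nat_lit 103) (nat_lit 5) (nat_lit 100) (nat_lit 5) (nat_lit 423) (nat_lit 403) (nat_lit 374))) (XT.nd (nat_lit 78) (nat_lit 228) (nat_lit 0) (XT.lf (nat_lit 0) (nat_lit 8011635451) (nat_lit 304) (nat_lit 1118906301) (nat_lit 76) (nat_lit 4076219991) (nat_lit 96) (nat_lit 5) (nat_lit 100) (nat_lit 5) (nat_lit 97) (nat_lit 5) (nat_lit 424) (nat_lit 403) (nat_lit 373)) (XT.lf (nat_lit 0) (nat_lit 279388512) (nat_lit 228) (nat_lit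 882838816) (nat_lit 76) (nat_lit 12647984786) (nat_lit 93) (nat_lit 5) (nat_lit 96) (nat_lit 5) (nat_lit 94) (nat_lit 5) (nat_lit 425) (nat_lit 403) (nat_lit 372))))))))
noncomputable def xc51 : XT := (XT.nd (nat_lit 2340) (nat_lit 2128) (nat_lit 0) (XT.nd (nat_lit 1170) (nat_lit 1596) (nat_lit 0) (XT.nd (nat_lit 546) (nat_lit 1140) (nat_lit 0) (XT.nd (nat_lit 234) (nat_lit 912) (nat_lit 0) (XT.nd (nat_lit 78) (nat_lit 456) (nat_lit 0) (XT.lf (nat_lit 0) (nat_lit 6257337833) (nat_lit 304) (nat_lit 710029181) (nat_lit 76) (nat_lit 7477948700) (nat_lit 90) (nat_lit 5) (nat_lit 94) (nat_lit 5) (nat_lit 91) (nat_lit 5) (nat_lit 426) (nat_lit 403) (nat_lit 371)) (XT.nd (nat_lit 78) (nat_lit 304) (nat_lit 0) (XT.lf (nat_lit 0) (nat_lit 12900106305) (nat_lit 228) (nat_lit 444391713) (nat_lit 76) (nat_lit 1777409464) (nat_lit 88) (nat_lit 5) (nat_lit 91) (nat_lit 5) (nat_lit 89) (nat_lit 5) (nat_lit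 427) (nat_lit 403) (nat_lit 370)) (XT.lf (nat_lit 0) (nat_lit 4363598347) (nat_lit 304) (nat_lit 219593190) (nat_lit 76) (nat_lit 11252294998) (nat_lit 84) (nat_lit 5) (nat_lit 88) (nat_lit 5) (nat_lit 85) (nat_lit 5) (nat_lit 428) (nat_lit 403) (nat_lit 369)))) (XT.nd (nat_lit 156) (nat_lit 380) (nat_lit 0) (XT.nd (nat_lit 78) (nat_lit 228) (nat_lit 0) (XT.lf (nat_lit 0) (nat_lit 33053245) (nat_lit 152) (nat_lit 11616562725) (nat_lit 228) (nat_lit 4942140812) (nat_lit 80) (nat_lit 5) (nat_lit 82) (nat_lit 5) (nat_lit 83) (nat_lit 5) (nat_lit 429) (nat_lit 403) (nat_lit 368)) (XT.lf (nat_lit 0) (nat_lit 325452060) (nat_lit 152) (nat_lit 1988675663) (nat_lit 228) (nat_lit 15079176590) (nat_lit 77) (nat_lit 5) (nat_lit 79) (nat_lit 5) (nat_lit 80) (nat_lit 5) (nat_lit 430) (nat_lit 403) (nat_lit 367))) (XT.nd (nat_lit 78) (nat_lit 228) (nat_lit 0) (XT.lf (nat_lit 0) (nat_lit 543060919) (nat_lit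 152) (nat_lit 9774783891) (nat_lit 228) (nat_lit 7920081146) (nat_lit 75) (nat_lit 5) (nat_lit 77) (nat_lit 5) (nat_lit 78) (nat_lit 5) (nat_lit 431) (nat_lit 403) (nat_lit 366)) (XT.lf (nat_lit 0) (nat_lit 87500430) (nat_lit 228) (nat_lit 18278392390) (nat_lit 76) (nat_lit 770890135) (nat_lit 72) (nat_lit 5) (nat_lit 75) (nat_lit 5) (nat_lit 73) (nat_lit 5) (nat_lit 432) (nat_lit 403) (nat_lit 365))))) (XT.nd (nat_lit 312) (nat_lit 608) (nat_lit 0) (XT.nd (nat_lit 156) (nat_lit 304) (nat_lit 0) (XT.nd (nat_lit 78) (nat_lit 76) (nat_lit 0) (XT.lf (nat_lit 0) (nat_lit 1009970279) (nat_lit 152) (nat_lit 7857260864) (nat_lit 228) (nat_lit 11213379238) (nat_lit 70) (nat_lit 5) (nat_lit 72) (nat_lit 5) (nat_lit 73) (nat_lit 5) (nat_lit 433) (nat_lit 403) (nat_lit 364)) (XT.lf (nat_lit 0) (nat_lit 1238913978) (nat_lit 76) (nat_lit 17422605544) (nat_lit 152) (nat_lit 2422820075) (nat_lit 69) (nat_lit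 5) (nat_lit 70) (nat_lit 5) (nat_lit 71) (nat_lit 4) (nat_lit 434) (nat_lit 403) (nat_lit 363))) (XT.nd (nat_lit 78) (nat_lit 76) (nat_lit 0) (XT.lf (nat_lit 0) (nat_lit 1350101800) (nat_lit 152) (nat_lit 5903201457) (nat_lit 228) (nat_lit 14889116264) (nat_lit 66) (nat_lit 5) (nat_lit 68) (nat_lit 5) (nat_lit 69) (nat_lit 5) (nat_lit 435) (nat_lit 403) (nat_lit 362)) (XT.lf (nat_lit 0) (nat_lit 1435614021) (nat_lit 76) (nat_lit 16580372366) (nat_lit 152) (nat_lit 5247309567) (nat_lit 65) (nat_lit 5) (nat_lit 66) (nat_lit 5) (nat_lit 67) (nat_lit 4) (nat_lit 436) (nat_lit 403) (nat_lit 361)))) (XT.nd (nat_lit 156) (nat_lit 304) (nat_lit 0) (XT.nd (nat_lit 78) (nat_lit 76) (nat_lit 0) (XT.lf (nat_lit 0) (nat_lit 1448641634) (nat_lit 152) (nat_lit 3965017182) (nat_lit 228) (nat_lit 19035496484) (nat_lit 62) (nat_lit 5) (nat_lit 64) (nat_lit 5) (nat_lit 65) (nat_lit 5) (nat_lit 437) (nat_lit 403)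 (nat_lit 360)) (XT.lf (nat_lit 0) (nat_lit 1315464124) (nat_lit 76) (nat_lit 15914015621) (nat_lit 152) (nat_lit 8471814854) (nat_lit 61) (nat_lit 5) (nat_lit 62) (nat_lit 5) (nat_lit 63) (nat_lit 4) (nat_lit 438) (nat_lit 403) (nat_lit 359))) (XT.nd (nat_lit 78) (nat_lit 76) (nat_lit 0) (XT.lf (nat_lit 0) (nat_lit 1148760321) (nat_lit 152) (nat_lit 2114070047) (nat_lit 228) (nat_lit 23767491132) (nat_lit 58) (nat_lit 5) (nat_lit 60) (nat_lit 5) (nat_lit 61) (nat_lit 5) (nat_lit 439) (nat_lit 403) (nat_lit 358)) (XT.lf (nat_lit 0) (nat_lit 695298137) (nat_lit 76) (nat_lit 15520690675) (nat_lit 152) (nat_lit 12213912475) (nat_lit 57) (nat_lit 5) (nat_lit 58) (nat_lit 5) (nat_lit 59) (nat_lit 4) (nat_lit 440) (nat_lit 403) (nat_lit 357)))))) (XT.nd (nat_lit 546) (nat_lit 836) (nat_lit 0) (XT.nd (nat_lit 234) (nat_lit 456) (nat_lit 0) (XT.nd (nat_lit 78) (nat_lit 76) (nat_lit 0) (XT.lf (nat_lit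 0) (nat_lit 237524058) (nat_lit 152) (nat_lit 447991474) (nat_lit 228) (nat_lit 29234227502) (nat_lit 54) (nat_lit 5) (nat_lit 56) (nat_lit 5) (nat_lit 57) (nat_lit 5) (nat_lit 441) (nat_lit 403) (nat_lit 356)) (XT.nd (nat_lit 78) (nat_lit 76) (nat_lit 0) (XT.lf (nat_lit 0) (nat_lit 14867557401) (nat_lit 228) (nat_lit 651213099) (nat_lit 76) (nat_lit 15966063461) (nat_lit 54) (nat_lit 5) (nat_lit 57) (nat_lit 5) (nat_lit 55) (nat_lit 4) (nat_lit 442) (nat_lit 403) (nat_lit 355)) (XT.lf (nat_lit 0) (nat_lit 30639547358) (nat_lit 152) (nat_lit 1576616747) (nat_lit 0) (nat_lit 936200695) (nat_lit 53) (nat_lit 5) (nat_lit 55) (nat_lit 4) (nat_lit 53) (nat_lit 4) (nat_lit 443) (nat_lit 403) (nat_lit 354)))) (XT.nd (nat_lit 156) (nat_lit 228) (nat_lit 0) (XT.nd (nat_lit 78) (nat_lit 76) (nat_lit 0) (XT.lf (nat_lit 0) (nat_lit 13040547126) (nat_lit 152) (nat_lit 3022084156) (nat_lit 76) (nat_lit 18844355331)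 (nat_lit 51) (nat_lit 5) (nat_lit 53) (nat_lit 5) (nat_lit 52) (nat_lit 4) (nat_lit 444) (nat_lit 403) (nat_lit 353)) (XT.lf (nat_lit 0) (nat_lit 30254691680) (nat_lit 152) (nat_lit 4649331608) (nat_lit 0) (nat_lit 1870669343) (nat_lit 50) (nat_lit 5) (nat_lit 52) (nat_lit 4) (nat_lit 50) (nat_lit 4) (nat_lit 445) (nat_lit 403) (nat_lit 352))) (XT.nd (nat_lit 78) (nat_lit 76) (nat_lit 0) (XT.lf (nat_lit 0) (nat_lit 10514782974) (nat_lit 152) (nat_lit 6871060878) (nat_lit 76) (nat_lit 21359002654) (nat_lit 48) (nat_lit 5) (nat_lit 50) (nat_lit 5) (nat_lit 49) (nat_lit 4) (nat_lit 446) (nat_lit 403) (nat_lit 351)) (XT.lf (nat_lit 0) (nat_lit 29240681903) (nat_lit 152) (nat_lit 9468137379) (nat_lit 0) (nat_lit 2130612329) (nat_lit 47) (nat_lit 5) (nat_lit 49) (nat_lit 4) (nat_lit 47) (nat_lit 4) (nat_lit 447) (nat_lit 403) (nat_lit 350))))) (XT.nd (nat_lit 312) (nat_lit 380) (nat_lit 0) (XT.nd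 (nat_lit 156) (nat_lit 228) (nat_lit 0) (XT.nd (nat_lit 78) (nat_lit 76) (nat_lit 0) (XT.lf (nat_lit 0) (nat_lit 7010935141) (nat_lit 152) (nat_lit 12772226671) (nat_lit 76) (nat_lit 23270879353) (nat_lit 45) (nat_lit 5) (nat_lit 47) (nat_lit 5) (nat_lit 46) (nat_lit 4) (nat_lit 448) (nat_lit 403) (nat_lit 349)) (XT.lf (nat_lit 0) (nat_lit 27297437174) (nat_lit 152) (nat_lit 16694248971) (nat_lit 0) (nat_lit 1414906884) (nat_lit 44) (nat_lit 5) (nat_lit 46) (nat_lit 4) (nat_lit 44) (nat_lit 4) (nat_lit 449) (nat_lit 403) (nat_lit 348))) (XT.nd (nat_lit 78) (nat_lit 76) (nat_lit 0) (XT.lf (nat_lit 0) (nat_lit 2158431972) (nat_lit 152) (nat_lit 21485974986) (nat_lit 76) (nat_lit 24254998067) (nat_lit 42) (nat_lit 5) (nat_lit 44) (nat_lit 5) (nat_lit 43) (nat_lit 4) (nat_lit 450) (nat_lit 403) (nat_lit 347)) (XT.lf (nat_lit 0) (nat_lit 23333115761) (nat_lit 76) (nat_lit 701038093) (nat_lit 152)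 (nat_lit 26511586209) (nat_lit 41) (nat_lit 5) (nat_lit 42) (nat_lit 5) (nat_lit 43) (nat_lit 4) (nat_lit 451) (nat_lit 403) (nat_lit 346)))) (XT.nd (nat_lit 156) (nat_lit 152) (nat_lit 0) (XT.nd (nat_lit 78) (nat_lit 152) (nat_lit 0) (XT.lf (nat_lit 0) (nat_lit 19264549541) (nat_lit 76) (nat_lit 29406761891) (nat_lit 76) (nat_lit 4681902346) (nat_lit 40) (nat_lit 4) (nat_lit 41) (nat_lit 5) (nat_lit 41) (nat_lit 4) (nat_lit 452) (nat_lit 403) (nat_lit 345)) (XT.lf (nat_lit 0) (nat_lit 14119948192) (nat_lit 76) (nat_lit 4839149693) (nat_lit 152) (nat_lit 37377955016) (nat_lit 38) (nat_lit 5) (nat_lit 39) (nat_lit 5) (nat_lit 40) (nat_lit 4) (nat_lit 453) (nat_lit 403) (nat_lit 344))) (XT.nd (nat_lit 78) (nat_lit 76) (nat_lit 0) (XT.lf (nat_lit 0) (nat_lit 7603472886) (nat_lit 76) (nat_lit 37743958921) (nat_lit 76) (nat_lit 14157326117) (nat_lit 37) (nat_lit 4) (nat_lit 38) (nat_lit 5) (nat_lit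 38) (nat_lit 4) (nat_lit 454) (nat_lit 403) (nat_lit 343)) (XT.lf (nat_lit 0) (nat_lit 11358645855) (nat_lit 152) (nat_lit 318835582) (nat_lit 76) (nat_lit 51200511559) (nat_lit 36) (nat_lit 5) (nat_lit 38) (nat_lit 5) (nat_lit 37) (nat_lit 4) (nat_lit 455) (nat_lit 403) (nat_lit 342))))))) (XT.nd (nat_lit 1170) (nat_lit 836) (nat_lit 0) (XT.nd (nat_lit 546) (nat_lit 684) (nat_lit 0) (XT.nd (nat_lit 234) (nat_lit 304) (nat_lit 0) (XT.nd (nat_lit 78) (nat_lit 228) (nat_lit 0) (XT.lf (nat_lit 0) (nat_lit 39551201017) (nat_lit 152) (nat_lit 9845939812) (nat_lit 0) (nat_lit 17055776736) (nat_lit 35) (nat_lit 5) (nat_lit 37) (nat_lit 4) (nat_lit 35) (nat_lit 4) (nat_lit 456) (nat_lit 403) (nat_lit 341)) (XT.nd (nat_lit 78) (nat_lit 76) (nat_lit 0) (XT.lf (nat_lit 0) (nat_lit 641988123) (nat_lit 152) (nat_lit 21193577825) (nat_lit 76) (nat_lit 48431186651) (nat_lit 33) (nat_lit 5) (nat_lit 35) (nat_lit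 5) (nat_lit 34) (nat_lit 4) (nat_lit 457) (nat_lit 403) (nat_lit 340)) (XT.lf (nat_lit 0) (nat_lit 30356106523) (nat_lit 152) (nat_lit 35056273108) (nat_lit 0) (nat_lit 8905793513) (nat_lit 32) (nat_lit 5) (nat_lit 34) (nat_lit 4) (nat_lit 32) (nat_lit 4) (nat_lit 458) (nat_lit 403) (nat_lit 339)))) (XT.nd (nat_lit 156) (nat_lit 76) (nat_lit 0) (XT.nd (nat_lit 78) (nat_lit 152) (nat_lit 0) (XT.lf (nat_lit 0) (nat_lit 27056470718) (nat_lit 76) (nat_lit 36521323183) (nat_lit 76) (nat_lit 15059391847) (nat_lit 31) (nat_lit 4) (nat_lit 32) (nat_lit 5) (nat_lit 32) (nat_lit 4) (nat_lit 459) (nat_lit 403) (nat_lit 338)) (XT.lf (nat_lit 0) (nat_lit 12177698372) (nat_lit 76) (nat_lit 4237124758) (nat_lit 152) (nat_lit 66835464793) (nat_lit 29) (nat_lit 5) (nat_lit 30) (nat_lit 5) (nat_lit 31) (nat_lit 4) (nat_lit 460) (nat_lit 403) (nat_lit 337))) (XT.nd (nat_lit 78) (nat_lit 76) (nat_lit 0) (XT.lf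 (nat_lit 0) (nat_lit 51244485648) (nat_lit 152) (nat_lit 6122534186) (nat_lit 0) (nat_lit 30784819088) (nat_lit 29) (nat_lit 5) (nat_lit 31) (nat_lit 4) (nat_lit 29) (nat_lit 4) (nat_lit 461) (nat_lit 403) (nat_lit 336)) (XT.lf (nat_lit 0) (nat_lit 66002669204) (nat_lit 76) (nat_lit 23928872225) (nat_lit 76) (nat_lit 3460421853) (nat_lit 28) (nat_lit 4) (nat_lit 29) (nat_lit 5) (nat_lit 29) (nat_lit 4) (nat_lit 462) (nat_lit 403) (nat_lit 335))))) (XT.nd (nat_lit 312) (nat_lit 304) (nat_lit 0) (XT.nd (nat_lit 156) (nat_lit 152) (nat_lit 0) (XT.nd (nat_lit 78) (nat_lit 76) (nat_lit 0) (XT.lf (nat_lit 0) (nat_lit 32624618368) (nat_lit 152) (nat_lit 53227684227) (nat_lit 0) (nat_lit 13123110244) (nat_lit 26) (nat_lit 5) (nat_lit 28) (nat_lit 4) (nat_lit 26) (nat_lit 4) (nat_lit 463) (nat_lit 403) (nat_lit 334)) (XT.lf (nat_lit 0) (nat_lit 20871889780) (nat_lit 76) (nat_lit 51790077765) (nat_lit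 76) (nat_lit 32281397543) (nat_lit 25) (nat_lit 4) (nat_lit 26) (nat_lit 5) (nat_lit 26) (nat_lit 4) (nat_lit 464) (nat_lit 403) (nat_lit 333))) (XT.nd (nat_lit 78) (nat_lit 76) (nat_lit 0) (XT.lf (nat_lit 0) (nat_lit 5283151779) (nat_lit 152) (nat_lit 8684859905) (nat_lit 76) (nat_lit 97371515461) (nat_lit 24) (nat_lit 5) (nat_lit 26) (nat_lit 5) (nat_lit 25) (nat_lit 4) (nat_lit 465) (nat_lit 403) (nat_lit 332)) (XT.lf (nat_lit 0) (nat_lit 46321500979) (nat_lit 152) (nat_lit 44089815464) (nat_lit 0) (nat_lit 27729624816) (nat_lit 23) (nat_lit 5) (nat_lit 25) (nat_lit 4) (nat_lit 23) (nat_lit 4) (nat_lit 466) (nat_lit 403) (nat_lit 331)))) (XT.nd (nat_lit 156) (nat_lit 152) (nat_lit 0) (XT.nd (nat_lit 78) (nat_lit 76) (nat_lit 0) (XT.lf (nat_lit 0) (nat_lit 39202626952) (nat_lit 76) (nat_lit 52416173063) (nat_lit 76) (nat_lit 33818874574) (nat_lit 22) (nat_lit 4) (nat_lit 23) (nat_lit 5) (nat_lit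 23) (nat_lit 4) (nat_lit 467) (nat_lit 403) (nat_lit 330)) (XT.lf (nat_lit 0) (nat_lit 7746451478) (nat_lit 152) (nat_lit 2722093630) (nat_lit 76) (nat_lit 122806171272) (nat_lit 21) (nat_lit 5) (nat_lit 23) (nat_lit 5) (nat_lit 22) (nat_lit 4) (nat_lit 468) (nat_lit 403) (nat_lit 329))) (XT.nd (nat_lit 78) (nat_lit 76) (nat_lit 0) (XT.lf (nat_lit 0) (nat_lit 53421792503) (nat_lit 152) (nat_lit 52489856233) (nat_lit 0) (nat_lit 35700870662) (nat_lit 20) (nat_lit 5) (nat_lit 22) (nat_lit 4) (nat_lit 20) (nat_lit 4) (nat_lit 469) (nat_lit 403) (nat_lit 328)) (XT.lf (nat_lit 0) (nat_lit 38817385741) (nat_lit 76) (nat_lit 64742278582) (nat_lit 76) (nat_lit 47017257296) (nat_lit 19) (nat_lit 4) (nat_lit 20) (nat_lit 5) (nat_lit 20) (nat_lit 4) (nat_lit 470) (nat_lit 403) (nat_lit 327)))))) (XT.nd (nat_lit 546) (nat_lit 380) (nat_lit 0) (XT.nd (nat_lit 234) (nat_lit 228) (nat_lit 0) (XT.nd (nat_lit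 78) (nat_lit 228) (nat_lit 0) (XT.lf (nat_lit 0) (nat_lit 139260609550) (nat_lit 76) (nat_lit 19341015356) (nat_lit 76) (nat_lit 1612198288) (nat_lit 19) (nat_lit 4) (nat_lit 20) (nat_lit 5) (nat_lit 20) (nat_lit 4) (nat_lit 471) (nat_lit 403) (nat_lit 326)) (XT.nd (nat_lit 78) (nat_lit 76) (nat_lit 0) (XT.lf (nat_lit 0) (nat_lit 47614154874) (nat_lit 152) (nat_lit 92158940424) (nat_lit 0) (nat_lit 30726219939) (nat_lit 17) (nat_lit 5) (nat_lit 19) (nat_lit 4) (nat_lit 17) (nat_lit 4) (nat_lit 472) (nat_lit 403) (nat_lit 325)) (XT.lf (nat_lit 0) (nat_lit 4481050236) (nat_lit 76) (nat_lit 96989445561) (nat_lit 76) (nat_lit 80098411320) (nat_lit 16) (nat_lit 4) (nat_lit 17) (nat_lit 5) (nat_lit 17) (nat_lit 4) (nat_lit 473) (nat_lit 403) (nat_lit 324)))) (XT.nd (nat_lit 156) (nat_lit 76) (nat_lit 0) (XT.nd (nat_lit 78) (nat_lit 152) (nat_lit 0) (XT.lf (nat_lit 0) (nat_lit 112105552694) (nat_lit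 76) (nat_lit 49116540139) (nat_lit 76) (nat_lit 32222636170) (nat_lit 16) (nat_lit 4) (nat_lit 17) (nat_lit 5) (nat_lit 17) (nat_lit 4) (nat_lit 474) (nat_lit 403) (nat_lit 323)) (XT.lf (nat_lit 0) (nat_lit 19243421938) (nat_lit 152) (nat_lit 183841336203) (nat_lit 0) (nat_lit 3151458962) (nat_lit 14) (nat_lit 5) (nat_lit 16) (nat_lit 4) (nat_lit 14) (nat_lit 4) (nat_lit 475) (nat_lit 403) (nat_lit 322))) (XT.nd (nat_lit 78) (nat_lit 76) (nat_lit 0) (XT.lf (nat_lit 0) (nat_lit 75964225389) (nat_lit 152) (nat_lit 84077148457) (nat_lit 0) (nat_lit 59869919243) (nat_lit 14) (nat_lit 5) (nat_lit 16) (nat_lit 4) (nat_lit 14) (nat_lit 4) (nat_lit 476) (nat_lit 403) (nat_lit 321)) (XT.lf (nat_lit 0) (nat_lit 24417777274) (nat_lit 76) (nat_lit 113170399753) (nat_lit 76) (nat_lit 97073924004) (nat_lit 13) (nat_lit 4) (nat_lit 14) (nat_lit 5) (nat_lit 14) (nat_lit 4) (nat_lit 477) (nat_lit 403) (nat_lit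 320))))) (XT.nd (nat_lit 312) (nat_lit 228) (nat_lit 0) (XT.nd (nat_lit 156) (nat_lit 0) (nat_lit 0) (XT.nd (nat_lit 78) (nat_lit 152) (nat_lit 0) (XT.lf (nat_lit 0) (nat_lit 144564133650) (nat_lit 76) (nat_lit 61027424499) (nat_lit 76) (nat_lit 44928939858) (nat_lit 13) (nat_lit 4) (nat_lit 14) (nat_lit 5) (nat_lit 14) (nat_lit 4) (nat_lit 478) (nat_lit 403) (nat_lit 319)) (XT.lf (nat_lit 0) (nat_lit 6681965126) (nat_lit 76) (nat_lit 4431356752) (nat_lit 152) (nat_lit 256520847543) (nat_lit 11) (nat_lit 5) (nat_lit 12) (nat_lit 5) (nat_lit 13) (nat_lit 4) (nat_lit 479) (nat_lit 403) (nat_lit 318))) (XT.nd (nat_lit 78) (nat_lit 0) (nat_lit 0) (XT.lf (nat_lit 0) (nat_lit 72833226419) (nat_lit 152) (nat_lit 155610539041) (nat_lit 0) (nat_lit 57497924490) (nat_lit 11) (nat_lit 5) (nat_lit 13) (nat_lit 4) (nat_lit 11) (nat_lit 4) (nat_lit 480) (nat_lit 403) (nat_lit 317)) (XT.lf (nat_lit 0) (nat_lit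 139552696988) (nat_lit 152) (nat_lit 41942140228) (nat_lit 0) (nat_lit 124215876275) (nat_lit 11) (nat_lit 5) (nat_lit 13) (nat_lit 4) (nat_lit 11) (nat_lit 4) (nat_lit 481) (nat_lit 403) (nat_lit 316)))) (XT.nd (nat_lit 156) (nat_lit 152) (nat_lit 0) (XT.nd (nat_lit 78) (nat_lit 0) (nat_lit 0) (XT.lf (nat_lit 0) (nat_lit 83467241545) (nat_lit 76) (nat_lit 129433838337) (nat_lit 76) (nat_lit 114095611344) (nat_lit 10) (nat_lit 4) (nat_lit 11) (nat_lit 5) (nat_lit 11) (nat_lit 4) (nat_lit 482) (nat_lit 403) (nat_lit 315)) (XT.lf (nat_lit 0) (nat_lit 220384193578) (nat_lit 76) (nat_lit 72452458412) (nat_lit 76) (nat_lit 57112929306) (nat_lit 10) (nat_lit 4) (nat_lit 11) (nat_lit 5) (nat_lit 11) (nat_lit 4) (nat_lit 483) (nat_lit 403) (nat_lit 314))) (XT.nd (nat_lit 78) (nat_lit 76) (nat_lit 0) (XT.lf (nat_lit 0) (nat_lit 4276010117) (nat_lit 152) (nat_lit 6574914023) (nat_lit 76) (nat_lit 363884852596)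 (nat_lit 9) (nat_lit 5) (nat_lit 11) (nat_lit 5) (nat_lit 10) (nat_lit 4) (nat_lit 484) (nat_lit 403) (nat_lit 313)) (XT.lf (nat_lit 0) (nat_lit 71530587714) (nat_lit 152) (nat_lit 272860391229) (nat_lit 0) (nat_lit 56919300937) (nat_lit 8) (nat_lit 5) (nat_lit 10) (nat_lit 4) (nat_lit 8) (nat_lit 4) (nat_lit 485) (nat_lit 403) (nat_lit 312))))))))
noncomputable def xc52 : XT := (XT.nd (nat_lit 56940) (nat_lit 0) (nat_lit 3648) (XT.nd (nat_lit 1092) (nat_lit 0) (nat_lit 0) (XT.nd (nat_lit 546) (nat_lit 76) (nat_lit 0) (XT.nd (nat_lit 234) (nat_lit 152) (nat_lit 0) (XT.nd (nat_lit 78) (nat_lit 76) (nat_lit 0) (XT.lf (nat_lit 0) (nat_lit 144455349963) (nat_lit 152) (nat_lit 155697823672) (nat_lit 0) (nat_lit 129843078749) (nat_lit 8) (nat_lit 5) (nat_lit 10) (nat_lit 4) (nat_lit 8) (nat_lit 4) (nat_lit 486) (nat_lit 403) (nat_lit 311)) (XT.nd (nat_lit 78) (nat_lit 76) (nat_lit 0) (XT.lf (nat_lit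 0) (nat_lit 223205244793) (nat_lit 152) (nat_lit 29180238283) (nat_lit 0) (nat_lit 208592062064) (nat_lit 8) (nat_lit 5) (nat_lit 10) (nat_lit 4) (nat_lit 8) (nat_lit 4) (nat_lit 487) (nat_lit 403) (nat_lit 310)) (XT.lf (nat_lit 0) (nat_lit 110994619784) (nat_lit 76) (nat_lit 198985255539) (nat_lit 76) (nat_lit 184371228814) (nat_lit 7) (nat_lit 4) (nat_lit 8) (nat_lit 5) (nat_lit 8) (nat_lit 4) (nat_lit 488) (nat_lit 403) (nat_lit 309)))) (XT.nd (nat_lit 156) (nat_lit 152) (nat_lit 0) (XT.nd (nat_lit 78) (nat_lit 0) (nat_lit 0) (XT.lf (nat_lit 0) (nat_lit 263409552047) (nat_lit 76) (nat_lit 140787390366) (nat_lit 76) (nat_lit 126172582163) (nat_lit 7) (nat_lit 4) (nat_lit 8) (nat_lit 5) (nat_lit 8) (nat_lit 4) (nat_lit 489) (nat_lit 403) (nat_lit 308)) (XT.lf (nat_lit 0) (nat_lit 428002927643) (nat_lit 76) (nat_lit 77941192773) (nat_lit 76) (nat_lit 63325660980) (nat_lit 7) (nat_lit 4) (nat_lit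 8) (nat_lit 5) (nat_lit 8) (nat_lit 4) (nat_lit 490) (nat_lit 403) (nat_lit 307))) (XT.nd (nat_lit 78) (nat_lit 76) (nat_lit 0) (XT.lf (nat_lit 0) (nat_lit 4396589819) (nat_lit 152) (nat_lit 5603192654) (nat_lit 76) (nat_lit 601279066529) (nat_lit 6) (nat_lit 5) (nat_lit 8) (nat_lit 5) (nat_lit 7) (nat_lit 4) (nat_lit 491) (nat_lit 403) (nat_lit 306)) (XT.lf (nat_lit 0) (nat_lit 78640574489) (nat_lit 152) (nat_lit 513070240950) (nat_lit 0) (nat_lit 64719791493) (nat_lit 5) (nat_lit 5) (nat_lit 7) (nat_lit 4) (nat_lit 5) (nat_lit 4) (nat_lit 492) (nat_lit 403) (nat_lit 305))))) (XT.nd (nat_lit 234) (nat_lit 76) (nat_lit 0) (XT.nd (nat_lit 78) (nat_lit 0) (nat_lit 0) (XT.lf (nat_lit 0) (nat_lit 159085753752) (nat_lit 152) (nat_lit 400931244272) (nat_lit 0) (nat_lit 145164423700) (nat_lit 5) (nat_lit 5) (nat_lit 7) (nat_lit 4) (nat_lit 5) (nat_lit 4) (nat_lit 493) (nat_lit 403) (nat_lit 304)) (XT.nd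 (nat_lit 78) (nat_lit 0) (nat_lit 0) (XT.lf (nat_lit 0) (nat_lit 245960859535) (nat_lit 152) (nat_lit 279832703623) (nat_lit 0) (nat_lit 232039022948) (nat_lit 5) (nat_lit 5) (nat_lit 7) (nat_lit 4) (nat_lit 5) (nat_lit 4) (nat_lit 494) (nat_lit 403) (nat_lit 303)) (XT.lf (nat_lit 0) (nat_lit 339780707279) (nat_lit 152) (nat_lit 149056998023) (nat_lit 0) (nat_lit 325858401680) (nat_lit 5) (nat_lit 5) (nat_lit 7) (nat_lit 4) (nat_lit 5) (nat_lit 4) (nat_lit 495) (nat_lit 403) (nat_lit 302)))) (XT.nd (nat_lit 156) (nat_lit 0) (nat_lit 0) (XT.nd (nat_lit 78) (nat_lit 76) (nat_lit 0) (XT.lf (nat_lit 0) (nat_lit 441101266452) (nat_lit 152) (nat_lit 7829160325) (nat_lit 0) (nat_lit 427178526582) (nat_lit 5) (nat_lit 5) (nat_lit 7) (nat_lit 4) (nat_lit 5) (nat_lit 4) (nat_lit 496) (nat_lit 403) (nat_lit 301)) (XT.lf (nat_lit 0) (nat_lit 149471744464) (nat_lit 76) (nat_lit 403384883544) (nat_lit 76)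 (nat_lit 389461741571) (nat_lit 4) (nat_lit 4) (nat_lit 5) (nat_lit 5) (nat_lit 5) (nat_lit 4) (nat_lit 497) (nat_lit 403) (nat_lit 300))) (XT.nd (nat_lit 78) (nat_lit 0) (nat_lit 0) (XT.lf (nat_lit 0) (nat_lit 319627508566) (nat_lit 76) (nat_lit 354056970893) (nat_lit 76) (nat_lit 340133456602) (nat_lit 4) (nat_lit 4) (nat_lit 5) (nat_lit 5) (nat_lit 5) (nat_lit 4) (nat_lit 498) (nat_lit 403) (nat_lit 299)) (XT.lf (nat_lit 0) (nat_lit 503387595034) (nat_lit 76) (nat_lit 300786965886) (nat_lit 76) (nat_lit 286863106857) (nat_lit 4) (nat_lit 4) (nat_lit 5) (nat_lit 5) (nat_lit 5) (nat_lit 4) (nat_lit 499) (nat_lit 403) (nat_lit 298)))))) (XT.nd (nat_lit 55224) (nat_lit 0) (nat_lit 10184) (XT.nd (nat_lit 234) (nat_lit 0) (nat_lit 0) (XT.nd (nat_lit 78) (nat_lit 0) (nat_lit 0) (XT.lf (nat_lit 0) (nat_lit 701840952529) (nat_lit 76) (nat_lit 243259194421) (nat_lit 76) (nat_lit 229335016189) (nat_lit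 4) (nat_lit 4) (nat_lit 5) (nat_lit 5) (nat_lit 5) (nat_lit 4) (nat_lit 500) (nat_lit 403) (nat_lit 297)) (XT.nd (nat_lit 78) (nat_lit 0) (nat_lit 0) (XT.lf (nat_lit 0) (nat_lit 916163600948) (nat_lit 76) (nat_lit 181132751184) (nat_lit 76) (nat_lit 167208277395) (nat_lit 4) (nat_lit 4) (nat_lit 5) (nat_lit 5) (nat_lit 5) (nat_lit 4) (nat_lit 501) (nat_lit 403) (nat_lit 296)) (XT.lf (nat_lit 0) (nat_lit 1147625600429) (nat_lit 76) (nat_lit 114039479475) (nat_lit 76) (nat_lit 100114732021) (nat_lit 4) (nat_lit 4) (nat_lit 5) (nat_lit 5) (nat_lit 5) (nat_lit 4) (nat_lit 502) (nat_lit 403) (nat_lit 295)))) (XT.nd (nat_lit 54834) (nat_lit 0) (nat_lit 13604) (XT.nd (nat_lit 54756) (nat_lit 0) (nat_lit 14136) (XT.lf (nat_lit 0) (nat_lit 1397598577636) (nat_lit 76) (nat_lit 41581789536) (nat_lit 76) (nat_lit 27656788689) (nat_lit 4) (nat_lit 4) (nat_lit 5) (nat_lit 5) (nat_lit 5) (nat_lit 4) (nat_lit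 503) (nat_lit 403) (nat_lit 294)) (XT.lf (nat_lit 0) (nat_lit 1510703518) (nat_lit 0) (nat_lit 1510703518) (nat_lit 380) (nat_lit 428620889) (nat_lit 190) (nat_lit 5) (nat_lit 190) (nat_lit 3) (nat_lit 195) (nat_lit 3) (nat_lit 404) (nat_lit 404) (nat_lit 392))) (XT.nd (nat_lit 78) (nat_lit 0) (nat_lit 76) (XT.lf (nat_lit 76) (nat_lit 1642022890) (nat_lit 0) (nat_lit 520244414) (nat_lit 532) (nat_lit 4862601336) (nat_lit 184) (nat_lit 5) (nat_lit 183) (nat_lit 3) (nat_lit 190) (nat_lit 5) (nat_lit 405) (nat_lit 404) (nat_lit 391)) (XT.lf (nat_lit 76) (nat_lit 368571978) (nat_lit 0) (nat_lit 4833145068) (nat_lit 532) (nat_lit 1966888323) (nat_lit 185) (nat_lit 5) (nat_lit 184) (nat_lit 5) (nat_lit 191) (nat_lit 5) (nat_lit 406) (nat_lit 404) (nat_lit 390))))) (XT.nd (nat_lit 312) (nat_lit 2508) (nat_lit 0) (XT.nd (nat_lit 156) (nat_lit 456) (nat_lit 0) (XT.nd (nat_lit 78) (nat_lit 0) (nat_lit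 76) (XT.lf (nat_lit 0) (nat_lit 941854058) (nat_lit 532) (nat_lit 757100322) (nat_lit 608) (nat_lit 5633109882) (nat_lit 177) (nat_lit 5) (nat_lit 184) (nat_lit 5) (nat_lit 185) (nat_lit 5) (nat_lit 407) (nat_lit 404) (nat_lit 389)) (XT.lf (nat_lit 0) (nat_lit 3870539441) (nat_lit 532) (nat_lit 1793737109) (nat_lit 608) (nat_lit 1849954253) (nat_lit 178) (nat_lit 5) (nat_lit 185) (nat_lit 5) (nat_lit 186) (nat_lit 5) (nat_lit 408) (nat_lit 404) (nat_lit 388))) (XT.nd (nat_lit 78) (nat_lit 532) (nat_lit 0) (XT.lf (nat_lit 76) (nat_lit 4989019427) (nat_lit 0) (nat_lit 1918455453) (nat_lit 608) (nat_lit 809845086) (nat_lit 179) (nat_lit 5) (nat_lit 178) (nat_lit 5) (nat_lit 186) (nat_lit 5) (nat_lit 409) (nat_lit 404) (nat_lit 387)) (XT.lf (nat_lit 0) (nat_lit 2080850982) (nat_lit 608) (nat_lit 3605346145) (nat_lit 76) (nat_lit 2253634703) (nat_lit 171) (nat_lit 5) (nat_lit 179) (nat_lit 5) (nat_lit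 172) (nat_lit 5) (nat_lit 410) (nat_lit 404) (nat_lit 386)))) (XT.nd (nat_lit 156) (nat_lit 1216) (nat_lit 0) (XT.nd (nat_lit 78) (nat_lit 684) (nat_lit 0) (XT.lf (nat_lit 0) (nat_lit 3776828780) (nat_lit 608) (nat_lit 1318949956) (nat_lit 684) (nat_lit 3087673076) (nat_lit 163) (nat_lit 5) (nat_lit 171) (nat_lit 5) (nat_lit 172) (nat_lit 5) (nat_lit 411) (nat_lit 404) (nat_lit 385)) (XT.lf (nat_lit 0) (nat_lit 3304332020) (nat_lit 684) (nat_lit 5011433844) (nat_lit 760) (nat_lit 132637852) (nat_lit 154) (nat_lit 5) (nat_lit 163) (nat_lit 5) (nat_lit 164) (nat_lit 5) (nat_lit 412) (nat_lit 404) (nat_lit 384))) (XT.nd (nat_lit 78) (nat_lit 380) (nat_lit 0) (XT.lf (nat_lit 0) (nat_lit 2899534556) (nat_lit 760) (nat_lit 11541083) (nat_lit 836) (nat_lit 5823610880) (nat_lit 143) (nat_lit 5) (nat_lit 153) (nat_lit 5) (nat_lit 154) (nat_lit 5) (nat_lit 413) (nat_lit 404) (nat_lit 383)) (XT.lf (nat_lit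 0) (nat_lit 2542123676) (nat_lit 380) (nat_lit 3683053219) (nat_lit 456) (nat_lit 2817038499) (nat_lit 138) (nat_lit 5) (nat_lit 143) (nat_lit 5) (nat_lit 144) (nat_lit 5) (nat_lit 414) (nat_lit 404) (nat_lit 382))))))) (XT.nd (nat_lit 1170) (nat_lit 2280) (nat_lit 0) (XT.nd (nat_lit 546) (nat_lit 1824) (nat_lit 0) (XT.nd (nat_lit 234) (nat_lit 1292) (nat_lit 0) (XT.nd (nat_lit 78) (nat_lit 684) (nat_lit 0) (XT.lf (nat_lit 0) (nat_lit 410705483) (nat_lit 456) (nat_lit 7092077449) (nat_lit 76) (nat_lit 1871533026) (nat_lit 132) (nat_lit 5) (nat_lit 138) (nat_lit 5) (nat_lit 133) (nat_lit 5) (nat_lit 415) (nat_lit 404) (nat_lit 381)) (XT.nd (nat_lit 78) (nat_lit 304) (nat_lit 0) (XT.lf (nat_lit 0) (nat_lit 2045381864) (nat_lit 380) (nat_lit 1797811386) (nat_lit 456) (nat_lit 5885245012) (nat_lit 127) (nat_lit 5) (nat_lit 132) (nat_lit 5) (nat_lit 133) (nat_lit 5) (nat_lit 416) (nat_lit 404) (nat_lit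 380)) (XT.lf (nat_lit 0) (nat_lit 1871875430) (nat_lit 304) (nat_lit 5745376953) (nat_lit 380) (nat_lit 2490311315) (nat_lit 123) (nat_lit 5) (nat_lit 127) (nat_lit 5) (nat_lit 128) (nat_lit 5) (nat_lit 417) (nat_lit 404) (nat_lit 379)))) (XT.nd (nat_lit 156) (nat_lit 608) (nat_lit 0) (XT.nd (nat_lit 78) (nat_lit 304) (nat_lit 0) (XT.lf (nat_lit 0) (nat_lit 1192631385) (nat_lit 380) (nat_lit 8739197067) (nat_lit 76) (nat_lit 581588853) (nat_lit 118) (nat_lit 5) (nat_lit 123) (nat_lit 5) (nat_lit 119) (nat_lit 5) (nat_lit 418) (nat_lit 404) (nat_lit 378)) (XT.lf (nat_lit 0) (nat_lit 1670381327) (nat_lit 304) (nat_lit 3540978461) (nat_lit 380) (nat_lit 5731936175) (nat_lit 114) (nat_lit 5) (nat_lit 118) (nat_lit 5) (nat_lit 119) (nat_lit 5) (nat_lit 419) (nat_lit 404) (nat_lit 377))) (XT.nd (nat_lit 78) (nat_lit 304) (nat_lit 0) (XT.lf (nat_lit 0) (nat_lit 1647811821) (nat_lit 304) (nat_lit 8002473646)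 (nat_lit 380) (nat_lit 1752361103) (nat_lit 110) (nat_lit 5) (nat_lit 114) (nat_lit 5) (nat_lit 115) (nat_lit 5) (nat_lit 420) (nat_lit 404) (nat_lit 376)) (XT.lf (nat_lit 0) (nat_lit 1662279014) (nat_lit 228) (nat_lit 922668692) (nat_lit 304) (nat_lit 9305782870) (nat_lit 106) (nat_lit 5) (nat_lit 109) (nat_lit 5) (nat_lit 110) (nat_lit 5) (nat_lit 421) (nat_lit 404) (nat_lit 375))))) (XT.nd (nat_lit 312) (nat_lit 912) (nat_lit 0) (XT.nd (nat_lit 156) (nat_lit 456) (nat_lit 0) (XT.nd (nat_lit 78) (nat_lit 228) (nat_lit 0) (XT.lf (nat_lit 0) (nat_lit 1678669589) (nat_lit 228) (nat_lit 5711232153) (nat_lit 304) (nat_lit 5017434023) (nat_lit 103) (nat_lit 5) (nat_lit 106) (nat_lit 5) (nat_lit 107) (nat_lit 5) (nat_lit 422) (nat_lit 404) (nat_lit 374)) (XT.lf (nat_lit 0) (nat_lit 1788963687) (nat_lit 228) (nat_lit 10927896793) (nat_lit 304) (nat_lit 241541025) (nat_lit 100) (nat_lit 5) (nat_lit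 103) (nat_lit 5) (nat_lit 104) (nat_lit 5) (nat_lit 423) (nat_lit 404) (nat_lit 373))) (XT.nd (nat_lit 78) (nat_lit 152) (nat_lit 0) (XT.lf (nat_lit 0) (nat_lit 1866852405) (nat_lit 228) (nat_lit 3095123638) (nat_lit 304) (nat_lit 8577604131) (nat_lit 96) (nat_lit 5) (nat_lit 99) (nat_lit 5) (nat_lit 100) (nat_lit 5) (nat_lit 424) (nat_lit 404) (nat_lit 372)) (XT.lf (nat_lit 0) (nat_lit 1999218361) (nat_lit 152) (nat_lit 8779543488) (nat_lit 228) (nat_lit 3378031064) (nat_lit 94) (nat_lit 5) (nat_lit 96) (nat_lit 5) (nat_lit 97) (nat_lit 5) (nat_lit 425) (nat_lit 404) (nat_lit 371)))) (XT.nd (nat_lit 156) (nat_lit 456) (nat_lit 0) (XT.nd (nat_lit 78) (nat_lit 152) (nat_lit 0) (XT.lf (nat_lit 0) (nat_lit 2190628371) (nat_lit 228) (nat_lit 164808405) (nat_lit 304) (nat_lit 12456731089) (nat_lit 90) (nat_lit 5) (nat_lit 93) (nat_lit 5) (nat_lit 94) (nat_lit 5) (nat_lit 426) (nat_lit 404) (nat_lit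 370)) (XT.lf (nat_lit 0) (nat_lit 2328026217) (nat_lit 152) (nat_lit 6398052996) (nat_lit 228) (nat_lit 6776290745) (nat_lit 88) (nat_lit 5) (nat_lit 90) (nat_lit 5) (nat_lit 91) (nat_lit 5) (nat_lit 427) (nat_lit 404) (nat_lit 369))) (XT.nd (nat_lit 78) (nat_lit 228) (nat_lit 0) (XT.lf (nat_lit 0) (nat_lit 2566658186) (nat_lit 228) (nat_lit 13255822276) (nat_lit 304) (nat_lit 414510137) (nat_lit 85) (nat_lit 5) (nat_lit 88) (nat_lit 5) (nat_lit 89) (nat_lit 5) (nat_lit 428) (nat_lit 404) (nat_lit 368)) (XT.lf (nat_lit 0) (nat_lit 2745535863) (nat_lit 152) (nat_lit 3796469132) (nat_lit 228) (nat_lit 10468721190) (nat_lit 82) (nat_lit 5) (nat_lit 84) (nat_lit 5) (nat_lit 85) (nat_lit 5) (nat_lit 429) (nat_lit 404) (nat_lit 367)))))) (XT.nd (nat_lit 546) (nat_lit 1064) (nat_lit 0) (XT.nd (nat_lit 234) (nat_lit 684) (nat_lit 0) (XT.nd (nat_lit 78) (nat_lit 380) (nat_lit 0) (XT.lf (nat_lit 0) (nat_lit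 2966787041) (nat_lit 152) (nat_lit 11374647876) (nat_lit 228) (nat_lit 3489546468) (nat_lit 80) (nat_lit 5) (nat_lit 82) (nat_lit 5) (nat_lit 83) (nat_lit 5) (nat_lit 430) (nat_lit 404) (nat_lit 366)) (XT.nd (nat_lit 78) (nat_lit 152) (nat_lit 0) (XT.lf (nat_lit 0) (nat_lit 3211884658) (nat_lit 152) (nat_lit 988346133) (nat_lit 228) (nat_lit 14499380356) (nat_lit 77) (nat_lit 5) (nat_lit 79) (nat_lit 5) (nat_lit 80) (nat_lit 5) (nat_lit 431) (nat_lit 404) (nat_lit 365)) (XT.lf (nat_lit 0) (nat_lit 3386734385) (nat_lit 152) (nat_lit 9391993261) (nat_lit 228) (nat_lit 6836358821) (nat_lit 75) (nat_lit 5) (nat_lit 77) (nat_lit 5) (nat_lit 78) (nat_lit 5) (nat_lit 432) (nat_lit 404) (nat_lit 364)))) (XT.nd (nat_lit 156) (nat_lit 304) (nat_lit 0) (XT.nd (nat_lit 78) (nat_lit 152) (nat_lit 0) (XT.lf (nat_lit 0) (nat_lit 1694312060) (nat_lit 228) (nat_lit 16948223443) (nat_lit 76) (nat_lit 1945110617)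 (nat_lit 72) (nat_lit 5) (nat_lit 75) (nat_lit 5) (nat_lit 73) (nat_lit 5) (nat_lit 433) (nat_lit 404) (nat_lit 363)) (XT.lf (nat_lit 0) (nat_lit 3761852186) (nat_lit 152) (nat_lit 7337767593) (nat_lit 228) (nat_lit 10511206618) (nat_lit 70) (nat_lit 5) (nat_lit 72) (nat_lit 5) (nat_lit 73) (nat_lit 5) (nat_lit 434) (nat_lit 404) (nat_lit 362))) (XT.nd (nat_lit 78) (nat_lit 228) (nat_lit 0) (XT.lf (nat_lit 0) (nat_lit 3948803471) (nat_lit 76) (nat_lit 17673190629) (nat_lit 152) (nat_lit 1075638803) (nat_lit 69) (nat_lit 5) (nat_lit 70) (nat_lit 5) (nat_lit 71) (nat_lit 4) (nat_lit 435) (nat_lit 404) (nat_lit 361)) (XT.lf (nat_lit 0) (nat_lit 4002672964) (nat_lit 152) (nat_lit 5251812160) (nat_lit 228) (nat_lit 14588214873) (nat_lit 66) (nat_lit 5) (nat_lit 68) (nat_lit 5) (nat_lit 69) (nat_lit 5) (nat_lit 436) (nat_lit 404) (nat_lit 360))))) (XT.nd (nat_lit 312) (nat_lit 456) (nat_lit 0) (XT.nd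 (nat_lit 156) (nat_lit 304) (nat_lit 0) (XT.nd (nat_lit 78) (nat_lit 228) (nat_lit 0) (XT.lf (nat_lit 0) (nat_lit 4035684307) (nat_lit 76) (nat_lit 16792290463) (nat_lit 152) (nat_lit 4227787160) (nat_lit 65) (nat_lit 5) (nat_lit 66) (nat_lit 5) (nat_lit 67) (nat_lit 4) (nat_lit 437) (nat_lit 404) (nat_lit 359)) (XT.lf (nat_lit 0) (nat_lit 3985870945) (nat_lit 152) (nat_lit 3188721813) (nat_lit 228) (nat_lit 19164048031) (nat_lit 62) (nat_lit 5) (nat_lit 64) (nat_lit 5) (nat_lit 65) (nat_lit 5) (nat_lit 438) (nat_lit 404) (nat_lit 358))) (XT.nd (nat_lit 78) (nat_lit 228) (nat_lit 0) (XT.lf (nat_lit 0) (nat_lit 3784039472) (nat_lit 76) (nat_lit 16105987526) (nat_lit 152) (nat_lit 7803210915) (nat_lit 61) (nat_lit 5) (nat_lit 62) (nat_lit 5) (nat_lit 63) (nat_lit 4) (nat_lit 439) (nat_lit 404) (nat_lit 357)) (XT.lf (nat_lit 0) (nat_lit 3542556726) (nat_lit 152) (nat_lit 1223959064) (nat_lit 228)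 (nat_lit 24364053676) (nat_lit 58) (nat_lit 5) (nat_lit 60) (nat_lit 5) (nat_lit 61) (nat_lit 5) (nat_lit 440) (nat_lit 404) (nat_lit 356)))) (XT.nd (nat_lit 156) (nat_lit 152) (nat_lit 0) (XT.nd (nat_lit 78) (nat_lit 228) (nat_lit 0) (XT.lf (nat_lit 0) (nat_lit 2996436631) (nat_lit 76) (nat_lit 15717812882) (nat_lit 152) (nat_lit 11929953312) (nat_lit 57) (nat_lit 5) (nat_lit 58) (nat_lit 5) (nat_lit 59) (nat_lit 4) (nat_lit 441) (nat_lit 404) (nat_lit 355)) (XT.lf (nat_lit 0) (nat_lit 1913186961) (nat_lit 228) (nat_lit 29820370067) (nat_lit 76) (nat_lit 521087355) (nat_lit 54) (nat_lit 5) (nat_lit 57) (nat_lit 5) (nat_lit 55) (nat_lit 4) (nat_lit 442) (nat_lit 404) (nat_lit 354))) (XT.nd (nat_lit 78) (nat_lit 76) (nat_lit 0) (XT.lf (nat_lit 0) (nat_lit 1405443633) (nat_lit 76) (nat_lit 15766409551) (nat_lit 152) (nat_lit 16775989059) (nat_lit 53) (nat_lit 5) (nat_lit 54) (nat_lit 5) (nat_lit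 55) (nat_lit 4) (nat_lit 443) (nat_lit 404) (nat_lit 353)) (XT.lf (nat_lit 0) (nat_lit 319183737) (nat_lit 76) (nat_lit 33833860620) (nat_lit 76) (nat_lit 1598361601) (nat_lit 52) (nat_lit 4) (nat_lit 53) (nat_lit 5) (nat_lit 53) (nat_lit 4) (nat_lit 444) (nat_lit 404) (nat_lit 352))))))))
noncomputable def xc53 : XT := (XT.nd (nat_lit 2262) (nat_lit 988) (nat_lit 0) (XT.nd (nat_lit 1092) (nat_lit 1216) (nat_lit 0) (XT.nd (nat_lit 546) (nat_lit 684) (nat_lit 0) (XT.nd (nat_lit 234) (nat_lit 456) (nat_lit 0) (XT.nd (nat_lit 78) (nat_lit 228) (nat_lit 0) (XT.lf (nat_lit 0) (nat_lit 15109432323) (nat_lit 152) (nat_lit 1305623577) (nat_lit 76) (nat_lit 21233179912) (nat_lit 51) (nat_lit 5) (nat_lit 53) (nat_lit 5) (nat_lit 52) (nat_lit 4) (nat_lit 445) (nat_lit 404) (nat_lit 351)) (XT.nd (nat_lit 78) (nat_lit 152) (nat_lit 0) (XT.lf (nat_lit 0) (nat_lit 33667940897) (nat_lit 152) (nat_lit 3113142914)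 (nat_lit 0) (nat_lit 2885914927) (nat_lit 50) (nat_lit 5) (nat_lit 52) (nat_lit 4) (nat_lit 50) (nat_lit 4) (nat_lit 446) (nat_lit 404) (nat_lit 350)) (XT.lf (nat_lit 0) (nat_lit 12319350982) (nat_lit 152) (nat_lit 5563659303) (nat_lit 76) (nat_lit 23913232090) (nat_lit 48) (nat_lit 5) (nat_lit 50) (nat_lit 5) (nat_lit 49) (nat_lit 4) (nat_lit 447) (nat_lit 404) (nat_lit 349)))) (XT.nd (nat_lit 156) (nat_lit 228) (nat_lit 0) (XT.nd (nat_lit 78) (nat_lit 152) (nat_lit 0) (XT.lf (nat_lit 0) (nat_lit 32513068481) (nat_lit 152) (nat_lit 8416574108) (nat_lit 0) (nat_lit 3130266039) (nat_lit 47) (nat_lit 5) (nat_lit 49) (nat_lit 4) (nat_lit 47) (nat_lit 4) (nat_lit 448) (nat_lit 404) (nat_lit 348)) (XT.lf (nat_lit 0) (nat_lit 8477463180) (nat_lit 152) (nat_lit 12033644673) (nat_lit 76) (nat_lit 25941955504) (nat_lit 45) (nat_lit 5) (nat_lit 47) (nat_lit 5) (nat_lit 46) (nat_lit 4) (nat_lit 449) (nat_lit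 404) (nat_lit 347))) (XT.nd (nat_lit 78) (nat_lit 152) (nat_lit 0) (XT.lf (nat_lit 0) (nat_lit 30358876556) (nat_lit 152) (nat_lit 16315458790) (nat_lit 0) (nat_lit 2320885831) (nat_lit 44) (nat_lit 5) (nat_lit 46) (nat_lit 4) (nat_lit 44) (nat_lit 4) (nat_lit 450) (nat_lit 404) (nat_lit 346)) (XT.lf (nat_lit 0) (nat_lit 3183099419) (nat_lit 152) (nat_lit 21536839794) (nat_lit 76) (nat_lit 26968803513) (nat_lit 42) (nat_lit 5) (nat_lit 44) (nat_lit 5) (nat_lit 43) (nat_lit 4) (nat_lit 451) (nat_lit 404) (nat_lit 345))))) (XT.nd (nat_lit 234) (nat_lit 380) (nat_lit 0) (XT.nd (nat_lit 78) (nat_lit 228) (nat_lit 0) (XT.lf (nat_lit 0) (nat_lit 26771063280) (nat_lit 152) (nat_lit 27753791511) (nat_lit 0) (nat_lit 23821680) (nat_lit 41) (nat_lit 5) (nat_lit 43) (nat_lit 4) (nat_lit 41) (nat_lit 4) (nat_lit 452) (nat_lit 404) (nat_lit 344)) (XT.nd (nat_lit 78) (nat_lit 152) (nat_lit 0) (XT.lf (nat_lit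 0) (nat_lit 22359157442) (nat_lit 76) (nat_lit 30994925388) (nat_lit 76) (nat_lit 4227921817) (nat_lit 40) (nat_lit 4) (nat_lit 41) (nat_lit 5) (nat_lit 41) (nat_lit 4) (nat_lit 453) (nat_lit 404) (nat_lit 343)) (XT.lf (nat_lit 0) (nat_lit 16760854736) (nat_lit 76) (nat_lit 4481172789) (nat_lit 152) (nat_lit 39563668135) (nat_lit 38) (nat_lit 5) (nat_lit 39) (nat_lit 5) (nat_lit 40) (nat_lit 4) (nat_lit 454) (nat_lit 404) (nat_lit 342)))) (XT.nd (nat_lit 156) (nat_lit 152) (nat_lit 0) (XT.nd (nat_lit 78) (nat_lit 152) (nat_lit 0) (XT.lf (nat_lit 0) (nat_lit 9682910083) (nat_lit 76) (nat_lit 40035502826) (nat_lit 76) (nat_lit 14509555781) (nat_lit 37) (nat_lit 4) (nat_lit 38) (nat_lit 5) (nat_lit 38) (nat_lit 4) (nat_lit 455) (nat_lit 404) (nat_lit 341)) (XT.lf (nat_lit 0) (nat_lit 1075397069) (nat_lit 76) (nat_lit 11908156476) (nat_lit 152) (nat_lit 54888858795) (nat_lit 35) (nat_lit 5) (nat_lit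 36) (nat_lit 5) (nat_lit 37) (nat_lit 4) (nat_lit 456) (nat_lit 404) (nat_lit 340))) (XT.nd (nat_lit 78) (nat_lit 152) (nat_lit 0) (XT.lf (nat_lit 0) (nat_lit 43393857241) (nat_lit 152) (nat_lit 9285330012) (nat_lit 0) (nat_lit 19056027105) (nat_lit 35) (nat_lit 5) (nat_lit 37) (nat_lit 4) (nat_lit 35) (nat_lit 4) (nat_lit 457) (nat_lit 404) (nat_lit 339)) (XT.lf (nat_lit 0) (nat_lit 1352417027) (nat_lit 152) (nat_lit 21577574472) (nat_lit 76) (nat_lit 52925140226) (nat_lit 33) (nat_lit 5) (nat_lit 35) (nat_lit 5) (nat_lit 34) (nat_lit 4) (nat_lit 458) (nat_lit 404) (nat_lit 338)))))) (XT.nd (nat_lit 546) (nat_lit 608) (nat_lit 0) (XT.nd (nat_lit 234) (nat_lit 304) (nat_lit 0) (XT.nd (nat_lit 78) (nat_lit 228) (nat_lit 0) (XT.lf (nat_lit 0) (nat_lit 33424183734) (nat_lit 152) (nat_lit 36584534947) (nat_lit 0) (nat_lit 10222921854) (nat_lit 32) (nat_lit 5) (nat_lit 34) (nat_lit 4) (nat_lit 32)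 (nat_lit 4) (nat_lit 459) (nat_lit 404) (nat_lit 337)) (XT.nd (nat_lit 78) (nat_lit 152) (nat_lit 0) (XT.lf (nat_lit 0) (nat_lit 30441764549) (nat_lit 76) (nat_lit 38833524350) (nat_lit 76) (nat_lit 15622301628) (nat_lit 31) (nat_lit 4) (nat_lit 32) (nat_lit 5) (nat_lit 32) (nat_lit 4) (nat_lit 460) (nat_lit 404) (nat_lit 336)) (XT.lf (nat_lit 0) (nat_lit 14339293065) (nat_lit 76) (nat_lit 3982530734) (nat_lit 152) (nat_lit 71558790679) (nat_lit 29) (nat_lit 5) (nat_lit 30) (nat_lit 5) (nat_lit 31) (nat_lit 4) (nat_lit 461) (nat_lit 404) (nat_lit 335)))) (XT.nd (nat_lit 156) (nat_lit 228) (nat_lit 0) (XT.nd (nat_lit 78) (nat_lit 76) (nat_lit 0) (XT.lf (nat_lit 0) (nat_lit 55902453774) (nat_lit 152) (nat_lit 5493996083) (nat_lit 0) (nat_lit 33779610402) (nat_lit 29) (nat_lit 5) (nat_lit 31) (nat_lit 4) (nat_lit 29) (nat_lit 4) (nat_lit 462) (nat_lit 404) (nat_lit 334)) (XT.lf (nat_lit 0) (nat_lit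 72352621847) (nat_lit 76) (nat_lit 25307190145) (nat_lit 76) (nat_lit 3176816070) (nat_lit 28) (nat_lit 4) (nat_lit 29) (nat_lit 5) (nat_lit 29) (nat_lit 4) (nat_lit 463) (nat_lit 404) (nat_lit 333))) (XT.nd (nat_lit 78) (nat_lit 76) (nat_lit 0) (XT.lf (nat_lit 0) (nat_lit 35761295788) (nat_lit 152) (nat_lit 56427702125) (nat_lit 0) (nat_lit 14678108219) (nat_lit 26) (nat_lit 5) (nat_lit 28) (nat_lit 4) (nat_lit 26) (nat_lit 4) (nat_lit 464) (nat_lit 404) (nat_lit 332)) (XT.lf (nat_lit 0) (nat_lit 23553849858) (nat_lit 76) (nat_lit 55424571055) (nat_lit 76) (nat_lit 34335234567) (nat_lit 25) (nat_lit 4) (nat_lit 26) (nat_lit 5) (nat_lit 26) (nat_lit 4) (nat_lit 465) (nat_lit 404) (nat_lit 331))))) (XT.nd (nat_lit 312) (nat_lit 304) (nat_lit 0) (XT.nd (nat_lit 156) (nat_lit 152) (nat_lit 0) (XT.nd (nat_lit 78) (nat_lit 76) (nat_lit 0) (XT.lf (nat_lit 0) (nat_lit 6179650110) (nat_lit 152) (nat_lit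 8426747202) (nat_lit 76) (nat_lit 105616596154) (nat_lit 24) (nat_lit 5) (nat_lit 26) (nat_lit 5) (nat_lit 25) (nat_lit 4) (nat_lit 466) (nat_lit 404) (nat_lit 330)) (XT.lf (nat_lit 0) (nat_lit 50487357096) (nat_lit 152) (nat_lit 46690017655) (nat_lit 0) (nat_lit 30391831728) (nat_lit 23) (nat_lit 5) (nat_lit 25) (nat_lit 4) (nat_lit 23) (nat_lit 4) (nat_lit 467) (nat_lit 404) (nat_lit 329))) (XT.nd (nat_lit 78) (nat_lit 76) (nat_lit 0) (XT.lf (nat_lit 0) (nat_lit 43225534601) (nat_lit 76) (nat_lit 56162665135) (nat_lit 76) (nat_lit 36062490997) (nat_lit 22) (nat_lit 4) (nat_lit 23) (nat_lit 5) (nat_lit 23) (nat_lit 4) (nat_lit 468) (nat_lit 404) (nat_lit 328)) (XT.lf (nat_lit 0) (nat_lit 8780158397) (nat_lit 152) (nat_lit 2105153841) (nat_lit 76) (nat_lit 133030679236) (nat_lit 21) (nat_lit 5) (nat_lit 23) (nat_lit 5) (nat_lit 22) (nat_lit 4) (nat_lit 469) (nat_lit 404) (nat_lit 327)))) (XT.nd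 (nat_lit 156) (nat_lit 152) (nat_lit 0) (XT.nd (nat_lit 78) (nat_lit 76) (nat_lit 0) (XT.lf (nat_lit 0) (nat_lit 58097612838) (nat_lit 152) (nat_lit 55877107164) (nat_lit 0) (nat_lit 38946694622) (nat_lit 20) (nat_lit 5) (nat_lit 22) (nat_lit 4) (nat_lit 20) (nat_lit 4) (nat_lit 470) (nat_lit 404) (nat_lit 326)) (XT.lf (nat_lit 0) (nat_lit 42699428351) (nat_lit 76) (nat_lit 69529428286) (nat_lit 76) (nat_lit 50374995457) (nat_lit 19) (nat_lit 4) (nat_lit 20) (nat_lit 5) (nat_lit 20) (nat_lit 4) (nat_lit 471) (nat_lit 404) (nat_lit 325))) (XT.nd (nat_lit 78) (nat_lit 152) (nat_lit 0) (XT.lf (nat_lit 0) (nat_lit 151120580305) (nat_lit 76) (nat_lit 20525118268) (nat_lit 76) (nat_lit 1367431167) (nat_lit 19) (nat_lit 4) (nat_lit 20) (nat_lit 5) (nat_lit 20) (nat_lit 4) (nat_lit 472) (nat_lit 404) (nat_lit 324)) (XT.lf (nat_lit 0) (nat_lit 51774705581) (nat_lit 152) (nat_lit 98820562518) (nat_lit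 0) (nat_lit 33526419566) (nat_lit 17) (nat_lit 5) (nat_lit 19) (nat_lit 4) (nat_lit 17) (nat_lit 4) (nat_lit 473) (nat_lit 404) (nat_lit 323))))))) (XT.nd (nat_lit 1170) (nat_lit 304) (nat_lit 0) (XT.nd (nat_lit 546) (nat_lit 228) (nat_lit 0) (XT.nd (nat_lit 234) (nat_lit 228) (nat_lit 0) (XT.nd (nat_lit 78) (nat_lit 152) (nat_lit 0) (XT.lf (nat_lit 0) (nat_lit 5519724154) (nat_lit 76) (nat_lit 104404418309) (nat_lit 76) (nat_lit 86153475139) (nat_lit 16) (nat_lit 4) (nat_lit 17) (nat_lit 5) (nat_lit 17) (nat_lit 4) (nat_lit 474) (nat_lit 404) (nat_lit 322)) (XT.nd (nat_lit 78) (nat_lit 152) (nat_lit 0) (XT.lf (nat_lit 0) (nat_lit 121703802372) (nat_lit 76) (nat_lit 52727175483) (nat_lit 76) (nat_lit 34473771983) (nat_lit 16) (nat_lit 4) (nat_lit 17) (nat_lit 5) (nat_lit 17) (nat_lit 4) (nat_lit 475) (nat_lit 404) (nat_lit 321)) (XT.lf (nat_lit 0) (nat_lit 21090094554) (nat_lit 152) (nat_lit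 197925927417) (nat_lit 0) (nat_lit 3703731142) (nat_lit 14) (nat_lit 5) (nat_lit 16) (nat_lit 4) (nat_lit 14) (nat_lit 4) (nat_lit 476) (nat_lit 404) (nat_lit 320)))) (XT.nd (nat_lit 156) (nat_lit 152) (nat_lit 0) (XT.nd (nat_lit 78) (nat_lit 76) (nat_lit 0) (XT.lf (nat_lit 0) (nat_lit 82325806810) (nat_lit 152) (nat_lit 90226731738) (nat_lit 0) (nat_lit 64937434507) (nat_lit 14) (nat_lit 5) (nat_lit 16) (nat_lit 4) (nat_lit 14) (nat_lit 4) (nat_lit 477) (nat_lit 404) (nat_lit 319)) (XT.lf (nat_lit 0) (nat_lit 26922730213) (nat_lit 76) (nat_lit 121944485425) (nat_lit 76) (nat_lit 104554253037) (nat_lit 13) (nat_lit 4) (nat_lit 14) (nat_lit 5) (nat_lit 14) (nat_lit 4) (nat_lit 478) (nat_lit 404) (nat_lit 318))) (XT.nd (nat_lit 78) (nat_lit 152) (nat_lit 0) (XT.lf (nat_lit 0) (nat_lit 156639940969) (nat_lit 76) (nat_lit 65650779284) (nat_lit 76) (nat_lit 48258824596) (nat_lit 13) (nat_lit 4) (nat_lit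 14) (nat_lit 5) (nat_lit 14) (nat_lit 4) (nat_lit 479) (nat_lit 404) (nat_lit 317)) (XT.lf (nat_lit 0) (nat_lit 7713102220) (nat_lit 76) (nat_lit 4534044916) (nat_lit 152) (nat_lit 276785516871) (nat_lit 11) (nat_lit 5) (nat_lit 12) (nat_lit 5) (nat_lit 13) (nat_lit 4) (nat_lit 480) (nat_lit 404) (nat_lit 316))))) (XT.nd (nat_lit 312) (nat_lit 152) (nat_lit 0) (XT.nd (nat_lit 156) (nat_lit 76) (nat_lit 0) (XT.nd (nat_lit 78) (nat_lit 0) (nat_lit 0) (XT.lf (nat_lit 0) (nat_lit 78890154098) (nat_lit 152) (nat_lit 167591893988) (nat_lit 0) (nat_lit 62323462664) (nat_lit 11) (nat_lit 5) (nat_lit 13) (nat_lit 4) (nat_lit 11) (nat_lit 4) (nat_lit 481) (nat_lit 404) (nat_lit 315)) (XT.lf (nat_lit 0) (nat_lit 150930125307) (nat_lit 152) (nat_lit 44864652024) (nat_lit 0) (nat_lit 134362131761) (nat_lit 11) (nat_lit 5) (nat_lit 13) (nat_lit 4) (nat_lit 11) (nat_lit 4) (nat_lit 482) (nat_lit 404) (nat_lit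 314))) (XT.nd (nat_lit 78) (nat_lit 0) (nat_lit 0) (XT.lf (nat_lit 0) (nat_lit 90558668748) (nat_lit 76) (nat_lit 139578381010) (nat_lit 76) (nat_lit 123009181805) (nat_lit 10) (nat_lit 4) (nat_lit 11) (nat_lit 5) (nat_lit 11) (nat_lit 4) (nat_lit 483) (nat_lit 404) (nat_lit 313)) (XT.lf (nat_lit 0) (nat_lit 238398306731) (nat_lit 76) (nat_lit 78054058423) (nat_lit 76) (nat_lit 61483742867) (nat_lit 10) (nat_lit 4) (nat_lit 11) (nat_lit 5) (nat_lit 11) (nat_lit 4) (nat_lit 484) (nat_lit 404) (nat_lit 312)))) (XT.nd (nat_lit 156) (nat_lit 0) (nat_lit 0) (XT.nd (nat_lit 78) (nat_lit 76) (nat_lit 0) (XT.lf (nat_lit 0) (nat_lit 4795754335) (nat_lit 152) (nat_lit 6740052827) (nat_lit 76) (nat_lit 393169947900) (nat_lit 9) (nat_lit 5) (nat_lit 11) (nat_lit 5) (nat_lit 10) (nat_lit 4) (nat_lit 485) (nat_lit 404) (nat_lit 311)) (XT.lf (nat_lit 0) (nat_lit 77425663598) (nat_lit 152) (nat_lit 294338291898)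 (nat_lit 0) (nat_lit 61642514735) (nat_lit 8) (nat_lit 5) (nat_lit 10) (nat_lit 4) (nat_lit 8) (nat_lit 4) (nat_lit 486) (nat_lit 404) (nat_lit 310))) (XT.nd (nat_lit 78) (nat_lit 0) (nat_lit 0) (XT.lf (nat_lit 0) (nat_lit 156171619503) (nat_lit 152) (nat_lit 167828713798) (nat_lit 0) (nat_lit 140387626645) (nat_lit 8) (nat_lit 5) (nat_lit 10) (nat_lit 4) (nat_lit 8) (nat_lit 4) (nat_lit 487) (nat_lit 404) (nat_lit 309)) (XT.lf (nat_lit 0) (nat_lit 241209665805) (nat_lit 152) (nat_lit 31213790894) (nat_lit 0) (nat_lit 225424891469) (nat_lit 8) (nat_lit 5) (nat_lit 10) (nat_lit 4) (nat_lit 8) (nat_lit 4) (nat_lit 488) (nat_lit 404) (nat_lit 308)))))) (XT.nd (nat_lit 546) (nat_lit 76) (nat_lit 0) (XT.nd (nat_lit 234) (nat_lit 152) (nat_lit 0) (XT.nd (nat_lit 78) (nat_lit 0) (nat_lit 0) (XT.lf (nat_lit 0) (nat_lit 120161980529) (nat_lit 76) (nat_lit 214757816407) (nat_lit 76) (nat_lit 198972318480)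 (nat_lit 7) (nat_lit 4) (nat_lit 8) (nat_lit 5) (nat_lit 8) (nat_lit 4) (nat_lit 489) (nat_lit 404) (nat_lit 307)) (XT.nd (nat_lit 78) (nat_lit 0) (nat_lit 0) (XT.lf (nat_lit 0) (nat_lit 284748789509) (nat_lit 76) (nat_lit 151914956063) (nat_lit 76) (nat_lit 136128788145) (nat_lit 7) (nat_lit 4) (nat_lit 8) (nat_lit 5) (nat_lit 8) (nat_lit 4) (nat_lit 490) (nat_lit 404) (nat_lit 306)) (XT.lf (nat_lit 0) (nat_lit 462489896390) (nat_lit 76) (nat_lit 84051094183) (nat_lit 76) (nat_lit 68264305903) (nat_lit 7) (nat_lit 4) (nat_lit 8) (nat_lit 5) (nat_lit 8) (nat_lit 4) (nat_lit 491) (nat_lit 404) (nat_lit 305)))) (XT.nd (nat_lit 156) (nat_lit 0) (nat_lit 0) (XT.nd (nat_lit 78) (nat_lit 76) (nat_lit 0) (XT.lf (nat_lit 0) (nat_lit 4862511546) (nat_lit 152) (nat_lit 5819214019) (nat_lit 76) (nat_lit 649493721273) (nat_lit 6) (nat_lit 5) (nat_lit 8) (nat_lit 5) (nat_lit 7) (nat_lit 4) (nat_lit 492)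 (nat_lit 404) (nat_lit 304)) (XT.lf (nat_lit 0) (nat_lit 85042787657) (nat_lit 152) (nat_lit 553890021530) (nat_lit 0) (nat_lit 70006697609) (nat_lit 5) (nat_lit 5) (nat_lit 7) (nat_lit 4) (nat_lit 5) (nat_lit 4) (nat_lit 493) (nat_lit 404) (nat_lit 303))) (XT.nd (nat_lit 78) (nat_lit 0) (nat_lit 0) (XT.lf (nat_lit 0) (nat_lit 171915361467) (nat_lit 152) (nat_lit 432796633910) (nat_lit 0) (nat_lit 156878802407) (nat_lit 5) (nat_lit 5) (nat_lit 7) (nat_lit 4) (nat_lit 5) (nat_lit 4) (nat_lit 494) (nat_lit 404) (nat_lit 302)) (XT.lf (nat_lit 0) (nat_lit 265732864793) (nat_lit 152) (nat_lit 302025699632) (nat_lit 0) (nat_lit 250695871462) (nat_lit 5) (nat_lit 5) (nat_lit 7) (nat_lit 4) (nat_lit 5) (nat_lit 4) (nat_lit 495) (nat_lit 404) (nat_lit 301))))) (XT.nd (nat_lit 312) (nat_lit 0) (nat_lit 0) (XT.nd (nat_lit 156) (nat_lit 76) (nat_lit 0) (XT.nd (nat_lit 78) (nat_lit 0) (nat_lit 0) (XT.lf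 (nat_lit 0) (nat_lit 367051253209) (nat_lit 152) (nat_lit 160802279826) (nat_lit 0) (nat_lit 352013857775) (nat_lit 5) (nat_lit 5) (nat_lit 7) (nat_lit 4) (nat_lit 5) (nat_lit 4) (nat_lit 496) (nat_lit 404) (nat_lit 300)) (XT.lf (nat_lit 0) (nat_lit 476470931979) (nat_lit 152) (nat_lit 8289494968) (nat_lit 0) (nat_lit 461433164227) (nat_lit 5) (nat_lit 5) (nat_lit 7) (nat_lit 4) (nat_lit 5) (nat_lit 4) (nat_lit 497) (nat_lit 404) (nat_lit 299))) (XT.nd (nat_lit 78) (nat_lit 0) (nat_lit 0) (XT.lf (nat_lit 0) (nat_lit 161588268126) (nat_lit 76) (nat_lit 435574891605) (nat_lit 76) (nat_lit 420536779115) (nat_lit 4) (nat_lit 4) (nat_lit 5) (nat_lit 5) (nat_lit 5) (nat_lit 4) (nat_lit 498) (nat_lit 404) (nat_lit 298)) (XT.lf (nat_lit 0) (nat_lit 345344731570) (nat_lit 76) (nat_lit 382306729840) (nat_lit 76) (nat_lit 367268298147) (nat_lit 4) (nat_lit 4) (nat_lit 5) (nat_lit 5) (nat_lit 5) (nat_lit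 4) (nat_lit 499) (nat_lit 404) (nat_lit 297)))) (XT.nd (nat_lit 156) (nat_lit 0) (nat_lit 0) (XT.nd (nat_lit 78) (nat_lit 0) (nat_lit 0) (XT.lf (nat_lit 0) (nat_lit 543794734413) (nat_lit 76) (nat_lit 324780665079) (nat_lit 76) (nat_lit 309741937829) (nat_lit 4) (nat_lit 4) (nat_lit 5) (nat_lit 5) (nat_lit 5) (nat_lit 4) (nat_lit 500) (nat_lit 404) (nat_lit 296)) (XT.lf (nat_lit 0) (nat_lit 758114276673) (nat_lit 76) (nat_lit 262655802124) (nat_lit 76) (nat_lit 247616801210) (nat_lit 4) (nat_lit 4) (nat_lit 5) (nat_lit 5) (nat_lit 5) (nat_lit 4) (nat_lit 501) (nat_lit 404) (nat_lit 295))) (XT.nd (nat_lit 78) (nat_lit 0) (nat_lit 0) (XT.lf (nat_lit 0) (nat_lit 989573400081) (nat_lit 76) (nat_lit 195563993639) (nat_lit 76) (nat_lit 180524739332) (nat_lit 4) (nat_lit 4) (nat_lit 5) (nat_lit 5) (nat_lit 5) (nat_lit 4) (nat_lit 502) (nat_lit 404) (nat_lit 294)) (XT.lf (nat_lit 0) (nat_lit 1239543714257)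 (nat_lit 76) (nat_lit 123107658537) (nat_lit 76) (nat_lit 108068169607) (nat_lit 4) (nat_lit 4) (nat_lit 5) (nat_lit 5) (nat_lit 5) (nat_lit 4) (nat_lit 503) (nat_lit 404) (nat_lit 293))))))))
noncomputable def xc54 : XT := (XT.nd (nat_lit 2262) (nat_lit 3496) (nat_lit 0) (XT.nd (nat_lit 1092) (nat_lit 3572) (nat_lit 0) (XT.nd (nat_lit 546) (nat_lit 3648) (nat_lit 0) (XT.nd (nat_lit 234) (nat_lit 456) (nat_lit 0) (XT.nd (nat_lit 78) (nat_lit 532) (nat_lit 0) (XT.lf (nat_lit 0) (nat_lit 2479391954) (nat_lit 532) (nat_lit 550009005) (nat_lit 532) (nat_lit 550009005) (nat_lit 183) (nat_lit 3) (nat_lit 190) (nat_lit 3) (nat_lit 190) (nat_lit 5) (nat_lit 405) (nat_lit 405) (nat_lit 390)) (XT.nd (nat_lit 78) (nat_lit 0) (nat_lit 76) (XT.lf (nat_lit 0) (nat_lit 474375647) (nat_lit 532) (nat_lit 2605785390) (nat_lit 608) (nat_lit 4231830706) (nat_lit 176) (nat_lit 5) (nat_lit 183) (nat_lit 3) (nat_lit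 184) (nat_lit 5) (nat_lit 406) (nat_lit 405) (nat_lit 389)) (XT.lf (nat_lit 0) (nat_lit 3102238580) (nat_lit 532) (nat_lit 4025982681) (nat_lit 608) (nat_lit 356614716) (nat_lit 177) (nat_lit 5) (nat_lit 184) (nat_lit 5) (nat_lit 185) (nat_lit 5) (nat_lit 407) (nat_lit 405) (nat_lit 388)))) (XT.nd (nat_lit 156) (nat_lit 0) (nat_lit 0) (XT.nd (nat_lit 78) (nat_lit 532) (nat_lit 0) (XT.lf (nat_lit 76) (nat_lit 2297426663) (nat_lit 0) (nat_lit 3532023732) (nat_lit 608) (nat_lit 1847648426) (nat_lit 178) (nat_lit 5) (nat_lit 177) (nat_lit 5) (nat_lit 185) (nat_lit 5) (nat_lit 408) (nat_lit 405) (nat_lit 387)) (XT.lf (nat_lit 0) (nat_lit 728107827) (nat_lit 608) (nat_lit 6642003737) (nat_lit 684) (nat_lit 520652786) (nat_lit 170) (nat_lit 5) (nat_lit 178) (nat_lit 5) (nat_lit 179) (nat_lit 5) (nat_lit 409) (nat_lit 405) (nat_lit 386))) (XT.nd (nat_lit 78) (nat_lit 0) (nat_lit 76) (XT.lf (nat_lit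 76) (nat_lit 236001968) (nat_lit 0) (nat_lit 3151693622) (nat_lit 684) (nat_lit 4735226310) (nat_lit 171) (nat_lit 5) (nat_lit 170) (nat_lit 5) (nat_lit 179) (nat_lit 5) (nat_lit 410) (nat_lit 405) (nat_lit 385)) (XT.lf (nat_lit 0) (nat_lit 6197116104) (nat_lit 608) (nat_lit 656202776) (nat_lit 76) (nat_lit 1523515471) (nat_lit 171) (nat_lit 5) (nat_lit 179) (nat_lit 5) (nat_lit 172) (nat_lit 5) (nat_lit 411) (nat_lit 405) (nat_lit 384))))) (XT.nd (nat_lit 234) (nat_lit 1596) (nat_lit 0) (XT.nd (nat_lit 78) (nat_lit 1444) (nat_lit 0) (XT.lf (nat_lit 0) (nat_lit 538983427) (nat_lit 684) (nat_lit 1485054720) (nat_lit 76) (nat_lit 6627733878) (nat_lit 162) (nat_lit 5) (nat_lit 171) (nat_lit 5) (nat_lit 163) (nat_lit 5) (nat_lit 412) (nat_lit 405) (nat_lit 383)) (XT.nd (nat_lit 78) (nat_lit 760) (nat_lit 0) (XT.lf (nat_lit 0) (nat_lit 3390273274) (nat_lit 760) (nat_lit 2286895685) (nat_lit 76) (nat_lit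 3270205213) (nat_lit 153) (nat_lit 5) (nat_lit 163) (nat_lit 5) (nat_lit 154) (nat_lit 5) (nat_lit 413) (nat_lit 405) (nat_lit 382)) (XT.lf (nat_lit 0) (nat_lit 6256005953) (nat_lit 760) (nat_lit 204272607) (nat_lit 836) (nat_lit 2806842221) (nat_lit 143) (nat_lit 5) (nat_lit 153) (nat_lit 5) (nat_lit 154) (nat_lit 5) (nat_lit 414) (nat_lit 405) (nat_lit 381)))) (XT.nd (nat_lit 156) (nat_lit 760) (nat_lit 0) (XT.nd (nat_lit 78) (nat_lit 380) (nat_lit 0) (XT.lf (nat_lit 0) (nat_lit 223626515) (nat_lit 456) (nat_lit 3716668375) (nat_lit 76) (nat_lit 5668777343) (nat_lit 137) (nat_lit 5) (nat_lit 143) (nat_lit 5) (nat_lit 138) (nat_lit 5) (nat_lit 415) (nat_lit 405) (nat_lit 380)) (XT.lf (nat_lit 0) (nat_lit 3428183038) (nat_lit 456) (nat_lit 4397514356) (nat_lit 76) (nat_lit 2148904266) (nat_lit 132) (nat_lit 5) (nat_lit 138) (nat_lit 5) (nat_lit 133) (nat_lit 5) (nat_lit 416) (nat_lit 405) (nat_lit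 379))) (XT.nd (nat_lit 78) (nat_lit 380) (nat_lit 0) (XT.lf (nat_lit 0) (nat_lit 5329182231) (nat_lit 380) (nat_lit 1633719145) (nat_lit 456) (nat_lit 3402802537) (nat_lit 127) (nat_lit 5) (nat_lit 132) (nat_lit 5) (nat_lit 133) (nat_lit 5) (nat_lit 417) (nat_lit 405) (nat_lit 378)) (XT.lf (nat_lit 0) (nat_lit 97479670) (nat_lit 380) (nat_lit 5648043337) (nat_lit 76) (nat_lit 5037348758) (nat_lit 122) (nat_lit 5) (nat_lit 127) (nat_lit 5) (nat_lit 123) (nat_lit 5) (nat_lit 418) (nat_lit 405) (nat_lit 377)))))) (XT.nd (nat_lit 546) (nat_lit 1596) (nat_lit 0) (XT.nd (nat_lit 234) (nat_lit 988) (nat_lit 0) (XT.nd (nat_lit 78) (nat_lit 684) (nat_lit 0) (XT.lf (nat_lit 0) (nat_lit 3844828082) (nat_lit 380) (nat_lit 6253392391) (nat_lit 76) (nat_lit 1128106933) (nat_lit 118) (nat_lit 5) (nat_lit 123) (nat_lit 5) (nat_lit 119) (nat_lit 5) (nat_lit 419) (nat_lit 405) (nat_lit 376)) (XT.nd (nat_lit 78)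 (nat_lit 380) (nat_lit 0) (XT.lf (nat_lit 0) (nat_lit 4850538645) (nat_lit 304) (nat_lit 3192689365) (nat_lit 380) (nat_lit 3654483683) (nat_lit 114) (nat_lit 5) (nat_lit 118) (nat_lit 5) (nat_lit 119) (nat_lit 5) (nat_lit 420) (nat_lit 405) (nat_lit 375)) (XT.lf (nat_lit 0) (nat_lit 498233894) (nat_lit 380) (nat_lit 7407877898) (nat_lit 76) (nat_lit 4293448851) (nat_lit 109) (nat_lit 5) (nat_lit 114) (nat_lit 5) (nat_lit 110) (nat_lit 5) (nat_lit 421) (nat_lit 405) (nat_lit 374)))) (XT.nd (nat_lit 156) (nat_lit 532) (nat_lit 0) (XT.nd (nat_lit 78) (nat_lit 228) (nat_lit 0) (XT.lf (nat_lit 0) (nat_lit 4758430534) (nat_lit 228) (nat_lit 237178648) (nat_lit 304) (nat_lit 7735941623) (nat_lit 106) (nat_lit 5) (nat_lit 109) (nat_lit 5) (nat_lit 110) (nat_lit 5) (nat_lit 422) (nat_lit 405) (nat_lit 373)) (XT.lf (nat_lit 0) (nat_lit 4741655681) (nat_lit 228) (nat_lit 5336756369) (nat_lit 304) (nat_lit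 3216417878) (nat_lit 103) (nat_lit 5) (nat_lit 106) (nat_lit 5) (nat_lit 107) (nat_lit 5) (nat_lit 423) (nat_lit 405) (nat_lit 372))) (XT.nd (nat_lit 78) (nat_lit 228) (nat_lit 0) (XT.lf (nat_lit 0) (nat_lit 1779553714) (nat_lit 304) (nat_lit 9102006030) (nat_lit 76) (nat_lit 3011914095) (nat_lit 99) (nat_lit 5) (nat_lit 103) (nat_lit 5) (nat_lit 100) (nat_lit 5) (nat_lit 424) (nat_lit 405) (nat_lit 371)) (XT.lf (nat_lit 0) (nat_lit 4844610710) (nat_lit 228) (nat_lit 2440027949) (nat_lit 304) (nat_lit 7241637525) (nat_lit 96) (nat_lit 5) (nat_lit 99) (nat_lit 5) (nat_lit 100) (nat_lit 5) (nat_lit 425) (nat_lit 405) (nat_lit 370))))) (XT.nd (nat_lit 312) (nat_lit 684) (nat_lit 0) (XT.nd (nat_lit 156) (nat_lit 456) (nat_lit 0) (XT.nd (nat_lit 78) (nat_lit 304) (nat_lit 0) (XT.lf (nat_lit 0) (nat_lit 4943443338) (nat_lit 152) (nat_lit 8537199524) (nat_lit 228) (nat_lit 1716543020) (nat_lit 94)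 (nat_lit 5) (nat_lit 96) (nat_lit 5) (nat_lit 97) (nat_lit 5) (nat_lit 426) (nat_lit 405) (nat_lit 369)) (XT.lf (nat_lit 0) (nat_lit 4329803248) (nat_lit 304) (nat_lit 10831866686) (nat_lit 76) (nat_lit 746023584) (nat_lit 90) (nat_lit 5) (nat_lit 94) (nat_lit 5) (nat_lit 91) (nat_lit 5) (nat_lit 427) (nat_lit 405) (nat_lit 368))) (XT.nd (nat_lit 78) (nat_lit 304) (nat_lit 0) (XT.lf (nat_lit 0) (nat_lit 5189347745) (nat_lit 152) (nat_lit 5932796718) (nat_lit 228) (nat_lit 5535376146) (nat_lit 88) (nat_lit 5) (nat_lit 90) (nat_lit 5) (nat_lit 91) (nat_lit 5) (nat_lit 428) (nat_lit 405) (nat_lit 367)) (XT.lf (nat_lit 0) (nat_lit 1220780717) (nat_lit 304) (nat_lit 12076578668) (nat_lit 76) (nat_lit 4156110305) (nat_lit 84) (nat_lit 5) (nat_lit 88) (nat_lit 5) (nat_lit 85) (nat_lit 5) (nat_lit 429) (nat_lit 405) (nat_lit 366)))) (XT.nd (nat_lit 156) (nat_lit 380) (nat_lit 0) (XT.nd (nat_lit 78)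 (nat_lit 152) (nat_lit 0) (XT.lf (nat_lit 0) (nat_lit 5529083148) (nat_lit 152) (nat_lit 3107907720) (nat_lit 228) (nat_lit 9655897826) (nat_lit 82) (nat_lit 5) (nat_lit 84) (nat_lit 5) (nat_lit 85) (nat_lit 5) (nat_lit 430) (nat_lit 405) (nat_lit 365)) (XT.lf (nat_lit 0) (nat_lit 5717066849) (nat_lit 152) (nat_lit 11280470300) (nat_lit 228) (nat_lit 2184377530) (nat_lit 80) (nat_lit 5) (nat_lit 82) (nat_lit 5) (nat_lit 83) (nat_lit 5) (nat_lit 431) (nat_lit 405) (nat_lit 364))) (XT.nd (nat_lit 78) (nat_lit 152) (nat_lit 0) (XT.lf (nat_lit 0) (nat_lit 5921164335) (nat_lit 152) (nat_lit 73394976) (nat_lit 228) (nat_lit 14128011888) (nat_lit 77) (nat_lit 5) (nat_lit 79) (nat_lit 5) (nat_lit 80) (nat_lit 5) (nat_lit 432) (nat_lit 405) (nat_lit 363)) (XT.lf (nat_lit 0) (nat_lit 6058417814) (nat_lit 152) (nat_lit 9144747319) (nat_lit 228) (nat_lit 5910934864) (nat_lit 75) (nat_lit 5) (nat_lit 77)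 (nat_lit 5) (nat_lit 78) (nat_lit 5) (nat_lit 433) (nat_lit 405) (nat_lit 362))))))) (XT.nd (nat_lit 1170) (nat_lit 1444) (nat_lit 0) (XT.nd (nat_lit 546) (nat_lit 988) (nat_lit 0) (XT.nd (nat_lit 234) (nat_lit 532) (nat_lit 0) (XT.nd (nat_lit 78) (nat_lit 304) (nat_lit 0) (XT.lf (nat_lit 0) (nat_lit 3201437610) (nat_lit 228) (nat_lit 15910013813) (nat_lit 76) (nat_lit 3054551146) (nat_lit 72) (nat_lit 5) (nat_lit 75) (nat_lit 5) (nat_lit 73) (nat_lit 5) (nat_lit 434) (nat_lit 405) (nat_lit 361)) (XT.nd (nat_lit 78) (nat_lit 152) (nat_lit 0) (XT.lf (nat_lit 0) (nat_lit 6352824610) (nat_lit 152) (nat_lit 6940500471) (nat_lit 228) (nat_lit 9981010076) (nat_lit 70) (nat_lit 5) (nat_lit 72) (nat_lit 5) (nat_lit 73) (nat_lit 5) (nat_lit 435) (nat_lit 405) (nat_lit 360)) (XT.lf (nat_lit 0) (nat_lit 154370911) (nat_lit 152) (nat_lit 17949930856) (nat_lit 76) (nat_lit 6346042429) (nat_lit 68) (nat_lit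 5) (nat_lit 70) (nat_lit 5) (nat_lit 69) (nat_lit 5) (nat_lit 436) (nat_lit 405) (nat_lit 359)))) (XT.nd (nat_lit 156) (nat_lit 304) (nat_lit 0) (XT.nd (nat_lit 78) (nat_lit 76) (nat_lit 0) (XT.lf (nat_lit 0) (nat_lit 6504439458) (nat_lit 152) (nat_lit 4708612300) (nat_lit 228) (nat_lit 14476096230) (nat_lit 66) (nat_lit 5) (nat_lit 68) (nat_lit 5) (nat_lit 69) (nat_lit 5) (nat_lit 437) (nat_lit 405) (nat_lit 358)) (XT.lf (nat_lit 0) (nat_lit 6489215632) (nat_lit 76) (nat_lit 17180159560) (nat_lit 152) (nat_lit 3332036220) (nat_lit 65) (nat_lit 5) (nat_lit 66) (nat_lit 5) (nat_lit 67) (nat_lit 4) (nat_lit 438) (nat_lit 405) (nat_lit 357))) (XT.nd (nat_lit 78) (nat_lit 76) (nat_lit 0) (XT.lf (nat_lit 0) (nat_lit 6380647668) (nat_lit 152) (nat_lit 2506322350) (nat_lit 228) (nat_lit 19501794497) (nat_lit 62) (nat_lit 5) (nat_lit 64) (nat_lit 5) (nat_lit 65) (nat_lit 5) (nat_lit 439) (nat_lit 405)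 (nat_lit 356)) (XT.lf (nat_lit 0) (nat_lit 6112944230) (nat_lit 76) (nat_lit 16467555225) (nat_lit 152) (nat_lit 7273190415) (nat_lit 61) (nat_lit 5) (nat_lit 62) (nat_lit 5) (nat_lit 63) (nat_lit 4) (nat_lit 440) (nat_lit 405) (nat_lit 355))))) (XT.nd (nat_lit 312) (nat_lit 380) (nat_lit 0) (XT.nd (nat_lit 156) (nat_lit 304) (nat_lit 0) (XT.nd (nat_lit 78) (nat_lit 76) (nat_lit 0) (XT.lf (nat_lit 0) (nat_lit 5799465704) (nat_lit 152) (nat_lit 413751143) (nat_lit 228) (nat_lit 25194490772) (nat_lit 58) (nat_lit 5) (nat_lit 60) (nat_lit 5) (nat_lit 61) (nat_lit 5) (nat_lit 441) (nat_lit 405) (nat_lit 354)) (XT.lf (nat_lit 0) (nat_lit 5161318436) (nat_lit 76) (nat_lit 16079719181) (nat_lit 152) (nat_lit 11803183458) (nat_lit 57) (nat_lit 5) (nat_lit 58) (nat_lit 5) (nat_lit 59) (nat_lit 4) (nat_lit 442) (nat_lit 405) (nat_lit 353))) (XT.nd (nat_lit 78) (nat_lit 76) (nat_lit 0) (XT.lf (nat_lit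 0) (nat_lit 3078231064) (nat_lit 228) (nat_lit 30295100776) (nat_lit 76) (nat_lit 1411053271) (nat_lit 54) (nat_lit 5) (nat_lit 57) (nat_lit 5) (nat_lit 55) (nat_lit 4) (nat_lit 443) (nat_lit 405) (nat_lit 352)) (XT.lf (nat_lit 0) (nat_lit 3345732683) (nat_lit 76) (nat_lit 16165433661) (nat_lit 152) (nat_lit 17104195993) (nat_lit 53) (nat_lit 5) (nat_lit 54) (nat_lit 5) (nat_lit 55) (nat_lit 4) (nat_lit 444) (nat_lit 405) (nat_lit 351)))) (XT.nd (nat_lit 156) (nat_lit 152) (nat_lit 0) (XT.nd (nat_lit 78) (nat_lit 152) (nat_lit 0) (XT.lf (nat_lit 0) (nat_lit 2126465950) (nat_lit 76) (nat_lit 35693147108) (nat_lit 76) (nat_lit 745162229) (nat_lit 52) (nat_lit 4) (nat_lit 53) (nat_lit 5) (nat_lit 53) (nat_lit 4) (nat_lit 445) (nat_lit 405) (nat_lit 350)) (XT.lf (nat_lit 0) (nat_lit 277678267) (nat_lit 76) (nat_lit 16924166188) (nat_lit 152) (nat_lit 23414043632) (nat_lit 50) (nat_lit 5) (nat_lit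 51) (nat_lit 5) (nat_lit 52) (nat_lit 4) (nat_lit 446) (nat_lit 405) (nat_lit 349))) (XT.nd (nat_lit 78) (nat_lit 152) (nat_lit 0) (XT.lf (nat_lit 0) (nat_lit 37212605492) (nat_lit 152) (nat_lit 1726275946) (nat_lit 0) (nat_lit 3858893776) (nat_lit 50) (nat_lit 5) (nat_lit 52) (nat_lit 4) (nat_lit 50) (nat_lit 4) (nat_lit 447) (nat_lit 405) (nat_lit 348)) (XT.lf (nat_lit 0) (nat_lit 14130846737) (nat_lit 152) (nat_lit 4416599744) (nat_lit 76) (nat_lit 26551178538) (nat_lit 48) (nat_lit 5) (nat_lit 50) (nat_lit 5) (nat_lit 49) (nat_lit 4) (nat_lit 448) (nat_lit 405) (nat_lit 347)))))) (XT.nd (nat_lit 546) (nat_lit 684) (nat_lit 0) (XT.nd (nat_lit 234) (nat_lit 456) (nat_lit 0) (XT.nd (nat_lit 78) (nat_lit 228) (nat_lit 0) (XT.lf (nat_lit 0) (nat_lit 35914124270) (nat_lit 152) (nat_lit 7538961884) (nat_lit 0) (nat_lit 4091596721) (nat_lit 47) (nat_lit 5) (nat_lit 49) (nat_lit 4) (nat_lit 47) (nat_lit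 4) (nat_lit 449) (nat_lit 405) (nat_lit 346)) (XT.nd (nat_lit 78) (nat_lit 76) (nat_lit 0) (XT.lf (nat_lit 0) (nat_lit 9932111904) (nat_lit 152) (nat_lit 11487111168) (nat_lit 76) (nat_lit 28711246961) (nat_lit 45) (nat_lit 5) (nat_lit 47) (nat_lit 5) (nat_lit 46) (nat_lit 4) (nat_lit 450) (nat_lit 405) (nat_lit 345)) (XT.lf (nat_lit 0) (nat_lit 33540025301) (nat_lit 152) (nat_lit 16150933749) (nat_lit 0) (nat_lit 3186243252) (nat_lit 44) (nat_lit 5) (nat_lit 46) (nat_lit 4) (nat_lit 44) (nat_lit 4) (nat_lit 451) (nat_lit 405) (nat_lit 344)))) (XT.nd (nat_lit 156) (nat_lit 228) (nat_lit 0) (XT.nd (nat_lit 78) (nat_lit 76) (nat_lit 0) (XT.lf (nat_lit 0) (nat_lit 4168193952) (nat_lit 152) (nat_lit 21829734516) (nat_lit 76) (nat_lit 29789378440) (nat_lit 42) (nat_lit 5) (nat_lit 44) (nat_lit 5) (nat_lit 43) (nat_lit 4) (nat_lit 452) (nat_lit 405) (nat_lit 343)) (XT.lf (nat_lit 0) (nat_lit 29620908408)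 (nat_lit 152) (nat_lit 28581757766) (nat_lit 0) (nat_lit 674484459) (nat_lit 41) (nat_lit 5) (nat_lit 43) (nat_lit 4) (nat_lit 41) (nat_lit 4) (nat_lit 453) (nat_lit 405) (nat_lit 342))) (XT.nd (nat_lit 78) (nat_lit 152) (nat_lit 0) (XT.lf (nat_lit 0) (nat_lit 25479717831) (nat_lit 76) (nat_lit 32819188954) (nat_lit 76) (nat_lit 3855822301) (nat_lit 40) (nat_lit 4) (nat_lit 41) (nat_lit 5) (nat_lit 41) (nat_lit 4) (nat_lit 454) (nat_lit 405) (nat_lit 341)) (XT.lf (nat_lit 0) (nat_lit 19397428438) (nat_lit 76) (nat_lit 4200855844) (nat_lit 152) (nat_lit 42039012544) (nat_lit 38) (nat_lit 5) (nat_lit 39) (nat_lit 5) (nat_lit 40) (nat_lit 4) (nat_lit 455) (nat_lit 405) (nat_lit 340))))) (XT.nd (nat_lit 312) (nat_lit 304) (nat_lit 0) (XT.nd (nat_lit 156) (nat_lit 152) (nat_lit 0) (XT.nd (nat_lit 78) (nat_lit 152) (nat_lit 0) (XT.lf (nat_lit 0) (nat_lit 11718824925) (nat_lit 76) (nat_lit 42614223703)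 (nat_lit 76) (nat_lit 15001290388) (nat_lit 37) (nat_lit 4) (nat_lit 38) (nat_lit 5) (nat_lit 38) (nat_lit 4) (nat_lit 456) (nat_lit 405) (nat_lit 339)) (XT.lf (nat_lit 0) (nat_lit 2388387866) (nat_lit 76) (nat_lit 12252651346) (nat_lit 152) (nat_lit 58630218078) (nat_lit 35) (nat_lit 5) (nat_lit 36) (nat_lit 5) (nat_lit 37) (nat_lit 4) (nat_lit 457) (nat_lit 405) (nat_lit 338))) (XT.nd (nat_lit 78) (nat_lit 152) (nat_lit 0) (XT.lf (nat_lit 0) (nat_lit 47447121772) (nat_lit 152) (nat_lit 8872219353) (nat_lit 0) (nat_lit 21125595205) (nat_lit 35) (nat_lit 5) (nat_lit 37) (nat_lit 4) (nat_lit 35) (nat_lit 4) (nat_lit 458) (nat_lit 405) (nat_lit 337)) (XT.lf (nat_lit 0) (nat_lit 2025656560) (nat_lit 152) (nat_lit 22179389502) (nat_lit 76) (nat_lit 57690237386) (nat_lit 33) (nat_lit 5) (nat_lit 35) (nat_lit 5) (nat_lit 34) (nat_lit 4) (nat_lit 459) (nat_lit 405) (nat_lit 336)))) (XT.nd (nat_lit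 156) (nat_lit 152) (nat_lit 0) (XT.nd (nat_lit 78) (nat_lit 76) (nat_lit 0) (XT.lf (nat_lit 0) (nat_lit 36646462644) (nat_lit 152) (nat_lit 38417127639) (nat_lit 0) (nat_lit 11559158260) (nat_lit 32) (nat_lit 5) (nat_lit 34) (nat_lit 4) (nat_lit 32) (nat_lit 4) (nat_lit 460) (nat_lit 405) (nat_lit 335)) (XT.lf (nat_lit 0) (nat_lit 33923724518) (nat_lit 76) (nat_lit 41417654268) (nat_lit 76) (nat_lit 16321810067) (nat_lit 31) (nat_lit 4) (nat_lit 32) (nat_lit 5) (nat_lit 32) (nat_lit 4) (nat_lit 461) (nat_lit 405) (nat_lit 334))) (XT.nd (nat_lit 78) (nat_lit 0) (nat_lit 0) (XT.lf (nat_lit 0) (nat_lit 16504422470) (nat_lit 76) (nat_lit 3792247729) (nat_lit 152) (nat_lit 76748933494) (nat_lit 29) (nat_lit 5) (nat_lit 30) (nat_lit 5) (nat_lit 31) (nat_lit 4) (nat_lit 462) (nat_lit 405) (nat_lit 333)) (XT.lf (nat_lit 0) (nat_lit 60853396024) (nat_lit 152) (nat_lit 4974718756) (nat_lit 0) (nat_lit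 36938088448) (nat_lit 29) (nat_lit 5) (nat_lit 31) (nat_lit 4) (nat_lit 29) (nat_lit 4) (nat_lit 463) (nat_lit 405) (nat_lit 332))))))))
noncomputable def xc55 : XT := (XT.nd (nat_lit 2340) (nat_lit 152) (nat_lit 0) (XT.nd (nat_lit 1170) (nat_lit 608) (nat_lit 0) (XT.nd (nat_lit 546) (nat_lit 532) (nat_lit 0) (XT.nd (nat_lit 234) (nat_lit 304) (nat_lit 0) (XT.nd (nat_lit 78) (nat_lit 228) (nat_lit 0) (XT.lf (nat_lit 0) (nat_lit 79057960459) (nat_lit 76) (nat_lit 26872238730) (nat_lit 76) (nat_lit 2950474789) (nat_lit 28) (nat_lit 4) (nat_lit 29) (nat_lit 5) (nat_lit 29) (nat_lit 4) (nat_lit 464) (nat_lit 405) (nat_lit 331)) (XT.nd (nat_lit 78) (nat_lit 76) (nat_lit 0) (XT.lf (nat_lit 0) (nat_lit 39073766624) (nat_lit 152) (nat_lit 60034685064) (nat_lit 0) (nat_lit 16285440857) (nat_lit 26) (nat_lit 5) (nat_lit 28) (nat_lit 4) (nat_lit 26) (nat_lit 4) (nat_lit 465) (nat_lit 405) (nat_lit 330))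 (XT.lf (nat_lit 0) (nat_lit 26305963828) (nat_lit 76) (nat_lit 59422397394) (nat_lit 76) (nat_lit 36628799922) (nat_lit 25) (nat_lit 4) (nat_lit 26) (nat_lit 5) (nat_lit 26) (nat_lit 4) (nat_lit 466) (nat_lit 405) (nat_lit 329)))) (XT.nd (nat_lit 156) (nat_lit 152) (nat_lit 0) (XT.nd (nat_lit 78) (nat_lit 76) (nat_lit 0) (XT.lf (nat_lit 0) (nat_lit 7080268852) (nat_lit 152) (nat_lit 8283927534) (nat_lit 76) (nat_lit 114456321185) (nat_lit 24) (nat_lit 5) (nat_lit 26) (nat_lit 5) (nat_lit 25) (nat_lit 4) (nat_lit 467) (nat_lit 405) (nat_lit 328)) (XT.lf (nat_lit 0) (nat_lit 54920838151) (nat_lit 152) (nat_lit 49630480516) (nat_lit 0) (nat_lit 33203696894) (nat_lit 23) (nat_lit 5) (nat_lit 25) (nat_lit 4) (nat_lit 23) (nat_lit 4) (nat_lit 468) (nat_lit 405) (nat_lit 327))) (XT.nd (nat_lit 78) (nat_lit 76) (nat_lit 0) (XT.lf (nat_lit 0) (nat_lit 47443777551) (nat_lit 76) (nat_lit 60272617841) (nat_lit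 76) (nat_lit 38551491013) (nat_lit 22) (nat_lit 4) (nat_lit 23) (nat_lit 5) (nat_lit 23) (nat_lit 4) (nat_lit 469) (nat_lit 405) (nat_lit 326)) (XT.lf (nat_lit 0) (nat_lit 9837501453) (nat_lit 152) (nat_lit 1557939193) (nat_lit 76) (nat_lit 144016081330) (nat_lit 21) (nat_lit 5) (nat_lit 23) (nat_lit 5) (nat_lit 22) (nat_lit 4) (nat_lit 470) (nat_lit 405) (nat_lit 325))))) (XT.nd (nat_lit 312) (nat_lit 228) (nat_lit 0) (XT.nd (nat_lit 156) (nat_lit 152) (nat_lit 0) (XT.nd (nat_lit 78) (nat_lit 76) (nat_lit 0) (XT.lf (nat_lit 0) (nat_lit 63090138030) (nat_lit 152) (nat_lit 59651170141) (nat_lit 0) (nat_lit 42396581689) (nat_lit 20) (nat_lit 5) (nat_lit 22) (nat_lit 4) (nat_lit 20) (nat_lit 4) (nat_lit 471) (nat_lit 405) (nat_lit 324)) (XT.lf (nat_lit 0) (nat_lit 46781236314) (nat_lit 76) (nat_lit 74755506330) (nat_lit 76) (nat_lit 54058936775) (nat_lit 19) (nat_lit 4) (nat_lit 20) (nat_lit 5)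 (nat_lit 20) (nat_lit 4) (nat_lit 472) (nat_lit 405) (nat_lit 323))) (XT.nd (nat_lit 78) (nat_lit 152) (nat_lit 0) (XT.lf (nat_lit 0) (nat_lit 163826757929) (nat_lit 76) (nat_lit 21855760860) (nat_lit 76) (nat_lit 1156401291) (nat_lit 19) (nat_lit 4) (nat_lit 20) (nat_lit 5) (nat_lit 20) (nat_lit 4) (nat_lit 473) (nat_lit 405) (nat_lit 322)) (XT.lf (nat_lit 0) (nat_lit 56217966593) (nat_lit 152) (nat_lit 106116559766) (nat_lit 0) (nat_lit 36501830484) (nat_lit 17) (nat_lit 5) (nat_lit 19) (nat_lit 4) (nat_lit 17) (nat_lit 4) (nat_lit 474) (nat_lit 405) (nat_lit 321)))) (XT.nd (nat_lit 156) (nat_lit 152) (nat_lit 0) (XT.nd (nat_lit 78) (nat_lit 0) (nat_lit 0) (XT.lf (nat_lit 0) (nat_lit 6544455291) (nat_lit 76) (nat_lit 112461690415) (nat_lit 76) (nat_lit 92743276223) (nat_lit 16) (nat_lit 4) (nat_lit 17) (nat_lit 5) (nat_lit 17) (nat_lit 4) (nat_lit 475) (nat_lit 405) (nat_lit 320)) (XT.lf (nat_lit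 0) (nat_lit 131980063233) (nat_lit 76) (nat_lit 56672126041) (nat_lit 76) (nat_lit 36951602513) (nat_lit 16) (nat_lit 4) (nat_lit 17) (nat_lit 5) (nat_lit 17) (nat_lit 4) (nat_lit 476) (nat_lit 405) (nat_lit 319))) (XT.nd (nat_lit 78) (nat_lit 0) (nat_lit 0) (XT.lf (nat_lit 0) (nat_lit 23040675627) (nat_lit 152) (nat_lit 213226123281) (nat_lit 0) (nat_lit 4257364564) (nat_lit 14) (nat_lit 5) (nat_lit 16) (nat_lit 4) (nat_lit 14) (nat_lit 4) (nat_lit 477) (nat_lit 405) (nat_lit 318)) (XT.lf (nat_lit 0) (nat_lit 89155735714) (nat_lit 152) (nat_lit 96950538491) (nat_lit 0) (nat_lit 70370702351) (nat_lit 14) (nat_lit 5) (nat_lit 16) (nat_lit 4) (nat_lit 14) (nat_lit 4) (nat_lit 478) (nat_lit 405) (nat_lit 317)))))) (XT.nd (nat_lit 546) (nat_lit 304) (nat_lit 0) (XT.nd (nat_lit 234) (nat_lit 76) (nat_lit 0) (XT.nd (nat_lit 78) (nat_lit 152) (nat_lit 0) (XT.lf (nat_lit 0) (nat_lit 29549397360) (nat_lit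 76) (nat_lit 131460378356) (nat_lit 76) (nat_lit 112673750270) (nat_lit 13) (nat_lit 4) (nat_lit 14) (nat_lit 5) (nat_lit 14) (nat_lit 4) (nat_lit 479) (nat_lit 405) (nat_lit 316)) (XT.nd (nat_lit 78) (nat_lit 152) (nat_lit 0) (XT.lf (nat_lit 0) (nat_lit 169608959144) (nat_lit 76) (nat_lit 70680928754) (nat_lit 76) (nat_lit 51892824073) (nat_lit 13) (nat_lit 4) (nat_lit 14) (nat_lit 5) (nat_lit 14) (nat_lit 4) (nat_lit 480) (nat_lit 405) (nat_lit 315)) (XT.lf (nat_lit 0) (nat_lit 8755887610) (nat_lit 76) (nat_lit 4680873125) (nat_lit 152) (nat_lit 298708023451) (nat_lit 11) (nat_lit 5) (nat_lit 12) (nat_lit 5) (nat_lit 13) (nat_lit 4) (nat_lit 481) (nat_lit 405) (nat_lit 314)))) (XT.nd (nat_lit 156) (nat_lit 76) (nat_lit 0) (XT.nd (nat_lit 78) (nat_lit 0) (nat_lit 0) (XT.lf (nat_lit 0) (nat_lit 85398785463) (nat_lit 152) (nat_lit 180598449746) (nat_lit 0) (nat_lit 67502844662) (nat_lit 11) (nat_lit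 5) (nat_lit 13) (nat_lit 4) (nat_lit 11) (nat_lit 4) (nat_lit 482) (nat_lit 405) (nat_lit 313)) (XT.lf (nat_lit 0) (nat_lit 163187330736) (nat_lit 152) (nat_lit 48082716999) (nat_lit 0) (nat_lit 145290273584) (nat_lit 11) (nat_lit 5) (nat_lit 13) (nat_lit 4) (nat_lit 11) (nat_lit 4) (nat_lit 483) (nat_lit 405) (nat_lit 312))) (XT.nd (nat_lit 78) (nat_lit 0) (nat_lit 0) (XT.lf (nat_lit 0) (nat_lit 98158341568) (nat_lit 76) (nat_lit 150564469397) (nat_lit 76) (nat_lit 132666378586) (nat_lit 10) (nat_lit 4) (nat_lit 11) (nat_lit 5) (nat_lit 11) (nat_lit 4) (nat_lit 484) (nat_lit 405) (nat_lit 311)) (XT.lf (nat_lit 0) (nat_lit 257798855825) (nat_lit 76) (nat_lit 84131547825) (nat_lit 76) (nat_lit 66232499923) (nat_lit 10) (nat_lit 4) (nat_lit 11) (nat_lit 5) (nat_lit 11) (nat_lit 4) (nat_lit 485) (nat_lit 405) (nat_lit 310))))) (XT.nd (nat_lit 312) (nat_lit 152) (nat_lit 0) (XT.nd (nat_lit 156)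 (nat_lit 0) (nat_lit 0) (XT.nd (nat_lit 78) (nat_lit 76) (nat_lit 0) (XT.lf (nat_lit 0) (nat_lit 5331732418) (nat_lit 152) (nat_lit 6969882638) (nat_lit 76) (nat_lit 424772983973) (nat_lit 9) (nat_lit 5) (nat_lit 11) (nat_lit 5) (nat_lit 10) (nat_lit 4) (nat_lit 486) (nat_lit 405) (nat_lit 309)) (XT.lf (nat_lit 0) (nat_lit 83767718115) (nat_lit 152) (nat_lit 317584488799) (nat_lit 0) (nat_lit 66719380354) (nat_lit 8) (nat_lit 5) (nat_lit 10) (nat_lit 4) (nat_lit 8) (nat_lit 4) (nat_lit 487) (nat_lit 405) (nat_lit 308))) (XT.nd (nat_lit 78) (nat_lit 0) (nat_lit 0) (XT.lf (nat_lit 0) (nat_lit 168802387424) (nat_lit 152) (nat_lit 180976430854) (nat_lit 0) (nat_lit 151753326073) (nat_lit 8) (nat_lit 5) (nat_lit 10) (nat_lit 4) (nat_lit 8) (nat_lit 4) (nat_lit 488) (nat_lit 405) (nat_lit 307)) (XT.lf (nat_lit 0) (nat_lit 260633326441) (nat_lit 152) (nat_lit 33452949677) (nat_lit 0) (nat_lit 243583595098)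 (nat_lit 8) (nat_lit 5) (nat_lit 10) (nat_lit 4) (nat_lit 8) (nat_lit 4) (nat_lit 489) (nat_lit 405) (nat_lit 306)))) (XT.nd (nat_lit 156) (nat_lit 76) (nat_lit 0) (XT.nd (nat_lit 78) (nat_lit 0) (nat_lit 0) (XT.lf (nat_lit 0) (nat_lit 130021673507) (nat_lit 76) (nat_lit 231813047708) (nat_lit 76) (nat_lit 214762696003) (nat_lit 7) (nat_lit 4) (nat_lit 8) (nat_lit 5) (nat_lit 8) (nat_lit 4) (nat_lit 490) (nat_lit 405) (nat_lit 305)) (XT.lf (nat_lit 0) (nat_lit 307757150573) (nat_lit 76) (nat_lit 163952046981) (nat_lit 76) (nat_lit 146901120867) (nat_lit 7) (nat_lit 4) (nat_lit 8) (nat_lit 5) (nat_lit 8) (nat_lit 4) (nat_lit 491) (nat_lit 405) (nat_lit 304))) (XT.nd (nat_lit 78) (nat_lit 76) (nat_lit 0) (XT.lf (nat_lit 0) (nat_lit 499700623196) (nat_lit 76) (nat_lit 90667676564) (nat_lit 76) (nat_lit 73616218590) (nat_lit 7) (nat_lit 4) (nat_lit 8) (nat_lit 5) (nat_lit 8) (nat_lit 4) (nat_lit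 492) (nat_lit 405) (nat_lit 303)) (XT.lf (nat_lit 0) (nat_lit 5349415883) (nat_lit 152) (nat_lit 6085647876) (nat_lit 76) (nat_lit 701549523349) (nat_lit 6) (nat_lit 5) (nat_lit 8) (nat_lit 5) (nat_lit 7) (nat_lit 4) (nat_lit 493) (nat_lit 405) (nat_lit 302))))))) (XT.nd (nat_lit 56004) (nat_lit 0) (nat_lit 7220) (XT.nd (nat_lit 546) (nat_lit 0) (nat_lit 0) (XT.nd (nat_lit 234) (nat_lit 76) (nat_lit 0) (XT.nd (nat_lit 78) (nat_lit 0) (nat_lit 0) (XT.lf (nat_lit 0) (nat_lit 91941347164) (nat_lit 152) (nat_lit 598007602971) (nat_lit 0) (nat_lit 75700960095) (nat_lit 5) (nat_lit 5) (nat_lit 7) (nat_lit 4) (nat_lit 5) (nat_lit 4) (nat_lit 494) (nat_lit 405) (nat_lit 301)) (XT.nd (nat_lit 78) (nat_lit 0) (nat_lit 0) (XT.lf (nat_lit 0) (nat_lit 185756679732) (nat_lit 152) (nat_lit 467241086585) (nat_lit 0) (nat_lit 169515890560) (nat_lit 5) (nat_lit 5) (nat_lit 7) (nat_lit 4) (nat_lit 5) (nat_lit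 4) (nat_lit 495) (nat_lit 405) (nat_lit 300)) (XT.lf (nat_lit 0) (nat_lit 287073058187) (nat_lit 152) (nat_lit 326021757420) (nat_lit 0) (nat_lit 270831896698) (nat_lit 5) (nat_lit 5) (nat_lit 7) (nat_lit 4) (nat_lit 5) (nat_lit 4) (nat_lit 496) (nat_lit 405) (nat_lit 299)))) (XT.nd (nat_lit 156) (nat_lit 76) (nat_lit 0) (XT.nd (nat_lit 78) (nat_lit 0) (nat_lit 0) (XT.lf (nat_lit 0) (nat_lit 396490875883) (nat_lit 152) (nat_lit 173512760191) (nat_lit 0) (nat_lit 380249369655) (nat_lit 5) (nat_lit 5) (nat_lit 7) (nat_lit 4) (nat_lit 5) (nat_lit 4) (nat_lit 497) (nat_lit 405) (nat_lit 298)) (XT.lf (nat_lit 0) (nat_lit 514658534702) (nat_lit 152) (nat_lit 8810337879) (nat_lit 0) (nat_lit 498416709272) (nat_lit 5) (nat_lit 5) (nat_lit 7) (nat_lit 4) (nat_lit 5) (nat_lit 4) (nat_lit 498) (nat_lit 405) (nat_lit 297))) (XT.nd (nat_lit 78) (nat_lit 0) (nat_lit 0) (XT.lf (nat_lit 0) (nat_lit 174651461353)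 (nat_lit 76) (nat_lit 470351624855) (nat_lit 76) (nat_lit 454109503868) (nat_lit 4) (nat_lit 4) (nat_lit 5) (nat_lit 5) (nat_lit 5) (nat_lit 4) (nat_lit 499) (nat_lit 405) (nat_lit 296)) (XT.lf (nat_lit 0) (nat_lit 373098358037) (nat_lit 76) (nat_lit 412827140377) (nat_lit 76) (nat_lit 396584745725) (nat_lit 4) (nat_lit 4) (nat_lit 5) (nat_lit 5) (nat_lit 5) (nat_lit 4) (nat_lit 500) (nat_lit 405) (nat_lit 295))))) (XT.nd (nat_lit 55146) (nat_lit 0) (nat_lit 12540) (XT.nd (nat_lit 156) (nat_lit 0) (nat_lit 0) (XT.nd (nat_lit 78) (nat_lit 0) (nat_lit 0) (XT.lf (nat_lit 0) (nat_lit 587415024223) (nat_lit 76) (nat_lit 350703740646) (nat_lit 76) (nat_lit 334461092601) (nat_lit 4) (nat_lit 4) (nat_lit 5) (nat_lit 5) (nat_lit 5) (nat_lit 4) (nat_lit 501) (nat_lit 405) (nat_lit 294)) (XT.lf (nat_lit 0) (nat_lit 818871484600) (nat_lit 76) (nat_lit 283613286999) (nat_lit 76) (nat_lit 267370404330) (nat_lit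 4) (nat_lit 4) (nat_lit 5) (nat_lit 5) (nat_lit 5) (nat_lit 4) (nat_lit 502) (nat_lit 405) (nat_lit 293))) (XT.nd (nat_lit 54912) (nat_lit 0) (nat_lit 13072) (XT.lf (nat_lit 0) (nat_lit 1068839333007) (nat_lit 76) (nat_lit 211158206376) (nat_lit 76) (nat_lit 194915106464) (nat_lit 4) (nat_lit 4) (nat_lit 5) (nat_lit 5) (nat_lit 5) (nat_lit 4) (nat_lit 503) (nat_lit 405) (nat_lit 292)) (XT.lf (nat_lit 0) (nat_lit 712244538) (nat_lit 0) (nat_lit 712244538) (nat_lit 532) (nat_lit 2312981058) (nat_lit 176) (nat_lit 5) (nat_lit 176) (nat_lit 3) (nat_lit 183) (nat_lit 3) (nat_lit 406) (nat_lit 406) (nat_lit 388)))) (XT.nd (nat_lit 156) (nat_lit 532) (nat_lit 0) (XT.nd (nat_lit 78) (nat_lit 0) (nat_lit 0) (XT.lf (nat_lit 0) (nat_lit 5277329807) (nat_lit 532) (nat_lit 134467973) (nat_lit 608) (nat_lit 2245984914) (nat_lit 176) (nat_lit 5) (nat_lit 183) (nat_lit 3) (nat_lit 184) (nat_lit 5) (nat_lit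 407) (nat_lit 406) (nat_lit 387)) (XT.lf (nat_lit 76) (nat_lit 6305404422) (nat_lit 0) (nat_lit 1490862700) (nat_lit 608) (nat_lit 64213093) (nat_lit 177) (nat_lit 5) (nat_lit 176) (nat_lit 5) (nat_lit 184) (nat_lit 5) (nat_lit 408) (nat_lit 406) (nat_lit 386))) (XT.nd (nat_lit 78) (nat_lit 0) (nat_lit 0) (XT.lf (nat_lit 0) (nat_lit 2274022903) (nat_lit 608) (nat_lit 2945214107) (nat_lit 684) (nat_lit 2862556946) (nat_lit 169) (nat_lit 5) (nat_lit 177) (nat_lit 5) (nat_lit 178) (nat_lit 5) (nat_lit 409) (nat_lit 406) (nat_lit 385)) (XT.lf (nat_lit 76) (nat_lit 4068713313) (nat_lit 0) (nat_lit 644981558) (nat_lit 684) (nat_lit 3611269532) (nat_lit 170) (nat_lit 5) (nat_lit 169) (nat_lit 5) (nat_lit 178) (nat_lit 5) (nat_lit 410) (nat_lit 406) (nat_lit 384)))))) (XT.nd (nat_lit 546) (nat_lit 2508) (nat_lit 0) (XT.nd (nat_lit 234) (nat_lit 1596) (nat_lit 0) (XT.nd (nat_lit 78) (nat_lit 1292) (nat_lit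 0) (XT.lf (nat_lit 76) (nat_lit 3054853238) (nat_lit 0) (nat_lit 4274673811) (nat_lit 684) (nat_lit 1259045060) (nat_lit 171) (nat_lit 5) (nat_lit 170) (nat_lit 5) (nat_lit 179) (nat_lit 5) (nat_lit 411) (nat_lit 406) (nat_lit 383)) (XT.nd (nat_lit 78) (nat_lit 684) (nat_lit 0) (XT.lf (nat_lit 0) (nat_lit 1197539024) (nat_lit 684) (nat_lit 6759377865) (nat_lit 76) (nat_lit 917520662) (nat_lit 162) (nat_lit 5) (nat_lit 171) (nat_lit 5) (nat_lit 163) (nat_lit 5) (nat_lit 412) (nat_lit 406) (nat_lit 382)) (XT.lf (nat_lit 0) (nat_lit 1196821800) (nat_lit 684) (nat_lit 2633509546) (nat_lit 760) (nat_lit 5350646162) (nat_lit 153) (nat_lit 5) (nat_lit 162) (nat_lit 5) (nat_lit 163) (nat_lit 5) (nat_lit 413) (nat_lit 406) (nat_lit 381)))) (XT.nd (nat_lit 156) (nat_lit 836) (nat_lit 0) (XT.nd (nat_lit 78) (nat_lit 0) (nat_lit 0) (XT.lf (nat_lit 0) (nat_lit 341551901) (nat_lit 760) (nat_lit 6350770756)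 (nat_lit 836) (nat_lit 2818814132) (nat_lit 143) (nat_lit 5) (nat_lit 153) (nat_lit 5) (nat_lit 154) (nat_lit 5) (nat_lit 414) (nat_lit 406) (nat_lit 380)) (XT.lf (nat_lit 0) (nat_lit 9435248974) (nat_lit 760) (nat_lit 385059064) (nat_lit 836) (nat_lit 45572100) (nat_lit 143) (nat_lit 5) (nat_lit 153) (nat_lit 5) (nat_lit 154) (nat_lit 5) (nat_lit 415) (nat_lit 406) (nat_lit 379))) (XT.nd (nat_lit 78) (nat_lit 380) (nat_lit 0) (XT.lf (nat_lit 0) (nat_lit 2958125214) (nat_lit 456) (nat_lit 1222566432) (nat_lit 76) (nat_lit 6060879161) (nat_lit 137) (nat_lit 5) (nat_lit 143) (nat_lit 5) (nat_lit 138) (nat_lit 5) (nat_lit 416) (nat_lit 406) (nat_lit 378)) (XT.lf (nat_lit 0) (nat_lit 6261269227) (nat_lit 456) (nat_lit 1952736896) (nat_lit 76) (nat_lit 2430254706) (nat_lit 132) (nat_lit 5) (nat_lit 138) (nat_lit 5) (nat_lit 133) (nat_lit 5) (nat_lit 417) (nat_lit 406) (nat_lit 377))))) (XT.nd (nat_lit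 312) (nat_lit 1140) (nat_lit 0) (XT.nd (nat_lit 156) (nat_lit 608) (nat_lit 0) (XT.nd (nat_lit 78) (nat_lit 380) (nat_lit 0) (XT.lf (nat_lit 0) (nat_lit 8430559520) (nat_lit 380) (nat_lit 1500427348) (nat_lit 456) (nat_lit 1143080516) (nat_lit 127) (nat_lit 5) (nat_lit 132) (nat_lit 5) (nat_lit 133) (nat_lit 5) (nat_lit 418) (nat_lit 406) (nat_lit 376)) (XT.lf (nat_lit 0) (nat_lit 2420893557) (nat_lit 380) (nat_lit 3352537015) (nat_lit 76) (nat_lit 5755990183) (nat_lit 122) (nat_lit 5) (nat_lit 127) (nat_lit 5) (nat_lit 123) (nat_lit 5) (nat_lit 419) (nat_lit 406) (nat_lit 375))) (XT.nd (nat_lit 78) (nat_lit 304) (nat_lit 0) (XT.lf (nat_lit 0) (nat_lit 6344446382) (nat_lit 380) (nat_lit 4023090701) (nat_lit 76) (nat_lit 1647017158) (nat_lit 118) (nat_lit 5) (nat_lit 123) (nat_lit 5) (nat_lit 119) (nat_lit 5) (nat_lit 420) (nat_lit 406) (nat_lit 374)) (XT.lf (nat_lit 0) (nat_lit 7850487439) (nat_lit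 304) (nat_lit 2906637287) (nat_lit 380) (nat_lit 1772624797) (nat_lit 114) (nat_lit 5) (nat_lit 118) (nat_lit 5) (nat_lit 119) (nat_lit 5) (nat_lit 421) (nat_lit 406) (nat_lit 373)))) (XT.nd (nat_lit 156) (nat_lit 532) (nat_lit 0) (XT.nd (nat_lit 78) (nat_lit 228) (nat_lit 0) (XT.lf (nat_lit 0) (nat_lit 2535872498) (nat_lit 380) (nat_lit 5344647687) (nat_lit 76) (nat_lit 5194889524) (nat_lit 109) (nat_lit 5) (nat_lit 114) (nat_lit 5) (nat_lit 110) (nat_lit 5) (nat_lit 422) (nat_lit 406) (nat_lit 372)) (XT.lf (nat_lit 0) (nat_lit 7290881865) (nat_lit 304) (nat_lit 5982011301) (nat_lit 76) (nat_lit 382190515) (nat_lit 106) (nat_lit 5) (nat_lit 110) (nat_lit 5) (nat_lit 107) (nat_lit 5) (nat_lit 423) (nat_lit 406) (nat_lit 371))) (XT.nd (nat_lit 78) (nat_lit 304) (nat_lit 0) (XT.lf (nat_lit 0) (nat_lit 7631869929) (nat_lit 228) (nat_lit 5050927369) (nat_lit 304) (nat_lit 1585518973) (nat_lit 103)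 (nat_lit 5) (nat_lit 106) (nat_lit 5) (nat_lit 107) (nat_lit 5) (nat_lit 424) (nat_lit 406) (nat_lit 370)) (XT.lf (nat_lit 0) (nat_lit 3664089422) (nat_lit 304) (nat_lit 7295089359) (nat_lit 76) (nat_lit 3958492933) (nat_lit 99) (nat_lit 5) (nat_lit 103) (nat_lit 5) (nat_lit 100) (nat_lit 5) (nat_lit 425) (nat_lit 406) (nat_lit 369))))))))
noncomputable def xc56 : XT := (XT.nd (nat_lit 2262) (nat_lit 2280) (nat_lit 0) (XT.nd (nat_lit 1092) (nat_lit 1824) (nat_lit 0) (XT.nd (nat_lit 546) (nat_lit 1140) (nat_lit 0) (XT.nd (nat_lit 234) (nat_lit 760) (nat_lit 0) (XT.nd (nat_lit 78) (nat_lit 456) (nat_lit 0) (XT.lf (nat_lit 0) (nat_lit 7657085357) (nat_lit 228) (nat_lit 1861305647) (nat_lit 304) (nat_lit 6087279452) (nat_lit 96) (nat_lit 5) (nat_lit 99) (nat_lit 5) (nat_lit 100) (nat_lit 5) (nat_lit 426) (nat_lit 406) (nat_lit 368)) (XT.nd (nat_lit 78) (nat_lit 304) (nat_lit 0) (XT.lf (nat_lit 0)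 (nat_lit 7725996573) (nat_lit 152) (nat_lit 8410241121) (nat_lit 228) (nat_lit 197718889) (nat_lit 94) (nat_lit 5) (nat_lit 96) (nat_lit 5) (nat_lit 97) (nat_lit 5) (nat_lit 427) (nat_lit 406) (nat_lit 367)) (XT.lf (nat_lit 0) (nat_lit 6209718457) (nat_lit 304) (nat_lit 9300767704) (nat_lit 76) (nat_lit 1593016660) (nat_lit 90) (nat_lit 5) (nat_lit 94) (nat_lit 5) (nat_lit 91) (nat_lit 5) (nat_lit 428) (nat_lit 406) (nat_lit 366)))) (XT.nd (nat_lit 156) (nat_lit 304) (nat_lit 0) (XT.nd (nat_lit 78) (nat_lit 304) (nat_lit 0) (XT.lf (nat_lit 0) (nat_lit 7897945007) (nat_lit 152) (nat_lit 5569714251) (nat_lit 228) (nat_lit 4449555811) (nat_lit 88) (nat_lit 5) (nat_lit 90) (nat_lit 5) (nat_lit 91) (nat_lit 5) (nat_lit 429) (nat_lit 406) (nat_lit 365)) (XT.lf (nat_lit 0) (nat_lit 2736587378) (nat_lit 304) (nat_lit 10744701756) (nat_lit 76) (nat_lit 5297445077) (nat_lit 84) (nat_lit 5) (nat_lit 88)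 (nat_lit 5) (nat_lit 85) (nat_lit 5) (nat_lit 430) (nat_lit 406) (nat_lit 364))) (XT.nd (nat_lit 78) (nat_lit 152) (nat_lit 0) (XT.lf (nat_lit 0) (nat_lit 8169544587) (nat_lit 152) (nat_lit 2505821080) (nat_lit 228) (nat_lit 9013485342) (nat_lit 82) (nat_lit 5) (nat_lit 84) (nat_lit 5) (nat_lit 85) (nat_lit 5) (nat_lit 431) (nat_lit 406) (nat_lit 363)) (XT.lf (nat_lit 0) (nat_lit 8328870508) (nat_lit 152) (nat_lit 11322011657) (nat_lit 228) (nat_lit 1000817843) (nat_lit 80) (nat_lit 5) (nat_lit 82) (nat_lit 5) (nat_lit 83) (nat_lit 5) (nat_lit 432) (nat_lit 406) (nat_lit 362))))) (XT.nd (nat_lit 234) (nat_lit 532) (nat_lit 0) (XT.nd (nat_lit 78) (nat_lit 380) (nat_lit 0) (XT.lf (nat_lit 0) (nat_lit 7736457707) (nat_lit 228) (nat_lit 13184517160) (nat_lit 76) (nat_lit 748205324) (nat_lit 77) (nat_lit 5) (nat_lit 80) (nat_lit 5) (nat_lit 78) (nat_lit 5) (nat_lit 433) (nat_lit 406) (nat_lit 361))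 (XT.nd (nat_lit 78) (nat_lit 228) (nat_lit 0) (XT.lf (nat_lit 0) (nat_lit 8601342849) (nat_lit 152) (nat_lit 9020183926) (nat_lit 228) (nat_lit 5121521706) (nat_lit 75) (nat_lit 5) (nat_lit 77) (nat_lit 5) (nat_lit 78) (nat_lit 5) (nat_lit 434) (nat_lit 406) (nat_lit 360)) (XT.lf (nat_lit 0) (nat_lit 4633461900) (nat_lit 228) (nat_lit 15130287907) (nat_lit 76) (nat_lit 4116672165) (nat_lit 72) (nat_lit 5) (nat_lit 75) (nat_lit 5) (nat_lit 73) (nat_lit 5) (nat_lit 435) (nat_lit 406) (nat_lit 359)))) (XT.nd (nat_lit 156) (nat_lit 228) (nat_lit 0) (XT.nd (nat_lit 78) (nat_lit 152) (nat_lit 0) (XT.lf (nat_lit 0) (nat_lit 8824377267) (nat_lit 152) (nat_lit 6651871742) (nat_lit 228) (nat_lit 9603999565) (nat_lit 70) (nat_lit 5) (nat_lit 72) (nat_lit 5) (nat_lit 73) (nat_lit 5) (nat_lit 436) (nat_lit 406) (nat_lit 358)) (XT.lf (nat_lit 0) (nat_lit 1263153615) (nat_lit 152) (nat_lit 17430620373) (nat_lit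 76) (nat_lit 7657722743) (nat_lit 68) (nat_lit 5) (nat_lit 70) (nat_lit 5) (nat_lit 69) (nat_lit 5) (nat_lit 437) (nat_lit 406) (nat_lit 357))) (XT.nd (nat_lit 78) (nat_lit 76) (nat_lit 0) (XT.lf (nat_lit 0) (nat_lit 8895124397) (nat_lit 152) (nat_lit 4259388361) (nat_lit 228) (nat_lit 14537496828) (nat_lit 66) (nat_lit 5) (nat_lit 68) (nat_lit 5) (nat_lit 69) (nat_lit 5) (nat_lit 438) (nat_lit 406) (nat_lit 356)) (XT.lf (nat_lit 0) (nat_lit 8835064629) (nat_lit 76) (nat_lit 17735372959) (nat_lit 152) (nat_lit 2540665379) (nat_lit 65) (nat_lit 5) (nat_lit 66) (nat_lit 5) (nat_lit 67) (nat_lit 4) (nat_lit 439) (nat_lit 406) (nat_lit 355)))))) (XT.nd (nat_lit 546) (nat_lit 760) (nat_lit 0) (XT.nd (nat_lit 234) (nat_lit 532) (nat_lit 0) (XT.nd (nat_lit 78) (nat_lit 304) (nat_lit 0) (XT.lf (nat_lit 0) (nat_lit 8670855180) (nat_lit 152) (nat_lit 1903075388) (nat_lit 228) (nat_lit 20037094626) (nat_lit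 62) (nat_lit 5) (nat_lit 64) (nat_lit 5) (nat_lit 65) (nat_lit 5) (nat_lit 440) (nat_lit 406) (nat_lit 354)) (XT.nd (nat_lit 78) (nat_lit 228) (nat_lit 0) (XT.lf (nat_lit 0) (nat_lit 8339103911) (nat_lit 76) (nat_lit 16990282600) (nat_lit 152) (nat_lit 6865438847) (nat_lit 61) (nat_lit 5) (nat_lit 62) (nat_lit 5) (nat_lit 63) (nat_lit 4) (nat_lit 441) (nat_lit 406) (nat_lit 353)) (XT.lf (nat_lit 0) (nat_lit 7628844720) (nat_lit 228) (nat_lit 25924415862) (nat_lit 76) (nat_lit 321102188) (nat_lit 58) (nat_lit 5) (nat_lit 61) (nat_lit 5) (nat_lit 59) (nat_lit 4) (nat_lit 442) (nat_lit 406) (nat_lit 352)))) (XT.nd (nat_lit 156) (nat_lit 228) (nat_lit 0) (XT.nd (nat_lit 78) (nat_lit 228) (nat_lit 0) (XT.lf (nat_lit 0) (nat_lit 7224744208) (nat_lit 76) (nat_lit 16598333744) (nat_lit 152) (nat_lit 11820512449) (nat_lit 57) (nat_lit 5) (nat_lit 58) (nat_lit 5) (nat_lit 59) (nat_lit 4) (nat_lit 443)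 (nat_lit 406) (nat_lit 351)) (XT.lf (nat_lit 0) (nat_lit 4192107130) (nat_lit 228) (nat_lit 31080421033) (nat_lit 76) (nat_lit 2251199988) (nat_lit 54) (nat_lit 5) (nat_lit 57) (nat_lit 5) (nat_lit 55) (nat_lit 4) (nat_lit 444) (nat_lit 406) (nat_lit 350))) (XT.nd (nat_lit 78) (nat_lit 152) (nat_lit 0) (XT.lf (nat_lit 0) (nat_lit 5180481111) (nat_lit 76) (nat_lit 16719394816) (nat_lit 152) (nat_lit 17603299684) (nat_lit 53) (nat_lit 5) (nat_lit 54) (nat_lit 5) (nat_lit 55) (nat_lit 4) (nat_lit 445) (nat_lit 406) (nat_lit 349)) (XT.lf (nat_lit 0) (nat_lit 35169856) (nat_lit 152) (nat_lit 37786305314) (nat_lit 76) (nat_lit 3788379062) (nat_lit 51) (nat_lit 5) (nat_lit 53) (nat_lit 5) (nat_lit 52) (nat_lit 4) (nat_lit 446) (nat_lit 406) (nat_lit 348))))) (XT.nd (nat_lit 312) (nat_lit 456) (nat_lit 0) (XT.nd (nat_lit 156) (nat_lit 228) (nat_lit 0) (XT.nd (nat_lit 78) (nat_lit 0) (nat_lit 0) (XT.lf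 (nat_lit 0) (nat_lit 1786839655) (nat_lit 76) (nat_lit 17568244836) (nat_lit 152) (nat_lit 24471199689) (nat_lit 50) (nat_lit 5) (nat_lit 51) (nat_lit 5) (nat_lit 52) (nat_lit 4) (nat_lit 447) (nat_lit 406) (nat_lit 347)) (XT.lf (nat_lit 0) (nat_lit 40919405875) (nat_lit 152) (nat_lit 461841670) (nat_lit 0) (nat_lit 4803841265) (nat_lit 50) (nat_lit 5) (nat_lit 52) (nat_lit 4) (nat_lit 50) (nat_lit 4) (nat_lit 448) (nat_lit 406) (nat_lit 346))) (XT.nd (nat_lit 78) (nat_lit 76) (nat_lit 0) (XT.lf (nat_lit 0) (nat_lit 15969431482) (nat_lit 152) (nat_lit 3404913746) (nat_lit 76) (nat_lit 29296747342) (nat_lit 48) (nat_lit 5) (nat_lit 50) (nat_lit 5) (nat_lit 49) (nat_lit 4) (nat_lit 449) (nat_lit 406) (nat_lit 345)) (XT.lf (nat_lit 0) (nat_lit 39473134107) (nat_lit 152) (nat_lit 6812399349) (nat_lit 0) (nat_lit 5028414684) (nat_lit 47) (nat_lit 5) (nat_lit 49) (nat_lit 4) (nat_lit 47) (nat_lit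 4) (nat_lit 450) (nat_lit 406) (nat_lit 344)))) (XT.nd (nat_lit 156) (nat_lit 228) (nat_lit 0) (XT.nd (nat_lit 78) (nat_lit 76) (nat_lit 0) (XT.lf (nat_lit 0) (nat_lit 11392363015) (nat_lit 152) (nat_lit 11112162813) (nat_lit 76) (nat_lit 31603084146) (nat_lit 45) (nat_lit 5) (nat_lit 47) (nat_lit 5) (nat_lit 46) (nat_lit 4) (nat_lit 451) (nat_lit 406) (nat_lit 343)) (XT.lf (nat_lit 0) (nat_lit 36868322165) (nat_lit 152) (nat_lit 16182924648) (nat_lit 0) (nat_lit 4023864381) (nat_lit 44) (nat_lit 5) (nat_lit 46) (nat_lit 4) (nat_lit 44) (nat_lit 4) (nat_lit 452) (nat_lit 406) (nat_lit 342))) (XT.nd (nat_lit 78) (nat_lit 76) (nat_lit 0) (XT.lf (nat_lit 0) (nat_lit 5127889676) (nat_lit 152) (nat_lit 22350073787) (nat_lit 76) (nat_lit 32741004920) (nat_lit 42) (nat_lit 5) (nat_lit 44) (nat_lit 5) (nat_lit 43) (nat_lit 4) (nat_lit 453) (nat_lit 406) (nat_lit 341)) (XT.lf (nat_lit 0) (nat_lit 32597714195)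 (nat_lit 152) (nat_lit 29674593771) (nat_lit 0) (nat_lit 1284647816) (nat_lit 41) (nat_lit 5) (nat_lit 43) (nat_lit 4) (nat_lit 41) (nat_lit 4) (nat_lit 454) (nat_lit 406) (nat_lit 340))))))) (XT.nd (nat_lit 1170) (nat_lit 912) (nat_lit 0) (XT.nd (nat_lit 546) (nat_lit 684) (nat_lit 0) (XT.nd (nat_lit 234) (nat_lit 380) (nat_lit 0) (XT.nd (nat_lit 78) (nat_lit 228) (nat_lit 0) (XT.lf (nat_lit 0) (nat_lit 28659922927) (nat_lit 76) (nat_lit 34882883823) (nat_lit 76) (nat_lit 3555291805) (nat_lit 40) (nat_lit 4) (nat_lit 41) (nat_lit 5) (nat_lit 41) (nat_lit 4) (nat_lit 455) (nat_lit 406) (nat_lit 339)) (XT.nd (nat_lit 78) (nat_lit 76) (nat_lit 0) (XT.lf (nat_lit 0) (nat_lit 22060081186) (nat_lit 76) (nat_lit 3989247042) (nat_lit 152) (nat_lit 44810784917) (nat_lit 38) (nat_lit 5) (nat_lit 39) (nat_lit 5) (nat_lit 40) (nat_lit 4) (nat_lit 456) (nat_lit 406) (nat_lit 338)) (XT.lf (nat_lit 0) (nat_lit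 13737676971) (nat_lit 76) (nat_lit 45488279852) (nat_lit 76) (nat_lit 15627808351) (nat_lit 37) (nat_lit 4) (nat_lit 38) (nat_lit 5) (nat_lit 38) (nat_lit 4) (nat_lit 457) (nat_lit 406) (nat_lit 337)))) (XT.nd (nat_lit 156) (nat_lit 228) (nat_lit 0) (XT.nd (nat_lit 78) (nat_lit 0) (nat_lit 0) (XT.lf (nat_lit 0) (nat_lit 3631378504) (nat_lit 76) (nat_lit 12711466292) (nat_lit 152) (nat_lit 62763580123) (nat_lit 35) (nat_lit 5) (nat_lit 36) (nat_lit 5) (nat_lit 37) (nat_lit 4) (nat_lit 458) (nat_lit 406) (nat_lit 336)) (XT.lf (nat_lit 0) (nat_lit 51741653475) (nat_lit 152) (nat_lit 8590967187) (nat_lit 0) (nat_lit 23282966151) (nat_lit 35) (nat_lit 5) (nat_lit 37) (nat_lit 4) (nat_lit 35) (nat_lit 4) (nat_lit 459) (nat_lit 406) (nat_lit 335))) (XT.nd (nat_lit 78) (nat_lit 76) (nat_lit 0) (XT.lf (nat_lit 0) (nat_lit 2672145102) (nat_lit 152) (nat_lit 22989756671) (nat_lit 76) (nat_lit 62760776972)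 (nat_lit 33) (nat_lit 5) (nat_lit 35) (nat_lit 5) (nat_lit 34) (nat_lit 4) (nat_lit 460) (nat_lit 406) (nat_lit 334)) (XT.lf (nat_lit 0) (nat_lit 40048296435) (nat_lit 152) (nat_lit 40552423345) (nat_lit 0) (nat_lit 12928337643) (nat_lit 32) (nat_lit 5) (nat_lit 34) (nat_lit 4) (nat_lit 32) (nat_lit 4) (nat_lit 461) (nat_lit 406) (nat_lit 333))))) (XT.nd (nat_lit 312) (nat_lit 380) (nat_lit 0) (XT.nd (nat_lit 156) (nat_lit 76) (nat_lit 0) (XT.nd (nat_lit 78) (nat_lit 152) (nat_lit 0) (XT.lf (nat_lit 0) (nat_lit 37534929410) (nat_lit 76) (nat_lit 44283062468) (nat_lit 76) (nat_lit 17155782160) (nat_lit 31) (nat_lit 4) (nat_lit 32) (nat_lit 5) (nat_lit 32) (nat_lit 4) (nat_lit 462) (nat_lit 406) (nat_lit 332)) (XT.lf (nat_lit 0) (nat_lit 18697535149) (nat_lit 76) (nat_lit 3659340284) (nat_lit 152) (nat_lit 82430548757) (nat_lit 29) (nat_lit 5) (nat_lit 30) (nat_lit 5) (nat_lit 31) (nat_lit 4)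 (nat_lit 463) (nat_lit 406) (nat_lit 331))) (XT.nd (nat_lit 78) (nat_lit 76) (nat_lit 0) (XT.lf (nat_lit 0) (nat_lit 66132115193) (nat_lit 152) (nat_lit 4550682355) (nat_lit 0) (nat_lit 40284175659) (nat_lit 29) (nat_lit 5) (nat_lit 31) (nat_lit 4) (nat_lit 29) (nat_lit 4) (nat_lit 464) (nat_lit 406) (nat_lit 330)) (XT.lf (nat_lit 0) (nat_lit 86168887475) (nat_lit 76) (nat_lit 28628047812) (nat_lit 76) (nat_lit 2774572987) (nat_lit 28) (nat_lit 4) (nat_lit 29) (nat_lit 5) (nat_lit 29) (nat_lit 4) (nat_lit 465) (nat_lit 406) (nat_lit 329)))) (XT.nd (nat_lit 156) (nat_lit 152) (nat_lit 0) (XT.nd (nat_lit 78) (nat_lit 76) (nat_lit 0) (XT.lf (nat_lit 0) (nat_lit 42586814021) (nat_lit 152) (nat_lit 64059653601) (nat_lit 0) (nat_lit 17959575835) (nat_lit 26) (nat_lit 5) (nat_lit 28) (nat_lit 4) (nat_lit 26) (nat_lit 4) (nat_lit 466) (nat_lit 406) (nat_lit 328)) (XT.lf (nat_lit 0) (nat_lit 29154444689)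 (nat_lit 76) (nat_lit 63802269995) (nat_lit 76) (nat_lit 39170512171) (nat_lit 25) (nat_lit 4) (nat_lit 26) (nat_lit 5) (nat_lit 26) (nat_lit 4) (nat_lit 467) (nat_lit 406) (nat_lit 327))) (XT.nd (nat_lit 78) (nat_lit 76) (nat_lit 0) (XT.lf (nat_lit 0) (nat_lit 7994981454) (nat_lit 152) (nat_lit 8246230691) (nat_lit 76) (nat_lit 123947529673) (nat_lit 24) (nat_lit 5) (nat_lit 26) (nat_lit 5) (nat_lit 25) (nat_lit 4) (nat_lit 468) (nat_lit 406) (nat_lit 326)) (XT.lf (nat_lit 0) (nat_lit 59652718927) (nat_lit 152) (nat_lit 52919558745) (nat_lit 0) (nat_lit 36186226037) (nat_lit 23) (nat_lit 5) (nat_lit 25) (nat_lit 4) (nat_lit 23) (nat_lit 4) (nat_lit 469) (nat_lit 406) (nat_lit 325)))))) (XT.nd (nat_lit 546) (nat_lit 380) (nat_lit 0) (XT.nd (nat_lit 234) (nat_lit 304) (nat_lit 0) (XT.nd (nat_lit 78) (nat_lit 152) (nat_lit 0) (XT.lf (nat_lit 0) (nat_lit 51891028883) (nat_lit 76) (nat_lit 64766014627)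 (nat_lit 76) (nat_lit 41296104751) (nat_lit 22) (nat_lit 4) (nat_lit 23) (nat_lit 5) (nat_lit 23) (nat_lit 4) (nat_lit 470) (nat_lit 406) (nat_lit 324)) (XT.nd (nat_lit 78) (nat_lit 76) (nat_lit 0) (XT.lf (nat_lit 0) (nat_lit 10928797166) (nat_lit 152) (nat_lit 1069039559) (nat_lit 76) (nat_lit 155831390261) (nat_lit 21) (nat_lit 5) (nat_lit 23) (nat_lit 5) (nat_lit 22) (nat_lit 4) (nat_lit 471) (nat_lit 406) (nat_lit 323)) (XT.lf (nat_lit 0) (nat_lit 68432887622) (nat_lit 152) (nat_lit 63826465402) (nat_lit 0) (nat_lit 46074789275) (nat_lit 20) (nat_lit 5) (nat_lit 22) (nat_lit 4) (nat_lit 20) (nat_lit 4) (nat_lit 472) (nat_lit 406) (nat_lit 322)))) (XT.nd (nat_lit 156) (nat_lit 228) (nat_lit 0) (XT.nd (nat_lit 78) (nat_lit 0) (nat_lit 0) (XT.lf (nat_lit 0) (nat_lit 51094597441) (nat_lit 76) (nat_lit 80447644180) (nat_lit 76) (nat_lit 58086962487) (nat_lit 19) (nat_lit 4) (nat_lit 20) (nat_lit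 5) (nat_lit 20) (nat_lit 4) (nat_lit 473) (nat_lit 406) (nat_lit 321)) (XT.lf (nat_lit 0) (nat_lit 177461474694) (nat_lit 76) (nat_lit 23337274824) (nat_lit 76) (nat_lit 974201144) (nat_lit 19) (nat_lit 4) (nat_lit 20) (nat_lit 5) (nat_lit 20) (nat_lit 4) (nat_lit 474) (nat_lit 406) (nat_lit 320))) (XT.nd (nat_lit 78) (nat_lit 76) (nat_lit 0) (XT.lf (nat_lit 0) (nat_lit 60973706875) (nat_lit 152) (nat_lit 114083209861) (nat_lit 0) (nat_lit 39673432129) (nat_lit 17) (nat_lit 5) (nat_lit 19) (nat_lit 4) (nat_lit 17) (nat_lit 4) (nat_lit 475) (nat_lit 406) (nat_lit 319)) (XT.lf (nat_lit 0) (nat_lit 7567971595) (nat_lit 76) (nat_lit 121205640944) (nat_lit 76) (nat_lit 99903413110) (nat_lit 16) (nat_lit 4) (nat_lit 17) (nat_lit 5) (nat_lit 17) (nat_lit 4) (nat_lit 476) (nat_lit 406) (nat_lit 318))))) (XT.nd (nat_lit 312) (nat_lit 152) (nat_lit 0) (XT.nd (nat_lit 156) (nat_lit 76) (nat_lit 0) (XT.nd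 (nat_lit 78) (nat_lit 152) (nat_lit 0) (XT.lf (nat_lit 0) (nat_lit 143001394107) (nat_lit 76) (nat_lit 60971651028) (nat_lit 76) (nat_lit 39667614778) (nat_lit 16) (nat_lit 4) (nat_lit 17) (nat_lit 5) (nat_lit 17) (nat_lit 4) (nat_lit 477) (nat_lit 406) (nat_lit 317)) (XT.lf (nat_lit 0) (nat_lit 25109730010) (nat_lit 152) (nat_lit 229826498526) (nat_lit 0) (nat_lit 4818576954) (nat_lit 14) (nat_lit 5) (nat_lit 16) (nat_lit 4) (nat_lit 14) (nat_lit 4) (nat_lit 478) (nat_lit 406) (nat_lit 316))) (XT.nd (nat_lit 78) (nat_lit 76) (nat_lit 0) (XT.lf (nat_lit 0) (nat_lit 96497268954) (nat_lit 152) (nat_lit 104282771740) (nat_lit 0) (nat_lit 76204639303) (nat_lit 14) (nat_lit 5) (nat_lit 16) (nat_lit 4) (nat_lit 14) (nat_lit 4) (nat_lit 479) (nat_lit 406) (nat_lit 315)) (XT.lf (nat_lit 0) (nat_lit 32318740720) (nat_lit 76) (nat_lit 141771733743) (nat_lit 76) (nat_lit 121477736875) (nat_lit 13) (nat_lit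 4) (nat_lit 14) (nat_lit 5) (nat_lit 14) (nat_lit 4) (nat_lit 480) (nat_lit 406) (nat_lit 314)))) (XT.nd (nat_lit 156) (nat_lit 0) (nat_lit 0) (XT.nd (nat_lit 78) (nat_lit 152) (nat_lit 0) (XT.lf (nat_lit 0) (nat_lit 183553038443) (nat_lit 76) (nat_lit 76145148534) (nat_lit 76) (nat_lit 55849885724) (nat_lit 13) (nat_lit 4) (nat_lit 14) (nat_lit 5) (nat_lit 14) (nat_lit 4) (nat_lit 481) (nat_lit 406) (nat_lit 313)) (XT.lf (nat_lit 0) (nat_lit 9821359658) (nat_lit 76) (nat_lit 4870247481) (nat_lit 152) (nat_lit 322415763775) (nat_lit 11) (nat_lit 5) (nat_lit 12) (nat_lit 5) (nat_lit 13) (nat_lit 4) (nat_lit 482) (nat_lit 406) (nat_lit 312))) (XT.nd (nat_lit 78) (nat_lit 0) (nat_lit 0) (XT.lf (nat_lit 0) (nat_lit 92399943304) (nat_lit 152) (nat_lit 194702707961) (nat_lit 0) (nat_lit 73068971570) (nat_lit 11) (nat_lit 5) (nat_lit 13) (nat_lit 4) (nat_lit 11) (nat_lit 4) (nat_lit 483) (nat_lit 406)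 (nat_lit 311)) (XT.lf (nat_lit 0) (nat_lit 176399034792) (nat_lit 152) (nat_lit 51611169762) (nat_lit 0) (nat_lit 157067105966) (nat_lit 11) (nat_lit 5) (nat_lit 13) (nat_lit 4) (nat_lit 11) (nat_lit 4) (nat_lit 484) (nat_lit 406) (nat_lit 310))))))))
noncomputable def xc57 : XT := (XT.nd (nat_lit 57252) (nat_lit 0) (nat_lit 3572) (XT.nd (nat_lit 1092) (nat_lit 76) (nat_lit 0) (XT.nd (nat_lit 546) (nat_lit 152) (nat_lit 0) (XT.nd (nat_lit 234) (nat_lit 152) (nat_lit 0) (XT.nd (nat_lit 78) (nat_lit 76) (nat_lit 0) (XT.lf (nat_lit 0) (nat_lit 106315346445) (nat_lit 76) (nat_lit 162455149845) (nat_lit 76) (nat_lit 143122334824) (nat_lit 10) (nat_lit 4) (nat_lit 11) (nat_lit 5) (nat_lit 11) (nat_lit 4) (nat_lit 485) (nat_lit 406) (nat_lit 309)) (XT.nd (nat_lit 78) (nat_lit 76) (nat_lit 0) (XT.lf (nat_lit 0) (nat_lit 278704558320) (nat_lit 76) (nat_lit 90719037296) (nat_lit 76) (nat_lit 71385401723)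 (nat_lit 10) (nat_lit 4) (nat_lit 11) (nat_lit 5) (nat_lit 11) (nat_lit 4) (nat_lit 486) (nat_lit 406) (nat_lit 308)) (XT.lf (nat_lit 0) (nat_lit 5888858921) (nat_lit 152) (nat_lit 7262234553) (nat_lit 76) (nat_lit 458882943610) (nat_lit 9) (nat_lit 5) (nat_lit 11) (nat_lit 5) (nat_lit 10) (nat_lit 4) (nat_lit 487) (nat_lit 406) (nat_lit 307)))) (XT.nd (nat_lit 156) (nat_lit 76) (nat_lit 0) (XT.nd (nat_lit 78) (nat_lit 0) (nat_lit 0) (XT.lf (nat_lit 0) (nat_lit 90596022935) (nat_lit 152) (nat_lit 342733303414) (nat_lit 0) (nat_lit 72181643094) (nat_lit 8) (nat_lit 5) (nat_lit 10) (nat_lit 4) (nat_lit 8) (nat_lit 4) (nat_lit 488) (nat_lit 406) (nat_lit 306)) (XT.lf (nat_lit 0) (nat_lit 182424066724) (nat_lit 152) (nat_lit 195215707833) (nat_lit 0) (nat_lit 164009066521) (nat_lit 8) (nat_lit 5) (nat_lit 10) (nat_lit 4) (nat_lit 8) (nat_lit 4) (nat_lit 489) (nat_lit 406) (nat_lit 305))) (XT.nd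 (nat_lit 78) (nat_lit 76) (nat_lit 0) (XT.lf (nat_lit 0) (nat_lit 281592778025) (nat_lit 152) (nat_lit 35908039828) (nat_lit 0) (nat_lit 263177203412) (nat_lit 8) (nat_lit 5) (nat_lit 10) (nat_lit 4) (nat_lit 8) (nat_lit 4) (nat_lit 490) (nat_lit 406) (nat_lit 304)) (XT.lf (nat_lit 0) (nat_lit 140634942483) (nat_lit 76) (nat_lit 250250586371) (nat_lit 76) (nat_lit 231834479898) (nat_lit 7) (nat_lit 4) (nat_lit 8) (nat_lit 5) (nat_lit 8) (nat_lit 4) (nat_lit 491) (nat_lit 406) (nat_lit 303))))) (XT.nd (nat_lit 234) (nat_lit 76) (nat_lit 0) (XT.nd (nat_lit 78) (nat_lit 76) (nat_lit 0) (XT.lf (nat_lit 0) (nat_lit 332573588448) (nat_lit 76) (nat_lit 176968668931) (nat_lit 76) (nat_lit 158552069994) (nat_lit 7) (nat_lit 4) (nat_lit 8) (nat_lit 5) (nat_lit 8) (nat_lit 4) (nat_lit 492) (nat_lit 406) (nat_lit 302)) (XT.nd (nat_lit 78) (nat_lit 76) (nat_lit 0) (XT.lf (nat_lit 0) (nat_lit 539858030301)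 (nat_lit 76) (nat_lit 97828922347) (nat_lit 76) (nat_lit 79411867427) (nat_lit 7) (nat_lit 4) (nat_lit 8) (nat_lit 5) (nat_lit 8) (nat_lit 4) (nat_lit 493) (nat_lit 406) (nat_lit 301)) (XT.lf (nat_lit 0) (nat_lit 5861305551) (nat_lit 152) (nat_lit 6401800748) (nat_lit 76) (nat_lit 757756050695) (nat_lit 6) (nat_lit 5) (nat_lit 8) (nat_lit 5) (nat_lit 7) (nat_lit 4) (nat_lit 494) (nat_lit 406) (nat_lit 300)))) (XT.nd (nat_lit 156) (nat_lit 0) (nat_lit 0) (XT.nd (nat_lit 78) (nat_lit 0) (nat_lit 0) (XT.lf (nat_lit 0) (nat_lit 99378219148) (nat_lit 152) (nat_lit 645682213026) (nat_lit 0) (nat_lit 81837392422) (nat_lit 5) (nat_lit 5) (nat_lit 7) (nat_lit 4) (nat_lit 5) (nat_lit 4) (nat_lit 495) (nat_lit 406) (nat_lit 299)) (XT.lf (nat_lit 0) (nat_lit 200692736528) (nat_lit 152) (nat_lit 504466671490) (nat_lit 0) (nat_lit 183151565064) (nat_lit 5) (nat_lit 5) (nat_lit 7) (nat_lit 4) (nat_lit 5) (nat_lit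 4) (nat_lit 496) (nat_lit 406) (nat_lit 298))) (XT.nd (nat_lit 78) (nat_lit 0) (nat_lit 0) (XT.lf (nat_lit 0) (nat_lit 310108831006) (nat_lit 152) (nat_lit 351961181326) (nat_lit 0) (nat_lit 292567340340) (nat_lit 5) (nat_lit 5) (nat_lit 7) (nat_lit 4) (nat_lit 5) (nat_lit 4) (nat_lit 497) (nat_lit 406) (nat_lit 297)) (XT.lf (nat_lit 0) (nat_lit 428274894253) (nat_lit 152) (nat_lit 187262006296) (nat_lit 0) (nat_lit 410733108029) (nat_lit 5) (nat_lit 5) (nat_lit 7) (nat_lit 4) (nat_lit 5) (nat_lit 4) (nat_lit 498) (nat_lit 406) (nat_lit 296)))))) (XT.nd (nat_lit 55536) (nat_lit 0) (nat_lit 9728) (XT.nd (nat_lit 234) (nat_lit 0) (nat_lit 0) (XT.nd (nat_lit 78) (nat_lit 76) (nat_lit 0) (XT.lf (nat_lit 0) (nat_lit 555891169607) (nat_lit 152) (nat_lit 9393151289) (nat_lit 0) (nat_lit 538349109719) (nat_lit 5) (nat_lit 5) (nat_lit 7) (nat_lit 4) (nat_lit 5) (nat_lit 4) (nat_lit 499) (nat_lit 406)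 (nat_lit 295)) (XT.nd (nat_lit 78) (nat_lit 0) (nat_lit 0) (XT.lf (nat_lit 0) (nat_lit 188740289318) (nat_lit 76) (nat_lit 507920377205) (nat_lit 76) (nat_lit 490378063923) (nat_lit 4) (nat_lit 4) (nat_lit 5) (nat_lit 5) (nat_lit 5) (nat_lit 4) (nat_lit 500) (nat_lit 406) (nat_lit 294)) (XT.lf (nat_lit 0) (nat_lit 403054292474) (nat_lit 76) (nat_lit 445798332311) (nat_lit 76) (nat_lit 428255784407) (nat_lit 4) (nat_lit 4) (nat_lit 5) (nat_lit 5) (nat_lit 5) (nat_lit 4) (nat_lit 501) (nat_lit 406) (nat_lit 293)))) (XT.nd (nat_lit 55146) (nat_lit 0) (nat_lit 12464) (XT.nd (nat_lit 55068) (nat_lit 0) (nat_lit 13072) (XT.lf (nat_lit 0) (nat_lit 634508287081) (nat_lit 76) (nat_lit 378709133143) (nat_lit 76) (nat_lit 361166367994) (nat_lit 4) (nat_lit 4) (nat_lit 5) (nat_lit 5) (nat_lit 5) (nat_lit 4) (nat_lit 502) (nat_lit 406) (nat_lit 292)) (XT.lf (nat_lit 0) (nat_lit 1880912598) (nat_lit 0) (nat_lit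 1880912598) (nat_lit 532) (nat_lit 163048615) (nat_lit 176) (nat_lit 5) (nat_lit 176) (nat_lit 3) (nat_lit 183) (nat_lit 3) (nat_lit 407) (nat_lit 407) (nat_lit 386))) (XT.nd (nat_lit 78) (nat_lit 0) (nat_lit 0) (XT.lf (nat_lit 0) (nat_lit 1699634111) (nat_lit 608) (nat_lit 5867617265) (nat_lit 684) (nat_lit 494999231) (nat_lit 168) (nat_lit 5) (nat_lit 176) (nat_lit 5) (nat_lit 177) (nat_lit 5) (nat_lit 408) (nat_lit 407) (nat_lit 385)) (XT.lf (nat_lit 76) (nat_lit 669659359) (nat_lit 0) (nat_lit 3153868607) (nat_lit 684) (nat_lit 4470617707) (nat_lit 169) (nat_lit 5) (nat_lit 168) (nat_lit 5) (nat_lit 177) (nat_lit 5) (nat_lit 409) (nat_lit 407) (nat_lit 384))))) (XT.nd (nat_lit 312) (nat_lit 2204) (nat_lit 0) (XT.nd (nat_lit 156) (nat_lit 608) (nat_lit 0) (XT.nd (nat_lit 78) (nat_lit 0) (nat_lit 0) (XT.lf (nat_lit 0) (nat_lit 6061582606) (nat_lit 608) (nat_lit 751409857) (nat_lit 684) (nat_lit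 1734420363) (nat_lit 169) (nat_lit 5) (nat_lit 177) (nat_lit 5) (nat_lit 178) (nat_lit 5) (nat_lit 410) (nat_lit 407) (nat_lit 383)) (XT.lf (nat_lit 76) (nat_lit 6718052064) (nat_lit 0) (nat_lit 1747573662) (nat_lit 684) (nat_lit 355998924) (nat_lit 170) (nat_lit 5) (nat_lit 169) (nat_lit 5) (nat_lit 178) (nat_lit 5) (nat_lit 411) (nat_lit 407) (nat_lit 382))) (XT.nd (nat_lit 78) (nat_lit 0) (nat_lit 76) (XT.lf (nat_lit 0) (nat_lit 1883011083) (nat_lit 684) (nat_lit 3448355896) (nat_lit 760) (nat_lit 3784864640) (nat_lit 161) (nat_lit 5) (nat_lit 170) (nat_lit 5) (nat_lit 171) (nat_lit 5) (nat_lit 412) (nat_lit 407) (nat_lit 381)) (XT.lf (nat_lit 0) (nat_lit 4283660204) (nat_lit 684) (nat_lit 4742373348) (nat_lit 76) (nat_lit 408357158) (nat_lit 162) (nat_lit 5) (nat_lit 171) (nat_lit 5) (nat_lit 163) (nat_lit 5) (nat_lit 413) (nat_lit 407) (nat_lit 380)))) (XT.nd (nat_lit 156) (nat_lit 836)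 (nat_lit 0) (XT.nd (nat_lit 78) (nat_lit 760) (nat_lit 0) (XT.lf (nat_lit 0) (nat_lit 3739165386) (nat_lit 684) (nat_lit 3204603734) (nat_lit 760) (nat_lit 2830886080) (nat_lit 153) (nat_lit 5) (nat_lit 162) (nat_lit 5) (nat_lit 163) (nat_lit 5) (nat_lit 414) (nat_lit 407) (nat_lit 379)) (XT.lf (nat_lit 0) (nat_lit 2849211743) (nat_lit 760) (nat_lit 7011095980) (nat_lit 836) (nat_lit 279673431) (nat_lit 143) (nat_lit 5) (nat_lit 153) (nat_lit 5) (nat_lit 154) (nat_lit 5) (nat_lit 415) (nat_lit 407) (nat_lit 378))) (XT.nd (nat_lit 78) (nat_lit 380) (nat_lit 0) (XT.lf (nat_lit 0) (nat_lit 1977897777) (nat_lit 380) (nat_lit 483265993) (nat_lit 456) (nat_lit 8068217496) (nat_lit 137) (nat_lit 5) (nat_lit 142) (nat_lit 5) (nat_lit 143) (nat_lit 5) (nat_lit 416) (nat_lit 407) (nat_lit 377)) (XT.lf (nat_lit 0) (nat_lit 1108306941) (nat_lit 380) (nat_lit 4432826060) (nat_lit 456) (nat_lit 5402105409)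 (nat_lit 132) (nat_lit 5) (nat_lit 137) (nat_lit 5) (nat_lit 138) (nat_lit 5) (nat_lit 417) (nat_lit 407) (nat_lit 376))))))) (XT.nd (nat_lit 1170) (nat_lit 2356) (nat_lit 0) (XT.nd (nat_lit 546) (nat_lit 1824) (nat_lit 0) (XT.nd (nat_lit 234) (nat_lit 1216) (nat_lit 0) (XT.nd (nat_lit 78) (nat_lit 380) (nat_lit 0) (XT.lf (nat_lit 0) (nat_lit 298203946) (nat_lit 380) (nat_lit 8662408238) (nat_lit 456) (nat_lit 2424952466) (nat_lit 127) (nat_lit 5) (nat_lit 132) (nat_lit 5) (nat_lit 133) (nat_lit 5) (nat_lit 418) (nat_lit 407) (nat_lit 375)) (XT.nd (nat_lit 78) (nat_lit 304) (nat_lit 0) (XT.lf (nat_lit 0) (nat_lit 906244302) (nat_lit 456) (nat_lit 472541250) (nat_lit 76) (nat_lit 10476830255) (nat_lit 126) (nat_lit 5) (nat_lit 132) (nat_lit 5) (nat_lit 127) (nat_lit 5) (nat_lit 419) (nat_lit 407) (nat_lit 374)) (XT.lf (nat_lit 0) (nat_lit 4599832115) (nat_lit 380) (nat_lit 1265330348) (nat_lit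 76) (nat_lit 6487091418) (nat_lit 122) (nat_lit 5) (nat_lit 127) (nat_lit 5) (nat_lit 123) (nat_lit 5) (nat_lit 420) (nat_lit 407) (nat_lit 373)))) (XT.nd (nat_lit 156) (nat_lit 608) (nat_lit 0) (XT.nd (nat_lit 78) (nat_lit 304) (nat_lit 0) (XT.lf (nat_lit 0) (nat_lit 8731316267) (nat_lit 380) (nat_lit 2003911653) (nat_lit 76) (nat_lit 2146286821) (nat_lit 118) (nat_lit 5) (nat_lit 123) (nat_lit 5) (nat_lit 119) (nat_lit 5) (nat_lit 421) (nat_lit 407) (nat_lit 372)) (XT.lf (nat_lit 0) (nat_lit 10717814588) (nat_lit 304) (nat_lit 2674947397) (nat_lit 380) (nat_lit 50393645) (nat_lit 114) (nat_lit 5) (nat_lit 118) (nat_lit 5) (nat_lit 119) (nat_lit 5) (nat_lit 422) (nat_lit 407) (nat_lit 371))) (XT.nd (nat_lit 78) (nat_lit 228) (nat_lit 0) (XT.lf (nat_lit 0) (nat_lit 4451516554) (nat_lit 380) (nat_lit 3495247242) (nat_lit 76) (nat_lit 6088845540) (nat_lit 109) (nat_lit 5) (nat_lit 114) (nat_lit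 5) (nat_lit 110) (nat_lit 5) (nat_lit 423) (nat_lit 407) (nat_lit 370)) (XT.lf (nat_lit 0) (nat_lit 9502773139) (nat_lit 304) (nat_lit 4210092672) (nat_lit 76) (nat_lit 953013494) (nat_lit 106) (nat_lit 5) (nat_lit 110) (nat_lit 5) (nat_lit 107) (nat_lit 5) (nat_lit 424) (nat_lit 407) (nat_lit 369))))) (XT.nd (nat_lit 312) (nat_lit 836) (nat_lit 0) (XT.nd (nat_lit 156) (nat_lit 456) (nat_lit 0) (XT.nd (nat_lit 78) (nat_lit 304) (nat_lit 0) (XT.lf (nat_lit 0) (nat_lit 10395095959) (nat_lit 228) (nat_lit 4843916587) (nat_lit 304) (nat_lit 93522755) (nat_lit 103) (nat_lit 5) (nat_lit 106) (nat_lit 5) (nat_lit 107) (nat_lit 5) (nat_lit 425) (nat_lit 407) (nat_lit 368)) (XT.lf (nat_lit 0) (nat_lit 5450847758) (nat_lit 304) (nat_lit 5705276451) (nat_lit 76) (nat_lit 4880132682) (nat_lit 99) (nat_lit 5) (nat_lit 103) (nat_lit 5) (nat_lit 100) (nat_lit 5) (nat_lit 426) (nat_lit 407) (nat_lit 367)))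 (XT.nd (nat_lit 78) (nat_lit 228) (nat_lit 0) (XT.lf (nat_lit 0) (nat_lit 10348618054) (nat_lit 228) (nat_lit 1346694549) (nat_lit 304) (nat_lit 5087902862) (nat_lit 96) (nat_lit 5) (nat_lit 99) (nat_lit 5) (nat_lit 100) (nat_lit 5) (nat_lit 427) (nat_lit 407) (nat_lit 366)) (XT.lf (nat_lit 0) (nat_lit 1167732689) (nat_lit 228) (nat_lit 7201163430) (nat_lit 76) (nat_lit 9203101928) (nat_lit 93) (nat_lit 5) (nat_lit 96) (nat_lit 5) (nat_lit 94) (nat_lit 5) (nat_lit 428) (nat_lit 407) (nat_lit 365)))) (XT.nd (nat_lit 156) (nat_lit 456) (nat_lit 0) (XT.nd (nat_lit 78) (nat_lit 152) (nat_lit 0) (XT.lf (nat_lit 0) (nat_lit 8021251549) (nat_lit 304) (nat_lit 7989232141) (nat_lit 76) (nat_lit 2395450440) (nat_lit 90) (nat_lit 5) (nat_lit 94) (nat_lit 5) (nat_lit 91) (nat_lit 5) (nat_lit 429) (nat_lit 407) (nat_lit 364)) (XT.lf (nat_lit 0) (nat_lit 10496043847) (nat_lit 152) (nat_lit 5297093341) (nat_lit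 228) (nat_lit 3494948922) (nat_lit 88) (nat_lit 5) (nat_lit 90) (nat_lit 5) (nat_lit 91) (nat_lit 5) (nat_lit 430) (nat_lit 407) (nat_lit 363))) (XT.nd (nat_lit 78) (nat_lit 152) (nat_lit 0) (XT.lf (nat_lit 0) (nat_lit 4171344447) (nat_lit 304) (nat_lit 9634110538) (nat_lit 76) (nat_lit 6414695714) (nat_lit 84) (nat_lit 5) (nat_lit 88) (nat_lit 5) (nat_lit 85) (nat_lit 5) (nat_lit 431) (nat_lit 407) (nat_lit 362)) (XT.lf (nat_lit 0) (nat_lit 10707654440) (nat_lit 152) (nat_lit 1976932121) (nat_lit 228) (nat_lit 8521528925) (nat_lit 82) (nat_lit 5) (nat_lit 84) (nat_lit 5) (nat_lit 85) (nat_lit 5) (nat_lit 432) (nat_lit 407) (nat_lit 361)))))) (XT.nd (nat_lit 546) (nat_lit 1140) (nat_lit 0) (XT.nd (nat_lit 234) (nat_lit 684) (nat_lit 0) (XT.nd (nat_lit 78) (nat_lit 304) (nat_lit 0) (XT.lf (nat_lit 0) (nat_lit 80971252) (nat_lit 228) (nat_lit 11407350259) (nat_lit 76) (nat_lit 10759921208) (nat_lit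 79) (nat_lit 5) (nat_lit 82) (nat_lit 5) (nat_lit 80) (nat_lit 5) (nat_lit 433) (nat_lit 407) (nat_lit 360)) (XT.nd (nat_lit 78) (nat_lit 152) (nat_lit 0) (XT.lf (nat_lit 0) (nat_lit 9438682987) (nat_lit 228) (nat_lit 12394487139) (nat_lit 76) (nat_lit 1515310441) (nat_lit 77) (nat_lit 5) (nat_lit 80) (nat_lit 5) (nat_lit 78) (nat_lit 5) (nat_lit 434) (nat_lit 407) (nat_lit 359)) (XT.lf (nat_lit 0) (nat_lit 11054069284) (nat_lit 152) (nat_lit 9007793858) (nat_lit 228) (nat_lit 4449034982) (nat_lit 75) (nat_lit 5) (nat_lit 77) (nat_lit 5) (nat_lit 78) (nat_lit 5) (nat_lit 435) (nat_lit 407) (nat_lit 358)))) (XT.nd (nat_lit 156) (nat_lit 304) (nat_lit 0) (XT.nd (nat_lit 78) (nat_lit 152) (nat_lit 0) (XT.lf (nat_lit 0) (nat_lit 6012291528) (nat_lit 228) (nat_lit 14580999853) (nat_lit 76) (nat_lit 5147100697) (nat_lit 72) (nat_lit 5) (nat_lit 75) (nat_lit 5) (nat_lit 73) (nat_lit 5) (nat_lit 436)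 (nat_lit 407) (nat_lit 357)) (XT.lf (nat_lit 0) (nat_lit 11213563635) (nat_lit 152) (nat_lit 6460540029) (nat_lit 228) (nat_lit 9364525192) (nat_lit 70) (nat_lit 5) (nat_lit 72) (nat_lit 5) (nat_lit 73) (nat_lit 5) (nat_lit 437) (nat_lit 407) (nat_lit 356))) (XT.nd (nat_lit 78) (nat_lit 152) (nat_lit 0) (XT.lf (nat_lit 0) (nat_lit 2304220505) (nat_lit 152) (nat_lit 17148711162) (nat_lit 76) (nat_lit 8959638333) (nat_lit 68) (nat_lit 5) (nat_lit 70) (nat_lit 5) (nat_lit 69) (nat_lit 5) (nat_lit 438) (nat_lit 407) (nat_lit 355)) (XT.lf (nat_lit 0) (nat_lit 11210240677) (nat_lit 152) (nat_lit 3892052219) (nat_lit 228) (nat_lit 14760264150) (nat_lit 66) (nat_lit 5) (nat_lit 68) (nat_lit 5) (nat_lit 69) (nat_lit 5) (nat_lit 439) (nat_lit 407) (nat_lit 354))))) (XT.nd (nat_lit 312) (nat_lit 532) (nat_lit 0) (XT.nd (nat_lit 156) (nat_lit 304) (nat_lit 0) (XT.nd (nat_lit 78) (nat_lit 228) (nat_lit 0)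 (XT.lf (nat_lit 0) (nat_lit 11107980693) (nat_lit 76) (nat_lit 18451871378) (nat_lit 152) (nat_lit 1836910946) (nat_lit 65) (nat_lit 5) (nat_lit 66) (nat_lit 5) (nat_lit 67) (nat_lit 4) (nat_lit 440) (nat_lit 407) (nat_lit 353)) (XT.lf (nat_lit 0) (nat_lit 10890377246) (nat_lit 152) (nat_lit 1366232984) (nat_lit 228) (nat_lit 20761424139) (nat_lit 62) (nat_lit 5) (nat_lit 64) (nat_lit 5) (nat_lit 65) (nat_lit 5) (nat_lit 441) (nat_lit 407) (nat_lit 352))) (XT.nd (nat_lit 78) (nat_lit 228) (nat_lit 0) (XT.lf (nat_lit 0) (nat_lit 10495536188) (nat_lit 76) (nat_lit 17668197730) (nat_lit 152) (nat_lit 6566245628) (nat_lit 61) (nat_lit 5) (nat_lit 62) (nat_lit 5) (nat_lit 63) (nat_lit 4) (nat_lit 442) (nat_lit 407) (nat_lit 351)) (XT.lf (nat_lit 0) (nat_lit 9032659776) (nat_lit 228) (nat_lit 26519023445) (nat_lit 76) (nat_lit 992924960) (nat_lit 58) (nat_lit 5) (nat_lit 61) (nat_lit 5) (nat_lit 59)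 (nat_lit 4) (nat_lit 443) (nat_lit 407) (nat_lit 350)))) (XT.nd (nat_lit 156) (nat_lit 228) (nat_lit 0) (XT.nd (nat_lit 78) (nat_lit 228) (nat_lit 0) (XT.lf (nat_lit 0) (nat_lit 9217778869) (nat_lit 76) (nat_lit 17267967443) (nat_lit 152) (nat_lit 11971464072) (nat_lit 57) (nat_lit 5) (nat_lit 58) (nat_lit 5) (nat_lit 59) (nat_lit 4) (nat_lit 444) (nat_lit 407) (nat_lit 349)) (XT.lf (nat_lit 0) (nat_lit 5271317934) (nat_lit 228) (nat_lit 32162286981) (nat_lit 76) (nat_lit 3054806322) (nat_lit 54) (nat_lit 5) (nat_lit 57) (nat_lit 5) (nat_lit 55) (nat_lit 4) (nat_lit 445) (nat_lit 407) (nat_lit 348))) (XT.nd (nat_lit 78) (nat_lit 152) (nat_lit 0) (XT.lf (nat_lit 0) (nat_lit 6938446533) (nat_lit 76) (nat_lit 17423138498) (nat_lit 152) (nat_lit 18266337331) (nat_lit 53) (nat_lit 5) (nat_lit 54) (nat_lit 5) (nat_lit 55) (nat_lit 4) (nat_lit 446) (nat_lit 407) (nat_lit 347)) (XT.lf (nat_lit 0) (nat_lit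 736017766) (nat_lit 152) (nat_lit 39476473135) (nat_lit 76) (nat_lit 4691231129) (nat_lit 51) (nat_lit 5) (nat_lit 53) (nat_lit 5) (nat_lit 52) (nat_lit 4) (nat_lit 447) (nat_lit 407) (nat_lit 346))))))))
noncomputable def xc58 : XT := (XT.nd (nat_lit 2262) (nat_lit 988) (nat_lit 0) (XT.nd (nat_lit 1092) (nat_lit 1216) (nat_lit 0) (XT.nd (nat_lit 546) (nat_lit 684) (nat_lit 0) (XT.nd (nat_lit 234) (nat_lit 456) (nat_lit 0) (XT.nd (nat_lit 78) (nat_lit 152) (nat_lit 0) (XT.lf (nat_lit 0) (nat_lit 3204604322) (nat_lit 76) (nat_lit 18365118476) (nat_lit 152) (nat_lit 25729335108) (nat_lit 50) (nat_lit 5) (nat_lit 51) (nat_lit 5) (nat_lit 52) (nat_lit 4) (nat_lit 448) (nat_lit 407) (nat_lit 345)) (XT.nd (nat_lit 78) (nat_lit 76) (nat_lit 0) (XT.lf (nat_lit 0) (nat_lit 726926030) (nat_lit 76) (nat_lit 44103060632) (nat_lit 76) (nat_lit 5018041699) (nat_lit 49) (nat_lit 4) (nat_lit 50) (nat_lit 5)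 (nat_lit 50) (nat_lit 4) (nat_lit 449) (nat_lit 407) (nat_lit 344)) (XT.lf (nat_lit 0) (nat_lit 17854082200) (nat_lit 152) (nat_lit 2507027373) (nat_lit 76) (nat_lit 32173301362) (nat_lit 48) (nat_lit 5) (nat_lit 50) (nat_lit 5) (nat_lit 49) (nat_lit 4) (nat_lit 450) (nat_lit 407) (nat_lit 343)))) (XT.nd (nat_lit 156) (nat_lit 228) (nat_lit 0) (XT.nd (nat_lit 78) (nat_lit 152) (nat_lit 0) (XT.lf (nat_lit 0) (nat_lit 43219016296) (nat_lit 152) (nat_lit 6217405454) (nat_lit 0) (nat_lit 5953227490) (nat_lit 47) (nat_lit 5) (nat_lit 49) (nat_lit 4) (nat_lit 47) (nat_lit 4) (nat_lit 451) (nat_lit 407) (nat_lit 342)) (XT.lf (nat_lit 0) (nat_lit 12874467212) (nat_lit 152) (nat_lit 10891810351) (nat_lit 76) (nat_lit 34641393831) (nat_lit 45) (nat_lit 5) (nat_lit 47) (nat_lit 5) (nat_lit 46) (nat_lit 4) (nat_lit 452) (nat_lit 407) (nat_lit 341))) (XT.nd (nat_lit 78) (nat_lit 152) (nat_lit 0) (XT.lf (nat_lit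 0) (nat_lit 40370852787) (nat_lit 152) (nat_lit 16397239862) (nat_lit 0) (nat_lit 4845363439) (nat_lit 44) (nat_lit 5) (nat_lit 46) (nat_lit 4) (nat_lit 44) (nat_lit 4) (nat_lit 453) (nat_lit 407) (nat_lit 340)) (XT.lf (nat_lit 0) (nat_lit 6075020891) (nat_lit 152) (nat_lit 23086948440) (nat_lit 76) (nat_lit 35847662032) (nat_lit 42) (nat_lit 5) (nat_lit 44) (nat_lit 5) (nat_lit 43) (nat_lit 4) (nat_lit 454) (nat_lit 407) (nat_lit 339))))) (XT.nd (nat_lit 234) (nat_lit 380) (nat_lit 0) (XT.nd (nat_lit 78) (nat_lit 228) (nat_lit 0) (XT.lf (nat_lit 0) (nat_lit 35726050119) (nat_lit 152) (nat_lit 31025151964) (nat_lit 0) (nat_lit 1864275436) (nat_lit 41) (nat_lit 5) (nat_lit 43) (nat_lit 4) (nat_lit 41) (nat_lit 4) (nat_lit 455) (nat_lit 407) (nat_lit 338)) (XT.nd (nat_lit 78) (nat_lit 152) (nat_lit 0) (XT.lf (nat_lit 0) (nat_lit 31931649948) (nat_lit 76) (nat_lit 37191827073) (nat_lit 76) (nat_lit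 3317598997) (nat_lit 40) (nat_lit 4) (nat_lit 41) (nat_lit 5) (nat_lit 41) (nat_lit 4) (nat_lit 456) (nat_lit 407) (nat_lit 337)) (XT.lf (nat_lit 0) (nat_lit 24777269774) (nat_lit 76) (nat_lit 3838841821) (nat_lit 152) (nat_lit 47888661573) (nat_lit 38) (nat_lit 5) (nat_lit 39) (nat_lit 5) (nat_lit 40) (nat_lit 4) (nat_lit 457) (nat_lit 407) (nat_lit 336)))) (XT.nd (nat_lit 156) (nat_lit 152) (nat_lit 0) (XT.nd (nat_lit 78) (nat_lit 152) (nat_lit 0) (XT.lf (nat_lit 0) (nat_lit 15763771077) (nat_lit 76) (nat_lit 48668595887) (nat_lit 76) (nat_lit 16386276102) (nat_lit 37) (nat_lit 4) (nat_lit 38) (nat_lit 5) (nat_lit 38) (nat_lit 4) (nat_lit 458) (nat_lit 407) (nat_lit 335)) (XT.lf (nat_lit 0) (nat_lit 4823740301) (nat_lit 76) (nat_lit 13281369568) (nat_lit 152) (nat_lit 67307081312) (nat_lit 35) (nat_lit 5) (nat_lit 36) (nat_lit 5) (nat_lit 37) (nat_lit 4) (nat_lit 459) (nat_lit 407) (nat_lit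 334))) (XT.nd (nat_lit 78) (nat_lit 152) (nat_lit 0) (XT.lf (nat_lit 0) (nat_lit 56308593745) (nat_lit 152) (nat_lit 8428596315) (nat_lit 0) (nat_lit 25546257875) (nat_lit 35) (nat_lit 5) (nat_lit 37) (nat_lit 4) (nat_lit 35) (nat_lit 4) (nat_lit 460) (nat_lit 407) (nat_lit 333)) (XT.lf (nat_lit 0) (nat_lit 3301242514) (nat_lit 152) (nat_lit 24002476306) (nat_lit 76) (nat_lit 68172003151) (nat_lit 33) (nat_lit 5) (nat_lit 35) (nat_lit 5) (nat_lit 34) (nat_lit 4) (nat_lit 461) (nat_lit 407) (nat_lit 332)))))) (XT.nd (nat_lit 546) (nat_lit 608) (nat_lit 0) (XT.nd (nat_lit 234) (nat_lit 304) (nat_lit 0) (XT.nd (nat_lit 78) (nat_lit 228) (nat_lit 0) (XT.lf (nat_lit 0) (nat_lit 43655209514) (nat_lit 152) (nat_lit 42992369522) (nat_lit 0) (nat_lit 14343646083) (nat_lit 32) (nat_lit 5) (nat_lit 34) (nat_lit 4) (nat_lit 32) (nat_lit 4) (nat_lit 462) (nat_lit 407) (nat_lit 331)) (XT.nd (nat_lit 78) (nat_lit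 152) (nat_lit 0) (XT.lf (nat_lit 0) (nat_lit 41307019829) (nat_lit 76) (nat_lit 47441616124) (nat_lit 76) (nat_lit 18123775673) (nat_lit 31) (nat_lit 4) (nat_lit 32) (nat_lit 5) (nat_lit 32) (nat_lit 4) (nat_lit 463) (nat_lit 407) (nat_lit 330)) (XT.lf (nat_lit 0) (nat_lit 20941588031) (nat_lit 76) (nat_lit 3578041499) (nat_lit 152) (nat_lit 88632074776) (nat_lit 29) (nat_lit 5) (nat_lit 30) (nat_lit 5) (nat_lit 31) (nat_lit 4) (nat_lit 464) (nat_lit 407) (nat_lit 329)))) (XT.nd (nat_lit 156) (nat_lit 228) (nat_lit 0) (XT.nd (nat_lit 78) (nat_lit 76) (nat_lit 0) (XT.lf (nat_lit 0) (nat_lit 71774576972) (nat_lit 152) (nat_lit 4209992516) (nat_lit 0) (nat_lit 43842163600) (nat_lit 29) (nat_lit 5) (nat_lit 31) (nat_lit 4) (nat_lit 29) (nat_lit 4) (nat_lit 465) (nat_lit 407) (nat_lit 328)) (XT.lf (nat_lit 0) (nat_lit 93736515567) (nat_lit 76) (nat_lit 30580525847) (nat_lit 76) (nat_lit 2643366856)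 (nat_lit 28) (nat_lit 4) (nat_lit 29) (nat_lit 5) (nat_lit 29) (nat_lit 4) (nat_lit 466) (nat_lit 407) (nat_lit 327))) (XT.nd (nat_lit 78) (nat_lit 76) (nat_lit 0) (XT.lf (nat_lit 0) (nat_lit 46325674495) (nat_lit 152) (nat_lit 68517582380) (nat_lit 0) (nat_lit 19714671557) (nat_lit 26) (nat_lit 5) (nat_lit 28) (nat_lit 4) (nat_lit 26) (nat_lit 4) (nat_lit 467) (nat_lit 407) (nat_lit 326)) (XT.lf (nat_lit 0) (nat_lit 32124663567) (nat_lit 76) (nat_lit 68585876156) (nat_lit 76) (nat_lit 41970998357) (nat_lit 25) (nat_lit 4) (nat_lit 26) (nat_lit 5) (nat_lit 26) (nat_lit 4) (nat_lit 468) (nat_lit 407) (nat_lit 325))))) (XT.nd (nat_lit 312) (nat_lit 304) (nat_lit 0) (XT.nd (nat_lit 156) (nat_lit 152) (nat_lit 0) (XT.nd (nat_lit 78) (nat_lit 76) (nat_lit 0) (XT.lf (nat_lit 0) (nat_lit 8933183447) (nat_lit 152) (nat_lit 8305439566) (nat_lit 76) (nat_lit 134150285745) (nat_lit 24) (nat_lit 5) (nat_lit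 26) (nat_lit 5) (nat_lit 25) (nat_lit 4) (nat_lit 469) (nat_lit 407) (nat_lit 324)) (XT.lf (nat_lit 0) (nat_lit 64714900197) (nat_lit 152) (nat_lit 56568966885) (nat_lit 0) (nat_lit 39360816671) (nat_lit 23) (nat_lit 5) (nat_lit 25) (nat_lit 4) (nat_lit 23) (nat_lit 4) (nat_lit 470) (nat_lit 407) (nat_lit 323))) (XT.nd (nat_lit 78) (nat_lit 76) (nat_lit 0) (XT.lf (nat_lit 0) (nat_lit 56601081022) (nat_lit 76) (nat_lit 69665734891) (nat_lit 76) (nat_lit 44308721850) (nat_lit 22) (nat_lit 4) (nat_lit 23) (nat_lit 5) (nat_lit 23) (nat_lit 4) (nat_lit 471) (nat_lit 407) (nat_lit 322)) (XT.lf (nat_lit 0) (nat_lit 12063985367) (nat_lit 152) (nat_lit 628555549) (nat_lit 76) (nat_lit 168549978320) (nat_lit 21) (nat_lit 5) (nat_lit 23) (nat_lit 5) (nat_lit 22) (nat_lit 4) (nat_lit 472) (nat_lit 407) (nat_lit 321)))) (XT.nd (nat_lit 156) (nat_lit 152) (nat_lit 0) (XT.nd (nat_lit 78) (nat_lit 76) (nat_lit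 0) (XT.lf (nat_lit 0) (nat_lit 74160895304) (nat_lit 152) (nat_lit 68420924240) (nat_lit 0) (nat_lit 50006383742) (nat_lit 20) (nat_lit 5) (nat_lit 22) (nat_lit 4) (nat_lit 20) (nat_lit 4) (nat_lit 473) (nat_lit 407) (nat_lit 320)) (XT.lf (nat_lit 0) (nat_lit 55671587580) (nat_lit 76) (nat_lit 86636282655) (nat_lit 76) (nat_lit 62479556291) (nat_lit 19) (nat_lit 4) (nat_lit 20) (nat_lit 5) (nat_lit 20) (nat_lit 4) (nat_lit 474) (nat_lit 407) (nat_lit 319))) (XT.nd (nat_lit 78) (nat_lit 152) (nat_lit 0) (XT.lf (nat_lit 0) (nat_lit 192111561507) (nat_lit 76) (nat_lit 24975392866) (nat_lit 76) (nat_lit 816615759) (nat_lit 19) (nat_lit 4) (nat_lit 20) (nat_lit 5) (nat_lit 20) (nat_lit 4) (nat_lit 475) (nat_lit 407) (nat_lit 318)) (XT.lf (nat_lit 0) (nat_lit 66073056574) (nat_lit 152) (nat_lit 122761757351) (nat_lit 0) (nat_lit 43062889009) (nat_lit 17) (nat_lit 5) (nat_lit 19) (nat_lit 4) (nat_lit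 17) (nat_lit 4) (nat_lit 476) (nat_lit 407) (nat_lit 317))))))) (XT.nd (nat_lit 1170) (nat_lit 304) (nat_lit 0) (XT.nd (nat_lit 546) (nat_lit 228) (nat_lit 0) (XT.nd (nat_lit 234) (nat_lit 228) (nat_lit 0) (XT.nd (nat_lit 78) (nat_lit 152) (nat_lit 0) (XT.lf (nat_lit 0) (nat_lit 8602044338) (nat_lit 76) (nat_lit 130685198612) (nat_lit 76) (nat_lit 107673356588) (nat_lit 16) (nat_lit 4) (nat_lit 17) (nat_lit 5) (nat_lit 17) (nat_lit 4) (nat_lit 477) (nat_lit 407) (nat_lit 316)) (XT.nd (nat_lit 78) (nat_lit 152) (nat_lit 0) (XT.lf (nat_lit 0) (nat_lit 154838389908) (nat_lit 76) (nat_lit 65648555695) (nat_lit 76) (nat_lit 42635163247) (nat_lit 16) (nat_lit 4) (nat_lit 17) (nat_lit 5) (nat_lit 17) (nat_lit 4) (nat_lit 478) (nat_lit 407) (nat_lit 315)) (XT.lf (nat_lit 0) (nat_lit 27312095802) (nat_lit 152) (nat_lit 247820201899) (nat_lit 0) (nat_lit 5393211967) (nat_lit 14) (nat_lit 5) (nat_lit 16)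 (nat_lit 4) (nat_lit 14) (nat_lit 4) (nat_lit 479) (nat_lit 407) (nat_lit 314)))) (XT.nd (nat_lit 156) (nat_lit 152) (nat_lit 0) (XT.nd (nat_lit 78) (nat_lit 76) (nat_lit 0) (XT.lf (nat_lit 0) (nat_lit 104396298055) (nat_lit 152) (nat_lit 112262044859) (nat_lit 0) (nat_lit 82476148277) (nat_lit 14) (nat_lit 5) (nat_lit 16) (nat_lit 4) (nat_lit 14) (nat_lit 4) (nat_lit 480) (nat_lit 407) (nat_lit 313)) (XT.lf (nat_lit 0) (nat_lit 35251797910) (nat_lit 76) (nat_lit 152937310850) (nat_lit 76) (nat_lit 131015988903) (nat_lit 13) (nat_lit 4) (nat_lit 14) (nat_lit 5) (nat_lit 14) (nat_lit 4) (nat_lit 481) (nat_lit 407) (nat_lit 312))) (XT.nd (nat_lit 78) (nat_lit 152) (nat_lit 0) (XT.lf (nat_lit 0) (nat_lit 198559094418) (nat_lit 76) (nat_lit 82073647831) (nat_lit 76) (nat_lit 60151240543) (nat_lit 13) (nat_lit 4) (nat_lit 14) (nat_lit 5) (nat_lit 14) (nat_lit 4) (nat_lit 482) (nat_lit 407) (nat_lit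 311)) (XT.lf (nat_lit 0) (nat_lit 10919997991) (nat_lit 76) (nat_lit 5101177728) (nat_lit 152) (nat_lit 348047072244) (nat_lit 11) (nat_lit 5) (nat_lit 12) (nat_lit 5) (nat_lit 13) (nat_lit 4) (nat_lit 483) (nat_lit 407) (nat_lit 310))))) (XT.nd (nat_lit 312) (nat_lit 152) (nat_lit 0) (XT.nd (nat_lit 156) (nat_lit 76) (nat_lit 0) (XT.nd (nat_lit 78) (nat_lit 0) (nat_lit 0) (XT.lf (nat_lit 0) (nat_lit 99937047654) (nat_lit 152) (nat_lit 209984327749) (nat_lit 0) (nat_lit 79056721236) (nat_lit 11) (nat_lit 5) (nat_lit 13) (nat_lit 4) (nat_lit 11) (nat_lit 4) (nat_lit 484) (nat_lit 407) (nat_lit 309)) (XT.lf (nat_lit 0) (nat_lit 190645317654) (nat_lit 152) (nat_lit 55467288483) (nat_lit 0) (nat_lit 169764170685) (nat_lit 11) (nat_lit 5) (nat_lit 13) (nat_lit 4) (nat_lit 11) (nat_lit 4) (nat_lit 485) (nat_lit 407) (nat_lit 308))) (XT.nd (nat_lit 78) (nat_lit 0) (nat_lit 0) (XT.lf (nat_lit 0) (nat_lit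 115081494558) (nat_lit 76) (nat_lit 175319122615) (nat_lit 76) (nat_lit 154437215875) (nat_lit 10) (nat_lit 4) (nat_lit 11) (nat_lit 5) (nat_lit 11) (nat_lit 4) (nat_lit 486) (nat_lit 407) (nat_lit 307)) (XT.lf (nat_lit 0) (nat_lit 301242515946) (nat_lit 76) (nat_lit 97853931374) (nat_lit 76) (nat_lit 76971321144) (nat_lit 10) (nat_lit 4) (nat_lit 11) (nat_lit 5) (nat_lit 11) (nat_lit 4) (nat_lit 487) (nat_lit 407) (nat_lit 306)))) (XT.nd (nat_lit 156) (nat_lit 0) (nat_lit 0) (XT.nd (nat_lit 78) (nat_lit 76) (nat_lit 0) (XT.lf (nat_lit 0) (nat_lit 6471925718) (nat_lit 152) (nat_lit 7615813886) (nat_lit 76) (nat_lit 495703422136) (nat_lit 9) (nat_lit 5) (nat_lit 11) (nat_lit 5) (nat_lit 10) (nat_lit 4) (nat_lit 488) (nat_lit 407) (nat_lit 305)) (XT.lf (nat_lit 0) (nat_lit 97952490238) (nat_lit 152) (nat_lit 369930821864) (nat_lit 0) (nat_lit 78063095248) (nat_lit 8) (nat_lit 5) (nat_lit 10) (nat_lit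 4) (nat_lit 8) (nat_lit 4) (nat_lit 489) (nat_lit 407) (nat_lit 304))) (XT.nd (nat_lit 78) (nat_lit 0) (nat_lit 0) (XT.lf (nat_lit 0) (nat_lit 197118719348) (nat_lit 152) (nat_lit 210628199809) (nat_lit 0) (nat_lit 177228792497) (nat_lit 8) (nat_lit 5) (nat_lit 10) (nat_lit 4) (nat_lit 8) (nat_lit 4) (nat_lit 490) (nat_lit 407) (nat_lit 303)) (XT.lf (nat_lit 0) (nat_lit 304213466272) (nat_lit 152) (nat_lit 38591086115) (nat_lit 0) (nat_lit 284323046957) (nat_lit 8) (nat_lit 5) (nat_lit 10) (nat_lit 4) (nat_lit 8) (nat_lit 4) (nat_lit 491) (nat_lit 407) (nat_lit 302)))))) (XT.nd (nat_lit 546) (nat_lit 76) (nat_lit 0) (XT.nd (nat_lit 234) (nat_lit 152) (nat_lit 0) (XT.nd (nat_lit 78) (nat_lit 0) (nat_lit 0) (XT.lf (nat_lit 0) (nat_lit 152067095131) (nat_lit 76) (nat_lit 270178464938) (nat_lit 76) (nat_lit 250287589639) (nat_lit 7) (nat_lit 4) (nat_lit 8) (nat_lit 5) (nat_lit 8) (nat_lit 4) (nat_lit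 492) (nat_lit 407) (nat_lit 301)) (XT.nd (nat_lit 78) (nat_lit 0) (nat_lit 0) (XT.lf (nat_lit 0) (nat_lit 359347398902) (nat_lit 76) (nat_lit 191040821388) (nat_lit 76) (nat_lit 171149523881) (nat_lit 7) (nat_lit 4) (nat_lit 8) (nat_lit 5) (nat_lit 8) (nat_lit 4) (nat_lit 493) (nat_lit 407) (nat_lit 300)) (XT.lf (nat_lit 0) (nat_lit 583202157336) (nat_lit 76) (nat_lit 105576216638) (nat_lit 76) (nat_lit 85684528197) (nat_lit 7) (nat_lit 4) (nat_lit 8) (nat_lit 5) (nat_lit 8) (nat_lit 4) (nat_lit 494) (nat_lit 407) (nat_lit 299)))) (XT.nd (nat_lit 156) (nat_lit 0) (nat_lit 0) (XT.nd (nat_lit 78) (nat_lit 76) (nat_lit 0) (XT.lf (nat_lit 0) (nat_lit 6402171926) (nat_lit 152) (nat_lit 6767597965) (nat_lit 76) (nat_lit 818447321341) (nat_lit 6) (nat_lit 5) (nat_lit 8) (nat_lit 5) (nat_lit 7) (nat_lit 4) (nat_lit 495) (nat_lit 407) (nat_lit 298)) (XT.lf (nat_lit 0) (nat_lit 107398404844) (nat_lit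 152) (nat_lit 697194473381) (nat_lit 0) (nat_lit 88453275722) (nat_lit 5) (nat_lit 5) (nat_lit 7) (nat_lit 4) (nat_lit 5) (nat_lit 4) (nat_lit 496) (nat_lit 407) (nat_lit 297))) (XT.nd (nat_lit 78) (nat_lit 0) (nat_lit 0) (XT.lf (nat_lit 0) (nat_lit 216812903750) (nat_lit 152) (nat_lit 544692230500) (nat_lit 0) (nat_lit 197867479071) (nat_lit 5) (nat_lit 5) (nat_lit 7) (nat_lit 4) (nat_lit 5) (nat_lit 4) (nat_lit 497) (nat_lit 407) (nat_lit 296)) (XT.lf (nat_lit 0) (nat_lit 334977489616) (nat_lit 152) (nat_lit 379996062212) (nat_lit 0) (nat_lit 316031791272) (nat_lit 5) (nat_lit 5) (nat_lit 7) (nat_lit 4) (nat_lit 5) (nat_lit 4) (nat_lit 498) (nat_lit 407) (nat_lit 295))))) (XT.nd (nat_lit 55380) (nat_lit 0) (nat_lit 11856) (XT.nd (nat_lit 156) (nat_lit 76) (nat_lit 0) (XT.nd (nat_lit 78) (nat_lit 0) (nat_lit 0) (XT.lf (nat_lit 0) (nat_lit 462592397025) (nat_lit 152) (nat_lit 202129991226) (nat_lit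 0) (nat_lit 443646445288) (nat_lit 5) (nat_lit 5) (nat_lit 7) (nat_lit 4) (nat_lit 5) (nat_lit 4) (nat_lit 499) (nat_lit 407) (nat_lit 294)) (XT.lf (nat_lit 0) (nat_lit 600413862464) (nat_lit 152) (nat_lit 10039996379) (nat_lit 0) (nat_lit 581467676104) (nat_lit 5) (nat_lit 5) (nat_lit 7) (nat_lit 4) (nat_lit 5) (nat_lit 4) (nat_lit 500) (nat_lit 407) (nat_lit 293))) (XT.nd (nat_lit 78) (nat_lit 0) (nat_lit 0) (XT.lf (nat_lit 0) (nat_lit 203939573384) (nat_lit 76) (nat_lit 548503100626) (nat_lit 76) (nat_lit 529556697022) (nat_lit 4) (nat_lit 4) (nat_lit 5) (nat_lit 5) (nat_lit 5) (nat_lit 4) (nat_lit 501) (nat_lit 407) (nat_lit 292)) (XT.lf (nat_lit 0) (nat_lit 435391284872) (nat_lit 76) (nat_lit 481415063012) (nat_lit 76) (nat_lit 462468458256) (nat_lit 4) (nat_lit 4) (nat_lit 5) (nat_lit 5) (nat_lit 5) (nat_lit 4) (nat_lit 502) (nat_lit 407) (nat_lit 291)))) (XT.nd (nat_lit 156) (nat_lit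 532) (nat_lit 0) (XT.nd (nat_lit 78) (nat_lit 0) (nat_lit 0) (XT.lf (nat_lit 0) (nat_lit 1767332714) (nat_lit 684) (nat_lit 1187215961) (nat_lit 684) (nat_lit 1187215961) (nat_lit 167) (nat_lit 3) (nat_lit 176) (nat_lit 3) (nat_lit 176) (nat_lit 5) (nat_lit 408) (nat_lit 408) (nat_lit 384)) (XT.lf (nat_lit 76) (nat_lit 4325843672) (nat_lit 0) (nat_lit 1120028705) (nat_lit 684) (nat_lit 3080202148) (nat_lit 168) (nat_lit 5) (nat_lit 167) (nat_lit 3) (nat_lit 176) (nat_lit 5) (nat_lit 409) (nat_lit 408) (nat_lit 383))) (XT.nd (nat_lit 78) (nat_lit 608) (nat_lit 0) (XT.lf (nat_lit 76) (nat_lit 2783892192) (nat_lit 0) (nat_lit 4704339534) (nat_lit 684) (nat_lit 1300909383) (nat_lit 169) (nat_lit 5) (nat_lit 168) (nat_lit 5) (nat_lit 177) (nat_lit 5) (nat_lit 410) (nat_lit 408) (nat_lit 382)) (XT.lf (nat_lit 0) (nat_lit 564534666) (nat_lit 684) (nat_lit 7770822258) (nat_lit 760) (nat_lit 739254681)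 (nat_lit 160) (nat_lit 5) (nat_lit 169) (nat_lit 5) (nat_lit 170) (nat_lit 5) (nat_lit 411) (nat_lit 408) (nat_lit 381))))))))
noncomputable def xc59 : XT := (XT.nd (nat_lit 2340) (nat_lit 3192) (nat_lit 0) (XT.nd (nat_lit 1170) (nat_lit 2812) (nat_lit 0) (XT.nd (nat_lit 546) (nat_lit 2280) (nat_lit 0) (XT.nd (nat_lit 234) (nat_lit 2128) (nat_lit 0) (XT.nd (nat_lit 78) (nat_lit 0) (nat_lit 76) (XT.lf (nat_lit 0) (nat_lit 2569130492) (nat_lit 684) (nat_lit 175797190) (nat_lit 760) (nat_lit 6635175959) (nat_lit 160) (nat_lit 5) (nat_lit 169) (nat_lit 5) (nat_lit 170) (nat_lit 5) (nat_lit 412) (nat_lit 408) (nat_lit 380)) (XT.nd (nat_lit 78) (nat_lit 0) (nat_lit 0) (XT.lf (nat_lit 0) (nat_lit 4776500614) (nat_lit 684) (nat_lit 1575021105) (nat_lit 760) (nat_lit 3356416051) (nat_lit 161) (nat_lit 5) (nat_lit 170) (nat_lit 5) (nat_lit 171) (nat_lit 5) (nat_lit 413) (nat_lit 408) (nat_lit 379)) (XT.lf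 (nat_lit 76) (nat_lit 7130649245) (nat_lit 0) (nat_lit 60361951) (nat_lit 760) (nat_lit 2869481247) (nat_lit 162) (nat_lit 5) (nat_lit 161) (nat_lit 5) (nat_lit 171) (nat_lit 5) (nat_lit 414) (nat_lit 408) (nat_lit 378)))) (XT.nd (nat_lit 156) (nat_lit 760) (nat_lit 0) (XT.nd (nat_lit 78) (nat_lit 836) (nat_lit 0) (XT.lf (nat_lit 0) (nat_lit 6135861924) (nat_lit 684) (nat_lit 3769968453) (nat_lit 760) (nat_lit 530083496) (nat_lit 153) (nat_lit 5) (nat_lit 162) (nat_lit 5) (nat_lit 163) (nat_lit 5) (nat_lit 415) (nat_lit 408) (nat_lit 377)) (XT.lf (nat_lit 0) (nat_lit 2001995865) (nat_lit 836) (nat_lit 5666624488) (nat_lit 76) (nat_lit 3167736122) (nat_lit 142) (nat_lit 5) (nat_lit 153) (nat_lit 5) (nat_lit 143) (nat_lit 5) (nat_lit 416) (nat_lit 408) (nat_lit 376))) (XT.nd (nat_lit 78) (nat_lit 380) (nat_lit 0) (XT.lf (nat_lit 0) (nat_lit 4243094018) (nat_lit 380) (nat_lit 572280483) (nat_lit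 456) (nat_lit 6448176410) (nat_lit 137) (nat_lit 5) (nat_lit 142) (nat_lit 5) (nat_lit 143) (nat_lit 5) (nat_lit 417) (nat_lit 408) (nat_lit 375)) (XT.lf (nat_lit 0) (nat_lit 3316601247) (nat_lit 380) (nat_lit 4697704158) (nat_lit 456) (nat_lit 3702606347) (nat_lit 132) (nat_lit 5) (nat_lit 137) (nat_lit 5) (nat_lit 138) (nat_lit 5) (nat_lit 418) (nat_lit 408) (nat_lit 374))))) (XT.nd (nat_lit 312) (nat_lit 1216) (nat_lit 0) (XT.nd (nat_lit 156) (nat_lit 304) (nat_lit 0) (XT.nd (nat_lit 78) (nat_lit 380) (nat_lit 0) (XT.lf (nat_lit 0) (nat_lit 2445595411) (nat_lit 380) (nat_lit 9145837658) (nat_lit 456) (nat_lit 609008118) (nat_lit 127) (nat_lit 5) (nat_lit 132) (nat_lit 5) (nat_lit 133) (nat_lit 5) (nat_lit 419) (nat_lit 408) (nat_lit 373)) (XT.lf (nat_lit 0) (nat_lit 1565810976) (nat_lit 304) (nat_lit 1238870211) (nat_lit 380) (nat_lit 9907848887) (nat_lit 122) (nat_lit 5) (nat_lit 126) (nat_lit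 5) (nat_lit 127) (nat_lit 5) (nat_lit 420) (nat_lit 408) (nat_lit 372))) (XT.nd (nat_lit 78) (nat_lit 0) (nat_lit 0) (XT.lf (nat_lit 0) (nat_lit 674412755) (nat_lit 304) (nat_lit 6005981933) (nat_lit 380) (nat_lit 6574190212) (nat_lit 118) (nat_lit 5) (nat_lit 122) (nat_lit 5) (nat_lit 123) (nat_lit 5) (nat_lit 421) (nat_lit 408) (nat_lit 371)) (XT.lf (nat_lit 0) (nat_lit 11041030565) (nat_lit 380) (nat_lit 157171855) (nat_lit 76) (nat_lit 2633068891) (nat_lit 118) (nat_lit 5) (nat_lit 123) (nat_lit 5) (nat_lit 119) (nat_lit 5) (nat_lit 422) (nat_lit 408) (nat_lit 370)))) (XT.nd (nat_lit 156) (nat_lit 532) (nat_lit 0) (XT.nd (nat_lit 78) (nat_lit 304) (nat_lit 0) (XT.lf (nat_lit 0) (nat_lit 1494281981) (nat_lit 380) (nat_lit 971360244) (nat_lit 76) (nat_lit 11975480050) (nat_lit 113) (nat_lit 5) (nat_lit 118) (nat_lit 5) (nat_lit 114) (nat_lit 5) (nat_lit 423) (nat_lit 408) (nat_lit 369)) (XT.lf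 (nat_lit 0) (nat_lit 6276065739) (nat_lit 380) (nat_lit 1822730311) (nat_lit 76) (nat_lit 6986073942) (nat_lit 109) (nat_lit 5) (nat_lit 114) (nat_lit 5) (nat_lit 110) (nat_lit 5) (nat_lit 424) (nat_lit 408) (nat_lit 368))) (XT.nd (nat_lit 78) (nat_lit 304) (nat_lit 0) (XT.lf (nat_lit 0) (nat_lit 11659274761) (nat_lit 304) (nat_lit 2617476617) (nat_lit 76) (nat_lit 1492429933) (nat_lit 106) (nat_lit 5) (nat_lit 110) (nat_lit 5) (nat_lit 107) (nat_lit 5) (nat_lit 425) (nat_lit 408) (nat_lit 367)) (XT.lf (nat_lit 0) (nat_lit 1245699410) (nat_lit 304) (nat_lit 3440727114) (nat_lit 76) (nat_lit 11805480779) (nat_lit 102) (nat_lit 5) (nat_lit 106) (nat_lit 5) (nat_lit 103) (nat_lit 5) (nat_lit 426) (nat_lit 408) (nat_lit 366)))))) (XT.nd (nat_lit 546) (nat_lit 1292) (nat_lit 0) (XT.nd (nat_lit 234) (nat_lit 836) (nat_lit 0) (XT.nd (nat_lit 78) (nat_lit 456) (nat_lit 0) (XT.lf (nat_lit 0) (nat_lit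 7167463575) (nat_lit 304) (nat_lit 4298341181) (nat_lit 76) (nat_lit 5789199259) (nat_lit 99) (nat_lit 5) (nat_lit 103) (nat_lit 5) (nat_lit 100) (nat_lit 5) (nat_lit 427) (nat_lit 408) (nat_lit 365)) (XT.nd (nat_lit 78) (nat_lit 228) (nat_lit 0) (XT.lf (nat_lit 0) (nat_lit 12958885644) (nat_lit 228) (nat_lit 885572475) (nat_lit 304) (nat_lit 4220621865) (nat_lit 96) (nat_lit 5) (nat_lit 99) (nat_lit 5) (nat_lit 100) (nat_lit 5) (nat_lit 428) (nat_lit 408) (nat_lit 364)) (XT.lf (nat_lit 0) (nat_lit 2439507436) (nat_lit 228) (nat_lit 5983618404) (nat_lit 76) (nat_lit 10495611340) (nat_lit 93) (nat_lit 5) (nat_lit 96) (nat_lit 5) (nat_lit 94) (nat_lit 5) (nat_lit 429) (nat_lit 408) (nat_lit 363)))) (XT.nd (nat_lit 156) (nat_lit 456) (nat_lit 0) (XT.nd (nat_lit 78) (nat_lit 152) (nat_lit 0) (XT.lf (nat_lit 0) (nat_lit 9790142702) (nat_lit 304) (nat_lit 6866027623) (nat_lit 76) (nat_lit 3165783703)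 (nat_lit 90) (nat_lit 5) (nat_lit 94) (nat_lit 5) (nat_lit 91) (nat_lit 5) (nat_lit 430) (nat_lit 408) (nat_lit 362)) (XT.lf (nat_lit 0) (nat_lit 13021481161) (nat_lit 152) (nat_lit 5105121740) (nat_lit 228) (nat_lit 2650941137) (nat_lit 88) (nat_lit 5) (nat_lit 90) (nat_lit 5) (nat_lit 91) (nat_lit 5) (nat_lit 431) (nat_lit 408) (nat_lit 361))) (XT.nd (nat_lit 78) (nat_lit 152) (nat_lit 0) (XT.lf (nat_lit 0) (nat_lit 5547430328) (nat_lit 304) (nat_lit 8715738423) (nat_lit 76) (nat_lit 7522397289) (nat_lit 84) (nat_lit 5) (nat_lit 88) (nat_lit 5) (nat_lit 85) (nat_lit 5) (nat_lit 432) (nat_lit 408) (nat_lit 360)) (XT.lf (nat_lit 0) (nat_lit 13179961484) (nat_lit 152) (nat_lit 1509782640) (nat_lit 228) (nat_lit 8163269033) (nat_lit 82) (nat_lit 5) (nat_lit 84) (nat_lit 5) (nat_lit 85) (nat_lit 5) (nat_lit 433) (nat_lit 408) (nat_lit 359))))) (XT.nd (nat_lit 312) (nat_lit 532) (nat_lit 0) (XT.nd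 (nat_lit 156) (nat_lit 380) (nat_lit 0) (XT.nd (nat_lit 78) (nat_lit 152) (nat_lit 0) (XT.lf (nat_lit 0) (nat_lit 1053892289) (nat_lit 228) (nat_lit 10704343300) (nat_lit 76) (nat_lit 12221480856) (nat_lit 79) (nat_lit 5) (nat_lit 82) (nat_lit 5) (nat_lit 80) (nat_lit 5) (nat_lit 434) (nat_lit 408) (nat_lit 358)) (XT.lf (nat_lit 0) (nat_lit 11122540197) (nat_lit 228) (nat_lit 11804434834) (nat_lit 76) (nat_lit 2242887034) (nat_lit 77) (nat_lit 5) (nat_lit 80) (nat_lit 5) (nat_lit 78) (nat_lit 5) (nat_lit 435) (nat_lit 408) (nat_lit 357))) (XT.nd (nat_lit 78) (nat_lit 228) (nat_lit 0) (XT.lf (nat_lit 0) (nat_lit 13451271205) (nat_lit 152) (nat_lit 9099126573) (nat_lit 228) (nat_lit 3877138457) (nat_lit 75) (nat_lit 5) (nat_lit 77) (nat_lit 5) (nat_lit 78) (nat_lit 5) (nat_lit 436) (nat_lit 408) (nat_lit 356)) (XT.lf (nat_lit 0) (nat_lit 7357603276) (nat_lit 228) (nat_lit 14238811215) (nat_lit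 76) (nat_lit 6159944507) (nat_lit 72) (nat_lit 5) (nat_lit 75) (nat_lit 5) (nat_lit 73) (nat_lit 5) (nat_lit 437) (nat_lit 408) (nat_lit 355)))) (XT.nd (nat_lit 156) (nat_lit 228) (nat_lit 0) (XT.nd (nat_lit 78) (nat_lit 152) (nat_lit 0) (XT.lf (nat_lit 0) (nat_lit 13553752453) (nat_lit 152) (nat_lit 6357114496) (nat_lit 228) (nat_lit 9249665998) (nat_lit 70) (nat_lit 5) (nat_lit 72) (nat_lit 5) (nat_lit 73) (nat_lit 5) (nat_lit 438) (nat_lit 408) (nat_lit 354)) (XT.lf (nat_lit 0) (nat_lit 3294469155) (nat_lit 152) (nat_lit 17083400543) (nat_lit 76) (nat_lit 10267371138) (nat_lit 68) (nat_lit 5) (nat_lit 70) (nat_lit 5) (nat_lit 69) (nat_lit 5) (nat_lit 439) (nat_lit 408) (nat_lit 353))) (XT.nd (nat_lit 78) (nat_lit 76) (nat_lit 0) (XT.lf (nat_lit 0) (nat_lit 13481808156) (nat_lit 152) (nat_lit 3596345743) (nat_lit 228) (nat_lit 15134987524) (nat_lit 66) (nat_lit 5) (nat_lit 68) (nat_lit 5)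 (nat_lit 69) (nat_lit 5) (nat_lit 440) (nat_lit 408) (nat_lit 352)) (XT.lf (nat_lit 0) (nat_lit 13339306815) (nat_lit 76) (nat_lit 19325885099) (nat_lit 152) (nat_lit 1206250941) (nat_lit 65) (nat_lit 5) (nat_lit 66) (nat_lit 5) (nat_lit 67) (nat_lit 4) (nat_lit 441) (nat_lit 408) (nat_lit 351))))))) (XT.nd (nat_lit 1170) (nat_lit 1368) (nat_lit 0) (XT.nd (nat_lit 546) (nat_lit 760) (nat_lit 0) (XT.nd (nat_lit 234) (nat_lit 532) (nat_lit 0) (XT.nd (nat_lit 78) (nat_lit 304) (nat_lit 0) (XT.lf (nat_lit 0) (nat_lit 13069780995) (nat_lit 152) (nat_lit 884749357) (nat_lit 228) (nat_lit 21669047555) (nat_lit 62) (nat_lit 5) (nat_lit 64) (nat_lit 5) (nat_lit 65) (nat_lit 5) (nat_lit 442) (nat_lit 408) (nat_lit 350)) (XT.nd (nat_lit 78) (nat_lit 228) (nat_lit 0) (XT.lf (nat_lit 0) (nat_lit 12612017186) (nat_lit 76) (nat_lit 18497542198) (nat_lit 152) (nat_lit 6364154737) (nat_lit 61) (nat_lit 5) (nat_lit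 62) (nat_lit 5) (nat_lit 63) (nat_lit 4) (nat_lit 443) (nat_lit 408) (nat_lit 349)) (XT.lf (nat_lit 0) (nat_lit 10435577325) (nat_lit 228) (nat_lit 27372244836) (nat_lit 76) (nat_lit 1626315230) (nat_lit 58) (nat_lit 5) (nat_lit 61) (nat_lit 5) (nat_lit 59) (nat_lit 4) (nat_lit 444) (nat_lit 408) (nat_lit 348)))) (XT.nd (nat_lit 156) (nat_lit 228) (nat_lit 0) (XT.nd (nat_lit 78) (nat_lit 228) (nat_lit 0) (XT.lf (nat_lit 0) (nat_lit 11168382870) (nat_lit 76) (nat_lit 18085076134) (nat_lit 152) (nat_lit 12247863148) (nat_lit 57) (nat_lit 5) (nat_lit 58) (nat_lit 5) (nat_lit 59) (nat_lit 4) (nat_lit 445) (nat_lit 408) (nat_lit 347)) (XT.lf (nat_lit 0) (nat_lit 6330748192) (nat_lit 228) (nat_lit 33531079495) (nat_lit 76) (nat_lit 3833750443) (nat_lit 54) (nat_lit 5) (nat_lit 57) (nat_lit 5) (nat_lit 55) (nat_lit 4) (nat_lit 446) (nat_lit 408) (nat_lit 346))) (XT.nd (nat_lit 78) (nat_lit 152) (nat_lit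 0) (XT.lf (nat_lit 0) (nat_lit 8645380050) (nat_lit 76) (nat_lit 18273601458) (nat_lit 152) (nat_lit 19088732858) (nat_lit 53) (nat_lit 5) (nat_lit 54) (nat_lit 5) (nat_lit 55) (nat_lit 4) (nat_lit 447) (nat_lit 408) (nat_lit 345)) (XT.lf (nat_lit 0) (nat_lit 1393351109) (nat_lit 152) (nat_lit 41491984158) (nat_lit 76) (nat_lit 5580745791) (nat_lit 51) (nat_lit 5) (nat_lit 53) (nat_lit 5) (nat_lit 52) (nat_lit 4) (nat_lit 448) (nat_lit 408) (nat_lit 344))))) (XT.nd (nat_lit 312) (nat_lit 456) (nat_lit 0) (XT.nd (nat_lit 156) (nat_lit 152) (nat_lit 0) (XT.nd (nat_lit 78) (nat_lit 76) (nat_lit 0) (XT.lf (nat_lit 0) (nat_lit 4553923196) (nat_lit 76) (nat_lit 19312563597) (nat_lit 152) (nat_lit 27187921495) (nat_lit 50) (nat_lit 5) (nat_lit 51) (nat_lit 5) (nat_lit 52) (nat_lit 4) (nat_lit 449) (nat_lit 408) (nat_lit 343)) (XT.lf (nat_lit 0) (nat_lit 1850072611) (nat_lit 76) (nat_lit 47119359365)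 (nat_lit 76) (nat_lit 4838772497) (nat_lit 49) (nat_lit 4) (nat_lit 50) (nat_lit 5) (nat_lit 50) (nat_lit 4) (nat_lit 450) (nat_lit 408) (nat_lit 342))) (XT.nd (nat_lit 78) (nat_lit 76) (nat_lit 0) (XT.lf (nat_lit 0) (nat_lit 19802895915) (nat_lit 152) (nat_lit 1704263540) (nat_lit 76) (nat_lit 35203967797) (nat_lit 48) (nat_lit 5) (nat_lit 50) (nat_lit 5) (nat_lit 49) (nat_lit 4) (nat_lit 451) (nat_lit 408) (nat_lit 341)) (XT.lf (nat_lit 0) (nat_lit 47180679799) (nat_lit 152) (nat_lit 5737443774) (nat_lit 0) (nat_lit 6877479200) (nat_lit 47) (nat_lit 5) (nat_lit 49) (nat_lit 4) (nat_lit 47) (nat_lit 4) (nat_lit 452) (nat_lit 408) (nat_lit 340)))) (XT.nd (nat_lit 156) (nat_lit 228) (nat_lit 0) (XT.nd (nat_lit 78) (nat_lit 76) (nat_lit 0) (XT.lf (nat_lit 0) (nat_lit 14393720848) (nat_lit 152) (nat_lit 10812087375) (nat_lit 76) (nat_lit 37850002108) (nat_lit 45) (nat_lit 5) (nat_lit 47) (nat_lit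 5) (nat_lit 46) (nat_lit 4) (nat_lit 453) (nat_lit 408) (nat_lit 339)) (XT.lf (nat_lit 0) (nat_lit 44074684975) (nat_lit 152) (nat_lit 16782819840) (nat_lit 0) (nat_lit 5661310337) (nat_lit 44) (nat_lit 5) (nat_lit 46) (nat_lit 4) (nat_lit 44) (nat_lit 4) (nat_lit 454) (nat_lit 408) (nat_lit 338))) (XT.nd (nat_lit 78) (nat_lit 76) (nat_lit 0) (XT.lf (nat_lit 0) (nat_lit 7021327810) (nat_lit 152) (nat_lit 24032728689) (nat_lit 76) (nat_lit 39133321976) (nat_lit 42) (nat_lit 5) (nat_lit 44) (nat_lit 5) (nat_lit 43) (nat_lit 4) (nat_lit 455) (nat_lit 408) (nat_lit 337)) (XT.lf (nat_lit 0) (nat_lit 39030395092) (nat_lit 152) (nat_lit 32629755592) (nat_lit 0) (nat_lit 2422244456) (nat_lit 41) (nat_lit 5) (nat_lit 43) (nat_lit 4) (nat_lit 41) (nat_lit 4) (nat_lit 456) (nat_lit 408) (nat_lit 336)))))) (XT.nd (nat_lit 546) (nat_lit 684) (nat_lit 0) (XT.nd (nat_lit 234) (nat_lit 380) (nat_lit 0) (XT.nd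 (nat_lit 78) (nat_lit 228) (nat_lit 0) (XT.lf (nat_lit 0) (nat_lit 35325459367) (nat_lit 76) (nat_lit 39754203884) (nat_lit 76) (nat_lit 3135376470) (nat_lit 40) (nat_lit 4) (nat_lit 41) (nat_lit 5) (nat_lit 41) (nat_lit 4) (nat_lit 457) (nat_lit 408) (nat_lit 335)) (XT.nd (nat_lit 78) (nat_lit 76) (nat_lit 0) (XT.lf (nat_lit 0) (nat_lit 27575965496) (nat_lit 76) (nat_lit 3743390023) (nat_lit 152) (nat_lit 51285095603) (nat_lit 38) (nat_lit 5) (nat_lit 39) (nat_lit 5) (nat_lit 40) (nat_lit 4) (nat_lit 458) (nat_lit 408) (nat_lit 334)) (XT.lf (nat_lit 0) (nat_lit 17819694392) (nat_lit 76) (nat_lit 52168782501) (nat_lit 76) (nat_lit 17275575895) (nat_lit 37) (nat_lit 4) (nat_lit 38) (nat_lit 5) (nat_lit 38) (nat_lit 4) (nat_lit 459) (nat_lit 408) (nat_lit 333)))) (XT.nd (nat_lit 156) (nat_lit 228) (nat_lit 0) (XT.nd (nat_lit 78) (nat_lit 0) (nat_lit 0) (XT.lf (nat_lit 0) (nat_lit 5982831841) (nat_lit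 76) (nat_lit 13960636655) (nat_lit 152) (nat_lit 72282195467) (nat_lit 35) (nat_lit 5) (nat_lit 36) (nat_lit 5) (nat_lit 37) (nat_lit 4) (nat_lit 460) (nat_lit 408) (nat_lit 332)) (XT.lf (nat_lit 0) (nat_lit 61179886175) (nat_lit 152) (nat_lit 8374447595) (nat_lit 0) (nat_lit 27933455103) (nat_lit 35) (nat_lit 5) (nat_lit 37) (nat_lit 4) (nat_lit 35) (nat_lit 4) (nat_lit 461) (nat_lit 408) (nat_lit 331))) (XT.nd (nat_lit 78) (nat_lit 76) (nat_lit 0) (XT.lf (nat_lit 0) (nat_lit 3921416850) (nat_lit 152) (nat_lit 25214117399) (nat_lit 76) (nat_lit 73960437634) (nat_lit 33) (nat_lit 5) (nat_lit 35) (nat_lit 5) (nat_lit 34) (nat_lit 4) (nat_lit 462) (nat_lit 408) (nat_lit 330)) (XT.lf (nat_lit 0) (nat_lit 47493176143) (nat_lit 152) (nat_lit 45742246318) (nat_lit 0) (nat_lit 15817819379) (nat_lit 32) (nat_lit 5) (nat_lit 34) (nat_lit 4) (nat_lit 32) (nat_lit 4) (nat_lit 463) (nat_lit 408) (nat_lit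 329))))) (XT.nd (nat_lit 312) (nat_lit 380) (nat_lit 0) (XT.nd (nat_lit 156) (nat_lit 76) (nat_lit 0) (XT.nd (nat_lit 78) (nat_lit 152) (nat_lit 0) (XT.lf (nat_lit 0) (nat_lit 45271128797) (nat_lit 76) (nat_lit 50907648996) (nat_lit 76) (nat_lit 19226910700) (nat_lit 31) (nat_lit 4) (nat_lit 32) (nat_lit 5) (nat_lit 32) (nat_lit 4) (nat_lit 464) (nat_lit 408) (nat_lit 328)) (XT.lf (nat_lit 0) (nat_lit 23258418906) (nat_lit 76) (nat_lit 3543600656) (nat_lit 152) (nat_lit 95385777006) (nat_lit 29) (nat_lit 5) (nat_lit 30) (nat_lit 5) (nat_lit 31) (nat_lit 4) (nat_lit 465) (nat_lit 408) (nat_lit 327))) (XT.nd (nat_lit 78) (nat_lit 76) (nat_lit 0) (XT.lf (nat_lit 0) (nat_lit 77818234285) (nat_lit 152) (nat_lit 3942587160) (nat_lit 0) (nat_lit 47636962861) (nat_lit 29) (nat_lit 5) (nat_lit 31) (nat_lit 4) (nat_lit 29) (nat_lit 4) (nat_lit 466) (nat_lit 408) (nat_lit 326)) (XT.lf (nat_lit 0) (nat_lit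 101813383567) (nat_lit 76) (nat_lit 32737388192) (nat_lit 76) (nat_lit 2552048164) (nat_lit 28) (nat_lit 4) (nat_lit 29) (nat_lit 5) (nat_lit 29) (nat_lit 4) (nat_lit 467) (nat_lit 408) (nat_lit 325)))) (XT.nd (nat_lit 156) (nat_lit 152) (nat_lit 0) (XT.nd (nat_lit 78) (nat_lit 76) (nat_lit 0) (XT.lf (nat_lit 0) (nat_lit 50316292371) (nat_lit 152) (nat_lit 73427278144) (nat_lit 0) (nat_lit 21564761652) (nat_lit 26) (nat_lit 5) (nat_lit 28) (nat_lit 4) (nat_lit 26) (nat_lit 4) (nat_lit 468) (nat_lit 408) (nat_lit 324)) (XT.lf (nat_lit 0) (nat_lit 35241501623) (nat_lit 76) (nat_lit 73797904480) (nat_lit 76) (nat_lit 45043051692) (nat_lit 25) (nat_lit 4) (nat_lit 26) (nat_lit 5) (nat_lit 26) (nat_lit 4) (nat_lit 469) (nat_lit 408) (nat_lit 323))) (XT.nd (nat_lit 78) (nat_lit 76) (nat_lit 0) (XT.lf (nat_lit 0) (nat_lit 9903842475) (nat_lit 152) (nat_lit 8455051703) (nat_lit 76) (nat_lit 145128325150)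 (nat_lit 24) (nat_lit 5) (nat_lit 26) (nat_lit 5) (nat_lit 25) (nat_lit 4) (nat_lit 470) (nat_lit 408) (nat_lit 322)) (XT.lf (nat_lit 0) (nat_lit 70140689397) (nat_lit 152) (nat_lit 60593664139) (nat_lit 0) (nat_lit 42749473286) (nat_lit 23) (nat_lit 5) (nat_lit 25) (nat_lit 4) (nat_lit 23) (nat_lit 4) (nat_lit 471) (nat_lit 408) (nat_lit 321))))))))
noncomputable def xc60 : XT := (XT.nd (nat_lit 2262) (nat_lit 76) (nat_lit 0) (XT.nd (nat_lit 1092) (nat_lit 456) (nat_lit 0) (XT.nd (nat_lit 546) (nat_lit 380) (nat_lit 0) (XT.nd (nat_lit 234) (nat_lit 304) (nat_lit 0) (XT.nd (nat_lit 78) (nat_lit 152) (nat_lit 0) (XT.lf (nat_lit 0) (nat_lit 61608222569) (nat_lit 76) (nat_lit 74997600586) (nat_lit 76) (nat_lit 47603872890) (nat_lit 22) (nat_lit 4) (nat_lit 23) (nat_lit 5) (nat_lit 23) (nat_lit 4) (nat_lit 472) (nat_lit 408) (nat_lit 320)) (XT.nd (nat_lit 78) (nat_lit 76) (nat_lit 0) (XT.lf (nat_lit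 0) (nat_lit 13252770545) (nat_lit 152) (nat_lit 227873621) (nat_lit 76) (nat_lit 182250091845) (nat_lit 21) (nat_lit 5) (nat_lit 23) (nat_lit 5) (nat_lit 22) (nat_lit 4) (nat_lit 473) (nat_lit 408) (nat_lit 319)) (XT.lf (nat_lit 0) (nat_lit 80310996585) (nat_lit 152) (nat_lit 73455933576) (nat_lit 0) (nat_lit 54217466566) (nat_lit 20) (nat_lit 5) (nat_lit 22) (nat_lit 4) (nat_lit 20) (nat_lit 4) (nat_lit 474) (nat_lit 408) (nat_lit 318)))) (XT.nd (nat_lit 156) (nat_lit 228) (nat_lit 0) (XT.nd (nat_lit 78) (nat_lit 0) (nat_lit 0) (XT.lf (nat_lit 0) (nat_lit 60544915361) (nat_lit 76) (nat_lit 93355274208) (nat_lit 76) (nat_lit 67259845353) (nat_lit 19) (nat_lit 4) (nat_lit 20) (nat_lit 5) (nat_lit 20) (nat_lit 4) (nat_lit 475) (nat_lit 408) (nat_lit 317)) (XT.lf (nat_lit 0) (nat_lit 207869005663) (nat_lit 76) (nat_lit 26777210352) (nat_lit 76) (nat_lit 680023315) (nat_lit 19) (nat_lit 4) (nat_lit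 20) (nat_lit 5) (nat_lit 20) (nat_lit 4) (nat_lit 476) (nat_lit 408) (nat_lit 316))) (XT.nd (nat_lit 78) (nat_lit 76) (nat_lit 0) (XT.lf (nat_lit 0) (nat_lit 71548761483) (nat_lit 152) (nat_lit 132198516442) (nat_lit 0) (nat_lit 46692747213) (nat_lit 17) (nat_lit 5) (nat_lit 19) (nat_lit 4) (nat_lit 17) (nat_lit 4) (nat_lit 477) (nat_lit 408) (nat_lit 315)) (XT.lf (nat_lit 0) (nat_lit 9657693322) (nat_lit 76) (nat_lit 140954063191) (nat_lit 76) (nat_lit 116096613343) (nat_lit 16) (nat_lit 4) (nat_lit 17) (nat_lit 5) (nat_lit 17) (nat_lit 4) (nat_lit 478) (nat_lit 408) (nat_lit 314))))) (XT.nd (nat_lit 234) (nat_lit 228) (nat_lit 0) (XT.nd (nat_lit 78) (nat_lit 152) (nat_lit 0) (XT.lf (nat_lit 0) (nat_lit 167565725395) (nat_lit 76) (nat_lit 70728263012) (nat_lit 76) (nat_lit 45869483925) (nat_lit 16) (nat_lit 4) (nat_lit 17) (nat_lit 5) (nat_lit 17) (nat_lit 4) (nat_lit 479) (nat_lit 408) (nat_lit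 313)) (XT.nd (nat_lit 78) (nat_lit 0) (nat_lit 0) (XT.lf (nat_lit 0) (nat_lit 29663033452) (nat_lit 152) (nat_lit 267309384143) (nat_lit 0) (nat_lit 5986833581) (nat_lit 14) (nat_lit 5) (nat_lit 16) (nat_lit 4) (nat_lit 14) (nat_lit 4) (nat_lit 480) (nat_lit 408) (nat_lit 312)) (XT.lf (nat_lit 0) (nat_lit 112901677812) (nat_lit 152) (nat_lit 120931495571) (nat_lit 0) (nat_lit 89224392600) (nat_lit 14) (nat_lit 5) (nat_lit 16) (nat_lit 4) (nat_lit 14) (nat_lit 4) (nat_lit 481) (nat_lit 408) (nat_lit 311)))) (XT.nd (nat_lit 156) (nat_lit 152) (nat_lit 0) (XT.nd (nat_lit 78) (nat_lit 0) (nat_lit 0) (XT.lf (nat_lit 0) (nat_lit 38369916650) (nat_lit 76) (nat_lit 165021265545) (nat_lit 76) (nat_lit 141342975387) (nat_lit 13) (nat_lit 4) (nat_lit 14) (nat_lit 5) (nat_lit 14) (nat_lit 4) (nat_lit 482) (nat_lit 408) (nat_lit 310)) (XT.lf (nat_lit 0) (nat_lit 214719724663) (nat_lit 76) (nat_lit 88499696905)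 (nat_lit 76) (nat_lit 64820476242) (nat_lit 13) (nat_lit 4) (nat_lit 14) (nat_lit 5) (nat_lit 14) (nat_lit 4) (nat_lit 483) (nat_lit 408) (nat_lit 309))) (XT.nd (nat_lit 78) (nat_lit 0) (nat_lit 0) (XT.lf (nat_lit 0) (nat_lit 12061884490) (nat_lit 76) (nat_lit 5373221232) (nat_lit 152) (nat_lit 375751989743) (nat_lit 11) (nat_lit 5) (nat_lit 12) (nat_lit 5) (nat_lit 13) (nat_lit 4) (nat_lit 484) (nat_lit 408) (nat_lit 308)) (XT.lf (nat_lit 0) (nat_lit 108056418947) (nat_lit 152) (nat_lit 226530504653) (nat_lit 0) (nat_lit 85503199899) (nat_lit 11) (nat_lit 5) (nat_lit 13) (nat_lit 4) (nat_lit 11) (nat_lit 4) (nat_lit 485) (nat_lit 408) (nat_lit 307)))))) (XT.nd (nat_lit 546) (nat_lit 228) (nat_lit 0) (XT.nd (nat_lit 234) (nat_lit 152) (nat_lit 0) (XT.nd (nat_lit 78) (nat_lit 76) (nat_lit 0) (XT.lf (nat_lit 0) (nat_lit 206012135179) (nat_lit 152) (nat_lit 59670811084) (nat_lit 0) (nat_lit 183458212640)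 (nat_lit 11) (nat_lit 5) (nat_lit 13) (nat_lit 4) (nat_lit 11) (nat_lit 4) (nat_lit 486) (nat_lit 408) (nat_lit 306)) (XT.nd (nat_lit 78) (nat_lit 0) (nat_lit 0) (XT.lf (nat_lit 0) (nat_lit 124511711309) (nat_lit 76) (nat_lit 189231107141) (nat_lit 76) (nat_lit 166676533222) (nat_lit 10) (nat_lit 4) (nat_lit 11) (nat_lit 5) (nat_lit 11) (nat_lit 4) (nat_lit 487) (nat_lit 408) (nat_lit 305)) (XT.lf (nat_lit 0) (nat_lit 325549044246) (nat_lit 76) (nat_lit 105577111363) (nat_lit 76) (nat_lit 83021934314) (nat_lit 10) (nat_lit 4) (nat_lit 11) (nat_lit 5) (nat_lit 11) (nat_lit 4) (nat_lit 488) (nat_lit 408) (nat_lit 304)))) (XT.nd (nat_lit 156) (nat_lit 0) (nat_lit 0) (XT.nd (nat_lit 78) (nat_lit 76) (nat_lit 0) (XT.lf (nat_lit 0) (nat_lit 7085665787) (nat_lit 152) (nat_lit 8030120638) (nat_lit 76) (nat_lit 535453868608) (nat_lit 9) (nat_lit 5) (nat_lit 11) (nat_lit 5) (nat_lit 10) (nat_lit 4) (nat_lit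 489) (nat_lit 408) (nat_lit 303)) (XT.lf (nat_lit 0) (nat_lit 105881955463) (nat_lit 152) (nat_lit 399335690714) (nat_lit 0) (nat_lit 84399810139) (nat_lit 8) (nat_lit 5) (nat_lit 10) (nat_lit 4) (nat_lit 8) (nat_lit 4) (nat_lit 490) (nat_lit 408) (nat_lit 302))) (XT.nd (nat_lit 78) (nat_lit 0) (nat_lit 0) (XT.lf (nat_lit 0) (nat_lit 212974574308) (nat_lit 152) (nat_lit 227302903109) (nat_lit 0) (nat_lit 191491973001) (nat_lit 8) (nat_lit 5) (nat_lit 10) (nat_lit 4) (nat_lit 8) (nat_lit 4) (nat_lit 491) (nat_lit 408) (nat_lit 301)) (XT.lf (nat_lit 0) (nat_lit 328630504141) (nat_lit 152) (nat_lit 41515824222) (nat_lit 0) (nat_lit 307147480625) (nat_lit 8) (nat_lit 5) (nat_lit 10) (nat_lit 4) (nat_lit 8) (nat_lit 4) (nat_lit 492) (nat_lit 408) (nat_lit 300))))) (XT.nd (nat_lit 312) (nat_lit 76) (nat_lit 0) (XT.nd (nat_lit 156) (nat_lit 76) (nat_lit 0) (XT.nd (nat_lit 78) (nat_lit 0) (nat_lit 0)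 (XT.lf (nat_lit 0) (nat_lit 164387947352) (nat_lit 76) (nat_lit 291713722636) (nat_lit 76) (nat_lit 270230308187) (nat_lit 7) (nat_lit 4) (nat_lit 8) (nat_lit 5) (nat_lit 8) (nat_lit 4) (nat_lit 493) (nat_lit 408) (nat_lit 299)) (XT.lf (nat_lit 0) (nat_lit 388239158046) (nat_lit 76) (nat_lit 206250920897) (nat_lit 76) (nat_lit 184767144473) (nat_lit 7) (nat_lit 4) (nat_lit 8) (nat_lit 5) (nat_lit 8) (nat_lit 4) (nat_lit 494) (nat_lit 408) (nat_lit 298))) (XT.nd (nat_lit 78) (nat_lit 76) (nat_lit 0) (XT.lf (nat_lit 0) (nat_lit 629991632915) (nat_lit 76) (nat_lit 113954567486) (nat_lit 76) (nat_lit 92470455899) (nat_lit 7) (nat_lit 4) (nat_lit 8) (nat_lit 5) (nat_lit 8) (nat_lit 4) (nat_lit 495) (nat_lit 408) (nat_lit 297)) (XT.lf (nat_lit 0) (nat_lit 6976041438) (nat_lit 152) (nat_lit 7183536972) (nat_lit 76) (nat_lit 883983795140) (nat_lit 6) (nat_lit 5) (nat_lit 8) (nat_lit 5) (nat_lit 7) (nat_lit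 4) (nat_lit 496) (nat_lit 408) (nat_lit 296)))) (XT.nd (nat_lit 156) (nat_lit 0) (nat_lit 0) (XT.nd (nat_lit 78) (nat_lit 0) (nat_lit 0) (XT.lf (nat_lit 0) (nat_lit 116050229361) (nat_lit 152) (nat_lit 752848017631) (nat_lit 0) (nat_lit 95588601485) (nat_lit 5) (nat_lit 5) (nat_lit 7) (nat_lit 4) (nat_lit 5) (nat_lit 4) (nat_lit 497) (nat_lit 408) (nat_lit 295)) (XT.lf (nat_lit 0) (nat_lit 234213447281) (nat_lit 152) (nat_lit 588154633365) (nat_lit 0) (nat_lit 213751566012) (nat_lit 5) (nat_lit 5) (nat_lit 7) (nat_lit 4) (nat_lit 5) (nat_lit 4) (nat_lit 498) (nat_lit 408) (nat_lit 294))) (XT.nd (nat_lit 78) (nat_lit 0) (nat_lit 0) (XT.lf (nat_lit 0) (nat_lit 361827088074) (nat_lit 152) (nat_lit 410291140176) (nat_lit 0) (nat_lit 341364972181) (nat_lit 5) (nat_lit 5) (nat_lit 7) (nat_lit 4) (nat_lit 5) (nat_lit 4) (nat_lit 499) (nat_lit 408) (nat_lit 293)) (XT.lf (nat_lit 0) (nat_lit 499647380720)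 (nat_lit 152) (nat_lit 218203532178) (nat_lit 0) (nat_lit 479185047584) (nat_lit 5) (nat_lit 5) (nat_lit 7) (nat_lit 4) (nat_lit 5) (nat_lit 4) (nat_lit 500) (nat_lit 408) (nat_lit 292))))))) (XT.nd (nat_lit 56316) (nat_lit 0) (nat_lit 5548) (XT.nd (nat_lit 55692) (nat_lit 0) (nat_lit 8968) (XT.nd (nat_lit 55380) (nat_lit 0) (nat_lit 11780) (XT.nd (nat_lit 78) (nat_lit 76) (nat_lit 0) (XT.lf (nat_lit 0) (nat_lit 648491038066) (nat_lit 152) (nat_lit 10753512436) (nat_lit 0) (nat_lit 628028503779) (nat_lit 5) (nat_lit 5) (nat_lit 7) (nat_lit 4) (nat_lit 5) (nat_lit 4) (nat_lit 501) (nat_lit 408) (nat_lit 291)) (XT.nd (nat_lit 55224) (nat_lit 0) (nat_lit 12388) (XT.lf (nat_lit 0) (nat_lit 220340525366) (nat_lit 76) (nat_lit 592339704339) (nat_lit 76) (nat_lit 571876983800) (nat_lit 4) (nat_lit 4) (nat_lit 5) (nat_lit 5) (nat_lit 5) (nat_lit 4) (nat_lit 502) (nat_lit 408) (nat_lit 290)) (XT.lf (nat_lit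 0) (nat_lit 3570061203) (nat_lit 684) (nat_lit 409839970) (nat_lit 684) (nat_lit 409839970) (nat_lit 167) (nat_lit 3) (nat_lit 176) (nat_lit 3) (nat_lit 176) (nat_lit 5) (nat_lit 409) (nat_lit 409) (nat_lit 382)))) (XT.nd (nat_lit 156) (nat_lit 0) (nat_lit 0) (XT.nd (nat_lit 78) (nat_lit 608) (nat_lit 0) (XT.lf (nat_lit 76) (nat_lit 6340794882) (nat_lit 0) (nat_lit 2643362259) (nat_lit 684) (nat_lit 68321540) (nat_lit 168) (nat_lit 5) (nat_lit 167) (nat_lit 3) (nat_lit 176) (nat_lit 5) (nat_lit 410) (nat_lit 409) (nat_lit 381)) (XT.lf (nat_lit 0) (nat_lit 1567335403) (nat_lit 684) (nat_lit 4599771906) (nat_lit 760) (nat_lit 3179408466) (nat_lit 159) (nat_lit 5) (nat_lit 168) (nat_lit 5) (nat_lit 169) (nat_lit 5) (nat_lit 411) (nat_lit 409) (nat_lit 380))) (XT.nd (nat_lit 78) (nat_lit 0) (nat_lit 76) (XT.lf (nat_lit 76) (nat_lit 3204569435) (nat_lit 0) (nat_lit 130596243) (nat_lit 760) (nat_lit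 6328691498) (nat_lit 160) (nat_lit 5) (nat_lit 159) (nat_lit 5) (nat_lit 169) (nat_lit 5) (nat_lit 412) (nat_lit 409) (nat_lit 379)) (XT.lf (nat_lit 76) (nat_lit 1654997503) (nat_lit 0) (nat_lit 3667196342) (nat_lit 760) (nat_lit 4680524825) (nat_lit 161) (nat_lit 5) (nat_lit 160) (nat_lit 5) (nat_lit 170) (nat_lit 5) (nat_lit 413) (nat_lit 409) (nat_lit 378))))) (XT.nd (nat_lit 312) (nat_lit 1520) (nat_lit 0) (XT.nd (nat_lit 156) (nat_lit 1444) (nat_lit 0) (XT.nd (nat_lit 78) (nat_lit 0) (nat_lit 0) (XT.lf (nat_lit 76) (nat_lit 146253625) (nat_lit 0) (nat_lit 7366201088) (nat_lit 760) (nat_lit 2854040621) (nat_lit 162) (nat_lit 5) (nat_lit 161) (nat_lit 5) (nat_lit 171) (nat_lit 5) (nat_lit 414) (nat_lit 409) (nat_lit 377)) (XT.lf (nat_lit 76) (nat_lit 9463619625) (nat_lit 0) (nat_lit 507552006) (nat_lit 760) (nat_lit 783559049) (nat_lit 162) (nat_lit 5) (nat_lit 161) (nat_lit 5) (nat_lit 171)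 (nat_lit 5) (nat_lit 415) (nat_lit 409) (nat_lit 376))) (XT.nd (nat_lit 78) (nat_lit 760) (nat_lit 0) (XT.lf (nat_lit 0) (nat_lit 1543213858) (nat_lit 760) (nat_lit 2767131624) (nat_lit 76) (nat_lit 6855704397) (nat_lit 152) (nat_lit 5) (nat_lit 162) (nat_lit 5) (nat_lit 153) (nat_lit 5) (nat_lit 416) (nat_lit 409) (nat_lit 375)) (XT.lf (nat_lit 0) (nat_lit 4129212951) (nat_lit 836) (nat_lit 4231502225) (nat_lit 76) (nat_lit 3243905303) (nat_lit 142) (nat_lit 5) (nat_lit 153) (nat_lit 5) (nat_lit 143) (nat_lit 5) (nat_lit 417) (nat_lit 409) (nat_lit 374)))) (XT.nd (nat_lit 156) (nat_lit 760) (nat_lit 0) (XT.nd (nat_lit 78) (nat_lit 380) (nat_lit 0) (XT.lf (nat_lit 0) (nat_lit 6388923929) (nat_lit 380) (nat_lit 661232684) (nat_lit 456) (nat_lit 5021730723) (nat_lit 137) (nat_lit 5) (nat_lit 142) (nat_lit 5) (nat_lit 143) (nat_lit 5) (nat_lit 418) (nat_lit 409) (nat_lit 373)) (XT.lf (nat_lit 0)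 (nat_lit 5399170216) (nat_lit 380) (nat_lit 4996576058) (nat_lit 456) (nat_lit 2171253559) (nat_lit 132) (nat_lit 5) (nat_lit 137) (nat_lit 5) (nat_lit 138) (nat_lit 5) (nat_lit 419) (nat_lit 409) (nat_lit 372))) (XT.nd (nat_lit 78) (nat_lit 304) (nat_lit 0) (XT.lf (nat_lit 0) (nat_lit 1031369553) (nat_lit 456) (nat_lit 8649001674) (nat_lit 76) (nat_lit 3412995869) (nat_lit 126) (nat_lit 5) (nat_lit 132) (nat_lit 5) (nat_lit 127) (nat_lit 5) (nat_lit 420) (nat_lit 409) (nat_lit 371)) (XT.lf (nat_lit 0) (nat_lit 3485511573) (nat_lit 304) (nat_lit 1116048143) (nat_lit 380) (nat_lit 9049143403) (nat_lit 122) (nat_lit 5) (nat_lit 126) (nat_lit 5) (nat_lit 127) (nat_lit 5) (nat_lit 421) (nat_lit 409) (nat_lit 370)))))) (XT.nd (nat_lit 546) (nat_lit 1672) (nat_lit 0) (XT.nd (nat_lit 234) (nat_lit 760) (nat_lit 0) (XT.nd (nat_lit 78) (nat_lit 684) (nat_lit 0) (XT.lf (nat_lit 0) (nat_lit 2516906644)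 (nat_lit 304) (nat_lit 6185074318) (nat_lit 380) (nat_lit 5538423959) (nat_lit 118) (nat_lit 5) (nat_lit 122) (nat_lit 5) (nat_lit 123) (nat_lit 5) (nat_lit 422) (nat_lit 409) (nat_lit 369)) (XT.nd (nat_lit 78) (nat_lit 380) (nat_lit 0) (XT.lf (nat_lit 0) (nat_lit 1602260972) (nat_lit 304) (nat_lit 11728419843) (nat_lit 380) (nat_lit 1536598779) (nat_lit 114) (nat_lit 5) (nat_lit 118) (nat_lit 5) (nat_lit 119) (nat_lit 5) (nat_lit 423) (nat_lit 409) (nat_lit 368)) (XT.lf (nat_lit 0) (nat_lit 662071950) (nat_lit 304) (nat_lit 2288362684) (nat_lit 380) (nat_lit 12578992567) (nat_lit 109) (nat_lit 5) (nat_lit 113) (nat_lit 5) (nat_lit 114) (nat_lit 5) (nat_lit 424) (nat_lit 409) (nat_lit 367)))) (XT.nd (nat_lit 156) (nat_lit 532) (nat_lit 0) (XT.nd (nat_lit 78) (nat_lit 228) (nat_lit 0) (XT.lf (nat_lit 0) (nat_lit 8037091208) (nat_lit 380) (nat_lit 294906151) (nat_lit 76) (nat_lit 7896572306) (nat_lit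 109) (nat_lit 5) (nat_lit 114) (nat_lit 5) (nat_lit 110) (nat_lit 5) (nat_lit 425) (nat_lit 409) (nat_lit 366)) (XT.lf (nat_lit 0) (nat_lit 13789101593) (nat_lit 304) (nat_lit 1172705107) (nat_lit 76) (nat_lit 2008922543) (nat_lit 106) (nat_lit 5) (nat_lit 110) (nat_lit 5) (nat_lit 107) (nat_lit 5) (nat_lit 426) (nat_lit 409) (nat_lit 365))) (XT.nd (nat_lit 78) (nat_lit 228) (nat_lit 0) (XT.lf (nat_lit 0) (nat_lit 2497165384) (nat_lit 304) (nat_lit 2095503106) (nat_lit 76) (nat_lit 13160884203) (nat_lit 102) (nat_lit 5) (nat_lit 106) (nat_lit 5) (nat_lit 103) (nat_lit 5) (nat_lit 427) (nat_lit 409) (nat_lit 364)) (XT.lf (nat_lit 0) (nat_lit 8838724169) (nat_lit 304) (nat_lit 3044679852) (nat_lit 76) (nat_lit 6696999090) (nat_lit 99) (nat_lit 5) (nat_lit 103) (nat_lit 5) (nat_lit 100) (nat_lit 5) (nat_lit 428) (nat_lit 409) (nat_lit 363))))) (XT.nd (nat_lit 312) (nat_lit 836) (nat_lit 0) (XT.nd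 (nat_lit 156) (nat_lit 380) (nat_lit 0) (XT.nd (nat_lit 78) (nat_lit 228) (nat_lit 0) (XT.lf (nat_lit 0) (nat_lit 15523698472) (nat_lit 228) (nat_lit 468714536) (nat_lit 304) (nat_lit 3465753417) (nat_lit 96) (nat_lit 5) (nat_lit 99) (nat_lit 5) (nat_lit 100) (nat_lit 5) (nat_lit 429) (nat_lit 409) (nat_lit 362)) (XT.lf (nat_lit 0) (nat_lit 3644918486) (nat_lit 228) (nat_lit 4924552304) (nat_lit 76) (nat_lit 11812164618) (nat_lit 93) (nat_lit 5) (nat_lit 96) (nat_lit 5) (nat_lit 94) (nat_lit 5) (nat_lit 430) (nat_lit 409) (nat_lit 361))) (XT.nd (nat_lit 78) (nat_lit 152) (nat_lit 0) (XT.lf (nat_lit 0) (nat_lit 11539738744) (nat_lit 304) (nat_lit 5904384688) (nat_lit 76) (nat_lit 3915185998) (nat_lit 90) (nat_lit 5) (nat_lit 94) (nat_lit 5) (nat_lit 91) (nat_lit 5) (nat_lit 431) (nat_lit 409) (nat_lit 360)) (XT.lf (nat_lit 0) (nat_lit 15508461834) (nat_lit 152) (nat_lit 4985634473) (nat_lit 228)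 (nat_lit 1899707359) (nat_lit 88) (nat_lit 5) (nat_lit 90) (nat_lit 5) (nat_lit 91) (nat_lit 5) (nat_lit 432) (nat_lit 409) (nat_lit 359)))) (XT.nd (nat_lit 156) (nat_lit 380) (nat_lit 0) (XT.nd (nat_lit 78) (nat_lit 152) (nat_lit 0) (XT.lf (nat_lit 0) (nat_lit 6884896158) (nat_lit 304) (nat_lit 7964865674) (nat_lit 76) (nat_lit 8633899221) (nat_lit 84) (nat_lit 5) (nat_lit 88) (nat_lit 5) (nat_lit 85) (nat_lit 5) (nat_lit 433) (nat_lit 409) (nat_lit 358)) (XT.lf (nat_lit 0) (nat_lit 15619556182) (nat_lit 152) (nat_lit 1094467814) (nat_lit 228) (nat_lit 7924713438) (nat_lit 82) (nat_lit 5) (nat_lit 84) (nat_lit 5) (nat_lit 85) (nat_lit 5) (nat_lit 434) (nat_lit 409) (nat_lit 357))) (XT.nd (nat_lit 78) (nat_lit 152) (nat_lit 0) (XT.lf (nat_lit 0) (nat_lit 1966773063) (nat_lit 228) (nat_lit 10175578471) (nat_lit 76) (nat_lit 13714259297) (nat_lit 79) (nat_lit 5) (nat_lit 82) (nat_lit 5) (nat_lit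 80) (nat_lit 5) (nat_lit 435) (nat_lit 409) (nat_lit 356)) (XT.lf (nat_lit 0) (nat_lit 12808607620) (nat_lit 228) (nat_lit 11392812875) (nat_lit 76) (nat_lit 2942166899) (nat_lit 77) (nat_lit 5) (nat_lit 80) (nat_lit 5) (nat_lit 78) (nat_lit 5) (nat_lit 436) (nat_lit 409) (nat_lit 355))))))))
noncomputable def xc61 : XT := (XT.nd (nat_lit 2340) (nat_lit 1672) (nat_lit 0) (XT.nd (nat_lit 1170) (nat_lit 1520) (nat_lit 0) (XT.nd (nat_lit 546) (nat_lit 988) (nat_lit 0) (XT.nd (nat_lit 234) (nat_lit 608) (nat_lit 0) (XT.nd (nat_lit 78) (nat_lit 380) (nat_lit 0) (XT.lf (nat_lit 0) (nat_lit 15824420551) (nat_lit 152) (nat_lit 9287541272) (nat_lit 228) (nat_lit 3391854008) (nat_lit 75) (nat_lit 5) (nat_lit 77) (nat_lit 5) (nat_lit 78) (nat_lit 5) (nat_lit 437) (nat_lit 409) (nat_lit 354)) (XT.nd (nat_lit 78) (nat_lit 152) (nat_lit 0) (XT.lf (nat_lit 0) (nat_lit 8687233852) (nat_lit 228) (nat_lit 14084475932)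 (nat_lit 76) (nat_lit 7168065645) (nat_lit 72) (nat_lit 5) (nat_lit 75) (nat_lit 5) (nat_lit 73) (nat_lit 5) (nat_lit 438) (nat_lit 409) (nat_lit 353)) (XT.lf (nat_lit 0) (nat_lit 15875281496) (nat_lit 152) (nat_lit 6333903190) (nat_lit 228) (nat_lit 9248880353) (nat_lit 70) (nat_lit 5) (nat_lit 72) (nat_lit 5) (nat_lit 73) (nat_lit 5) (nat_lit 439) (nat_lit 409) (nat_lit 352)))) (XT.nd (nat_lit 156) (nat_lit 304) (nat_lit 0) (XT.nd (nat_lit 78) (nat_lit 152) (nat_lit 0) (XT.lf (nat_lit 0) (nat_lit 4248965481) (nat_lit 152) (nat_lit 17217898795) (nat_lit 76) (nat_lit 11595415268) (nat_lit 68) (nat_lit 5) (nat_lit 70) (nat_lit 5) (nat_lit 69) (nat_lit 5) (nat_lit 440) (nat_lit 409) (nat_lit 351)) (XT.lf (nat_lit 0) (nat_lit 15738977829) (nat_lit 152) (nat_lit 3363588164) (nat_lit 228) (nat_lit 15654687626) (nat_lit 66) (nat_lit 5) (nat_lit 68) (nat_lit 5) (nat_lit 69) (nat_lit 5) (nat_lit 441)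 (nat_lit 409) (nat_lit 350))) (XT.nd (nat_lit 78) (nat_lit 228) (nat_lit 0) (XT.lf (nat_lit 0) (nat_lit 15557589619) (nat_lit 76) (nat_lit 20355721348) (nat_lit 152) (nat_lit 636073307) (nat_lit 65) (nat_lit 5) (nat_lit 66) (nat_lit 5) (nat_lit 67) (nat_lit 4) (nat_lit 442) (nat_lit 409) (nat_lit 349)) (XT.lf (nat_lit 0) (nat_lit 15236911459) (nat_lit 152) (nat_lit 449028735) (nat_lit 228) (nat_lit 22756746157) (nat_lit 62) (nat_lit 5) (nat_lit 64) (nat_lit 5) (nat_lit 65) (nat_lit 5) (nat_lit 443) (nat_lit 409) (nat_lit 348))))) (XT.nd (nat_lit 312) (nat_lit 380) (nat_lit 0) (XT.nd (nat_lit 156) (nat_lit 304) (nat_lit 0) (XT.nd (nat_lit 78) (nat_lit 228) (nat_lit 0) (XT.lf (nat_lit 0) (nat_lit 14715661433) (nat_lit 76) (nat_lit 19476564238) (nat_lit 152) (nat_lit 6249666967) (nat_lit 61) (nat_lit 5) (nat_lit 62) (nat_lit 5) (nat_lit 63) (nat_lit 4) (nat_lit 444) (nat_lit 409) (nat_lit 347))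 (XT.lf (nat_lit 0) (nat_lit 11853675197) (nat_lit 228) (nat_lit 28474661182) (nat_lit 76) (nat_lit 2231348666) (nat_lit 58) (nat_lit 5) (nat_lit 61) (nat_lit 5) (nat_lit 59) (nat_lit 4) (nat_lit 445) (nat_lit 409) (nat_lit 346))) (XT.nd (nat_lit 78) (nat_lit 228) (nat_lit 0) (XT.lf (nat_lit 0) (nat_lit 13101961260) (nat_lit 76) (nat_lit 19048061319) (nat_lit 152) (nat_lit 12643571786) (nat_lit 57) (nat_lit 5) (nat_lit 58) (nat_lit 5) (nat_lit 59) (nat_lit 4) (nat_lit 446) (nat_lit 409) (nat_lit 345)) (XT.lf (nat_lit 0) (nat_lit 7383954294) (nat_lit 228) (nat_lit 35181166640) (nat_lit 76) (nat_lit 4598749188) (nat_lit 54) (nat_lit 5) (nat_lit 57) (nat_lit 5) (nat_lit 55) (nat_lit 4) (nat_lit 447) (nat_lit 409) (nat_lit 344)))) (XT.nd (nat_lit 156) (nat_lit 152) (nat_lit 0) (XT.nd (nat_lit 78) (nat_lit 152) (nat_lit 0) (XT.lf (nat_lit 0) (nat_lit 10324542858) (nat_lit 76) (nat_lit 19269621845)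 (nat_lit 152) (nat_lit 20068067889) (nat_lit 53) (nat_lit 5) (nat_lit 54) (nat_lit 5) (nat_lit 55) (nat_lit 4) (nat_lit 448) (nat_lit 409) (nat_lit 343)) (XT.lf (nat_lit 0) (nat_lit 2017895262) (nat_lit 152) (nat_lit 43831741701) (nat_lit 76) (nat_lit 6468062941) (nat_lit 51) (nat_lit 5) (nat_lit 53) (nat_lit 5) (nat_lit 52) (nat_lit 4) (nat_lit 449) (nat_lit 409) (nat_lit 342))) (XT.nd (nat_lit 78) (nat_lit 76) (nat_lit 0) (XT.lf (nat_lit 0) (nat_lit 5855265967) (nat_lit 76) (nat_lit 20410239846) (nat_lit 152) (nat_lit 28848757322) (nat_lit 50) (nat_lit 5) (nat_lit 51) (nat_lit 5) (nat_lit 52) (nat_lit 4) (nat_lit 450) (nat_lit 409) (nat_lit 341)) (XT.lf (nat_lit 0) (nat_lit 2911137833) (nat_lit 76) (nat_lit 50449996835) (nat_lit 76) (nat_lit 4728006895) (nat_lit 49) (nat_lit 4) (nat_lit 50) (nat_lit 5) (nat_lit 50) (nat_lit 4) (nat_lit 451) (nat_lit 409) (nat_lit 340)))))) (XT.nd (nat_lit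 546) (nat_lit 836) (nat_lit 0) (XT.nd (nat_lit 234) (nat_lit 380) (nat_lit 0) (XT.nd (nat_lit 78) (nat_lit 228) (nat_lit 0) (XT.lf (nat_lit 0) (nat_lit 21833361418) (nat_lit 152) (nat_lit 980414275) (nat_lit 76) (nat_lit 38411919587) (nat_lit 48) (nat_lit 5) (nat_lit 50) (nat_lit 5) (nat_lit 49) (nat_lit 4) (nat_lit 452) (nat_lit 409) (nat_lit 339)) (XT.nd (nat_lit 78) (nat_lit 152) (nat_lit 0) (XT.lf (nat_lit 0) (nat_lit 51387354861) (nat_lit 152) (nat_lit 5358515650) (nat_lit 0) (nat_lit 7811759764) (nat_lit 47) (nat_lit 5) (nat_lit 49) (nat_lit 4) (nat_lit 47) (nat_lit 4) (nat_lit 453) (nat_lit 409) (nat_lit 338)) (XT.lf (nat_lit 0) (nat_lit 15964711193) (nat_lit 152) (nat_lit 10861667015) (nat_lit 76) (nat_lit 41252913774) (nat_lit 45) (nat_lit 5) (nat_lit 47) (nat_lit 5) (nat_lit 46) (nat_lit 4) (nat_lit 454) (nat_lit 409) (nat_lit 337)))) (XT.nd (nat_lit 156) (nat_lit 152) (nat_lit 0)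 (XT.nd (nat_lit 78) (nat_lit 152) (nat_lit 0) (XT.lf (nat_lit 0) (nat_lit 48007178948) (nat_lit 152) (nat_lit 17331378889) (nat_lit 0) (nat_lit 6481428660) (nat_lit 44) (nat_lit 5) (nat_lit 46) (nat_lit 4) (nat_lit 44) (nat_lit 4) (nat_lit 455) (nat_lit 409) (nat_lit 336)) (XT.lf (nat_lit 0) (nat_lit 7977671594) (nat_lit 152) (nat_lit 25182734136) (nat_lit 76) (nat_lit 42622224172) (nat_lit 42) (nat_lit 5) (nat_lit 44) (nat_lit 5) (nat_lit 43) (nat_lit 4) (nat_lit 456) (nat_lit 409) (nat_lit 335))) (XT.nd (nat_lit 78) (nat_lit 76) (nat_lit 0) (XT.lf (nat_lit 0) (nat_lit 42535423548) (nat_lit 152) (nat_lit 34487899647) (nat_lit 0) (nat_lit 2966527257) (nat_lit 41) (nat_lit 5) (nat_lit 43) (nat_lit 4) (nat_lit 41) (nat_lit 4) (nat_lit 457) (nat_lit 409) (nat_lit 334)) (XT.lf (nat_lit 0) (nat_lit 38871041233) (nat_lit 76) (nat_lit 42580485536) (nat_lit 76) (nat_lit 3002435629) (nat_lit 40) (nat_lit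 4) (nat_lit 41) (nat_lit 5) (nat_lit 41) (nat_lit 4) (nat_lit 458) (nat_lit 409) (nat_lit 333))))) (XT.nd (nat_lit 312) (nat_lit 456) (nat_lit 0) (XT.nd (nat_lit 156) (nat_lit 152) (nat_lit 0) (XT.nd (nat_lit 78) (nat_lit 76) (nat_lit 0) (XT.lf (nat_lit 0) (nat_lit 30482072005) (nat_lit 76) (nat_lit 3697731644) (nat_lit 152) (nat_lit 55015253306) (nat_lit 38) (nat_lit 5) (nat_lit 39) (nat_lit 5) (nat_lit 40) (nat_lit 4) (nat_lit 459) (nat_lit 409) (nat_lit 332)) (XT.lf (nat_lit 0) (nat_lit 19926701382) (nat_lit 76) (nat_lit 56005092836) (nat_lit 76) (nat_lit 18296165953) (nat_lit 37) (nat_lit 4) (nat_lit 38) (nat_lit 5) (nat_lit 38) (nat_lit 4) (nat_lit 460) (nat_lit 409) (nat_lit 331))) (XT.nd (nat_lit 78) (nat_lit 0) (nat_lit 0) (XT.lf (nat_lit 0) (nat_lit 7124346175) (nat_lit 76) (nat_lit 14748918933) (nat_lit 152) (nat_lit 77713731710) (nat_lit 35) (nat_lit 5) (nat_lit 36) (nat_lit 5) (nat_lit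 37) (nat_lit 4) (nat_lit 461) (nat_lit 409) (nat_lit 330)) (XT.lf (nat_lit 0) (nat_lit 66388581709) (nat_lit 152) (nat_lit 8419886577) (nat_lit 0) (nat_lit 30462624480) (nat_lit 35) (nat_lit 5) (nat_lit 37) (nat_lit 4) (nat_lit 35) (nat_lit 4) (nat_lit 462) (nat_lit 409) (nat_lit 329)))) (XT.nd (nat_lit 156) (nat_lit 228) (nat_lit 0) (XT.nd (nat_lit 78) (nat_lit 76) (nat_lit 0) (XT.lf (nat_lit 0) (nat_lit 4540407063) (nat_lit 152) (nat_lit 26623773359) (nat_lit 76) (nat_lit 80164201854) (nat_lit 33) (nat_lit 5) (nat_lit 35) (nat_lit 5) (nat_lit 34) (nat_lit 4) (nat_lit 463) (nat_lit 409) (nat_lit 328)) (XT.lf (nat_lit 0) (nat_lit 51588883550) (nat_lit 152) (nat_lit 48810479962) (nat_lit 0) (nat_lit 17363321755) (nat_lit 32) (nat_lit 5) (nat_lit 34) (nat_lit 4) (nat_lit 32) (nat_lit 4) (nat_lit 464) (nat_lit 409) (nat_lit 327))) (XT.nd (nat_lit 78) (nat_lit 152) (nat_lit 0) (XT.lf (nat_lit 0)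 (nat_lit 49458274674) (nat_lit 76) (nat_lit 54697942314) (nat_lit 76) (nat_lit 20467766722) (nat_lit 31) (nat_lit 4) (nat_lit 32) (nat_lit 5) (nat_lit 32) (nat_lit 4) (nat_lit 465) (nat_lit 409) (nat_lit 326)) (XT.lf (nat_lit 0) (nat_lit 25669078558) (nat_lit 76) (nat_lit 3552153727) (nat_lit 152) (nat_lit 102727832794) (nat_lit 29) (nat_lit 5) (nat_lit 30) (nat_lit 5) (nat_lit 31) (nat_lit 4) (nat_lit 466) (nat_lit 409) (nat_lit 325))))))) (XT.nd (nat_lit 1170) (nat_lit 532) (nat_lit 0) (XT.nd (nat_lit 546) (nat_lit 608) (nat_lit 0) (XT.nd (nat_lit 234) (nat_lit 304) (nat_lit 0) (XT.nd (nat_lit 78) (nat_lit 228) (nat_lit 0) (XT.lf (nat_lit 0) (nat_lit 84302344568) (nat_lit 152) (nat_lit 3739985940) (nat_lit 0) (nat_lit 51694341506) (nat_lit 29) (nat_lit 5) (nat_lit 31) (nat_lit 4) (nat_lit 29) (nat_lit 4) (nat_lit 467) (nat_lit 409) (nat_lit 324)) (XT.nd (nat_lit 78) (nat_lit 152) (nat_lit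 0) (XT.lf (nat_lit 0) (nat_lit 110453950441) (nat_lit 76) (nat_lit 35108111309) (nat_lit 76) (nat_lit 2496620076) (nat_lit 28) (nat_lit 4) (nat_lit 29) (nat_lit 5) (nat_lit 29) (nat_lit 4) (nat_lit 468) (nat_lit 409) (nat_lit 323)) (XT.lf (nat_lit 0) (nat_lit 54585563453) (nat_lit 152) (nat_lit 78811310510) (nat_lit 0) (nat_lit 23523924384) (nat_lit 26) (nat_lit 5) (nat_lit 28) (nat_lit 4) (nat_lit 26) (nat_lit 4) (nat_lit 469) (nat_lit 409) (nat_lit 322)))) (XT.nd (nat_lit 156) (nat_lit 152) (nat_lit 0) (XT.nd (nat_lit 78) (nat_lit 76) (nat_lit 0) (XT.lf (nat_lit 0) (nat_lit 38529670322) (nat_lit 76) (nat_lit 79466104321) (nat_lit 76) (nat_lit 48401617113) (nat_lit 25) (nat_lit 4) (nat_lit 26) (nat_lit 5) (nat_lit 26) (nat_lit 4) (nat_lit 470) (nat_lit 409) (nat_lit 321)) (XT.lf (nat_lit 0) (nat_lit 10915632342) (nat_lit 152) (nat_lit 8690078072) (nat_lit 76) (nat_lit 156949510696) (nat_lit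 24) (nat_lit 5) (nat_lit 26) (nat_lit 5) (nat_lit 25) (nat_lit 4) (nat_lit 471) (nat_lit 409) (nat_lit 320))) (XT.nd (nat_lit 78) (nat_lit 76) (nat_lit 0) (XT.lf (nat_lit 0) (nat_lit 75965076565) (nat_lit 152) (nat_lit 65011784760) (nat_lit 0) (nat_lit 46375013523) (nat_lit 23) (nat_lit 5) (nat_lit 25) (nat_lit 4) (nat_lit 23) (nat_lit 4) (nat_lit 472) (nat_lit 409) (nat_lit 319)) (XT.lf (nat_lit 0) (nat_lit 66947592879) (nat_lit 76) (nat_lit 80790452962) (nat_lit 76) (nat_lit 51198236640) (nat_lit 22) (nat_lit 4) (nat_lit 23) (nat_lit 5) (nat_lit 23) (nat_lit 4) (nat_lit 473) (nat_lit 409) (nat_lit 318))))) (XT.nd (nat_lit 312) (nat_lit 380) (nat_lit 0) (XT.nd (nat_lit 156) (nat_lit 76) (nat_lit 0) (XT.nd (nat_lit 78) (nat_lit 0) (nat_lit 0) (XT.lf (nat_lit 0) (nat_lit 145173937) (nat_lit 76) (nat_lit 14361842666) (nat_lit 152) (nat_lit 196872475828) (nat_lit 20) (nat_lit 5) (nat_lit 21) (nat_lit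 5) (nat_lit 22) (nat_lit 4) (nat_lit 474) (nat_lit 409) (nat_lit 317)) (XT.lf (nat_lit 0) (nat_lit 86922115730) (nat_lit 152) (nat_lit 78956324068) (nat_lit 0) (nat_lit 58735395548) (nat_lit 20) (nat_lit 5) (nat_lit 22) (nat_lit 4) (nat_lit 20) (nat_lit 4) (nat_lit 475) (nat_lit 409) (nat_lit 316))) (XT.nd (nat_lit 78) (nat_lit 0) (nat_lit 0) (XT.lf (nat_lit 0) (nat_lit 65748248623) (nat_lit 76) (nat_lit 100642016567) (nat_lit 76) (nat_lit 72453668439) (nat_lit 19) (nat_lit 4) (nat_lit 20) (nat_lit 5) (nat_lit 20) (nat_lit 4) (nat_lit 476) (nat_lit 409) (nat_lit 315)) (XT.lf (nat_lit 0) (nat_lit 224831618739) (nat_lit 76) (nat_lit 28751165349) (nat_lit 76) (nat_lit 561309864) (nat_lit 19) (nat_lit 4) (nat_lit 20) (nat_lit 5) (nat_lit 20) (nat_lit 4) (nat_lit 477) (nat_lit 409) (nat_lit 314)))) (XT.nd (nat_lit 156) (nat_lit 152) (nat_lit 0) (XT.nd (nat_lit 78) (nat_lit 76) (nat_lit 0) (XT.lf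 (nat_lit 0) (nat_lit 77435437078) (nat_lit 152) (nat_lit 142445024046) (nat_lit 0) (nat_lit 50586626424) (nat_lit 17) (nat_lit 5) (nat_lit 19) (nat_lit 4) (nat_lit 17) (nat_lit 4) (nat_lit 478) (nat_lit 409) (nat_lit 313)) (XT.lf (nat_lit 0) (nat_lit 10745368320) (nat_lit 76) (nat_lit 152070964969) (nat_lit 76) (nat_lit 125220923539) (nat_lit 16) (nat_lit 4) (nat_lit 17) (nat_lit 5) (nat_lit 17) (nat_lit 4) (nat_lit 479) (nat_lit 409) (nat_lit 312))) (XT.nd (nat_lit 78) (nat_lit 152) (nat_lit 0) (XT.lf (nat_lit 0) (nat_lit 181262705216) (nat_lit 76) (nat_lit 76238909908) (nat_lit 76) (nat_lit 49387728869) (nat_lit 16) (nat_lit 4) (nat_lit 17) (nat_lit 5) (nat_lit 17) (nat_lit 4) (nat_lit 480) (nat_lit 409) (nat_lit 311)) (XT.lf (nat_lit 0) (nat_lit 32178368640) (nat_lit 152) (nat_lit 288405697025) (nat_lit 0) (nat_lit 6604810323) (nat_lit 14) (nat_lit 5) (nat_lit 16) (nat_lit 4) (nat_lit 14)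 (nat_lit 4) (nat_lit 481) (nat_lit 409) (nat_lit 310)))))) (XT.nd (nat_lit 546) (nat_lit 228) (nat_lit 0) (XT.nd (nat_lit 234) (nat_lit 228) (nat_lit 0) (XT.nd (nat_lit 78) (nat_lit 76) (nat_lit 0) (XT.lf (nat_lit 0) (nat_lit 122065564363) (nat_lit 152) (nat_lit 130338943133) (nat_lit 0) (nat_lit 96491075541) (nat_lit 14) (nat_lit 5) (nat_lit 16) (nat_lit 4) (nat_lit 14) (nat_lit 4) (nat_lit 482) (nat_lit 409) (nat_lit 309)) (XT.nd (nat_lit 78) (nat_lit 0) (nat_lit 0) (XT.lf (nat_lit 0) (nat_lit 41694975438) (nat_lit 76) (nat_lit 178093482759) (nat_lit 76) (nat_lit 152518132358) (nat_lit 13) (nat_lit 4) (nat_lit 14) (nat_lit 5) (nat_lit 14) (nat_lit 4) (nat_lit 483) (nat_lit 409) (nat_lit 308)) (XT.lf (nat_lit 0) (nat_lit 232133844725) (nat_lit 76) (nat_lit 95459780038) (nat_lit 76) (nat_lit 69883631878) (nat_lit 13) (nat_lit 4) (nat_lit 14) (nat_lit 5) (nat_lit 14) (nat_lit 4) (nat_lit 484)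 (nat_lit 409) (nat_lit 307)))) (XT.nd (nat_lit 156) (nat_lit 76) (nat_lit 0) (XT.nd (nat_lit 78) (nat_lit 0) (nat_lit 0) (XT.lf (nat_lit 0) (nat_lit 13256847818) (nat_lit 76) (nat_lit 5686437373) (nat_lit 152) (nat_lit 405693108903) (nat_lit 11) (nat_lit 5) (nat_lit 12) (nat_lit 5) (nat_lit 13) (nat_lit 4) (nat_lit 485) (nat_lit 409) (nat_lit 306)) (XT.lf (nat_lit 0) (nat_lit 116807591826) (nat_lit 152) (nat_lit 244436407547) (nat_lit 0) (nat_lit 92448000613) (nat_lit 11) (nat_lit 5) (nat_lit 13) (nat_lit 4) (nat_lit 11) (nat_lit 4) (nat_lit 486) (nat_lit 409) (nat_lit 305))) (XT.nd (nat_lit 78) (nat_lit 76) (nat_lit 0) (XT.lf (nat_lit 0) (nat_lit 222591864662) (nat_lit 152) (nat_lit 64243978305) (nat_lit 0) (nat_lit 198231670320) (nat_lit 11) (nat_lit 5) (nat_lit 13) (nat_lit 4) (nat_lit 11) (nat_lit 4) (nat_lit 487) (nat_lit 409) (nat_lit 304)) (XT.lf (nat_lit 0) (nat_lit 134664432495) (nat_lit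 76) (nat_lit 204272248934) (nat_lit 76) (nat_lit 179911496137) (nat_lit 10) (nat_lit 4) (nat_lit 11) (nat_lit 5) (nat_lit 11) (nat_lit 4) (nat_lit 488) (nat_lit 409) (nat_lit 303))))) (XT.nd (nat_lit 312) (nat_lit 76) (nat_lit 0) (XT.nd (nat_lit 156) (nat_lit 76) (nat_lit 0) (XT.nd (nat_lit 78) (nat_lit 76) (nat_lit 0) (XT.lf (nat_lit 0) (nat_lit 351770545824) (nat_lit 76) (nat_lit 113933144365) (nat_lit 76) (nat_lit 89571874482) (nat_lit 10) (nat_lit 4) (nat_lit 11) (nat_lit 5) (nat_lit 11) (nat_lit 4) (nat_lit 489) (nat_lit 409) (nat_lit 302)) (XT.lf (nat_lit 0) (nat_lit 7734811584) (nat_lit 152) (nat_lit 8505384919) (nat_lit 76) (nat_lit 578370916008) (nat_lit 9) (nat_lit 5) (nat_lit 11) (nat_lit 5) (nat_lit 10) (nat_lit 4) (nat_lit 490) (nat_lit 409) (nat_lit 301))) (XT.nd (nat_lit 78) (nat_lit 0) (nat_lit 0) (XT.lf (nat_lit 0) (nat_lit 114432472467) (nat_lit 152) (nat_lit 431119997189)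 (nat_lit 0) (nat_lit 91230384862) (nat_lit 8) (nat_lit 5) (nat_lit 10) (nat_lit 4) (nat_lit 8) (nat_lit 4) (nat_lit 491) (nat_lit 409) (nat_lit 300)) (XT.lf (nat_lit 0) (nat_lit 230086577815) (nat_lit 152) (nat_lit 245336627226) (nat_lit 0) (nat_lit 206884099277) (nat_lit 8) (nat_lit 5) (nat_lit 10) (nat_lit 4) (nat_lit 8) (nat_lit 4) (nat_lit 492) (nat_lit 409) (nat_lit 299)))) (XT.nd (nat_lit 156) (nat_lit 0) (nat_lit 0) (XT.nd (nat_lit 78) (nat_lit 76) (nat_lit 0) (XT.lf (nat_lit 0) (nat_lit 354989497770) (nat_lit 152) (nat_lit 44697730778) (nat_lit 0) (nat_lit 331786657256) (nat_lit 8) (nat_lit 5) (nat_lit 10) (nat_lit 4) (nat_lit 8) (nat_lit 4) (nat_lit 493) (nat_lit 409) (nat_lit 298)) (XT.lf (nat_lit 0) (nat_lit 177672286132) (nat_lit 76) (nat_lit 314983073964) (nat_lit 76) (nat_lit 291779898288) (nat_lit 7) (nat_lit 4) (nat_lit 8) (nat_lit 5) (nat_lit 8) (nat_lit 4) (nat_lit 494) (nat_lit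 409) (nat_lit 297))) (XT.nd (nat_lit 78) (nat_lit 0) (nat_lit 0) (XT.lf (nat_lit 0) (nat_lit 419421719386) (nat_lit 76) (nat_lit 222688266344) (nat_lit 76) (nat_lit 199484780333) (nat_lit 7) (nat_lit 4) (nat_lit 8) (nat_lit 5) (nat_lit 8) (nat_lit 4) (nat_lit 495) (nat_lit 409) (nat_lit 296)) (XT.lf (nat_lit 0) (nat_lit 680505249378) (nat_lit 76) (nat_lit 123012851195) (nat_lit 76) (nat_lit 99809077836) (nat_lit 7) (nat_lit 4) (nat_lit 8) (nat_lit 5) (nat_lit 8) (nat_lit 4) (nat_lit 496) (nat_lit 409) (nat_lit 295))))))))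
noncomputable def xc62 : XT := (XT.nd (nat_lit 57486) (nat_lit 0) (nat_lit 2280) (XT.nd (nat_lit 56316) (nat_lit 0) (nat_lit 6460) (XT.nd (nat_lit 55770) (nat_lit 0) (nat_lit 11096) (XT.nd (nat_lit 234) (nat_lit 0) (nat_lit 0) (XT.nd (nat_lit 78) (nat_lit 76) (nat_lit 0) (XT.lf (nat_lit 0) (nat_lit 7587018921) (nat_lit 152) (nat_lit 7650650632) (nat_lit 76) (nat_lit 954754529007) (nat_lit 6) (nat_lit 5) (nat_lit 8) (nat_lit 5) (nat_lit 7) (nat_lit 4) (nat_lit 497) (nat_lit 409) (nat_lit 294)) (XT.nd (nat_lit 78) (nat_lit 0) (nat_lit 0) (XT.lf (nat_lit 0) (nat_lit 125385646998) (nat_lit 152) (nat_lit 812971252029) (nat_lit 0) (nat_lit 103286327211) (nat_lit 5) (nat_lit 5) (nat_lit 7) (nat_lit 4) (nat_lit 5) (nat_lit 4) (nat_lit 498) (nat_lit 409) (nat_lit 293)) (XT.lf (nat_lit 0) (nat_lit 252998114997) (nat_lit 152) (nat_lit 635110145689) (nat_lit 0) (nat_lit 230898577967) (nat_lit 5) (nat_lit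 5) (nat_lit 7) (nat_lit 4) (nat_lit 5) (nat_lit 4) (nat_lit 499) (nat_lit 409) (nat_lit 292)))) (XT.nd (nat_lit 156) (nat_lit 0) (nat_lit 0) (XT.nd (nat_lit 78) (nat_lit 0) (nat_lit 0) (XT.lf (nat_lit 0) (nat_lit 390817321725) (nat_lit 152) (nat_lit 443024747737) (nat_lit 0) (nat_lit 368717583543) (nat_lit 5) (nat_lit 5) (nat_lit 7) (nat_lit 4) (nat_lit 5) (nat_lit 4) (nat_lit 500) (nat_lit 409) (nat_lit 291)) (XT.lf (nat_lit 0) (nat_lit 539659973590) (nat_lit 152) (nat_lit 235576774333) (nat_lit 0) (nat_lit 517560049156) (nat_lit 5) (nat_lit 5) (nat_lit 7) (nat_lit 4) (nat_lit 5) (nat_lit 4) (nat_lit 501) (nat_lit 409) (nat_lit 290))) (XT.nd (nat_lit 55302) (nat_lit 0) (nat_lit 11628) (XT.lf (nat_lit 0) (nat_lit 700408101123) (nat_lit 152) (nat_lit 11536904153) (nat_lit 0) (nat_lit 678308004234) (nat_lit 5) (nat_lit 5) (nat_lit 7) (nat_lit 4) (nat_lit 5) (nat_lit 4) (nat_lit 502) (nat_lit 409)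 (nat_lit 289)) (XT.lf (nat_lit 0) (nat_lit 300351360) (nat_lit 0) (nat_lit 300351360) (nat_lit 684) (nat_lit 4067784640) (nat_lit 158) (nat_lit 5) (nat_lit 158) (nat_lit 3) (nat_lit 167) (nat_lit 3) (nat_lit 410) (nat_lit 410) (nat_lit 380))))) (XT.nd (nat_lit 234) (nat_lit 532) (nat_lit 0) (XT.nd (nat_lit 78) (nat_lit 0) (nat_lit 76) (XT.lf (nat_lit 0) (nat_lit 2632630402) (nat_lit 684) (nat_lit 1406809432) (nat_lit 760) (nat_lit 5601641997) (nat_lit 158) (nat_lit 5) (nat_lit 167) (nat_lit 3) (nat_lit 168) (nat_lit 5) (nat_lit 411) (nat_lit 410) (nat_lit 379)) (XT.nd (nat_lit 78) (nat_lit 0) (nat_lit 0) (XT.lf (nat_lit 0) (nat_lit 4202452460) (nat_lit 684) (nat_lit 3369707349) (nat_lit 760) (nat_lit 2396174100) (nat_lit 159) (nat_lit 5) (nat_lit 168) (nat_lit 5) (nat_lit 169) (nat_lit 5) (nat_lit 412) (nat_lit 410) (nat_lit 378)) (XT.lf (nat_lit 76) (nat_lit 4989532154) (nat_lit 0) (nat_lit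 960136746) (nat_lit 760) (nat_lit 4369526596) (nat_lit 160) (nat_lit 5) (nat_lit 159) (nat_lit 5) (nat_lit 169) (nat_lit 5) (nat_lit 413) (nat_lit 410) (nat_lit 377)))) (XT.nd (nat_lit 156) (nat_lit 684) (nat_lit 0) (XT.nd (nat_lit 78) (nat_lit 0) (nat_lit 76) (XT.lf (nat_lit 76) (nat_lit 3374448169) (nat_lit 0) (nat_lit 4560245453) (nat_lit 760) (nat_lit 2758549148) (nat_lit 161) (nat_lit 5) (nat_lit 160) (nat_lit 5) (nat_lit 170) (nat_lit 5) (nat_lit 414) (nat_lit 410) (nat_lit 376)) (XT.lf (nat_lit 76) (nat_lit 1789915434) (nat_lit 0) (nat_lit 8365090786) (nat_lit 760) (nat_lit 938400262) (nat_lit 162) (nat_lit 5) (nat_lit 161) (nat_lit 5) (nat_lit 171) (nat_lit 5) (nat_lit 415) (nat_lit 410) (nat_lit 375))) (XT.nd (nat_lit 78) (nat_lit 0) (nat_lit 76) (XT.lf (nat_lit 76) (nat_lit 200121812) (nat_lit 0) (nat_lit 905458206) (nat_lit 836) (nat_lit 10413661151) (nat_lit 152) (nat_lit 5) (nat_lit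 151) (nat_lit 5) (nat_lit 162) (nat_lit 5) (nat_lit 416) (nat_lit 410) (nat_lit 374)) (XT.lf (nat_lit 0) (nat_lit 3464836926) (nat_lit 760) (nat_lit 1387004977) (nat_lit 76) (nat_lit 7117313629) (nat_lit 152) (nat_lit 5) (nat_lit 162) (nat_lit 5) (nat_lit 153) (nat_lit 5) (nat_lit 417) (nat_lit 410) (nat_lit 373)))))) (XT.nd (nat_lit 546) (nat_lit 1824) (nat_lit 0) (XT.nd (nat_lit 234) (nat_lit 1368) (nat_lit 0) (XT.nd (nat_lit 78) (nat_lit 760) (nat_lit 0) (XT.lf (nat_lit 0) (nat_lit 6145984673) (nat_lit 836) (nat_lit 2950979003) (nat_lit 76) (nat_lit 3351454670) (nat_lit 142) (nat_lit 5) (nat_lit 153) (nat_lit 5) (nat_lit 143) (nat_lit 5) (nat_lit 418) (nat_lit 410) (nat_lit 372)) (XT.nd (nat_lit 78) (nat_lit 380) (nat_lit 0) (XT.lf (nat_lit 0) (nat_lit 8448719591) (nat_lit 380) (nat_lit 751142412) (nat_lit 456) (nat_lit 3758260162) (nat_lit 137) (nat_lit 5) (nat_lit 142) (nat_lit 5) (nat_lit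 143) (nat_lit 5) (nat_lit 419) (nat_lit 410) (nat_lit 371)) (XT.lf (nat_lit 0) (nat_lit 7389094977) (nat_lit 380) (nat_lit 5330334693) (nat_lit 456) (nat_lit 778114599) (nat_lit 132) (nat_lit 5) (nat_lit 137) (nat_lit 5) (nat_lit 138) (nat_lit 5) (nat_lit 420) (nat_lit 410) (nat_lit 370)))) (XT.nd (nat_lit 156) (nat_lit 608) (nat_lit 0) (XT.nd (nat_lit 78) (nat_lit 304) (nat_lit 0) (XT.lf (nat_lit 0) (nat_lit 2543960472) (nat_lit 456) (nat_lit 7732586096) (nat_lit 76) (nat_lit 3792596792) (nat_lit 126) (nat_lit 5) (nat_lit 132) (nat_lit 5) (nat_lit 127) (nat_lit 5) (nat_lit 421) (nat_lit 410) (nat_lit 369)) (XT.lf (nat_lit 0) (nat_lit 5302791901) (nat_lit 304) (nat_lit 1015061346) (nat_lit 380) (nat_lit 8357322651) (nat_lit 122) (nat_lit 5) (nat_lit 126) (nat_lit 5) (nat_lit 127) (nat_lit 5) (nat_lit 422) (nat_lit 410) (nat_lit 368))) (XT.nd (nat_lit 78) (nat_lit 304) (nat_lit 0) (XT.lf (nat_lit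 0) (nat_lit 4251644695) (nat_lit 304) (nat_lit 6421490200) (nat_lit 380) (nat_lit 4642590579) (nat_lit 118) (nat_lit 5) (nat_lit 122) (nat_lit 5) (nat_lit 123) (nat_lit 5) (nat_lit 423) (nat_lit 410) (nat_lit 367)) (XT.lf (nat_lit 0) (nat_lit 3254463741) (nat_lit 304) (nat_lit 12350752504) (nat_lit 380) (nat_lit 390891605) (nat_lit 114) (nat_lit 5) (nat_lit 118) (nat_lit 5) (nat_lit 119) (nat_lit 5) (nat_lit 424) (nat_lit 410) (nat_lit 366))))) (XT.nd (nat_lit 312) (nat_lit 912) (nat_lit 0) (XT.nd (nat_lit 156) (nat_lit 304) (nat_lit 0) (XT.nd (nat_lit 78) (nat_lit 228) (nat_lit 0) (XT.lf (nat_lit 0) (nat_lit 2211803803) (nat_lit 304) (nat_lit 2135099900) (nat_lit 380) (nat_lit 12366723630) (nat_lit 109) (nat_lit 5) (nat_lit 113) (nat_lit 5) (nat_lit 114) (nat_lit 5) (nat_lit 425) (nat_lit 410) (nat_lit 365)) (XT.lf (nat_lit 0) (nat_lit 1153292683) (nat_lit 228) (nat_lit 8624110265) (nat_lit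 304) (nat_lit 7694462539) (nat_lit 106) (nat_lit 5) (nat_lit 109) (nat_lit 5) (nat_lit 110) (nat_lit 5) (nat_lit 426) (nat_lit 410) (nat_lit 364))) (XT.nd (nat_lit 78) (nat_lit 76) (nat_lit 0) (XT.lf (nat_lit 0) (nat_lit 156676973) (nat_lit 228) (nat_lit 15764306228) (nat_lit 304) (nat_lit 2355853256) (nat_lit 103) (nat_lit 5) (nat_lit 106) (nat_lit 5) (nat_lit 107) (nat_lit 5) (nat_lit 427) (nat_lit 410) (nat_lit 363)) (XT.lf (nat_lit 0) (nat_lit 3684430060) (nat_lit 304) (nat_lit 873841076) (nat_lit 76) (nat_lit 14566091154) (nat_lit 102) (nat_lit 5) (nat_lit 106) (nat_lit 5) (nat_lit 103) (nat_lit 5) (nat_lit 428) (nat_lit 410) (nat_lit 362)))) (XT.nd (nat_lit 156) (nat_lit 456) (nat_lit 0) (XT.nd (nat_lit 78) (nat_lit 228) (nat_lit 0) (XT.lf (nat_lit 0) (nat_lit 10487063108) (nat_lit 304) (nat_lit 1918630934) (nat_lit 76) (nat_lit 7613986633) (nat_lit 99) (nat_lit 5) (nat_lit 103) (nat_lit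 5) (nat_lit 100) (nat_lit 5) (nat_lit 429) (nat_lit 410) (nat_lit 361)) (XT.lf (nat_lit 0) (nat_lit 18075695496) (nat_lit 228) (nat_lit 88084353) (nat_lit 304) (nat_lit 2806355427) (nat_lit 96) (nat_lit 5) (nat_lit 99) (nat_lit 5) (nat_lit 100) (nat_lit 5) (nat_lit 430) (nat_lit 410) (nat_lit 360))) (XT.nd (nat_lit 78) (nat_lit 228) (nat_lit 0) (XT.lf (nat_lit 0) (nat_lit 4802638899) (nat_lit 228) (nat_lit 4000138940) (nat_lit 76) (nat_lit 13166006417) (nat_lit 93) (nat_lit 5) (nat_lit 96) (nat_lit 5) (nat_lit 94) (nat_lit 5) (nat_lit 431) (nat_lit 410) (nat_lit 359)) (XT.lf (nat_lit 0) (nat_lit 13291436899) (nat_lit 304) (nat_lit 5081360681) (nat_lit 76) (nat_lit 4653760616) (nat_lit 90) (nat_lit 5) (nat_lit 94) (nat_lit 5) (nat_lit 91) (nat_lit 5) (nat_lit 432) (nat_lit 410) (nat_lit 358))))))) (XT.nd (nat_lit 1170) (nat_lit 1672) (nat_lit 0) (XT.nd (nat_lit 546) (nat_lit 1140) (nat_lit 0)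 (XT.nd (nat_lit 234) (nat_lit 760) (nat_lit 0) (XT.nd (nat_lit 78) (nat_lit 456) (nat_lit 0) (XT.lf (nat_lit 0) (nat_lit 17988218153) (nat_lit 152) (nat_lit 4931898634) (nat_lit 228) (nat_lit 1225801687) (nat_lit 88) (nat_lit 5) (nat_lit 90) (nat_lit 5) (nat_lit 91) (nat_lit 5) (nat_lit 433) (nat_lit 410) (nat_lit 357)) (XT.nd (nat_lit 78) (nat_lit 152) (nat_lit 0) (XT.lf (nat_lit 0) (nat_lit 8201867038) (nat_lit 304) (nat_lit 7360515299) (nat_lit 76) (nat_lit 9761605457) (nat_lit 84) (nat_lit 5) (nat_lit 88) (nat_lit 5) (nat_lit 85) (nat_lit 5) (nat_lit 434) (nat_lit 410) (nat_lit 356)) (XT.lf (nat_lit 0) (nat_lit 18056704506) (nat_lit 152) (nat_lit 722408095) (nat_lit 228) (nat_lit 7794272545) (nat_lit 82) (nat_lit 5) (nat_lit 84) (nat_lit 5) (nat_lit 85) (nat_lit 5) (nat_lit 435) (nat_lit 410) (nat_lit 355)))) (XT.nd (nat_lit 156) (nat_lit 380) (nat_lit 0) (XT.nd (nat_lit 78) (nat_lit 152)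 (nat_lit 0) (XT.lf (nat_lit 0) (nat_lit 2834479612) (nat_lit 228) (nat_lit 9802114209) (nat_lit 76) (nat_lit 15252980950) (nat_lit 79) (nat_lit 5) (nat_lit 82) (nat_lit 5) (nat_lit 80) (nat_lit 5) (nat_lit 436) (nat_lit 410) (nat_lit 354)) (XT.lf (nat_lit 0) (nat_lit 14515964446) (nat_lit 228) (nat_lit 11141706401) (nat_lit 76) (nat_lit 3623226894) (nat_lit 77) (nat_lit 5) (nat_lit 80) (nat_lit 5) (nat_lit 78) (nat_lit 5) (nat_lit 437) (nat_lit 410) (nat_lit 353))) (XT.nd (nat_lit 78) (nat_lit 228) (nat_lit 0) (XT.lf (nat_lit 0) (nat_lit 18202383496) (nat_lit 152) (nat_lit 9567997054) (nat_lit 228) (nat_lit 2981227427) (nat_lit 75) (nat_lit 5) (nat_lit 77) (nat_lit 5) (nat_lit 78) (nat_lit 5) (nat_lit 438) (nat_lit 410) (nat_lit 352)) (XT.lf (nat_lit 0) (nat_lit 10017519755) (nat_lit 228) (nat_lit 14102317527) (nat_lit 76) (nat_lit 8183319519) (nat_lit 72) (nat_lit 5) (nat_lit 75) (nat_lit 5)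 (nat_lit 73) (nat_lit 5) (nat_lit 439) (nat_lit 410) (nat_lit 351))))) (XT.nd (nat_lit 312) (nat_lit 608) (nat_lit 0) (XT.nd (nat_lit 156) (nat_lit 228) (nat_lit 0) (XT.nd (nat_lit 78) (nat_lit 152) (nat_lit 0) (XT.lf (nat_lit 0) (nat_lit 18206028335) (nat_lit 152) (nat_lit 6384699408) (nat_lit 228) (nat_lit 9353709399) (nat_lit 70) (nat_lit 5) (nat_lit 72) (nat_lit 5) (nat_lit 73) (nat_lit 5) (nat_lit 440) (nat_lit 410) (nat_lit 350)) (XT.lf (nat_lit 0) (nat_lit 5181251371) (nat_lit 152) (nat_lit 17538940273) (nat_lit 76) (nat_lit 12957423008) (nat_lit 68) (nat_lit 5) (nat_lit 70) (nat_lit 5) (nat_lit 69) (nat_lit 5) (nat_lit 441) (nat_lit 410) (nat_lit 349))) (XT.nd (nat_lit 78) (nat_lit 76) (nat_lit 0) (XT.lf (nat_lit 0) (nat_lit 18008577040) (nat_lit 152) (nat_lit 3186460163) (nat_lit 228) (nat_lit 16314556720) (nat_lit 66) (nat_lit 5) (nat_lit 68) (nat_lit 5) (nat_lit 69) (nat_lit 5) (nat_lit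 442) (nat_lit 410) (nat_lit 348)) (XT.lf (nat_lit 0) (nat_lit 17789112307) (nat_lit 76) (nat_lit 21541591129) (nat_lit 152) (nat_lit 115390491) (nat_lit 65) (nat_lit 5) (nat_lit 66) (nat_lit 5) (nat_lit 67) (nat_lit 4) (nat_lit 443) (nat_lit 410) (nat_lit 347)))) (XT.nd (nat_lit 156) (nat_lit 304) (nat_lit 0) (XT.nd (nat_lit 78) (nat_lit 76) (nat_lit 0) (XT.lf (nat_lit 0) (nat_lit 17417411002) (nat_lit 152) (nat_lit 50708432) (nat_lit 228) (nat_lit 24023594833) (nat_lit 62) (nat_lit 5) (nat_lit 64) (nat_lit 5) (nat_lit 65) (nat_lit 5) (nat_lit 444) (nat_lit 410) (nat_lit 346)) (XT.lf (nat_lit 0) (nat_lit 16831428471) (nat_lit 76) (nat_lit 20605350097) (nat_lit 152) (nat_lit 6214986562) (nat_lit 61) (nat_lit 5) (nat_lit 62) (nat_lit 5) (nat_lit 63) (nat_lit 4) (nat_lit 445) (nat_lit 410) (nat_lit 345))) (XT.nd (nat_lit 78) (nat_lit 76) (nat_lit 0) (XT.lf (nat_lit 0) (nat_lit 13302013525) (nat_lit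 228) (nat_lit 29820395358) (nat_lit 76) (nat_lit 2817030957) (nat_lit 58) (nat_lit 5) (nat_lit 61) (nat_lit 5) (nat_lit 59) (nat_lit 4) (nat_lit 446) (nat_lit 410) (nat_lit 344)) (XT.lf (nat_lit 0) (nat_lit 15041842920) (nat_lit 76) (nat_lit 20157107780) (nat_lit 152) (nat_lit 13154268423) (nat_lit 57) (nat_lit 5) (nat_lit 58) (nat_lit 5) (nat_lit 59) (nat_lit 4) (nat_lit 447) (nat_lit 410) (nat_lit 343)))))) (XT.nd (nat_lit 546) (nat_lit 912) (nat_lit 0) (XT.nd (nat_lit 234) (nat_lit 304) (nat_lit 0) (XT.nd (nat_lit 78) (nat_lit 228) (nat_lit 0) (XT.lf (nat_lit 0) (nat_lit 8443417421) (nat_lit 228) (nat_lit 37110544046) (nat_lit 76) (nat_lit 5359566398) (nat_lit 54) (nat_lit 5) (nat_lit 57) (nat_lit 5) (nat_lit 55) (nat_lit 4) (nat_lit 448) (nat_lit 410) (nat_lit 342)) (XT.nd (nat_lit 78) (nat_lit 152) (nat_lit 0) (XT.lf (nat_lit 0) (nat_lit 11997156152) (nat_lit 76) (nat_lit 20411785103) (nat_lit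 152) (nat_lit 21203894323) (nat_lit 53) (nat_lit 5) (nat_lit 54) (nat_lit 5) (nat_lit 55) (nat_lit 4) (nat_lit 449) (nat_lit 410) (nat_lit 341)) (XT.lf (nat_lit 0) (nat_lit 2619206911) (nat_lit 152) (nat_lit 46498430908) (nat_lit 76) (nat_lit 7363472213) (nat_lit 51) (nat_lit 5) (nat_lit 53) (nat_lit 5) (nat_lit 52) (nat_lit 4) (nat_lit 450) (nat_lit 410) (nat_lit 340)))) (XT.nd (nat_lit 156) (nat_lit 152) (nat_lit 0) (XT.nd (nat_lit 78) (nat_lit 76) (nat_lit 0) (XT.lf (nat_lit 0) (nat_lit 7127038510) (nat_lit 76) (nat_lit 21659546656) (nat_lit 152) (nat_lit 30715816093) (nat_lit 50) (nat_lit 5) (nat_lit 51) (nat_lit 5) (nat_lit 52) (nat_lit 4) (nat_lit 451) (nat_lit 410) (nat_lit 339)) (XT.lf (nat_lit 0) (nat_lit 3926830140) (nat_lit 76) (nat_lit 54109700903) (nat_lit 76) (nat_lit 4679406395) (nat_lit 49) (nat_lit 4) (nat_lit 50) (nat_lit 5) (nat_lit 50) (nat_lit 4) (nat_lit 452) (nat_lit 410)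 (nat_lit 338))) (XT.nd (nat_lit 78) (nat_lit 76) (nat_lit 0) (XT.lf (nat_lit 0) (nat_lit 23962603916) (nat_lit 152) (nat_lit 321372838) (nat_lit 76) (nat_lit 41820636500) (nat_lit 48) (nat_lit 5) (nat_lit 50) (nat_lit 5) (nat_lit 49) (nat_lit 4) (nat_lit 453) (nat_lit 410) (nat_lit 337)) (XT.lf (nat_lit 0) (nat_lit 55868902816) (nat_lit 152) (nat_lit 5068812449) (nat_lit 0) (nat_lit 8765989150) (nat_lit 47) (nat_lit 5) (nat_lit 49) (nat_lit 4) (nat_lit 47) (nat_lit 4) (nat_lit 454) (nat_lit 410) (nat_lit 336))))) (XT.nd (nat_lit 312) (nat_lit 456) (nat_lit 0) (XT.nd (nat_lit 156) (nat_lit 228) (nat_lit 0) (XT.nd (nat_lit 78) (nat_lit 76) (nat_lit 0) (XT.lf (nat_lit 0) (nat_lit 17601535446) (nat_lit 152) (nat_lit 11031537148) (nat_lit 76) (nat_lit 44874573057) (nat_lit 45) (nat_lit 5) (nat_lit 47) (nat_lit 5) (nat_lit 46) (nat_lit 4) (nat_lit 455) (nat_lit 410) (nat_lit 335)) (XT.lf (nat_lit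 0) (nat_lit 52196277933) (nat_lit 152) (nat_lit 18037105131) (nat_lit 0) (nat_lit 7314769339) (nat_lit 44) (nat_lit 5) (nat_lit 46) (nat_lit 4) (nat_lit 44) (nat_lit 4) (nat_lit 456) (nat_lit 410) (nat_lit 334))) (XT.nd (nat_lit 78) (nat_lit 76) (nat_lit 0) (XT.lf (nat_lit 0) (nat_lit 8954223420) (nat_lit 152) (nat_lit 26534961879) (nat_lit 76) (nat_lit 46339132111) (nat_lit 42) (nat_lit 5) (nat_lit 44) (nat_lit 5) (nat_lit 43) (nat_lit 4) (nat_lit 457) (nat_lit 410) (nat_lit 333)) (XT.lf (nat_lit 0) (nat_lit 46266272563) (nat_lit 152) (nat_lit 36602010157) (nat_lit 0) (nat_lit 3504349476) (nat_lit 41) (nat_lit 5) (nat_lit 43) (nat_lit 4) (nat_lit 41) (nat_lit 4) (nat_lit 458) (nat_lit 410) (nat_lit 332)))) (XT.nd (nat_lit 156) (nat_lit 228) (nat_lit 0) (XT.nd (nat_lit 78) (nat_lit 152) (nat_lit 0) (XT.lf (nat_lit 0) (nat_lit 42597618492) (nat_lit 76) (nat_lit 45683379575) (nat_lit 76) (nat_lit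 2913608738) (nat_lit 40) (nat_lit 4) (nat_lit 41) (nat_lit 5) (nat_lit 41) (nat_lit 4) (nat_lit 459) (nat_lit 410) (nat_lit 331)) (XT.lf (nat_lit 0) (nat_lit 33520800033) (nat_lit 76) (nat_lit 3697657188) (nat_lit 152) (nat_lit 59096986305) (nat_lit 38) (nat_lit 5) (nat_lit 39) (nat_lit 5) (nat_lit 40) (nat_lit 4) (nat_lit 460) (nat_lit 410) (nat_lit 330))) (XT.nd (nat_lit 78) (nat_lit 152) (nat_lit 0) (XT.lf (nat_lit 0) (nat_lit 22105055117) (nat_lit 76) (nat_lit 60196412245) (nat_lit 76) (nat_lit 19449968956) (nat_lit 37) (nat_lit 4) (nat_lit 38) (nat_lit 5) (nat_lit 38) (nat_lit 4) (nat_lit 461) (nat_lit 410) (nat_lit 329)) (XT.lf (nat_lit 0) (nat_lit 8262613303) (nat_lit 76) (nat_lit 15647137785) (nat_lit 152) (nat_lit 83629870546) (nat_lit 35) (nat_lit 5) (nat_lit 36) (nat_lit 5) (nat_lit 37) (nat_lit 4) (nat_lit 462) (nat_lit 410) (nat_lit 328))))))))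
noncomputable def xc63 : XT := (XT.nd (nat_lit 2340) (nat_lit 228) (nat_lit 0) (XT.nd (nat_lit 1170) (nat_lit 836) (nat_lit 0) (XT.nd (nat_lit 546) (nat_lit 684) (nat_lit 0) (XT.nd (nat_lit 234) (nat_lit 304) (nat_lit 0) (XT.nd (nat_lit 78) (nat_lit 228) (nat_lit 0) (XT.lf (nat_lit 0) (nat_lit 71969133814) (nat_lit 152) (nat_lit 8558054985) (nat_lit 0) (nat_lit 33152114692) (nat_lit 35) (nat_lit 5) (nat_lit 37) (nat_lit 4) (nat_lit 35) (nat_lit 4) (nat_lit 463) (nat_lit 410) (nat_lit 327)) (XT.nd (nat_lit 78) (nat_lit 76) (nat_lit 0) (XT.lf (nat_lit 0) (nat_lit 5165365335) (nat_lit 152) (nat_lit 28232864671) (nat_lit 76) (nat_lit 86823333552) (nat_lit 33) (nat_lit 5) (nat_lit 35) (nat_lit 5) (nat_lit 34) (nat_lit 4) (nat_lit 464) (nat_lit 410) (nat_lit 326)) (XT.lf (nat_lit 0) (nat_lit 55969983702) (nat_lit 152) (nat_lit 52208505892) (nat_lit 0) (nat_lit 18992508230) (nat_lit 32) (nat_lit 5)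 (nat_lit 34) (nat_lit 4) (nat_lit 32) (nat_lit 4) (nat_lit 465) (nat_lit 410) (nat_lit 325)))) (XT.nd (nat_lit 156) (nat_lit 76) (nat_lit 0) (XT.nd (nat_lit 78) (nat_lit 152) (nat_lit 0) (XT.lf (nat_lit 0) (nat_lit 53899723663) (nat_lit 76) (nat_lit 58831735002) (nat_lit 76) (nat_lit 21850303943) (nat_lit 31) (nat_lit 4) (nat_lit 32) (nat_lit 5) (nat_lit 32) (nat_lit 4) (nat_lit 466) (nat_lit 410) (nat_lit 324)) (XT.lf (nat_lit 0) (nat_lit 28194129310) (nat_lit 76) (nat_lit 3600613592) (nat_lit 152) (nat_lit 110698454503) (nat_lit 29) (nat_lit 5) (nat_lit 30) (nat_lit 5) (nat_lit 31) (nat_lit 4) (nat_lit 467) (nat_lit 410) (nat_lit 323))) (XT.nd (nat_lit 78) (nat_lit 76) (nat_lit 0) (XT.lf (nat_lit 0) (nat_lit 91268284139) (nat_lit 152) (nat_lit 3595076282) (nat_lit 0) (nat_lit 56041155645) (nat_lit 29) (nat_lit 5) (nat_lit 31) (nat_lit 4) (nat_lit 29) (nat_lit 4) (nat_lit 468) (nat_lit 410)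 (nat_lit 322)) (XT.lf (nat_lit 0) (nat_lit 119715074594) (nat_lit 76) (nat_lit 37703910473) (nat_lit 76) (nat_lit 2473791433) (nat_lit 28) (nat_lit 4) (nat_lit 29) (nat_lit 5) (nat_lit 29) (nat_lit 4) (nat_lit 469) (nat_lit 410) (nat_lit 321))))) (XT.nd (nat_lit 312) (nat_lit 304) (nat_lit 0) (XT.nd (nat_lit 156) (nat_lit 152) (nat_lit 0) (XT.nd (nat_lit 78) (nat_lit 76) (nat_lit 0) (XT.lf (nat_lit 0) (nat_lit 59161571503) (nat_lit 152) (nat_lit 84695990826) (nat_lit 0) (nat_lit 25606440014) (nat_lit 26) (nat_lit 5) (nat_lit 28) (nat_lit 4) (nat_lit 26) (nat_lit 4) (nat_lit 470) (nat_lit 410) (nat_lit 320)) (XT.lf (nat_lit 0) (nat_lit 42014006027) (nat_lit 76) (nat_lit 85621375763) (nat_lit 76) (nat_lit 52063802454) (nat_lit 25) (nat_lit 4) (nat_lit 26) (nat_lit 5) (nat_lit 26) (nat_lit 4) (nat_lit 471) (nat_lit 410) (nat_lit 319))) (XT.nd (nat_lit 78) (nat_lit 76) (nat_lit 0) (XT.lf (nat_lit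 0) (nat_lit 11977053770) (nat_lit 152) (nat_lit 9006874023) (nat_lit 76) (nat_lit 169686301057) (nat_lit 24) (nat_lit 5) (nat_lit 26) (nat_lit 5) (nat_lit 25) (nat_lit 4) (nat_lit 472) (nat_lit 410) (nat_lit 318)) (XT.lf (nat_lit 0) (nat_lit 82225009041) (nat_lit 152) (nat_lit 69844609819) (nat_lit 0) (nat_lit 50261268355) (nat_lit 23) (nat_lit 5) (nat_lit 25) (nat_lit 4) (nat_lit 23) (nat_lit 4) (nat_lit 473) (nat_lit 410) (nat_lit 317)))) (XT.nd (nat_lit 156) (nat_lit 76) (nat_lit 0) (XT.nd (nat_lit 78) (nat_lit 152) (nat_lit 0) (XT.lf (nat_lit 0) (nat_lit 72655520084) (nat_lit 76) (nat_lit 87076258067) (nat_lit 76) (nat_lit 55110671290) (nat_lit 22) (nat_lit 4) (nat_lit 23) (nat_lit 5) (nat_lit 23) (nat_lit 4) (nat_lit 474) (nat_lit 410) (nat_lit 316)) (XT.lf (nat_lit 0) (nat_lit 499221616) (nat_lit 76) (nat_lit 15338104108) (nat_lit 152) (nat_lit 212444037648) (nat_lit 20) (nat_lit 5) (nat_lit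 21) (nat_lit 5) (nat_lit 22) (nat_lit 4) (nat_lit 475) (nat_lit 410) (nat_lit 315))) (XT.nd (nat_lit 78) (nat_lit 76) (nat_lit 0) (XT.lf (nat_lit 0) (nat_lit 94035555271) (nat_lit 152) (nat_lit 84950398414) (nat_lit 0) (nat_lit 63589003990) (nat_lit 20) (nat_lit 5) (nat_lit 22) (nat_lit 4) (nat_lit 20) (nat_lit 4) (nat_lit 476) (nat_lit 410) (nat_lit 314)) (XT.lf (nat_lit 0) (nat_lit 71316527609) (nat_lit 76) (nat_lit 108537616938) (nat_lit 76) (nat_lit 78089669955) (nat_lit 19) (nat_lit 4) (nat_lit 20) (nat_lit 5) (nat_lit 20) (nat_lit 4) (nat_lit 477) (nat_lit 410) (nat_lit 313)))))) (XT.nd (nat_lit 546) (nat_lit 380) (nat_lit 0) (XT.nd (nat_lit 234) (nat_lit 228) (nat_lit 0) (XT.nd (nat_lit 78) (nat_lit 228) (nat_lit 0) (XT.lf (nat_lit 0) (nat_lit 243103721475) (nat_lit 76) (nat_lit 30907035470) (nat_lit 76) (nat_lit 457796172) (nat_lit 19) (nat_lit 4) (nat_lit 20) (nat_lit 5) (nat_lit 20)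 (nat_lit 4) (nat_lit 478) (nat_lit 410) (nat_lit 312)) (XT.nd (nat_lit 78) (nat_lit 76) (nat_lit 0) (XT.lf (nat_lit 0) (nat_lit 83769825093) (nat_lit 152) (nat_lit 153558241100) (nat_lit 0) (nat_lit 54769409962) (nat_lit 17) (nat_lit 5) (nat_lit 19) (nat_lit 4) (nat_lit 17) (nat_lit 4) (nat_lit 479) (nat_lit 410) (nat_lit 311)) (XT.lf (nat_lit 0) (nat_lit 11875110553) (nat_lit 76) (nat_lit 164099962403) (nat_lit 76) (nat_lit 135098492079) (nat_lit 16) (nat_lit 4) (nat_lit 17) (nat_lit 5) (nat_lit 17) (nat_lit 4) (nat_lit 480) (nat_lit 410) (nat_lit 310)))) (XT.nd (nat_lit 156) (nat_lit 76) (nat_lit 0) (XT.nd (nat_lit 78) (nat_lit 152) (nat_lit 0) (XT.lf (nat_lit 0) (nat_lit 196013826047) (nat_lit 76) (nat_lit 82211467364) (nat_lit 76) (nat_lit 53209020009) (nat_lit 16) (nat_lit 4) (nat_lit 17) (nat_lit 5) (nat_lit 17) (nat_lit 4) (nat_lit 481) (nat_lit 410) (nat_lit 309)) (XT.lf (nat_lit 0)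 (nat_lit 34874631025) (nat_lit 152) (nat_lit 311230863822) (nat_lit 0) (nat_lit 7252391013) (nat_lit 14) (nat_lit 5) (nat_lit 16) (nat_lit 4) (nat_lit 14) (nat_lit 4) (nat_lit 482) (nat_lit 410) (nat_lit 308))) (XT.nd (nat_lit 78) (nat_lit 76) (nat_lit 0) (XT.lf (nat_lit 0) (nat_lit 131943765895) (nat_lit 152) (nat_lit 140537087320) (nat_lit 0) (nat_lit 104320728125) (nat_lit 14) (nat_lit 5) (nat_lit 16) (nat_lit 4) (nat_lit 14) (nat_lit 4) (nat_lit 483) (nat_lit 410) (nat_lit 307)) (XT.lf (nat_lit 0) (nat_lit 45249593925) (nat_lit 76) (nat_lit 192229949695) (nat_lit 76) (nat_lit 164606173259) (nat_lit 13) (nat_lit 4) (nat_lit 14) (nat_lit 5) (nat_lit 14) (nat_lit 4) (nat_lit 484) (nat_lit 410) (nat_lit 306))))) (XT.nd (nat_lit 312) (nat_lit 228) (nat_lit 0) (XT.nd (nat_lit 156) (nat_lit 0) (nat_lit 0) (XT.nd (nat_lit 78) (nat_lit 152) (nat_lit 0) (XT.lf (nat_lit 0) (nat_lit 250907349018) (nat_lit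 76) (nat_lit 102993773843) (nat_lit 76) (nat_lit 75369313458) (nat_lit 13) (nat_lit 4) (nat_lit 14) (nat_lit 5) (nat_lit 14) (nat_lit 4) (nat_lit 485) (nat_lit 410) (nat_lit 305)) (XT.lf (nat_lit 0) (nat_lit 14514594348) (nat_lit 76) (nat_lit 6041351026) (nat_lit 152) (nat_lit 438046499984) (nat_lit 11) (nat_lit 5) (nat_lit 12) (nat_lit 5) (nat_lit 13) (nat_lit 4) (nat_lit 486) (nat_lit 410) (nat_lit 304))) (XT.nd (nat_lit 78) (nat_lit 0) (nat_lit 0) (XT.lf (nat_lit 0) (nat_lit 126243642385) (nat_lit 152) (nat_lit 263805674164) (nat_lit 0) (nat_lit 99933470911) (nat_lit 11) (nat_lit 5) (nat_lit 13) (nat_lit 4) (nat_lit 11) (nat_lit 4) (nat_lit 487) (nat_lit 410) (nat_lit 303)) (XT.lf (nat_lit 0) (nat_lit 240483883477) (nat_lit 152) (nat_lit 69211602138) (nat_lit 0) (nat_lit 214173194916) (nat_lit 11) (nat_lit 5) (nat_lit 13) (nat_lit 4) (nat_lit 11) (nat_lit 4) (nat_lit 488) (nat_lit 410) (nat_lit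 302)))) (XT.nd (nat_lit 156) (nat_lit 152) (nat_lit 0) (XT.nd (nat_lit 78) (nat_lit 0) (nat_lit 0) (XT.lf (nat_lit 0) (nat_lit 145602011204) (nat_lit 76) (nat_lit 220530569676) (nat_lit 76) (nat_lit 194219402332) (nat_lit 10) (nat_lit 4) (nat_lit 11) (nat_lit 5) (nat_lit 11) (nat_lit 4) (nat_lit 489) (nat_lit 410) (nat_lit 301)) (XT.lf (nat_lit 0) (nat_lit 380064434036) (nat_lit 76) (nat_lit 122970518903) (nat_lit 76) (nat_lit 96658908241) (nat_lit 10) (nat_lit 4) (nat_lit 11) (nat_lit 5) (nat_lit 11) (nat_lit 4) (nat_lit 490) (nat_lit 410) (nat_lit 300))) (XT.nd (nat_lit 78) (nat_lit 76) (nat_lit 0) (XT.lf (nat_lit 0) (nat_lit 8424149094) (nat_lit 152) (nat_lit 9042515498) (nat_lit 76) (nat_lit 624709809035) (nat_lit 9) (nat_lit 5) (nat_lit 11) (nat_lit 5) (nat_lit 10) (nat_lit 4) (nat_lit 491) (nat_lit 410) (nat_lit 299)) (XT.lf (nat_lit 0) (nat_lit 123655623562) (nat_lit 152) (nat_lit 465470237583)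 (nat_lit 0) (nat_lit 98596193832) (nat_lit 8) (nat_lit 5) (nat_lit 10) (nat_lit 4) (nat_lit 8) (nat_lit 4) (nat_lit 492) (nat_lit 410) (nat_lit 298))))))) (XT.nd (nat_lit 56472) (nat_lit 0) (nat_lit 7144) (XT.nd (nat_lit 546) (nat_lit 0) (nat_lit 0) (XT.nd (nat_lit 234) (nat_lit 152) (nat_lit 0) (XT.nd (nat_lit 78) (nat_lit 76) (nat_lit 0) (XT.lf (nat_lit 0) (nat_lit 248556979316) (nat_lit 152) (nat_lit 264834520940) (nat_lit 0) (nat_lit 223497214424) (nat_lit 8) (nat_lit 5) (nat_lit 10) (nat_lit 4) (nat_lit 8) (nat_lit 4) (nat_lit 493) (nat_lit 410) (nat_lit 297)) (XT.nd (nat_lit 78) (nat_lit 76) (nat_lit 0) (XT.lf (nat_lit 0) (nat_lit 383447430996) (nat_lit 152) (nat_lit 48154071033) (nat_lit 0) (nat_lit 358387355768) (nat_lit 8) (nat_lit 5) (nat_lit 10) (nat_lit 4) (nat_lit 8) (nat_lit 4) (nat_lit 494) (nat_lit 410) (nat_lit 296)) (XT.lf (nat_lit 0) (nat_lit 192000354852) (nat_lit 76) (nat_lit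 340123638192) (nat_lit 76) (nat_lit 315063275616) (nat_lit 7) (nat_lit 4) (nat_lit 8) (nat_lit 5) (nat_lit 8) (nat_lit 4) (nat_lit 495) (nat_lit 410) (nat_lit 295)))) (XT.nd (nat_lit 156) (nat_lit 152) (nat_lit 0) (XT.nd (nat_lit 78) (nat_lit 0) (nat_lit 0) (XT.lf (nat_lit 0) (nat_lit 453081277150) (nat_lit 76) (nat_lit 240449548310) (nat_lit 76) (nat_lit 215388919671) (nat_lit 7) (nat_lit 4) (nat_lit 8) (nat_lit 5) (nat_lit 8) (nat_lit 4) (nat_lit 496) (nat_lit 410) (nat_lit 294)) (XT.lf (nat_lit 0) (nat_lit 735043651007) (nat_lit 76) (nat_lit 132804083604) (nat_lit 76) (nat_lit 107743208611) (nat_lit 7) (nat_lit 4) (nat_lit 8) (nat_lit 5) (nat_lit 8) (nat_lit 4) (nat_lit 497) (nat_lit 410) (nat_lit 293))) (XT.nd (nat_lit 78) (nat_lit 76) (nat_lit 0) (XT.lf (nat_lit 0) (nat_lit 8239328659) (nat_lit 152) (nat_lit 8170479347) (nat_lit 76) (nat_lit 1031179498887) (nat_lit 6) (nat_lit 5) (nat_lit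 8) (nat_lit 5) (nat_lit 7) (nat_lit 4) (nat_lit 498) (nat_lit 410) (nat_lit 292)) (XT.lf (nat_lit 0) (nat_lit 135460565363) (nat_lit 152) (nat_lit 877919268538) (nat_lit 0) (nat_lit 111592646975) (nat_lit 5) (nat_lit 5) (nat_lit 7) (nat_lit 4) (nat_lit 5) (nat_lit 4) (nat_lit 499) (nat_lit 410) (nat_lit 291))))) (XT.nd (nat_lit 55614) (nat_lit 0) (nat_lit 11628) (XT.nd (nat_lit 156) (nat_lit 0) (nat_lit 0) (XT.nd (nat_lit 78) (nat_lit 0) (nat_lit 0) (XT.lf (nat_lit 0) (nat_lit 273278766609) (nat_lit 152) (nat_lit 685835916924) (nat_lit 0) (nat_lit 249410661970) (nat_lit 5) (nat_lit 5) (nat_lit 7) (nat_lit 4) (nat_lit 5) (nat_lit 4) (nat_lit 500) (nat_lit 410) (nat_lit 290)) (XT.lf (nat_lit 0) (nat_lit 422120487474) (nat_lit 152) (nat_lit 478389838278) (nat_lit 0) (nat_lit 398252210379) (nat_lit 5) (nat_lit 5) (nat_lit 7) (nat_lit 4) (nat_lit 5) (nat_lit 4) (nat_lit 501) (nat_lit 410) (nat_lit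 289))) (XT.nd (nat_lit 55380) (nat_lit 0) (nat_lit 11628) (XT.lf (nat_lit 0) (nat_lit 582867752969) (nat_lit 152) (nat_lit 254351722504) (nat_lit 0) (nat_lit 558999316194) (nat_lit 5) (nat_lit 5) (nat_lit 7) (nat_lit 4) (nat_lit 5) (nat_lit 4) (nat_lit 502) (nat_lit 410) (nat_lit 288)) (XT.lf (nat_lit 0) (nat_lit 955243136) (nat_lit 0) (nat_lit 955243136) (nat_lit 684) (nat_lit 3068185402) (nat_lit 158) (nat_lit 5) (nat_lit 158) (nat_lit 3) (nat_lit 167) (nat_lit 3) (nat_lit 411) (nat_lit 411) (nat_lit 378)))) (XT.nd (nat_lit 156) (nat_lit 0) (nat_lit 76) (XT.nd (nat_lit 78) (nat_lit 0) (nat_lit 76) (XT.lf (nat_lit 0) (nat_lit 5161533027) (nat_lit 684) (nat_lit 215635869) (nat_lit 760) (nat_lit 4918899116) (nat_lit 158) (nat_lit 5) (nat_lit 167) (nat_lit 3) (nat_lit 168) (nat_lit 5) (nat_lit 412) (nat_lit 411) (nat_lit 377)) (XT.lf (nat_lit 0) (nat_lit 6690337808) (nat_lit 684) (nat_lit 2269216799)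 (nat_lit 760) (nat_lit 1698304377) (nat_lit 159) (nat_lit 5) (nat_lit 168) (nat_lit 5) (nat_lit 169) (nat_lit 5) (nat_lit 413) (nat_lit 411) (nat_lit 376))) (XT.nd (nat_lit 78) (nat_lit 0) (nat_lit 76) (XT.lf (nat_lit 76) (nat_lit 6699220416) (nat_lit 0) (nat_lit 1739187744) (nat_lit 760) (nat_lit 2605353965) (nat_lit 160) (nat_lit 5) (nat_lit 159) (nat_lit 5) (nat_lit 169) (nat_lit 5) (nat_lit 414) (nat_lit 411) (nat_lit 375)) (XT.lf (nat_lit 76) (nat_lit 5005044339) (nat_lit 0) (nat_lit 5439188377) (nat_lit 760) (nat_lit 1010425069) (nat_lit 161) (nat_lit 5) (nat_lit 160) (nat_lit 5) (nat_lit 170) (nat_lit 5) (nat_lit 415) (nat_lit 411) (nat_lit 374)))))) (XT.nd (nat_lit 546) (nat_lit 2052) (nat_lit 0) (XT.nd (nat_lit 234) (nat_lit 1900) (nat_lit 0) (XT.nd (nat_lit 78) (nat_lit 0) (nat_lit 0) (XT.lf (nat_lit 0) (nat_lit 798237607) (nat_lit 760) (nat_lit 8573702404) (nat_lit 836) (nat_lit 2520496484)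 (nat_lit 151) (nat_lit 5) (nat_lit 161) (nat_lit 5) (nat_lit 162) (nat_lit 5) (nat_lit 416) (nat_lit 411) (nat_lit 373)) (XT.nd (nat_lit 78) (nat_lit 0) (nat_lit 76) (XT.lf (nat_lit 76) (nat_lit 1611002801) (nat_lit 0) (nat_lit 1252275957) (nat_lit 836) (nat_lit 9493789050) (nat_lit 152) (nat_lit 5) (nat_lit 151) (nat_lit 5) (nat_lit 162) (nat_lit 5) (nat_lit 417) (nat_lit 411) (nat_lit 372)) (XT.lf (nat_lit 0) (nat_lit 5283661362) (nat_lit 760) (nat_lit 124939675) (nat_lit 76) (nat_lit 7440773547) (nat_lit 152) (nat_lit 5) (nat_lit 162) (nat_lit 5) (nat_lit 153) (nat_lit 5) (nat_lit 418) (nat_lit 411) (nat_lit 371)))) (XT.nd (nat_lit 156) (nat_lit 836) (nat_lit 0) (XT.nd (nat_lit 78) (nat_lit 380) (nat_lit 0) (XT.lf (nat_lit 0) (nat_lit 8083509371) (nat_lit 836) (nat_lit 1798988565) (nat_lit 76) (nat_lit 3489287216) (nat_lit 142) (nat_lit 5) (nat_lit 153) (nat_lit 5) (nat_lit 143) (nat_lit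 5) (nat_lit 419) (nat_lit 411) (nat_lit 370)) (XT.lf (nat_lit 0) (nat_lit 10452362140) (nat_lit 380) (nat_lit 842964869) (nat_lit 456) (nat_lit 2631272640) (nat_lit 137) (nat_lit 5) (nat_lit 142) (nat_lit 5) (nat_lit 143) (nat_lit 5) (nat_lit 420) (nat_lit 411) (nat_lit 369))) (XT.nd (nat_lit 78) (nat_lit 380) (nat_lit 0) (XT.lf (nat_lit 0) (nat_lit 486850854) (nat_lit 456) (nat_lit 5205109103) (nat_lit 76) (nat_lit 8820852955) (nat_lit 131) (nat_lit 5) (nat_lit 137) (nat_lit 5) (nat_lit 132) (nat_lit 5) (nat_lit 421) (nat_lit 411) (nat_lit 368)) (XT.lf (nat_lit 0) (nat_lit 3973541572) (nat_lit 456) (nat_lit 6972304341) (nat_lit 76) (nat_lit 4187363635) (nat_lit 126) (nat_lit 5) (nat_lit 132) (nat_lit 5) (nat_lit 127) (nat_lit 5) (nat_lit 422) (nat_lit 411) (nat_lit 367))))) (XT.nd (nat_lit 312) (nat_lit 760) (nat_lit 0) (XT.nd (nat_lit 156) (nat_lit 684) (nat_lit 0) (XT.nd (nat_lit 78) (nat_lit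 304) (nat_lit 0) (XT.lf (nat_lit 0) (nat_lit 7045979075) (nat_lit 304) (nat_lit 933139840) (nat_lit 380) (nat_lit 7812129122) (nat_lit 122) (nat_lit 5) (nat_lit 126) (nat_lit 5) (nat_lit 127) (nat_lit 5) (nat_lit 423) (nat_lit 411) (nat_lit 366)) (XT.lf (nat_lit 0) (nat_lit 5906407203) (nat_lit 304) (nat_lit 6713681584) (nat_lit 380) (nat_lit 3866100624) (nat_lit 118) (nat_lit 5) (nat_lit 122) (nat_lit 5) (nat_lit 123) (nat_lit 5) (nat_lit 424) (nat_lit 411) (nat_lit 365))) (XT.nd (nat_lit 78) (nat_lit 304) (nat_lit 0) (XT.lf (nat_lit 0) (nat_lit 644187419) (nat_lit 380) (nat_lit 12412847238) (nat_lit 76) (nat_lit 4166326925) (nat_lit 113) (nat_lit 5) (nat_lit 118) (nat_lit 5) (nat_lit 114) (nat_lit 5) (nat_lit 425) (nat_lit 411) (nat_lit 364)) (XT.lf (nat_lit 0) (nat_lit 3671983786) (nat_lit 304) (nat_lit 2017557583) (nat_lit 380) (nat_lit 12311318428) (nat_lit 109) (nat_lit 5) (nat_lit 113)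 (nat_lit 5) (nat_lit 114) (nat_lit 5) (nat_lit 426) (nat_lit 411) (nat_lit 363)))) (XT.nd (nat_lit 156) (nat_lit 304) (nat_lit 0) (XT.nd (nat_lit 78) (nat_lit 228) (nat_lit 0) (XT.lf (nat_lit 0) (nat_lit 2516408577) (nat_lit 228) (nat_lit 8988386814) (nat_lit 304) (nat_lit 7317454278) (nat_lit 106) (nat_lit 5) (nat_lit 109) (nat_lit 5) (nat_lit 110) (nat_lit 5) (nat_lit 427) (nat_lit 411) (nat_lit 362)) (XT.lf (nat_lit 0) (nat_lit 1425277155) (nat_lit 228) (nat_lit 16668888515) (nat_lit 304) (nat_lit 1599745246) (nat_lit 103) (nat_lit 5) (nat_lit 106) (nat_lit 5) (nat_lit 107) (nat_lit 5) (nat_lit 428) (nat_lit 411) (nat_lit 361))) (XT.nd (nat_lit 78) (nat_lit 0) (nat_lit 0) (XT.lf (nat_lit 0) (nat_lit 255533068) (nat_lit 228) (nat_lit 4574255734) (nat_lit 304) (nat_lit 15781906481) (nat_lit 99) (nat_lit 5) (nat_lit 102) (nat_lit 5) (nat_lit 103) (nat_lit 5) (nat_lit 429) (nat_lit 411) (nat_lit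 360)) (XT.lf (nat_lit 0) (nat_lit 12132990610) (nat_lit 304) (nat_lit 897890180) (nat_lit 76) (nat_lit 8549946798) (nat_lit 99) (nat_lit 5) (nat_lit 103) (nat_lit 5) (nat_lit 100) (nat_lit 5) (nat_lit 430) (nat_lit 411) (nat_lit 359))))))))
noncomputable def xc64 : XT := (XT.nd (nat_lit 2262) (nat_lit 2280) (nat_lit 0) (XT.nd (nat_lit 1092) (nat_lit 1748) (nat_lit 0) (XT.nd (nat_lit 546) (nat_lit 1140) (nat_lit 0) (XT.nd (nat_lit 234) (nat_lit 836) (nat_lit 0) (XT.nd (nat_lit 78) (nat_lit 456) (nat_lit 0) (XT.lf (nat_lit 0) (nat_lit 20385717566) (nat_lit 304) (nat_lit 1968596232) (nat_lit 76) (nat_lit 254916997) (nat_lit 96) (nat_lit 5) (nat_lit 100) (nat_lit 5) (nat_lit 97) (nat_lit 5) (nat_lit 431) (nat_lit 411) (nat_lit 358)) (XT.nd (nat_lit 78) (nat_lit 228) (nat_lit 0) (XT.lf (nat_lit 0) (nat_lit 5929414254) (nat_lit 228) (nat_lit 3189853803) (nat_lit 76) (nat_lit 14569825880) (nat_lit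 93) (nat_lit 5) (nat_lit 96) (nat_lit 5) (nat_lit 94) (nat_lit 5) (nat_lit 432) (nat_lit 411) (nat_lit 357)) (XT.lf (nat_lit 0) (nat_lit 15065073401) (nat_lit 304) (nat_lit 4377294449) (nat_lit 76) (nat_lit 5390738881) (nat_lit 90) (nat_lit 5) (nat_lit 94) (nat_lit 5) (nat_lit 91) (nat_lit 5) (nat_lit 433) (nat_lit 411) (nat_lit 356)))) (XT.nd (nat_lit 156) (nat_lit 380) (nat_lit 0) (XT.nd (nat_lit 78) (nat_lit 304) (nat_lit 0) (XT.lf (nat_lit 0) (nat_lit 20489586452) (nat_lit 152) (nat_lit 4938430466) (nat_lit 228) (nat_lit 615804898) (nat_lit 88) (nat_lit 5) (nat_lit 90) (nat_lit 5) (nat_lit 91) (nat_lit 5) (nat_lit 434) (nat_lit 411) (nat_lit 355)) (XT.lf (nat_lit 0) (nat_lit 9514891562) (nat_lit 304) (nat_lit 6884936402) (nat_lit 76) (nat_lit 10917186069) (nat_lit 84) (nat_lit 5) (nat_lit 88) (nat_lit 5) (nat_lit 85) (nat_lit 5) (nat_lit 435) (nat_lit 411) (nat_lit 354))) (XT.nd (nat_lit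 78) (nat_lit 228) (nat_lit 0) (XT.lf (nat_lit 0) (nat_lit 20519402586) (nat_lit 152) (nat_lit 386153122) (nat_lit 228) (nat_lit 7762449150) (nat_lit 82) (nat_lit 5) (nat_lit 84) (nat_lit 5) (nat_lit 85) (nat_lit 5) (nat_lit 436) (nat_lit 411) (nat_lit 353)) (XT.lf (nat_lit 0) (nat_lit 3670261218) (nat_lit 228) (nat_lit 9568184461) (nat_lit 76) (nat_lit 16851803881) (nat_lit 79) (nat_lit 5) (nat_lit 82) (nat_lit 5) (nat_lit 80) (nat_lit 5) (nat_lit 437) (nat_lit 411) (nat_lit 352))))) (XT.nd (nat_lit 234) (nat_lit 608) (nat_lit 0) (XT.nd (nat_lit 78) (nat_lit 380) (nat_lit 0) (XT.lf (nat_lit 0) (nat_lit 16262519565) (nat_lit 228) (nat_lit 11036359525) (nat_lit 76) (nat_lit 4295189507) (nat_lit 77) (nat_lit 5) (nat_lit 80) (nat_lit 5) (nat_lit 78) (nat_lit 5) (nat_lit 438) (nat_lit 411) (nat_lit 351)) (XT.nd (nat_lit 78) (nat_lit 228) (nat_lit 0) (XT.lf (nat_lit 0) (nat_lit 20611942918) (nat_lit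 152) (nat_lit 9936876873) (nat_lit 228) (nat_lit 2635042064) (nat_lit 75) (nat_lit 5) (nat_lit 77) (nat_lit 5) (nat_lit 78) (nat_lit 5) (nat_lit 439) (nat_lit 411) (nat_lit 350)) (XT.lf (nat_lit 0) (nat_lit 11363594857) (nat_lit 228) (nat_lit 14279785784) (nat_lit 76) (nat_lit 9216764764) (nat_lit 72) (nat_lit 5) (nat_lit 75) (nat_lit 5) (nat_lit 73) (nat_lit 5) (nat_lit 440) (nat_lit 411) (nat_lit 349)))) (XT.nd (nat_lit 156) (nat_lit 304) (nat_lit 0) (XT.nd (nat_lit 78) (nat_lit 152) (nat_lit 0) (XT.lf (nat_lit 0) (nat_lit 20571910739) (nat_lit 152) (nat_lit 6504600844) (nat_lit 228) (nat_lit 9557526228) (nat_lit 70) (nat_lit 5) (nat_lit 72) (nat_lit 5) (nat_lit 73) (nat_lit 5) (nat_lit 441) (nat_lit 411) (nat_lit 348)) (XT.lf (nat_lit 0) (nat_lit 6103612120) (nat_lit 152) (nat_lit 18036370974) (nat_lit 76) (nat_lit 14366422986) (nat_lit 68) (nat_lit 5) (nat_lit 70) (nat_lit 5) (nat_lit 69)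 (nat_lit 5) (nat_lit 442) (nat_lit 411) (nat_lit 347))) (XT.nd (nat_lit 78) (nat_lit 152) (nat_lit 0) (XT.lf (nat_lit 0) (nat_lit 20315587779) (nat_lit 152) (nat_lit 3058819489) (nat_lit 228) (nat_lit 17111742934) (nat_lit 66) (nat_lit 5) (nat_lit 68) (nat_lit 5) (nat_lit 69) (nat_lit 5) (nat_lit 443) (nat_lit 411) (nat_lit 346)) (XT.lf (nat_lit 0) (nat_lit 353711004) (nat_lit 152) (nat_lit 22525769336) (nat_lit 76) (nat_lit 19698661005) (nat_lit 64) (nat_lit 5) (nat_lit 66) (nat_lit 5) (nat_lit 65) (nat_lit 5) (nat_lit 444) (nat_lit 411) (nat_lit 345)))))) (XT.nd (nat_lit 546) (nat_lit 760) (nat_lit 0) (XT.nd (nat_lit 234) (nat_lit 532) (nat_lit 0) (XT.nd (nat_lit 78) (nat_lit 304) (nat_lit 0) (XT.lf (nat_lit 0) (nat_lit 19322604700) (nat_lit 228) (nat_lit 25158211185) (nat_lit 76) (nat_lit 307365055) (nat_lit 62) (nat_lit 5) (nat_lit 65) (nat_lit 5) (nat_lit 63) (nat_lit 4) (nat_lit 445) (nat_lit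 411) (nat_lit 344)) (XT.nd (nat_lit 78) (nat_lit 228) (nat_lit 0) (XT.lf (nat_lit 0) (nat_lit 18982567340) (nat_lit 76) (nat_lit 21885688874) (nat_lit 152) (nat_lit 6253806061) (nat_lit 61) (nat_lit 5) (nat_lit 62) (nat_lit 5) (nat_lit 63) (nat_lit 4) (nat_lit 446) (nat_lit 411) (nat_lit 343)) (XT.lf (nat_lit 0) (nat_lit 14794882007) (nat_lit 228) (nat_lit 31406782544) (nat_lit 76) (nat_lit 3391479852) (nat_lit 58) (nat_lit 5) (nat_lit 61) (nat_lit 5) (nat_lit 59) (nat_lit 4) (nat_lit 447) (nat_lit 411) (nat_lit 342)))) (XT.nd (nat_lit 156) (nat_lit 228) (nat_lit 0) (XT.nd (nat_lit 78) (nat_lit 228) (nat_lit 0) (XT.lf (nat_lit 0) (nat_lit 17009700607) (nat_lit 76) (nat_lit 21414053593) (nat_lit 152) (nat_lit 13777263956) (nat_lit 57) (nat_lit 5) (nat_lit 58) (nat_lit 5) (nat_lit 59) (nat_lit 4) (nat_lit 448) (nat_lit 411) (nat_lit 341)) (XT.lf (nat_lit 0) (nat_lit 9520765628) (nat_lit 228) (nat_lit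 39320543327) (nat_lit 76) (nat_lit 6125194943) (nat_lit 54) (nat_lit 5) (nat_lit 57) (nat_lit 5) (nat_lit 55) (nat_lit 4) (nat_lit 449) (nat_lit 411) (nat_lit 340))) (XT.nd (nat_lit 78) (nat_lit 152) (nat_lit 0) (XT.lf (nat_lit 0) (nat_lit 13682794441) (nat_lit 76) (nat_lit 21702301222) (nat_lit 152) (nat_lit 22497583273) (nat_lit 53) (nat_lit 5) (nat_lit 54) (nat_lit 5) (nat_lit 55) (nat_lit 4) (nat_lit 450) (nat_lit 411) (nat_lit 339)) (XT.lf (nat_lit 0) (nat_lit 3205869688) (nat_lit 152) (nat_lit 49498269263) (nat_lit 76) (nat_lit 8276593403) (nat_lit 51) (nat_lit 5) (nat_lit 53) (nat_lit 5) (nat_lit 52) (nat_lit 4) (nat_lit 451) (nat_lit 411) (nat_lit 338))))) (XT.nd (nat_lit 312) (nat_lit 456) (nat_lit 0) (XT.nd (nat_lit 156) (nat_lit 152) (nat_lit 0) (XT.nd (nat_lit 78) (nat_lit 76) (nat_lit 0) (XT.lf (nat_lit 0) (nat_lit 8385945817) (nat_lit 76) (nat_lit 23063510338) (nat_lit 152) (nat_lit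 32795130580) (nat_lit 50) (nat_lit 5) (nat_lit 51) (nat_lit 5) (nat_lit 52) (nat_lit 4) (nat_lit 452) (nat_lit 411) (nat_lit 337)) (XT.lf (nat_lit 0) (nat_lit 4912102477) (nat_lit 76) (nat_lit 58115864082) (nat_lit 76) (nat_lit 4687811503) (nat_lit 49) (nat_lit 4) (nat_lit 50) (nat_lit 5) (nat_lit 50) (nat_lit 4) (nat_lit 453) (nat_lit 411) (nat_lit 336))) (XT.nd (nat_lit 78) (nat_lit 0) (nat_lit 0) (XT.lf (nat_lit 0) (nat_lit 294612354) (nat_lit 76) (nat_lit 25917594785) (nat_lit 152) (nat_lit 45164137741) (nat_lit 47) (nat_lit 5) (nat_lit 48) (nat_lit 5) (nat_lit 49) (nat_lit 4) (nat_lit 454) (nat_lit 411) (nat_lit 335)) (XT.lf (nat_lit 0) (nat_lit 60656110142) (nat_lit 152) (nat_lit 4858418566) (nat_lit 0) (nat_lit 9749580186) (nat_lit 47) (nat_lit 5) (nat_lit 49) (nat_lit 4) (nat_lit 47) (nat_lit 4) (nat_lit 455) (nat_lit 411) (nat_lit 334)))) (XT.nd (nat_lit 156) (nat_lit 228) (nat_lit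 0) (XT.nd (nat_lit 78) (nat_lit 76) (nat_lit 0) (XT.lf (nat_lit 0) (nat_lit 19317997923) (nat_lit 152) (nat_lit 11314726076) (nat_lit 76) (nat_lit 48740110044) (nat_lit 45) (nat_lit 5) (nat_lit 47) (nat_lit 5) (nat_lit 46) (nat_lit 4) (nat_lit 456) (nat_lit 411) (nat_lit 333)) (XT.lf (nat_lit 0) (nat_lit 56670783897) (nat_lit 152) (nat_lit 18896410931) (nat_lit 0) (nat_lit 8169863768) (nat_lit 44) (nat_lit 5) (nat_lit 46) (nat_lit 4) (nat_lit 44) (nat_lit 4) (nat_lit 457) (nat_lit 411) (nat_lit 332))) (XT.nd (nat_lit 78) (nat_lit 76) (nat_lit 0) (XT.lf (nat_lit 0) (nat_lit 9960631680) (nat_lit 152) (nat_lit 28089865322) (nat_lit 76) (nat_lit 50309577156) (nat_lit 42) (nat_lit 5) (nat_lit 44) (nat_lit 5) (nat_lit 43) (nat_lit 4) (nat_lit 458) (nat_lit 411) (nat_lit 331)) (XT.lf (nat_lit 0) (nat_lit 50248794473) (nat_lit 152) (nat_lit 38977254764) (nat_lit 0) (nat_lit 4042327783) (nat_lit 41)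 (nat_lit 5) (nat_lit 43) (nat_lit 4) (nat_lit 41) (nat_lit 4) (nat_lit 459) (nat_lit 411) (nat_lit 330))))))) (XT.nd (nat_lit 1170) (nat_lit 912) (nat_lit 0) (XT.nd (nat_lit 546) (nat_lit 684) (nat_lit 0) (XT.nd (nat_lit 234) (nat_lit 380) (nat_lit 0) (XT.nd (nat_lit 78) (nat_lit 228) (nat_lit 0) (XT.lf (nat_lit 0) (nat_lit 46534315113) (nat_lit 76) (nat_lit 49077809197) (nat_lit 76) (nat_lit 2864614326) (nat_lit 40) (nat_lit 4) (nat_lit 41) (nat_lit 5) (nat_lit 41) (nat_lit 4) (nat_lit 460) (nat_lit 411) (nat_lit 329)) (XT.nd (nat_lit 78) (nat_lit 76) (nat_lit 0) (XT.lf (nat_lit 0) (nat_lit 36717006447) (nat_lit 76) (nat_lit 3739789218) (nat_lit 152) (nat_lit 63550836375) (nat_lit 38) (nat_lit 5) (nat_lit 39) (nat_lit 5) (nat_lit 40) (nat_lit 4) (nat_lit 461) (nat_lit 411) (nat_lit 328)) (XT.lf (nat_lit 0) (nat_lit 24374331976) (nat_lit 76) (nat_lit 64764278844) (nat_lit 76) (nat_lit 20740285512)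 (nat_lit 37) (nat_lit 4) (nat_lit 38) (nat_lit 5) (nat_lit 38) (nat_lit 4) (nat_lit 462) (nat_lit 411) (nat_lit 327)))) (XT.nd (nat_lit 156) (nat_lit 228) (nat_lit 0) (XT.nd (nat_lit 78) (nat_lit 0) (nat_lit 0) (XT.lf (nat_lit 0) (nat_lit 9410864680) (nat_lit 76) (nat_lit 16657401038) (nat_lit 152) (nat_lit 90062235756) (nat_lit 35) (nat_lit 5) (nat_lit 36) (nat_lit 5) (nat_lit 37) (nat_lit 4) (nat_lit 463) (nat_lit 411) (nat_lit 326)) (XT.lf (nat_lit 0) (nat_lit 77957687812) (nat_lit 152) (nat_lit 8783660873) (nat_lit 0) (nat_lit 36020744991) (nat_lit 35) (nat_lit 5) (nat_lit 37) (nat_lit 4) (nat_lit 35) (nat_lit 4) (nat_lit 464) (nat_lit 411) (nat_lit 325))) (XT.nd (nat_lit 78) (nat_lit 76) (nat_lit 0) (XT.lf (nat_lit 0) (nat_lit 5802982170) (nat_lit 152) (nat_lit 30044982738) (nat_lit 76) (nat_lit 93980101771) (nat_lit 33) (nat_lit 5) (nat_lit 35) (nat_lit 5) (nat_lit 34) (nat_lit 4) (nat_lit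 465) (nat_lit 411) (nat_lit 324)) (XT.lf (nat_lit 0) (nat_lit 60665337429) (nat_lit 152) (nat_lit 55950676361) (nat_lit 0) (nat_lit 20717773716) (nat_lit 32) (nat_lit 5) (nat_lit 34) (nat_lit 4) (nat_lit 32) (nat_lit 4) (nat_lit 466) (nat_lit 411) (nat_lit 323))))) (XT.nd (nat_lit 312) (nat_lit 380) (nat_lit 0) (XT.nd (nat_lit 156) (nat_lit 76) (nat_lit 0) (XT.nd (nat_lit 78) (nat_lit 152) (nat_lit 0) (XT.lf (nat_lit 0) (nat_lit 58627328283) (nat_lit 76) (nat_lit 63330761201) (nat_lit 76) (nat_lit 23379806210) (nat_lit 31) (nat_lit 4) (nat_lit 32) (nat_lit 5) (nat_lit 32) (nat_lit 4) (nat_lit 467) (nat_lit 411) (nat_lit 322)) (XT.lf (nat_lit 0) (nat_lit 30853915885) (nat_lit 76) (nat_lit 3686577260) (nat_lit 152) (nat_lit 119342049557) (nat_lit 29) (nat_lit 5) (nat_lit 30) (nat_lit 5) (nat_lit 31) (nat_lit 4) (nat_lit 468) (nat_lit 411) (nat_lit 321))) (XT.nd (nat_lit 78) (nat_lit 76) (nat_lit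 0) (XT.lf (nat_lit 0) (nat_lit 98759863473) (nat_lit 152) (nat_lit 3501930898) (nat_lit 0) (nat_lit 60705575341) (nat_lit 29) (nat_lit 5) (nat_lit 31) (nat_lit 4) (nat_lit 29) (nat_lit 4) (nat_lit 469) (nat_lit 411) (nat_lit 320)) (XT.lf (nat_lit 0) (nat_lit 129656485052) (nat_lit 76) (nat_lit 40537738965) (nat_lit 76) (nat_lit 2480886921) (nat_lit 28) (nat_lit 4) (nat_lit 29) (nat_lit 5) (nat_lit 29) (nat_lit 4) (nat_lit 470) (nat_lit 411) (nat_lit 319)))) (XT.nd (nat_lit 156) (nat_lit 152) (nat_lit 0) (XT.nd (nat_lit 78) (nat_lit 76) (nat_lit 0) (XT.lf (nat_lit 0) (nat_lit 64073820761) (nat_lit 152) (nat_lit 91111395294) (nat_lit 0) (nat_lit 27826938823) (nat_lit 26) (nat_lit 5) (nat_lit 28) (nat_lit 4) (nat_lit 26) (nat_lit 4) (nat_lit 471) (nat_lit 411) (nat_lit 318)) (XT.lf (nat_lit 0) (nat_lit 45719744204) (nat_lit 76) (nat_lit 92297888889) (nat_lit 76) (nat_lit 56048913484) (nat_lit 25)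 (nat_lit 4) (nat_lit 26) (nat_lit 5) (nat_lit 26) (nat_lit 4) (nat_lit 472) (nat_lit 411) (nat_lit 317))) (XT.nd (nat_lit 78) (nat_lit 76) (nat_lit 0) (XT.lf (nat_lit 0) (nat_lit 13096544239) (nat_lit 152) (nat_lit 9402998109) (nat_lit 76) (nat_lit 183416237296) (nat_lit 24) (nat_lit 5) (nat_lit 26) (nat_lit 5) (nat_lit 25) (nat_lit 4) (nat_lit 473) (nat_lit 411) (nat_lit 316)) (XT.lf (nat_lit 0) (nat_lit 88959668159) (nat_lit 152) (nat_lit 75116576991) (nat_lit 0) (nat_lit 54433279006) (nat_lit 23) (nat_lit 5) (nat_lit 25) (nat_lit 4) (nat_lit 23) (nat_lit 4) (nat_lit 474) (nat_lit 411) (nat_lit 315)))))) (XT.nd (nat_lit 546) (nat_lit 380) (nat_lit 0) (XT.nd (nat_lit 234) (nat_lit 304) (nat_lit 0) (XT.nd (nat_lit 78) (nat_lit 152) (nat_lit 0) (XT.lf (nat_lit 0) (nat_lit 78769847642) (nat_lit 76) (nat_lit 93890240116) (nat_lit 76) (nat_lit 59362268237) (nat_lit 22) (nat_lit 4) (nat_lit 23) (nat_lit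 5) (nat_lit 23) (nat_lit 4) (nat_lit 475) (nat_lit 411) (nat_lit 314)) (XT.nd (nat_lit 78) (nat_lit 0) (nat_lit 0) (XT.lf (nat_lit 0) (nat_lit 832741105) (nat_lit 76) (nat_lit 16417102050) (nat_lit 152) (nat_lit 229286751807) (nat_lit 20) (nat_lit 5) (nat_lit 21) (nat_lit 5) (nat_lit 22) (nat_lit 4) (nat_lit 476) (nat_lit 411) (nat_lit 313)) (XT.lf (nat_lit 0) (nat_lit 101695291225) (nat_lit 152) (nat_lit 91469997178) (nat_lit 0) (nat_lit 68808820466) (nat_lit 20) (nat_lit 5) (nat_lit 22) (nat_lit 4) (nat_lit 20) (nat_lit 4) (nat_lit 477) (nat_lit 411) (nat_lit 312)))) (XT.nd (nat_lit 156) (nat_lit 228) (nat_lit 0) (XT.nd (nat_lit 78) (nat_lit 0) (nat_lit 0) (XT.lf (nat_lit 0) (nat_lit 77286269481) (nat_lit 76) (nat_lit 117087086379) (nat_lit 76) (nat_lit 84199419032) (nat_lit 19) (nat_lit 4) (nat_lit 20) (nat_lit 5) (nat_lit 20) (nat_lit 4) (nat_lit 478) (nat_lit 411) (nat_lit 311)) (XT.lf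 (nat_lit 0) (nat_lit 262796852215) (nat_lit 76) (nat_lit 33255950240) (nat_lit 76) (nat_lit 367174940) (nat_lit 19) (nat_lit 4) (nat_lit 20) (nat_lit 5) (nat_lit 20) (nat_lit 4) (nat_lit 479) (nat_lit 411) (nat_lit 310))) (XT.nd (nat_lit 78) (nat_lit 76) (nat_lit 0) (XT.lf (nat_lit 0) (nat_lit 90591055346) (nat_lit 152) (nat_lit 165600800877) (nat_lit 0) (nat_lit 59267435173) (nat_lit 17) (nat_lit 5) (nat_lit 19) (nat_lit 4) (nat_lit 17) (nat_lit 4) (nat_lit 480) (nat_lit 411) (nat_lit 309)) (XT.lf (nat_lit 0) (nat_lit 13056697558) (nat_lit 76) (nat_lit 177110778528) (nat_lit 76) (nat_lit 145786253696) (nat_lit 16) (nat_lit 4) (nat_lit 17) (nat_lit 5) (nat_lit 17) (nat_lit 4) (nat_lit 481) (nat_lit 411) (nat_lit 308))))) (XT.nd (nat_lit 312) (nat_lit 152) (nat_lit 0) (XT.nd (nat_lit 156) (nat_lit 76) (nat_lit 0) (XT.nd (nat_lit 78) (nat_lit 152) (nat_lit 0) (XT.lf (nat_lit 0) (nat_lit 211909356354)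 (nat_lit 76) (nat_lit 88679883950) (nat_lit 76) (nat_lit 57354521472) (nat_lit 16) (nat_lit 4) (nat_lit 17) (nat_lit 5) (nat_lit 17) (nat_lit 4) (nat_lit 482) (nat_lit 411) (nat_lit 307)) (XT.lf (nat_lit 0) (nat_lit 37769190751) (nat_lit 152) (nat_lit 335917322498) (nat_lit 0) (nat_lit 7934773535) (nat_lit 14) (nat_lit 5) (nat_lit 16) (nat_lit 4) (nat_lit 14) (nat_lit 4) (nat_lit 483) (nat_lit 411) (nat_lit 306))) (XT.nd (nat_lit 78) (nat_lit 76) (nat_lit 0) (XT.lf (nat_lit 0) (nat_lit 142596109059) (nat_lit 152) (nat_lit 151583748352) (nat_lit 0) (nat_lit 112761007894) (nat_lit 14) (nat_lit 5) (nat_lit 16) (nat_lit 4) (nat_lit 14) (nat_lit 4) (nat_lit 484) (nat_lit 411) (nat_lit 305)) (XT.lf (nat_lit 0) (nat_lit 49057336175) (nat_lit 76) (nat_lit 207513171043) (nat_lit 76) (nat_lit 177677436592) (nat_lit 13) (nat_lit 4) (nat_lit 14) (nat_lit 5) (nat_lit 14) (nat_lit 4) (nat_lit 485) (nat_lit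 411) (nat_lit 304)))) (XT.nd (nat_lit 156) (nat_lit 0) (nat_lit 0) (XT.nd (nat_lit 78) (nat_lit 152) (nat_lit 0) (XT.lf (nat_lit 0) (nat_lit 271153802436) (nat_lit 76) (nat_lit 111145151096) (nat_lit 76) (nat_lit 81308830269) (nat_lit 13) (nat_lit 4) (nat_lit 14) (nat_lit 5) (nat_lit 14) (nat_lit 4) (nat_lit 486) (nat_lit 411) (nat_lit 303)) (XT.lf (nat_lit 0) (nat_lit 15844828000) (nat_lit 76) (nat_lit 6438924081) (nat_lit 152) (nat_lit 473002722014) (nat_lit 11) (nat_lit 5) (nat_lit 12) (nat_lit 5) (nat_lit 13) (nat_lit 4) (nat_lit 487) (nat_lit 411) (nat_lit 302))) (XT.nd (nat_lit 78) (nat_lit 0) (nat_lit 0) (XT.lf (nat_lit 0) (nat_lit 136421531591) (nat_lit 152) (nat_lit 284750966586) (nat_lit 0) (nat_lit 108004992076) (nat_lit 11) (nat_lit 5) (nat_lit 13) (nat_lit 4) (nat_lit 11) (nat_lit 4) (nat_lit 488) (nat_lit 411) (nat_lit 301)) (XT.lf (nat_lit 0) (nat_lit 259795184725) (nat_lit 152)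 (nat_lit 74601158539) (nat_lit 0) (nat_lit 231378201891) (nat_lit 11) (nat_lit 5) (nat_lit 13) (nat_lit 4) (nat_lit 11) (nat_lit 4) (nat_lit 489) (nat_lit 411) (nat_lit 300))))))))
noncomputable def xc65 : XT := (XT.nd (nat_lit 57642) (nat_lit 0) (nat_lit 3040) (XT.nd (nat_lit 56472) (nat_lit 0) (nat_lit 7904) (XT.nd (nat_lit 546) (nat_lit 152) (nat_lit 0) (XT.nd (nat_lit 234) (nat_lit 152) (nat_lit 0) (XT.nd (nat_lit 78) (nat_lit 76) (nat_lit 0) (XT.lf (nat_lit 0) (nat_lit 157391139273) (nat_lit 76) (nat_lit 238101462462) (nat_lit 76) (nat_lit 209684069148) (nat_lit 10) (nat_lit 4) (nat_lit 11) (nat_lit 5) (nat_lit 11) (nat_lit 4) (nat_lit 490) (nat_lit 411) (nat_lit 299)) (XT.nd (nat_lit 78) (nat_lit 76) (nat_lit 0) (XT.lf (nat_lit 0) (nat_lit 410600113918) (nat_lit 76) (nat_lit 132741907833) (nat_lit 76) (nat_lit 104324134445) (nat_lit 10) (nat_lit 4) (nat_lit 11) (nat_lit 5) (nat_lit 11)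 (nat_lit 4) (nat_lit 491) (nat_lit 411) (nat_lit 298)) (XT.lf (nat_lit 0) (nat_lit 9158568491) (nat_lit 152) (nat_lit 9643059901) (nat_lit 76) (nat_lit 674745938534) (nat_lit 9) (nat_lit 5) (nat_lit 11) (nat_lit 5) (nat_lit 10) (nat_lit 4) (nat_lit 492) (nat_lit 411) (nat_lit 297)))) (XT.nd (nat_lit 156) (nat_lit 76) (nat_lit 0) (XT.nd (nat_lit 78) (nat_lit 0) (nat_lit 0) (XT.lf (nat_lit 0) (nat_lit 133606846851) (nat_lit 152) (nat_lit 502588378383) (nat_lit 0) (nat_lit 106541655269) (nat_lit 8) (nat_lit 5) (nat_lit 10) (nat_lit 4) (nat_lit 8) (nat_lit 4) (nat_lit 493) (nat_lit 411) (nat_lit 296)) (XT.lf (nat_lit 0) (nat_lit 268495957480) (nat_lit 152) (nat_lit 285910654646) (nat_lit 0) (nat_lit 241430478551) (nat_lit 8) (nat_lit 5) (nat_lit 10) (nat_lit 4) (nat_lit 8) (nat_lit 4) (nat_lit 494) (nat_lit 411) (nat_lit 295))) (XT.nd (nat_lit 78) (nat_lit 76) (nat_lit 0) (XT.lf (nat_lit 0) (nat_lit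 414173614196) (nat_lit 152) (nat_lit 51903963411) (nat_lit 0) (nat_lit 387107869204) (nat_lit 8) (nat_lit 5) (nat_lit 10) (nat_lit 4) (nat_lit 8) (nat_lit 4) (nat_lit 495) (nat_lit 411) (nat_lit 294)) (XT.lf (nat_lit 0) (nat_lit 207458364919) (nat_lit 76) (nat_lit 367283733560) (nat_lit 76) (nat_lit 340217742213) (nat_lit 7) (nat_lit 4) (nat_lit 8) (nat_lit 5) (nat_lit 8) (nat_lit 4) (nat_lit 496) (nat_lit 411) (nat_lit 293))))) (XT.nd (nat_lit 234) (nat_lit 76) (nat_lit 0) (XT.nd (nat_lit 78) (nat_lit 76) (nat_lit 0) (XT.lf (nat_lit 0) (nat_lit 489418503099) (nat_lit 76) (nat_lit 259639405057) (nat_lit 76) (nat_lit 232573185605) (nat_lit 7) (nat_lit 4) (nat_lit 8) (nat_lit 5) (nat_lit 8) (nat_lit 4) (nat_lit 497) (nat_lit 411) (nat_lit 292)) (XT.nd (nat_lit 78) (nat_lit 76) (nat_lit 0) (XT.lf (nat_lit 0) (nat_lit 793931146584) (nat_lit 76) (nat_lit 143385718516) (nat_lit 76) (nat_lit 116319287855)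 (nat_lit 7) (nat_lit 4) (nat_lit 8) (nat_lit 5) (nat_lit 8) (nat_lit 4) (nat_lit 498) (nat_lit 411) (nat_lit 291)) (XT.lf (nat_lit 0) (nat_lit 8937353744) (nat_lit 152) (nat_lit 8745051049) (nat_lit 76) (nat_lit 1113712102590) (nat_lit 6) (nat_lit 5) (nat_lit 8) (nat_lit 5) (nat_lit 7) (nat_lit 4) (nat_lit 499) (nat_lit 411) (nat_lit 290)))) (XT.nd (nat_lit 156) (nat_lit 0) (nat_lit 0) (XT.nd (nat_lit 78) (nat_lit 0) (nat_lit 0) (XT.lf (nat_lit 0) (nat_lit 146335190603) (nat_lit 152) (nat_lit 948075920743) (nat_lit 0) (nat_lit 120557278886) (nat_lit 5) (nat_lit 5) (nat_lit 7) (nat_lit 4) (nat_lit 5) (nat_lit 4) (nat_lit 500) (nat_lit 411) (nat_lit 289)) (XT.lf (nat_lit 0) (nat_lit 295176049430) (nat_lit 152) (nat_lit 740631596503) (nat_lit 0) (nat_lit 269397978032) (nat_lit 5) (nat_lit 5) (nat_lit 7) (nat_lit 4) (nat_lit 5) (nat_lit 4) (nat_lit 501) (nat_lit 411) (nat_lit 288))) (XT.nd (nat_lit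 55458) (nat_lit 0) (nat_lit 11628) (XT.lf (nat_lit 0) (nat_lit 455922516742) (nat_lit 152) (nat_lit 516595105178) (nat_lit 0) (nat_lit 430144297492) (nat_lit 5) (nat_lit 5) (nat_lit 7) (nat_lit 4) (nat_lit 5) (nat_lit 4) (nat_lit 502) (nat_lit 411) (nat_lit 287)) (XT.lf (nat_lit 0) (nat_lit 1572526499) (nat_lit 0) (nat_lit 1572526499) (nat_lit 684) (nat_lit 2177647429) (nat_lit 158) (nat_lit 5) (nat_lit 158) (nat_lit 3) (nat_lit 167) (nat_lit 3) (nat_lit 412) (nat_lit 412) (nat_lit 376)))))) (XT.nd (nat_lit 546) (nat_lit 2508) (nat_lit 0) (XT.nd (nat_lit 234) (nat_lit 1216) (nat_lit 0) (XT.nd (nat_lit 78) (nat_lit 0) (nat_lit 76) (XT.lf (nat_lit 76) (nat_lit 914098443) (nat_lit 0) (nat_lit 6662190757) (nat_lit 760) (nat_lit 3443041853) (nat_lit 159) (nat_lit 5) (nat_lit 158) (nat_lit 5) (nat_lit 168) (nat_lit 5) (nat_lit 413) (nat_lit 412) (nat_lit 375)) (XT.nd (nat_lit 78) (nat_lit 0) (nat_lit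 0) (XT.lf (nat_lit 0) (nat_lit 9070291470) (nat_lit 684) (nat_lit 1276142399) (nat_lit 760) (nat_lit 1071511276) (nat_lit 159) (nat_lit 5) (nat_lit 168) (nat_lit 5) (nat_lit 169) (nat_lit 5) (nat_lit 414) (nat_lit 412) (nat_lit 374)) (XT.lf (nat_lit 76) (nat_lit 8358722598) (nat_lit 0) (nat_lit 2480380427) (nat_lit 760) (nat_lit 1001595418) (nat_lit 160) (nat_lit 5) (nat_lit 159) (nat_lit 5) (nat_lit 169) (nat_lit 5) (nat_lit 415) (nat_lit 412) (nat_lit 373)))) (XT.nd (nat_lit 156) (nat_lit 608) (nat_lit 0) (XT.nd (nat_lit 78) (nat_lit 0) (nat_lit 76) (XT.lf (nat_lit 0) (nat_lit 577579089) (nat_lit 760) (nat_lit 5727740630) (nat_lit 836) (nat_lit 5984616980) (nat_lit 150) (nat_lit 5) (nat_lit 160) (nat_lit 5) (nat_lit 161) (nat_lit 5) (nat_lit 416) (nat_lit 412) (nat_lit 372)) (XT.lf (nat_lit 0) (nat_lit 2387535957) (nat_lit 760) (nat_lit 8009388732) (nat_lit 836) (nat_lit 2370403242) (nat_lit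 151) (nat_lit 5) (nat_lit 161) (nat_lit 5) (nat_lit 162) (nat_lit 5) (nat_lit 417) (nat_lit 412) (nat_lit 371))) (XT.nd (nat_lit 78) (nat_lit 684) (nat_lit 0) (XT.lf (nat_lit 76) (nat_lit 2935760292) (nat_lit 0) (nat_lit 1587695597) (nat_lit 836) (nat_lit 8750407236) (nat_lit 152) (nat_lit 5) (nat_lit 151) (nat_lit 5) (nat_lit 162) (nat_lit 5) (nat_lit 418) (nat_lit 412) (nat_lit 370)) (XT.lf (nat_lit 0) (nat_lit 1076673665) (nat_lit 760) (nat_lit 5968196159) (nat_lit 836) (nat_lit 6765330462) (nat_lit 142) (nat_lit 5) (nat_lit 152) (nat_lit 5) (nat_lit 153) (nat_lit 5) (nat_lit 419) (nat_lit 412) (nat_lit 369))))) (XT.nd (nat_lit 312) (nat_lit 1292) (nat_lit 0) (XT.nd (nat_lit 156) (nat_lit 836) (nat_lit 0) (XT.nd (nat_lit 78) (nat_lit 380) (nat_lit 0) (XT.lf (nat_lit 0) (nat_lit 9969769959) (nat_lit 836) (nat_lit 752862418) (nat_lit 76) (nat_lit 3656732810) (nat_lit 142) (nat_lit 5) (nat_lit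 153) (nat_lit 5) (nat_lit 143) (nat_lit 5) (nat_lit 420) (nat_lit 412) (nat_lit 368)) (XT.lf (nat_lit 0) (nat_lit 12426878428) (nat_lit 380) (nat_lit 937606331) (nat_lit 456) (nat_lit 1617796111) (nat_lit 137) (nat_lit 5) (nat_lit 142) (nat_lit 5) (nat_lit 143) (nat_lit 5) (nat_lit 421) (nat_lit 412) (nat_lit 367))) (XT.nd (nat_lit 78) (nat_lit 380) (nat_lit 0) (XT.lf (nat_lit 0) (nat_lit 1640611794) (nat_lit 456) (nat_lit 4439337020) (nat_lit 76) (nat_lit 9537998426) (nat_lit 131) (nat_lit 5) (nat_lit 137) (nat_lit 5) (nat_lit 132) (nat_lit 5) (nat_lit 422) (nat_lit 412) (nat_lit 366)) (XT.lf (nat_lit 0) (nat_lit 5342577386) (nat_lit 456) (nat_lit 6347913927) (nat_lit 76) (nat_lit 4600678428) (nat_lit 126) (nat_lit 5) (nat_lit 132) (nat_lit 5) (nat_lit 127) (nat_lit 5) (nat_lit 423) (nat_lit 412) (nat_lit 365)))) (XT.nd (nat_lit 156) (nat_lit 684) (nat_lit 0) (XT.nd (nat_lit 78) (nat_lit 304)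 (nat_lit 0) (XT.lf (nat_lit 0) (nat_lit 8740456289) (nat_lit 304) (nat_lit 867936421) (nat_lit 380) (nat_lit 7396479303) (nat_lit 122) (nat_lit 5) (nat_lit 126) (nat_lit 5) (nat_lit 127) (nat_lit 5) (nat_lit 424) (nat_lit 412) (nat_lit 364)) (XT.lf (nat_lit 0) (nat_lit 7506003911) (nat_lit 304) (nat_lit 7060851701) (nat_lit 380) (nat_lit 3191251841) (nat_lit 118) (nat_lit 5) (nat_lit 122) (nat_lit 5) (nat_lit 123) (nat_lit 5) (nat_lit 425) (nat_lit 412) (nat_lit 363))) (XT.nd (nat_lit 78) (nat_lit 304) (nat_lit 0) (XT.lf (nat_lit 0) (nat_lit 1598361733) (nat_lit 380) (nat_lit 12255723051) (nat_lit 76) (nat_lit 4701908711) (nat_lit 113) (nat_lit 5) (nat_lit 118) (nat_lit 5) (nat_lit 114) (nat_lit 5) (nat_lit 426) (nat_lit 412) (nat_lit 362)) (XT.lf (nat_lit 0) (nat_lit 5065910253) (nat_lit 304) (nat_lit 1931748277) (nat_lit 380) (nat_lit 12400525093) (nat_lit 109) (nat_lit 5) (nat_lit 113) (nat_lit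 5) (nat_lit 114) (nat_lit 5) (nat_lit 427) (nat_lit 412) (nat_lit 361))))))) (XT.nd (nat_lit 1170) (nat_lit 1900) (nat_lit 0) (XT.nd (nat_lit 546) (nat_lit 1520) (nat_lit 0) (XT.nd (nat_lit 234) (nat_lit 684) (nat_lit 0) (XT.nd (nat_lit 78) (nat_lit 532) (nat_lit 0) (XT.lf (nat_lit 0) (nat_lit 3807272427) (nat_lit 228) (nat_lit 9428263423) (nat_lit 304) (nat_lit 7051885888) (nat_lit 106) (nat_lit 5) (nat_lit 109) (nat_lit 5) (nat_lit 110) (nat_lit 5) (nat_lit 428) (nat_lit 412) (nat_lit 360)) (XT.nd (nat_lit 78) (nat_lit 304) (nat_lit 0) (XT.lf (nat_lit 0) (nat_lit 2616173491) (nat_lit 228) (nat_lit 17696704971) (nat_lit 304) (nat_lit 917902960) (nat_lit 103) (nat_lit 5) (nat_lit 106) (nat_lit 5) (nat_lit 107) (nat_lit 5) (nat_lit 429) (nat_lit 412) (nat_lit 359)) (XT.lf (nat_lit 0) (nat_lit 1330919141) (nat_lit 228) (nat_lit 4627559080) (nat_lit 304) (nat_lit 16264963832) (nat_lit 99) (nat_lit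 5) (nat_lit 102) (nat_lit 5) (nat_lit 103) (nat_lit 5) (nat_lit 430) (nat_lit 412) (nat_lit 358)))) (XT.nd (nat_lit 156) (nat_lit 456) (nat_lit 0) (XT.nd (nat_lit 78) (nat_lit 0) (nat_lit 0) (XT.lf (nat_lit 0) (nat_lit 38215765) (nat_lit 228) (nat_lit 13757850986) (nat_lit 304) (nat_lit 9476537110) (nat_lit 96) (nat_lit 5) (nat_lit 99) (nat_lit 5) (nat_lit 100) (nat_lit 5) (nat_lit 431) (nat_lit 412) (nat_lit 357)) (XT.lf (nat_lit 0) (nat_lit 22677000720) (nat_lit 304) (nat_lit 1135074441) (nat_lit 76) (nat_lit 572809765) (nat_lit 96) (nat_lit 5) (nat_lit 100) (nat_lit 5) (nat_lit 97) (nat_lit 5) (nat_lit 432) (nat_lit 412) (nat_lit 356))) (XT.nd (nat_lit 78) (nat_lit 228) (nat_lit 0) (XT.lf (nat_lit 0) (nat_lit 7040396547) (nat_lit 228) (nat_lit 2475995252) (nat_lit 76) (nat_lit 16035942600) (nat_lit 93) (nat_lit 5) (nat_lit 96) (nat_lit 5) (nat_lit 94) (nat_lit 5) (nat_lit 433) (nat_lit 412)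 (nat_lit 355)) (XT.lf (nat_lit 0) (nat_lit 16879265513) (nat_lit 304) (nat_lit 3775338870) (nat_lit 76) (nat_lit 6134650098) (nat_lit 90) (nat_lit 5) (nat_lit 94) (nat_lit 5) (nat_lit 91) (nat_lit 5) (nat_lit 434) (nat_lit 412) (nat_lit 354))))) (XT.nd (nat_lit 312) (nat_lit 684) (nat_lit 0) (XT.nd (nat_lit 156) (nat_lit 380) (nat_lit 0) (XT.nd (nat_lit 78) (nat_lit 304) (nat_lit 0) (XT.lf (nat_lit 0) (nat_lit 23039513697) (nat_lit 152) (nat_lit 5000840243) (nat_lit 228) (nat_lit 58021173) (nat_lit 88) (nat_lit 5) (nat_lit 90) (nat_lit 5) (nat_lit 91) (nat_lit 5) (nat_lit 435) (nat_lit 412) (nat_lit 353)) (XT.lf (nat_lit 0) (nat_lit 10839247462) (nat_lit 304) (nat_lit 6523162624) (nat_lit 76) (nat_lit 12111764809) (nat_lit 84) (nat_lit 5) (nat_lit 88) (nat_lit 5) (nat_lit 85) (nat_lit 5) (nat_lit 436) (nat_lit 412) (nat_lit 352))) (XT.nd (nat_lit 78) (nat_lit 228) (nat_lit 0) (XT.lf (nat_lit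 0) (nat_lit 23033864360) (nat_lit 152) (nat_lit 79213050) (nat_lit 228) (nat_lit 7821575056) (nat_lit 82) (nat_lit 5) (nat_lit 84) (nat_lit 5) (nat_lit 85) (nat_lit 5) (nat_lit 437) (nat_lit 412) (nat_lit 351)) (XT.lf (nat_lit 0) (nat_lit 4486021379) (nat_lit 228) (nat_lit 9460783520) (nat_lit 76) (nat_lit 18524523342) (nat_lit 79) (nat_lit 5) (nat_lit 82) (nat_lit 5) (nat_lit 80) (nat_lit 5) (nat_lit 438) (nat_lit 412) (nat_lit 350)))) (XT.nd (nat_lit 156) (nat_lit 380) (nat_lit 0) (XT.nd (nat_lit 78) (nat_lit 152) (nat_lit 0) (XT.lf (nat_lit 0) (nat_lit 18065302648) (nat_lit 228) (nat_lit 11064772927) (nat_lit 76) (nat_lit 4966397656) (nat_lit 77) (nat_lit 5) (nat_lit 80) (nat_lit 5) (nat_lit 78) (nat_lit 5) (nat_lit 439) (nat_lit 412) (nat_lit 349)) (XT.lf (nat_lit 0) (nat_lit 23078258385) (nat_lit 152) (nat_lit 10391840788) (nat_lit 228) (nat_lit 2344573518) (nat_lit 75) (nat_lit 5) (nat_lit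 77) (nat_lit 5) (nat_lit 78) (nat_lit 5) (nat_lit 440) (nat_lit 412) (nat_lit 348))) (XT.nd (nat_lit 78) (nat_lit 152) (nat_lit 0) (XT.lf (nat_lit 0) (nat_lit 12739652201) (nat_lit 228) (nat_lit 14607081931) (nat_lit 76) (nat_lit 10278848472) (nat_lit 72) (nat_lit 5) (nat_lit 75) (nat_lit 5) (nat_lit 73) (nat_lit 5) (nat_lit 441) (nat_lit 412) (nat_lit 347)) (XT.lf (nat_lit 0) (nat_lit 22997327639) (nat_lit 152) (nat_lit 6689857014) (nat_lit 228) (nat_lit 9855324551) (nat_lit 70) (nat_lit 5) (nat_lit 72) (nat_lit 5) (nat_lit 73) (nat_lit 5) (nat_lit 442) (nat_lit 412) (nat_lit 346)))))) (XT.nd (nat_lit 546) (nat_lit 912) (nat_lit 0) (XT.nd (nat_lit 234) (nat_lit 532) (nat_lit 0) (XT.nd (nat_lit 78) (nat_lit 304) (nat_lit 0) (XT.lf (nat_lit 0) (nat_lit 7027309732) (nat_lit 152) (nat_lit 18702802153) (nat_lit 76) (nat_lit 15835015064) (nat_lit 68) (nat_lit 5) (nat_lit 70) (nat_lit 5) (nat_lit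 69) (nat_lit 5) (nat_lit 443) (nat_lit 412) (nat_lit 345)) (XT.nd (nat_lit 78) (nat_lit 152) (nat_lit 0) (XT.lf (nat_lit 0) (nat_lit 22683568491) (nat_lit 152) (nat_lit 2975543663) (nat_lit 228) (nat_lit 18045172833) (nat_lit 66) (nat_lit 5) (nat_lit 68) (nat_lit 5) (nat_lit 69) (nat_lit 5) (nat_lit 444) (nat_lit 412) (nat_lit 344)) (XT.lf (nat_lit 0) (nat_lit 788681463) (nat_lit 152) (nat_lit 23588954752) (nat_lit 76) (nat_lit 21586405461) (nat_lit 64) (nat_lit 5) (nat_lit 66) (nat_lit 5) (nat_lit 65) (nat_lit 5) (nat_lit 445) (nat_lit 412) (nat_lit 343)))) (XT.nd (nat_lit 156) (nat_lit 304) (nat_lit 0) (XT.nd (nat_lit 78) (nat_lit 76) (nat_lit 0) (XT.lf (nat_lit 0) (nat_lit 21260980590) (nat_lit 228) (nat_lit 26449690692) (nat_lit 76) (nat_lit 640919741) (nat_lit 62) (nat_lit 5) (nat_lit 65) (nat_lit 5) (nat_lit 63) (nat_lit 4) (nat_lit 446) (nat_lit 412) (nat_lit 342)) (XT.lf (nat_lit 0)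 (nat_lit 21191008625) (nat_lit 76) (nat_lit 23320966796) (nat_lit 152) (nat_lit 6361124070) (nat_lit 61) (nat_lit 5) (nat_lit 62) (nat_lit 5) (nat_lit 63) (nat_lit 4) (nat_lit 447) (nat_lit 412) (nat_lit 341))) (XT.nd (nat_lit 78) (nat_lit 76) (nat_lit 0) (XT.lf (nat_lit 0) (nat_lit 16346020065) (nat_lit 228) (nat_lit 33234101859) (nat_lit 76) (nat_lit 3962083578) (nat_lit 58) (nat_lit 5) (nat_lit 61) (nat_lit 5) (nat_lit 59) (nat_lit 4) (nat_lit 448) (nat_lit 412) (nat_lit 340)) (XT.lf (nat_lit 0) (nat_lit 19025920975) (nat_lit 76) (nat_lit 22822288641) (nat_lit 152) (nat_lit 14511350130) (nat_lit 57) (nat_lit 5) (nat_lit 58) (nat_lit 5) (nat_lit 59) (nat_lit 4) (nat_lit 449) (nat_lit 412) (nat_lit 339))))) (XT.nd (nat_lit 312) (nat_lit 380) (nat_lit 0) (XT.nd (nat_lit 156) (nat_lit 228) (nat_lit 0) (XT.nd (nat_lit 78) (nat_lit 76) (nat_lit 0) (XT.lf (nat_lit 0) (nat_lit 10626969757) (nat_lit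 228) (nat_lit 41815600165) (nat_lit 76) (nat_lit 6904016466) (nat_lit 54) (nat_lit 5) (nat_lit 57) (nat_lit 5) (nat_lit 55) (nat_lit 4) (nat_lit 450) (nat_lit 412) (nat_lit 338)) (XT.lf (nat_lit 0) (nat_lit 15399730923) (nat_lit 76) (nat_lit 23144909627) (nat_lit 152) (nat_lit 23952205952) (nat_lit 53) (nat_lit 5) (nat_lit 54) (nat_lit 5) (nat_lit 55) (nat_lit 4) (nat_lit 451) (nat_lit 412) (nat_lit 337))) (XT.nd (nat_lit 78) (nat_lit 76) (nat_lit 0) (XT.lf (nat_lit 0) (nat_lit 3785664215) (nat_lit 152) (nat_lit 52840815888) (nat_lit 76) (nat_lit 9216535872) (nat_lit 51) (nat_lit 5) (nat_lit 53) (nat_lit 5) (nat_lit 52) (nat_lit 4) (nat_lit 452) (nat_lit 412) (nat_lit 336)) (XT.lf (nat_lit 0) (nat_lit 9647308645) (nat_lit 76) (nat_lit 24626698118) (nat_lit 152) (nat_lit 35094709132) (nat_lit 50) (nat_lit 5) (nat_lit 51) (nat_lit 5) (nat_lit 52) (nat_lit 4) (nat_lit 453) (nat_lit 412) (nat_lit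 335)))) (XT.nd (nat_lit 156) (nat_lit 152) (nat_lit 0) (XT.nd (nat_lit 78) (nat_lit 152) (nat_lit 0) (XT.lf (nat_lit 0) (nat_lit 5880452985) (nat_lit 76) (nat_lit 62488544651) (nat_lit 76) (nat_lit 4749095509) (nat_lit 49) (nat_lit 4) (nat_lit 50) (nat_lit 5) (nat_lit 50) (nat_lit 4) (nat_lit 454) (nat_lit 412) (nat_lit 334)) (XT.lf (nat_lit 0) (nat_lit 878170318) (nat_lit 76) (nat_lit 27720959396) (nat_lit 152) (nat_lit 48472818865) (nat_lit 47) (nat_lit 5) (nat_lit 48) (nat_lit 5) (nat_lit 49) (nat_lit 4) (nat_lit 455) (nat_lit 412) (nat_lit 333))) (XT.nd (nat_lit 78) (nat_lit 152) (nat_lit 0) (XT.lf (nat_lit 0) (nat_lit 65780971297) (nat_lit 152) (nat_lit 4719058033) (nat_lit 0) (nat_lit 10771583555) (nat_lit 47) (nat_lit 5) (nat_lit 49) (nat_lit 4) (nat_lit 47) (nat_lit 4) (nat_lit 456) (nat_lit 412) (nat_lit 332)) (XT.lf (nat_lit 0) (nat_lit 21127789300) (nat_lit 152) (nat_lit 11706071820)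 (nat_lit 76) (nat_lit 52875576686) (nat_lit 45) (nat_lit 5) (nat_lit 47) (nat_lit 5) (nat_lit 46) (nat_lit 4) (nat_lit 457) (nat_lit 412) (nat_lit 331))))))))
noncomputable def xc66 : XT := (XT.nd (nat_lit 2262) (nat_lit 608) (nat_lit 0) (XT.nd (nat_lit 1092) (nat_lit 1140) (nat_lit 0) (XT.nd (nat_lit 546) (nat_lit 532) (nat_lit 0) (XT.nd (nat_lit 234) (nat_lit 456) (nat_lit 0) (XT.nd (nat_lit 78) (nat_lit 228) (nat_lit 0) (XT.lf (nat_lit 0) (nat_lit 61460622645) (nat_lit 152) (nat_lit 19907727192) (nat_lit 0) (nat_lit 9054859662) (nat_lit 44) (nat_lit 5) (nat_lit 46) (nat_lit 4) (nat_lit 44) (nat_lit 4) (nat_lit 458) (nat_lit 412) (nat_lit 330)) (XT.nd (nat_lit 78) (nat_lit 76) (nat_lit 0) (XT.lf (nat_lit 0) (nat_lit 11006170817) (nat_lit 152) (nat_lit 29850177397) (nat_lit 76) (nat_lit 54560093051) (nat_lit 42) (nat_lit 5) (nat_lit 44) (nat_lit 5) (nat_lit 43) (nat_lit 4) (nat_lit 459) (nat_lit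 412) (nat_lit 329)) (XT.lf (nat_lit 0) (nat_lit 54509798944) (nat_lit 152) (nat_lit 41621398618) (nat_lit 0) (nat_lit 4586590505) (nat_lit 41) (nat_lit 5) (nat_lit 43) (nat_lit 4) (nat_lit 41) (nat_lit 4) (nat_lit 460) (nat_lit 412) (nat_lit 328)))) (XT.nd (nat_lit 156) (nat_lit 228) (nat_lit 0) (XT.nd (nat_lit 78) (nat_lit 152) (nat_lit 0) (XT.lf (nat_lit 0) (nat_lit 50710495799) (nat_lit 76) (nat_lit 52780919440) (nat_lit 76) (nat_lit 2851942670) (nat_lit 40) (nat_lit 4) (nat_lit 41) (nat_lit 5) (nat_lit 41) (nat_lit 4) (nat_lit 461) (nat_lit 412) (nat_lit 327)) (XT.lf (nat_lit 0) (nat_lit 40095504146) (nat_lit 76) (nat_lit 3821482176) (nat_lit 152) (nat_lit 68400070608) (nat_lit 38) (nat_lit 5) (nat_lit 39) (nat_lit 5) (nat_lit 40) (nat_lit 4) (nat_lit 462) (nat_lit 412) (nat_lit 326))) (XT.nd (nat_lit 78) (nat_lit 152) (nat_lit 0) (XT.lf (nat_lit 0) (nat_lit 26753695930) (nat_lit 76) (nat_lit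 69732932828) (nat_lit 76) (nat_lit 22171729751) (nat_lit 37) (nat_lit 4) (nat_lit 38) (nat_lit 5) (nat_lit 38) (nat_lit 4) (nat_lit 463) (nat_lit 412) (nat_lit 325)) (XT.lf (nat_lit 0) (nat_lit 10581465604) (nat_lit 76) (nat_lit 17782939135) (nat_lit 152) (nat_lit 97046000252) (nat_lit 35) (nat_lit 5) (nat_lit 36) (nat_lit 5) (nat_lit 37) (nat_lit 4) (nat_lit 464) (nat_lit 412) (nat_lit 324))))) (XT.nd (nat_lit 234) (nat_lit 304) (nat_lit 0) (XT.nd (nat_lit 78) (nat_lit 228) (nat_lit 0) (XT.lf (nat_lit 0) (nat_lit 84392368074) (nat_lit 152) (nat_lit 9092802208) (nat_lit 0) (nat_lit 39087985114) (nat_lit 35) (nat_lit 5) (nat_lit 37) (nat_lit 4) (nat_lit 35) (nat_lit 4) (nat_lit 465) (nat_lit 412) (nat_lit 323)) (XT.nd (nat_lit 78) (nat_lit 76) (nat_lit 0) (XT.lf (nat_lit 0) (nat_lit 6459596952) (nat_lit 152) (nat_lit 32065770050) (nat_lit 76) (nat_lit 101679323986) (nat_lit 33) (nat_lit 5) (nat_lit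 35) (nat_lit 5) (nat_lit 34) (nat_lit 4) (nat_lit 466) (nat_lit 412) (nat_lit 322)) (XT.lf (nat_lit 0) (nat_lit 65705254264) (nat_lit 152) (nat_lit 60054208177) (nat_lit 0) (nat_lit 22551691522) (nat_lit 32) (nat_lit 5) (nat_lit 34) (nat_lit 4) (nat_lit 32) (nat_lit 4) (nat_lit 467) (nat_lit 412) (nat_lit 321)))) (XT.nd (nat_lit 156) (nat_lit 76) (nat_lit 0) (XT.nd (nat_lit 78) (nat_lit 152) (nat_lit 0) (XT.lf (nat_lit 0) (nat_lit 63673847474) (nat_lit 76) (nat_lit 68219313489) (nat_lit 76) (nat_lit 25062843272) (nat_lit 31) (nat_lit 4) (nat_lit 32) (nat_lit 5) (nat_lit 32) (nat_lit 4) (nat_lit 468) (nat_lit 412) (nat_lit 320)) (XT.lf (nat_lit 0) (nat_lit 33668813716) (nat_lit 76) (nat_lit 3808247766) (nat_lit 152) (nat_lit 128707416518) (nat_lit 29) (nat_lit 5) (nat_lit 30) (nat_lit 5) (nat_lit 31) (nat_lit 4) (nat_lit 469) (nat_lit 412) (nat_lit 319))) (XT.nd (nat_lit 78) (nat_lit 76) (nat_lit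 0) (XT.lf (nat_lit 0) (nat_lit 106823646895) (nat_lit 152) (nat_lit 3455652340) (nat_lit 0) (nat_lit 65717308786) (nat_lit 29) (nat_lit 5) (nat_lit 31) (nat_lit 4) (nat_lit 29) (nat_lit 4) (nat_lit 470) (nat_lit 412) (nat_lit 318)) (XT.lf (nat_lit 0) (nat_lit 140341250504) (nat_lit 76) (nat_lit 43624307168) (nat_lit 76) (nat_lit 2515770919) (nat_lit 28) (nat_lit 4) (nat_lit 29) (nat_lit 5) (nat_lit 29) (nat_lit 4) (nat_lit 471) (nat_lit 412) (nat_lit 317)))))) (XT.nd (nat_lit 546) (nat_lit 532) (nat_lit 0) (XT.nd (nat_lit 234) (nat_lit 304) (nat_lit 0) (XT.nd (nat_lit 78) (nat_lit 152) (nat_lit 0) (XT.lf (nat_lit 0) (nat_lit 69353467451) (nat_lit 152) (nat_lit 98091429347) (nat_lit 0) (nat_lit 30200542152) (nat_lit 26) (nat_lit 5) (nat_lit 28) (nat_lit 4) (nat_lit 26) (nat_lit 4) (nat_lit 472) (nat_lit 412) (nat_lit 316)) (XT.nd (nat_lit 78) (nat_lit 76) (nat_lit 0) (XT.lf (nat_lit 0) (nat_lit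 49672777868) (nat_lit 76) (nat_lit 99533231545) (nat_lit 76) (nat_lit 60378511435) (nat_lit 25) (nat_lit 4) (nat_lit 26) (nat_lit 5) (nat_lit 26) (nat_lit 4) (nat_lit 473) (nat_lit 412) (nat_lit 315)) (XT.lf (nat_lit 0) (nat_lit 14282578963) (nat_lit 152) (nat_lit 9877095095) (nat_lit 76) (nat_lit 198222451364) (nat_lit 24) (nat_lit 5) (nat_lit 26) (nat_lit 5) (nat_lit 25) (nat_lit 4) (nat_lit 474) (nat_lit 412) (nat_lit 314)))) (XT.nd (nat_lit 156) (nat_lit 152) (nat_lit 0) (XT.nd (nat_lit 78) (nat_lit 76) (nat_lit 0) (XT.lf (nat_lit 0) (nat_lit 96210750935) (nat_lit 152) (nat_lit 80855325636) (nat_lit 0) (nat_lit 58917493095) (nat_lit 23) (nat_lit 5) (nat_lit 25) (nat_lit 4) (nat_lit 23) (nat_lit 4) (nat_lit 475) (nat_lit 412) (nat_lit 313)) (XT.lf (nat_lit 0) (nat_lit 85330253999) (nat_lit 76) (nat_lit 101271042146) (nat_lit 76) (nat_lit 63976427374) (nat_lit 22) (nat_lit 4) (nat_lit 23)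 (nat_lit 5) (nat_lit 23) (nat_lit 4) (nat_lit 476) (nat_lit 412) (nat_lit 312))) (XT.nd (nat_lit 78) (nat_lit 0) (nat_lit 0) (XT.lf (nat_lit 0) (nat_lit 1151059433) (nat_lit 76) (nat_lit 17603540870) (nat_lit 152) (nat_lit 247498682989) (nat_lit 20) (nat_lit 5) (nat_lit 21) (nat_lit 5) (nat_lit 22) (nat_lit 4) (nat_lit 477) (nat_lit 412) (nat_lit 311)) (XT.lf (nat_lit 0) (nat_lit 109948276947) (nat_lit 152) (nat_lit 98550600116) (nat_lit 0) (nat_lit 74427291670) (nat_lit 20) (nat_lit 5) (nat_lit 22) (nat_lit 4) (nat_lit 20) (nat_lit 4) (nat_lit 478) (nat_lit 412) (nat_lit 310))))) (XT.nd (nat_lit 312) (nat_lit 228) (nat_lit 0) (XT.nd (nat_lit 156) (nat_lit 228) (nat_lit 0) (XT.nd (nat_lit 78) (nat_lit 0) (nat_lit 0) (XT.lf (nat_lit 0) (nat_lit 83695868282) (nat_lit 76) (nat_lit 126339564338) (nat_lit 76) (nat_lit 90817553179) (nat_lit 19) (nat_lit 4) (nat_lit 20) (nat_lit 5) (nat_lit 20) (nat_lit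 4) (nat_lit 479) (nat_lit 412) (nat_lit 309)) (XT.lf (nat_lit 0) (nat_lit 284030505247) (nat_lit 76) (nat_lit 35810417971) (nat_lit 76) (nat_lit 287456921) (nat_lit 19) (nat_lit 4) (nat_lit 20) (nat_lit 5) (nat_lit 20) (nat_lit 4) (nat_lit 480) (nat_lit 412) (nat_lit 308))) (XT.nd (nat_lit 78) (nat_lit 76) (nat_lit 0) (XT.lf (nat_lit 0) (nat_lit 97940915431) (nat_lit 152) (nat_lit 178641303638) (nat_lit 0) (nat_lit 64108686309) (nat_lit 17) (nat_lit 5) (nat_lit 19) (nat_lit 4) (nat_lit 17) (nat_lit 4) (nat_lit 481) (nat_lit 412) (nat_lit 307)) (XT.lf (nat_lit 0) (nat_lit 14299774310) (nat_lit 76) (nat_lit 191179177103) (nat_lit 76) (nat_lit 157346172382) (nat_lit 16) (nat_lit 4) (nat_lit 17) (nat_lit 5) (nat_lit 17) (nat_lit 4) (nat_lit 482) (nat_lit 412) (nat_lit 306)))) (XT.nd (nat_lit 156) (nat_lit 76) (nat_lit 0) (XT.nd (nat_lit 78) (nat_lit 152) (nat_lit 0) (XT.lf (nat_lit 0) (nat_lit 229045939073)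 (nat_lit 76) (nat_lit 95681252715) (nat_lit 76) (nat_lit 61847529848) (nat_lit 16) (nat_lit 4) (nat_lit 17) (nat_lit 5) (nat_lit 17) (nat_lit 4) (nat_lit 483) (nat_lit 412) (nat_lit 305)) (XT.lf (nat_lit 0) (nat_lit 40880394430) (nat_lit 152) (nat_lit 362608943526) (nat_lit 0) (nat_lit 8657167937) (nat_lit 14) (nat_lit 5) (nat_lit 16) (nat_lit 4) (nat_lit 14) (nat_lit 4) (nat_lit 484) (nat_lit 412) (nat_lit 304))) (XT.nd (nat_lit 78) (nat_lit 76) (nat_lit 0) (XT.lf (nat_lit 0) (nat_lit 154086824098) (nat_lit 152) (nat_lit 163542147505) (nat_lit 0) (nat_lit 121863011228) (nat_lit 14) (nat_lit 5) (nat_lit 16) (nat_lit 4) (nat_lit 14) (nat_lit 4) (nat_lit 485) (nat_lit 412) (nat_lit 303)) (XT.lf (nat_lit 0) (nat_lit 53142909640) (nat_lit 76) (nat_lit 224032627824) (nat_lit 76) (nat_lit 191808272013) (nat_lit 13) (nat_lit 4) (nat_lit 14) (nat_lit 5) (nat_lit 14) (nat_lit 4) (nat_lit 486) (nat_lit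 412) (nat_lit 302))))))) (XT.nd (nat_lit 1170) (nat_lit 0) (nat_lit 0) (XT.nd (nat_lit 546) (nat_lit 304) (nat_lit 0) (XT.nd (nat_lit 234) (nat_lit 152) (nat_lit 0) (XT.nd (nat_lit 78) (nat_lit 152) (nat_lit 0) (XT.lf (nat_lit 0) (nat_lit 292995168270) (nat_lit 76) (nat_lit 119961210496) (nat_lit 76) (nat_lit 87736351962) (nat_lit 13) (nat_lit 4) (nat_lit 14) (nat_lit 5) (nat_lit 14) (nat_lit 4) (nat_lit 487) (nat_lit 412) (nat_lit 301)) (XT.nd (nat_lit 78) (nat_lit 0) (nat_lit 0) (XT.lf (nat_lit 0) (nat_lit 17257361175) (nat_lit 76) (nat_lit 6880534040) (nat_lit 152) (nat_lit 510767924370) (nat_lit 11) (nat_lit 5) (nat_lit 12) (nat_lit 5) (nat_lit 13) (nat_lit 4) (nat_lit 488) (nat_lit 412) (nat_lit 300)) (XT.lf (nat_lit 0) (nat_lit 147402467610) (nat_lit 152) (nat_lit 307394588571) (nat_lit 0) (nat_lit 116711272351) (nat_lit 11) (nat_lit 5) (nat_lit 13) (nat_lit 4) (nat_lit 11) (nat_lit 4)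 (nat_lit 489) (nat_lit 412) (nat_lit 299)))) (XT.nd (nat_lit 156) (nat_lit 76) (nat_lit 0) (XT.nd (nat_lit 78) (nat_lit 76) (nat_lit 0) (XT.lf (nat_lit 0) (nat_lit 280641034217) (nat_lit 152) (nat_lit 80442903683) (nat_lit 0) (nat_lit 249949458884) (nat_lit 11) (nat_lit 5) (nat_lit 13) (nat_lit 4) (nat_lit 11) (nat_lit 4) (nat_lit 490) (nat_lit 412) (nat_lit 298)) (XT.lf (nat_lit 0) (nat_lit 170103287043) (nat_lit 76) (nat_lit 257088234475) (nat_lit 76) (nat_lit 226396307222) (nat_lit 10) (nat_lit 4) (nat_lit 11) (nat_lit 5) (nat_lit 11) (nat_lit 4) (nat_lit 491) (nat_lit 412) (nat_lit 297))) (XT.nd (nat_lit 78) (nat_lit 76) (nat_lit 0) (XT.lf (nat_lit 0) (nat_lit 443560027318) (nat_lit 76) (nat_lit 143304459550) (nat_lit 76) (nat_lit 112612206444) (nat_lit 10) (nat_lit 4) (nat_lit 11) (nat_lit 5) (nat_lit 11) (nat_lit 4) (nat_lit 492) (nat_lit 412) (nat_lit 296)) (XT.lf (nat_lit 0) (nat_lit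 9943112226) (nat_lit 152) (nat_lit 10309174757) (nat_lit 76) (nat_lit 728776492196) (nat_lit 9) (nat_lit 5) (nat_lit 11) (nat_lit 5) (nat_lit 10) (nat_lit 4) (nat_lit 493) (nat_lit 412) (nat_lit 295))))) (XT.nd (nat_lit 312) (nat_lit 152) (nat_lit 0) (XT.nd (nat_lit 156) (nat_lit 76) (nat_lit 0) (XT.nd (nat_lit 78) (nat_lit 0) (nat_lit 0) (XT.lf (nat_lit 0) (nat_lit 144345783320) (nat_lit 152) (nat_lit 542693015348) (nat_lit 0) (nat_lit 115114512666) (nat_lit 8) (nat_lit 5) (nat_lit 10) (nat_lit 4) (nat_lit 8) (nat_lit 4) (nat_lit 494) (nat_lit 412) (nat_lit 294)) (XT.lf (nat_lit 0) (nat_lit 290022290301) (nat_lit 152) (nat_lit 308688661364) (nat_lit 0) (nat_lit 260790773293) (nat_lit 8) (nat_lit 5) (nat_lit 10) (nat_lit 4) (nat_lit 8) (nat_lit 4) (nat_lit 495) (nat_lit 412) (nat_lit 293))) (XT.nd (nat_lit 78) (nat_lit 76) (nat_lit 0) (XT.lf (nat_lit 0) (nat_lit 447350703538) (nat_lit 152) (nat_lit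 55968460435) (nat_lit 0) (nat_lit 418118958424) (nat_lit 8) (nat_lit 5) (nat_lit 10) (nat_lit 4) (nat_lit 8) (nat_lit 4) (nat_lit 496) (nat_lit 412) (nat_lit 292)) (XT.lf (nat_lit 0) (nat_lit 224139037610) (nat_lit 76) (nat_lit 396623740469) (nat_lit 76) (nat_lit 367391784145) (nat_lit 7) (nat_lit 4) (nat_lit 8) (nat_lit 5) (nat_lit 8) (nat_lit 4) (nat_lit 497) (nat_lit 412) (nat_lit 291)))) (XT.nd (nat_lit 156) (nat_lit 152) (nat_lit 0) (XT.nd (nat_lit 78) (nat_lit 0) (nat_lit 0) (XT.lf (nat_lit 0) (nat_lit 528649764363) (nat_lit 76) (nat_lit 280371028039) (nat_lit 76) (nat_lit 251138876152) (nat_lit 7) (nat_lit 4) (nat_lit 8) (nat_lit 5) (nat_lit 8) (nat_lit 4) (nat_lit 498) (nat_lit 412) (nat_lit 290)) (XT.lf (nat_lit 0) (nat_lit 857517657770) (nat_lit 76) (nat_lit 154819974681) (nat_lit 76) (nat_lit 125587641716) (nat_lit 7) (nat_lit 4) (nat_lit 8) (nat_lit 5) (nat_lit 8) (nat_lit 4) (nat_lit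 499) (nat_lit 412) (nat_lit 289))) (XT.nd (nat_lit 78) (nat_lit 76) (nat_lit 0) (XT.lf (nat_lit 0) (nat_lit 9685674342) (nat_lit 152) (nat_lit 9376868228) (nat_lit 76) (nat_lit 1202841858685) (nat_lit 6) (nat_lit 5) (nat_lit 8) (nat_lit 5) (nat_lit 7) (nat_lit 4) (nat_lit 500) (nat_lit 412) (nat_lit 288)) (XT.lf (nat_lit 0) (nat_lit 158074396122) (nat_lit 152) (nat_lit 1023856074240) (nat_lit 0) (nat_lit 130233771479) (nat_lit 5) (nat_lit 5) (nat_lit 7) (nat_lit 4) (nat_lit 5) (nat_lit 4) (nat_lit 501) (nat_lit 412) (nat_lit 287)))))) (XT.nd (nat_lit 56004) (nat_lit 0) (nat_lit 8588) (XT.nd (nat_lit 55692) (nat_lit 0) (nat_lit 10944) (XT.nd (nat_lit 55536) (nat_lit 0) (nat_lit 11628) (XT.lf (nat_lit 0) (nat_lit 318820124375) (nat_lit 152) (nat_lit 799821087036) (nat_lit 0) (nat_lit 290979362832) (nat_lit 5) (nat_lit 5) (nat_lit 7) (nat_lit 4) (nat_lit 5) (nat_lit 4) (nat_lit 502) (nat_lit 412)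 (nat_lit 286)) (XT.nd (nat_lit 78) (nat_lit 0) (nat_lit 0) (XT.lf (nat_lit 0) (nat_lit 2162032247) (nat_lit 0) (nat_lit 2162032247) (nat_lit 684) (nat_lit 1377928491) (nat_lit 158) (nat_lit 5) (nat_lit 158) (nat_lit 3) (nat_lit 167) (nat_lit 3) (nat_lit 413) (nat_lit 413) (nat_lit 374)) (XT.lf (nat_lit 76) (nat_lit 1977182998) (nat_lit 0) (nat_lit 7924679306) (nat_lit 760) (nat_lit 1912758194) (nat_lit 159) (nat_lit 5) (nat_lit 158) (nat_lit 5) (nat_lit 168) (nat_lit 5) (nat_lit 414) (nat_lit 413) (nat_lit 373)))) (XT.nd (nat_lit 156) (nat_lit 0) (nat_lit 76) (XT.nd (nat_lit 78) (nat_lit 760) (nat_lit 0) (XT.lf (nat_lit 0) (nat_lit 11377470547) (nat_lit 684) (nat_lit 371193545) (nat_lit 760) (nat_lit 503376338) (nat_lit 159) (nat_lit 5) (nat_lit 168) (nat_lit 5) (nat_lit 169) (nat_lit 5) (nat_lit 415) (nat_lit 413) (nat_lit 372)) (XT.lf (nat_lit 0) (nat_lit 456830225) (nat_lit 760) (nat_lit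 2730411400) (nat_lit 836) (nat_lit 9526129044) (nat_lit 149) (nat_lit 5) (nat_lit 159) (nat_lit 5) (nat_lit 160) (nat_lit 5) (nat_lit 416) (nat_lit 413) (nat_lit 371))) (XT.nd (nat_lit 78) (nat_lit 0) (nat_lit 76) (XT.lf (nat_lit 0) (nat_lit 2024600796) (nat_lit 760) (nat_lit 5139316980) (nat_lit 836) (nat_lit 6038958724) (nat_lit 150) (nat_lit 5) (nat_lit 160) (nat_lit 5) (nat_lit 161) (nat_lit 5) (nat_lit 417) (nat_lit 413) (nat_lit 370)) (XT.lf (nat_lit 0) (nat_lit 3886357200) (nat_lit 760) (nat_lit 7578286380) (nat_lit 836) (nat_lit 2258481181) (nat_lit 151) (nat_lit 5) (nat_lit 161) (nat_lit 5) (nat_lit 162) (nat_lit 5) (nat_lit 418) (nat_lit 413) (nat_lit 369))))) (XT.nd (nat_lit 312) (nat_lit 1444) (nat_lit 0) (XT.nd (nat_lit 156) (nat_lit 380) (nat_lit 0) (XT.nd (nat_lit 78) (nat_lit 684) (nat_lit 0) (XT.lf (nat_lit 76) (nat_lit 4195893121) (nat_lit 0) (nat_lit 1916389540) (nat_lit 836)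 (nat_lit 8161958214) (nat_lit 152) (nat_lit 5) (nat_lit 151) (nat_lit 5) (nat_lit 162) (nat_lit 5) (nat_lit 419) (nat_lit 413) (nat_lit 368)) (XT.lf (nat_lit 0) (nat_lit 2205391638) (nat_lit 760) (nat_lit 6552495003) (nat_lit 836) (nat_lit 6099488136) (nat_lit 142) (nat_lit 5) (nat_lit 152) (nat_lit 5) (nat_lit 153) (nat_lit 5) (nat_lit 420) (nat_lit 413) (nat_lit 367))) (XT.nd (nat_lit 78) (nat_lit 0) (nat_lit 0) (XT.lf (nat_lit 0) (nat_lit 214030888) (nat_lit 380) (nat_lit 11619402206) (nat_lit 456) (nat_lit 3642819666) (nat_lit 137) (nat_lit 5) (nat_lit 142) (nat_lit 5) (nat_lit 143) (nat_lit 5) (nat_lit 421) (nat_lit 413) (nat_lit 366)) (XT.lf (nat_lit 0) (nat_lit 14396960901) (nat_lit 380) (nat_lit 1035938117) (nat_lit 456) (nat_lit 697855654) (nat_lit 137) (nat_lit 5) (nat_lit 142) (nat_lit 5) (nat_lit 143) (nat_lit 5) (nat_lit 422) (nat_lit 413) (nat_lit 365)))) (XT.nd (nat_lit 156) (nat_lit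 608) (nat_lit 0) (XT.nd (nat_lit 78) (nat_lit 380) (nat_lit 0) (XT.lf (nat_lit 0) (nat_lit 2727633089) (nat_lit 456) (nat_lit 3780954479) (nat_lit 76) (nat_lit 10310878178) (nat_lit 131) (nat_lit 5) (nat_lit 137) (nat_lit 5) (nat_lit 132) (nat_lit 5) (nat_lit 423) (nat_lit 413) (nat_lit 364)) (XT.lf (nat_lit 0) (nat_lit 6671177411) (nat_lit 456) (nat_lit 5842222725) (nat_lit 76) (nat_lit 5035884368) (nat_lit 126) (nat_lit 5) (nat_lit 132) (nat_lit 5) (nat_lit 127) (nat_lit 5) (nat_lit 424) (nat_lit 413) (nat_lit 363))) (XT.nd (nat_lit 78) (nat_lit 304) (nat_lit 0) (XT.lf (nat_lit 0) (nat_lit 10409170576) (nat_lit 304) (nat_lit 817468551) (nat_lit 380) (nat_lit 7096033596) (nat_lit 122) (nat_lit 5) (nat_lit 126) (nat_lit 5) (nat_lit 127) (nat_lit 5) (nat_lit 425) (nat_lit 413) (nat_lit 362)) (XT.lf (nat_lit 0) (nat_lit 9072777205) (nat_lit 304) (nat_lit 7462890268) (nat_lit 380) (nat_lit 2602813277)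 (nat_lit 118) (nat_lit 5) (nat_lit 122) (nat_lit 5) (nat_lit 123) (nat_lit 5) (nat_lit 426) (nat_lit 413) (nat_lit 361))))))))
noncomputable def xc67 : XT := (XT.nd (nat_lit 2340) (nat_lit 2508) (nat_lit 0) (XT.nd (nat_lit 1170) (nat_lit 2128) (nat_lit 0) (XT.nd (nat_lit 546) (nat_lit 1596) (nat_lit 0) (XT.nd (nat_lit 234) (nat_lit 760) (nat_lit 0) (XT.nd (nat_lit 78) (nat_lit 532) (nat_lit 0) (XT.lf (nat_lit 0) (nat_lit 2500098402) (nat_lit 380) (nat_lit 12250110965) (nat_lit 76) (nat_lit 5251480160) (nat_lit 113) (nat_lit 5) (nat_lit 118) (nat_lit 5) (nat_lit 114) (nat_lit 5) (nat_lit 427) (nat_lit 413) (nat_lit 360)) (XT.nd (nat_lit 78) (nat_lit 228) (nat_lit 0) (XT.lf (nat_lit 0) (nat_lit 6414399606) (nat_lit 304) (nat_lit 1874342055) (nat_lit 380) (nat_lit 12624649739) (nat_lit 109) (nat_lit 5) (nat_lit 113) (nat_lit 5) (nat_lit 114) (nat_lit 5) (nat_lit 428) (nat_lit 413) (nat_lit 359))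 (XT.lf (nat_lit 0) (nat_lit 5045968732) (nat_lit 228) (nat_lit 9943160355) (nat_lit 304) (nat_lit 6886471659) (nat_lit 106) (nat_lit 5) (nat_lit 109) (nat_lit 5) (nat_lit 110) (nat_lit 5) (nat_lit 429) (nat_lit 413) (nat_lit 358)))) (XT.nd (nat_lit 156) (nat_lit 228) (nat_lit 0) (XT.nd (nat_lit 78) (nat_lit 304) (nat_lit 0) (XT.lf (nat_lit 0) (nat_lit 3748713395) (nat_lit 228) (nat_lit 18850357499) (nat_lit 304) (nat_lit 297043440) (nat_lit 103) (nat_lit 5) (nat_lit 106) (nat_lit 5) (nat_lit 107) (nat_lit 5) (nat_lit 430) (nat_lit 413) (nat_lit 357)) (XT.lf (nat_lit 0) (nat_lit 2341836625) (nat_lit 228) (nat_lit 4729727874) (nat_lit 304) (nat_lit 16897869472) (nat_lit 99) (nat_lit 5) (nat_lit 102) (nat_lit 5) (nat_lit 103) (nat_lit 5) (nat_lit 431) (nat_lit 413) (nat_lit 356))) (XT.nd (nat_lit 78) (nat_lit 0) (nat_lit 0) (XT.lf (nat_lit 0) (nat_lit 932905852) (nat_lit 228) (nat_lit 14573908618)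 (nat_lit 304) (nat_lit 9597186204) (nat_lit 96) (nat_lit 5) (nat_lit 99) (nat_lit 5) (nat_lit 100) (nat_lit 5) (nat_lit 432) (nat_lit 413) (nat_lit 355)) (XT.lf (nat_lit 0) (nat_lit 25057369409) (nat_lit 304) (nat_lit 376249490) (nat_lit 76) (nat_lit 873692337) (nat_lit 96) (nat_lit 5) (nat_lit 100) (nat_lit 5) (nat_lit 97) (nat_lit 5) (nat_lit 433) (nat_lit 413) (nat_lit 354))))) (XT.nd (nat_lit 312) (nat_lit 684) (nat_lit 0) (XT.nd (nat_lit 156) (nat_lit 456) (nat_lit 0) (XT.nd (nat_lit 78) (nat_lit 228) (nat_lit 0) (XT.lf (nat_lit 0) (nat_lit 8149435158) (nat_lit 228) (nat_lit 1843273385) (nat_lit 76) (nat_lit 17576474600) (nat_lit 93) (nat_lit 5) (nat_lit 96) (nat_lit 5) (nat_lit 94) (nat_lit 5) (nat_lit 434) (nat_lit 413) (nat_lit 353)) (XT.lf (nat_lit 0) (nat_lit 18751714298) (nat_lit 304) (nat_lit 3261060136) (nat_lit 76) (nat_lit 6893470893) (nat_lit 90) (nat_lit 5) (nat_lit 94) (nat_lit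 5) (nat_lit 91) (nat_lit 5) (nat_lit 435) (nat_lit 413) (nat_lit 352))) (XT.nd (nat_lit 78) (nat_lit 228) (nat_lit 0) (XT.lf (nat_lit 0) (nat_lit 443131132) (nat_lit 228) (nat_lit 4665065363) (nat_lit 76) (nat_lit 25212869206) (nat_lit 87) (nat_lit 5) (nat_lit 90) (nat_lit 5) (nat_lit 88) (nat_lit 5) (nat_lit 436) (nat_lit 413) (nat_lit 351)) (XT.lf (nat_lit 0) (nat_lit 12189210111) (nat_lit 304) (nat_lit 6262635069) (nat_lit 76) (nat_lit 13356086528) (nat_lit 84) (nat_lit 5) (nat_lit 88) (nat_lit 5) (nat_lit 85) (nat_lit 5) (nat_lit 437) (nat_lit 413) (nat_lit 350)))) (XT.nd (nat_lit 156) (nat_lit 304) (nat_lit 0) (XT.nd (nat_lit 78) (nat_lit 228) (nat_lit 0) (XT.lf (nat_lit 0) (nat_lit 25424052462) (nat_lit 228) (nat_lit 7764687769) (nat_lit 76) (nat_lit 197554622) (nat_lit 82) (nat_lit 5) (nat_lit 85) (nat_lit 5) (nat_lit 83) (nat_lit 5) (nat_lit 438) (nat_lit 413) (nat_lit 349)) (XT.lf (nat_lit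 0) (nat_lit 5292553349) (nat_lit 228) (nat_lit 9469313128) (nat_lit 76) (nat_lit 20284756086) (nat_lit 79) (nat_lit 5) (nat_lit 82) (nat_lit 5) (nat_lit 80) (nat_lit 5) (nat_lit 439) (nat_lit 413) (nat_lit 348))) (XT.nd (nat_lit 78) (nat_lit 152) (nat_lit 0) (XT.lf (nat_lit 0) (nat_lit 19940723635) (nat_lit 228) (nat_lit 11217362717) (nat_lit 76) (nat_lit 5644567655) (nat_lit 77) (nat_lit 5) (nat_lit 80) (nat_lit 5) (nat_lit 78) (nat_lit 5) (nat_lit 440) (nat_lit 413) (nat_lit 347)) (XT.lf (nat_lit 0) (nat_lit 25625273542) (nat_lit 152) (nat_lit 10931704653) (nat_lit 228) (nat_lit 2102379530) (nat_lit 75) (nat_lit 5) (nat_lit 77) (nat_lit 5) (nat_lit 78) (nat_lit 5) (nat_lit 441) (nat_lit 413) (nat_lit 346)))))) (XT.nd (nat_lit 546) (nat_lit 1064) (nat_lit 0) (XT.nd (nat_lit 234) (nat_lit 532) (nat_lit 0) (XT.nd (nat_lit 78) (nat_lit 304) (nat_lit 0) (XT.lf (nat_lit 0) (nat_lit 14159175675)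 (nat_lit 228) (nat_lit 15076843002) (nat_lit 76) (nat_lit 11379570725) (nat_lit 72) (nat_lit 5) (nat_lit 75) (nat_lit 5) (nat_lit 73) (nat_lit 5) (nat_lit 442) (nat_lit 413) (nat_lit 345)) (XT.nd (nat_lit 78) (nat_lit 152) (nat_lit 0) (XT.lf (nat_lit 0) (nat_lit 25505550099) (nat_lit 152) (nat_lit 6937741136) (nat_lit 228) (nat_lit 10243541518) (nat_lit 70) (nat_lit 5) (nat_lit 72) (nat_lit 5) (nat_lit 73) (nat_lit 5) (nat_lit 443) (nat_lit 413) (nat_lit 344)) (XT.lf (nat_lit 0) (nat_lit 7962787242) (nat_lit 152) (nat_lit 19533321165) (nat_lit 76) (nat_lit 17375545898) (nat_lit 68) (nat_lit 5) (nat_lit 70) (nat_lit 5) (nat_lit 69) (nat_lit 5) (nat_lit 444) (nat_lit 413) (nat_lit 343)))) (XT.nd (nat_lit 156) (nat_lit 228) (nat_lit 0) (XT.nd (nat_lit 78) (nat_lit 152) (nat_lit 0) (XT.lf (nat_lit 0) (nat_lit 25135028395) (nat_lit 152) (nat_lit 2932395982) (nat_lit 228) (nat_lit 19115407427) (nat_lit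 66) (nat_lit 5) (nat_lit 68) (nat_lit 5) (nat_lit 69) (nat_lit 5) (nat_lit 445) (nat_lit 413) (nat_lit 342)) (XT.lf (nat_lit 0) (nat_lit 1200433026) (nat_lit 152) (nat_lit 24842603941) (nat_lit 76) (nat_lit 23580680360) (nat_lit 64) (nat_lit 5) (nat_lit 66) (nat_lit 5) (nat_lit 65) (nat_lit 5) (nat_lit 446) (nat_lit 413) (nat_lit 341))) (XT.nd (nat_lit 78) (nat_lit 76) (nat_lit 0) (XT.lf (nat_lit 0) (nat_lit 23298422406) (nat_lit 228) (nat_lit 27947372576) (nat_lit 76) (nat_lit 957081422) (nat_lit 62) (nat_lit 5) (nat_lit 65) (nat_lit 5) (nat_lit 63) (nat_lit 4) (nat_lit 447) (nat_lit 413) (nat_lit 340)) (XT.lf (nat_lit 0) (nat_lit 23477712409) (nat_lit 76) (nat_lit 24916087566) (nat_lit 152) (nat_lit 6533091433) (nat_lit 61) (nat_lit 5) (nat_lit 62) (nat_lit 5) (nat_lit 63) (nat_lit 4) (nat_lit 448) (nat_lit 413) (nat_lit 339))))) (XT.nd (nat_lit 312) (nat_lit 456) (nat_lit 0) (XT.nd (nat_lit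 156) (nat_lit 304) (nat_lit 0) (XT.nd (nat_lit 78) (nat_lit 76) (nat_lit 0) (XT.lf (nat_lit 0) (nat_lit 17968814408) (nat_lit 228) (nat_lit 35305361483) (nat_lit 76) (nat_lit 4535639202) (nat_lit 58) (nat_lit 5) (nat_lit 61) (nat_lit 5) (nat_lit 59) (nat_lit 4) (nat_lit 449) (nat_lit 413) (nat_lit 338)) (XT.lf (nat_lit 0) (nat_lit 21109932512) (nat_lit 76) (nat_lit 24386678351) (nat_lit 152) (nat_lit 15356676056) (nat_lit 57) (nat_lit 5) (nat_lit 58) (nat_lit 5) (nat_lit 59) (nat_lit 4) (nat_lit 450) (nat_lit 413) (nat_lit 337))) (XT.nd (nat_lit 78) (nat_lit 76) (nat_lit 0) (XT.lf (nat_lit 0) (nat_lit 11772517323) (nat_lit 228) (nat_lit 44603075006) (nat_lit 76) (nat_lit 7703942316) (nat_lit 54) (nat_lit 5) (nat_lit 57) (nat_lit 5) (nat_lit 55) (nat_lit 4) (nat_lit 451) (nat_lit 413) (nat_lit 336)) (XT.lf (nat_lit 0) (nat_lit 17165242426) (nat_lit 76) (nat_lit 24744808558) (nat_lit 152) (nat_lit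 25572442801) (nat_lit 53) (nat_lit 5) (nat_lit 54) (nat_lit 5) (nat_lit 55) (nat_lit 4) (nat_lit 452) (nat_lit 413) (nat_lit 335)))) (XT.nd (nat_lit 156) (nat_lit 228) (nat_lit 0) (XT.nd (nat_lit 78) (nat_lit 76) (nat_lit 0) (XT.lf (nat_lit 0) (nat_lit 4365716385) (nat_lit 152) (nat_lit 56538833116) (nat_lit 76) (nat_lit 10192040324) (nat_lit 51) (nat_lit 5) (nat_lit 53) (nat_lit 5) (nat_lit 52) (nat_lit 4) (nat_lit 453) (nat_lit 413) (nat_lit 334)) (XT.lf (nat_lit 0) (nat_lit 10925340904) (nat_lit 76) (nat_lit 26355156114) (nat_lit 152) (nat_lit 37624480740) (nat_lit 50) (nat_lit 5) (nat_lit 51) (nat_lit 5) (nat_lit 52) (nat_lit 4) (nat_lit 454) (nat_lit 413) (nat_lit 333))) (XT.nd (nat_lit 78) (nat_lit 152) (nat_lit 0) (XT.lf (nat_lit 0) (nat_lit 6844186814) (nat_lit 76) (nat_lit 67250498115) (nat_lit 76) (nat_lit 4860040883) (nat_lit 49) (nat_lit 4) (nat_lit 50) (nat_lit 5) (nat_lit 50) (nat_lit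 4) (nat_lit 455) (nat_lit 413) (nat_lit 332)) (XT.lf (nat_lit 0) (nat_lit 1428524231) (nat_lit 76) (nat_lit 29707117824) (nat_lit 152) (nat_lit 52089627660) (nat_lit 47) (nat_lit 5) (nat_lit 48) (nat_lit 5) (nat_lit 49) (nat_lit 4) (nat_lit 456) (nat_lit 413) (nat_lit 331))))))) (XT.nd (nat_lit 1170) (nat_lit 1140) (nat_lit 0) (XT.nd (nat_lit 546) (nat_lit 684) (nat_lit 0) (XT.nd (nat_lit 234) (nat_lit 456) (nat_lit 0) (XT.nd (nat_lit 78) (nat_lit 228) (nat_lit 0) (XT.lf (nat_lit 0) (nat_lit 71276964384) (nat_lit 152) (nat_lit 4643878613) (nat_lit 0) (nat_lit 11840817916) (nat_lit 47) (nat_lit 5) (nat_lit 49) (nat_lit 4) (nat_lit 47) (nat_lit 4) (nat_lit 457) (nat_lit 413) (nat_lit 330)) (XT.nd (nat_lit 78) (nat_lit 76) (nat_lit 0) (XT.lf (nat_lit 0) (nat_lit 23044651285) (nat_lit 152) (nat_lit 12202029152) (nat_lit 76) (nat_lit 57308175837) (nat_lit 45) (nat_lit 5) (nat_lit 47) (nat_lit 5)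 (nat_lit 46) (nat_lit 4) (nat_lit 458) (nat_lit 413) (nat_lit 329)) (XT.lf (nat_lit 0) (nat_lit 66597102118) (nat_lit 152) (nat_lit 21071335924) (nat_lit 0) (nat_lit 9977642461) (nat_lit 44) (nat_lit 5) (nat_lit 46) (nat_lit 4) (nat_lit 44) (nat_lit 4) (nat_lit 459) (nat_lit 413) (nat_lit 328)))) (XT.nd (nat_lit 156) (nat_lit 228) (nat_lit 0) (XT.nd (nat_lit 78) (nat_lit 76) (nat_lit 0) (XT.lf (nat_lit 0) (nat_lit 12099874876) (nat_lit 152) (nat_lit 31820772908) (nat_lit 76) (nat_lit 59118444496) (nat_lit 42) (nat_lit 5) (nat_lit 44) (nat_lit 5) (nat_lit 43) (nat_lit 4) (nat_lit 460) (nat_lit 413) (nat_lit 327)) (XT.lf (nat_lit 0) (nat_lit 59077288032) (nat_lit 152) (nat_lit 44544700590) (nat_lit 0) (nat_lit 5142883742) (nat_lit 41) (nat_lit 5) (nat_lit 43) (nat_lit 4) (nat_lit 41) (nat_lit 4) (nat_lit 461) (nat_lit 413) (nat_lit 326))) (XT.nd (nat_lit 78) (nat_lit 152) (nat_lit 0) (XT.lf (nat_lit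 0) (nat_lit 55156083300) (nat_lit 76) (nat_lit 56812108279) (nat_lit 76) (nat_lit 2872758576) (nat_lit 40) (nat_lit 4) (nat_lit 41) (nat_lit 5) (nat_lit 41) (nat_lit 4) (nat_lit 462) (nat_lit 413) (nat_lit 325)) (XT.lf (nat_lit 0) (nat_lit 43681348511) (nat_lit 76) (nat_lit 3940737977) (nat_lit 152) (nat_lit 73670745086) (nat_lit 38) (nat_lit 5) (nat_lit 39) (nat_lit 5) (nat_lit 40) (nat_lit 4) (nat_lit 463) (nat_lit 413) (nat_lit 324))))) (XT.nd (nat_lit 312) (nat_lit 304) (nat_lit 0) (XT.nd (nat_lit 156) (nat_lit 152) (nat_lit 0) (XT.nd (nat_lit 78) (nat_lit 152) (nat_lit 0) (XT.lf (nat_lit 0) (nat_lit 29262147807) (nat_lit 76) (nat_lit 75129392966) (nat_lit 76) (nat_lit 23750184694) (nat_lit 37) (nat_lit 4) (nat_lit 38) (nat_lit 5) (nat_lit 38) (nat_lit 4) (nat_lit 464) (nat_lit 413) (nat_lit 323)) (XT.lf (nat_lit 0) (nat_lit 11786120498) (nat_lit 76) (nat_lit 19028058845) (nat_lit 152) (nat_lit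 104620024610) (nat_lit 35) (nat_lit 5) (nat_lit 36) (nat_lit 5) (nat_lit 37) (nat_lit 4) (nat_lit 465) (nat_lit 413) (nat_lit 322))) (XT.nd (nat_lit 78) (nat_lit 152) (nat_lit 0) (XT.lf (nat_lit 0) (nat_lit 91313566537) (nat_lit 152) (nat_lit 9482819376) (nat_lit 0) (nat_lit 42374129311) (nat_lit 35) (nat_lit 5) (nat_lit 37) (nat_lit 4) (nat_lit 35) (nat_lit 4) (nat_lit 466) (nat_lit 413) (nat_lit 321)) (XT.lf (nat_lit 0) (nat_lit 7141296299) (nat_lit 152) (nat_lit 34302832661) (nat_lit 76) (nat_lit 109968688829) (nat_lit 33) (nat_lit 5) (nat_lit 35) (nat_lit 5) (nat_lit 34) (nat_lit 4) (nat_lit 467) (nat_lit 413) (nat_lit 320)))) (XT.nd (nat_lit 156) (nat_lit 152) (nat_lit 0) (XT.nd (nat_lit 78) (nat_lit 76) (nat_lit 0) (XT.lf (nat_lit 0) (nat_lit 71121731054) (nat_lit 152) (nat_lit 64539167008) (nat_lit 0) (nat_lit 24507143638) (nat_lit 32) (nat_lit 5) (nat_lit 34) (nat_lit 4) (nat_lit 32)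 (nat_lit 4) (nat_lit 468) (nat_lit 413) (nat_lit 319)) (XT.lf (nat_lit 0) (nat_lit 69073253324) (nat_lit 76) (nat_lit 73524330612) (nat_lit 76) (nat_lit 26907250505) (nat_lit 31) (nat_lit 4) (nat_lit 32) (nat_lit 5) (nat_lit 32) (nat_lit 4) (nat_lit 469) (nat_lit 413) (nat_lit 318))) (XT.nd (nat_lit 78) (nat_lit 0) (nat_lit 0) (XT.lf (nat_lit 0) (nat_lit 36659459211) (nat_lit 76) (nat_lit 3964368771) (nat_lit 152) (nat_lit 138847976743) (nat_lit 29) (nat_lit 5) (nat_lit 30) (nat_lit 5) (nat_lit 31) (nat_lit 4) (nat_lit 470) (nat_lit 413) (nat_lit 317)) (XT.lf (nat_lit 0) (nat_lit 115509280025) (nat_lit 152) (nat_lit 3452240819) (nat_lit 0) (nat_lit 71107827420) (nat_lit 29) (nat_lit 5) (nat_lit 31) (nat_lit 4) (nat_lit 29) (nat_lit 4) (nat_lit 471) (nat_lit 413) (nat_lit 316)))))) (XT.nd (nat_lit 546) (nat_lit 456) (nat_lit 0) (XT.nd (nat_lit 234) (nat_lit 380) (nat_lit 0) (XT.nd (nat_lit 78)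 (nat_lit 228) (nat_lit 0) (XT.lf (nat_lit 0) (nat_lit 151836251717) (nat_lit 76) (nat_lit 46980120299) (nat_lit 76) (nat_lit 2576783144) (nat_lit 28) (nat_lit 4) (nat_lit 29) (nat_lit 5) (nat_lit 29) (nat_lit 4) (nat_lit 472) (nat_lit 413) (nat_lit 315)) (XT.nd (nat_lit 78) (nat_lit 76) (nat_lit 0) (XT.lf (nat_lit 0) (nat_lit 75033553001) (nat_lit 152) (nat_lit 105673930962) (nat_lit 0) (nat_lit 32742998610) (nat_lit 26) (nat_lit 5) (nat_lit 28) (nat_lit 4) (nat_lit 26) (nat_lit 4) (nat_lit 473) (nat_lit 413) (nat_lit 314)) (XT.lf (nat_lit 0) (nat_lit 53899904391) (nat_lit 76) (nat_lit 107368585151) (nat_lit 76) (nat_lit 65076492000) (nat_lit 25) (nat_lit 4) (nat_lit 26) (nat_lit 5) (nat_lit 26) (nat_lit 4) (nat_lit 474) (nat_lit 413) (nat_lit 313)))) (XT.nd (nat_lit 156) (nat_lit 228) (nat_lit 0) (XT.nd (nat_lit 78) (nat_lit 76) (nat_lit 0) (XT.lf (nat_lit 0) (nat_lit 15543764829) (nat_lit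 152) (nat_lit 10428800028) (nat_lit 76) (nat_lit 214194200735) (nat_lit 24) (nat_lit 5) (nat_lit 26) (nat_lit 5) (nat_lit 25) (nat_lit 4) (nat_lit 475) (nat_lit 413) (nat_lit 312)) (XT.lf (nat_lit 0) (nat_lit 104022759607) (nat_lit 152) (nat_lit 87091775079) (nat_lit 0) (nat_lit 63741962303) (nat_lit 23) (nat_lit 5) (nat_lit 25) (nat_lit 4) (nat_lit 23) (nat_lit 4) (nat_lit 476) (nat_lit 413) (nat_lit 311))) (XT.nd (nat_lit 78) (nat_lit 152) (nat_lit 0) (XT.lf (nat_lit 0) (nat_lit 92378569506) (nat_lit 76) (nat_lit 109260913808) (nat_lit 76) (nat_lit 68978953154) (nat_lit 22) (nat_lit 4) (nat_lit 23) (nat_lit 5) (nat_lit 23) (nat_lit 4) (nat_lit 477) (nat_lit 413) (nat_lit 310)) (XT.lf (nat_lit 0) (nat_lit 1458935546) (nat_lit 76) (nat_lit 18903002686) (nat_lit 152) (nat_lit 267186258559) (nat_lit 20) (nat_lit 5) (nat_lit 21) (nat_lit 5) (nat_lit 22) (nat_lit 4) (nat_lit 478) (nat_lit 413) (nat_lit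 309))))) (XT.nd (nat_lit 312) (nat_lit 228) (nat_lit 0) (XT.nd (nat_lit 156) (nat_lit 152) (nat_lit 0) (XT.nd (nat_lit 78) (nat_lit 76) (nat_lit 0) (XT.lf (nat_lit 0) (nat_lit 118844758466) (nat_lit 152) (nat_lit 106231461537) (nat_lit 0) (nat_lit 80479010641) (nat_lit 20) (nat_lit 5) (nat_lit 22) (nat_lit 4) (nat_lit 20) (nat_lit 4) (nat_lit 479) (nat_lit 413) (nat_lit 308)) (XT.lf (nat_lit 0) (nat_lit 90585894091) (nat_lit 76) (nat_lit 136348573662) (nat_lit 76) (nat_lit 97981946309) (nat_lit 19) (nat_lit 4) (nat_lit 20) (nat_lit 5) (nat_lit 20) (nat_lit 4) (nat_lit 480) (nat_lit 413) (nat_lit 307))) (XT.nd (nat_lit 78) (nat_lit 152) (nat_lit 0) (XT.lf (nat_lit 0) (nat_lit 306932905246) (nat_lit 76) (nat_lit 38584366387) (nat_lit 76) (nat_lit 216924656) (nat_lit 19) (nat_lit 4) (nat_lit 20) (nat_lit 5) (nat_lit 20) (nat_lit 4) (nat_lit 481) (nat_lit 413) (nat_lit 306)) (XT.lf (nat_lit 0) (nat_lit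 105864130758) (nat_lit 152) (nat_lit 192754657561) (nat_lit 0) (nat_lit 69322991915) (nat_lit 17) (nat_lit 5) (nat_lit 19) (nat_lit 4) (nat_lit 17) (nat_lit 4) (nat_lit 482) (nat_lit 413) (nat_lit 305)))) (XT.nd (nat_lit 156) (nat_lit 152) (nat_lit 0) (XT.nd (nat_lit 78) (nat_lit 0) (nat_lit 0) (XT.lf (nat_lit 0) (nat_lit 15613973117) (nat_lit 76) (nat_lit 206387379836) (nat_lit 76) (nat_lit 169845576042) (nat_lit 16) (nat_lit 4) (nat_lit 17) (nat_lit 5) (nat_lit 17) (nat_lit 4) (nat_lit 483) (nat_lit 413) (nat_lit 304)) (XT.lf (nat_lit 0) (nat_lit 247527222404) (nat_lit 76) (nat_lit 103256001603) (nat_lit 76) (nat_lit 66713582114) (nat_lit 16) (nat_lit 4) (nat_lit 17) (nat_lit 5) (nat_lit 17) (nat_lit 4) (nat_lit 484) (nat_lit 413) (nat_lit 303))) (XT.nd (nat_lit 78) (nat_lit 0) (nat_lit 0) (XT.lf (nat_lit 0) (nat_lit 44227702201) (nat_lit 152) (nat_lit 391461825012) (nat_lit 0) (nat_lit 9424854985)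 (nat_lit 14) (nat_lit 5) (nat_lit 16) (nat_lit 4) (nat_lit 14) (nat_lit 4) (nat_lit 485) (nat_lit 413) (nat_lit 302)) (XT.lf (nat_lit 0) (nat_lit 166484951708) (nat_lit 152) (nat_lit 176481228569) (nat_lit 0) (nat_lit 131681601768) (nat_lit 14) (nat_lit 5) (nat_lit 16) (nat_lit 4) (nat_lit 14) (nat_lit 4) (nat_lit 486) (nat_lit 413) (nat_lit 301))))))))
noncomputable def xc68 : XT := (XT.nd (nat_lit 57798) (nat_lit 0) (nat_lit 3344) (XT.nd (nat_lit 1092) (nat_lit 152) (nat_lit 0) (XT.nd (nat_lit 546) (nat_lit 228) (nat_lit 0) (XT.nd (nat_lit 234) (nat_lit 76) (nat_lit 0) (XT.nd (nat_lit 78) (nat_lit 152) (nat_lit 0) (XT.lf (nat_lit 0) (nat_lit 57532362448) (nat_lit 76) (nat_lit 241885281858) (nat_lit 76) (nat_lit 207081466434) (nat_lit 13) (nat_lit 4) (nat_lit 14) (nat_lit 5) (nat_lit 14) (nat_lit 4) (nat_lit 487) (nat_lit 413) (nat_lit 300)) (XT.nd (nat_lit 78) (nat_lit 152) (nat_lit 0) (XT.lf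 (nat_lit 0) (nat_lit 316562578062) (nat_lit 76) (nat_lit 129493333083) (nat_lit 76) (nat_lit 94689086656) (nat_lit 13) (nat_lit 4) (nat_lit 14) (nat_lit 5) (nat_lit 14) (nat_lit 4) (nat_lit 488) (nat_lit 413) (nat_lit 299)) (XT.lf (nat_lit 0) (nat_lit 18762218703) (nat_lit 76) (nat_lit 7367958959) (nat_lit 152) (nat_lit 551565044701) (nat_lit 11) (nat_lit 5) (nat_lit 12) (nat_lit 5) (nat_lit 13) (nat_lit 4) (nat_lit 489) (nat_lit 413) (nat_lit 298)))) (XT.nd (nat_lit 156) (nat_lit 76) (nat_lit 0) (XT.nd (nat_lit 78) (nat_lit 0) (nat_lit 0) (XT.lf (nat_lit 0) (nat_lit 159252289754) (nat_lit 152) (nat_lit 331869167194) (nat_lit 0) (nat_lit 126104656399) (nat_lit 11) (nat_lit 5) (nat_lit 13) (nat_lit 4) (nat_lit 11) (nat_lit 4) (nat_lit 490) (nat_lit 413) (nat_lit 297)) (XT.lf (nat_lit 0) (nat_lit 303145673190) (nat_lit 152) (nat_lit 86770013328) (nat_lit 0) (nat_lit 269997713984) (nat_lit 11)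 (nat_lit 5) (nat_lit 13) (nat_lit 4) (nat_lit 11) (nat_lit 4) (nat_lit 491) (nat_lit 413) (nat_lit 296))) (XT.nd (nat_lit 78) (nat_lit 0) (nat_lit 0) (XT.lf (nat_lit 0) (nat_lit 183815165087) (nat_lit 76) (nat_lit 277602699798) (nat_lit 76) (nat_lit 244454438876) (nat_lit 10) (nat_lit 4) (nat_lit 11) (nat_lit 5) (nat_lit 11) (nat_lit 4) (nat_lit 492) (nat_lit 413) (nat_lit 295)) (XT.lf (nat_lit 0) (nat_lit 479140769392) (nat_lit 76) (nat_lit 154720118688) (nat_lit 76) (nat_lit 121571578400) (nat_lit 10) (nat_lit 4) (nat_lit 11) (nat_lit 5) (nat_lit 11) (nat_lit 4) (nat_lit 493) (nat_lit 413) (nat_lit 294))))) (XT.nd (nat_lit 234) (nat_lit 76) (nat_lit 0) (XT.nd (nat_lit 78) (nat_lit 76) (nat_lit 0) (XT.lf (nat_lit 0) (nat_lit 10783021299) (nat_lit 152) (nat_lit 11043605295) (nat_lit 76) (nat_lit 787122231753) (nat_lit 9) (nat_lit 5) (nat_lit 11) (nat_lit 5) (nat_lit 10) (nat_lit 4) (nat_lit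 494) (nat_lit 413) (nat_lit 293)) (XT.nd (nat_lit 78) (nat_lit 0) (nat_lit 0) (XT.lf (nat_lit 0) (nat_lit 155936646192) (nat_lit 152) (nat_lit 586020636527) (nat_lit 0) (nat_lit 124366133362) (nat_lit 8) (nat_lit 5) (nat_lit 10) (nat_lit 4) (nat_lit 8) (nat_lit 4) (nat_lit 495) (nat_lit 413) (nat_lit 292)) (XT.lf (nat_lit 0) (nat_lit 313264073716) (nat_lit 152) (nat_lit 333302439413) (nat_lit 0) (nat_lit 281693349678) (nat_lit 8) (nat_lit 5) (nat_lit 10) (nat_lit 4) (nat_lit 8) (nat_lit 4) (nat_lit 496) (nat_lit 413) (nat_lit 291)))) (XT.nd (nat_lit 156) (nat_lit 0) (nat_lit 0) (XT.nd (nat_lit 78) (nat_lit 76) (nat_lit 0) (XT.lf (nat_lit 0) (nat_lit 483175797035) (nat_lit 152) (nat_lit 60370645732) (nat_lit 0) (nat_lit 451604877433) (nat_lit 8) (nat_lit 5) (nat_lit 10) (nat_lit 4) (nat_lit 8) (nat_lit 4) (nat_lit 497) (nat_lit 413) (nat_lit 290)) (XT.lf (nat_lit 0) (nat_lit 242142180078) (nat_lit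 76) (nat_lit 428317038390) (nat_lit 76) (nat_lit 396745937710) (nat_lit 7) (nat_lit 4) (nat_lit 8) (nat_lit 5) (nat_lit 8) (nat_lit 4) (nat_lit 498) (nat_lit 413) (nat_lit 289))) (XT.nd (nat_lit 78) (nat_lit 0) (nat_lit 0) (XT.lf (nat_lit 0) (nat_lit 571008430196) (nat_lit 76) (nat_lit 302766820174) (nat_lit 76) (nat_lit 271195551830) (nat_lit 7) (nat_lit 4) (nat_lit 8) (nat_lit 5) (nat_lit 8) (nat_lit 4) (nat_lit 499) (nat_lit 413) (nat_lit 288)) (XT.lf (nat_lit 0) (nat_lit 926180815470) (nat_lit 76) (nat_lit 167174192926) (nat_lit 76) (nat_lit 135602769336) (nat_lit 7) (nat_lit 4) (nat_lit 8) (nat_lit 5) (nat_lit 8) (nat_lit 4) (nat_lit 500) (nat_lit 413) (nat_lit 287)))))) (XT.nd (nat_lit 56082) (nat_lit 0) (nat_lit 8892) (XT.nd (nat_lit 55770) (nat_lit 0) (nat_lit 10868) (XT.nd (nat_lit 78) (nat_lit 76) (nat_lit 0) (XT.lf (nat_lit 0) (nat_lit 10489105362) (nat_lit 152) (nat_lit 10068901341)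 (nat_lit 76) (nat_lit 1299097317708) (nat_lit 6) (nat_lit 5) (nat_lit 8) (nat_lit 5) (nat_lit 7) (nat_lit 4) (nat_lit 501) (nat_lit 413) (nat_lit 286)) (XT.nd (nat_lit 55614) (nat_lit 0) (nat_lit 11628) (XT.lf (nat_lit 0) (nat_lit 170748117248) (nat_lit 152) (nat_lit 1105708044265) (nat_lit 0) (nat_lit 140679831121) (nat_lit 5) (nat_lit 5) (nat_lit 7) (nat_lit 4) (nat_lit 5) (nat_lit 4) (nat_lit 502) (nat_lit 413) (nat_lit 285)) (XT.lf (nat_lit 0) (nat_lit 2732545948) (nat_lit 0) (nat_lit 2732545948) (nat_lit 684) (nat_lit 653174145) (nat_lit 158) (nat_lit 5) (nat_lit 158) (nat_lit 3) (nat_lit 167) (nat_lit 3) (nat_lit 414) (nat_lit 414) (nat_lit 372)))) (XT.nd (nat_lit 156) (nat_lit 0) (nat_lit 76) (XT.nd (nat_lit 78) (nat_lit 760) (nat_lit 0) (XT.lf (nat_lit 76) (nat_lit 2984085930) (nat_lit 0) (nat_lit 9184093712) (nat_lit 760) (nat_lit 517658987) (nat_lit 159) (nat_lit 5) (nat_lit 158) (nat_lit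 5) (nat_lit 168) (nat_lit 5) (nat_lit 415) (nat_lit 414) (nat_lit 371)) (XT.lf (nat_lit 76) (nat_lit 469758319) (nat_lit 0) (nat_lit 1924393) (nat_lit 836) (nat_lit 12691744571) (nat_lit 149) (nat_lit 5) (nat_lit 148) (nat_lit 5) (nat_lit 159) (nat_lit 5) (nat_lit 416) (nat_lit 414) (nat_lit 370))) (XT.nd (nat_lit 78) (nat_lit 0) (nat_lit 76) (XT.lf (nat_lit 0) (nat_lit 1782755403) (nat_lit 760) (nat_lit 2080159655) (nat_lit 836) (nat_lit 9802857840) (nat_lit 149) (nat_lit 5) (nat_lit 159) (nat_lit 5) (nat_lit 160) (nat_lit 5) (nat_lit 417) (nat_lit 414) (nat_lit 369)) (XT.lf (nat_lit 0) (nat_lit 3387542264) (nat_lit 760) (nat_lit 4653134748) (nat_lit 836) (nat_lit 6158197152) (nat_lit 150) (nat_lit 5) (nat_lit 160) (nat_lit 5) (nat_lit 161) (nat_lit 5) (nat_lit 418) (nat_lit 414) (nat_lit 368))))) (XT.nd (nat_lit 312) (nat_lit 1140) (nat_lit 0) (XT.nd (nat_lit 156) (nat_lit 1064) (nat_lit 0)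 (XT.nd (nat_lit 78) (nat_lit 0) (nat_lit 0) (XT.lf (nat_lit 0) (nat_lit 5318509231) (nat_lit 760) (nat_lit 7265607718) (nat_lit 836) (nat_lit 2180625449) (nat_lit 151) (nat_lit 5) (nat_lit 161) (nat_lit 5) (nat_lit 162) (nat_lit 5) (nat_lit 419) (nat_lit 414) (nat_lit 367)) (XT.lf (nat_lit 76) (nat_lit 5410570062) (nat_lit 0) (nat_lit 2242607335) (nat_lit 836) (nat_lit 7710249576) (nat_lit 152) (nat_lit 5) (nat_lit 151) (nat_lit 5) (nat_lit 162) (nat_lit 5) (nat_lit 420) (nat_lit 414) (nat_lit 366))) (XT.nd (nat_lit 78) (nat_lit 380) (nat_lit 0) (XT.lf (nat_lit 0) (nat_lit 3275670774) (nat_lit 760) (nat_lit 7168295384) (nat_lit 836) (nat_lit 5552580277) (nat_lit 142) (nat_lit 5) (nat_lit 152) (nat_lit 5) (nat_lit 153) (nat_lit 5) (nat_lit 421) (nat_lit 414) (nat_lit 365)) (XT.lf (nat_lit 0) (nat_lit 1134794283) (nat_lit 380) (nat_lit 12570550011) (nat_lit 456) (nat_lit 2962611771) (nat_lit 137)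 (nat_lit 5) (nat_lit 142) (nat_lit 5) (nat_lit 143) (nat_lit 5) (nat_lit 422) (nat_lit 414) (nat_lit 364)))) (XT.nd (nat_lit 156) (nat_lit 684) (nat_lit 0) (XT.nd (nat_lit 78) (nat_lit 380) (nat_lit 0) (XT.lf (nat_lit 0) (nat_lit 141304351) (nat_lit 456) (nat_lit 995111710) (nat_lit 76) (nat_lit 16241724923) (nat_lit 136) (nat_lit 5) (nat_lit 142) (nat_lit 5) (nat_lit 137) (nat_lit 5) (nat_lit 423) (nat_lit 414) (nat_lit 363)) (XT.lf (nat_lit 0) (nat_lit 3765264477) (nat_lit 456) (nat_lit 3214492649) (nat_lit 76) (nat_lit 11144184542) (nat_lit 131) (nat_lit 5) (nat_lit 137) (nat_lit 5) (nat_lit 132) (nat_lit 5) (nat_lit 424) (nat_lit 414) (nat_lit 362))) (XT.nd (nat_lit 78) (nat_lit 304) (nat_lit 0) (XT.lf (nat_lit 0) (nat_lit 7977500062) (nat_lit 456) (nat_lit 5440666802) (nat_lit 76) (nat_lit 5496326847) (nat_lit 126) (nat_lit 5) (nat_lit 132) (nat_lit 5) (nat_lit 127) (nat_lit 5) (nat_lit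 425) (nat_lit 414) (nat_lit 361)) (XT.lf (nat_lit 0) (nat_lit 12073075161) (nat_lit 304) (nat_lit 780068724) (nat_lit 380) (nat_lit 6898829409) (nat_lit 122) (nat_lit 5) (nat_lit 126) (nat_lit 5) (nat_lit 127) (nat_lit 5) (nat_lit 426) (nat_lit 414) (nat_lit 360))))))) (XT.nd (nat_lit 1170) (nat_lit 2128) (nat_lit 0) (XT.nd (nat_lit 546) (nat_lit 1444) (nat_lit 0) (XT.nd (nat_lit 234) (nat_lit 988) (nat_lit 0) (XT.nd (nat_lit 78) (nat_lit 684) (nat_lit 0) (XT.lf (nat_lit 0) (nat_lit 10627039865) (nat_lit 304) (nat_lit 7920321378) (nat_lit 380) (nat_lit 2087668387) (nat_lit 118) (nat_lit 5) (nat_lit 122) (nat_lit 5) (nat_lit 123) (nat_lit 5) (nat_lit 427) (nat_lit 414) (nat_lit 359)) (XT.nd (nat_lit 78) (nat_lit 304) (nat_lit 0) (XT.lf (nat_lit 0) (nat_lit 3363573121) (nat_lit 380) (nat_lit 12384723811) (nat_lit 76) (nat_lit 5820277200) (nat_lit 113) (nat_lit 5) (nat_lit 118) (nat_lit 5) (nat_lit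 114) (nat_lit 5) (nat_lit 428) (nat_lit 414) (nat_lit 358)) (XT.lf (nat_lit 0) (nat_lit 7736207724) (nat_lit 304) (nat_lit 1842579813) (nat_lit 380) (nat_lit 12976256354) (nat_lit 109) (nat_lit 5) (nat_lit 113) (nat_lit 5) (nat_lit 114) (nat_lit 5) (nat_lit 429) (nat_lit 414) (nat_lit 357)))) (XT.nd (nat_lit 156) (nat_lit 456) (nat_lit 0) (XT.nd (nat_lit 78) (nat_lit 304) (nat_lit 0) (XT.lf (nat_lit 0) (nat_lit 6250498863) (nat_lit 228) (nat_lit 10533397012) (nat_lit 304) (nat_lit 6811904909) (nat_lit 106) (nat_lit 5) (nat_lit 109) (nat_lit 5) (nat_lit 110) (nat_lit 5) (nat_lit 430) (nat_lit 414) (nat_lit 356)) (XT.lf (nat_lit 0) (nat_lit 265652682) (nat_lit 304) (nat_lit 19863539785) (nat_lit 76) (nat_lit 4569993485) (nat_lit 102) (nat_lit 5) (nat_lit 106) (nat_lit 5) (nat_lit 103) (nat_lit 5) (nat_lit 431) (nat_lit 414) (nat_lit 355))) (XT.nd (nat_lit 78) (nat_lit 228) (nat_lit 0) (XT.lf (nat_lit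 0) (nat_lit 3304598467) (nat_lit 228) (nat_lit 4878308493) (nat_lit 304) (nat_lit 17676746811) (nat_lit 99) (nat_lit 5) (nat_lit 102) (nat_lit 5) (nat_lit 103) (nat_lit 5) (nat_lit 432) (nat_lit 414) (nat_lit 354)) (XT.lf (nat_lit 0) (nat_lit 1771969756) (nat_lit 228) (nat_lit 15495848017) (nat_lit 304) (nat_lit 9818430000) (nat_lit 96) (nat_lit 5) (nat_lit 99) (nat_lit 5) (nat_lit 100) (nat_lit 5) (nat_lit 433) (nat_lit 414) (nat_lit 353))))) (XT.nd (nat_lit 312) (nat_lit 760) (nat_lit 0) (XT.nd (nat_lit 156) (nat_lit 456) (nat_lit 0) (XT.nd (nat_lit 78) (nat_lit 76) (nat_lit 0) (XT.lf (nat_lit 0) (nat_lit 332721267) (nat_lit 152) (nat_lit 27219865046) (nat_lit 228) (nat_lit 834732114) (nat_lit 94) (nat_lit 5) (nat_lit 96) (nat_lit 5) (nat_lit 97) (nat_lit 5) (nat_lit 434) (nat_lit 414) (nat_lit 352)) (XT.lf (nat_lit 0) (nat_lit 9269331403) (nat_lit 228) (nat_lit 1278456888) (nat_lit 76) (nat_lit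 19203491567) (nat_lit 93) (nat_lit 5) (nat_lit 96) (nat_lit 5) (nat_lit 94) (nat_lit 5) (nat_lit 435) (nat_lit 414) (nat_lit 351))) (XT.nd (nat_lit 78) (nat_lit 228) (nat_lit 0) (XT.lf (nat_lit 0) (nat_lit 20699474508) (nat_lit 304) (nat_lit 2822094259) (nat_lit 76) (nat_lit 7674757196) (nat_lit 90) (nat_lit 5) (nat_lit 94) (nat_lit 5) (nat_lit 91) (nat_lit 5) (nat_lit 436) (nat_lit 414) (nat_lit 350)) (XT.lf (nat_lit 0) (nat_lit 910498972) (nat_lit 228) (nat_lit 4354520058) (nat_lit 76) (nat_lit 27460102693) (nat_lit 87) (nat_lit 5) (nat_lit 90) (nat_lit 5) (nat_lit 88) (nat_lit 5) (nat_lit 437) (nat_lit 414) (nat_lit 349)))) (XT.nd (nat_lit 156) (nat_lit 380) (nat_lit 0) (XT.nd (nat_lit 78) (nat_lit 152) (nat_lit 0) (XT.lf (nat_lit 0) (nat_lit 13578289695) (nat_lit 304) (nat_lit 6092880644) (nat_lit 76) (nat_lit 14660667872) (nat_lit 84) (nat_lit 5) (nat_lit 88) (nat_lit 5) (nat_lit 85) (nat_lit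 5) (nat_lit 438) (nat_lit 414) (nat_lit 348)) (XT.lf (nat_lit 0) (nat_lit 27855151330) (nat_lit 228) (nat_lit 7728431628) (nat_lit 76) (nat_lit 453728144) (nat_lit 82) (nat_lit 5) (nat_lit 85) (nat_lit 5) (nat_lit 83) (nat_lit 5) (nat_lit 439) (nat_lit 414) (nat_lit 347))) (XT.nd (nat_lit 78) (nat_lit 152) (nat_lit 0) (XT.lf (nat_lit 0) (nat_lit 6099745563) (nat_lit 228) (nat_lit 9585283184) (nat_lit 76) (nat_lit 22146108999) (nat_lit 79) (nat_lit 5) (nat_lit 82) (nat_lit 5) (nat_lit 80) (nat_lit 5) (nat_lit 440) (nat_lit 414) (nat_lit 346)) (XT.lf (nat_lit 0) (nat_lit 21904805921) (nat_lit 228) (nat_lit 11486672136) (nat_lit 76) (nat_lit 6336923693) (nat_lit 77) (nat_lit 5) (nat_lit 80) (nat_lit 5) (nat_lit 78) (nat_lit 5) (nat_lit 441) (nat_lit 414) (nat_lit 345)))))) (XT.nd (nat_lit 546) (nat_lit 988) (nat_lit 0) (XT.nd (nat_lit 234) (nat_lit 608) (nat_lit 0) (XT.nd (nat_lit 78) (nat_lit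 380) (nat_lit 0) (XT.lf (nat_lit 0) (nat_lit 28276079450) (nat_lit 152) (nat_lit 11556340993) (nat_lit 228) (nat_lit 1902120074) (nat_lit 75) (nat_lit 5) (nat_lit 77) (nat_lit 5) (nat_lit 78) (nat_lit 5) (nat_lit 442) (nat_lit 414) (nat_lit 344)) (XT.nd (nat_lit 78) (nat_lit 152) (nat_lit 0) (XT.lf (nat_lit 0) (nat_lit 15635146439) (nat_lit 228) (nat_lit 15683877373) (nat_lit 76) (nat_lit 12528631835) (nat_lit 72) (nat_lit 5) (nat_lit 75) (nat_lit 5) (nat_lit 73) (nat_lit 5) (nat_lit 443) (nat_lit 414) (nat_lit 343)) (XT.lf (nat_lit 0) (nat_lit 28119070452) (nat_lit 152) (nat_lit 7246443178) (nat_lit 228) (nat_lit 10719910129) (nat_lit 70) (nat_lit 5) (nat_lit 72) (nat_lit 5) (nat_lit 73) (nat_lit 5) (nat_lit 444) (nat_lit 414) (nat_lit 342)))) (XT.nd (nat_lit 156) (nat_lit 304) (nat_lit 0) (XT.nd (nat_lit 78) (nat_lit 152) (nat_lit 0) (XT.lf (nat_lit 0) (nat_lit 8919848572) (nat_lit 152) (nat_lit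 20525251981) (nat_lit 76) (nat_lit 19000268606) (nat_lit 68) (nat_lit 5) (nat_lit 70) (nat_lit 5) (nat_lit 69) (nat_lit 5) (nat_lit 445) (nat_lit 414) (nat_lit 341)) (XT.lf (nat_lit 0) (nat_lit 27691762101) (nat_lit 152) (nat_lit 2925911552) (nat_lit 228) (nat_lit 20324527511) (nat_lit 66) (nat_lit 5) (nat_lit 68) (nat_lit 5) (nat_lit 69) (nat_lit 5) (nat_lit 446) (nat_lit 414) (nat_lit 340))) (XT.nd (nat_lit 78) (nat_lit 152) (nat_lit 0) (XT.lf (nat_lit 0) (nat_lit 1595384888) (nat_lit 152) (nat_lit 26286916242) (nat_lit 76) (nat_lit 25696355006) (nat_lit 64) (nat_lit 5) (nat_lit 66) (nat_lit 5) (nat_lit 65) (nat_lit 5) (nat_lit 447) (nat_lit 414) (nat_lit 339)) (XT.lf (nat_lit 0) (nat_lit 25450845040) (nat_lit 228) (nat_lit 29653075473) (nat_lit 76) (nat_lit 1260746789) (nat_lit 62) (nat_lit 5) (nat_lit 65) (nat_lit 5) (nat_lit 63) (nat_lit 4) (nat_lit 448) (nat_lit 414) (nat_lit 338)))))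 (XT.nd (nat_lit 312) (nat_lit 380) (nat_lit 0) (XT.nd (nat_lit 156) (nat_lit 304) (nat_lit 0) (XT.nd (nat_lit 78) (nat_lit 228) (nat_lit 0) (XT.lf (nat_lit 0) (nat_lit 25862979380) (nat_lit 76) (nat_lit 26677415918) (nat_lit 152) (nat_lit 6766881956) (nat_lit 61) (nat_lit 5) (nat_lit 62) (nat_lit 5) (nat_lit 63) (nat_lit 4) (nat_lit 449) (nat_lit 414) (nat_lit 337)) (XT.lf (nat_lit 0) (nat_lit 19676477943) (nat_lit 228) (nat_lit 37626130829) (nat_lit 76) (nat_lit 5118473996) (nat_lit 58) (nat_lit 5) (nat_lit 61) (nat_lit 5) (nat_lit 59) (nat_lit 4) (nat_lit 450) (nat_lit 414) (nat_lit 336))) (XT.nd (nat_lit 78) (nat_lit 228) (nat_lit 0) (XT.lf (nat_lit 0) (nat_lit 23280498255) (nat_lit 76) (nat_lit 26113509926) (nat_lit 152) (nat_lit 16314649369) (nat_lit 57) (nat_lit 5) (nat_lit 58) (nat_lit 5) (nat_lit 59) (nat_lit 4) (nat_lit 451) (nat_lit 414) (nat_lit 335)) (XT.lf (nat_lit 0) (nat_lit 12967568010)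 (nat_lit 228) (nat_lit 47693120413) (nat_lit 76) (nat_lit 8532538679) (nat_lit 54) (nat_lit 5) (nat_lit 57) (nat_lit 5) (nat_lit 55) (nat_lit 4) (nat_lit 452) (nat_lit 414) (nat_lit 334)))) (XT.nd (nat_lit 156) (nat_lit 152) (nat_lit 0) (XT.nd (nat_lit 78) (nat_lit 152) (nat_lit 0) (XT.lf (nat_lit 0) (nat_lit 18995880399) (nat_lit 76) (nat_lit 26508606344) (nat_lit 152) (nat_lit 27364517693) (nat_lit 53) (nat_lit 5) (nat_lit 54) (nat_lit 5) (nat_lit 55) (nat_lit 4) (nat_lit 453) (nat_lit 414) (nat_lit 333)) (XT.lf (nat_lit 0) (nat_lit 4952627188) (nat_lit 152) (nat_lit 60608194874) (nat_lit 76) (nat_lit 11211605867) (nat_lit 51) (nat_lit 5) (nat_lit 53) (nat_lit 5) (nat_lit 52) (nat_lit 4) (nat_lit 454) (nat_lit 414) (nat_lit 332))) (XT.nd (nat_lit 78) (nat_lit 76) (nat_lit 0) (XT.lf (nat_lit 0) (nat_lit 12233393868) (nat_lit 76) (nat_lit 28256368799) (nat_lit 152) (nat_lit 40396266084) (nat_lit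 50) (nat_lit 5) (nat_lit 51) (nat_lit 5) (nat_lit 52) (nat_lit 4) (nat_lit 455) (nat_lit 414) (nat_lit 331)) (XT.lf (nat_lit 0) (nat_lit 7814644934) (nat_lit 76) (nat_lit 72427237118) (nat_lit 76) (nat_lit 5018235215) (nat_lit 49) (nat_lit 4) (nat_lit 50) (nat_lit 5) (nat_lit 50) (nat_lit 4) (nat_lit 456) (nat_lit 414) (nat_lit 330))))))))
noncomputable def xc69 : XT := (XT.nd (nat_lit 2262) (nat_lit 760) (nat_lit 0) (XT.nd (nat_lit 1092) (nat_lit 1140) (nat_lit 0) (XT.nd (nat_lit 546) (nat_lit 684) (nat_lit 0) (XT.nd (nat_lit 234) (nat_lit 380) (nat_lit 0) (XT.nd (nat_lit 78) (nat_lit 152) (nat_lit 0) (XT.lf (nat_lit 0) (nat_lit 1954414784) (nat_lit 76) (nat_lit 31885197604) (nat_lit 152) (nat_lit 56033018111) (nat_lit 47) (nat_lit 5) (nat_lit 48) (nat_lit 5) (nat_lit 49) (nat_lit 4) (nat_lit 457) (nat_lit 414) (nat_lit 329)) (XT.nd (nat_lit 78) (nat_lit 152) (nat_lit 0) (XT.lf (nat_lit 0)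 (nat_lit 77179323339) (nat_lit 152) (nat_lit 4627268135) (nat_lit 0) (nat_lit 12965987736) (nat_lit 47) (nat_lit 5) (nat_lit 49) (nat_lit 4) (nat_lit 47) (nat_lit 4) (nat_lit 458) (nat_lit 414) (nat_lit 328)) (XT.lf (nat_lit 0) (nat_lit 25082529665) (nat_lit 152) (nat_lit 12800509373) (nat_lit 76) (nat_lit 62066486468) (nat_lit 45) (nat_lit 5) (nat_lit 47) (nat_lit 5) (nat_lit 46) (nat_lit 4) (nat_lit 459) (nat_lit 414) (nat_lit 327)))) (XT.nd (nat_lit 156) (nat_lit 152) (nat_lit 0) (XT.nd (nat_lit 78) (nat_lit 152) (nat_lit 0) (XT.lf (nat_lit 0) (nat_lit 72113167322) (nat_lit 152) (nat_lit 22389236349) (nat_lit 0) (nat_lit 10945944758) (nat_lit 44) (nat_lit 5) (nat_lit 46) (nat_lit 4) (nat_lit 44) (nat_lit 4) (nat_lit 460) (nat_lit 414) (nat_lit 326)) (XT.lf (nat_lit 0) (nat_lit 13250658413) (nat_lit 152) (nat_lit 34008565500) (nat_lit 76) (nat_lit 64013852841) (nat_lit 42) (nat_lit 5) (nat_lit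 44) (nat_lit 5) (nat_lit 43) (nat_lit 4) (nat_lit 461) (nat_lit 414) (nat_lit 325))) (XT.nd (nat_lit 78) (nat_lit 76) (nat_lit 0) (XT.lf (nat_lit 0) (nat_lit 63980687443) (nat_lit 152) (nat_lit 47759845639) (nat_lit 0) (nat_lit 5716665263) (nat_lit 41) (nat_lit 5) (nat_lit 43) (nat_lit 4) (nat_lit 41) (nat_lit 4) (nat_lit 462) (nat_lit 414) (nat_lit 324)) (XT.lf (nat_lit 0) (nat_lit 59901858576) (nat_lit 76) (nat_lit 61193081129) (nat_lit 76) (nat_lit 2924819053) (nat_lit 40) (nat_lit 4) (nat_lit 41) (nat_lit 5) (nat_lit 41) (nat_lit 4) (nat_lit 463) (nat_lit 414) (nat_lit 323))))) (XT.nd (nat_lit 234) (nat_lit 304) (nat_lit 0) (XT.nd (nat_lit 78) (nat_lit 228) (nat_lit 0) (XT.lf (nat_lit 0) (nat_lit 47500105391) (nat_lit 76) (nat_lit 4096135241) (nat_lit 152) (nat_lit 79391795665) (nat_lit 38) (nat_lit 5) (nat_lit 39) (nat_lit 5) (nat_lit 40) (nat_lit 4) (nat_lit 464) (nat_lit 414) (nat_lit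 322)) (XT.nd (nat_lit 78) (nat_lit 152) (nat_lit 0) (XT.lf (nat_lit 0) (nat_lit 31918754236) (nat_lit 76) (nat_lit 80983559142) (nat_lit 76) (nat_lit 25482775397) (nat_lit 37) (nat_lit 4) (nat_lit 38) (nat_lit 5) (nat_lit 38) (nat_lit 4) (nat_lit 465) (nat_lit 414) (nat_lit 321)) (XT.lf (nat_lit 0) (nat_lit 13036055444) (nat_lit 76) (nat_lit 20398112692) (nat_lit 152) (nat_lit 112827027417) (nat_lit 35) (nat_lit 5) (nat_lit 36) (nat_lit 5) (nat_lit 37) (nat_lit 4) (nat_lit 466) (nat_lit 414) (nat_lit 320)))) (XT.nd (nat_lit 156) (nat_lit 152) (nat_lit 0) (XT.nd (nat_lit 78) (nat_lit 152) (nat_lit 0) (XT.lf (nat_lit 0) (nat_lit 98764235722) (nat_lit 152) (nat_lit 9952172799) (nat_lit 0) (nat_lit 45900466881) (nat_lit 35) (nat_lit 5) (nat_lit 37) (nat_lit 4) (nat_lit 35) (nat_lit 4) (nat_lit 467) (nat_lit 414) (nat_lit 319)) (XT.lf (nat_lit 0) (nat_lit 7854002258) (nat_lit 152) (nat_lit 36765681535)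 (nat_lit 76) (nat_lit 118899087676) (nat_lit 33) (nat_lit 5) (nat_lit 35) (nat_lit 5) (nat_lit 34) (nat_lit 4) (nat_lit 468) (nat_lit 414) (nat_lit 318))) (XT.nd (nat_lit 78) (nat_lit 76) (nat_lit 0) (XT.lf (nat_lit 0) (nat_lit 76948692145) (nat_lit 152) (nat_lit 69428485362) (nat_lit 0) (nat_lit 26597444891) (nat_lit 32) (nat_lit 5) (nat_lit 34) (nat_lit 4) (nat_lit 32) (nat_lit 4) (nat_lit 469) (nat_lit 414) (nat_lit 317)) (XT.lf (nat_lit 0) (nat_lit 74861028930) (nat_lit 76) (nat_lit 79275508922) (nat_lit 76) (nat_lit 28922124588) (nat_lit 31) (nat_lit 4) (nat_lit 32) (nat_lit 5) (nat_lit 32) (nat_lit 4) (nat_lit 470) (nat_lit 414) (nat_lit 316)))))) (XT.nd (nat_lit 546) (nat_lit 532) (nat_lit 0) (XT.nd (nat_lit 234) (nat_lit 380) (nat_lit 0) (XT.nd (nat_lit 78) (nat_lit 76) (nat_lit 0) (XT.lf (nat_lit 0) (nat_lit 39846965946) (nat_lit 76) (nat_lit 4154170179) (nat_lit 152) (nat_lit 149822041651)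 (nat_lit 29) (nat_lit 5) (nat_lit 30) (nat_lit 5) (nat_lit 31) (nat_lit 4) (nat_lit 471) (nat_lit 414) (nat_lit 315)) (XT.nd (nat_lit 78) (nat_lit 76) (nat_lit 0) (XT.lf (nat_lit 0) (nat_lit 124869828136) (nat_lit 152) (nat_lit 3488482062) (nat_lit 0) (nat_lit 76910594502) (nat_lit 29) (nat_lit 5) (nat_lit 31) (nat_lit 4) (nat_lit 29) (nat_lit 4) (nat_lit 472) (nat_lit 414) (nat_lit 314)) (XT.lf (nat_lit 0) (nat_lit 164212662463) (nat_lit 76) (nat_lit 50623533831) (nat_lit 76) (nat_lit 2662684498) (nat_lit 28) (nat_lit 4) (nat_lit 29) (nat_lit 5) (nat_lit 29) (nat_lit 4) (nat_lit 473) (nat_lit 414) (nat_lit 313)))) (XT.nd (nat_lit 156) (nat_lit 152) (nat_lit 0) (XT.nd (nat_lit 78) (nat_lit 76) (nat_lit 0) (XT.lf (nat_lit 0) (nat_lit 81149241487) (nat_lit 152) (nat_lit 113900811204) (nat_lit 0) (nat_lit 35470817345) (nat_lit 26) (nat_lit 5) (nat_lit 28) (nat_lit 4) (nat_lit 26) (nat_lit 4) (nat_lit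 474) (nat_lit 414) (nat_lit 312)) (XT.lf (nat_lit 0) (nat_lit 58429064346) (nat_lit 76) (nat_lit 115848928516) (nat_lit 76) (nat_lit 70169185134) (nat_lit 25) (nat_lit 4) (nat_lit 26) (nat_lit 5) (nat_lit 26) (nat_lit 4) (nat_lit 475) (nat_lit 414) (nat_lit 311))) (XT.nd (nat_lit 78) (nat_lit 76) (nat_lit 0) (XT.lf (nat_lit 0) (nat_lit 16888928866) (nat_lit 152) (nat_lit 11058660723) (nat_lit 76) (nat_lit 231427433349) (nat_lit 24) (nat_lit 5) (nat_lit 26) (nat_lit 5) (nat_lit 25) (nat_lit 4) (nat_lit 476) (nat_lit 414) (nat_lit 310)) (XT.lf (nat_lit 0) (nat_lit 112443301737) (nat_lit 152) (nat_lit 93860234535) (nat_lit 0) (nat_lit 68936543704) (nat_lit 23) (nat_lit 5) (nat_lit 25) (nat_lit 4) (nat_lit 23) (nat_lit 4) (nat_lit 477) (nat_lit 414) (nat_lit 309))))) (XT.nd (nat_lit 312) (nat_lit 228) (nat_lit 0) (XT.nd (nat_lit 156) (nat_lit 76) (nat_lit 0) (XT.nd (nat_lit 78) (nat_lit 152) (nat_lit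 0) (XT.lf (nat_lit 0) (nat_lit 99959094424) (nat_lit 76) (nat_lit 117905926394) (nat_lit 76) (nat_lit 74398170975) (nat_lit 22) (nat_lit 4) (nat_lit 23) (nat_lit 5) (nat_lit 23) (nat_lit 4) (nat_lit 478) (nat_lit 414) (nat_lit 308)) (XT.lf (nat_lit 0) (nat_lit 1760656697) (nat_lit 76) (nat_lit 20321946044) (nat_lit 152) (nat_lit 288464863746) (nat_lit 20) (nat_lit 5) (nat_lit 21) (nat_lit 5) (nat_lit 22) (nat_lit 4) (nat_lit 479) (nat_lit 414) (nat_lit 307))) (XT.nd (nat_lit 78) (nat_lit 76) (nat_lit 0) (XT.lf (nat_lit 0) (nat_lit 128438604029) (nat_lit 152) (nat_lit 114555778711) (nat_lit 0) (nat_lit 87000952580) (nat_lit 20) (nat_lit 5) (nat_lit 22) (nat_lit 4) (nat_lit 20) (nat_lit 4) (nat_lit 480) (nat_lit 414) (nat_lit 306)) (XT.lf (nat_lit 0) (nat_lit 97999394859) (nat_lit 76) (nat_lit 147172306758) (nat_lit 76) (nat_lit 105733901256) (nat_lit 19) (nat_lit 4) (nat_lit 20) (nat_lit 5) (nat_lit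 20) (nat_lit 4) (nat_lit 481) (nat_lit 414) (nat_lit 305)))) (XT.nd (nat_lit 156) (nat_lit 76) (nat_lit 0) (XT.nd (nat_lit 78) (nat_lit 152) (nat_lit 0) (XT.lf (nat_lit 0) (nat_lit 331641824000) (nat_lit 76) (nat_lit 41593196442) (nat_lit 76) (nat_lit 154092741) (nat_lit 19) (nat_lit 4) (nat_lit 20) (nat_lit 5) (nat_lit 20) (nat_lit 4) (nat_lit 482) (nat_lit 414) (nat_lit 304)) (XT.lf (nat_lit 0) (nat_lit 114408657389) (nat_lit 152) (nat_lit 208022466408) (nat_lit 0) (nat_lit 74942228646) (nat_lit 17) (nat_lit 5) (nat_lit 19) (nat_lit 4) (nat_lit 17) (nat_lit 4) (nat_lit 483) (nat_lit 414) (nat_lit 303))) (XT.nd (nat_lit 78) (nat_lit 0) (nat_lit 0) (XT.lf (nat_lit 0) (nat_lit 17009024489) (nat_lit 76) (nat_lit 222824526399) (nat_lit 76) (nat_lit 183357527568) (nat_lit 16) (nat_lit 4) (nat_lit 17) (nat_lit 5) (nat_lit 17) (nat_lit 4) (nat_lit 484) (nat_lit 414) (nat_lit 302)) (XT.lf (nat_lit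 0) (nat_lit 267464523829) (nat_lit 76) (nat_lit 111448107820) (nat_lit 76) (nat_lit 71980581130) (nat_lit 16) (nat_lit 4) (nat_lit 17) (nat_lit 5) (nat_lit 17) (nat_lit 4) (nat_lit 485) (nat_lit 414) (nat_lit 301))))))) (XT.nd (nat_lit 1170) (nat_lit 76) (nat_lit 0) (XT.nd (nat_lit 546) (nat_lit 304) (nat_lit 0) (XT.nd (nat_lit 234) (nat_lit 152) (nat_lit 0) (XT.nd (nat_lit 78) (nat_lit 76) (nat_lit 0) (XT.lf (nat_lit 0) (nat_lit 47831827342) (nat_lit 152) (nat_lit 422645168480) (nat_lit 0) (nat_lit 10243241200) (nat_lit 14) (nat_lit 5) (nat_lit 16) (nat_lit 4) (nat_lit 14) (nat_lit 4) (nat_lit 486) (nat_lit 414) (nat_lit 300)) (XT.nd (nat_lit 78) (nat_lit 76) (nat_lit 0) (XT.lf (nat_lit 0) (nat_lit 179864774664) (nat_lit 152) (nat_lit 190476020805) (nat_lit 0) (nat_lit 142275757517) (nat_lit 14) (nat_lit 5) (nat_lit 16) (nat_lit 4) (nat_lit 14) (nat_lit 4) (nat_lit 487) (nat_lit 414) (nat_lit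 299)) (XT.lf (nat_lit 0) (nat_lit 62253281379) (nat_lit 76) (nat_lit 261176128247) (nat_lit 76) (nat_lit 223586712023) (nat_lit 13) (nat_lit 4) (nat_lit 14) (nat_lit 5) (nat_lit 14) (nat_lit 4) (nat_lit 488) (nat_lit 414) (nat_lit 298)))) (XT.nd (nat_lit 156) (nat_lit 0) (nat_lit 0) (XT.nd (nat_lit 78) (nat_lit 152) (nat_lit 0) (XT.lf (nat_lit 0) (nat_lit 341997149062) (nat_lit 76) (nat_lit 139797266249) (nat_lit 76) (nat_lit 102207480509) (nat_lit 13) (nat_lit 4) (nat_lit 14) (nat_lit 5) (nat_lit 14) (nat_lit 4) (nat_lit 489) (nat_lit 414) (nat_lit 297)) (XT.lf (nat_lit 0) (nat_lit 20369736523) (nat_lit 76) (nat_lit 7903368065) (nat_lit 152) (nat_lit 595635109715) (nat_lit 11) (nat_lit 5) (nat_lit 12) (nat_lit 5) (nat_lit 13) (nat_lit 4) (nat_lit 490) (nat_lit 414) (nat_lit 296))) (XT.nd (nat_lit 78) (nat_lit 0) (nat_lit 0) (XT.lf (nat_lit 0) (nat_lit 172041876856) (nat_lit 152) (nat_lit 358318401820)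 (nat_lit 0) (nat_lit 136241453346) (nat_lit 11) (nat_lit 5) (nat_lit 13) (nat_lit 4) (nat_lit 11) (nat_lit 4) (nat_lit 491) (nat_lit 414) (nat_lit 295)) (XT.lf (nat_lit 0) (nat_lit 327443071418) (nat_lit 152) (nat_lit 93618745181) (nat_lit 0) (nat_lit 291642368542) (nat_lit 11) (nat_lit 5) (nat_lit 13) (nat_lit 4) (nat_lit 11) (nat_lit 4) (nat_lit 492) (nat_lit 414) (nat_lit 294))))) (XT.nd (nat_lit 312) (nat_lit 76) (nat_lit 0) (XT.nd (nat_lit 156) (nat_lit 152) (nat_lit 0) (XT.nd (nat_lit 78) (nat_lit 0) (nat_lit 0) (XT.lf (nat_lit 0) (nat_lit 198609211524) (nat_lit 76) (nat_lit 299765825387) (nat_lit 76) (nat_lit 263964863839) (nat_lit 10) (nat_lit 4) (nat_lit 11) (nat_lit 5) (nat_lit 11) (nat_lit 4) (nat_lit 493) (nat_lit 414) (nat_lit 293)) (XT.lf (nat_lit 0) (nat_lit 517554283934) (nat_lit 76) (nat_lit 167055977818) (nat_lit 76) (nat_lit 131254776759) (nat_lit 10) (nat_lit 4) (nat_lit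 11) (nat_lit 5) (nat_lit 11) (nat_lit 4) (nat_lit 494) (nat_lit 414) (nat_lit 292))) (XT.nd (nat_lit 78) (nat_lit 76) (nat_lit 0) (XT.lf (nat_lit 0) (nat_lit 11683780369) (nat_lit 152) (nat_lit 11849673072) (nat_lit 76) (nat_lit 850129407569) (nat_lit 9) (nat_lit 5) (nat_lit 11) (nat_lit 5) (nat_lit 10) (nat_lit 4) (nat_lit 495) (nat_lit 414) (nat_lit 291)) (XT.lf (nat_lit 0) (nat_lit 168448615101) (nat_lit 152) (nat_lit 632826995911) (nat_lit 0) (nat_lit 134351826366) (nat_lit 8) (nat_lit 5) (nat_lit 10) (nat_lit 4) (nat_lit 8) (nat_lit 4) (nat_lit 496) (nat_lit 414) (nat_lit 290)))) (XT.nd (nat_lit 156) (nat_lit 76) (nat_lit 0) (XT.nd (nat_lit 78) (nat_lit 0) (nat_lit 0) (XT.lf (nat_lit 0) (nat_lit 338359493330) (nat_lit 152) (nat_lit 359896920180) (nat_lit 0) (nat_lit 304262523518) (nat_lit 8) (nat_lit 5) (nat_lit 10) (nat_lit 4) (nat_lit 8) (nat_lit 4) (nat_lit 497) (nat_lit 414) (nat_lit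 289)) (XT.lf (nat_lit 0) (nat_lit 521861614239) (nat_lit 152) (nat_lit 65135747033) (nat_lit 0) (nat_lit 487764476762) (nat_lit 8) (nat_lit 5) (nat_lit 10) (nat_lit 4) (nat_lit 8) (nat_lit 4) (nat_lit 498) (nat_lit 414) (nat_lit 288))) (XT.nd (nat_lit 78) (nat_lit 0) (nat_lit 0) (XT.lf (nat_lit 0) (nat_lit 261575299562) (nat_lit 76) (nat_lit 462551021731) (nat_lit 76) (nat_lit 428453729009) (nat_lit 7) (nat_lit 4) (nat_lit 8) (nat_lit 5) (nat_lit 8) (nat_lit 4) (nat_lit 499) (nat_lit 414) (nat_lit 287)) (XT.lf (nat_lit 0) (nat_lit 616746275980) (nat_lit 76) (nat_lit 326959110483) (nat_lit 76) (nat_lit 292861674016) (nat_lit 7) (nat_lit 4) (nat_lit 8) (nat_lit 5) (nat_lit 8) (nat_lit 4) (nat_lit 500) (nat_lit 414) (nat_lit 286)))))) (XT.nd (nat_lit 56160) (nat_lit 0) (nat_lit 8816) (XT.nd (nat_lit 55848) (nat_lit 0) (nat_lit 10792) (XT.nd (nat_lit 78) (nat_lit 76) (nat_lit 0) (XT.lf (nat_lit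 0) (nat_lit 1000328217160) (nat_lit 76) (nat_lit 180521225299) (nat_lit 76) (nat_lit 146423655735) (nat_lit 7) (nat_lit 4) (nat_lit 8) (nat_lit 5) (nat_lit 8) (nat_lit 4) (nat_lit 501) (nat_lit 414) (nat_lit 285)) (XT.nd (nat_lit 55692) (nat_lit 0) (nat_lit 10716) (XT.lf (nat_lit 0) (nat_lit 11352734025) (nat_lit 152) (nat_lit 10824588050) (nat_lit 76) (nat_lit 1403049203201) (nat_lit 6) (nat_lit 5) (nat_lit 8) (nat_lit 5) (nat_lit 7) (nat_lit 4) (nat_lit 502) (nat_lit 414) (nat_lit 284)) (XT.lf (nat_lit 0) (nat_lit 10105937) (nat_lit 836) (nat_lit 3281708548) (nat_lit 836) (nat_lit 3281708548) (nat_lit 147) (nat_lit 3) (nat_lit 158) (nat_lit 3) (nat_lit 158) (nat_lit 5) (nat_lit 415) (nat_lit 415) (nat_lit 370)))) (XT.nd (nat_lit 156) (nat_lit 0) (nat_lit 76) (XT.nd (nat_lit 78) (nat_lit 0) (nat_lit 0) (XT.lf (nat_lit 0) (nat_lit 743604623) (nat_lit 760) (nat_lit 9698837326) (nat_lit 836) (nat_lit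 3194262589) (nat_lit 148) (nat_lit 5) (nat_lit 158) (nat_lit 5) (nat_lit 159) (nat_lit 5) (nat_lit 416) (nat_lit 415) (nat_lit 369)) (XT.lf (nat_lit 76) (nat_lit 1244188429) (nat_lit 0) (nat_lit 466346651) (nat_lit 836) (nat_lit 12445726714) (nat_lit 149) (nat_lit 5) (nat_lit 148) (nat_lit 5) (nat_lit 159) (nat_lit 5) (nat_lit 417) (nat_lit 415) (nat_lit 368))) (XT.nd (nat_lit 78) (nat_lit 0) (nat_lit 76) (XT.lf (nat_lit 0) (nat_lit 3030810299) (nat_lit 760) (nat_lit 1501815349) (nat_lit 836) (nat_lit 10170967188) (nat_lit 149) (nat_lit 5) (nat_lit 159) (nat_lit 5) (nat_lit 160) (nat_lit 5) (nat_lit 418) (nat_lit 415) (nat_lit 367)) (XT.lf (nat_lit 0) (nat_lit 4688186768) (nat_lit 760) (nat_lit 4256071750) (nat_lit 836) (nat_lit 6338885958) (nat_lit 150) (nat_lit 5) (nat_lit 160) (nat_lit 5) (nat_lit 161) (nat_lit 5) (nat_lit 419) (nat_lit 415) (nat_lit 366))))) (XT.nd (nat_lit 312) (nat_lit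 1140) (nat_lit 0) (XT.nd (nat_lit 156) (nat_lit 1064) (nat_lit 0) (XT.nd (nat_lit 78) (nat_lit 0) (nat_lit 0) (XT.lf (nat_lit 0) (nat_lit 6705275510) (nat_lit 760) (nat_lit 7059012052) (nat_lit 836) (nat_lit 2133424056) (nat_lit 151) (nat_lit 5) (nat_lit 161) (nat_lit 5) (nat_lit 162) (nat_lit 5) (nat_lit 420) (nat_lit 415) (nat_lit 365)) (XT.lf (nat_lit 76) (nat_lit 6597021198) (nat_lit 0) (nat_lit 2570255489) (nat_lit 836) (nat_lit 7379997102) (nat_lit 152) (nat_lit 5) (nat_lit 151) (nat_lit 5) (nat_lit 162) (nat_lit 5) (nat_lit 421) (nat_lit 415) (nat_lit 364))) (XT.nd (nat_lit 78) (nat_lit 380) (nat_lit 0) (XT.lf (nat_lit 0) (nat_lit 4304054859) (nat_lit 760) (nat_lit 7820291921) (nat_lit 836) (nat_lit 5109555124) (nat_lit 142) (nat_lit 5) (nat_lit 152) (nat_lit 5) (nat_lit 153) (nat_lit 5) (nat_lit 422) (nat_lit 415) (nat_lit 363)) (XT.lf (nat_lit 0) (nat_lit 2000304271) (nat_lit 380) (nat_lit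 13594708783) (nat_lit 456) (nat_lit 2366601621) (nat_lit 137) (nat_lit 5) (nat_lit 142) (nat_lit 5) (nat_lit 143) (nat_lit 5) (nat_lit 423) (nat_lit 415) (nat_lit 362)))) (XT.nd (nat_lit 156) (nat_lit 684) (nat_lit 0) (XT.nd (nat_lit 78) (nat_lit 380) (nat_lit 0) (XT.lf (nat_lit 0) (nat_lit 899235809) (nat_lit 456) (nat_lit 332592352) (nat_lit 76) (nat_lit 17499130616) (nat_lit 136) (nat_lit 5) (nat_lit 142) (nat_lit 5) (nat_lit 137) (nat_lit 5) (nat_lit 424) (nat_lit 415) (nat_lit 361)) (XT.lf (nat_lit 0) (nat_lit 4769006847) (nat_lit 456) (nat_lit 2726677620) (nat_lit 76) (nat_lit 12042951910) (nat_lit 131) (nat_lit 5) (nat_lit 137) (nat_lit 5) (nat_lit 132) (nat_lit 5) (nat_lit 425) (nat_lit 415) (nat_lit 360))) (XT.nd (nat_lit 78) (nat_lit 304) (nat_lit 0) (XT.lf (nat_lit 0) (nat_lit 9278104438) (nat_lit 456) (nat_lit 5130949518) (nat_lit 76) (nat_lit 5985391473) (nat_lit 126) (nat_lit 5)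 (nat_lit 132) (nat_lit 5) (nat_lit 127) (nat_lit 5) (nat_lit 426) (nat_lit 415) (nat_lit 359)) (XT.lf (nat_lit 0) (nat_lit 13751516287) (nat_lit 304) (nat_lit 754342096) (nat_lit 380) (nat_lit 6794968551) (nat_lit 122) (nat_lit 5) (nat_lit 126) (nat_lit 5) (nat_lit 127) (nat_lit 5) (nat_lit 427) (nat_lit 415) (nat_lit 358))))))))
noncomputable def xc70 : XT := (XT.nd (nat_lit 2262) (nat_lit 2584) (nat_lit 0) (XT.nd (nat_lit 1092) (nat_lit 2204) (nat_lit 0) (XT.nd (nat_lit 546) (nat_lit 1292) (nat_lit 0) (XT.nd (nat_lit 234) (nat_lit 988) (nat_lit 0) (XT.nd (nat_lit 78) (nat_lit 684) (nat_lit 0) (XT.lf (nat_lit 0) (nat_lit 12187457241) (nat_lit 304) (nat_lit 8434262494) (nat_lit 380) (nat_lit 1634508718) (nat_lit 118) (nat_lit 5) (nat_lit 122) (nat_lit 5) (nat_lit 123) (nat_lit 5) (nat_lit 428) (nat_lit 415) (nat_lit 357)) (XT.nd (nat_lit 78) (nat_lit 304) (nat_lit 0) (XT.lf (nat_lit 0) (nat_lit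 4201474855) (nat_lit 380) (nat_lit 12650710881) (nat_lit 76) (nat_lit 6413367336) (nat_lit 113) (nat_lit 5) (nat_lit 118) (nat_lit 5) (nat_lit 114) (nat_lit 5) (nat_lit 429) (nat_lit 415) (nat_lit 356)) (XT.lf (nat_lit 0) (nat_lit 9048396651) (nat_lit 304) (nat_lit 1834199499) (nat_lit 380) (nat_lit 13449914678) (nat_lit 109) (nat_lit 5) (nat_lit 113) (nat_lit 5) (nat_lit 114) (nat_lit 5) (nat_lit 430) (nat_lit 415) (nat_lit 355)))) (XT.nd (nat_lit 156) (nat_lit 456) (nat_lit 0) (XT.nd (nat_lit 78) (nat_lit 304) (nat_lit 0) (XT.lf (nat_lit 0) (nat_lit 7437140823) (nat_lit 228) (nat_lit 11200128983) (nat_lit 304) (nat_lit 6820605174) (nat_lit 106) (nat_lit 5) (nat_lit 109) (nat_lit 5) (nat_lit 110) (nat_lit 5) (nat_lit 431) (nat_lit 415) (nat_lit 354)) (XT.lf (nat_lit 0) (nat_lit 780896472) (nat_lit 304) (nat_lit 20757625938) (nat_lit 76) (nat_lit 5111848792) (nat_lit 102) (nat_lit 5) (nat_lit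 106) (nat_lit 5) (nat_lit 103) (nat_lit 5) (nat_lit 432) (nat_lit 415) (nat_lit 353))) (XT.nd (nat_lit 78) (nat_lit 228) (nat_lit 0) (XT.lf (nat_lit 0) (nat_lit 4233759651) (nat_lit 228) (nat_lit 5071558760) (nat_lit 304) (nat_lit 18599672378) (nat_lit 99) (nat_lit 5) (nat_lit 102) (nat_lit 5) (nat_lit 103) (nat_lit 5) (nat_lit 433) (nat_lit 415) (nat_lit 352)) (XT.lf (nat_lit 0) (nat_lit 2569104082) (nat_lit 228) (nat_lit 16526348085) (nat_lit 304) (nat_lit 10135342072) (nat_lit 96) (nat_lit 5) (nat_lit 99) (nat_lit 5) (nat_lit 100) (nat_lit 5) (nat_lit 434) (nat_lit 415) (nat_lit 351))))) (XT.nd (nat_lit 234) (nat_lit 836) (nat_lit 0) (XT.nd (nat_lit 78) (nat_lit 304) (nat_lit 0) (XT.lf (nat_lit 0) (nat_lit 1004491974) (nat_lit 152) (nat_lit 29178554138) (nat_lit 228) (nat_lit 453905415) (nat_lit 94) (nat_lit 5) (nat_lit 96) (nat_lit 5) (nat_lit 97) (nat_lit 5) (nat_lit 435) (nat_lit 415)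 (nat_lit 350)) (XT.nd (nat_lit 78) (nat_lit 228) (nat_lit 0) (XT.lf (nat_lit 0) (nat_lit 10412062271) (nat_lit 228) (nat_lit 770069544) (nat_lit 76) (nat_lit 20929156179) (nat_lit 93) (nat_lit 5) (nat_lit 96) (nat_lit 5) (nat_lit 94) (nat_lit 5) (nat_lit 436) (nat_lit 415) (nat_lit 349)) (XT.lf (nat_lit 0) (nat_lit 22739197100) (nat_lit 304) (nat_lit 2447852637) (nat_lit 76) (nat_lit 8485761633) (nat_lit 90) (nat_lit 5) (nat_lit 94) (nat_lit 5) (nat_lit 91) (nat_lit 5) (nat_lit 437) (nat_lit 415) (nat_lit 348)))) (XT.nd (nat_lit 156) (nat_lit 380) (nat_lit 0) (XT.nd (nat_lit 78) (nat_lit 228) (nat_lit 0) (XT.lf (nat_lit 0) (nat_lit 1353638401) (nat_lit 228) (nat_lit 4116675785) (nat_lit 76) (nat_lit 29854273693) (nat_lit 87) (nat_lit 5) (nat_lit 90) (nat_lit 5) (nat_lit 88) (nat_lit 5) (nat_lit 438) (nat_lit 415) (nat_lit 347)) (XT.lf (nat_lit 0) (nat_lit 15019442080) (nat_lit 304) (nat_lit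 6005238024) (nat_lit 76) (nat_lit 16035934215) (nat_lit 84) (nat_lit 5) (nat_lit 88) (nat_lit 5) (nat_lit 85) (nat_lit 5) (nat_lit 439) (nat_lit 415) (nat_lit 346))) (XT.nd (nat_lit 78) (nat_lit 228) (nat_lit 0) (XT.lf (nat_lit 0) (nat_lit 30424076700) (nat_lit 228) (nat_lit 7783064900) (nat_lit 76) (nat_lit 696104201) (nat_lit 82) (nat_lit 5) (nat_lit 85) (nat_lit 5) (nat_lit 83) (nat_lit 5) (nat_lit 440) (nat_lit 415) (nat_lit 345)) (XT.lf (nat_lit 0) (nat_lit 6916761514) (nat_lit 228) (nat_lit 9802058690) (nat_lit 76) (nat_lit 24122335120) (nat_lit 79) (nat_lit 5) (nat_lit 82) (nat_lit 5) (nat_lit 80) (nat_lit 5) (nat_lit 441) (nat_lit 415) (nat_lit 344)))))) (XT.nd (nat_lit 546) (nat_lit 1064) (nat_lit 0) (XT.nd (nat_lit 234) (nat_lit 608) (nat_lit 0) (XT.nd (nat_lit 78) (nat_lit 380) (nat_lit 0) (XT.lf (nat_lit 0) (nat_lit 23973397867) (nat_lit 228) (nat_lit 11867128884) (nat_lit 76) (nat_lit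 7050316740) (nat_lit 77) (nat_lit 5) (nat_lit 80) (nat_lit 5) (nat_lit 78) (nat_lit 5) (nat_lit 442) (nat_lit 415) (nat_lit 343)) (XT.nd (nat_lit 78) (nat_lit 228) (nat_lit 0) (XT.lf (nat_lit 0) (nat_lit 31053241274) (nat_lit 152) (nat_lit 12266599273) (nat_lit 228) (nat_lit 1738403346) (nat_lit 75) (nat_lit 5) (nat_lit 77) (nat_lit 5) (nat_lit 78) (nat_lit 5) (nat_lit 443) (nat_lit 415) (nat_lit 342)) (XT.lf (nat_lit 0) (nat_lit 17180228310) (nat_lit 228) (nat_lit 16424944671) (nat_lit 76) (nat_lit 13735565258) (nat_lit 72) (nat_lit 5) (nat_lit 75) (nat_lit 5) (nat_lit 73) (nat_lit 5) (nat_lit 444) (nat_lit 415) (nat_lit 341)))) (XT.nd (nat_lit 156) (nat_lit 304) (nat_lit 0) (XT.nd (nat_lit 78) (nat_lit 152) (nat_lit 0) (XT.lf (nat_lit 0) (nat_lit 30859916686) (nat_lit 152) (nat_lit 7614981293) (nat_lit 228) (nat_lit 11283337379) (nat_lit 70) (nat_lit 5) (nat_lit 72) (nat_lit 5) (nat_lit 73)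 (nat_lit 5) (nat_lit 445) (nat_lit 415) (nat_lit 340)) (XT.lf (nat_lit 0) (nat_lit 9907817759) (nat_lit 152) (nat_lit 21677958974) (nat_lit 76) (nat_lit 20721489543) (nat_lit 68) (nat_lit 5) (nat_lit 70) (nat_lit 5) (nat_lit 69) (nat_lit 5) (nat_lit 446) (nat_lit 415) (nat_lit 339))) (XT.nd (nat_lit 78) (nat_lit 152) (nat_lit 0) (XT.lf (nat_lit 0) (nat_lit 30375151282) (nat_lit 152) (nat_lit 2953300569) (nat_lit 228) (nat_lit 21676044830) (nat_lit 66) (nat_lit 5) (nat_lit 68) (nat_lit 5) (nat_lit 69) (nat_lit 5) (nat_lit 447) (nat_lit 415) (nat_lit 338)) (XT.lf (nat_lit 0) (nat_lit 1979289016) (nat_lit 152) (nat_lit 27924252246) (nat_lit 76) (nat_lit 27948582798) (nat_lit 64) (nat_lit 5) (nat_lit 66) (nat_lit 5) (nat_lit 65) (nat_lit 5) (nat_lit 448) (nat_lit 415) (nat_lit 337))))) (XT.nd (nat_lit 312) (nat_lit 532) (nat_lit 0) (XT.nd (nat_lit 156) (nat_lit 304) (nat_lit 0) (XT.nd (nat_lit 78)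 (nat_lit 76) (nat_lit 0) (XT.lf (nat_lit 0) (nat_lit 27734296767) (nat_lit 228) (nat_lit 31570857426) (nat_lit 76) (nat_lit 1556307194) (nat_lit 62) (nat_lit 5) (nat_lit 65) (nat_lit 5) (nat_lit 63) (nat_lit 4) (nat_lit 449) (nat_lit 415) (nat_lit 336)) (XT.lf (nat_lit 0) (nat_lit 28366731361) (nat_lit 76) (nat_lit 28612742033) (nat_lit 152) (nat_lit 7060584372) (nat_lit 61) (nat_lit 5) (nat_lit 62) (nat_lit 5) (nat_lit 63) (nat_lit 4) (nat_lit 450) (nat_lit 415) (nat_lit 335))) (XT.nd (nat_lit 78) (nat_lit 76) (nat_lit 0) (XT.lf (nat_lit 0) (nat_lit 21482213448) (nat_lit 228) (nat_lit 40204414392) (nat_lit 76) (nat_lit 5716552446) (nat_lit 58) (nat_lit 5) (nat_lit 61) (nat_lit 5) (nat_lit 59) (nat_lit 4) (nat_lit 451) (nat_lit 415) (nat_lit 334)) (XT.lf (nat_lit 0) (nat_lit 25555979217) (nat_lit 76) (nat_lit 28010458782) (nat_lit 152) (nat_lit 17387859066) (nat_lit 57) (nat_lit 5) (nat_lit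 58) (nat_lit 5) (nat_lit 59) (nat_lit 4) (nat_lit 452) (nat_lit 415) (nat_lit 333)))) (XT.nd (nat_lit 156) (nat_lit 228) (nat_lit 0) (XT.nd (nat_lit 78) (nat_lit 76) (nat_lit 0) (XT.lf (nat_lit 0) (nat_lit 14222093908) (nat_lit 228) (nat_lit 51098590113) (nat_lit 76) (nat_lit 9397138496) (nat_lit 54) (nat_lit 5) (nat_lit 57) (nat_lit 5) (nat_lit 55) (nat_lit 4) (nat_lit 453) (nat_lit 415) (nat_lit 332)) (XT.lf (nat_lit 0) (nat_lit 20907713535) (nat_lit 76) (nat_lit 28444292367) (nat_lit 152) (nat_lit 29336154648) (nat_lit 53) (nat_lit 5) (nat_lit 54) (nat_lit 5) (nat_lit 55) (nat_lit 4) (nat_lit 454) (nat_lit 415) (nat_lit 331))) (XT.nd (nat_lit 78) (nat_lit 76) (nat_lit 0) (XT.lf (nat_lit 0) (nat_lit 5552586927) (nat_lit 152) (nat_lit 65067837353) (nat_lit 76) (nat_lit 12283604910) (nat_lit 51) (nat_lit 5) (nat_lit 53) (nat_lit 5) (nat_lit 52) (nat_lit 4) (nat_lit 455) (nat_lit 415) (nat_lit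 330)) (XT.lf (nat_lit 0) (nat_lit 13584172452) (nat_lit 76) (nat_lit 30339237866) (nat_lit 152) (nat_lit 43423772313) (nat_lit 50) (nat_lit 5) (nat_lit 51) (nat_lit 5) (nat_lit 52) (nat_lit 4) (nat_lit 456) (nat_lit 415) (nat_lit 329))))))) (XT.nd (nat_lit 1170) (nat_lit 1140) (nat_lit 0) (XT.nd (nat_lit 546) (nat_lit 760) (nat_lit 0) (XT.nd (nat_lit 234) (nat_lit 456) (nat_lit 0) (XT.nd (nat_lit 78) (nat_lit 152) (nat_lit 0) (XT.lf (nat_lit 0) (nat_lit 8802404984) (nat_lit 76) (nat_lit 78047118380) (nat_lit 76) (nat_lit 5221984037) (nat_lit 49) (nat_lit 4) (nat_lit 50) (nat_lit 5) (nat_lit 50) (nat_lit 4) (nat_lit 457) (nat_lit 415) (nat_lit 328)) (XT.nd (nat_lit 78) (nat_lit 0) (nat_lit 0) (XT.lf (nat_lit 0) (nat_lit 2463656011) (nat_lit 76) (nat_lit 34265840533) (nat_lit 152) (nat_lit 60323804483) (nat_lit 47) (nat_lit 5) (nat_lit 48) (nat_lit 5) (nat_lit 49) (nat_lit 4) (nat_lit 458) (nat_lit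 415) (nat_lit 327)) (XT.lf (nat_lit 0) (nat_lit 83525309984) (nat_lit 152) (nat_lit 4664698585) (nat_lit 0) (nat_lit 14155791092) (nat_lit 47) (nat_lit 5) (nat_lit 49) (nat_lit 4) (nat_lit 47) (nat_lit 4) (nat_lit 459) (nat_lit 415) (nat_lit 326)))) (XT.nd (nat_lit 156) (nat_lit 228) (nat_lit 0) (XT.nd (nat_lit 78) (nat_lit 76) (nat_lit 0) (XT.lf (nat_lit 0) (nat_lit 27255718352) (nat_lit 152) (nat_lit 13500748588) (nat_lit 76) (nat_lit 67180687899) (nat_lit 45) (nat_lit 5) (nat_lit 47) (nat_lit 5) (nat_lit 46) (nat_lit 4) (nat_lit 460) (nat_lit 415) (nat_lit 325)) (XT.lf (nat_lit 0) (nat_lit 78043655065) (nat_lit 152) (nat_lit 23865040509) (nat_lit 0) (nat_lit 11967445871) (nat_lit 44) (nat_lit 5) (nat_lit 46) (nat_lit 4) (nat_lit 44) (nat_lit 4) (nat_lit 461) (nat_lit 415) (nat_lit 324))) (XT.nd (nat_lit 78) (nat_lit 76) (nat_lit 0) (XT.lf (nat_lit 0) (nat_lit 14467427090) (nat_lit 152) (nat_lit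 36422435548) (nat_lit 76) (nat_lit 69277221687) (nat_lit 42) (nat_lit 5) (nat_lit 44) (nat_lit 5) (nat_lit 43) (nat_lit 4) (nat_lit 462) (nat_lit 415) (nat_lit 323)) (XT.lf (nat_lit 0) (nat_lit 69251076911) (nat_lit 152) (nat_lit 51281909868) (nat_lit 0) (nat_lit 6313188145) (nat_lit 41) (nat_lit 5) (nat_lit 43) (nat_lit 4) (nat_lit 41) (nat_lit 4) (nat_lit 463) (nat_lit 415) (nat_lit 322))))) (XT.nd (nat_lit 312) (nat_lit 304) (nat_lit 0) (XT.nd (nat_lit 156) (nat_lit 228) (nat_lit 0) (XT.nd (nat_lit 78) (nat_lit 152) (nat_lit 0) (XT.lf (nat_lit 0) (nat_lit 64979748528) (nat_lit 76) (nat_lit 65947927643) (nat_lit 76) (nat_lit 3006403849) (nat_lit 40) (nat_lit 4) (nat_lit 41) (nat_lit 5) (nat_lit 41) (nat_lit 4) (nat_lit 464) (nat_lit 415) (nat_lit 321)) (XT.lf (nat_lit 0) (nat_lit 51578105076) (nat_lit 76) (nat_lit 4286770355) (nat_lit 152) (nat_lit 85595154898) (nat_lit 38) (nat_lit 5) (nat_lit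 39) (nat_lit 5) (nat_lit 40) (nat_lit 4) (nat_lit 465) (nat_lit 415) (nat_lit 320))) (XT.nd (nat_lit 78) (nat_lit 152) (nat_lit 0) (XT.lf (nat_lit 0) (nat_lit 34742860375) (nat_lit 76) (nat_lit 87328340186) (nat_lit 76) (nat_lit 27377858273) (nat_lit 37) (nat_lit 4) (nat_lit 38) (nat_lit 5) (nat_lit 38) (nat_lit 4) (nat_lit 466) (nat_lit 415) (nat_lit 319)) (XT.lf (nat_lit 0) (nat_lit 14342181740) (nat_lit 76) (nat_lit 21899482574) (nat_lit 152) (nat_lit 121713787037) (nat_lit 35) (nat_lit 5) (nat_lit 36) (nat_lit 5) (nat_lit 37) (nat_lit 4) (nat_lit 467) (nat_lit 415) (nat_lit 318)))) (XT.nd (nat_lit 156) (nat_lit 152) (nat_lit 0) (XT.nd (nat_lit 78) (nat_lit 152) (nat_lit 0) (XT.lf (nat_lit 0) (nat_lit 106790189276) (nat_lit 152) (nat_lit 10500342399) (nat_lit 0) (nat_lit 49689451441) (nat_lit 35) (nat_lit 5) (nat_lit 37) (nat_lit 4) (nat_lit 35) (nat_lit 4) (nat_lit 468) (nat_lit 415) (nat_lit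 317)) (XT.lf (nat_lit 0) (nat_lit 8603552082) (nat_lit 152) (nat_lit 39465700000) (nat_lit 76) (nat_lit 128524958227) (nat_lit 33) (nat_lit 5) (nat_lit 35) (nat_lit 5) (nat_lit 34) (nat_lit 4) (nat_lit 469) (nat_lit 415) (nat_lit 316))) (XT.nd (nat_lit 78) (nat_lit 76) (nat_lit 0) (XT.lf (nat_lit 0) (nat_lit 83222233784) (nat_lit 152) (nat_lit 74748011957) (nat_lit 0) (nat_lit 28836462843) (nat_lit 32) (nat_lit 5) (nat_lit 34) (nat_lit 4) (nat_lit 32) (nat_lit 4) (nat_lit 470) (nat_lit 415) (nat_lit 315)) (XT.lf (nat_lit 0) (nat_lit 81074461433) (nat_lit 76) (nat_lit 85505437035) (nat_lit 76) (nat_lit 31117833892) (nat_lit 31) (nat_lit 4) (nat_lit 32) (nat_lit 5) (nat_lit 32) (nat_lit 4) (nat_lit 471) (nat_lit 415) (nat_lit 314)))))) (XT.nd (nat_lit 546) (nat_lit 532) (nat_lit 0) (XT.nd (nat_lit 234) (nat_lit 380) (nat_lit 0) (XT.nd (nat_lit 78) (nat_lit 76) (nat_lit 0) (XT.lf (nat_lit 0) (nat_lit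 43253130285) (nat_lit 76) (nat_lit 4377323330) (nat_lit 152) (nat_lit 161693115999) (nat_lit 29) (nat_lit 5) (nat_lit 30) (nat_lit 5) (nat_lit 31) (nat_lit 4) (nat_lit 472) (nat_lit 415) (nat_lit 313)) (XT.nd (nat_lit 78) (nat_lit 76) (nat_lit 0) (XT.lf (nat_lit 0) (nat_lit 134962128472) (nat_lit 152) (nat_lit 3561852447) (nat_lit 0) (nat_lit 83161299476) (nat_lit 29) (nat_lit 5) (nat_lit 31) (nat_lit 4) (nat_lit 29) (nat_lit 4) (nat_lit 473) (nat_lit 415) (nat_lit 312)) (XT.lf (nat_lit 0) (nat_lit 177546443813) (nat_lit 76) (nat_lit 54574825923) (nat_lit 76) (nat_lit 2772611727) (nat_lit 28) (nat_lit 4) (nat_lit 29) (nat_lit 5) (nat_lit 29) (nat_lit 4) (nat_lit 474) (nat_lit 415) (nat_lit 311)))) (XT.nd (nat_lit 156) (nat_lit 152) (nat_lit 0) (XT.nd (nat_lit 78) (nat_lit 76) (nat_lit 0) (XT.lf (nat_lit 0) (nat_lit 87738063734) (nat_lit 152) (nat_lit 122818230837) (nat_lit 0) (nat_lit 38401400124)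 (nat_lit 26) (nat_lit 5) (nat_lit 28) (nat_lit 4) (nat_lit 26) (nat_lit 4) (nat_lit 475) (nat_lit 415) (nat_lit 310)) (XT.lf (nat_lit 0) (nat_lit 63289575711) (nat_lit 76) (nat_lit 125023269882) (nat_lit 76) (nat_lit 75685475238) (nat_lit 25) (nat_lit 4) (nat_lit 26) (nat_lit 5) (nat_lit 26) (nat_lit 4) (nat_lit 476) (nat_lit 415) (nat_lit 309))) (XT.nd (nat_lit 78) (nat_lit 76) (nat_lit 0) (XT.lf (nat_lit 0) (nat_lit 18327202684) (nat_lit 152) (nat_lit 11768076397) (nat_lit 76) (nat_lit 250025387066) (nat_lit 24) (nat_lit 5) (nat_lit 26) (nat_lit 5) (nat_lit 25) (nat_lit 4) (nat_lit 477) (nat_lit 415) (nat_lit 308)) (XT.lf (nat_lit 0) (nat_lit 121523403533) (nat_lit 152) (nat_lit 101198543566) (nat_lit 0) (nat_lit 74533106790) (nat_lit 23) (nat_lit 5) (nat_lit 25) (nat_lit 4) (nat_lit 23) (nat_lit 4) (nat_lit 478) (nat_lit 415) (nat_lit 307))))) (XT.nd (nat_lit 312) (nat_lit 228) (nat_lit 0)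 (XT.nd (nat_lit 156) (nat_lit 76) (nat_lit 0) (XT.nd (nat_lit 78) (nat_lit 152) (nat_lit 0) (XT.lf (nat_lit 0) (nat_lit 108118921564) (nat_lit 76) (nat_lit 127256215560) (nat_lit 76) (nat_lit 80265063720) (nat_lit 22) (nat_lit 4) (nat_lit 23) (nat_lit 5) (nat_lit 23) (nat_lit 4) (nat_lit 479) (nat_lit 415) (nat_lit 306)) (XT.lf (nat_lit 0) (nat_lit 2060122323) (nat_lit 76) (nat_lit 21867714710) (nat_lit 152) (nat_lit 311459494977) (nat_lit 20) (nat_lit 5) (nat_lit 21) (nat_lit 5) (nat_lit 22) (nat_lit 4) (nat_lit 480) (nat_lit 415) (nat_lit 305))) (XT.nd (nat_lit 78) (nat_lit 76) (nat_lit 0) (XT.lf (nat_lit 0) (nat_lit 138787650586) (nat_lit 152) (nat_lit 123570892800) (nat_lit 0) (nat_lit 94032720391) (nat_lit 20) (nat_lit 5) (nat_lit 22) (nat_lit 4) (nat_lit 20) (nat_lit 4) (nat_lit 481) (nat_lit 415) (nat_lit 304)) (XT.lf (nat_lit 0) (nat_lit 105982204165) (nat_lit 76) (nat_lit 158873943839)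 (nat_lit 76) (nat_lit 114118367164) (nat_lit 19) (nat_lit 4) (nat_lit 20) (nat_lit 5) (nat_lit 20) (nat_lit 4) (nat_lit 482) (nat_lit 415) (nat_lit 303)))) (XT.nd (nat_lit 156) (nat_lit 76) (nat_lit 0) (XT.nd (nat_lit 78) (nat_lit 152) (nat_lit 0) (XT.lf (nat_lit 0) (nat_lit 358305445584) (nat_lit 76) (nat_lit 44853848953) (nat_lit 76) (nat_lit 97673686) (nat_lit 19) (nat_lit 4) (nat_lit 20) (nat_lit 5) (nat_lit 20) (nat_lit 4) (nat_lit 483) (nat_lit 415) (nat_lit 302)) (XT.lf (nat_lit 0) (nat_lit 123625990044) (nat_lit 152) (nat_lit 224533464888) (nat_lit 0) (nat_lit 81000533359) (nat_lit 17) (nat_lit 5) (nat_lit 19) (nat_lit 4) (nat_lit 17) (nat_lit 4) (nat_lit 484) (nat_lit 415) (nat_lit 301))) (XT.nd (nat_lit 78) (nat_lit 0) (nat_lit 0) (XT.lf (nat_lit 0) (nat_lit 18494860923) (nat_lit 76) (nat_lit 240587179334) (nat_lit 76) (nat_lit 197961233891) (nat_lit 16) (nat_lit 4) (nat_lit 17) (nat_lit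 5) (nat_lit 17) (nat_lit 4) (nat_lit 485) (nat_lit 415) (nat_lit 300)) (XT.lf (nat_lit 0) (nat_lit 288977532472) (nat_lit 76) (nat_lit 120305336838) (nat_lit 76) (nat_lit 77678938840) (nat_lit 16) (nat_lit 4) (nat_lit 17) (nat_lit 5) (nat_lit 17) (nat_lit 4) (nat_lit 486) (nat_lit 415) (nat_lit 299))))))))
noncomputable def xc71 : XT := (XT.nd (nat_lit 58032) (nat_lit 0) (nat_lit 3040) (XT.nd (nat_lit 1170) (nat_lit 0) (nat_lit 0) (XT.nd (nat_lit 546) (nat_lit 304) (nat_lit 0) (XT.nd (nat_lit 234) (nat_lit 152) (nat_lit 0) (XT.nd (nat_lit 78) (nat_lit 76) (nat_lit 0) (XT.lf (nat_lit 0) (nat_lit 51714879843) (nat_lit 152) (nat_lit 456342239320) (nat_lit 0) (nat_lit 11117911244) (nat_lit 14) (nat_lit 5) (nat_lit 16) (nat_lit 4) (nat_lit 14) (nat_lit 4) (nat_lit 487) (nat_lit 415) (nat_lit 298)) (XT.nd (nat_lit 78) (nat_lit 76) (nat_lit 0) (XT.lf (nat_lit 0) (nat_lit 194306277298) (nat_lit 152)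 (nat_lit 205608044471) (nat_lit 0) (nat_lit 153708939182) (nat_lit 14) (nat_lit 5) (nat_lit 16) (nat_lit 4) (nat_lit 14) (nat_lit 4) (nat_lit 488) (nat_lit 415) (nat_lit 297)) (XT.lf (nat_lit 0) (nat_lit 67334992737) (nat_lit 76) (nat_lit 282018798617) (nat_lit 76) (nat_lit 241421118356) (nat_lit 13) (nat_lit 4) (nat_lit 14) (nat_lit 5) (nat_lit 14) (nat_lit 4) (nat_lit 489) (nat_lit 415) (nat_lit 296)))) (XT.nd (nat_lit 156) (nat_lit 0) (nat_lit 0) (XT.nd (nat_lit 78) (nat_lit 152) (nat_lit 0) (XT.lf (nat_lit 0) (nat_lit 369450855105) (nat_lit 76) (nat_lit 150933436540) (nat_lit 76) (nat_lit 110335439479) (nat_lit 13) (nat_lit 4) (nat_lit 14) (nat_lit 5) (nat_lit 14) (nat_lit 4) (nat_lit 490) (nat_lit 415) (nat_lit 295)) (XT.lf (nat_lit 0) (nat_lit 22090656601) (nat_lit 76) (nat_lit 8489317543) (nat_lit 152) (nat_lit 643238646062) (nat_lit 11) (nat_lit 5) (nat_lit 12) (nat_lit 5) (nat_lit 13)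 (nat_lit 4) (nat_lit 491) (nat_lit 415) (nat_lit 294))) (XT.nd (nat_lit 78) (nat_lit 0) (nat_lit 0) (XT.lf (nat_lit 0) (nat_lit 185847582905) (nat_lit 152) (nat_lit 386897883953) (nat_lit 0) (nat_lit 147182285761) (nat_lit 11) (nat_lit 5) (nat_lit 13) (nat_lit 4) (nat_lit 11) (nat_lit 4) (nat_lit 492) (nat_lit 415) (nat_lit 293)) (XT.lf (nat_lit 0) (nat_lit 353677735558) (nat_lit 152) (nat_lit 101028624414) (nat_lit 0) (nat_lit 315012198903) (nat_lit 11) (nat_lit 5) (nat_lit 13) (nat_lit 4) (nat_lit 11) (nat_lit 4) (nat_lit 493) (nat_lit 415) (nat_lit 292))))) (XT.nd (nat_lit 312) (nat_lit 76) (nat_lit 0) (XT.nd (nat_lit 156) (nat_lit 152) (nat_lit 0) (XT.nd (nat_lit 78) (nat_lit 0) (nat_lit 0) (XT.lf (nat_lit 0) (nat_lit 214574108623) (nat_lit 76) (nat_lit 323708433673) (nat_lit 76) (nat_lit 285042675248) (nat_lit 10) (nat_lit 4) (nat_lit 11) (nat_lit 5) (nat_lit 11) (nat_lit 4) (nat_lit 494)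 (nat_lit 415) (nat_lit 291)) (XT.lf (nat_lit 0) (nat_lit 559029145331) (nat_lit 76) (nat_lit 180384661835) (nat_lit 76) (nat_lit 141718698068) (nat_lit 10) (nat_lit 4) (nat_lit 11) (nat_lit 5) (nat_lit 11) (nat_lit 4) (nat_lit 495) (nat_lit 415) (nat_lit 290))) (XT.nd (nat_lit 78) (nat_lit 76) (nat_lit 0) (XT.lf (nat_lit 0) (nat_lit 12651162296) (nat_lit 152) (nat_lit 12731271191) (nat_lit 76) (nat_lit 918171822310) (nat_lit 9) (nat_lit 5) (nat_lit 11) (nat_lit 5) (nat_lit 10) (nat_lit 4) (nat_lit 496) (nat_lit 415) (nat_lit 289)) (XT.lf (nat_lit 0) (nat_lit 181956257750) (nat_lit 152) (nat_lit 683388605227) (nat_lit 0) (nat_lit 145131181611) (nat_lit 8) (nat_lit 5) (nat_lit 10) (nat_lit 4) (nat_lit 8) (nat_lit 4) (nat_lit 497) (nat_lit 415) (nat_lit 288)))) (XT.nd (nat_lit 156) (nat_lit 76) (nat_lit 0) (XT.nd (nat_lit 78) (nat_lit 0) (nat_lit 0) (XT.lf (nat_lit 0) (nat_lit 365457654131) (nat_lit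 152) (nat_lit 388628904944) (nat_lit 0) (nat_lit 328632422747) (nat_lit 8) (nat_lit 5) (nat_lit 10) (nat_lit 4) (nat_lit 8) (nat_lit 4) (nat_lit 498) (nat_lit 415) (nat_lit 287)) (XT.lf (nat_lit 0) (nat_lit 563637766836) (nat_lit 152) (nat_lit 70291265268) (nat_lit 0) (nat_lit 526812391706) (nat_lit 8) (nat_lit 5) (nat_lit 10) (nat_lit 4) (nat_lit 8) (nat_lit 4) (nat_lit 499) (nat_lit 415) (nat_lit 286))) (XT.nd (nat_lit 78) (nat_lit 0) (nat_lit 0) (XT.lf (nat_lit 0) (nat_lit 282554259979) (nat_lit 76) (nat_lit 499528200409) (nat_lit 76) (nat_lit 462702692182) (nat_lit 7) (nat_lit 4) (nat_lit 8) (nat_lit 5) (nat_lit 8) (nat_lit 4) (nat_lit 500) (nat_lit 415) (nat_lit 285)) (XT.lf (nat_lit 0) (nat_lit 666134993292) (nat_lit 76) (nat_lit 353090929081) (nat_lit 76) (nat_lit 316265297615) (nat_lit 7) (nat_lit 4) (nat_lit 8) (nat_lit 5) (nat_lit 8) (nat_lit 4) (nat_lit 501) (nat_lit 415) (nat_lit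 284)))))) (XT.nd (nat_lit 56238) (nat_lit 0) (nat_lit 8436) (XT.nd (nat_lit 55926) (nat_lit 0) (nat_lit 10716) (XT.nd (nat_lit 55770) (nat_lit 0) (nat_lit 10640) (XT.lf (nat_lit 0) (nat_lit 1080399859008) (nat_lit 76) (nat_lit 194939858285) (nat_lit 76) (nat_lit 158114112709) (nat_lit 7) (nat_lit 4) (nat_lit 8) (nat_lit 5) (nat_lit 8) (nat_lit 4) (nat_lit 502) (nat_lit 415) (nat_lit 283)) (XT.nd (nat_lit 78) (nat_lit 0) (nat_lit 76) (XT.lf (nat_lit 0) (nat_lit 605012415) (nat_lit 836) (nat_lit 3232297834) (nat_lit 836) (nat_lit 3232297834) (nat_lit 147) (nat_lit 3) (nat_lit 158) (nat_lit 3) (nat_lit 158) (nat_lit 5) (nat_lit 416) (nat_lit 416) (nat_lit 368)) (XT.lf (nat_lit 0) (nat_lit 1904586943) (nat_lit 760) (nat_lit 9814313146) (nat_lit 836) (nat_lit 2953495944) (nat_lit 148) (nat_lit 5) (nat_lit 158) (nat_lit 5) (nat_lit 159) (nat_lit 5) (nat_lit 417) (nat_lit 416) (nat_lit 367)))) (XT.nd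 (nat_lit 156) (nat_lit 0) (nat_lit 152) (XT.nd (nat_lit 78) (nat_lit 0) (nat_lit 76) (XT.lf (nat_lit 76) (nat_lit 1975453136) (nat_lit 0) (nat_lit 901689626) (nat_lit 836) (nat_lit 12359974166) (nat_lit 149) (nat_lit 5) (nat_lit 148) (nat_lit 5) (nat_lit 159) (nat_lit 5) (nat_lit 418) (nat_lit 416) (nat_lit 366)) (XT.lf (nat_lit 0) (nat_lit 4221007003) (nat_lit 760) (nat_lit 983451421) (nat_lit 836) (nat_lit 10627889351) (nat_lit 149) (nat_lit 5) (nat_lit 159) (nat_lit 5) (nat_lit 160) (nat_lit 5) (nat_lit 419) (nat_lit 416) (nat_lit 365))) (XT.nd (nat_lit 78) (nat_lit 0) (nat_lit 76) (XT.lf (nat_lit 0) (nat_lit 5945993015) (nat_lit 760) (nat_lit 3936994924) (nat_lit 836) (nat_lit 6578535444) (nat_lit 150) (nat_lit 5) (nat_lit 160) (nat_lit 5) (nat_lit 161) (nat_lit 5) (nat_lit 420) (nat_lit 416) (nat_lit 364)) (XT.lf (nat_lit 0) (nat_lit 8065844962) (nat_lit 760) (nat_lit 6948283528) (nat_lit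 836) (nat_lit 2114067607) (nat_lit 151) (nat_lit 5) (nat_lit 161) (nat_lit 5) (nat_lit 162) (nat_lit 5) (nat_lit 421) (nat_lit 416) (nat_lit 363))))) (XT.nd (nat_lit 312) (nat_lit 988) (nat_lit 0) (XT.nd (nat_lit 156) (nat_lit 836) (nat_lit 0) (XT.nd (nat_lit 78) (nat_lit 684) (nat_lit 0) (XT.lf (nat_lit 76) (nat_lit 7770878171) (nat_lit 0) (nat_lit 2902967465) (nat_lit 836) (nat_lit 7158434900) (nat_lit 152) (nat_lit 5) (nat_lit 151) (nat_lit 5) (nat_lit 162) (nat_lit 5) (nat_lit 422) (nat_lit 416) (nat_lit 362)) (XT.lf (nat_lit 0) (nat_lit 5305384068) (nat_lit 760) (nat_lit 8513244583) (nat_lit 836) (nat_lit 4757661462) (nat_lit 142) (nat_lit 5) (nat_lit 152) (nat_lit 5) (nat_lit 153) (nat_lit 5) (nat_lit 423) (nat_lit 416) (nat_lit 361))) (XT.nd (nat_lit 78) (nat_lit 456) (nat_lit 0) (XT.lf (nat_lit 0) (nat_lit 2824531668) (nat_lit 380) (nat_lit 14698158918) (nat_lit 456) (nat_lit 1841750146)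 (nat_lit 137) (nat_lit 5) (nat_lit 142) (nat_lit 5) (nat_lit 143) (nat_lit 5) (nat_lit 424) (nat_lit 416) (nat_lit 360)) (XT.lf (nat_lit 0) (nat_lit 286216367) (nat_lit 380) (nat_lit 1329539351) (nat_lit 456) (nat_lit 18581363149) (nat_lit 131) (nat_lit 5) (nat_lit 136) (nat_lit 5) (nat_lit 137) (nat_lit 5) (nat_lit 425) (nat_lit 416) (nat_lit 359)))) (XT.nd (nat_lit 156) (nat_lit 608) (nat_lit 0) (XT.nd (nat_lit 78) (nat_lit 380) (nat_lit 0) (XT.lf (nat_lit 0) (nat_lit 5752826101) (nat_lit 456) (nat_lit 2306116322) (nat_lit 76) (nat_lit 13012588855) (nat_lit 131) (nat_lit 5) (nat_lit 137) (nat_lit 5) (nat_lit 132) (nat_lit 5) (nat_lit 426) (nat_lit 416) (nat_lit 358)) (XT.lf (nat_lit 0) (nat_lit 10588257776) (nat_lit 456) (nat_lit 4902733239) (nat_lit 76) (nat_lit 6506539731) (nat_lit 126) (nat_lit 5) (nat_lit 132) (nat_lit 5) (nat_lit 127) (nat_lit 5) (nat_lit 427) (nat_lit 416) (nat_lit 357)))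 (XT.nd (nat_lit 78) (nat_lit 304) (nat_lit 0) (XT.lf (nat_lit 0) (nat_lit 15462573044) (nat_lit 304) (nat_lit 739130372) (nat_lit 380) (nat_lit 6776351348) (nat_lit 122) (nat_lit 5) (nat_lit 126) (nat_lit 5) (nat_lit 127) (nat_lit 5) (nat_lit 428) (nat_lit 416) (nat_lit 356)) (XT.lf (nat_lit 0) (nat_lit 13771382308) (nat_lit 304) (nat_lit 9006393244) (nat_lit 380) (nat_lit 1233570906) (nat_lit 118) (nat_lit 5) (nat_lit 122) (nat_lit 5) (nat_lit 123) (nat_lit 5) (nat_lit 429) (nat_lit 416) (nat_lit 355))))))) (XT.nd (nat_lit 1170) (nat_lit 2128) (nat_lit 0) (XT.nd (nat_lit 546) (nat_lit 1444) (nat_lit 0) (XT.nd (nat_lit 234) (nat_lit 912) (nat_lit 0) (XT.nd (nat_lit 78) (nat_lit 532) (nat_lit 0) (XT.lf (nat_lit 0) (nat_lit 5025260782) (nat_lit 380) (nat_lit 13041376431) (nat_lit 76) (nat_lit 7035719953) (nat_lit 113) (nat_lit 5) (nat_lit 118) (nat_lit 5) (nat_lit 114) (nat_lit 5) (nat_lit 430)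 (nat_lit 416) (nat_lit 354)) (XT.nd (nat_lit 78) (nat_lit 228) (nat_lit 0) (XT.lf (nat_lit 0) (nat_lit 10366654794) (nat_lit 304) (nat_lit 1847373474) (nat_lit 380) (nat_lit 14041989655) (nat_lit 109) (nat_lit 5) (nat_lit 113) (nat_lit 5) (nat_lit 114) (nat_lit 5) (nat_lit 431) (nat_lit 416) (nat_lit 353)) (XT.lf (nat_lit 0) (nat_lit 8620762681) (nat_lit 228) (nat_lit 11945299289) (nat_lit 304) (nat_lit 6906503821) (nat_lit 106) (nat_lit 5) (nat_lit 109) (nat_lit 5) (nat_lit 110) (nat_lit 5) (nat_lit 432) (nat_lit 416) (nat_lit 352)))) (XT.nd (nat_lit 156) (nat_lit 380) (nat_lit 0) (XT.nd (nat_lit 78) (nat_lit 228) (nat_lit 0) (XT.lf (nat_lit 0) (nat_lit 1266886344) (nat_lit 304) (nat_lit 21822388079) (nat_lit 76) (nat_lit 5671907659) (nat_lit 102) (nat_lit 5) (nat_lit 106) (nat_lit 5) (nat_lit 103) (nat_lit 5) (nat_lit 433) (nat_lit 416) (nat_lit 351)) (XT.lf (nat_lit 0) (nat_lit 5142413531)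 (nat_lit 228) (nat_lit 5308375357) (nat_lit 304) (nat_lit 19666509183) (nat_lit 99) (nat_lit 5) (nat_lit 102) (nat_lit 5) (nat_lit 103) (nat_lit 5) (nat_lit 434) (nat_lit 416) (nat_lit 350))) (XT.nd (nat_lit 78) (nat_lit 152) (nat_lit 0) (XT.lf (nat_lit 0) (nat_lit 3336512334) (nat_lit 228) (nat_lit 17669128280) (nat_lit 304) (nat_lit 10544452763) (nat_lit 96) (nat_lit 5) (nat_lit 99) (nat_lit 5) (nat_lit 100) (nat_lit 5) (nat_lit 435) (nat_lit 416) (nat_lit 349)) (XT.lf (nat_lit 0) (nat_lit 1637966049) (nat_lit 152) (nat_lit 31325166906) (nat_lit 228) (nat_lit 106468476) (nat_lit 94) (nat_lit 5) (nat_lit 96) (nat_lit 5) (nat_lit 97) (nat_lit 5) (nat_lit 436) (nat_lit 416) (nat_lit 348))))) (XT.nd (nat_lit 312) (nat_lit 684) (nat_lit 0) (XT.nd (nat_lit 156) (nat_lit 456) (nat_lit 0) (XT.nd (nat_lit 78) (nat_lit 228) (nat_lit 0) (XT.lf (nat_lit 0) (nat_lit 11588978175) (nat_lit 228) (nat_lit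 308129244) (nat_lit 76) (nat_lit 22765856032) (nat_lit 93) (nat_lit 5) (nat_lit 96) (nat_lit 5) (nat_lit 94) (nat_lit 5) (nat_lit 437) (nat_lit 416) (nat_lit 347)) (XT.lf (nat_lit 0) (nat_lit 24887349184) (nat_lit 304) (nat_lit 2129269699) (nat_lit 76) (nat_lit 9333538768) (nat_lit 90) (nat_lit 5) (nat_lit 94) (nat_lit 5) (nat_lit 91) (nat_lit 5) (nat_lit 438) (nat_lit 416) (nat_lit 346))) (XT.nd (nat_lit 78) (nat_lit 228) (nat_lit 0) (XT.lf (nat_lit 0) (nat_lit 1779401619) (nat_lit 228) (nat_lit 3943432793) (nat_lit 76) (nat_lit 32411822364) (nat_lit 87) (nat_lit 5) (nat_lit 90) (nat_lit 5) (nat_lit 88) (nat_lit 5) (nat_lit 439) (nat_lit 416) (nat_lit 345)) (XT.lf (nat_lit 0) (nat_lit 16525257744) (nat_lit 304) (nat_lit 5992624598) (nat_lit 76) (nat_lit 17492345401) (nat_lit 84) (nat_lit 5) (nat_lit 88) (nat_lit 5) (nat_lit 85) (nat_lit 5) (nat_lit 440) (nat_lit 416) (nat_lit 344)))) (XT.nd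 (nat_lit 156) (nat_lit 304) (nat_lit 0) (XT.nd (nat_lit 78) (nat_lit 228) (nat_lit 0) (XT.lf (nat_lit 0) (nat_lit 33149938075) (nat_lit 228) (nat_lit 7922478561) (nat_lit 76) (nat_lit 928471040) (nat_lit 82) (nat_lit 5) (nat_lit 85) (nat_lit 5) (nat_lit 83) (nat_lit 5) (nat_lit 441) (nat_lit 416) (nat_lit 343)) (XT.lf (nat_lit 0) (nat_lit 7752198032) (nat_lit 228) (nat_lit 10114646611) (nat_lit 76) (nat_lit 26227479784) (nat_lit 79) (nat_lit 5) (nat_lit 82) (nat_lit 5) (nat_lit 80) (nat_lit 5) (nat_lit 442) (nat_lit 416) (nat_lit 342))) (XT.nd (nat_lit 78) (nat_lit 152) (nat_lit 0) (XT.lf (nat_lit 0) (nat_lit 26162366638) (nat_lit 228) (nat_lit 12354841940) (nat_lit 76) (nat_lit 7791330377) (nat_lit 77) (nat_lit 5) (nat_lit 80) (nat_lit 5) (nat_lit 78) (nat_lit 5) (nat_lit 443) (nat_lit 416) (nat_lit 341)) (XT.lf (nat_lit 0) (nat_lit 33979094769) (nat_lit 152) (nat_lit 13064243231) (nat_lit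 228) (nat_lit 1606653997) (nat_lit 75) (nat_lit 5) (nat_lit 77) (nat_lit 5) (nat_lit 78) (nat_lit 5) (nat_lit 444) (nat_lit 416) (nat_lit 340)))))) (XT.nd (nat_lit 546) (nat_lit 1064) (nat_lit 0) (XT.nd (nat_lit 234) (nat_lit 532) (nat_lit 0) (XT.nd (nat_lit 78) (nat_lit 304) (nat_lit 0) (XT.lf (nat_lit 0) (nat_lit 18806935803) (nat_lit 228) (nat_lit 17298574254) (nat_lit 76) (nat_lit 15009858762) (nat_lit 72) (nat_lit 5) (nat_lit 75) (nat_lit 5) (nat_lit 73) (nat_lit 5) (nat_lit 445) (nat_lit 416) (nat_lit 339)) (XT.nd (nat_lit 78) (nat_lit 152) (nat_lit 0) (XT.lf (nat_lit 0) (nat_lit 33749938242) (nat_lit 152) (nat_lit 8043129265) (nat_lit 228) (nat_lit 11933804814) (nat_lit 70) (nat_lit 5) (nat_lit 72) (nat_lit 5) (nat_lit 73) (nat_lit 5) (nat_lit 446) (nat_lit 416) (nat_lit 338)) (XT.lf (nat_lit 0) (nat_lit 10935680921) (nat_lit 152) (nat_lit 22992688520) (nat_lit 76) (nat_lit 22551704805)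 (nat_lit 68) (nat_lit 5) (nat_lit 70) (nat_lit 5) (nat_lit 69) (nat_lit 5) (nat_lit 447) (nat_lit 416) (nat_lit 337)))) (XT.nd (nat_lit 156) (nat_lit 228) (nat_lit 0) (XT.nd (nat_lit 78) (nat_lit 152) (nat_lit 0) (XT.lf (nat_lit 0) (nat_lit 33206439286) (nat_lit 152) (nat_lit 3012366477) (nat_lit 228) (nat_lit 23174836165) (nat_lit 66) (nat_lit 5) (nat_lit 68) (nat_lit 5) (nat_lit 69) (nat_lit 5) (nat_lit 448) (nat_lit 416) (nat_lit 336)) (XT.lf (nat_lit 0) (nat_lit 2357345218) (nat_lit 152) (nat_lit 29759000642) (nat_lit 76) (nat_lit 30352953124) (nat_lit 64) (nat_lit 5) (nat_lit 66) (nat_lit 5) (nat_lit 65) (nat_lit 5) (nat_lit 449) (nat_lit 416) (nat_lit 335))) (XT.nd (nat_lit 78) (nat_lit 76) (nat_lit 0) (XT.lf (nat_lit 0) (nat_lit 30165132521) (nat_lit 228) (nat_lit 33706896317) (nat_lit 76) (nat_lit 1847736206) (nat_lit 62) (nat_lit 5) (nat_lit 65) (nat_lit 5) (nat_lit 63) (nat_lit 4)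 (nat_lit 450) (nat_lit 416) (nat_lit 334)) (XT.lf (nat_lit 0) (nat_lit 31008766741) (nat_lit 76) (nat_lit 30731264860) (nat_lit 152) (nat_lit 7413112756) (nat_lit 61) (nat_lit 5) (nat_lit 62) (nat_lit 5) (nat_lit 63) (nat_lit 4) (nat_lit 451) (nat_lit 416) (nat_lit 333))))) (XT.nd (nat_lit 312) (nat_lit 456) (nat_lit 0) (XT.nd (nat_lit 156) (nat_lit 304) (nat_lit 0) (XT.nd (nat_lit 78) (nat_lit 76) (nat_lit 0) (XT.lf (nat_lit 0) (nat_lit 23399365000) (nat_lit 228) (nat_lit 43050562722) (nat_lit 76) (nat_lit 6335571197) (nat_lit 58) (nat_lit 5) (nat_lit 61) (nat_lit 5) (nat_lit 59) (nat_lit 4) (nat_lit 452) (nat_lit 416) (nat_lit 332)) (XT.lf (nat_lit 0) (nat_lit 27954573725) (nat_lit 76) (nat_lit 30086573315) (nat_lit 152) (nat_lit 18580017547) (nat_lit 57) (nat_lit 5) (nat_lit 58) (nat_lit 5) (nat_lit 59) (nat_lit 4) (nat_lit 453) (nat_lit 416) (nat_lit 331))) (XT.nd (nat_lit 78) (nat_lit 76)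 (nat_lit 0) (XT.lf (nat_lit 0) (nat_lit 15546007217) (nat_lit 228) (nat_lit 54834985611) (nat_lit 76) (nat_lit 10304942432) (nat_lit 54) (nat_lit 5) (nat_lit 57) (nat_lit 5) (nat_lit 55) (nat_lit 4) (nat_lit 454) (nat_lit 416) (nat_lit 330)) (XT.lf (nat_lit 0) (nat_lit 22916546929) (nat_lit 76) (nat_lit 30561225944) (nat_lit 152) (nat_lit 31496554855) (nat_lit 53) (nat_lit 5) (nat_lit 54) (nat_lit 5) (nat_lit 55) (nat_lit 4) (nat_lit 455) (nat_lit 416) (nat_lit 329)))) (XT.nd (nat_lit 156) (nat_lit 228) (nat_lit 0) (XT.nd (nat_lit 78) (nat_lit 76) (nat_lit 0) (XT.lf (nat_lit 0) (nat_lit 6171476293) (nat_lit 152) (nat_lit 69939748300) (nat_lit 76) (nat_lit 13416388101) (nat_lit 51) (nat_lit 5) (nat_lit 53) (nat_lit 5) (nat_lit 52) (nat_lit 4) (nat_lit 456) (nat_lit 416) (nat_lit 328)) (XT.lf (nat_lit 0) (nat_lit 14989928089) (nat_lit 76) (nat_lit 32614078853) (nat_lit 152) (nat_lit 46722609748)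 (nat_lit 50) (nat_lit 5) (nat_lit 51) (nat_lit 5) (nat_lit 52) (nat_lit 4) (nat_lit 457) (nat_lit 416) (nat_lit 327))) (XT.nd (nat_lit 78) (nat_lit 152) (nat_lit 0) (XT.lf (nat_lit 0) (nat_lit 9817458541) (nat_lit 76) (nat_lit 84141455659) (nat_lit 76) (nat_lit 5470238306) (nat_lit 49) (nat_lit 4) (nat_lit 50) (nat_lit 5) (nat_lit 50) (nat_lit 4) (nat_lit 458) (nat_lit 416) (nat_lit 326)) (XT.lf (nat_lit 0) (nat_lit 2963293111) (nat_lit 76) (nat_lit 36861211961) (nat_lit 152) (nat_lit 64985224036) (nat_lit 47) (nat_lit 5) (nat_lit 48) (nat_lit 5) (nat_lit 49) (nat_lit 4) (nat_lit 459) (nat_lit 416) (nat_lit 325))))))))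
noncomputable def xc72 : XT := (XT.nd (nat_lit 2262) (nat_lit 532) (nat_lit 0) (XT.nd (nat_lit 1092) (nat_lit 1140) (nat_lit 0) (XT.nd (nat_lit 546) (nat_lit 684) (nat_lit 0) (XT.nd (nat_lit 234) (nat_lit 456) (nat_lit 0) (XT.nd (nat_lit 78) (nat_lit 228) (nat_lit 0) (XT.lf (nat_lit 0) (nat_lit 90354489085) (nat_lit 152) (nat_lit 4752594122) (nat_lit 0) (nat_lit 15419019415) (nat_lit 47) (nat_lit 5) (nat_lit 49) (nat_lit 4) (nat_lit 47) (nat_lit 4) (nat_lit 460) (nat_lit 416) (nat_lit 324)) (XT.nd (nat_lit 78) (nat_lit 76) (nat_lit 0) (XT.lf (nat_lit 0) (nat_lit 29578996734) (nat_lit 152) (nat_lit 14303200849) (nat_lit 76) (nat_lit 72682785690) (nat_lit 45) (nat_lit 5) (nat_lit 47) (nat_lit 5) (nat_lit 46) (nat_lit 4) (nat_lit 461) (nat_lit 416) (nat_lit 323)) (XT.lf (nat_lit 0) (nat_lit 84425551411) (nat_lit 152) (nat_lit 25503895029) (nat_lit 0) (nat_lit 13049863430) (nat_lit 44) (nat_lit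 5) (nat_lit 46) (nat_lit 4) (nat_lit 44) (nat_lit 4) (nat_lit 462) (nat_lit 416) (nat_lit 322)))) (XT.nd (nat_lit 156) (nat_lit 228) (nat_lit 0) (XT.nd (nat_lit 78) (nat_lit 76) (nat_lit 0) (XT.lf (nat_lit 0) (nat_lit 15759179971) (nat_lit 152) (nat_lit 39073185817) (nat_lit 76) (nat_lit 74941364972) (nat_lit 42) (nat_lit 5) (nat_lit 44) (nat_lit 5) (nat_lit 43) (nat_lit 4) (nat_lit 463) (nat_lit 416) (nat_lit 321)) (XT.lf (nat_lit 0) (nat_lit 74921422385) (nat_lit 152) (nat_lit 55128355472) (nat_lit 0) (nat_lit 6937575896) (nat_lit 41) (nat_lit 5) (nat_lit 43) (nat_lit 4) (nat_lit 41) (nat_lit 4) (nat_lit 464) (nat_lit 416) (nat_lit 320))) (XT.nd (nat_lit 78) (nat_lit 152) (nat_lit 0) (XT.lf (nat_lit 0) (nat_lit 70423105490) (nat_lit 76) (nat_lit 71103220036) (nat_lit 76) (nat_lit 3116257097) (nat_lit 40) (nat_lit 4) (nat_lit 41) (nat_lit 5) (nat_lit 41) (nat_lit 4) (nat_lit 465) (nat_lit 416)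 (nat_lit 319)) (XT.lf (nat_lit 0) (nat_lit 55942686177) (nat_lit 76) (nat_lit 4512208807) (nat_lit 152) (nat_lit 92315894501) (nat_lit 38) (nat_lit 5) (nat_lit 39) (nat_lit 5) (nat_lit 40) (nat_lit 4) (nat_lit 466) (nat_lit 416) (nat_lit 318))))) (XT.nd (nat_lit 234) (nat_lit 456) (nat_lit 0) (XT.nd (nat_lit 78) (nat_lit 152) (nat_lit 0) (XT.lf (nat_lit 0) (nat_lit 37754290062) (nat_lit 76) (nat_lit 94199806571) (nat_lit 76) (nat_lit 29445025244) (nat_lit 37) (nat_lit 4) (nat_lit 38) (nat_lit 5) (nat_lit 38) (nat_lit 4) (nat_lit 467) (nat_lit 416) (nat_lit 317)) (XT.nd (nat_lit 78) (nat_lit 0) (nat_lit 0) (XT.lf (nat_lit 0) (nat_lit 15715243746) (nat_lit 76) (nat_lit 23539576353) (nat_lit 152) (nat_lit 131331374762) (nat_lit 35) (nat_lit 5) (nat_lit 36) (nat_lit 5) (nat_lit 37) (nat_lit 4) (nat_lit 468) (nat_lit 416) (nat_lit 316)) (XT.lf (nat_lit 0) (nat_lit 115440412903) (nat_lit 152) (nat_lit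 11127746143) (nat_lit 0) (nat_lit 53764870939) (nat_lit 35) (nat_lit 5) (nat_lit 37) (nat_lit 4) (nat_lit 35) (nat_lit 4) (nat_lit 469) (nat_lit 416) (nat_lit 315)))) (XT.nd (nat_lit 156) (nat_lit 228) (nat_lit 0) (XT.nd (nat_lit 78) (nat_lit 76) (nat_lit 0) (XT.lf (nat_lit 0) (nat_lit 9395771128) (nat_lit 152) (nat_lit 42416134963) (nat_lit 76) (nat_lit 138904643103) (nat_lit 33) (nat_lit 5) (nat_lit 35) (nat_lit 5) (nat_lit 34) (nat_lit 4) (nat_lit 470) (nat_lit 416) (nat_lit 314)) (XT.lf (nat_lit 0) (nat_lit 89980875199) (nat_lit 152) (nat_lit 80526590710) (nat_lit 0) (nat_lit 31238735118) (nat_lit 32) (nat_lit 5) (nat_lit 34) (nat_lit 4) (nat_lit 32) (nat_lit 4) (nat_lit 471) (nat_lit 416) (nat_lit 313))) (XT.nd (nat_lit 78) (nat_lit 152) (nat_lit 0) (XT.lf (nat_lit 0) (nat_lit 87752933941) (nat_lit 76) (nat_lit 92249753512) (nat_lit 76) (nat_lit 33506042613) (nat_lit 31) (nat_lit 4) (nat_lit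 32) (nat_lit 5) (nat_lit 32) (nat_lit 4) (nat_lit 472) (nat_lit 416) (nat_lit 312)) (XT.lf (nat_lit 0) (nat_lit 46900629561) (nat_lit 76) (nat_lit 4633904546) (nat_lit 152) (nat_lit 174530237961) (nat_lit 29) (nat_lit 5) (nat_lit 30) (nat_lit 5) (nat_lit 31) (nat_lit 4) (nat_lit 473) (nat_lit 416) (nat_lit 311)))))) (XT.nd (nat_lit 546) (nat_lit 608) (nat_lit 0) (XT.nd (nat_lit 234) (nat_lit 304) (nat_lit 0) (XT.nd (nat_lit 78) (nat_lit 228) (nat_lit 0) (XT.lf (nat_lit 0) (nat_lit 145847159522) (nat_lit 152) (nat_lit 3670439034) (nat_lit 0) (nat_lit 89898100395) (nat_lit 29) (nat_lit 5) (nat_lit 31) (nat_lit 4) (nat_lit 29) (nat_lit 4) (nat_lit 474) (nat_lit 416) (nat_lit 310)) (XT.nd (nat_lit 78) (nat_lit 152) (nat_lit 0) (XT.lf (nat_lit 0) (nat_lit 191918856467) (nat_lit 76) (nat_lit 58856286436) (nat_lit 76) (nat_lit 2906039722) (nat_lit 28) (nat_lit 4) (nat_lit 29) (nat_lit 5) (nat_lit 29)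 (nat_lit 4) (nat_lit 475) (nat_lit 416) (nat_lit 309)) (XT.lf (nat_lit 0) (nat_lit 94840170327) (nat_lit 152) (nat_lit 132476812364) (nat_lit 0) (nat_lit 41553173821) (nat_lit 26) (nat_lit 5) (nat_lit 28) (nat_lit 4) (nat_lit 26) (nat_lit 4) (nat_lit 476) (nat_lit 416) (nat_lit 308)))) (XT.nd (nat_lit 156) (nat_lit 152) (nat_lit 0) (XT.nd (nat_lit 78) (nat_lit 76) (nat_lit 0) (XT.lf (nat_lit 0) (nat_lit 68512366440) (nat_lit 76) (nat_lit 134944907781) (nat_lit 76) (nat_lit 81656941594) (nat_lit 25) (nat_lit 4) (nat_lit 26) (nat_lit 5) (nat_lit 26) (nat_lit 4) (nat_lit 477) (nat_lit 416) (nat_lit 307)) (XT.lf (nat_lit 0) (nat_lit 19868104128) (nat_lit 152) (nat_lit 12559250574) (nat_lit 76) (nat_lit 270099227915) (nat_lit 24) (nat_lit 5) (nat_lit 26) (nat_lit 5) (nat_lit 25) (nat_lit 4) (nat_lit 478) (nat_lit 416) (nat_lit 306))) (XT.nd (nat_lit 78) (nat_lit 76) (nat_lit 0) (XT.lf (nat_lit 0)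 (nat_lit 131317838964) (nat_lit 152) (nat_lit 109148242439) (nat_lit 0) (nat_lit 80565748122) (nat_lit 23) (nat_lit 5) (nat_lit 25) (nat_lit 4) (nat_lit 23) (nat_lit 4) (nat_lit 479) (nat_lit 416) (nat_lit 305)) (XT.lf (nat_lit 0) (nat_lit 116908266897) (nat_lit 76) (nat_lit 137366252462) (nat_lit 76) (nat_lit 86613428513) (nat_lit 22) (nat_lit 4) (nat_lit 23) (nat_lit 5) (nat_lit 23) (nat_lit 4) (nat_lit 480) (nat_lit 416) (nat_lit 304))))) (XT.nd (nat_lit 312) (nat_lit 380) (nat_lit 0) (XT.nd (nat_lit 156) (nat_lit 76) (nat_lit 0) (XT.nd (nat_lit 78) (nat_lit 0) (nat_lit 0) (XT.lf (nat_lit 0) (nat_lit 2360917268) (nat_lit 76) (nat_lit 23548555912) (nat_lit 152) (nat_lit 336305474510) (nat_lit 20) (nat_lit 5) (nat_lit 21) (nat_lit 5) (nat_lit 22) (nat_lit 4) (nat_lit 481) (nat_lit 416) (nat_lit 303)) (XT.lf (nat_lit 0) (nat_lit 149954069899) (nat_lit 152) (nat_lit 133328522208) (nat_lit 0)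 (nat_lit 101616802018) (nat_lit 20) (nat_lit 5) (nat_lit 22) (nat_lit 4) (nat_lit 20) (nat_lit 4) (nat_lit 482) (nat_lit 416) (nat_lit 302))) (XT.nd (nat_lit 78) (nat_lit 0) (nat_lit 0) (XT.lf (nat_lit 0) (nat_lit 114583257964) (nat_lit 76) (nat_lit 171522004528) (nat_lit 76) (nat_lit 123184182395) (nat_lit 19) (nat_lit 4) (nat_lit 20) (nat_lit 5) (nat_lit 20) (nat_lit 4) (nat_lit 483) (nat_lit 416) (nat_lit 301)) (XT.lf (nat_lit 0) (nat_lit 387083286292) (nat_lit 76) (nat_lit 48384883890) (nat_lit 76) (nat_lit 46548560) (nat_lit 19) (nat_lit 4) (nat_lit 20) (nat_lit 5) (nat_lit 20) (nat_lit 4) (nat_lit 484) (nat_lit 416) (nat_lit 300)))) (XT.nd (nat_lit 156) (nat_lit 152) (nat_lit 0) (XT.nd (nat_lit 78) (nat_lit 76) (nat_lit 0) (XT.lf (nat_lit 0) (nat_lit 133571487683) (nat_lit 152) (nat_lit 242384003162) (nat_lit 0) (nat_lit 87534525291) (nat_lit 17) (nat_lit 5) (nat_lit 19) (nat_lit 4) (nat_lit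 17) (nat_lit 4) (nat_lit 485) (nat_lit 416) (nat_lit 299)) (XT.lf (nat_lit 0) (nat_lit 20081715294) (nat_lit 76) (nat_lit 259779876267) (nat_lit 76) (nat_lit 213742494843) (nat_lit 16) (nat_lit 4) (nat_lit 17) (nat_lit 5) (nat_lit 17) (nat_lit 4) (nat_lit 486) (nat_lit 416) (nat_lit 298))) (XT.nd (nat_lit 78) (nat_lit 152) (nat_lit 0) (XT.lf (nat_lit 0) (nat_lit 312195054973) (nat_lit 76) (nat_lit 129879506920) (nat_lit 76) (nat_lit 83841737504) (nat_lit 16) (nat_lit 4) (nat_lit 17) (nat_lit 5) (nat_lit 17) (nat_lit 4) (nat_lit 487) (nat_lit 416) (nat_lit 297)) (XT.lf (nat_lit 0) (nat_lit 55900515288) (nat_lit 152) (nat_lit 492751416615) (nat_lit 0) (nat_lit 12054678461) (nat_lit 14) (nat_lit 5) (nat_lit 16) (nat_lit 4) (nat_lit 14) (nat_lit 4) (nat_lit 488) (nat_lit 416) (nat_lit 296))))))) (XT.nd (nat_lit 56940) (nat_lit 0) (nat_lit 7752) (XT.nd (nat_lit 546) (nat_lit 228) (nat_lit 0) (XT.nd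 (nat_lit 234) (nat_lit 228) (nat_lit 0) (XT.nd (nat_lit 78) (nat_lit 76) (nat_lit 0) (XT.lf (nat_lit 0) (nat_lit 209895636016) (nat_lit 152) (nat_lit 221965760390) (nat_lit 0) (nat_lit 166049482388) (nat_lit 14) (nat_lit 5) (nat_lit 16) (nat_lit 4) (nat_lit 14) (nat_lit 4) (nat_lit 489) (nat_lit 416) (nat_lit 295)) (XT.nd (nat_lit 78) (nat_lit 0) (nat_lit 0) (XT.lf (nat_lit 0) (nat_lit 72808768191) (nat_lit 76) (nat_lit 304536218239) (nat_lit 76) (nat_lit 260689771277) (nat_lit 13) (nat_lit 4) (nat_lit 14) (nat_lit 5) (nat_lit 14) (nat_lit 4) (nat_lit 490) (nat_lit 416) (nat_lit 294)) (XT.lf (nat_lit 0) (nat_lit 399087456879) (nat_lit 76) (nat_lit 162967292697) (nat_lit 76) (nat_lit 119120574130) (nat_lit 13) (nat_lit 4) (nat_lit 14) (nat_lit 5) (nat_lit 14) (nat_lit 4) (nat_lit 491) (nat_lit 416) (nat_lit 293)))) (XT.nd (nat_lit 156) (nat_lit 76) (nat_lit 0) (XT.nd (nat_lit 78) (nat_lit 0)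 (nat_lit 0) (XT.lf (nat_lit 0) (nat_lit 23936219448) (nat_lit 76) (nat_lit 9128751040) (nat_lit 152) (nat_lit 694657209258) (nat_lit 11) (nat_lit 5) (nat_lit 12) (nat_lit 5) (nat_lit 13) (nat_lit 4) (nat_lit 492) (nat_lit 416) (nat_lit 292)) (XT.lf (nat_lit 0) (nat_lit 200751702896) (nat_lit 152) (nat_lit 417775992094) (nat_lit 0) (nat_lit 158992462027) (nat_lit 11) (nat_lit 5) (nat_lit 13) (nat_lit 4) (nat_lit 11) (nat_lit 4) (nat_lit 493) (nat_lit 416) (nat_lit 291))) (XT.nd (nat_lit 78) (nat_lit 76) (nat_lit 0) (XT.lf (nat_lit 0) (nat_lit 382005577882) (nat_lit 152) (nat_lit 109042652723) (nat_lit 0) (nat_lit 340246131671) (nat_lit 11) (nat_lit 5) (nat_lit 13) (nat_lit 4) (nat_lit 11) (nat_lit 4) (nat_lit 494) (nat_lit 416) (nat_lit 290)) (XT.lf (nat_lit 0) (nat_lit 231805332389) (nat_lit 76) (nat_lit 349571965581) (nat_lit 76) (nat_lit 307812329239) (nat_lit 10) (nat_lit 4) (nat_lit 11)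 (nat_lit 5) (nat_lit 11) (nat_lit 4) (nat_lit 495) (nat_lit 416) (nat_lit 289))))) (XT.nd (nat_lit 312) (nat_lit 76) (nat_lit 0) (XT.nd (nat_lit 156) (nat_lit 76) (nat_lit 0) (XT.nd (nat_lit 78) (nat_lit 76) (nat_lit 0) (XT.lf (nat_lit 0) (nat_lit 603811935362) (nat_lit 76) (nat_lit 194784747017) (nat_lit 76) (nat_lit 153024934627) (nat_lit 10) (nat_lit 4) (nat_lit 11) (nat_lit 5) (nat_lit 11) (nat_lit 4) (nat_lit 496) (nat_lit 416) (nat_lit 288)) (XT.lf (nat_lit 0) (nat_lit 13691272681) (nat_lit 152) (nat_lit 13692866400) (nat_lit 76) (nat_lit 991653056208) (nat_lit 9) (nat_lit 5) (nat_lit 11) (nat_lit 5) (nat_lit 10) (nat_lit 4) (nat_lit 497) (nat_lit 416) (nat_lit 287))) (XT.nd (nat_lit 78) (nat_lit 0) (nat_lit 0) (XT.lf (nat_lit 0) (nat_lit 196539981828) (nat_lit 152) (nat_lit 738004352117) (nat_lit 0) (nat_lit 156768432943) (nat_lit 8) (nat_lit 5) (nat_lit 10) (nat_lit 4) (nat_lit 8) (nat_lit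 4) (nat_lit 498) (nat_lit 416) (nat_lit 286)) (XT.lf (nat_lit 0) (nat_lit 394719473368) (nat_lit 152) (nat_lit 419667975185) (nat_lit 0) (nat_lit 354947791384) (nat_lit 8) (nat_lit 5) (nat_lit 10) (nat_lit 4) (nat_lit 8) (nat_lit 4) (nat_lit 499) (nat_lit 416) (nat_lit 285)))) (XT.nd (nat_lit 156) (nat_lit 0) (nat_lit 0) (XT.nd (nat_lit 78) (nat_lit 76) (nat_lit 0) (XT.lf (nat_lit 0) (nat_lit 608752127911) (nat_lit 152) (nat_lit 75867120049) (nat_lit 0) (nat_lit 568980322689) (nat_lit 8) (nat_lit 5) (nat_lit 10) (nat_lit 4) (nat_lit 8) (nat_lit 4) (nat_lit 500) (nat_lit 416) (nat_lit 284)) (XT.lf (nat_lit 0) (nat_lit 305203985253) (nat_lit 76) (nat_lit 539467391404) (nat_lit 76) (nat_lit 499695472072) (nat_lit 7) (nat_lit 4) (nat_lit 8) (nat_lit 5) (nat_lit 8) (nat_lit 4) (nat_lit 501) (nat_lit 416) (nat_lit 283))) (XT.nd (nat_lit 55848) (nat_lit 0) (nat_lit 10640) (XT.lf (nat_lit 0) (nat_lit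 719467815418) (nat_lit 76) (nat_lit 381316846891) (nat_lit 76) (nat_lit 341544821902) (nat_lit 7) (nat_lit 4) (nat_lit 8) (nat_lit 5) (nat_lit 8) (nat_lit 4) (nat_lit 502) (nat_lit 416) (nat_lit 282)) (XT.lf (nat_lit 0) (nat_lit 1162756689) (nat_lit 836) (nat_lit 3223437047) (nat_lit 836) (nat_lit 3223437047) (nat_lit 147) (nat_lit 3) (nat_lit 158) (nat_lit 3) (nat_lit 158) (nat_lit 5) (nat_lit 417) (nat_lit 417) (nat_lit 366)))))) (XT.nd (nat_lit 546) (nat_lit 2508) (nat_lit 0) (XT.nd (nat_lit 234) (nat_lit 456) (nat_lit 0) (XT.nd (nat_lit 78) (nat_lit 0) (nat_lit 0) (XT.lf (nat_lit 0) (nat_lit 3001307422) (nat_lit 760) (nat_lit 10033244920) (nat_lit 836) (nat_lit 2764271803) (nat_lit 148) (nat_lit 5) (nat_lit 158) (nat_lit 5) (nat_lit 159) (nat_lit 5) (nat_lit 418) (nat_lit 417) (nat_lit 365)) (XT.nd (nat_lit 78) (nat_lit 0) (nat_lit 76) (XT.lf (nat_lit 76) (nat_lit 2675095725) (nat_lit 0)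 (nat_lit 1315075862) (nat_lit 836) (nat_lit 12421636738) (nat_lit 149) (nat_lit 5) (nat_lit 148) (nat_lit 5) (nat_lit 159) (nat_lit 5) (nat_lit 419) (nat_lit 417) (nat_lit 364)) (XT.lf (nat_lit 0) (nat_lit 5371214895) (nat_lit 760) (nat_lit 514708848) (nat_lit 836) (nat_lit 11172260406) (nat_lit 149) (nat_lit 5) (nat_lit 159) (nat_lit 5) (nat_lit 160) (nat_lit 5) (nat_lit 420) (nat_lit 417) (nat_lit 363)))) (XT.nd (nat_lit 156) (nat_lit 608) (nat_lit 0) (XT.nd (nat_lit 78) (nat_lit 0) (nat_lit 76) (XT.lf (nat_lit 0) (nat_lit 7178489418) (nat_lit 760) (nat_lit 3686485926) (nat_lit 836) (nat_lit 6875513245) (nat_lit 150) (nat_lit 5) (nat_lit 160) (nat_lit 5) (nat_lit 161) (nat_lit 5) (nat_lit 421) (nat_lit 417) (nat_lit 362)) (XT.lf (nat_lit 0) (nat_lit 9417686129) (nat_lit 760) (nat_lit 6925057142) (nat_lit 836) (nat_lit 2120272598) (nat_lit 151) (nat_lit 5) (nat_lit 161) (nat_lit 5) (nat_lit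 162) (nat_lit 5) (nat_lit 422) (nat_lit 417) (nat_lit 361))) (XT.nd (nat_lit 78) (nat_lit 684) (nat_lit 0) (XT.lf (nat_lit 76) (nat_lit 8946470987) (nat_lit 0) (nat_lit 3244165369) (nat_lit 836) (nat_lit 7034983176) (nat_lit 152) (nat_lit 5) (nat_lit 151) (nat_lit 5) (nat_lit 162) (nat_lit 5) (nat_lit 423) (nat_lit 417) (nat_lit 360)) (XT.lf (nat_lit 0) (nat_lit 6293090532) (nat_lit 760) (nat_lit 9252028180) (nat_lit 836) (nat_lit 4486132685) (nat_lit 142) (nat_lit 5) (nat_lit 152) (nat_lit 5) (nat_lit 153) (nat_lit 5) (nat_lit 424) (nat_lit 417) (nat_lit 359))))) (XT.nd (nat_lit 312) (nat_lit 1292) (nat_lit 0) (XT.nd (nat_lit 156) (nat_lit 380) (nat_lit 0) (XT.nd (nat_lit 78) (nat_lit 456) (nat_lit 0) (XT.lf (nat_lit 0) (nat_lit 3619941266) (nat_lit 380) (nat_lit 15887620541) (nat_lit 456) (nat_lit 1376796257) (nat_lit 137) (nat_lit 5) (nat_lit 142) (nat_lit 5) (nat_lit 143) (nat_lit 5) (nat_lit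 425) (nat_lit 417) (nat_lit 358)) (XT.lf (nat_lit 0) (nat_lit 872636373) (nat_lit 380) (nat_lit 1429971186) (nat_lit 456) (nat_lit 19482326180) (nat_lit 131) (nat_lit 5) (nat_lit 136) (nat_lit 5) (nat_lit 137) (nat_lit 5) (nat_lit 426) (nat_lit 417) (nat_lit 357))) (XT.nd (nat_lit 78) (nat_lit 380) (nat_lit 0) (XT.lf (nat_lit 0) (nat_lit 6729426252) (nat_lit 456) (nat_lit 1943027174) (nat_lit 76) (nat_lit 14058912144) (nat_lit 131) (nat_lit 5) (nat_lit 137) (nat_lit 5) (nat_lit 132) (nat_lit 5) (nat_lit 427) (nat_lit 417) (nat_lit 356)) (XT.lf (nat_lit 0) (nat_lit 11922205385) (nat_lit 456) (nat_lit 4747376247) (nat_lit 76) (nat_lit 7063342865) (nat_lit 126) (nat_lit 5) (nat_lit 132) (nat_lit 5) (nat_lit 127) (nat_lit 5) (nat_lit 428) (nat_lit 417) (nat_lit 355)))) (XT.nd (nat_lit 156) (nat_lit 684) (nat_lit 0) (XT.nd (nat_lit 78) (nat_lit 304) (nat_lit 0) (XT.lf (nat_lit 0) (nat_lit 17223357568)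 (nat_lit 304) (nat_lit 733481058) (nat_lit 380) (nat_lit 6836450979) (nat_lit 122) (nat_lit 5) (nat_lit 126) (nat_lit 5) (nat_lit 127) (nat_lit 5) (nat_lit 429) (nat_lit 417) (nat_lit 354)) (XT.lf (nat_lit 0) (nat_lit 15395150923) (nat_lit 304) (nat_lit 9638932954) (nat_lit 380) (nat_lit 876410806) (nat_lit 118) (nat_lit 5) (nat_lit 122) (nat_lit 5) (nat_lit 123) (nat_lit 5) (nat_lit 430) (nat_lit 417) (nat_lit 353))) (XT.nd (nat_lit 78) (nat_lit 304) (nat_lit 0) (XT.lf (nat_lit 0) (nat_lit 5845378300) (nat_lit 380) (nat_lit 13551943645) (nat_lit 76) (nat_lit 7692270305) (nat_lit 113) (nat_lit 5) (nat_lit 118) (nat_lit 5) (nat_lit 114) (nat_lit 5) (nat_lit 431) (nat_lit 417) (nat_lit 352)) (XT.lf (nat_lit 0) (nat_lit 11705577721) (nat_lit 304) (nat_lit 1880655477) (nat_lit 380) (nat_lit 14750466971) (nat_lit 109) (nat_lit 5) (nat_lit 113) (nat_lit 5) (nat_lit 114) (nat_lit 5) (nat_lit 432) (nat_lit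 417) (nat_lit 351))))))))
noncomputable def xc73 : XT := (XT.nd (nat_lit 2262) (nat_lit 2584) (nat_lit 0) (XT.nd (nat_lit 1092) (nat_lit 1900) (nat_lit 0) (XT.nd (nat_lit 546) (nat_lit 1368) (nat_lit 0) (XT.nd (nat_lit 234) (nat_lit 684) (nat_lit 0) (XT.nd (nat_lit 78) (nat_lit 532) (nat_lit 0) (XT.lf (nat_lit 0) (nat_lit 9815096700) (nat_lit 228) (nat_lit 12771602234) (nat_lit 304) (nat_lit 7064862805) (nat_lit 106) (nat_lit 5) (nat_lit 109) (nat_lit 5) (nat_lit 110) (nat_lit 5) (nat_lit 433) (nat_lit 417) (nat_lit 350)) (XT.nd (nat_lit 78) (nat_lit 228) (nat_lit 0) (XT.lf (nat_lit 0) (nat_lit 1731335806) (nat_lit 304) (nat_lit 23057335561) (nat_lit 76) (nat_lit 6255213567) (nat_lit 102) (nat_lit 5) (nat_lit 106) (nat_lit 5) (nat_lit 103) (nat_lit 5) (nat_lit 434) (nat_lit 417) (nat_lit 349)) (XT.lf (nat_lit 0) (nat_lit 6042449540) (nat_lit 228) (nat_lit 5588233911) (nat_lit 304) (nat_lit 20878772833)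 (nat_lit 99) (nat_lit 5) (nat_lit 102) (nat_lit 5) (nat_lit 103) (nat_lit 5) (nat_lit 435) (nat_lit 417) (nat_lit 348)))) (XT.nd (nat_lit 156) (nat_lit 228) (nat_lit 0) (XT.nd (nat_lit 78) (nat_lit 228) (nat_lit 0) (XT.lf (nat_lit 0) (nat_lit 4085154793) (nat_lit 228) (nat_lit 18928913985) (nat_lit 304) (nat_lit 11043601685) (nat_lit 96) (nat_lit 5) (nat_lit 99) (nat_lit 5) (nat_lit 100) (nat_lit 5) (nat_lit 436) (nat_lit 417) (nat_lit 347)) (XT.lf (nat_lit 0) (nat_lit 207167390) (nat_lit 228) (nat_lit 33459606271) (nat_lit 76) (nat_lit 2032534181) (nat_lit 93) (nat_lit 5) (nat_lit 96) (nat_lit 5) (nat_lit 94) (nat_lit 5) (nat_lit 437) (nat_lit 417) (nat_lit 346))) (XT.nd (nat_lit 78) (nat_lit 0) (nat_lit 0) (XT.lf (nat_lit 0) (nat_lit 119914626) (nat_lit 228) (nat_lit 12692936484) (nat_lit 304) (nat_lit 24608285931) (nat_lit 90) (nat_lit 5) (nat_lit 93) (nat_lit 5) (nat_lit 94) (nat_lit 5)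 (nat_lit 438) (nat_lit 417) (nat_lit 345)) (XT.lf (nat_lit 0) (nat_lit 27160415579) (nat_lit 304) (nat_lit 1858586628) (nat_lit 76) (nat_lit 10225040289) (nat_lit 90) (nat_lit 5) (nat_lit 94) (nat_lit 5) (nat_lit 91) (nat_lit 5) (nat_lit 439) (nat_lit 417) (nat_lit 344))))) (XT.nd (nat_lit 234) (nat_lit 760) (nat_lit 0) (XT.nd (nat_lit 78) (nat_lit 380) (nat_lit 0) (XT.lf (nat_lit 0) (nat_lit 2193934944) (nat_lit 228) (nat_lit 3828028597) (nat_lit 76) (nat_lit 35149835691) (nat_lit 87) (nat_lit 5) (nat_lit 90) (nat_lit 5) (nat_lit 88) (nat_lit 5) (nat_lit 440) (nat_lit 417) (nat_lit 343)) (XT.nd (nat_lit 78) (nat_lit 152) (nat_lit 0) (XT.lf (nat_lit 0) (nat_lit 18108132527) (nat_lit 304) (nat_lit 6049338691) (nat_lit 76) (nat_lit 19040512566) (nat_lit 84) (nat_lit 5) (nat_lit 88) (nat_lit 5) (nat_lit 85) (nat_lit 5) (nat_lit 441) (nat_lit 417) (nat_lit 342)) (XT.lf (nat_lit 0) (nat_lit 36052220535)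 (nat_lit 228) (nat_lit 8141983696) (nat_lit 76) (nat_lit 1154222062) (nat_lit 82) (nat_lit 5) (nat_lit 85) (nat_lit 5) (nat_lit 83) (nat_lit 5) (nat_lit 442) (nat_lit 417) (nat_lit 341)))) (XT.nd (nat_lit 156) (nat_lit 380) (nat_lit 0) (XT.nd (nat_lit 78) (nat_lit 152) (nat_lit 0) (XT.lf (nat_lit 0) (nat_lit 8614225382) (nat_lit 228) (nat_lit 10519517265) (nat_lit 76) (nat_lit 28476019263) (nat_lit 79) (nat_lit 5) (nat_lit 82) (nat_lit 5) (nat_lit 80) (nat_lit 5) (nat_lit 443) (nat_lit 417) (nat_lit 340)) (XT.lf (nat_lit 0) (nat_lit 28487777901) (nat_lit 228) (nat_lit 12947432609) (nat_lit 76) (nat_lit 8566375746) (nat_lit 77) (nat_lit 5) (nat_lit 80) (nat_lit 5) (nat_lit 78) (nat_lit 5) (nat_lit 444) (nat_lit 417) (nat_lit 339))) (XT.nd (nat_lit 78) (nat_lit 228) (nat_lit 0) (XT.lf (nat_lit 0) (nat_lit 37076018195) (nat_lit 152) (nat_lit 13951903279) (nat_lit 228) (nat_lit 1503000432) (nat_lit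 75) (nat_lit 5) (nat_lit 77) (nat_lit 5) (nat_lit 78) (nat_lit 5) (nat_lit 445) (nat_lit 417) (nat_lit 338)) (XT.lf (nat_lit 0) (nat_lit 20527788017) (nat_lit 228) (nat_lit 18304917336) (nat_lit 76) (nat_lit 16361066087) (nat_lit 72) (nat_lit 5) (nat_lit 75) (nat_lit 5) (nat_lit 73) (nat_lit 5) (nat_lit 446) (nat_lit 417) (nat_lit 337)))))) (XT.nd (nat_lit 546) (nat_lit 836) (nat_lit 0) (XT.nd (nat_lit 234) (nat_lit 608) (nat_lit 0) (XT.nd (nat_lit 78) (nat_lit 304) (nat_lit 0) (XT.lf (nat_lit 0) (nat_lit 36811068608) (nat_lit 152) (nat_lit 8531357957) (nat_lit 228) (nat_lit 12672288730) (nat_lit 70) (nat_lit 5) (nat_lit 72) (nat_lit 5) (nat_lit 73) (nat_lit 5) (nat_lit 447) (nat_lit 417) (nat_lit 336)) (XT.nd (nat_lit 78) (nat_lit 152) (nat_lit 0) (XT.lf (nat_lit 0) (nat_lit 12012213842) (nat_lit 152) (nat_lit 24472443817) (nat_lit 76) (nat_lit 24503728790) (nat_lit 68) (nat_lit 5) (nat_lit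 70) (nat_lit 5) (nat_lit 69) (nat_lit 5) (nat_lit 448) (nat_lit 417) (nat_lit 335)) (XT.lf (nat_lit 0) (nat_lit 36206983837) (nat_lit 152) (nat_lit 3101436954) (nat_lit 228) (nat_lit 24827097877) (nat_lit 66) (nat_lit 5) (nat_lit 68) (nat_lit 5) (nat_lit 69) (nat_lit 5) (nat_lit 449) (nat_lit 417) (nat_lit 334)))) (XT.nd (nat_lit 156) (nat_lit 304) (nat_lit 0) (XT.nd (nat_lit 78) (nat_lit 152) (nat_lit 0) (XT.lf (nat_lit 0) (nat_lit 2734301389) (nat_lit 152) (nat_lit 31797478081) (nat_lit 76) (nat_lit 32925636993) (nat_lit 64) (nat_lit 5) (nat_lit 66) (nat_lit 5) (nat_lit 65) (nat_lit 5) (nat_lit 450) (nat_lit 417) (nat_lit 333)) (XT.lf (nat_lit 0) (nat_lit 32760177839) (nat_lit 228) (nat_lit 36069403352) (nat_lit 76) (nat_lit 2138665901) (nat_lit 62) (nat_lit 5) (nat_lit 65) (nat_lit 5) (nat_lit 63) (nat_lit 4) (nat_lit 451) (nat_lit 417) (nat_lit 332))) (XT.nd (nat_lit 78) (nat_lit 228) (nat_lit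 0) (XT.lf (nat_lit 0) (nat_lit 33808995576) (nat_lit 76) (nat_lit 33043592751) (nat_lit 152) (nat_lit 7824133000) (nat_lit 61) (nat_lit 5) (nat_lit 62) (nat_lit 5) (nat_lit 63) (nat_lit 4) (nat_lit 452) (nat_lit 417) (nat_lit 331)) (XT.lf (nat_lit 0) (nat_lit 25441559807) (nat_lit 228) (nat_lit 46177216774) (nat_lit 76) (nat_lit 6981043912) (nat_lit 58) (nat_lit 5) (nat_lit 61) (nat_lit 5) (nat_lit 59) (nat_lit 4) (nat_lit 453) (nat_lit 417) (nat_lit 330))))) (XT.nd (nat_lit 312) (nat_lit 304) (nat_lit 0) (XT.nd (nat_lit 156) (nat_lit 228) (nat_lit 0) (XT.nd (nat_lit 78) (nat_lit 228) (nat_lit 0) (XT.lf (nat_lit 0) (nat_lit 30494537164) (nat_lit 76) (nat_lit 32352276470) (nat_lit 152) (nat_lit 19895919770) (nat_lit 57) (nat_lit 5) (nat_lit 58) (nat_lit 5) (nat_lit 59) (nat_lit 4) (nat_lit 454) (nat_lit 417) (nat_lit 329)) (XT.lf (nat_lit 0) (nat_lit 16949277813) (nat_lit 228) (nat_lit 58920436970)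 (nat_lit 76) (nat_lit 11263110851) (nat_lit 54) (nat_lit 5) (nat_lit 57) (nat_lit 5) (nat_lit 55) (nat_lit 4) (nat_lit 455) (nat_lit 417) (nat_lit 328))) (XT.nd (nat_lit 78) (nat_lit 152) (nat_lit 0) (XT.lf (nat_lit 0) (nat_lit 25038121978) (nat_lit 76) (nat_lit 32870141670) (nat_lit 152) (nat_lit 33856392271) (nat_lit 53) (nat_lit 5) (nat_lit 54) (nat_lit 5) (nat_lit 55) (nat_lit 4) (nat_lit 456) (nat_lit 417) (nat_lit 327)) (XT.lf (nat_lit 0) (nat_lit 6814956408) (nat_lit 152) (nat_lit 75248991915) (nat_lit 76) (nat_lit 14618381247) (nat_lit 51) (nat_lit 5) (nat_lit 53) (nat_lit 5) (nat_lit 52) (nat_lit 4) (nat_lit 457) (nat_lit 417) (nat_lit 326)))) (XT.nd (nat_lit 156) (nat_lit 152) (nat_lit 0) (XT.nd (nat_lit 78) (nat_lit 76) (nat_lit 0) (XT.lf (nat_lit 0) (nat_lit 16462632144) (nat_lit 76) (nat_lit 35092634138) (nat_lit 152) (nat_lit 50310329065) (nat_lit 50) (nat_lit 5) (nat_lit 51) (nat_lit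 5) (nat_lit 52) (nat_lit 4) (nat_lit 458) (nat_lit 417) (nat_lit 325)) (XT.lf (nat_lit 0) (nat_lit 10869368563) (nat_lit 76) (nat_lit 90744658093) (nat_lit 76) (nat_lit 5762534622) (nat_lit 49) (nat_lit 4) (nat_lit 50) (nat_lit 5) (nat_lit 50) (nat_lit 4) (nat_lit 459) (nat_lit 417) (nat_lit 324))) (XT.nd (nat_lit 78) (nat_lit 0) (nat_lit 0) (XT.lf (nat_lit 0) (nat_lit 3459739806) (nat_lit 76) (nat_lit 39685026771) (nat_lit 152) (nat_lit 70043022750) (nat_lit 47) (nat_lit 5) (nat_lit 48) (nat_lit 5) (nat_lit 49) (nat_lit 4) (nat_lit 460) (nat_lit 417) (nat_lit 323)) (XT.lf (nat_lit 0) (nat_lit 97709009307) (nat_lit 152) (nat_lit 4888219733) (nat_lit 0) (nat_lit 16764650910) (nat_lit 47) (nat_lit 5) (nat_lit 49) (nat_lit 4) (nat_lit 47) (nat_lit 4) (nat_lit 461) (nat_lit 417) (nat_lit 322))))))) (XT.nd (nat_lit 1170) (nat_lit 1140) (nat_lit 0) (XT.nd (nat_lit 546) (nat_lit 684) (nat_lit 0) (XT.nd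 (nat_lit 234) (nat_lit 380) (nat_lit 0) (XT.nd (nat_lit 78) (nat_lit 228) (nat_lit 0) (XT.lf (nat_lit 0) (nat_lit 32067762386) (nat_lit 152) (nat_lit 15209453122) (nat_lit 76) (nat_lit 78606841638) (nat_lit 45) (nat_lit 5) (nat_lit 47) (nat_lit 5) (nat_lit 46) (nat_lit 4) (nat_lit 462) (nat_lit 417) (nat_lit 321)) (XT.nd (nat_lit 78) (nat_lit 152) (nat_lit 0) (XT.lf (nat_lit 0) (nat_lit 91298254596) (nat_lit 152) (nat_lit 27312426178) (nat_lit 0) (nat_lit 14201038623) (nat_lit 44) (nat_lit 5) (nat_lit 46) (nat_lit 4) (nat_lit 44) (nat_lit 4) (nat_lit 463) (nat_lit 417) (nat_lit 320)) (XT.lf (nat_lit 0) (nat_lit 17135105310) (nat_lit 152) (nat_lit 41973522357) (nat_lit 76) (nat_lit 81041239971) (nat_lit 42) (nat_lit 5) (nat_lit 44) (nat_lit 5) (nat_lit 43) (nat_lit 4) (nat_lit 464) (nat_lit 417) (nat_lit 319)))) (XT.nd (nat_lit 156) (nat_lit 228) (nat_lit 0) (XT.nd (nat_lit 78) (nat_lit 76) (nat_lit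 0) (XT.lf (nat_lit 0) (nat_lit 81026812549) (nat_lit 152) (nat_lit 59319053277) (nat_lit 0) (nat_lit 7594890524) (nat_lit 41) (nat_lit 5) (nat_lit 43) (nat_lit 4) (nat_lit 41) (nat_lit 4) (nat_lit 465) (nat_lit 417) (nat_lit 318)) (XT.lf (nat_lit 0) (nat_lit 76266982290) (nat_lit 76) (nat_lit 76688132459) (nat_lit 76) (nat_lit 3253538580) (nat_lit 40) (nat_lit 4) (nat_lit 41) (nat_lit 5) (nat_lit 41) (nat_lit 4) (nat_lit 466) (nat_lit 417) (nat_lit 317))) (XT.nd (nat_lit 78) (nat_lit 76) (nat_lit 0) (XT.lf (nat_lit 0) (nat_lit 60622432941) (nat_lit 76) (nat_lit 4772445477) (nat_lit 152) (nat_lit 99592393094) (nat_lit 38) (nat_lit 5) (nat_lit 39) (nat_lit 5) (nat_lit 40) (nat_lit 4) (nat_lit 467) (nat_lit 417) (nat_lit 316)) (XT.lf (nat_lit 0) (nat_lit 40973536608) (nat_lit 76) (nat_lit 101637367889) (nat_lit 76) (nat_lit 31695121698) (nat_lit 37) (nat_lit 4) (nat_lit 38) (nat_lit 5) (nat_lit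 38) (nat_lit 4) (nat_lit 468) (nat_lit 417) (nat_lit 315))))) (XT.nd (nat_lit 312) (nat_lit 304) (nat_lit 0) (XT.nd (nat_lit 156) (nat_lit 228) (nat_lit 0) (XT.nd (nat_lit 78) (nat_lit 0) (nat_lit 0) (XT.lf (nat_lit 0) (nat_lit 17165953872) (nat_lit 76) (nat_lit 25326836403) (nat_lit 152) (nat_lit 141735419690) (nat_lit 35) (nat_lit 5) (nat_lit 36) (nat_lit 5) (nat_lit 37) (nat_lit 4) (nat_lit 469) (nat_lit 417) (nat_lit 314)) (XT.lf (nat_lit 0) (nat_lit 124767388463) (nat_lit 152) (nat_lit 11835675326) (nat_lit 0) (nat_lit 58152020304) (nat_lit 35) (nat_lit 5) (nat_lit 37) (nat_lit 4) (nat_lit 35) (nat_lit 4) (nat_lit 470) (nat_lit 417) (nat_lit 313))) (XT.nd (nat_lit 78) (nat_lit 76) (nat_lit 0) (XT.lf (nat_lit 0) (nat_lit 10236540225) (nat_lit 152) (nat_lit 45632110056) (nat_lit 76) (nat_lit 150100766452) (nat_lit 33) (nat_lit 5) (nat_lit 35) (nat_lit 5) (nat_lit 34) (nat_lit 4) (nat_lit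 471) (nat_lit 417) (nat_lit 312)) (XT.lf (nat_lit 0) (nat_lit 97265818734) (nat_lit 152) (nat_lit 86796168067) (nat_lit 0) (nat_lit 33819585683) (nat_lit 32) (nat_lit 5) (nat_lit 34) (nat_lit 4) (nat_lit 32) (nat_lit 4) (nat_lit 472) (nat_lit 417) (nat_lit 311)))) (XT.nd (nat_lit 156) (nat_lit 76) (nat_lit 0) (XT.nd (nat_lit 78) (nat_lit 152) (nat_lit 0) (XT.lf (nat_lit 0) (nat_lit 94938219748) (nat_lit 76) (nat_lit 99547327684) (nat_lit 76) (nat_lit 36099747911) (nat_lit 31) (nat_lit 4) (nat_lit 32) (nat_lit 5) (nat_lit 32) (nat_lit 4) (nat_lit 473) (nat_lit 417) (nat_lit 310)) (XT.lf (nat_lit 0) (nat_lit 50813215638) (nat_lit 76) (nat_lit 4924366009) (nat_lit 152) (nat_lit 188408357171) (nat_lit 29) (nat_lit 5) (nat_lit 30) (nat_lit 5) (nat_lit 31) (nat_lit 4) (nat_lit 474) (nat_lit 417) (nat_lit 309))) (XT.nd (nat_lit 78) (nat_lit 76) (nat_lit 0) (XT.lf (nat_lit 0) (nat_lit 157590430202)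 (nat_lit 152) (nat_lit 3812872503) (nat_lit 0) (nat_lit 97161876547) (nat_lit 29) (nat_lit 5) (nat_lit 31) (nat_lit 4) (nat_lit 29) (nat_lit 4) (nat_lit 475) (nat_lit 417) (nat_lit 308)) (XT.lf (nat_lit 0) (nat_lit 207416995598) (nat_lit 76) (nat_lit 63492322307) (nat_lit 76) (nat_lit 3062750487) (nat_lit 28) (nat_lit 4) (nat_lit 29) (nat_lit 5) (nat_lit 29) (nat_lit 4) (nat_lit 476) (nat_lit 417) (nat_lit 307)))))) (XT.nd (nat_lit 546) (nat_lit 532) (nat_lit 0) (XT.nd (nat_lit 234) (nat_lit 304) (nat_lit 0) (XT.nd (nat_lit 78) (nat_lit 152) (nat_lit 0) (XT.lf (nat_lit 0) (nat_lit 102498595797) (nat_lit 152) (nat_lit 142931887273) (nat_lit 0) (nat_lit 44945724783) (nat_lit 26) (nat_lit 5) (nat_lit 28) (nat_lit 4) (nat_lit 26) (nat_lit 4) (nat_lit 477) (nat_lit 417) (nat_lit 306)) (XT.nd (nat_lit 78) (nat_lit 76) (nat_lit 0) (XT.lf (nat_lit 0) (nat_lit 74130208184) (nat_lit 76) (nat_lit 145671721518)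 (nat_lit 76) (nat_lit 88118019159) (nat_lit 25) (nat_lit 4) (nat_lit 26) (nat_lit 5) (nat_lit 26) (nat_lit 4) (nat_lit 478) (nat_lit 417) (nat_lit 305)) (XT.lf (nat_lit 0) (nat_lit 21521617299) (nat_lit 152) (nat_lit 13435156657) (nat_lit 76) (nat_lit 291768731550) (nat_lit 24) (nat_lit 5) (nat_lit 26) (nat_lit 5) (nat_lit 25) (nat_lit 4) (nat_lit 479) (nat_lit 417) (nat_lit 304)))) (XT.nd (nat_lit 156) (nat_lit 152) (nat_lit 0) (XT.nd (nat_lit 78) (nat_lit 76) (nat_lit 0) (XT.lf (nat_lit 0) (nat_lit 141885477285) (nat_lit 152) (nat_lit 117754772091) (nat_lit 0) (nat_lit 87071015508) (nat_lit 23) (nat_lit 5) (nat_lit 25) (nat_lit 4) (nat_lit 23) (nat_lit 4) (nat_lit 480) (nat_lit 417) (nat_lit 303)) (XT.lf (nat_lit 0) (nat_lit 126380811313) (nat_lit 76) (nat_lit 148295144271) (nat_lit 76) (nat_lit 93480053972) (nat_lit 22) (nat_lit 4) (nat_lit 23) (nat_lit 5) (nat_lit 23) (nat_lit 4) (nat_lit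 481) (nat_lit 417) (nat_lit 302))) (XT.nd (nat_lit 78) (nat_lit 0) (nat_lit 0) (XT.lf (nat_lit 0) (nat_lit 2666376006) (nat_lit 76) (nat_lit 25373647540) (nat_lit 152) (nat_lit 363149229972) (nat_lit 20) (nat_lit 5) (nat_lit 21) (nat_lit 5) (nat_lit 22) (nat_lit 4) (nat_lit 482) (nat_lit 417) (nat_lit 301)) (XT.lf (nat_lit 0) (nat_lit 162004757002) (nat_lit 152) (nat_lit 143885028593) (nat_lit 0) (nat_lit 109798841650) (nat_lit 20) (nat_lit 5) (nat_lit 22) (nat_lit 4) (nat_lit 20) (nat_lit 4) (nat_lit 483) (nat_lit 417) (nat_lit 300))))) (XT.nd (nat_lit 312) (nat_lit 228) (nat_lit 0) (XT.nd (nat_lit 156) (nat_lit 152) (nat_lit 0) (XT.nd (nat_lit 78) (nat_lit 76) (nat_lit 0) (XT.lf (nat_lit 0) (nat_lit 123854923288) (nat_lit 76) (nat_lit 185190734353) (nat_lit 76) (nat_lit 132984343819) (nat_lit 19) (nat_lit 4) (nat_lit 20) (nat_lit 5) (nat_lit 20) (nat_lit 4) (nat_lit 484) (nat_lit 417) (nat_lit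 299)) (XT.lf (nat_lit 0) (nat_lit 249998) (nat_lit 152) (nat_lit 52206318020) (nat_lit 76) (nat_lit 418146921525) (nat_lit 18) (nat_lit 5) (nat_lit 20) (nat_lit 5) (nat_lit 19) (nat_lit 4) (nat_lit 485) (nat_lit 417) (nat_lit 298))) (XT.nd (nat_lit 78) (nat_lit 76) (nat_lit 0) (XT.lf (nat_lit 0) (nat_lit 144304719074) (nat_lit 152) (nat_lit 261678582368) (nat_lit 0) (nat_lit 94583540113) (nat_lit 17) (nat_lit 5) (nat_lit 19) (nat_lit 4) (nat_lit 17) (nat_lit 4) (nat_lit 486) (nat_lit 417) (nat_lit 297)) (XT.lf (nat_lit 0) (nat_lit 21780215391) (nat_lit 76) (nat_lit 280515732233) (nat_lit 76) (nat_lit 230794194020) (nat_lit 16) (nat_lit 4) (nat_lit 17) (nat_lit 5) (nat_lit 17) (nat_lit 4) (nat_lit 487) (nat_lit 417) (nat_lit 296)))) (XT.nd (nat_lit 156) (nat_lit 76) (nat_lit 0) (XT.nd (nat_lit 78) (nat_lit 152) (nat_lit 0) (XT.lf (nat_lit 0) (nat_lit 337255810181) (nat_lit 76) (nat_lit 140226780311)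 (nat_lit 76) (nat_lit 90504909457) (nat_lit 16) (nat_lit 4) (nat_lit 17) (nat_lit 5) (nat_lit 17) (nat_lit 4) (nat_lit 488) (nat_lit 417) (nat_lit 295)) (XT.lf (nat_lit 0) (nat_lit 60414090338) (nat_lit 152) (nat_lit 532087337685) (nat_lit 0) (nat_lit 13059634286) (nat_lit 14) (nat_lit 5) (nat_lit 16) (nat_lit 4) (nat_lit 14) (nat_lit 4) (nat_lit 489) (nat_lit 417) (nat_lit 294))) (XT.nd (nat_lit 78) (nat_lit 76) (nat_lit 0) (XT.lf (nat_lit 0) (nat_lit 226725744145) (nat_lit 152) (nat_lit 239645065426) (nat_lit 0) (nat_lit 179371016487) (nat_lit 14) (nat_lit 5) (nat_lit 16) (nat_lit 4) (nat_lit 14) (nat_lit 4) (nat_lit 490) (nat_lit 417) (nat_lit 293)) (XT.lf (nat_lit 0) (nat_lit 78708037577) (nat_lit 76) (nat_lit 328861320544) (nat_lit 76) (nat_lit 281506341399) (nat_lit 13) (nat_lit 4) (nat_lit 14) (nat_lit 5) (nat_lit 14) (nat_lit 4) (nat_lit 491) (nat_lit 417) (nat_lit 292))))))))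
noncomputable def xc74 : XT := (XT.nd (nat_lit 58110) (nat_lit 0) (nat_lit 2660) (XT.nd (nat_lit 56940) (nat_lit 0) (nat_lit 7220) (XT.nd (nat_lit 546) (nat_lit 152) (nat_lit 0) (XT.nd (nat_lit 234) (nat_lit 152) (nat_lit 0) (XT.nd (nat_lit 78) (nat_lit 152) (nat_lit 0) (XT.lf (nat_lit 0) (nat_lit 431083497810) (nat_lit 76) (nat_lit 175969680600) (nat_lit 76) (nat_lit 128614468597) (nat_lit 13) (nat_lit 4) (nat_lit 14) (nat_lit 5) (nat_lit 14) (nat_lit 4) (nat_lit 492) (nat_lit 417) (nat_lit 291)) (XT.nd (nat_lit 78) (nat_lit 0) (nat_lit 0) (XT.lf (nat_lit 0) (nat_lit 25918255480) (nat_lit 76) (nat_lit 9825004564) (nat_lit 152) (nat_lit 750195039351) (nat_lit 11) (nat_lit 5) (nat_lit 12) (nat_lit 5) (nat_lit 13) (nat_lit 4) (nat_lit 493) (nat_lit 417) (nat_lit 290)) (XT.lf (nat_lit 0) (nat_lit 216842971979) (nat_lit 152) (nat_lit 451134866236) (nat_lit 0) (nat_lit 171742374597) (nat_lit 11)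 (nat_lit 5) (nat_lit 13) (nat_lit 4) (nat_lit 11) (nat_lit 4) (nat_lit 494) (nat_lit 417) (nat_lit 289)))) (XT.nd (nat_lit 156) (nat_lit 76) (nat_lit 0) (XT.nd (nat_lit 78) (nat_lit 76) (nat_lit 0) (XT.lf (nat_lit 0) (nat_lit 412594850827) (nat_lit 152) (nat_lit 117707541584) (nat_lit 0) (nat_lit 367494077398) (nat_lit 11) (nat_lit 5) (nat_lit 13) (nat_lit 4) (nat_lit 11) (nat_lit 4) (nat_lit 495) (nat_lit 417) (nat_lit 288)) (XT.lf (nat_lit 0) (nat_lit 250405738983) (nat_lit 76) (nat_lit 377509308231) (nat_lit 76) (nat_lit 332408371795) (nat_lit 10) (nat_lit 4) (nat_lit 11) (nat_lit 5) (nat_lit 11) (nat_lit 4) (nat_lit 496) (nat_lit 417) (nat_lit 287))) (XT.nd (nat_lit 78) (nat_lit 76) (nat_lit 0) (XT.lf (nat_lit 0) (nat_lit 652168723527) (nat_lit 76) (nat_lit 210341216967) (nat_lit 76) (nat_lit 165240129598) (nat_lit 10) (nat_lit 4) (nat_lit 11) (nat_lit 5) (nat_lit 11) (nat_lit 4) (nat_lit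 497) (nat_lit 417) (nat_lit 286)) (XT.lf (nat_lit 0) (nat_lit 14810594902) (nat_lit 152) (nat_lit 14739507572) (nat_lit 76) (nat_lit 1071008867332) (nat_lit 9) (nat_lit 5) (nat_lit 11) (nat_lit 5) (nat_lit 10) (nat_lit 4) (nat_lit 498) (nat_lit 417) (nat_lit 285))))) (XT.nd (nat_lit 234) (nat_lit 76) (nat_lit 0) (XT.nd (nat_lit 78) (nat_lit 0) (nat_lit 0) (XT.lf (nat_lit 0) (nat_lit 212286520102) (nat_lit 152) (nat_lit 796997253847) (nat_lit 0) (nat_lit 169332847224) (nat_lit 8) (nat_lit 5) (nat_lit 10) (nat_lit 4) (nat_lit 8) (nat_lit 4) (nat_lit 499) (nat_lit 417) (nat_lit 284)) (XT.nd (nat_lit 78) (nat_lit 0) (nat_lit 0) (XT.lf (nat_lit 0) (nat_lit 426318642096) (nat_lit 152) (nat_lit 453197481311) (nat_lit 0) (nat_lit 383364855108) (nat_lit 8) (nat_lit 5) (nat_lit 10) (nat_lit 4) (nat_lit 8) (nat_lit 4) (nat_lit 500) (nat_lit 417) (nat_lit 283)) (XT.lf (nat_lit 0) (nat_lit 657472308198)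 (nat_lit 152) (nat_lit 81895811978) (nat_lit 0) (nat_lit 614518415553) (nat_lit 8) (nat_lit 5) (nat_lit 10) (nat_lit 4) (nat_lit 8) (nat_lit 4) (nat_lit 501) (nat_lit 417) (nat_lit 282)))) (XT.nd (nat_lit 56004) (nat_lit 0) (nat_lit 10716) (XT.nd (nat_lit 55926) (nat_lit 0) (nat_lit 10640) (XT.lf (nat_lit 0) (nat_lit 329659213946) (nat_lit 76) (nat_lit 582605008164) (nat_lit 76) (nat_lit 539651017688) (nat_lit 7) (nat_lit 4) (nat_lit 8) (nat_lit 5) (nat_lit 8) (nat_lit 4) (nat_lit 502) (nat_lit 417) (nat_lit 281)) (XT.lf (nat_lit 0) (nat_lit 1692456992) (nat_lit 836) (nat_lit 3252021361) (nat_lit 836) (nat_lit 3252021361) (nat_lit 147) (nat_lit 3) (nat_lit 158) (nat_lit 3) (nat_lit 158) (nat_lit 5) (nat_lit 418) (nat_lit 418) (nat_lit 364))) (XT.nd (nat_lit 78) (nat_lit 0) (nat_lit 0) (XT.lf (nat_lit 0) (nat_lit 4051042952) (nat_lit 760) (nat_lit 10350467891) (nat_lit 836) (nat_lit 2620612607)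 (nat_lit 148) (nat_lit 5) (nat_lit 158) (nat_lit 5) (nat_lit 159) (nat_lit 5) (nat_lit 419) (nat_lit 418) (nat_lit 363)) (XT.lf (nat_lit 76) (nat_lit 3353443522) (nat_lit 0) (nat_lit 1712849717) (nat_lit 836) (nat_lit 12620498540) (nat_lit 149) (nat_lit 5) (nat_lit 148) (nat_lit 5) (nat_lit 159) (nat_lit 5) (nat_lit 420) (nat_lit 418) (nat_lit 362)))))) (XT.nd (nat_lit 546) (nat_lit 2204) (nat_lit 0) (XT.nd (nat_lit 234) (nat_lit 1368) (nat_lit 0) (XT.nd (nat_lit 78) (nat_lit 0) (nat_lit 76) (XT.lf (nat_lit 0) (nat_lit 6497523311) (nat_lit 760) (nat_lit 86562266) (nat_lit 836) (nat_lit 11803815508) (nat_lit 149) (nat_lit 5) (nat_lit 159) (nat_lit 5) (nat_lit 160) (nat_lit 5) (nat_lit 421) (nat_lit 418) (nat_lit 361)) (XT.nd (nat_lit 78) (nat_lit 0) (nat_lit 76) (XT.lf (nat_lit 0) (nat_lit 8401617134) (nat_lit 760) (nat_lit 3496606623) (nat_lit 836) (nat_lit 7228962198) (nat_lit 150) (nat_lit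 5) (nat_lit 160) (nat_lit 5) (nat_lit 161) (nat_lit 5) (nat_lit 422) (nat_lit 418) (nat_lit 360)) (XT.lf (nat_lit 0) (nat_lit 10776873970) (nat_lit 760) (nat_lit 6982586175) (nat_lit 836) (nat_lit 2150216408) (nat_lit 151) (nat_lit 5) (nat_lit 161) (nat_lit 5) (nat_lit 162) (nat_lit 5) (nat_lit 423) (nat_lit 418) (nat_lit 359)))) (XT.nd (nat_lit 156) (nat_lit 836) (nat_lit 0) (XT.nd (nat_lit 78) (nat_lit 684) (nat_lit 0) (XT.lf (nat_lit 76) (nat_lit 10137087983) (nat_lit 0) (nat_lit 3597114672) (nat_lit 836) (nat_lit 7000965543) (nat_lit 152) (nat_lit 5) (nat_lit 151) (nat_lit 5) (nat_lit 162) (nat_lit 5) (nat_lit 424) (nat_lit 418) (nat_lit 358)) (XT.lf (nat_lit 0) (nat_lit 7279455931) (nat_lit 760) (nat_lit 10041679486) (nat_lit 836) (nat_lit 4285916908) (nat_lit 142) (nat_lit 5) (nat_lit 152) (nat_lit 5) (nat_lit 153) (nat_lit 5) (nat_lit 425) (nat_lit 418) (nat_lit 357))) (XT.nd (nat_lit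 78) (nat_lit 456) (nat_lit 0) (XT.lf (nat_lit 0) (nat_lit 4397745641) (nat_lit 380) (nat_lit 17170297630) (nat_lit 456) (nat_lit 961996628) (nat_lit 137) (nat_lit 5) (nat_lit 142) (nat_lit 5) (nat_lit 143) (nat_lit 5) (nat_lit 426) (nat_lit 418) (nat_lit 356)) (XT.lf (nat_lit 0) (nat_lit 1425577166) (nat_lit 380) (nat_lit 1539283736) (nat_lit 456) (nat_lit 20538900940) (nat_lit 131) (nat_lit 5) (nat_lit 136) (nat_lit 5) (nat_lit 137) (nat_lit 5) (nat_lit 427) (nat_lit 418) (nat_lit 355))))) (XT.nd (nat_lit 312) (nat_lit 1216) (nat_lit 0) (XT.nd (nat_lit 156) (nat_lit 608) (nat_lit 0) (XT.nd (nat_lit 78) (nat_lit 380) (nat_lit 0) (XT.lf (nat_lit 0) (nat_lit 7710487881) (nat_lit 456) (nat_lit 1629009082) (nat_lit 76) (nat_lit 15188182883) (nat_lit 131) (nat_lit 5) (nat_lit 137) (nat_lit 5) (nat_lit 132) (nat_lit 5) (nat_lit 428) (nat_lit 418) (nat_lit 354)) (XT.lf (nat_lit 0) (nat_lit 13293408931)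 (nat_lit 456) (nat_lit 4657708484) (nat_lit 76) (nat_lit 7659514508) (nat_lit 126) (nat_lit 5) (nat_lit 132) (nat_lit 5) (nat_lit 127) (nat_lit 5) (nat_lit 429) (nat_lit 418) (nat_lit 353))) (XT.nd (nat_lit 78) (nat_lit 304) (nat_lit 0) (XT.lf (nat_lit 0) (nat_lit 19050281970) (nat_lit 304) (nat_lit 736621354) (nat_lit 380) (nat_lit 6970122478) (nat_lit 122) (nat_lit 5) (nat_lit 126) (nat_lit 5) (nat_lit 127) (nat_lit 5) (nat_lit 430) (nat_lit 418) (nat_lit 352)) (XT.lf (nat_lit 0) (nat_lit 17074343613) (nat_lit 304) (nat_lit 10334625994) (nat_lit 380) (nat_lit 555709394) (nat_lit 118) (nat_lit 5) (nat_lit 122) (nat_lit 5) (nat_lit 123) (nat_lit 5) (nat_lit 431) (nat_lit 418) (nat_lit 351)))) (XT.nd (nat_lit 156) (nat_lit 532) (nat_lit 0) (XT.nd (nat_lit 78) (nat_lit 304) (nat_lit 0) (XT.lf (nat_lit 0) (nat_lit 6671459057) (nat_lit 380) (nat_lit 14179357966) (nat_lit 76) (nat_lit 8387978365)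 (nat_lit 113) (nat_lit 5) (nat_lit 118) (nat_lit 5) (nat_lit 114) (nat_lit 5) (nat_lit 432) (nat_lit 418) (nat_lit 350)) (XT.lf (nat_lit 0) (nat_lit 13078915695) (nat_lit 304) (nat_lit 1932935869) (nat_lit 380) (nat_lit 15574810008) (nat_lit 109) (nat_lit 5) (nat_lit 113) (nat_lit 5) (nat_lit 114) (nat_lit 5) (nat_lit 433) (nat_lit 418) (nat_lit 349))) (XT.nd (nat_lit 78) (nat_lit 304) (nat_lit 0) (XT.lf (nat_lit 0) (nat_lit 11032980194) (nat_lit 228) (nat_lit 13682458501) (nat_lit 304) (nat_lit 7292122026) (nat_lit 106) (nat_lit 5) (nat_lit 109) (nat_lit 5) (nat_lit 110) (nat_lit 5) (nat_lit 434) (nat_lit 418) (nat_lit 348)) (XT.lf (nat_lit 0) (nat_lit 2181141158) (nat_lit 304) (nat_lit 24463956387) (nat_lit 76) (nat_lit 6866701721) (nat_lit 102) (nat_lit 5) (nat_lit 106) (nat_lit 5) (nat_lit 103) (nat_lit 5) (nat_lit 435) (nat_lit 418) (nat_lit 347))))))) (XT.nd (nat_lit 1170) (nat_lit 1824)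 (nat_lit 0) (XT.nd (nat_lit 546) (nat_lit 1368) (nat_lit 0) (XT.nd (nat_lit 234) (nat_lit 684) (nat_lit 0) (XT.nd (nat_lit 78) (nat_lit 456) (nat_lit 0) (XT.lf (nat_lit 0) (nat_lit 6944778053) (nat_lit 228) (nat_lit 5911140125) (nat_lit 304) (nat_lit 22239526404) (nat_lit 99) (nat_lit 5) (nat_lit 102) (nat_lit 5) (nat_lit 103) (nat_lit 5) (nat_lit 436) (nat_lit 418) (nat_lit 346)) (XT.nd (nat_lit 78) (nat_lit 228) (nat_lit 0) (XT.lf (nat_lit 0) (nat_lit 4824965695) (nat_lit 228) (nat_lit 20311415927) (nat_lit 304) (nat_lit 11631816072) (nat_lit 96) (nat_lit 5) (nat_lit 99) (nat_lit 5) (nat_lit 100) (nat_lit 5) (nat_lit 437) (nat_lit 418) (nat_lit 345)) (XT.lf (nat_lit 0) (nat_lit 496780112) (nat_lit 228) (nat_lit 35720767186) (nat_lit 76) (nat_lit 2324029359) (nat_lit 93) (nat_lit 5) (nat_lit 96) (nat_lit 5) (nat_lit 94) (nat_lit 5) (nat_lit 438) (nat_lit 418) (nat_lit 344)))) (XT.nd (nat_lit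 156) (nat_lit 456) (nat_lit 0) (XT.nd (nat_lit 78) (nat_lit 0) (nat_lit 0) (XT.lf (nat_lit 0) (nat_lit 527053583) (nat_lit 228) (nat_lit 13569846615) (nat_lit 304) (nat_lit 26304954678) (nat_lit 90) (nat_lit 5) (nat_lit 93) (nat_lit 5) (nat_lit 94) (nat_lit 5) (nat_lit 439) (nat_lit 418) (nat_lit 343)) (XT.lf (nat_lit 0) (nat_lit 29575085640) (nat_lit 304) (nat_lit 1629166008) (nat_lit 76) (nat_lit 11167201965) (nat_lit 90) (nat_lit 5) (nat_lit 94) (nat_lit 5) (nat_lit 91) (nat_lit 5) (nat_lit 440) (nat_lit 418) (nat_lit 342))) (XT.nd (nat_lit 78) (nat_lit 228) (nat_lit 0) (XT.lf (nat_lit 0) (nat_lit 2602801244) (nat_lit 228) (nat_lit 3764861746) (nat_lit 76) (nat_lit 38086194579) (nat_lit 87) (nat_lit 5) (nat_lit 90) (nat_lit 5) (nat_lit 88) (nat_lit 5) (nat_lit 441) (nat_lit 418) (nat_lit 341)) (XT.lf (nat_lit 0) (nat_lit 19780423530) (nat_lit 304) (nat_lit 6170892203) (nat_lit 76) (nat_lit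 20691308042) (nat_lit 84) (nat_lit 5) (nat_lit 88) (nat_lit 5) (nat_lit 85) (nat_lit 5) (nat_lit 442) (nat_lit 418) (nat_lit 340))))) (XT.nd (nat_lit 312) (nat_lit 684) (nat_lit 0) (XT.nd (nat_lit 156) (nat_lit 304) (nat_lit 0) (XT.nd (nat_lit 78) (nat_lit 228) (nat_lit 0) (XT.lf (nat_lit 0) (nat_lit 39150979294) (nat_lit 228) (nat_lit 8438152790) (nat_lit 76) (nat_lit 1376423801) (nat_lit 82) (nat_lit 5) (nat_lit 85) (nat_lit 5) (nat_lit 83) (nat_lit 5) (nat_lit 443) (nat_lit 418) (nat_lit 339)) (XT.lf (nat_lit 0) (nat_lit 9510712098) (nat_lit 228) (nat_lit 11014455640) (nat_lit 76) (nat_lit 30882994062) (nat_lit 79) (nat_lit 5) (nat_lit 82) (nat_lit 5) (nat_lit 80) (nat_lit 5) (nat_lit 444) (nat_lit 418) (nat_lit 338))) (XT.nd (nat_lit 78) (nat_lit 152) (nat_lit 0) (XT.lf (nat_lit 0) (nat_lit 30966064478) (nat_lit 228) (nat_lit 13643895354) (nat_lit 76) (nat_lit 9381777489) (nat_lit 77) (nat_lit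 5) (nat_lit 80) (nat_lit 5) (nat_lit 78) (nat_lit 5) (nat_lit 445) (nat_lit 418) (nat_lit 337)) (XT.lf (nat_lit 0) (nat_lit 40366684566) (nat_lit 152) (nat_lit 14933042330) (nat_lit 228) (nat_lit 1424178494) (nat_lit 75) (nat_lit 5) (nat_lit 77) (nat_lit 5) (nat_lit 78) (nat_lit 5) (nat_lit 446) (nat_lit 418) (nat_lit 336)))) (XT.nd (nat_lit 156) (nat_lit 304) (nat_lit 0) (XT.nd (nat_lit 78) (nat_lit 152) (nat_lit 0) (XT.lf (nat_lit 0) (nat_lit 22355451173) (nat_lit 228) (nat_lit 19445628573) (nat_lit 76) (nat_lit 17798911099) (nat_lit 72) (nat_lit 5) (nat_lit 75) (nat_lit 5) (nat_lit 73) (nat_lit 5) (nat_lit 447) (nat_lit 418) (nat_lit 335)) (XT.lf (nat_lit 0) (nat_lit 40065569414) (nat_lit 152) (nat_lit 9080789049) (nat_lit 228) (nat_lit 13500697627) (nat_lit 70) (nat_lit 5) (nat_lit 72) (nat_lit 5) (nat_lit 73) (nat_lit 5) (nat_lit 448) (nat_lit 418) (nat_lit 334))) (XT.nd (nat_lit 78) (nat_lit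 152) (nat_lit 0) (XT.lf (nat_lit 0) (nat_lit 13146097712) (nat_lit 152) (nat_lit 26121889027) (nat_lit 76) (nat_lit 26590816875) (nat_lit 68) (nat_lit 5) (nat_lit 70) (nat_lit 5) (nat_lit 69) (nat_lit 5) (nat_lit 449) (nat_lit 418) (nat_lit 333)) (XT.lf (nat_lit 0) (nat_lit 39398492312) (nat_lit 152) (nat_lit 3219305989) (nat_lit 228) (nat_lit 26640318878) (nat_lit 66) (nat_lit 5) (nat_lit 68) (nat_lit 5) (nat_lit 69) (nat_lit 5) (nat_lit 450) (nat_lit 418) (nat_lit 332)))))) (XT.nd (nat_lit 546) (nat_lit 836) (nat_lit 0) (XT.nd (nat_lit 234) (nat_lit 608) (nat_lit 0) (XT.nd (nat_lit 78) (nat_lit 228) (nat_lit 0) (XT.lf (nat_lit 0) (nat_lit 3114541173) (nat_lit 152) (nat_lit 34047858450) (nat_lit 76) (nat_lit 35683528504) (nat_lit 64) (nat_lit 5) (nat_lit 66) (nat_lit 5) (nat_lit 65) (nat_lit 5) (nat_lit 451) (nat_lit 418) (nat_lit 331)) (XT.nd (nat_lit 78) (nat_lit 76) (nat_lit 0) (XT.lf (nat_lit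 0) (nat_lit 35536886026) (nat_lit 228) (nat_lit 38668566157) (nat_lit 76) (nat_lit 2432453617) (nat_lit 62) (nat_lit 5) (nat_lit 65) (nat_lit 5) (nat_lit 63) (nat_lit 4) (nat_lit 452) (nat_lit 418) (nat_lit 330)) (XT.lf (nat_lit 0) (nat_lit 36787658548) (nat_lit 76) (nat_lit 35561760128) (nat_lit 152) (nat_lit 8294003303) (nat_lit 61) (nat_lit 5) (nat_lit 62) (nat_lit 5) (nat_lit 63) (nat_lit 4) (nat_lit 453) (nat_lit 418) (nat_lit 329)))) (XT.nd (nat_lit 156) (nat_lit 304) (nat_lit 0) (XT.nd (nat_lit 78) (nat_lit 76) (nat_lit 0) (XT.lf (nat_lit 0) (nat_lit 27622842760) (nat_lit 228) (nat_lit 49599282521) (nat_lit 76) (nat_lit 7658377751) (nat_lit 58) (nat_lit 5) (nat_lit 61) (nat_lit 5) (nat_lit 59) (nat_lit 4) (nat_lit 454) (nat_lit 418) (nat_lit 328)) (XT.lf (nat_lit 0) (nat_lit 33194386094) (nat_lit 76) (nat_lit 34819382876) (nat_lit 152) (nat_lit 21341417785) (nat_lit 57) (nat_lit 5) (nat_lit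 58) (nat_lit 5) (nat_lit 59) (nat_lit 4) (nat_lit 455) (nat_lit 418) (nat_lit 327))) (XT.nd (nat_lit 78) (nat_lit 76) (nat_lit 0) (XT.lf (nat_lit 0) (nat_lit 18442042755) (nat_lit 228) (nat_lit 63375715027) (nat_lit 76) (nat_lit 12278848527) (nat_lit 54) (nat_lit 5) (nat_lit 57) (nat_lit 5) (nat_lit 55) (nat_lit 4) (nat_lit 456) (nat_lit 418) (nat_lit 326)) (XT.lf (nat_lit 0) (nat_lit 27288300761) (nat_lit 76) (nat_lit 35383170057) (nat_lit 152) (nat_lit 36427826344) (nat_lit 53) (nat_lit 5) (nat_lit 54) (nat_lit 5) (nat_lit 55) (nat_lit 4) (nat_lit 457) (nat_lit 418) (nat_lit 325))))) (XT.nd (nat_lit 312) (nat_lit 380) (nat_lit 0) (XT.nd (nat_lit 156) (nat_lit 228) (nat_lit 0) (XT.nd (nat_lit 78) (nat_lit 76) (nat_lit 0) (XT.lf (nat_lit 0) (nat_lit 7488549708) (nat_lit 152) (nat_lit 81023767022) (nat_lit 76) (nat_lit 15898175905) (nat_lit 51) (nat_lit 5) (nat_lit 53) (nat_lit 5) (nat_lit 52)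 (nat_lit 4) (nat_lit 458) (nat_lit 418) (nat_lit 324)) (XT.lf (nat_lit 0) (nat_lit 18014133292) (nat_lit 76) (nat_lit 37788101261) (nat_lit 152) (nat_lit 54206477867) (nat_lit 50) (nat_lit 5) (nat_lit 51) (nat_lit 5) (nat_lit 52) (nat_lit 4) (nat_lit 459) (nat_lit 418) (nat_lit 323))) (XT.nd (nat_lit 78) (nat_lit 152) (nat_lit 0) (XT.lf (nat_lit 0) (nat_lit 11967410280) (nat_lit 76) (nat_lit 97894393618) (nat_lit 76) (nat_lit 6098946558) (nat_lit 49) (nat_lit 4) (nat_lit 50) (nat_lit 5) (nat_lit 50) (nat_lit 4) (nat_lit 460) (nat_lit 418) (nat_lit 322)) (XT.lf (nat_lit 0) (nat_lit 3958898318) (nat_lit 76) (nat_lit 42752591133) (nat_lit 152) (nat_lit 75525563328) (nat_lit 47) (nat_lit 5) (nat_lit 48) (nat_lit 5) (nat_lit 49) (nat_lit 4) (nat_lit 461) (nat_lit 418) (nat_lit 321)))) (XT.nd (nat_lit 156) (nat_lit 228) (nat_lit 0) (XT.nd (nat_lit 78) (nat_lit 152) (nat_lit 0) (XT.lf (nat_lit 0) (nat_lit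 105633892857) (nat_lit 152) (nat_lit 5069587738) (nat_lit 0) (nat_lit 18201939187) (nat_lit 47) (nat_lit 5) (nat_lit 49) (nat_lit 4) (nat_lit 47) (nat_lit 4) (nat_lit 462) (nat_lit 418) (nat_lit 320)) (XT.lf (nat_lit 0) (nat_lit 34738161012) (nat_lit 152) (nat_lit 16222159479) (nat_lit 76) (nat_lit 84989210207) (nat_lit 45) (nat_lit 5) (nat_lit 47) (nat_lit 5) (nat_lit 46) (nat_lit 4) (nat_lit 463) (nat_lit 418) (nat_lit 319))) (XT.nd (nat_lit 78) (nat_lit 152) (nat_lit 0) (XT.lf (nat_lit 0) (nat_lit 98703845993) (nat_lit 152) (nat_lit 29298705893) (nat_lit 0) (nat_lit 15429016534) (nat_lit 44) (nat_lit 5) (nat_lit 46) (nat_lit 4) (nat_lit 44) (nat_lit 4) (nat_lit 464) (nat_lit 418) (nat_lit 318)) (XT.lf (nat_lit 0) (nat_lit 18604671401) (nat_lit 152) (nat_lit 45138058530) (nat_lit 76) (nat_lit 87614187490) (nat_lit 42) (nat_lit 5) (nat_lit 44) (nat_lit 5) (nat_lit 43) (nat_lit 4) (nat_lit 465)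 (nat_lit 418) (nat_lit 317))))))))
noncomputable def xc75 : XT := (XT.nd (nat_lit 2340) (nat_lit 228) (nat_lit 0) (XT.nd (nat_lit 1170) (nat_lit 988) (nat_lit 0) (XT.nd (nat_lit 546) (nat_lit 684) (nat_lit 0) (XT.nd (nat_lit 234) (nat_lit 380) (nat_lit 0) (XT.nd (nat_lit 78) (nat_lit 228) (nat_lit 0) (XT.lf (nat_lit 0) (nat_lit 87604702043) (nat_lit 152) (nat_lit 63876331113) (nat_lit 0) (nat_lit 8290194862) (nat_lit 41) (nat_lit 5) (nat_lit 43) (nat_lit 4) (nat_lit 41) (nat_lit 4) (nat_lit 466) (nat_lit 418) (nat_lit 316)) (XT.nd (nat_lit 78) (nat_lit 152) (nat_lit 0) (XT.lf (nat_lit 0) (nat_lit 82548406340) (nat_lit 76) (nat_lit 82734581221) (nat_lit 76) (nat_lit 3417783357) (nat_lit 40) (nat_lit 4) (nat_lit 41) (nat_lit 5) (nat_lit 41) (nat_lit 4) (nat_lit 467) (nat_lit 418) (nat_lit 315)) (XT.lf (nat_lit 0) (nat_lit 65647409222) (nat_lit 76) (nat_lit 5067872772) (nat_lit 152) (nat_lit 107466529255)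 (nat_lit 38) (nat_lit 5) (nat_lit 39) (nat_lit 5) (nat_lit 40) (nat_lit 4) (nat_lit 468) (nat_lit 418) (nat_lit 314)))) (XT.nd (nat_lit 156) (nat_lit 152) (nat_lit 0) (XT.nd (nat_lit 78) (nat_lit 152) (nat_lit 0) (XT.lf (nat_lit 0) (nat_lit 44421947092) (nat_lit 76) (nat_lit 109683975283) (nat_lit 76) (nat_lit 34140277417) (nat_lit 37) (nat_lit 4) (nat_lit 38) (nat_lit 5) (nat_lit 38) (nat_lit 4) (nat_lit 469) (nat_lit 418) (nat_lit 313)) (XT.lf (nat_lit 0) (nat_lit 18705117207) (nat_lit 76) (nat_lit 27270759329) (nat_lit 152) (nat_lit 152986405998) (nat_lit 35) (nat_lit 5) (nat_lit 36) (nat_lit 5) (nat_lit 37) (nat_lit 4) (nat_lit 470) (nat_lit 418) (nat_lit 312))) (XT.nd (nat_lit 78) (nat_lit 152) (nat_lit 0) (XT.lf (nat_lit 0) (nat_lit 134827433971) (nat_lit 152) (nat_lit 12626244623) (nat_lit 0) (nat_lit 62877878508) (nat_lit 35) (nat_lit 5) (nat_lit 37) (nat_lit 4) (nat_lit 35) (nat_lit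 4) (nat_lit 471) (nat_lit 418) (nat_lit 311)) (XT.lf (nat_lit 0) (nat_lit 11131858682) (nat_lit 152) (nat_lit 49130659224) (nat_lit 76) (nat_lit 162180631525) (nat_lit 33) (nat_lit 5) (nat_lit 35) (nat_lit 5) (nat_lit 34) (nat_lit 4) (nat_lit 472) (nat_lit 418) (nat_lit 310))))) (XT.nd (nat_lit 312) (nat_lit 380) (nat_lit 0) (XT.nd (nat_lit 156) (nat_lit 152) (nat_lit 0) (XT.nd (nat_lit 78) (nat_lit 76) (nat_lit 0) (XT.lf (nat_lit 0) (nat_lit 105121221337) (nat_lit 152) (nat_lit 93591927784) (nat_lit 0) (nat_lit 36595241491) (nat_lit 32) (nat_lit 5) (nat_lit 34) (nat_lit 4) (nat_lit 32) (nat_lit 4) (nat_lit 473) (nat_lit 418) (nat_lit 309)) (XT.lf (nat_lit 0) (nat_lit 102674782036) (nat_lit 76) (nat_lit 107440463943) (nat_lit 76) (nat_lit 38913329500) (nat_lit 31) (nat_lit 4) (nat_lit 32) (nat_lit 5) (nat_lit 32) (nat_lit 4) (nat_lit 474) (nat_lit 418) (nat_lit 308))) (XT.nd (nat_lit 78) (nat_lit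 0) (nat_lit 0) (XT.lf (nat_lit 0) (nat_lit 55015906386) (nat_lit 76) (nat_lit 5249513078) (nat_lit 152) (nat_lit 203408752230) (nat_lit 29) (nat_lit 5) (nat_lit 30) (nat_lit 5) (nat_lit 31) (nat_lit 4) (nat_lit 475) (nat_lit 418) (nat_lit 307)) (XT.lf (nat_lit 0) (nat_lit 170262391915) (nat_lit 152) (nat_lit 3988271256) (nat_lit 0) (nat_lit 104996493441) (nat_lit 29) (nat_lit 5) (nat_lit 31) (nat_lit 4) (nat_lit 29) (nat_lit 4) (nat_lit 476) (nat_lit 418) (nat_lit 306)))) (XT.nd (nat_lit 156) (nat_lit 152) (nat_lit 0) (XT.nd (nat_lit 78) (nat_lit 152) (nat_lit 0) (XT.lf (nat_lit 0) (nat_lit 224134352686) (nat_lit 76) (nat_lit 68509579281) (nat_lit 76) (nat_lit 3242807895) (nat_lit 28) (nat_lit 4) (nat_lit 29) (nat_lit 5) (nat_lit 29) (nat_lit 4) (nat_lit 477) (nat_lit 418) (nat_lit 305)) (XT.lf (nat_lit 0) (nat_lit 110759536139) (nat_lit 152) (nat_lit 154243778722) (nat_lit 0) (nat_lit 48599936484)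 (nat_lit 26) (nat_lit 5) (nat_lit 28) (nat_lit 4) (nat_lit 26) (nat_lit 4) (nat_lit 478) (nat_lit 418) (nat_lit 304))) (XT.nd (nat_lit 78) (nat_lit 76) (nat_lit 0) (XT.lf (nat_lit 0) (nat_lit 80177953738) (nat_lit 76) (nat_lit 157266492431) (nat_lit 76) (nat_lit 95106180032) (nat_lit 25) (nat_lit 4) (nat_lit 26) (nat_lit 5) (nat_lit 26) (nat_lit 4) (nat_lit 479) (nat_lit 418) (nat_lit 303)) (XT.lf (nat_lit 0) (nat_lit 23298271958) (nat_lit 152) (nat_lit 14399514832) (nat_lit 76) (nat_lit 315163012483) (nat_lit 24) (nat_lit 5) (nat_lit 26) (nat_lit 5) (nat_lit 25) (nat_lit 4) (nat_lit 480) (nat_lit 418) (nat_lit 302)))))) (XT.nd (nat_lit 546) (nat_lit 456) (nat_lit 0) (XT.nd (nat_lit 234) (nat_lit 228) (nat_lit 0) (XT.nd (nat_lit 78) (nat_lit 228) (nat_lit 0) (XT.lf (nat_lit 0) (nat_lit 153289651547) (nat_lit 152) (nat_lit 127067703805) (nat_lit 0) (nat_lit 94088143538) (nat_lit 23) (nat_lit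 5) (nat_lit 25) (nat_lit 4) (nat_lit 23) (nat_lit 4) (nat_lit 481) (nat_lit 418) (nat_lit 301)) (XT.nd (nat_lit 78) (nat_lit 152) (nat_lit 0) (XT.lf (nat_lit 0) (nat_lit 136594056624) (nat_lit 76) (nat_lit 160106965357) (nat_lit 76) (nat_lit 100904918491) (nat_lit 22) (nat_lit 4) (nat_lit 23) (nat_lit 5) (nat_lit 23) (nat_lit 4) (nat_lit 482) (nat_lit 418) (nat_lit 300)) (XT.lf (nat_lit 0) (nat_lit 2979639238) (nat_lit 76) (nat_lit 27353133954) (nat_lit 152) (nat_lit 392149142909) (nat_lit 20) (nat_lit 5) (nat_lit 21) (nat_lit 5) (nat_lit 22) (nat_lit 4) (nat_lit 483) (nat_lit 418) (nat_lit 299)))) (XT.nd (nat_lit 156) (nat_lit 152) (nat_lit 0) (XT.nd (nat_lit 78) (nat_lit 76) (nat_lit 0) (XT.lf (nat_lit 0) (nat_lit 175011743796) (nat_lit 152) (nat_lit 155301716176) (nat_lit 0) (nat_lit 118627926853) (nat_lit 20) (nat_lit 5) (nat_lit 22) (nat_lit 4) (nat_lit 20) (nat_lit 4) (nat_lit 484) (nat_lit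 418) (nat_lit 298)) (XT.lf (nat_lit 0) (nat_lit 133853341745) (nat_lit 76) (nat_lit 199960527964) (nat_lit 76) (nat_lit 143576303629) (nat_lit 19) (nat_lit 4) (nat_lit 20) (nat_lit 5) (nat_lit 20) (nat_lit 4) (nat_lit 485) (nat_lit 418) (nat_lit 297))) (XT.nd (nat_lit 78) (nat_lit 76) (nat_lit 0) (XT.lf (nat_lit 0) (nat_lit 42205365) (nat_lit 152) (nat_lit 56298080548) (nat_lit 76) (nat_lit 451639385789) (nat_lit 18) (nat_lit 5) (nat_lit 20) (nat_lit 5) (nat_lit 19) (nat_lit 4) (nat_lit 486) (nat_lit 418) (nat_lit 296)) (XT.lf (nat_lit 0) (nat_lit 155889830805) (nat_lit 152) (nat_lit 282530443506) (nat_lit 0) (nat_lit 102189877641) (nat_lit 17) (nat_lit 5) (nat_lit 19) (nat_lit 4) (nat_lit 17) (nat_lit 4) (nat_lit 487) (nat_lit 418) (nat_lit 295))))) (XT.nd (nat_lit 312) (nat_lit 228) (nat_lit 0) (XT.nd (nat_lit 156) (nat_lit 152) (nat_lit 0) (XT.nd (nat_lit 78) (nat_lit 0) (nat_lit 0) (XT.lf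 (nat_lit 0) (nat_lit 23601475964) (nat_lit 76) (nat_lit 302917095292) (nat_lit 76) (nat_lit 249216834127) (nat_lit 16) (nat_lit 4) (nat_lit 17) (nat_lit 5) (nat_lit 17) (nat_lit 4) (nat_lit 488) (nat_lit 418) (nat_lit 294)) (XT.lf (nat_lit 0) (nat_lit 364309278089) (nat_lit 76) (nat_lit 151407982440) (nat_lit 76) (nat_lit 97707436090) (nat_lit 16) (nat_lit 4) (nat_lit 17) (nat_lit 5) (nat_lit 17) (nat_lit 4) (nat_lit 489) (nat_lit 418) (nat_lit 293))) (XT.nd (nat_lit 78) (nat_lit 0) (nat_lit 0) (XT.lf (nat_lit 0) (nat_lit 65282826128) (nat_lit 152) (nat_lit 574582143409) (nat_lit 0) (nat_lit 14139197165) (nat_lit 14) (nat_lit 5) (nat_lit 16) (nat_lit 4) (nat_lit 14) (nat_lit 4) (nat_lit 490) (nat_lit 418) (nat_lit 292)) (XT.lf (nat_lit 0) (nat_lit 244896774568) (nat_lit 152) (nat_lit 258749836130) (nat_lit 0) (nat_lit 193752912747) (nat_lit 14) (nat_lit 5) (nat_lit 16) (nat_lit 4) (nat_lit 14)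 (nat_lit 4) (nat_lit 491) (nat_lit 418) (nat_lit 291)))) (XT.nd (nat_lit 156) (nat_lit 152) (nat_lit 0) (XT.nd (nat_lit 78) (nat_lit 0) (nat_lit 0) (XT.lf (nat_lit 0) (nat_lit 85068610566) (nat_lit 76) (nat_lit 355137822935) (nat_lit 76) (nat_lit 303993745504) (nat_lit 13) (nat_lit 4) (nat_lit 14) (nat_lit 5) (nat_lit 14) (nat_lit 4) (nat_lit 492) (nat_lit 418) (nat_lit 290)) (XT.lf (nat_lit 0) (nat_lit 465629372063) (nat_lit 76) (nat_lit 190017252036) (nat_lit 76) (nat_lit 138872974967) (nat_lit 13) (nat_lit 4) (nat_lit 14) (nat_lit 5) (nat_lit 14) (nat_lit 4) (nat_lit 493) (nat_lit 418) (nat_lit 289))) (XT.nd (nat_lit 78) (nat_lit 0) (nat_lit 0) (XT.lf (nat_lit 0) (nat_lit 28049276340) (nat_lit 76) (nat_lit 10581815493) (nat_lit 152) (nat_lit 810180852850) (nat_lit 11) (nat_lit 5) (nat_lit 12) (nat_lit 5) (nat_lit 13) (nat_lit 4) (nat_lit 494) (nat_lit 418) (nat_lit 288)) (XT.lf (nat_lit 0)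 (nat_lit 234217101139) (nat_lit 152) (nat_lit 487171467241) (nat_lit 0) (nat_lit 185507926780) (nat_lit 11) (nat_lit 5) (nat_lit 13) (nat_lit 4) (nat_lit 11) (nat_lit 4) (nat_lit 495) (nat_lit 418) (nat_lit 287))))))) (XT.nd (nat_lit 57096) (nat_lit 0) (nat_lit 6232) (XT.nd (nat_lit 56472) (nat_lit 0) (nat_lit 10184) (XT.nd (nat_lit 234) (nat_lit 152) (nat_lit 0) (XT.nd (nat_lit 78) (nat_lit 76) (nat_lit 0) (XT.lf (nat_lit 0) (nat_lit 445627153154) (nat_lit 152) (nat_lit 127073970564) (nat_lit 0) (nat_lit 396917827863) (nat_lit 11) (nat_lit 5) (nat_lit 13) (nat_lit 4) (nat_lit 11) (nat_lit 4) (nat_lit 496) (nat_lit 418) (nat_lit 286)) (XT.nd (nat_lit 78) (nat_lit 0) (nat_lit 0) (XT.lf (nat_lit 0) (nat_lit 270486191932) (nat_lit 76) (nat_lit 407685691953) (nat_lit 76) (nat_lit 358976226909) (nat_lit 10) (nat_lit 4) (nat_lit 11) (nat_lit 5) (nat_lit 11) (nat_lit 4) (nat_lit 497) (nat_lit 418)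 (nat_lit 285)) (XT.lf (nat_lit 0) (nat_lit 704386660141) (nat_lit 76) (nat_lit 227145957901) (nat_lit 76) (nat_lit 178436363457) (nat_lit 10) (nat_lit 4) (nat_lit 11) (nat_lit 5) (nat_lit 11) (nat_lit 4) (nat_lit 498) (nat_lit 418) (nat_lit 284)))) (XT.nd (nat_lit 156) (nat_lit 0) (nat_lit 0) (XT.nd (nat_lit 78) (nat_lit 76) (nat_lit 0) (XT.lf (nat_lit 0) (nat_lit 16016036121) (nat_lit 152) (nat_lit 15876840211) (nat_lit 76) (nat_lit 1156709781303) (nat_lit 9) (nat_lit 5) (nat_lit 11) (nat_lit 5) (nat_lit 10) (nat_lit 4) (nat_lit 499) (nat_lit 418) (nat_lit 283)) (XT.lf (nat_lit 0) (nat_lit 229289451764) (nat_lit 152) (nat_lit 860716356479) (nat_lit 0) (nat_lit 182899142051) (nat_lit 8) (nat_lit 5) (nat_lit 10) (nat_lit 4) (nat_lit 8) (nat_lit 4) (nat_lit 500) (nat_lit 418) (nat_lit 282))) (XT.nd (nat_lit 78) (nat_lit 0) (nat_lit 0) (XT.lf (nat_lit 0) (nat_lit 460442661291) (nat_lit 152) (nat_lit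 489415615302) (nat_lit 0) (nat_lit 414052253747) (nat_lit 8) (nat_lit 5) (nat_lit 10) (nat_lit 4) (nat_lit 8) (nat_lit 4) (nat_lit 501) (nat_lit 418) (nat_lit 281)) (XT.lf (nat_lit 0) (nat_lit 710087248250) (nat_lit 152) (nat_lit 88412602387) (nat_lit 0) (nat_lit 663696750121) (nat_lit 8) (nat_lit 5) (nat_lit 10) (nat_lit 4) (nat_lit 8) (nat_lit 4) (nat_lit 502) (nat_lit 418) (nat_lit 280))))) (XT.nd (nat_lit 312) (nat_lit 380) (nat_lit 0) (XT.nd (nat_lit 156) (nat_lit 0) (nat_lit 76) (XT.nd (nat_lit 78) (nat_lit 0) (nat_lit 76) (XT.lf (nat_lit 0) (nat_lit 2202236068) (nat_lit 836) (nat_lit 3315603294) (nat_lit 836) (nat_lit 3315603294) (nat_lit 147) (nat_lit 3) (nat_lit 158) (nat_lit 3) (nat_lit 158) (nat_lit 5) (nat_lit 419) (nat_lit 419) (nat_lit 362)) (XT.lf (nat_lit 0) (nat_lit 5069254419) (nat_lit 760) (nat_lit 10762321660) (nat_lit 836) (nat_lit 2517503608) (nat_lit 148) (nat_lit 5) (nat_lit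 158) (nat_lit 5) (nat_lit 159) (nat_lit 5) (nat_lit 420) (nat_lit 419) (nat_lit 361))) (XT.nd (nat_lit 78) (nat_lit 0) (nat_lit 76) (XT.lf (nat_lit 76) (nat_lit 4019815831) (nat_lit 0) (nat_lit 2100707414) (nat_lit 836) (nat_lit 12948666255) (nat_lit 149) (nat_lit 5) (nat_lit 148) (nat_lit 5) (nat_lit 159) (nat_lit 5) (nat_lit 421) (nat_lit 419) (nat_lit 360)) (XT.lf (nat_lit 76) (nat_lit 319094857) (nat_lit 0) (nat_lit 7300444128) (nat_lit 836) (nat_lit 12209191557) (nat_lit 150) (nat_lit 5) (nat_lit 149) (nat_lit 5) (nat_lit 160) (nat_lit 5) (nat_lit 422) (nat_lit 419) (nat_lit 359)))) (XT.nd (nat_lit 156) (nat_lit 608) (nat_lit 0) (XT.nd (nat_lit 78) (nat_lit 0) (nat_lit 76) (XT.lf (nat_lit 0) (nat_lit 9630029565) (nat_lit 760) (nat_lit 3360698857) (nat_lit 836) (nat_lit 7638733129) (nat_lit 150) (nat_lit 5) (nat_lit 160) (nat_lit 5) (nat_lit 161) (nat_lit 5) (nat_lit 423) (nat_lit 419) (nat_lit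 358)) (XT.lf (nat_lit 0) (nat_lit 12158376555) (nat_lit 760) (nat_lit 7115545317) (nat_lit 836) (nat_lit 2202482351) (nat_lit 151) (nat_lit 5) (nat_lit 161) (nat_lit 5) (nat_lit 162) (nat_lit 5) (nat_lit 424) (nat_lit 419) (nat_lit 357))) (XT.nd (nat_lit 78) (nat_lit 684) (nat_lit 0) (XT.lf (nat_lit 76) (nat_lit 11355204641) (nat_lit 0) (nat_lit 3964973072) (nat_lit 836) (nat_lit 7049369015) (nat_lit 152) (nat_lit 5) (nat_lit 151) (nat_lit 5) (nat_lit 162) (nat_lit 5) (nat_lit 425) (nat_lit 419) (nat_lit 356)) (XT.lf (nat_lit 0) (nat_lit 8275836888) (nat_lit 760) (nat_lit 10887442730) (nat_lit 836) (nat_lit 4149446648) (nat_lit 142) (nat_lit 5) (nat_lit 152) (nat_lit 5) (nat_lit 153) (nat_lit 5) (nat_lit 426) (nat_lit 419) (nat_lit 355)))))) (XT.nd (nat_lit 546) (nat_lit 1748) (nat_lit 0) (XT.nd (nat_lit 234) (nat_lit 1368) (nat_lit 0) (XT.nd (nat_lit 78) (nat_lit 456) (nat_lit 0) (XT.lf (nat_lit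 0) (nat_lit 5168125885) (nat_lit 380) (nat_lit 18553924395) (nat_lit 456) (nat_lit 588902062) (nat_lit 137) (nat_lit 5) (nat_lit 142) (nat_lit 5) (nat_lit 143) (nat_lit 5) (nat_lit 427) (nat_lit 419) (nat_lit 354)) (XT.nd (nat_lit 78) (nat_lit 0) (nat_lit 0) (XT.lf (nat_lit 0) (nat_lit 1953829345) (nat_lit 380) (nat_lit 1658066742) (nat_lit 456) (nat_lit 21751619209) (nat_lit 131) (nat_lit 5) (nat_lit 136) (nat_lit 5) (nat_lit 137) (nat_lit 5) (nat_lit 428) (nat_lit 419) (nat_lit 353)) (XT.lf (nat_lit 0) (nat_lit 8706877263) (nat_lit 456) (nat_lit 1356843299) (nat_lit 76) (nat_lit 16407145064) (nat_lit 131) (nat_lit 5) (nat_lit 137) (nat_lit 5) (nat_lit 132) (nat_lit 5) (nat_lit 429) (nat_lit 419) (nat_lit 352)))) (XT.nd (nat_lit 156) (nat_lit 684) (nat_lit 0) (XT.nd (nat_lit 78) (nat_lit 304) (nat_lit 0) (XT.lf (nat_lit 0) (nat_lit 14714758117) (nat_lit 456) (nat_lit 4627840712) (nat_lit 76)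 (nat_lit 8298942519) (nat_lit 126) (nat_lit 5) (nat_lit 132) (nat_lit 5) (nat_lit 127) (nat_lit 5) (nat_lit 430) (nat_lit 419) (nat_lit 351)) (XT.lf (nat_lit 0) (nat_lit 20959297495) (nat_lit 304) (nat_lit 747936018) (nat_lit 380) (nat_lit 7173441657) (nat_lit 122) (nat_lit 5) (nat_lit 126) (nat_lit 5) (nat_lit 127) (nat_lit 5) (nat_lit 431) (nat_lit 419) (nat_lit 350))) (XT.nd (nat_lit 78) (nat_lit 380) (nat_lit 0) (XT.lf (nat_lit 0) (nat_lit 18824019340) (nat_lit 304) (nat_lit 11096734211) (nat_lit 380) (nat_lit 265105894) (nat_lit 118) (nat_lit 5) (nat_lit 122) (nat_lit 5) (nat_lit 123) (nat_lit 5) (nat_lit 432) (nat_lit 419) (nat_lit 349)) (XT.lf (nat_lit 0) (nat_lit 7512489305) (nat_lit 380) (nat_lit 14922124667) (nat_lit 76) (nat_lit 9127883607) (nat_lit 113) (nat_lit 5) (nat_lit 118) (nat_lit 5) (nat_lit 114) (nat_lit 5) (nat_lit 433) (nat_lit 419) (nat_lit 348))))) (XT.nd (nat_lit 312)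 (nat_lit 684) (nat_lit 0) (XT.nd (nat_lit 156) (nat_lit 532) (nat_lit 0) (XT.nd (nat_lit 78) (nat_lit 228) (nat_lit 0) (XT.lf (nat_lit 0) (nat_lit 14499793213) (nat_lit 304) (nat_lit 2003404032) (nat_lit 380) (nat_lit 16515844259) (nat_lit 109) (nat_lit 5) (nat_lit 113) (nat_lit 5) (nat_lit 114) (nat_lit 5) (nat_lit 434) (nat_lit 419) (nat_lit 347)) (XT.lf (nat_lit 0) (nat_lit 12286568334) (nat_lit 228) (nat_lit 14682000387) (nat_lit 304) (nat_lit 7585771449) (nat_lit 106) (nat_lit 5) (nat_lit 109) (nat_lit 5) (nat_lit 110) (nat_lit 5) (nat_lit 435) (nat_lit 419) (nat_lit 346))) (XT.nd (nat_lit 78) (nat_lit 228) (nat_lit 0) (XT.lf (nat_lit 0) (nat_lit 2622520728) (nat_lit 304) (nat_lit 26045587628) (nat_lit 76) (nat_lit 7511263399) (nat_lit 102) (nat_lit 5) (nat_lit 106) (nat_lit 5) (nat_lit 103) (nat_lit 5) (nat_lit 436) (nat_lit 419) (nat_lit 345)) (XT.lf (nat_lit 0) (nat_lit 7859527435) (nat_lit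 228) (nat_lit 6277590578) (nat_lit 304) (nat_lit 23753300780) (nat_lit 99) (nat_lit 5) (nat_lit 102) (nat_lit 5) (nat_lit 103) (nat_lit 5) (nat_lit 437) (nat_lit 419) (nat_lit 344)))) (XT.nd (nat_lit 156) (nat_lit 228) (nat_lit 0) (XT.nd (nat_lit 78) (nat_lit 228) (nat_lit 0) (XT.lf (nat_lit 0) (nat_lit 5565042614) (nat_lit 228) (nat_lit 21823322361) (nat_lit 304) (nat_lit 12309211712) (nat_lit 96) (nat_lit 5) (nat_lit 99) (nat_lit 5) (nat_lit 100) (nat_lit 5) (nat_lit 438) (nat_lit 419) (nat_lit 343)) (XT.lf (nat_lit 0) (nat_lit 770609740) (nat_lit 228) (nat_lit 38222112044) (nat_lit 76) (nat_lit 2620456204) (nat_lit 93) (nat_lit 5) (nat_lit 96) (nat_lit 5) (nat_lit 94) (nat_lit 5) (nat_lit 439) (nat_lit 419) (nat_lit 342))) (XT.nd (nat_lit 78) (nat_lit 0) (nat_lit 0) (XT.lf (nat_lit 0) (nat_lit 910049305) (nat_lit 228) (nat_lit 14536671667) (nat_lit 304) (nat_lit 28176159928) (nat_lit 90)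 (nat_lit 5) (nat_lit 93) (nat_lit 5) (nat_lit 94) (nat_lit 5) (nat_lit 440) (nat_lit 419) (nat_lit 341)) (XT.lf (nat_lit 0) (nat_lit 32148428580) (nat_lit 304) (nat_lit 1435333007) (nat_lit 76) (nat_lit 12167023983) (nat_lit 90) (nat_lit 5) (nat_lit 94) (nat_lit 5) (nat_lit 91) (nat_lit 5) (nat_lit 441) (nat_lit 419) (nat_lit 340))))))))
noncomputable def xc76 : XT := (XT.nd (nat_lit 2262) (nat_lit 2128) (nat_lit 0) (XT.nd (nat_lit 1092) (nat_lit 1596) (nat_lit 0) (XT.nd (nat_lit 546) (nat_lit 1064) (nat_lit 0) (XT.nd (nat_lit 234) (nat_lit 760) (nat_lit 0) (XT.nd (nat_lit 78) (nat_lit 380) (nat_lit 0) (XT.lf (nat_lit 0) (nat_lit 3011086647) (nat_lit 228) (nat_lit 3749341891) (nat_lit 76) (nat_lit 41239719116) (nat_lit 87) (nat_lit 5) (nat_lit 90) (nat_lit 5) (nat_lit 88) (nat_lit 5) (nat_lit 442) (nat_lit 419) (nat_lit 339)) (XT.nd (nat_lit 78) (nat_lit 152) (nat_lit 0) (XT.lf (nat_lit 0) (nat_lit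 21554593011) (nat_lit 304) (nat_lit 6353869493) (nat_lit 76) (nat_lit 22455970084) (nat_lit 84) (nat_lit 5) (nat_lit 88) (nat_lit 5) (nat_lit 85) (nat_lit 5) (nat_lit 443) (nat_lit 419) (nat_lit 338)) (XT.lf (nat_lit 0) (nat_lit 42467026359) (nat_lit 228) (nat_lit 8808687180) (nat_lit 76) (nat_lit 1597875131) (nat_lit 82) (nat_lit 5) (nat_lit 85) (nat_lit 5) (nat_lit 83) (nat_lit 5) (nat_lit 444) (nat_lit 419) (nat_lit 337)))) (XT.nd (nat_lit 156) (nat_lit 380) (nat_lit 0) (XT.nd (nat_lit 78) (nat_lit 152) (nat_lit 0) (XT.lf (nat_lit 0) (nat_lit 10449337143) (nat_lit 228) (nat_lit 11598438731) (nat_lit 76) (nat_lit 33464138781) (nat_lit 79) (nat_lit 5) (nat_lit 82) (nat_lit 5) (nat_lit 80) (nat_lit 5) (nat_lit 445) (nat_lit 419) (nat_lit 336)) (XT.lf (nat_lit 0) (nat_lit 33614186694) (nat_lit 228) (nat_lit 14444484602) (nat_lit 76) (nat_lit 10243852338) (nat_lit 77) (nat_lit 5) (nat_lit 80)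 (nat_lit 5) (nat_lit 78) (nat_lit 5) (nat_lit 446) (nat_lit 419) (nat_lit 335))) (XT.nd (nat_lit 78) (nat_lit 228) (nat_lit 0) (XT.lf (nat_lit 0) (nat_lit 43874298579) (nat_lit 152) (nat_lit 16011933648) (nat_lit 228) (nat_lit 1367449216) (nat_lit 75) (nat_lit 5) (nat_lit 77) (nat_lit 5) (nat_lit 78) (nat_lit 5) (nat_lit 447) (nat_lit 419) (nat_lit 334)) (XT.lf (nat_lit 0) (nat_lit 24302872276) (nat_lit 228) (nat_lit 20723773587) (nat_lit 76) (nat_lit 19333386166) (nat_lit 72) (nat_lit 5) (nat_lit 75) (nat_lit 5) (nat_lit 73) (nat_lit 5) (nat_lit 448) (nat_lit 419) (nat_lit 333))))) (XT.nd (nat_lit 234) (nat_lit 608) (nat_lit 0) (XT.nd (nat_lit 78) (nat_lit 304) (nat_lit 0) (XT.lf (nat_lit 0) (nat_lit 43536260199) (nat_lit 152) (nat_lit 9693159627) (nat_lit 228) (nat_lit 14421824938) (nat_lit 70) (nat_lit 5) (nat_lit 72) (nat_lit 5) (nat_lit 73) (nat_lit 5) (nat_lit 449) (nat_lit 419) (nat_lit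 332)) (XT.nd (nat_lit 78) (nat_lit 152) (nat_lit 0) (XT.lf (nat_lit 0) (nat_lit 14346025209) (nat_lit 152) (nat_lit 27947279471) (nat_lit 76) (nat_lit 28826784027) (nat_lit 68) (nat_lit 5) (nat_lit 70) (nat_lit 5) (nat_lit 69) (nat_lit 5) (nat_lit 450) (nat_lit 419) (nat_lit 331)) (XT.lf (nat_lit 0) (nat_lit 42803243582) (nat_lit 152) (nat_lit 3365185585) (nat_lit 228) (nat_lit 28623270358) (nat_lit 66) (nat_lit 5) (nat_lit 68) (nat_lit 5) (nat_lit 69) (nat_lit 5) (nat_lit 451) (nat_lit 419) (nat_lit 330)))) (XT.nd (nat_lit 156) (nat_lit 304) (nat_lit 0) (XT.nd (nat_lit 78) (nat_lit 152) (nat_lit 0) (XT.lf (nat_lit 0) (nat_lit 3502160977) (nat_lit 152) (nat_lit 36520128589) (nat_lit 76) (nat_lit 38644384096) (nat_lit 64) (nat_lit 5) (nat_lit 66) (nat_lit 5) (nat_lit 65) (nat_lit 5) (nat_lit 452) (nat_lit 419) (nat_lit 329)) (XT.lf (nat_lit 0) (nat_lit 38513490853) (nat_lit 228) (nat_lit 41516518645)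 (nat_lit 76) (nat_lit 2732240616) (nat_lit 62) (nat_lit 5) (nat_lit 65) (nat_lit 5) (nat_lit 63) (nat_lit 4) (nat_lit 453) (nat_lit 419) (nat_lit 328))) (XT.nd (nat_lit 78) (nat_lit 228) (nat_lit 0) (XT.lf (nat_lit 0) (nat_lit 39965533480) (nat_lit 76) (nat_lit 38299259200) (nat_lit 152) (nat_lit 8823726982) (nat_lit 61) (nat_lit 5) (nat_lit 62) (nat_lit 5) (nat_lit 63) (nat_lit 4) (nat_lit 454) (nat_lit 419) (nat_lit 327)) (XT.lf (nat_lit 0) (nat_lit 29957805785) (nat_lit 228) (nat_lit 53333933289) (nat_lit 76) (nat_lit 8372942969) (nat_lit 58) (nat_lit 5) (nat_lit 61) (nat_lit 5) (nat_lit 59) (nat_lit 4) (nat_lit 455) (nat_lit 419) (nat_lit 326)))))) (XT.nd (nat_lit 546) (nat_lit 760) (nat_lit 0) (XT.nd (nat_lit 234) (nat_lit 456) (nat_lit 0) (XT.nd (nat_lit 78) (nat_lit 304) (nat_lit 0) (XT.lf (nat_lit 0) (nat_lit 36073090237) (nat_lit 76) (nat_lit 37501130598) (nat_lit 152) (nat_lit 22923409221)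 (nat_lit 57) (nat_lit 5) (nat_lit 58) (nat_lit 5) (nat_lit 59) (nat_lit 4) (nat_lit 456) (nat_lit 419) (nat_lit 325)) (XT.nd (nat_lit 78) (nat_lit 76) (nat_lit 0) (XT.lf (nat_lit 0) (nat_lit 20034709603) (nat_lit 228) (nat_lit 68224272828) (nat_lit 76) (nat_lit 13359483575) (nat_lit 54) (nat_lit 5) (nat_lit 57) (nat_lit 5) (nat_lit 55) (nat_lit 4) (nat_lit 457) (nat_lit 419) (nat_lit 324)) (XT.lf (nat_lit 0) (nat_lit 29683238129) (nat_lit 76) (nat_lit 38113872575) (nat_lit 152) (nat_lit 39224530753) (nat_lit 53) (nat_lit 5) (nat_lit 54) (nat_lit 5) (nat_lit 55) (nat_lit 4) (nat_lit 458) (nat_lit 419) (nat_lit 323)))) (XT.nd (nat_lit 156) (nat_lit 228) (nat_lit 0) (XT.nd (nat_lit 78) (nat_lit 76) (nat_lit 0) (XT.lf (nat_lit 0) (nat_lit 8197713235) (nat_lit 152) (nat_lit 87295496704) (nat_lit 76) (nat_lit 17264615160) (nat_lit 51) (nat_lit 5) (nat_lit 53) (nat_lit 5) (nat_lit 52) (nat_lit 4) (nat_lit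 459) (nat_lit 419) (nat_lit 322)) (XT.lf (nat_lit 0) (nat_lit 19656301830) (nat_lit 76) (nat_lit 40715175762) (nat_lit 152) (nat_lit 58432675860) (nat_lit 50) (nat_lit 5) (nat_lit 51) (nat_lit 5) (nat_lit 52) (nat_lit 4) (nat_lit 460) (nat_lit 419) (nat_lit 321))) (XT.nd (nat_lit 78) (nat_lit 152) (nat_lit 0) (XT.lf (nat_lit 0) (nat_lit 13120698363) (nat_lit 76) (nat_lit 105631777480) (nat_lit 76) (nat_lit 6480045724) (nat_lit 49) (nat_lit 4) (nat_lit 50) (nat_lit 5) (nat_lit 50) (nat_lit 4) (nat_lit 461) (nat_lit 419) (nat_lit 320)) (XT.lf (nat_lit 0) (nat_lit 4466264613) (nat_lit 76) (nat_lit 46080859313) (nat_lit 152) (nat_lit 81463955066) (nat_lit 47) (nat_lit 5) (nat_lit 48) (nat_lit 5) (nat_lit 49) (nat_lit 4) (nat_lit 462) (nat_lit 419) (nat_lit 319))))) (XT.nd (nat_lit 312) (nat_lit 380) (nat_lit 0) (XT.nd (nat_lit 156) (nat_lit 228) (nat_lit 0) (XT.nd (nat_lit 78) (nat_lit 152) (nat_lit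 0) (XT.lf (nat_lit 0) (nat_lit 114177336457) (nat_lit 152) (nat_lit 5295379745) (nat_lit 0) (nat_lit 19740498476) (nat_lit 47) (nat_lit 5) (nat_lit 49) (nat_lit 4) (nat_lit 47) (nat_lit 4) (nat_lit 463) (nat_lit 419) (nat_lit 318)) (XT.lf (nat_lit 0) (nat_lit 37607215295) (nat_lit 152) (nat_lit 17344992343) (nat_lit 76) (nat_lit 91868783613) (nat_lit 45) (nat_lit 5) (nat_lit 47) (nat_lit 5) (nat_lit 46) (nat_lit 4) (nat_lit 464) (nat_lit 419) (nat_lit 317))) (XT.nd (nat_lit 78) (nat_lit 152) (nat_lit 0) (XT.lf (nat_lit 0) (nat_lit 106687371632) (nat_lit 152) (nat_lit 31472236812) (nat_lit 0) (nat_lit 16742122855) (nat_lit 44) (nat_lit 5) (nat_lit 46) (nat_lit 4) (nat_lit 44) (nat_lit 4) (nat_lit 465) (nat_lit 419) (nat_lit 316)) (XT.lf (nat_lit 0) (nat_lit 20177713894) (nat_lit 152) (nat_lit 48583340511) (nat_lit 76) (nat_lit 94700181475) (nat_lit 42) (nat_lit 5) (nat_lit 44) (nat_lit 5) (nat_lit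 43) (nat_lit 4) (nat_lit 466) (nat_lit 419) (nat_lit 315)))) (XT.nd (nat_lit 156) (nat_lit 228) (nat_lit 0) (XT.nd (nat_lit 78) (nat_lit 76) (nat_lit 0) (XT.lf (nat_lit 0) (nat_lit 94695163674) (nat_lit 152) (nat_lit 68825046632) (nat_lit 0) (nat_lit 9028610294) (nat_lit 41) (nat_lit 5) (nat_lit 43) (nat_lit 4) (nat_lit 41) (nat_lit 4) (nat_lit 467) (nat_lit 419) (nat_lit 314)) (XT.lf (nat_lit 0) (nat_lit 89306655962) (nat_lit 76) (nat_lit 89277385926) (nat_lit 76) (nat_lit 3608868654) (nat_lit 40) (nat_lit 4) (nat_lit 41) (nat_lit 5) (nat_lit 41) (nat_lit 4) (nat_lit 468) (nat_lit 419) (nat_lit 313))) (XT.nd (nat_lit 78) (nat_lit 76) (nat_lit 0) (XT.lf (nat_lit 0) (nat_lit 71049391985) (nat_lit 76) (nat_lit 5399255661) (nat_lit 152) (nat_lit 115983900217) (nat_lit 38) (nat_lit 5) (nat_lit 39) (nat_lit 5) (nat_lit 40) (nat_lit 4) (nat_lit 469) (nat_lit 419) (nat_lit 312)) (XT.lf (nat_lit 0)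 (nat_lit 48121902753) (nat_lit 76) (nat_lit 118386349310) (nat_lit 76) (nat_lit 36793949871) (nat_lit 37) (nat_lit 4) (nat_lit 38) (nat_lit 5) (nat_lit 38) (nat_lit 4) (nat_lit 470) (nat_lit 419) (nat_lit 311))))))) (XT.nd (nat_lit 1170) (nat_lit 836) (nat_lit 0) (XT.nd (nat_lit 546) (nat_lit 684) (nat_lit 0) (XT.nd (nat_lit 234) (nat_lit 304) (nat_lit 0) (XT.nd (nat_lit 78) (nat_lit 152) (nat_lit 0) (XT.lf (nat_lit 0) (nat_lit 20343747970) (nat_lit 76) (nat_lit 29381926259) (nat_lit 152) (nat_lit 165150003605) (nat_lit 35) (nat_lit 5) (nat_lit 36) (nat_lit 5) (nat_lit 37) (nat_lit 4) (nat_lit 471) (nat_lit 419) (nat_lit 310)) (XT.nd (nat_lit 78) (nat_lit 152) (nat_lit 0) (XT.lf (nat_lit 0) (nat_lit 145681062186) (nat_lit 152) (nat_lit 13502355227) (nat_lit 0) (nat_lit 67971291727) (nat_lit 35) (nat_lit 5) (nat_lit 37) (nat_lit 4) (nat_lit 35) (nat_lit 4) (nat_lit 472) (nat_lit 419) (nat_lit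 309)) (XT.lf (nat_lit 0) (nat_lit 12087903981) (nat_lit 152) (nat_lit 52930779626) (nat_lit 76) (nat_lit 175216642194) (nat_lit 33) (nat_lit 5) (nat_lit 35) (nat_lit 5) (nat_lit 34) (nat_lit 4) (nat_lit 473) (nat_lit 419) (nat_lit 308)))) (XT.nd (nat_lit 156) (nat_lit 152) (nat_lit 0) (XT.nd (nat_lit 78) (nat_lit 76) (nat_lit 0) (XT.lf (nat_lit 0) (nat_lit 113594479662) (nat_lit 152) (nat_lit 100952452679) (nat_lit 0) (nat_lit 39582950792) (nat_lit 32) (nat_lit 5) (nat_lit 34) (nat_lit 4) (nat_lit 32) (nat_lit 4) (nat_lit 474) (nat_lit 419) (nat_lit 307)) (XT.lf (nat_lit 0) (nat_lit 111010082079) (nat_lit 76) (nat_lit 115975130109) (nat_lit 76) (nat_lit 41962611357) (nat_lit 31) (nat_lit 4) (nat_lit 32) (nat_lit 5) (nat_lit 32) (nat_lit 4) (nat_lit 475) (nat_lit 419) (nat_lit 306))) (XT.nd (nat_lit 78) (nat_lit 0) (nat_lit 0) (XT.lf (nat_lit 0) (nat_lit 59535177437) (nat_lit 76) (nat_lit 5610487317)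 (nat_lit 152) (nat_lit 219619489519) (nat_lit 29) (nat_lit 5) (nat_lit 30) (nat_lit 5) (nat_lit 31) (nat_lit 4) (nat_lit 476) (nat_lit 419) (nat_lit 305)) (XT.lf (nat_lit 0) (nat_lit 183938876493) (nat_lit 152) (nat_lit 4196195227) (nat_lit 0) (nat_lit 113449082232) (nat_lit 29) (nat_lit 5) (nat_lit 31) (nat_lit 4) (nat_lit 29) (nat_lit 4) (nat_lit 477) (nat_lit 419) (nat_lit 304))))) (XT.nd (nat_lit 312) (nat_lit 304) (nat_lit 0) (XT.nd (nat_lit 156) (nat_lit 152) (nat_lit 0) (XT.nd (nat_lit 78) (nat_lit 152) (nat_lit 0) (XT.lf (nat_lit 0) (nat_lit 242171408720) (nat_lit 76) (nat_lit 73937080182) (nat_lit 76) (nat_lit 3446537541) (nat_lit 28) (nat_lit 4) (nat_lit 29) (nat_lit 5) (nat_lit 29) (nat_lit 4) (nat_lit 478) (nat_lit 419) (nat_lit 303)) (XT.lf (nat_lit 0) (nat_lit 119672641862) (nat_lit 152) (nat_lit 166478120241) (nat_lit 0) (nat_lit 52538131779) (nat_lit 26) (nat_lit 5) (nat_lit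 28) (nat_lit 4) (nat_lit 26) (nat_lit 4) (nat_lit 479) (nat_lit 419) (nat_lit 302))) (XT.nd (nat_lit 78) (nat_lit 76) (nat_lit 0) (XT.lf (nat_lit 0) (nat_lit 86692780657) (nat_lit 76) (nat_lit 169797257291) (nat_lit 76) (nat_lit 102662136145) (nat_lit 25) (nat_lit 4) (nat_lit 26) (nat_lit 5) (nat_lit 26) (nat_lit 4) (nat_lit 480) (nat_lit 419) (nat_lit 301)) (XT.lf (nat_lit 0) (nat_lit 25209223285) (nat_lit 152) (nat_lit 15456779210) (nat_lit 76) (nat_lit 340421305890) (nat_lit 24) (nat_lit 5) (nat_lit 26) (nat_lit 5) (nat_lit 25) (nat_lit 4) (nat_lit 481) (nat_lit 419) (nat_lit 300)))) (XT.nd (nat_lit 156) (nat_lit 152) (nat_lit 0) (XT.nd (nat_lit 78) (nat_lit 76) (nat_lit 0) (XT.lf (nat_lit 0) (nat_lit 165598550763) (nat_lit 152) (nat_lit 137140999007) (nat_lit 0) (nat_lit 101659302351) (nat_lit 23) (nat_lit 5) (nat_lit 25) (nat_lit 4) (nat_lit 23) (nat_lit 4) (nat_lit 482) (nat_lit 419) (nat_lit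 299)) (XT.lf (nat_lit 0) (nat_lit 147609698785) (nat_lit 76) (nat_lit 172871120617) (nat_lit 76) (nat_lit 108931410222) (nat_lit 22) (nat_lit 4) (nat_lit 23) (nat_lit 5) (nat_lit 23) (nat_lit 4) (nat_lit 483) (nat_lit 419) (nat_lit 298))) (XT.nd (nat_lit 78) (nat_lit 0) (nat_lit 0) (XT.lf (nat_lit 0) (nat_lit 3303704094) (nat_lit 76) (nat_lit 29498170174) (nat_lit 152) (nat_lit 423476470894) (nat_lit 20) (nat_lit 5) (nat_lit 21) (nat_lit 5) (nat_lit 22) (nat_lit 4) (nat_lit 484) (nat_lit 419) (nat_lit 297)) (XT.lf (nat_lit 0) (nat_lit 189052640633) (nat_lit 152) (nat_lit 167645165281) (nat_lit 0) (nat_lit 128156893745) (nat_lit 20) (nat_lit 5) (nat_lit 22) (nat_lit 4) (nat_lit 20) (nat_lit 4) (nat_lit 485) (nat_lit 419) (nat_lit 296)))))) (XT.nd (nat_lit 546) (nat_lit 380) (nat_lit 0) (XT.nd (nat_lit 234) (nat_lit 228) (nat_lit 0) (XT.nd (nat_lit 78) (nat_lit 152) (nat_lit 0) (XT.lf (nat_lit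 0) (nat_lit 144638790664) (nat_lit 76) (nat_lit 215918391173) (nat_lit 76) (nat_lit 155022295013) (nat_lit 19) (nat_lit 4) (nat_lit 20) (nat_lit 5) (nat_lit 20) (nat_lit 4) (nat_lit 486) (nat_lit 419) (nat_lit 295)) (XT.nd (nat_lit 78) (nat_lit 76) (nat_lit 0) (XT.lf (nat_lit 0) (nat_lit 81534613) (nat_lit 152) (nat_lit 60729273603) (nat_lit 76) (nat_lit 487805439381) (nat_lit 18) (nat_lit 5) (nat_lit 20) (nat_lit 5) (nat_lit 19) (nat_lit 4) (nat_lit 487) (nat_lit 419) (nat_lit 294)) (XT.lf (nat_lit 0) (nat_lit 168395940284) (nat_lit 152) (nat_lit 305062212447) (nat_lit 0) (nat_lit 110399065040) (nat_lit 17) (nat_lit 5) (nat_lit 19) (nat_lit 4) (nat_lit 17) (nat_lit 4) (nat_lit 488) (nat_lit 419) (nat_lit 293)))) (XT.nd (nat_lit 156) (nat_lit 152) (nat_lit 0) (XT.nd (nat_lit 78) (nat_lit 0) (nat_lit 0) (XT.lf (nat_lit 0) (nat_lit 25557189499) (nat_lit 76) (nat_lit 327116258937) (nat_lit 76)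 (nat_lit 269119119631) (nat_lit 16) (nat_lit 4) (nat_lit 17) (nat_lit 5) (nat_lit 17) (nat_lit 4) (nat_lit 489) (nat_lit 419) (nat_lit 292)) (XT.lf (nat_lit 0) (nat_lit 393516608723) (nat_lit 76) (nat_lit 163488950685) (nat_lit 76) (nat_lit 105491566879) (nat_lit 16) (nat_lit 4) (nat_lit 17) (nat_lit 5) (nat_lit 17) (nat_lit 4) (nat_lit 490) (nat_lit 419) (nat_lit 291))) (XT.nd (nat_lit 78) (nat_lit 0) (nat_lit 0) (XT.lf (nat_lit 0) (nat_lit 70535980822) (nat_lit 152) (nat_lit 620486831058) (nat_lit 0) (nat_lit 15300161588) (nat_lit 14) (nat_lit 5) (nat_lit 16) (nat_lit 4) (nat_lit 14) (nat_lit 4) (nat_lit 491) (nat_lit 419) (nat_lit 290)) (XT.lf (nat_lit 0) (nat_lit 264516783759) (nat_lit 152) (nat_lit 279392523184) (nat_lit 0) (nat_lit 209280764886) (nat_lit 14) (nat_lit 5) (nat_lit 16) (nat_lit 4) (nat_lit 14) (nat_lit 4) (nat_lit 492) (nat_lit 419) (nat_lit 289))))) (XT.nd (nat_lit 312)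 (nat_lit 152) (nat_lit 0) (XT.nd (nat_lit 156) (nat_lit 152) (nat_lit 0) (XT.nd (nat_lit 78) (nat_lit 0) (nat_lit 0) (XT.lf (nat_lit 0) (nat_lit 91928909066) (nat_lit 76) (nat_lit 383521068203) (nat_lit 76) (nat_lit 328284864480) (nat_lit 13) (nat_lit 4) (nat_lit 14) (nat_lit 5) (nat_lit 14) (nat_lit 4) (nat_lit 493) (nat_lit 419) (nat_lit 288)) (XT.lf (nat_lit 0) (nat_lit 502930471509) (nat_lit 76) (nat_lit 205192909453) (nat_lit 76) (nat_lit 149956534572) (nat_lit 13) (nat_lit 4) (nat_lit 14) (nat_lit 5) (nat_lit 14) (nat_lit 4) (nat_lit 494) (nat_lit 419) (nat_lit 287))) (XT.nd (nat_lit 78) (nat_lit 0) (nat_lit 0) (XT.lf (nat_lit 0) (nat_lit 30342567232) (nat_lit 76) (nat_lit 11403335495) (nat_lit 152) (nat_lit 874969781255) (nat_lit 11) (nat_lit 5) (nat_lit 12) (nat_lit 5) (nat_lit 13) (nat_lit 4) (nat_lit 495) (nat_lit 419) (nat_lit 286)) (XT.lf (nat_lit 0) (nat_lit 252977352805) (nat_lit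 152) (nat_lit 526098726892) (nat_lit 0) (nat_lit 200370990805) (nat_lit 11) (nat_lit 5) (nat_lit 13) (nat_lit 4) (nat_lit 11) (nat_lit 4) (nat_lit 496) (nat_lit 419) (nat_lit 285)))) (XT.nd (nat_lit 156) (nat_lit 76) (nat_lit 0) (XT.nd (nat_lit 78) (nat_lit 76) (nat_lit 0) (XT.lf (nat_lit 0) (nat_lit 481298513902) (nat_lit 152) (nat_lit 137196871795) (nat_lit 0) (nat_lit 428692022502) (nat_lit 11) (nat_lit 5) (nat_lit 13) (nat_lit 4) (nat_lit 11) (nat_lit 4) (nat_lit 497) (nat_lit 419) (nat_lit 284)) (XT.lf (nat_lit 0) (nat_lit 292166234261) (nat_lit 76) (nat_lit 440279661732) (nat_lit 76) (nat_lit 387673050517) (nat_lit 10) (nat_lit 4) (nat_lit 11) (nat_lit 5) (nat_lit 11) (nat_lit 4) (nat_lit 498) (nat_lit 419) (nat_lit 283))) (XT.nd (nat_lit 78) (nat_lit 76) (nat_lit 0) (XT.lf (nat_lit 0) (nat_lit 760775692002) (nat_lit 76) (nat_lit 245298296036) (nat_lit 76) (nat_lit 192691573881) (nat_lit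 10) (nat_lit 4) (nat_lit 11) (nat_lit 5) (nat_lit 11) (nat_lit 4) (nat_lit 499) (nat_lit 419) (nat_lit 282)) (XT.lf (nat_lit 0) (nat_lit 17314974726) (nat_lit 152) (nat_lit 17111126688) (nat_lit 76) (nat_lit 1249263885981) (nat_lit 9) (nat_lit 5) (nat_lit 11) (nat_lit 5) (nat_lit 10) (nat_lit 4) (nat_lit 500) (nat_lit 419) (nat_lit 281))))))))
noncomputable def xc77 : XT := (XT.nd (nat_lit 58344) (nat_lit 0) (nat_lit 1596) (XT.nd (nat_lit 57174) (nat_lit 0) (nat_lit 5244) (XT.nd (nat_lit 56550) (nat_lit 0) (nat_lit 8664) (XT.nd (nat_lit 56238) (nat_lit 0) (nat_lit 10640) (XT.nd (nat_lit 78) (nat_lit 0) (nat_lit 0) (XT.lf (nat_lit 0) (nat_lit 247649763302) (nat_lit 152) (nat_lit 929538790448) (nat_lit 0) (nat_lit 197547934739) (nat_lit 8) (nat_lit 5) (nat_lit 10) (nat_lit 4) (nat_lit 8) (nat_lit 4) (nat_lit 501) (nat_lit 419) (nat_lit 280)) (XT.nd (nat_lit 56082) (nat_lit 0) (nat_lit 10564) (XT.lf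 (nat_lit 0) (nat_lit 497293958821) (nat_lit 152) (nat_lit 528536573276) (nat_lit 0) (nat_lit 447192046384) (nat_lit 8) (nat_lit 5) (nat_lit 10) (nat_lit 4) (nat_lit 8) (nat_lit 4) (nat_lit 502) (nat_lit 419) (nat_lit 279)) (XT.lf (nat_lit 0) (nat_lit 2699387619) (nat_lit 836) (nat_lit 3412316085) (nat_lit 836) (nat_lit 3412316085) (nat_lit 147) (nat_lit 3) (nat_lit 158) (nat_lit 3) (nat_lit 158) (nat_lit 5) (nat_lit 420) (nat_lit 420) (nat_lit 360)))) (XT.nd (nat_lit 156) (nat_lit 0) (nat_lit 76) (XT.nd (nat_lit 78) (nat_lit 0) (nat_lit 0) (XT.lf (nat_lit 0) (nat_lit 6069897681) (nat_lit 760) (nat_lit 11266496983) (nat_lit 836) (nat_lit 2450764315) (nat_lit 148) (nat_lit 5) (nat_lit 158) (nat_lit 5) (nat_lit 159) (nat_lit 5) (nat_lit 421) (nat_lit 420) (nat_lit 359)) (XT.lf (nat_lit 76) (nat_lit 4682704962) (nat_lit 0) (nat_lit 2483810064) (nat_lit 836) (nat_lit 13400307011) (nat_lit 149) (nat_lit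 5) (nat_lit 148) (nat_lit 5) (nat_lit 159) (nat_lit 5) (nat_lit 422) (nat_lit 420) (nat_lit 358))) (XT.nd (nat_lit 78) (nat_lit 0) (nat_lit 76) (XT.lf (nat_lit 76) (nat_lit 700995229) (nat_lit 0) (nat_lit 8045700898) (nat_lit 836) (nat_lit 12642374335) (nat_lit 150) (nat_lit 5) (nat_lit 149) (nat_lit 5) (nat_lit 160) (nat_lit 5) (nat_lit 423) (nat_lit 420) (nat_lit 357)) (XT.lf (nat_lit 0) (nat_lit 10877354993) (nat_lit 760) (nat_lit 3273213634) (nat_lit 836) (nat_lit 8105330712) (nat_lit 150) (nat_lit 5) (nat_lit 160) (nat_lit 5) (nat_lit 161) (nat_lit 5) (nat_lit 424) (nat_lit 420) (nat_lit 356))))) (XT.nd (nat_lit 312) (nat_lit 1140) (nat_lit 0) (XT.nd (nat_lit 156) (nat_lit 1064) (nat_lit 0) (XT.nd (nat_lit 78) (nat_lit 0) (nat_lit 0) (XT.lf (nat_lit 0) (nat_lit 13576307882) (nat_lit 760) (nat_lit 7319864601) (nat_lit 836) (nat_lit 2276013441) (nat_lit 151) (nat_lit 5) (nat_lit 161) (nat_lit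 5) (nat_lit 162) (nat_lit 5) (nat_lit 425) (nat_lit 420) (nat_lit 355)) (XT.lf (nat_lit 76) (nat_lit 12612686187) (nat_lit 0) (nat_lit 4350834520) (nat_lit 836) (nat_lit 7174640749) (nat_lit 152) (nat_lit 5) (nat_lit 151) (nat_lit 5) (nat_lit 162) (nat_lit 5) (nat_lit 426) (nat_lit 420) (nat_lit 354))) (XT.nd (nat_lit 78) (nat_lit 380) (nat_lit 0) (XT.lf (nat_lit 0) (nat_lit 9292863100) (nat_lit 760) (nat_lit 11794814079) (nat_lit 836) (nat_lit 4070442491) (nat_lit 142) (nat_lit 5) (nat_lit 152) (nat_lit 5) (nat_lit 153) (nat_lit 5) (nat_lit 427) (nat_lit 420) (nat_lit 353)) (XT.lf (nat_lit 0) (nat_lit 5940424200) (nat_lit 380) (nat_lit 20046814269) (nat_lit 456) (nat_lit 250165209) (nat_lit 137) (nat_lit 5) (nat_lit 142) (nat_lit 5) (nat_lit 143) (nat_lit 5) (nat_lit 428) (nat_lit 420) (nat_lit 352)))) (XT.nd (nat_lit 156) (nat_lit 684) (nat_lit 0) (XT.nd (nat_lit 78) (nat_lit 0) (nat_lit 0)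 (XT.lf (nat_lit 0) (nat_lit 2465250580) (nat_lit 380) (nat_lit 1786974348) (nat_lit 456) (nat_lit 23122755429) (nat_lit 131) (nat_lit 5) (nat_lit 136) (nat_lit 5) (nat_lit 137) (nat_lit 5) (nat_lit 429) (nat_lit 420) (nat_lit 351)) (XT.lf (nat_lit 0) (nat_lit 9728830694) (nat_lit 456) (nat_lit 1120323453) (nat_lit 76) (nat_lit 17723066765) (nat_lit 131) (nat_lit 5) (nat_lit 137) (nat_lit 5) (nat_lit 132) (nat_lit 5) (nat_lit 430) (nat_lit 420) (nat_lit 350))) (XT.nd (nat_lit 78) (nat_lit 304) (nat_lit 0) (XT.lf (nat_lit 0) (nat_lit 16198760157) (nat_lit 456) (nat_lit 4653002425) (nat_lit 76) (nat_lit 8985720447) (nat_lit 126) (nat_lit 5) (nat_lit 132) (nat_lit 5) (nat_lit 127) (nat_lit 5) (nat_lit 431) (nat_lit 420) (nat_lit 349)) (XT.lf (nat_lit 0) (nat_lit 22966110710) (nat_lit 304) (nat_lit 766948672) (nat_lit 380) (nat_lit 7443569888) (nat_lit 122) (nat_lit 5) (nat_lit 126) (nat_lit 5) (nat_lit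 127) (nat_lit 5) (nat_lit 432) (nat_lit 420) (nat_lit 348)))))) (XT.nd (nat_lit 546) (nat_lit 1444) (nat_lit 0) (XT.nd (nat_lit 234) (nat_lit 988) (nat_lit 0) (XT.nd (nat_lit 78) (nat_lit 608) (nat_lit 0) (XT.lf (nat_lit 0) (nat_lit 915522) (nat_lit 380) (nat_lit 11928104795) (nat_lit 76) (nat_lit 20657994974) (nat_lit 117) (nat_lit 5) (nat_lit 122) (nat_lit 5) (nat_lit 118) (nat_lit 5) (nat_lit 433) (nat_lit 420) (nat_lit 347)) (XT.nd (nat_lit 78) (nat_lit 304) (nat_lit 0) (XT.lf (nat_lit 0) (nat_lit 8376960263) (nat_lit 380) (nat_lit 15780176245) (nat_lit 76) (nat_lit 9917156624) (nat_lit 113) (nat_lit 5) (nat_lit 118) (nat_lit 5) (nat_lit 114) (nat_lit 5) (nat_lit 434) (nat_lit 420) (nat_lit 346)) (XT.lf (nat_lit 0) (nat_lit 15980905153) (nat_lit 304) (nat_lit 2091516970) (nat_lit 380) (nat_lit 17575665855) (nat_lit 109) (nat_lit 5) (nat_lit 113) (nat_lit 5) (nat_lit 114) (nat_lit 5) (nat_lit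 435) (nat_lit 420) (nat_lit 345)))) (XT.nd (nat_lit 156) (nat_lit 456) (nat_lit 0) (XT.nd (nat_lit 78) (nat_lit 304) (nat_lit 0) (XT.lf (nat_lit 0) (nat_lit 13587523400) (nat_lit 228) (nat_lit 15775066253) (nat_lit 304) (nat_lit 7944244671) (nat_lit 106) (nat_lit 5) (nat_lit 109) (nat_lit 5) (nat_lit 110) (nat_lit 5) (nat_lit 436) (nat_lit 420) (nat_lit 344)) (XT.lf (nat_lit 0) (nat_lit 3061136067) (nat_lit 304) (nat_lit 27807316540) (nat_lit 76) (nat_lit 8193805022) (nat_lit 102) (nat_lit 5) (nat_lit 106) (nat_lit 5) (nat_lit 103) (nat_lit 5) (nat_lit 437) (nat_lit 420) (nat_lit 343))) (XT.nd (nat_lit 78) (nat_lit 228) (nat_lit 0) (XT.lf (nat_lit 0) (nat_lit 8796217560) (nat_lit 228) (nat_lit 6688542031) (nat_lit 304) (nat_lit 25426037633) (nat_lit 99) (nat_lit 5) (nat_lit 102) (nat_lit 5) (nat_lit 103) (nat_lit 5) (nat_lit 438) (nat_lit 420) (nat_lit 342)) (XT.lf (nat_lit 0) (nat_lit 6313812264)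 (nat_lit 228) (nat_lit 23472303000) (nat_lit 304) (nat_lit 13076913629) (nat_lit 96) (nat_lit 5) (nat_lit 99) (nat_lit 5) (nat_lit 100) (nat_lit 5) (nat_lit 439) (nat_lit 420) (nat_lit 341))))) (XT.nd (nat_lit 312) (nat_lit 760) (nat_lit 0) (XT.nd (nat_lit 156) (nat_lit 228) (nat_lit 0) (XT.nd (nat_lit 78) (nat_lit 228) (nat_lit 0) (XT.lf (nat_lit 0) (nat_lit 1032950578) (nat_lit 228) (nat_lit 40974397024) (nat_lit 76) (nat_lit 2924832495) (nat_lit 93) (nat_lit 5) (nat_lit 96) (nat_lit 5) (nat_lit 94) (nat_lit 5) (nat_lit 440) (nat_lit 420) (nat_lit 340)) (XT.lf (nat_lit 0) (nat_lit 1275061271) (nat_lit 228) (nat_lit 15597785546) (nat_lit 304) (nat_lit 30230328919) (nat_lit 90) (nat_lit 5) (nat_lit 93) (nat_lit 5) (nat_lit 94) (nat_lit 5) (nat_lit 441) (nat_lit 420) (nat_lit 339))) (XT.nd (nat_lit 78) (nat_lit 228) (nat_lit 0) (XT.lf (nat_lit 0) (nat_lit 34898060145) (nat_lit 304) (nat_lit 1272239310)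 (nat_lit 76) (nat_lit 13231646071) (nat_lit 90) (nat_lit 5) (nat_lit 94) (nat_lit 5) (nat_lit 91) (nat_lit 5) (nat_lit 442) (nat_lit 420) (nat_lit 338)) (XT.lf (nat_lit 0) (nat_lit 3423493901) (nat_lit 228) (nat_lit 3777762497) (nat_lit 76) (nat_lit 44630313802) (nat_lit 87) (nat_lit 5) (nat_lit 90) (nat_lit 5) (nat_lit 88) (nat_lit 5) (nat_lit 443) (nat_lit 420) (nat_lit 337)))) (XT.nd (nat_lit 156) (nat_lit 380) (nat_lit 0) (XT.nd (nat_lit 78) (nat_lit 152) (nat_lit 0) (XT.lf (nat_lit 0) (nat_lit 23443342823) (nat_lit 304) (nat_lit 6595808951) (nat_lit 76) (nat_lit 24346204034) (nat_lit 84) (nat_lit 5) (nat_lit 88) (nat_lit 5) (nat_lit 85) (nat_lit 5) (nat_lit 444) (nat_lit 420) (nat_lit 336)) (XT.lf (nat_lit 0) (nat_lit 46022111994) (nat_lit 228) (nat_lit 9252307195) (nat_lit 76) (nat_lit 1821159039) (nat_lit 82) (nat_lit 5) (nat_lit 85) (nat_lit 5) (nat_lit 83) (nat_lit 5) (nat_lit 445)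 (nat_lit 420) (nat_lit 335))) (XT.nd (nat_lit 78) (nat_lit 152) (nat_lit 0) (XT.lf (nat_lit 0) (nat_lit 11437691588) (nat_lit 228) (nat_lit 12271535572) (nat_lit 76) (nat_lit 36236010276) (nat_lit 79) (nat_lit 5) (nat_lit 82) (nat_lit 5) (nat_lit 80) (nat_lit 5) (nat_lit 446) (nat_lit 420) (nat_lit 334)) (XT.lf (nat_lit 0) (nat_lit 36449786872) (nat_lit 228) (nat_lit 15350624320) (nat_lit 76) (nat_lit 11158981795) (nat_lit 77) (nat_lit 5) (nat_lit 80) (nat_lit 5) (nat_lit 78) (nat_lit 5) (nat_lit 447) (nat_lit 420) (nat_lit 333))))))) (XT.nd (nat_lit 1170) (nat_lit 1520) (nat_lit 0) (XT.nd (nat_lit 546) (nat_lit 988) (nat_lit 0) (XT.nd (nat_lit 234) (nat_lit 608) (nat_lit 0) (XT.nd (nat_lit 78) (nat_lit 380) (nat_lit 0) (XT.lf (nat_lit 0) (nat_lit 47622822068) (nat_lit 152) (nat_lit 17193649599) (nat_lit 228) (nat_lit 1330528661) (nat_lit 75) (nat_lit 5) (nat_lit 77) (nat_lit 5) (nat_lit 78)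 (nat_lit 5) (nat_lit 448) (nat_lit 420) (nat_lit 332)) (XT.nd (nat_lit 78) (nat_lit 152) (nat_lit 0) (XT.lf (nat_lit 0) (nat_lit 26383406078) (nat_lit 228) (nat_lit 22143759431) (nat_lit 76) (nat_lit 20974846307) (nat_lit 72) (nat_lit 5) (nat_lit 75) (nat_lit 5) (nat_lit 73) (nat_lit 5) (nat_lit 449) (nat_lit 420) (nat_lit 331)) (XT.lf (nat_lit 0) (nat_lit 47246737516) (nat_lit 152) (nat_lit 10370796429) (nat_lit 228) (nat_lit 15439315361) (nat_lit 70) (nat_lit 5) (nat_lit 72) (nat_lit 5) (nat_lit 73) (nat_lit 5) (nat_lit 450) (nat_lit 420) (nat_lit 330)))) (XT.nd (nat_lit 156) (nat_lit 304) (nat_lit 0) (XT.nd (nat_lit 78) (nat_lit 152) (nat_lit 0) (XT.lf (nat_lit 0) (nat_lit 15620798858) (nat_lit 152) (nat_lit 29956415157) (nat_lit 76) (nat_lit 31226121023) (nat_lit 68) (nat_lit 5) (nat_lit 70) (nat_lit 5) (nat_lit 69) (nat_lit 5) (nat_lit 451) (nat_lit 420) (nat_lit 329)) (XT.lf (nat_lit 0)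 (nat_lit 46444299952) (nat_lit 152) (nat_lit 3538665792) (nat_lit 228) (nat_lit 30786010905) (nat_lit 66) (nat_lit 5) (nat_lit 68) (nat_lit 5) (nat_lit 69) (nat_lit 5) (nat_lit 452) (nat_lit 420) (nat_lit 328))) (XT.nd (nat_lit 78) (nat_lit 152) (nat_lit 0) (XT.lf (nat_lit 0) (nat_lit 3901037996) (nat_lit 152) (nat_lit 39226067977) (nat_lit 76) (nat_lit 41826961326) (nat_lit 64) (nat_lit 5) (nat_lit 66) (nat_lit 5) (nat_lit 65) (nat_lit 5) (nat_lit 453) (nat_lit 420) (nat_lit 327)) (XT.lf (nat_lit 0) (nat_lit 41709156836) (nat_lit 228) (nat_lit 44627335332) (nat_lit 76) (nat_lit 3041003944) (nat_lit 62) (nat_lit 5) (nat_lit 65) (nat_lit 5) (nat_lit 63) (nat_lit 4) (nat_lit 454) (nat_lit 420) (nat_lit 326))))) (XT.nd (nat_lit 312) (nat_lit 380) (nat_lit 0) (XT.nd (nat_lit 156) (nat_lit 304) (nat_lit 0) (XT.nd (nat_lit 78) (nat_lit 228) (nat_lit 0) (XT.lf (nat_lit 0) (nat_lit 43364132681) (nat_lit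 76) (nat_lit 41271085964) (nat_lit 152) (nat_lit 9414916135) (nat_lit 61) (nat_lit 5) (nat_lit 62) (nat_lit 5) (nat_lit 63) (nat_lit 4) (nat_lit 455) (nat_lit 420) (nat_lit 325)) (XT.lf (nat_lit 0) (nat_lit 32461713858) (nat_lit 228) (nat_lit 57400637806) (nat_lit 76) (nat_lit 9130136943) (nat_lit 58) (nat_lit 5) (nat_lit 61) (nat_lit 5) (nat_lit 59) (nat_lit 4) (nat_lit 456) (nat_lit 420) (nat_lit 324))) (XT.nd (nat_lit 78) (nat_lit 228) (nat_lit 0) (XT.lf (nat_lit 0) (nat_lit 39150255405) (nat_lit 76) (nat_lit 40412226783) (nat_lit 152) (nat_lit 24649838553) (nat_lit 57) (nat_lit 5) (nat_lit 58) (nat_lit 5) (nat_lit 59) (nat_lit 4) (nat_lit 457) (nat_lit 420) (nat_lit 323)) (XT.lf (nat_lit 0) (nat_lit 21738055153) (nat_lit 228) (nat_lit 73492314619) (nat_lit 76) (nat_lit 14512541959) (nat_lit 54) (nat_lit 5) (nat_lit 57) (nat_lit 5) (nat_lit 55) (nat_lit 4) (nat_lit 458) (nat_lit 420) (nat_lit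 322)))) (XT.nd (nat_lit 156) (nat_lit 152) (nat_lit 0) (XT.nd (nat_lit 78) (nat_lit 152) (nat_lit 0) (XT.lf (nat_lit 0) (nat_lit 32239544390) (nat_lit 76) (nat_lit 41077290434) (nat_lit 152) (nat_lit 42261737300) (nat_lit 53) (nat_lit 5) (nat_lit 54) (nat_lit 5) (nat_lit 55) (nat_lit 4) (nat_lit 459) (nat_lit 420) (nat_lit 321)) (XT.lf (nat_lit 0) (nat_lit 8947905765) (nat_lit 152) (nat_lit 94098948101) (nat_lit 76) (nat_lit 18726875923) (nat_lit 51) (nat_lit 5) (nat_lit 53) (nat_lit 5) (nat_lit 52) (nat_lit 4) (nat_lit 460) (nat_lit 420) (nat_lit 320))) (XT.nd (nat_lit 78) (nat_lit 76) (nat_lit 0) (XT.lf (nat_lit 0) (nat_lit 21401163550) (nat_lit 76) (nat_lit 43890107929) (nat_lit 152) (nat_lit 63012708108) (nat_lit 50) (nat_lit 5) (nat_lit 51) (nat_lit 5) (nat_lit 52) (nat_lit 4) (nat_lit 461) (nat_lit 420) (nat_lit 319)) (XT.lf (nat_lit 0) (nat_lit 14338302843) (nat_lit 76) (nat_lit 114001586115)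 (nat_lit 76) (nat_lit 6906871399) (nat_lit 49) (nat_lit 4) (nat_lit 50) (nat_lit 5) (nat_lit 50) (nat_lit 4) (nat_lit 462) (nat_lit 420) (nat_lit 318)))))) (XT.nd (nat_lit 546) (nat_lit 836) (nat_lit 0) (XT.nd (nat_lit 234) (nat_lit 380) (nat_lit 0) (XT.nd (nat_lit 78) (nat_lit 152) (nat_lit 0) (XT.lf (nat_lit 0) (nat_lit 4987021226) (nat_lit 76) (nat_lit 49688505088) (nat_lit 152) (nat_lit 87892205449) (nat_lit 47) (nat_lit 5) (nat_lit 48) (nat_lit 5) (nat_lit 49) (nat_lit 4) (nat_lit 463) (nat_lit 420) (nat_lit 317)) (XT.nd (nat_lit 78) (nat_lit 152) (nat_lit 0) (XT.lf (nat_lit 0) (nat_lit 123391026264) (nat_lit 152) (nat_lit 5564882028) (nat_lit 0) (nat_lit 21390386633) (nat_lit 47) (nat_lit 5) (nat_lit 49) (nat_lit 4) (nat_lit 47) (nat_lit 4) (nat_lit 464) (nat_lit 420) (nat_lit 316)) (XT.lf (nat_lit 0) (nat_lit 40692954215) (nat_lit 152) (nat_lit 18582608968) (nat_lit 76) (nat_lit 99287247713)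 (nat_lit 45) (nat_lit 5) (nat_lit 47) (nat_lit 5) (nat_lit 46) (nat_lit 4) (nat_lit 465) (nat_lit 420) (nat_lit 315)))) (XT.nd (nat_lit 156) (nat_lit 152) (nat_lit 0) (XT.nd (nat_lit 78) (nat_lit 152) (nat_lit 0) (XT.lf (nat_lit 0) (nat_lit 115297136706) (nat_lit 152) (nat_lit 33843954755) (nat_lit 0) (nat_lit 18149038120) (nat_lit 44) (nat_lit 5) (nat_lit 46) (nat_lit 4) (nat_lit 44) (nat_lit 4) (nat_lit 466) (nat_lit 420) (nat_lit 314)) (XT.lf (nat_lit 0) (nat_lit 21864520838) (nat_lit 152) (nat_lit 52327892953) (nat_lit 76) (nat_lit 102342090185) (nat_lit 42) (nat_lit 5) (nat_lit 44) (nat_lit 5) (nat_lit 43) (nat_lit 4) (nat_lit 467) (nat_lit 420) (nat_lit 313))) (XT.nd (nat_lit 78) (nat_lit 76) (nat_lit 0) (XT.lf (nat_lit 0) (nat_lit 102341151827) (nat_lit 152) (nat_lit 74192683619) (nat_lit 0) (nat_lit 9815370862) (nat_lit 41) (nat_lit 5) (nat_lit 43) (nat_lit 4) (nat_lit 41) (nat_lit 4)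 (nat_lit 468) (nat_lit 420) (nat_lit 312)) (XT.lf (nat_lit 0) (nat_lit 96583541932) (nat_lit 76) (nat_lit 96354451807) (nat_lit 76) (nat_lit 3826987122) (nat_lit 40) (nat_lit 4) (nat_lit 41) (nat_lit 5) (nat_lit 41) (nat_lit 4) (nat_lit 469) (nat_lit 420) (nat_lit 311))))) (XT.nd (nat_lit 312) (nat_lit 456) (nat_lit 0) (XT.nd (nat_lit 156) (nat_lit 152) (nat_lit 0) (XT.nd (nat_lit 78) (nat_lit 76) (nat_lit 0) (XT.lf (nat_lit 0) (nat_lit 76862107082) (nat_lit 76) (nat_lit 5767712804) (nat_lit 152) (nat_lit 125194066815) (nat_lit 38) (nat_lit 5) (nat_lit 39) (nat_lit 5) (nat_lit 40) (nat_lit 4) (nat_lit 470) (nat_lit 420) (nat_lit 310)) (XT.lf (nat_lit 0) (nat_lit 52096997818) (nat_lit 76) (nat_lit 127795233939) (nat_lit 76) (nat_lit 39670979458) (nat_lit 37) (nat_lit 4) (nat_lit 38) (nat_lit 5) (nat_lit 38) (nat_lit 4) (nat_lit 471) (nat_lit 420) (nat_lit 309))) (XT.nd (nat_lit 78) (nat_lit 0)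 (nat_lit 0) (XT.lf (nat_lit 0) (nat_lit 22093179724) (nat_lit 76) (nat_lit 31672043275) (nat_lit 152) (nat_lit 178297433529) (nat_lit 35) (nat_lit 5) (nat_lit 36) (nat_lit 5) (nat_lit 37) (nat_lit 4) (nat_lit 472) (nat_lit 420) (nat_lit 308)) (XT.lf (nat_lit 0) (nat_lit 157393360516) (nat_lit 152) (nat_lit 14467669704) (nat_lit 0) (nat_lit 73463164251) (nat_lit 35) (nat_lit 5) (nat_lit 37) (nat_lit 4) (nat_lit 35) (nat_lit 4) (nat_lit 473) (nat_lit 420) (nat_lit 307)))) (XT.nd (nat_lit 156) (nat_lit 228) (nat_lit 0) (XT.nd (nat_lit 78) (nat_lit 76) (nat_lit 0) (XT.lf (nat_lit 0) (nat_lit 13111089080) (nat_lit 152) (nat_lit 57053503025) (nat_lit 76) (nat_lit 189286751474) (nat_lit 33) (nat_lit 5) (nat_lit 35) (nat_lit 5) (nat_lit 34) (nat_lit 4) (nat_lit 474) (nat_lit 420) (nat_lit 306)) (XT.lf (nat_lit 0) (nat_lit 122736531020) (nat_lit 152) (nat_lit 108919913187) (nat_lit 0) (nat_lit 42801104328)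 (nat_lit 32) (nat_lit 5) (nat_lit 34) (nat_lit 4) (nat_lit 32) (nat_lit 4) (nat_lit 475) (nat_lit 420) (nat_lit 305))) (XT.nd (nat_lit 78) (nat_lit 152) (nat_lit 0) (XT.lf (nat_lit 0) (nat_lit 119994898830) (nat_lit 76) (nat_lit 125201210690) (nat_lit 76) (nat_lit 45264935335) (nat_lit 31) (nat_lit 4) (nat_lit 32) (nat_lit 5) (nat_lit 32) (nat_lit 4) (nat_lit 476) (nat_lit 420) (nat_lit 304)) (XT.lf (nat_lit 0) (nat_lit 64399156361) (nat_lit 76) (nat_lit 6008754622) (nat_lit 152) (nat_lit 237135925490) (nat_lit 29) (nat_lit 5) (nat_lit 30) (nat_lit 5) (nat_lit 31) (nat_lit 4) (nat_lit 477) (nat_lit 420) (nat_lit 303))))))))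
noncomputable def xc78 : XT := (XT.nd (nat_lit 58422) (nat_lit 0) (nat_lit 4028) (XT.nd (nat_lit 1092) (nat_lit 532) (nat_lit 0) (XT.nd (nat_lit 546) (nat_lit 456) (nat_lit 0) (XT.nd (nat_lit 234) (nat_lit 304) (nat_lit 0) (XT.nd (nat_lit 78) (nat_lit 228) (nat_lit 0) (XT.lf (nat_lit 0) (nat_lit 198701563107) (nat_lit 152) (nat_lit 4436608155) (nat_lit 0) (nat_lit 122570335728) (nat_lit 29) (nat_lit 5) (nat_lit 31) (nat_lit 4) (nat_lit 29) (nat_lit 4) (nat_lit 478) (nat_lit 420) (nat_lit 302)) (XT.nd (nat_lit 78) (nat_lit 152) (nat_lit 0) (XT.lf (nat_lit 0) (nat_lit 261636263238) (nat_lit 76) (nat_lit 79806380066) (nat_lit 76) (nat_lit 3674511071) (nat_lit 28) (nat_lit 4) (nat_lit 29) (nat_lit 5) (nat_lit 29) (nat_lit 4) (nat_lit 479) (nat_lit 420) (nat_lit 301)) (XT.lf (nat_lit 0) (nat_lit 129291328752) (nat_lit 152) (nat_lit 179706211441) (nat_lit 0) (nat_lit 56784221052) (nat_lit 26) (nat_lit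 5) (nat_lit 28) (nat_lit 4) (nat_lit 26) (nat_lit 4) (nat_lit 480) (nat_lit 420) (nat_lit 300)))) (XT.nd (nat_lit 156) (nat_lit 152) (nat_lit 0) (XT.nd (nat_lit 78) (nat_lit 76) (nat_lit 0) (XT.lf (nat_lit 0) (nat_lit 93714443353) (nat_lit 76) (nat_lit 183337695509) (nat_lit 76) (nat_lit 110830063922) (nat_lit 25) (nat_lit 4) (nat_lit 26) (nat_lit 5) (nat_lit 26) (nat_lit 4) (nat_lit 481) (nat_lit 420) (nat_lit 299)) (XT.lf (nat_lit 0) (nat_lit 27266332864) (nat_lit 152) (nat_lit 16612134296) (nat_lit 76) (nat_lit 367693807007) (nat_lit 24) (nat_lit 5) (nat_lit 26) (nat_lit 5) (nat_lit 25) (nat_lit 4) (nat_lit 482) (nat_lit 420) (nat_lit 298))) (XT.nd (nat_lit 78) (nat_lit 76) (nat_lit 0) (XT.lf (nat_lit 0) (nat_lit 178885638436) (nat_lit 152) (nat_lit 148033299930) (nat_lit 0) (nat_lit 109829861465) (nat_lit 23) (nat_lit 5) (nat_lit 25) (nat_lit 4) (nat_lit 23) (nat_lit 4) (nat_lit 483) (nat_lit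 420) (nat_lit 297)) (XT.lf (nat_lit 0) (nat_lit 159494021355) (nat_lit 76) (nat_lit 186662742735) (nat_lit 76) (nat_lit 117606569689) (nat_lit 22) (nat_lit 4) (nat_lit 23) (nat_lit 5) (nat_lit 23) (nat_lit 4) (nat_lit 484) (nat_lit 420) (nat_lit 296))))) (XT.nd (nat_lit 234) (nat_lit 228) (nat_lit 0) (XT.nd (nat_lit 78) (nat_lit 76) (nat_lit 0) (XT.lf (nat_lit 0) (nat_lit 3641468972) (nat_lit 76) (nat_lit 31820974322) (nat_lit 152) (nat_lit 457316348298) (nat_lit 20) (nat_lit 5) (nat_lit 21) (nat_lit 5) (nat_lit 22) (nat_lit 4) (nat_lit 485) (nat_lit 420) (nat_lit 295)) (XT.nd (nat_lit 78) (nat_lit 76) (nat_lit 0) (XT.lf (nat_lit 0) (nat_lit 204211108856) (nat_lit 152) (nat_lit 180987601386) (nat_lit 0) (nat_lit 138442652329) (nat_lit 20) (nat_lit 5) (nat_lit 22) (nat_lit 4) (nat_lit 20) (nat_lit 4) (nat_lit 486) (nat_lit 420) (nat_lit 294)) (XT.lf (nat_lit 0) (nat_lit 156276064681) (nat_lit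 76) (nat_lit 233158444233) (nat_lit 76) (nat_lit 167389688261) (nat_lit 19) (nat_lit 4) (nat_lit 20) (nat_lit 5) (nat_lit 20) (nat_lit 4) (nat_lit 487) (nat_lit 420) (nat_lit 293)))) (XT.nd (nat_lit 156) (nat_lit 76) (nat_lit 0) (XT.nd (nat_lit 78) (nat_lit 76) (nat_lit 0) (XT.lf (nat_lit 0) (nat_lit 118881129) (nat_lit 152) (nat_lit 65525326921) (nat_lit 76) (nat_lit 526859797996) (nat_lit 18) (nat_lit 5) (nat_lit 20) (nat_lit 5) (nat_lit 19) (nat_lit 4) (nat_lit 488) (nat_lit 420) (nat_lit 292)) (XT.lf (nat_lit 0) (nat_lit 181897556363) (nat_lit 152) (nat_lit 329406604276) (nat_lit 0) (nat_lit 119260137352) (nat_lit 17) (nat_lit 5) (nat_lit 19) (nat_lit 4) (nat_lit 17) (nat_lit 4) (nat_lit 489) (nat_lit 420) (nat_lit 291))) (XT.nd (nat_lit 78) (nat_lit 0) (nat_lit 0) (XT.lf (nat_lit 0) (nat_lit 27659716869) (nat_lit 76) (nat_lit 353256235253) (nat_lit 76) (nat_lit 290618589852) (nat_lit 16)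 (nat_lit 4) (nat_lit 17) (nat_lit 5) (nat_lit 17) (nat_lit 4) (nat_lit 490) (nat_lit 420) (nat_lit 290)) (XT.lf (nat_lit 0) (nat_lit 425051596875) (nat_lit 76) (nat_lit 176540914519) (nat_lit 76) (nat_lit 113903059497) (nat_lit 16) (nat_lit 4) (nat_lit 17) (nat_lit 5) (nat_lit 17) (nat_lit 4) (nat_lit 491) (nat_lit 420) (nat_lit 289)))))) (XT.nd (nat_lit 546) (nat_lit 152) (nat_lit 0) (XT.nd (nat_lit 234) (nat_lit 152) (nat_lit 0) (XT.nd (nat_lit 78) (nat_lit 76) (nat_lit 0) (XT.lf (nat_lit 0) (nat_lit 76205032645) (nat_lit 152) (nat_lit 670072722138) (nat_lit 0) (nat_lit 16549747774) (nat_lit 14) (nat_lit 5) (nat_lit 16) (nat_lit 4) (nat_lit 14) (nat_lit 4) (nat_lit 492) (nat_lit 420) (nat_lit 288)) (XT.nd (nat_lit 78) (nat_lit 76) (nat_lit 0) (XT.lf (nat_lit 0) (nat_lit 285702361049) (nat_lit 152) (nat_lit 301694799665) (nat_lit 0) (nat_lit 226046905021) (nat_lit 14) (nat_lit 5) (nat_lit 16)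 (nat_lit 4) (nat_lit 14) (nat_lit 4) (nat_lit 493) (nat_lit 420) (nat_lit 287)) (XT.lf (nat_lit 0) (nat_lit 99330212237) (nat_lit 76) (nat_lit 414178936301) (nat_lit 76) (nat_lit 354523321793) (nat_lit 13) (nat_lit 4) (nat_lit 14) (nat_lit 5) (nat_lit 14) (nat_lit 4) (nat_lit 494) (nat_lit 420) (nat_lit 286)))) (XT.nd (nat_lit 156) (nat_lit 0) (nat_lit 0) (XT.nd (nat_lit 78) (nat_lit 152) (nat_lit 0) (XT.lf (nat_lit 0) (nat_lit 543208418902) (nat_lit 76) (nat_lit 221586289099) (nat_lit 76) (nat_lit 161930527852) (nat_lit 13) (nat_lit 4) (nat_lit 14) (nat_lit 5) (nat_lit 14) (nat_lit 4) (nat_lit 495) (nat_lit 420) (nat_lit 285)) (XT.lf (nat_lit 0) (nat_lit 32812281239) (nat_lit 76) (nat_lit 12294147227) (nat_lit 152) (nat_lit 944945467473) (nat_lit 11) (nat_lit 5) (nat_lit 12) (nat_lit 5) (nat_lit 13) (nat_lit 4) (nat_lit 496) (nat_lit 420) (nat_lit 284))) (XT.nd (nat_lit 78) (nat_lit 0) (nat_lit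 0) (XT.lf (nat_lit 0) (nat_lit 273235160007) (nat_lit 152) (nat_lit 568146795030) (nat_lit 0) (nat_lit 216419900079) (nat_lit 11) (nat_lit 5) (nat_lit 13) (nat_lit 4) (nat_lit 11) (nat_lit 4) (nat_lit 497) (nat_lit 420) (nat_lit 283)) (XT.lf (nat_lit 0) (nat_lit 519820560734) (nat_lit 152) (nat_lit 148135741896) (nat_lit 0) (nat_lit 463005189866) (nat_lit 11) (nat_lit 5) (nat_lit 13) (nat_lit 4) (nat_lit 11) (nat_lit 4) (nat_lit 498) (nat_lit 420) (nat_lit 282))))) (XT.nd (nat_lit 56472) (nat_lit 0) (nat_lit 10564) (XT.nd (nat_lit 156) (nat_lit 76) (nat_lit 0) (XT.nd (nat_lit 78) (nat_lit 0) (nat_lit 0) (XT.lf (nat_lit 0) (nat_lit 315574809900) (nat_lit 76) (nat_lit 475484128655) (nat_lit 76) (nat_lit 418668655065) (nat_lit 10) (nat_lit 4) (nat_lit 11) (nat_lit 5) (nat_lit 11) (nat_lit 4) (nat_lit 499) (nat_lit 420) (nat_lit 281)) (XT.lf (nat_lit 0) (nat_lit 821670411157) (nat_lit 76) (nat_lit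 264905580075) (nat_lit 76) (nat_lit 208090011372) (nat_lit 10) (nat_lit 4) (nat_lit 11) (nat_lit 5) (nat_lit 11) (nat_lit 4) (nat_lit 500) (nat_lit 420) (nat_lit 280))) (XT.nd (nat_lit 56238) (nat_lit 0) (nat_lit 10488) (XT.lf (nat_lit 0) (nat_lit 18715309634) (nat_lit 152) (nat_lit 18449272019) (nat_lit 76) (nat_lit 1349219847832) (nat_lit 9) (nat_lit 5) (nat_lit 11) (nat_lit 5) (nat_lit 10) (nat_lit 4) (nat_lit 501) (nat_lit 420) (nat_lit 279)) (XT.lf (nat_lit 0) (nat_lit 3190520954) (nat_lit 836) (nat_lit 3540809369) (nat_lit 836) (nat_lit 3540809369) (nat_lit 147) (nat_lit 3) (nat_lit 158) (nat_lit 3) (nat_lit 158) (nat_lit 5) (nat_lit 421) (nat_lit 421) (nat_lit 358)))) (XT.nd (nat_lit 156) (nat_lit 0) (nat_lit 76) (XT.nd (nat_lit 78) (nat_lit 0) (nat_lit 0) (XT.lf (nat_lit 0) (nat_lit 7065694320) (nat_lit 760) (nat_lit 11861909326) (nat_lit 836) (nat_lit 2416938987) (nat_lit 148) (nat_lit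 5) (nat_lit 158) (nat_lit 5) (nat_lit 159) (nat_lit 5) (nat_lit 422) (nat_lit 421) (nat_lit 357)) (XT.lf (nat_lit 76) (nat_lit 5349934411) (nat_lit 0) (nat_lit 2866882202) (nat_lit 836) (nat_lit 13971429185) (nat_lit 149) (nat_lit 5) (nat_lit 148) (nat_lit 5) (nat_lit 159) (nat_lit 5) (nat_lit 423) (nat_lit 421) (nat_lit 356))) (XT.nd (nat_lit 78) (nat_lit 0) (nat_lit 76) (XT.lf (nat_lit 76) (nat_lit 1062607070) (nat_lit 0) (nat_lit 8827578197) (nat_lit 836) (nat_lit 13187755583) (nat_lit 150) (nat_lit 5) (nat_lit 149) (nat_lit 5) (nat_lit 160) (nat_lit 5) (nat_lit 424) (nat_lit 421) (nat_lit 355)) (XT.lf (nat_lit 0) (nat_lit 12156428049) (nat_lit 760) (nat_lit 3229565639) (nat_lit 836) (nat_lit 8629870794) (nat_lit 150) (nat_lit 5) (nat_lit 160) (nat_lit 5) (nat_lit 161) (nat_lit 5) (nat_lit 425) (nat_lit 421) (nat_lit 354))))))) (XT.nd (nat_lit 1170) (nat_lit 2584) (nat_lit 0) (XT.nd (nat_lit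 546) (nat_lit 2280) (nat_lit 0) (XT.nd (nat_lit 234) (nat_lit 1216) (nat_lit 0) (XT.nd (nat_lit 78) (nat_lit 684) (nat_lit 0) (XT.lf (nat_lit 0) (nat_lit 15044152227) (nat_lit 760) (nat_lit 7592589964) (nat_lit 836) (nat_lit 2370073684) (nat_lit 151) (nat_lit 5) (nat_lit 161) (nat_lit 5) (nat_lit 162) (nat_lit 5) (nat_lit 426) (nat_lit 421) (nat_lit 353)) (XT.nd (nat_lit 78) (nat_lit 684) (nat_lit 0) (XT.lf (nat_lit 76) (nat_lit 13920968207) (nat_lit 0) (nat_lit 4757769253) (nat_lit 836) (nat_lit 7372516512) (nat_lit 152) (nat_lit 5) (nat_lit 151) (nat_lit 5) (nat_lit 162) (nat_lit 5) (nat_lit 427) (nat_lit 421) (nat_lit 352)) (XT.lf (nat_lit 0) (nat_lit 10340612503) (nat_lit 760) (nat_lit 12769585703) (nat_lit 836) (nat_lit 4043746025) (nat_lit 142) (nat_lit 5) (nat_lit 152) (nat_lit 5) (nat_lit 153) (nat_lit 5) (nat_lit 428) (nat_lit 421) (nat_lit 351)))) (XT.nd (nat_lit 156) (nat_lit 380)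 (nat_lit 0) (XT.nd (nat_lit 78) (nat_lit 380) (nat_lit 0) (XT.lf (nat_lit 0) (nat_lit 58684540) (nat_lit 456) (nat_lit 21598233489) (nat_lit 76) (nat_lit 6663634274) (nat_lit 136) (nat_lit 5) (nat_lit 142) (nat_lit 5) (nat_lit 137) (nat_lit 5) (nat_lit 429) (nat_lit 421) (nat_lit 350)) (XT.lf (nat_lit 0) (nat_lit 2966924405) (nat_lit 380) (nat_lit 1926727791) (nat_lit 456) (nat_lit 24656223568) (nat_lit 131) (nat_lit 5) (nat_lit 136) (nat_lit 5) (nat_lit 137) (nat_lit 5) (nat_lit 430) (nat_lit 421) (nat_lit 349))) (XT.nd (nat_lit 78) (nat_lit 380) (nat_lit 0) (XT.lf (nat_lit 0) (nat_lit 10786117989) (nat_lit 456) (nat_lit 914109729) (nat_lit 76) (nat_lit 19143784273) (nat_lit 131) (nat_lit 5) (nat_lit 137) (nat_lit 5) (nat_lit 132) (nat_lit 5) (nat_lit 431) (nat_lit 421) (nat_lit 348)) (XT.lf (nat_lit 0) (nat_lit 17757710859) (nat_lit 456) (nat_lit 4729404533) (nat_lit 76) (nat_lit 9724179014)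 (nat_lit 126) (nat_lit 5) (nat_lit 132) (nat_lit 5) (nat_lit 127) (nat_lit 5) (nat_lit 432) (nat_lit 421) (nat_lit 347))))) (XT.nd (nat_lit 312) (nat_lit 988) (nat_lit 0) (XT.nd (nat_lit 156) (nat_lit 608) (nat_lit 0) (XT.nd (nat_lit 78) (nat_lit 380) (nat_lit 0) (XT.lf (nat_lit 0) (nat_lit 25086380891) (nat_lit 304) (nat_lit 793306087) (nat_lit 380) (nat_lit 7778641297) (nat_lit 122) (nat_lit 5) (nat_lit 126) (nat_lit 5) (nat_lit 127) (nat_lit 5) (nat_lit 433) (nat_lit 421) (nat_lit 346)) (XT.lf (nat_lit 0) (nat_lit 239385575) (nat_lit 380) (nat_lit 12592390603) (nat_lit 76) (nat_lit 22350252105) (nat_lit 117) (nat_lit 5) (nat_lit 122) (nat_lit 5) (nat_lit 118) (nat_lit 5) (nat_lit 434) (nat_lit 421) (nat_lit 345))) (XT.nd (nat_lit 78) (nat_lit 304) (nat_lit 0) (XT.lf (nat_lit 0) (nat_lit 9273001698) (nat_lit 380) (nat_lit 16754765931) (nat_lit 76) (nat_lit 10761148435) (nat_lit 113) (nat_lit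 5) (nat_lit 118) (nat_lit 5) (nat_lit 114) (nat_lit 5) (nat_lit 435) (nat_lit 421) (nat_lit 344)) (XT.lf (nat_lit 0) (nat_lit 17534693480) (nat_lit 304) (nat_lit 2196973286) (nat_lit 380) (nat_lit 18757571366) (nat_lit 109) (nat_lit 5) (nat_lit 113) (nat_lit 5) (nat_lit 114) (nat_lit 5) (nat_lit 436) (nat_lit 421) (nat_lit 343)))) (XT.nd (nat_lit 156) (nat_lit 456) (nat_lit 0) (XT.nd (nat_lit 78) (nat_lit 304) (nat_lit 0) (XT.lf (nat_lit 0) (nat_lit 14947184393) (nat_lit 228) (nat_lit 16967203442) (nat_lit 304) (nat_lit 8366831147) (nat_lit 106) (nat_lit 5) (nat_lit 109) (nat_lit 5) (nat_lit 110) (nat_lit 5) (nat_lit 437) (nat_lit 421) (nat_lit 342)) (XT.lf (nat_lit 0) (nat_lit 3502197804) (nat_lit 304) (nat_lit 29755908980) (nat_lit 76) (nat_lit 8919303038) (nat_lit 102) (nat_lit 5) (nat_lit 106) (nat_lit 5) (nat_lit 103) (nat_lit 5) (nat_lit 438) (nat_lit 421) (nat_lit 341))) (XT.nd (nat_lit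 78) (nat_lit 228) (nat_lit 0) (XT.lf (nat_lit 0) (nat_lit 9763913533) (nat_lit 228) (nat_lit 7145388260) (nat_lit 304) (nat_lit 27265052735) (nat_lit 99) (nat_lit 5) (nat_lit 102) (nat_lit 5) (nat_lit 103) (nat_lit 5) (nat_lit 439) (nat_lit 421) (nat_lit 340)) (XT.lf (nat_lit 0) (nat_lit 7079176367) (nat_lit 228) (nat_lit 25267023839) (nat_lit 304) (nat_lit 13936994172) (nat_lit 96) (nat_lit 5) (nat_lit 99) (nat_lit 5) (nat_lit 100) (nat_lit 5) (nat_lit 440) (nat_lit 421) (nat_lit 339)))))) (XT.nd (nat_lit 546) (nat_lit 1292) (nat_lit 0) (XT.nd (nat_lit 234) (nat_lit 836) (nat_lit 0) (XT.nd (nat_lit 78) (nat_lit 228) (nat_lit 0) (XT.lf (nat_lit 0) (nat_lit 1287647718) (nat_lit 228) (nat_lit 43990445509) (nat_lit 76) (nat_lit 3240043198) (nat_lit 93) (nat_lit 5) (nat_lit 96) (nat_lit 5) (nat_lit 94) (nat_lit 5) (nat_lit 441) (nat_lit 421) (nat_lit 338)) (XT.nd (nat_lit 78) (nat_lit 0) (nat_lit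 0) (XT.lf (nat_lit 0) (nat_lit 1627587453) (nat_lit 228) (nat_lit 16758314276) (nat_lit 304) (nat_lit 32477352795) (nat_lit 90) (nat_lit 5) (nat_lit 93) (nat_lit 5) (nat_lit 94) (nat_lit 5) (nat_lit 442) (nat_lit 421) (nat_lit 337)) (XT.lf (nat_lit 0) (nat_lit 37842303172) (nat_lit 304) (nat_lit 1135746561) (nat_lit 76) (nat_lit 14368418643) (nat_lit 90) (nat_lit 5) (nat_lit 94) (nat_lit 5) (nat_lit 91) (nat_lit 5) (nat_lit 443) (nat_lit 421) (nat_lit 336)))) (XT.nd (nat_lit 156) (nat_lit 380) (nat_lit 0) (XT.nd (nat_lit 78) (nat_lit 228) (nat_lit 0) (XT.lf (nat_lit 0) (nat_lit 3844424444) (nat_lit 228) (nat_lit 3847193078) (nat_lit 76) (nat_lit 48279114383) (nat_lit 87) (nat_lit 5) (nat_lit 90) (nat_lit 5) (nat_lit 88) (nat_lit 5) (nat_lit 444) (nat_lit 421) (nat_lit 335)) (XT.lf (nat_lit 0) (nat_lit 25459741637) (nat_lit 304) (nat_lit 6895104238) (nat_lit 76) (nat_lit 26374281309) (nat_lit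 84) (nat_lit 5) (nat_lit 88) (nat_lit 5) (nat_lit 85) (nat_lit 5) (nat_lit 445) (nat_lit 421) (nat_lit 334))) (XT.nd (nat_lit 78) (nat_lit 228) (nat_lit 0) (XT.lf (nat_lit 0) (nat_lit 49839103456) (nat_lit 228) (nat_lit 9768662072) (nat_lit 76) (nat_lit 2048688094) (nat_lit 82) (nat_lit 5) (nat_lit 85) (nat_lit 5) (nat_lit 83) (nat_lit 5) (nat_lit 446) (nat_lit 421) (nat_lit 333)) (XT.lf (nat_lit 0) (nat_lit 12483371759) (nat_lit 228) (nat_lit 13034827127) (nat_lit 76) (nat_lit 39216115714) (nat_lit 79) (nat_lit 5) (nat_lit 82) (nat_lit 5) (nat_lit 80) (nat_lit 5) (nat_lit 447) (nat_lit 421) (nat_lit 332))))) (XT.nd (nat_lit 312) (nat_lit 608) (nat_lit 0) (XT.nd (nat_lit 156) (nat_lit 380) (nat_lit 0) (XT.nd (nat_lit 78) (nat_lit 152) (nat_lit 0) (XT.lf (nat_lit 0) (nat_lit 39491340159) (nat_lit 228) (nat_lit 16364837631) (nat_lit 76) (nat_lit 12133680166) (nat_lit 77) (nat_lit 5) (nat_lit 80)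 (nat_lit 5) (nat_lit 78) (nat_lit 5) (nat_lit 448) (nat_lit 421) (nat_lit 331)) (XT.lf (nat_lit 0) (nat_lit 51637191388) (nat_lit 152) (nat_lit 18484060342) (nat_lit 228) (nat_lit 1311528145) (nat_lit 75) (nat_lit 5) (nat_lit 77) (nat_lit 5) (nat_lit 78) (nat_lit 5) (nat_lit 449) (nat_lit 421) (nat_lit 330))) (XT.nd (nat_lit 78) (nat_lit 152) (nat_lit 0) (XT.lf (nat_lit 0) (nat_lit 28610937292) (nat_lit 228) (nat_lit 23711285527) (nat_lit 76) (nat_lit 22734100514) (nat_lit 72) (nat_lit 5) (nat_lit 75) (nat_lit 5) (nat_lit 73) (nat_lit 5) (nat_lit 450) (nat_lit 421) (nat_lit 329)) (XT.lf (nat_lit 0) (nat_lit 51221586686) (nat_lit 152) (nat_lit 11116598716) (nat_lit 228) (nat_lit 16557643398) (nat_lit 70) (nat_lit 5) (nat_lit 72) (nat_lit 5) (nat_lit 73) (nat_lit 5) (nat_lit 451) (nat_lit 421) (nat_lit 328)))) (XT.nd (nat_lit 156) (nat_lit 304) (nat_lit 0) (XT.nd (nat_lit 78) (nat_lit 152) (nat_lit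 0) (XT.lf (nat_lit 0) (nat_lit 16979423356) (nat_lit 152) (nat_lit 32158615379) (nat_lit 76) (nat_lit 33804109774) (nat_lit 68) (nat_lit 5) (nat_lit 70) (nat_lit 5) (nat_lit 69) (nat_lit 5) (nat_lit 452) (nat_lit 421) (nat_lit 327)) (XT.lf (nat_lit 0) (nat_lit 50345712333) (nat_lit 152) (nat_lit 3739682032) (nat_lit 228) (nat_lit 33139905938) (nat_lit 66) (nat_lit 5) (nat_lit 68) (nat_lit 5) (nat_lit 69) (nat_lit 5) (nat_lit 453) (nat_lit 421) (nat_lit 326))) (XT.nd (nat_lit 78) (nat_lit 152) (nat_lit 0) (XT.lf (nat_lit 0) (nat_lit 4314890704) (nat_lit 152) (nat_lit 42179250381) (nat_lit 76) (nat_lit 45251158786) (nat_lit 64) (nat_lit 5) (nat_lit 66) (nat_lit 5) (nat_lit 65) (nat_lit 5) (nat_lit 454) (nat_lit 421) (nat_lit 325)) (XT.lf (nat_lit 0) (nat_lit 45144129022) (nat_lit 228) (nat_lit 48017048217) (nat_lit 76) (nat_lit 3361602572) (nat_lit 62) (nat_lit 5) (nat_lit 65) (nat_lit 5) (nat_lit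 63) (nat_lit 4) (nat_lit 455) (nat_lit 421) (nat_lit 324))))))))
noncomputable def xc79 : XT := (XT.nd (nat_lit 2340) (nat_lit 912) (nat_lit 0) (XT.nd (nat_lit 1170) (nat_lit 1368) (nat_lit 0) (XT.nd (nat_lit 546) (nat_lit 760) (nat_lit 0) (XT.nd (nat_lit 234) (nat_lit 532) (nat_lit 0) (XT.nd (nat_lit 78) (nat_lit 304) (nat_lit 0) (XT.lf (nat_lit 0) (nat_lit 47005894059) (nat_lit 76) (nat_lit 44493799956) (nat_lit 152) (nat_lit 10069764941) (nat_lit 61) (nat_lit 5) (nat_lit 62) (nat_lit 5) (nat_lit 63) (nat_lit 4) (nat_lit 456) (nat_lit 421) (nat_lit 323)) (XT.nd (nat_lit 78) (nat_lit 76) (nat_lit 0) (XT.lf (nat_lit 0) (nat_lit 35150629371) (nat_lit 228) (nat_lit 61821212368) (nat_lit 76) (nat_lit 9935443764) (nat_lit 58) (nat_lit 5) (nat_lit 61) (nat_lit 5) (nat_lit 59) (nat_lit 4) (nat_lit 457) (nat_lit 421) (nat_lit 322)) (XT.lf (nat_lit 0) (nat_lit 42446300142) (nat_lit 76) (nat_lit 43568906690)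 (nat_lit 152) (nat_lit 26529710235) (nat_lit 57) (nat_lit 5) (nat_lit 58) (nat_lit 5) (nat_lit 59) (nat_lit 4) (nat_lit 458) (nat_lit 421) (nat_lit 321)))) (XT.nd (nat_lit 156) (nat_lit 228) (nat_lit 0) (XT.nd (nat_lit 78) (nat_lit 76) (nat_lit 0) (XT.lf (nat_lit 0) (nat_lit 23563321086) (nat_lit 228) (nat_lit 79208891116) (nat_lit 76) (nat_lit 15745818718) (nat_lit 54) (nat_lit 5) (nat_lit 57) (nat_lit 5) (nat_lit 55) (nat_lit 4) (nat_lit 459) (nat_lit 421) (nat_lit 320)) (XT.lf (nat_lit 0) (nat_lit 34974441147) (nat_lit 76) (nat_lit 44290006637) (nat_lit 152) (nat_lit 45556294328) (nat_lit 53) (nat_lit 5) (nat_lit 54) (nat_lit 5) (nat_lit 55) (nat_lit 4) (nat_lit 460) (nat_lit 421) (nat_lit 319))) (XT.nd (nat_lit 78) (nat_lit 76) (nat_lit 0) (XT.lf (nat_lit 0) (nat_lit 9744649981) (nat_lit 152) (nat_lit 101472381491) (nat_lit 76) (nat_lit 20294548930) (nat_lit 51) (nat_lit 5) (nat_lit 53)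 (nat_lit 5) (nat_lit 52) (nat_lit 4) (nat_lit 461) (nat_lit 421) (nat_lit 318)) (XT.lf (nat_lit 0) (nat_lit 23261025473) (nat_lit 76) (nat_lit 47330773102) (nat_lit 152) (nat_lit 67972636089) (nat_lit 50) (nat_lit 5) (nat_lit 51) (nat_lit 5) (nat_lit 52) (nat_lit 4) (nat_lit 462) (nat_lit 421) (nat_lit 317))))) (XT.nd (nat_lit 312) (nat_lit 380) (nat_lit 0) (XT.nd (nat_lit 156) (nat_lit 152) (nat_lit 0) (XT.nd (nat_lit 78) (nat_lit 152) (nat_lit 0) (XT.lf (nat_lit 0) (nat_lit 15629355935) (nat_lit 76) (nat_lit 123052496986) (nat_lit 76) (nat_lit 7380907752) (nat_lit 49) (nat_lit 4) (nat_lit 50) (nat_lit 5) (nat_lit 50) (nat_lit 4) (nat_lit 463) (nat_lit 421) (nat_lit 316)) (XT.lf (nat_lit 0) (nat_lit 5526119622) (nat_lit 76) (nat_lit 53596007504) (nat_lit 152) (nat_lit 94847393594) (nat_lit 47) (nat_lit 5) (nat_lit 48) (nat_lit 5) (nat_lit 49) (nat_lit 4) (nat_lit 464) (nat_lit 421) (nat_lit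 315))) (XT.nd (nat_lit 78) (nat_lit 152) (nat_lit 0) (XT.lf (nat_lit 0) (nat_lit 133330469280) (nat_lit 152) (nat_lit 5877932590) (nat_lit 0) (nat_lit 23162187077) (nat_lit 47) (nat_lit 5) (nat_lit 49) (nat_lit 4) (nat_lit 47) (nat_lit 4) (nat_lit 465) (nat_lit 421) (nat_lit 314)) (XT.lf (nat_lit 0) (nat_lit 44014544269) (nat_lit 152) (nat_lit 19940631641) (nat_lit 76) (nat_lit 107289350825) (nat_lit 45) (nat_lit 5) (nat_lit 47) (nat_lit 5) (nat_lit 46) (nat_lit 4) (nat_lit 466) (nat_lit 421) (nat_lit 313)))) (XT.nd (nat_lit 156) (nat_lit 152) (nat_lit 0) (XT.nd (nat_lit 78) (nat_lit 152) (nat_lit 0) (XT.lf (nat_lit 0) (nat_lit 124585015447) (nat_lit 152) (nat_lit 36426247369) (nat_lit 0) (nat_lit 19658870494) (nat_lit 44) (nat_lit 5) (nat_lit 46) (nat_lit 4) (nat_lit 44) (nat_lit 4) (nat_lit 467) (nat_lit 421) (nat_lit 312)) (XT.lf (nat_lit 0) (nat_lit 23675916587) (nat_lit 152) (nat_lit 56392283855)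 (nat_lit 76) (nat_lit 110585951049) (nat_lit 42) (nat_lit 5) (nat_lit 44) (nat_lit 5) (nat_lit 43) (nat_lit 4) (nat_lit 468) (nat_lit 421) (nat_lit 311))) (XT.nd (nat_lit 78) (nat_lit 76) (nat_lit 0) (XT.lf (nat_lit 0) (nat_lit 110588779242) (nat_lit 152) (nat_lit 80009471128) (nat_lit 0) (nat_lit 10655874661) (nat_lit 41) (nat_lit 5) (nat_lit 43) (nat_lit 4) (nat_lit 41) (nat_lit 4) (nat_lit 469) (nat_lit 421) (nat_lit 310)) (XT.lf (nat_lit 0) (nat_lit 104423697075) (nat_lit 76) (nat_lit 104006973766) (nat_lit 76) (nat_lit 4072625666) (nat_lit 40) (nat_lit 4) (nat_lit 41) (nat_lit 5) (nat_lit 41) (nat_lit 4) (nat_lit 470) (nat_lit 421) (nat_lit 309)))))) (XT.nd (nat_lit 546) (nat_lit 684) (nat_lit 0) (XT.nd (nat_lit 234) (nat_lit 304) (nat_lit 0) (XT.nd (nat_lit 78) (nat_lit 228) (nat_lit 0) (XT.lf (nat_lit 0) (nat_lit 83121469801) (nat_lit 76) (nat_lit 6174703122) (nat_lit 152) (nat_lit 135150825511)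 (nat_lit 38) (nat_lit 5) (nat_lit 39) (nat_lit 5) (nat_lit 40) (nat_lit 4) (nat_lit 471) (nat_lit 421) (nat_lit 308)) (XT.nd (nat_lit 78) (nat_lit 152) (nat_lit 0) (XT.lf (nat_lit 0) (nat_lit 56372218930) (nat_lit 76) (nat_lit 137965677657) (nat_lit 76) (nat_lit 42787656441) (nat_lit 37) (nat_lit 4) (nat_lit 38) (nat_lit 5) (nat_lit 38) (nat_lit 4) (nat_lit 472) (nat_lit 421) (nat_lit 307)) (XT.lf (nat_lit 0) (nat_lit 23965171066) (nat_lit 76) (nat_lit 34153991678) (nat_lit 152) (nat_lit 192505869532) (nat_lit 35) (nat_lit 5) (nat_lit 36) (nat_lit 5) (nat_lit 37) (nat_lit 4) (nat_lit 473) (nat_lit 421) (nat_lit 306)))) (XT.nd (nat_lit 156) (nat_lit 152) (nat_lit 0) (XT.nd (nat_lit 78) (nat_lit 152) (nat_lit 0) (XT.lf (nat_lit 0) (nat_lit 170034394990) (nat_lit 152) (nat_lit 15526597391) (nat_lit 0) (nat_lit 79386658737) (nat_lit 35) (nat_lit 5) (nat_lit 37) (nat_lit 4) (nat_lit 35) (nat_lit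 4) (nat_lit 474) (nat_lit 421) (nat_lit 305)) (XT.lf (nat_lit 0) (nat_lit 14208118166) (nat_lit 152) (nat_lit 61521985109) (nat_lit 76) (nat_lit 204474940138) (nat_lit 33) (nat_lit 5) (nat_lit 35) (nat_lit 5) (nat_lit 34) (nat_lit 4) (nat_lit 475) (nat_lit 421) (nat_lit 304))) (XT.nd (nat_lit 78) (nat_lit 76) (nat_lit 0) (XT.lf (nat_lit 0) (nat_lit 132602172453) (nat_lit 152) (nat_lit 117540282900) (nat_lit 0) (nat_lit 46269360604) (nat_lit 32) (nat_lit 5) (nat_lit 34) (nat_lit 4) (nat_lit 32) (nat_lit 4) (nat_lit 476) (nat_lit 421) (nat_lit 303)) (XT.lf (nat_lit 0) (nat_lit 129683662706) (nat_lit 76) (nat_lit 135172786089) (nat_lit 76) (nat_lit 48839246648) (nat_lit 31) (nat_lit 4) (nat_lit 32) (nat_lit 5) (nat_lit 32) (nat_lit 4) (nat_lit 477) (nat_lit 421) (nat_lit 302))))) (XT.nd (nat_lit 312) (nat_lit 304) (nat_lit 0) (XT.nd (nat_lit 156) (nat_lit 228) (nat_lit 0) (XT.nd (nat_lit 78) (nat_lit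 0) (nat_lit 0) (XT.lf (nat_lit 0) (nat_lit 69637821320) (nat_lit 76) (nat_lit 6446097927) (nat_lit 152) (nat_lit 256061254956) (nat_lit 29) (nat_lit 5) (nat_lit 30) (nat_lit 5) (nat_lit 31) (nat_lit 4) (nat_lit 478) (nat_lit 421) (nat_lit 301)) (XT.lf (nat_lit 0) (nat_lit 214638477332) (nat_lit 152) (nat_lit 4709847259) (nat_lit 0) (nat_lit 132414823112) (nat_lit 29) (nat_lit 5) (nat_lit 31) (nat_lit 4) (nat_lit 29) (nat_lit 4) (nat_lit 479) (nat_lit 421) (nat_lit 300))) (XT.nd (nat_lit 78) (nat_lit 152) (nat_lit 0) (XT.lf (nat_lit 0) (nat_lit 282645303718) (nat_lit 76) (nat_lit 86151738782) (nat_lit 76) (nat_lit 3927534479) (nat_lit 28) (nat_lit 4) (nat_lit 29) (nat_lit 5) (nat_lit 29) (nat_lit 4) (nat_lit 480) (nat_lit 421) (nat_lit 299)) (XT.lf (nat_lit 0) (nat_lit 139673108595) (nat_lit 152) (nat_lit 194005412045) (nat_lit 0) (nat_lit 61363857511) (nat_lit 26) (nat_lit 5) (nat_lit 28) (nat_lit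 4) (nat_lit 26) (nat_lit 4) (nat_lit 481) (nat_lit 421) (nat_lit 298)))) (XT.nd (nat_lit 156) (nat_lit 152) (nat_lit 0) (XT.nd (nat_lit 78) (nat_lit 76) (nat_lit 0) (XT.lf (nat_lit 0) (nat_lit 101285535930) (nat_lit 76) (nat_lit 197967552058) (nat_lit 76) (nat_lit 119657851824) (nat_lit 25) (nat_lit 4) (nat_lit 26) (nat_lit 5) (nat_lit 26) (nat_lit 4) (nat_lit 482) (nat_lit 421) (nat_lit 297)) (XT.lf (nat_lit 0) (nat_lit 29482251733) (nat_lit 152) (nat_lit 17871500058) (nat_lit 76) (nat_lit 397142573438) (nat_lit 24) (nat_lit 5) (nat_lit 26) (nat_lit 5) (nat_lit 25) (nat_lit 4) (nat_lit 483) (nat_lit 421) (nat_lit 296))) (XT.nd (nat_lit 78) (nat_lit 76) (nat_lit 0) (XT.lf (nat_lit 0) (nat_lit 193230100288) (nat_lit 152) (nat_lit 159808252164) (nat_lit 0) (nat_lit 118648670587) (nat_lit 23) (nat_lit 5) (nat_lit 25) (nat_lit 4) (nat_lit 23) (nat_lit 4) (nat_lit 484) (nat_lit 421) (nat_lit 295))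 (XT.lf (nat_lit 0) (nat_lit 172318312153) (nat_lit 76) (nat_lit 201563125382) (nat_lit 76) (nat_lit 126981356109) (nat_lit 22) (nat_lit 4) (nat_lit 23) (nat_lit 5) (nat_lit 23) (nat_lit 4) (nat_lit 485) (nat_lit 421) (nat_lit 294))))))) (XT.nd (nat_lit 1170) (nat_lit 0) (nat_lit 0) (XT.nd (nat_lit 546) (nat_lit 456) (nat_lit 0) (XT.nd (nat_lit 234) (nat_lit 228) (nat_lit 0) (XT.nd (nat_lit 78) (nat_lit 76) (nat_lit 0) (XT.lf (nat_lit 0) (nat_lit 3995773930) (nat_lit 76) (nat_lit 34334888323) (nat_lit 152) (nat_lit 493868871297) (nat_lit 20) (nat_lit 5) (nat_lit 21) (nat_lit 5) (nat_lit 22) (nat_lit 4) (nat_lit 486) (nat_lit 421) (nat_lit 293)) (XT.nd (nat_lit 78) (nat_lit 76) (nat_lit 0) (XT.lf (nat_lit 0) (nat_lit 220577367398) (nat_lit 152) (nat_lit 195407301269) (nat_lit 0) (nat_lit 149546534238) (nat_lit 20) (nat_lit 5) (nat_lit 22) (nat_lit 4) (nat_lit 20) (nat_lit 4) (nat_lit 487) (nat_lit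 421) (nat_lit 292)) (XT.lf (nat_lit 0) (nat_lit 168834880621) (nat_lit 76) (nat_lit 251782469023) (nat_lit 76) (nat_lit 180751379138) (nat_lit 19) (nat_lit 4) (nat_lit 20) (nat_lit 5) (nat_lit 20) (nat_lit 4) (nat_lit 488) (nat_lit 421) (nat_lit 291)))) (XT.nd (nat_lit 156) (nat_lit 76) (nat_lit 0) (XT.nd (nat_lit 78) (nat_lit 76) (nat_lit 0) (XT.lf (nat_lit 0) (nat_lit 154818014) (nat_lit 152) (nat_lit 70713950665) (nat_lit 76) (nat_lit 569034236383) (nat_lit 18) (nat_lit 5) (nat_lit 20) (nat_lit 5) (nat_lit 19) (nat_lit 4) (nat_lit 489) (nat_lit 421) (nat_lit 290)) (XT.lf (nat_lit 0) (nat_lit 196475030331) (nat_lit 152) (nat_lit 355707190602) (nat_lit 0) (nat_lit 128825937287) (nat_lit 17) (nat_lit 5) (nat_lit 19) (nat_lit 4) (nat_lit 17) (nat_lit 4) (nat_lit 490) (nat_lit 421) (nat_lit 289))) (XT.nd (nat_lit 78) (nat_lit 0) (nat_lit 0) (XT.lf (nat_lit 0) (nat_lit 29922178898) (nat_lit 76)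 (nat_lit 381491593129) (nat_lit 76) (nat_lit 313842305992) (nat_lit 16) (nat_lit 4) (nat_lit 17) (nat_lit 5) (nat_lit 17) (nat_lit 4) (nat_lit 491) (nat_lit 421) (nat_lit 288)) (XT.lf (nat_lit 0) (nat_lit 459101728958) (nat_lit 76) (nat_lit 190640909028) (nat_lit 76) (nat_lit 122991442176) (nat_lit 16) (nat_lit 4) (nat_lit 17) (nat_lit 5) (nat_lit 17) (nat_lit 4) (nat_lit 492) (nat_lit 421) (nat_lit 287))))) (XT.nd (nat_lit 312) (nat_lit 228) (nat_lit 0) (XT.nd (nat_lit 156) (nat_lit 76) (nat_lit 0) (XT.nd (nat_lit 78) (nat_lit 0) (nat_lit 0) (XT.lf (nat_lit 0) (nat_lit 82323874691) (nat_lit 152) (nat_lit 723633053452) (nat_lit 0) (nat_lit 17895652543) (nat_lit 14) (nat_lit 5) (nat_lit 16) (nat_lit 4) (nat_lit 14) (nat_lit 4) (nat_lit 493) (nat_lit 421) (nat_lit 286)) (XT.lf (nat_lit 0) (nat_lit 308579327188) (nat_lit 152) (nat_lit 325788266548) (nat_lit 0) (nat_lit 244150958300) (nat_lit 14)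 (nat_lit 5) (nat_lit 16) (nat_lit 4) (nat_lit 14) (nat_lit 4) (nat_lit 494) (nat_lit 421) (nat_lit 285))) (XT.nd (nat_lit 78) (nat_lit 0) (nat_lit 0) (XT.lf (nat_lit 0) (nat_lit 107316915949) (nat_lit 76) (nat_lit 447292831660) (nat_lit 76) (nat_lit 382864326901) (nat_lit 13) (nat_lit 4) (nat_lit 14) (nat_lit 5) (nat_lit 14) (nat_lit 4) (nat_lit 495) (nat_lit 421) (nat_lit 284)) (XT.lf (nat_lit 0) (nat_lit 586702394945) (nat_lit 76) (nat_lit 239294285241) (nat_lit 76) (nat_lit 174865654677) (nat_lit 13) (nat_lit 4) (nat_lit 14) (nat_lit 5) (nat_lit 14) (nat_lit 4) (nat_lit 496) (nat_lit 421) (nat_lit 283)))) (XT.nd (nat_lit 156) (nat_lit 76) (nat_lit 0) (XT.nd (nat_lit 78) (nat_lit 0) (nat_lit 0) (XT.lf (nat_lit 0) (nat_lit 35473536568) (nat_lit 76) (nat_lit 13259284709) (nat_lit 152) (nat_lit 1020522332339) (nat_lit 11) (nat_lit 5) (nat_lit 12) (nat_lit 5) (nat_lit 13) (nat_lit 4) (nat_lit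 497) (nat_lit 421) (nat_lit 282)) (XT.lf (nat_lit 0) (nat_lit 295110792918) (nat_lit 152) (nat_lit 613564390815) (nat_lit 0) (nat_lit 233749978719) (nat_lit 11) (nat_lit 5) (nat_lit 13) (nat_lit 4) (nat_lit 11) (nat_lit 4) (nat_lit 498) (nat_lit 421) (nat_lit 281))) (XT.nd (nat_lit 78) (nat_lit 76) (nat_lit 0) (XT.lf (nat_lit 0) (nat_lit 561421779770) (nat_lit 152) (nat_lit 159954982899) (nat_lit 0) (nat_lit 500060870457) (nat_lit 11) (nat_lit 5) (nat_lit 13) (nat_lit 4) (nat_lit 11) (nat_lit 4) (nat_lit 499) (nat_lit 421) (nat_lit 280)) (XT.lf (nat_lit 0) (nat_lit 340851038946) (nat_lit 76) (nat_lit 513507507425) (nat_lit 76) (nat_lit 452146510044) (nat_lit 10) (nat_lit 4) (nat_lit 11) (nat_lit 5) (nat_lit 11) (nat_lit 4) (nat_lit 500) (nat_lit 421) (nat_lit 279)))))) (XT.nd (nat_lit 56784) (nat_lit 0) (nat_lit 8132) (XT.nd (nat_lit 56472) (nat_lit 0) (nat_lit 10488) (XT.nd (nat_lit 56316)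 (nat_lit 0) (nat_lit 10412) (XT.lf (nat_lit 0) (nat_lit 887432047988) (nat_lit 76) (nat_lit 286083812108) (nat_lit 76) (nat_lit 224722733184) (nat_lit 10) (nat_lit 4) (nat_lit 11) (nat_lit 5) (nat_lit 11) (nat_lit 4) (nat_lit 501) (nat_lit 421) (nat_lit 278)) (XT.nd (nat_lit 78) (nat_lit 0) (nat_lit 76) (XT.lf (nat_lit 0) (nat_lit 3681687122) (nat_lit 836) (nat_lit 3700195515) (nat_lit 836) (nat_lit 3700195515) (nat_lit 147) (nat_lit 3) (nat_lit 158) (nat_lit 3) (nat_lit 158) (nat_lit 5) (nat_lit 422) (nat_lit 422) (nat_lit 356)) (XT.lf (nat_lit 0) (nat_lit 8068368268) (nat_lit 760) (nat_lit 12548595769) (nat_lit 836) (nat_lit 2413203509) (nat_lit 148) (nat_lit 5) (nat_lit 158) (nat_lit 5) (nat_lit 159) (nat_lit 5) (nat_lit 423) (nat_lit 422) (nat_lit 355)))) (XT.nd (nat_lit 156) (nat_lit 0) (nat_lit 152) (XT.nd (nat_lit 78) (nat_lit 0) (nat_lit 76) (XT.lf (nat_lit 76) (nat_lit 6028797693) (nat_lit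 0) (nat_lit 3254298049) (nat_lit 836) (nat_lit 14659700458) (nat_lit 149) (nat_lit 5) (nat_lit 148) (nat_lit 5) (nat_lit 159) (nat_lit 5) (nat_lit 424) (nat_lit 422) (nat_lit 354)) (XT.lf (nat_lit 76) (nat_lit 1409560270) (nat_lit 0) (nat_lit 9652286876) (nat_lit 836) (nat_lit 13843248682) (nat_lit 150) (nat_lit 5) (nat_lit 149) (nat_lit 5) (nat_lit 160) (nat_lit 5) (nat_lit 425) (nat_lit 422) (nat_lit 353))) (XT.nd (nat_lit 78) (nat_lit 0) (nat_lit 76) (XT.lf (nat_lit 0) (nat_lit 13479494982) (nat_lit 760) (nat_lit 3226009520) (nat_lit 836) (nat_lit 9214047859) (nat_lit 150) (nat_lit 5) (nat_lit 160) (nat_lit 5) (nat_lit 161) (nat_lit 5) (nat_lit 426) (nat_lit 422) (nat_lit 352)) (XT.lf (nat_lit 0) (nat_lit 16574964681) (nat_lit 760) (nat_lit 7931766876) (nat_lit 836) (nat_lit 2484215903) (nat_lit 151) (nat_lit 5) (nat_lit 161) (nat_lit 5) (nat_lit 162) (nat_lit 5) (nat_lit 427) (nat_lit 422)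 (nat_lit 351))))) (XT.nd (nat_lit 312) (nat_lit 1064) (nat_lit 0) (XT.nd (nat_lit 156) (nat_lit 836) (nat_lit 0) (XT.nd (nat_lit 78) (nat_lit 684) (nat_lit 0) (XT.lf (nat_lit 76) (nat_lit 15291218988) (nat_lit 0) (nat_lit 5188860591) (nat_lit 836) (nat_lit 7639876564) (nat_lit 152) (nat_lit 5) (nat_lit 151) (nat_lit 5) (nat_lit 162) (nat_lit 5) (nat_lit 428) (nat_lit 422) (nat_lit 350)) (XT.lf (nat_lit 0) (nat_lit 11428767157) (nat_lit 760) (nat_lit 13817889954) (nat_lit 836) (nat_lit 4065177921) (nat_lit 142) (nat_lit 5) (nat_lit 152) (nat_lit 5) (nat_lit 153) (nat_lit 5) (nat_lit 429) (nat_lit 422) (nat_lit 349))) (XT.nd (nat_lit 78) (nat_lit 380) (nat_lit 0) (XT.lf (nat_lit 0) (nat_lit 337912542) (nat_lit 456) (nat_lit 23053213134) (nat_lit 76) (nat_lit 7181306596) (nat_lit 136) (nat_lit 5) (nat_lit 142) (nat_lit 5) (nat_lit 137) (nat_lit 5) (nat_lit 430) (nat_lit 422) (nat_lit 348)) (XT.lf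 (nat_lit 0) (nat_lit 3465298401) (nat_lit 380) (nat_lit 2078118669) (nat_lit 456) (nat_lit 26357500349) (nat_lit 131) (nat_lit 5) (nat_lit 136) (nat_lit 5) (nat_lit 137) (nat_lit 5) (nat_lit 431) (nat_lit 422) (nat_lit 347)))) (XT.nd (nat_lit 156) (nat_lit 684) (nat_lit 0) (XT.nd (nat_lit 78) (nat_lit 380) (nat_lit 0) (XT.lf (nat_lit 0) (nat_lit 11888188531) (nat_lit 456) (nat_lit 733603733) (nat_lit 76) (nat_lit 20677749434) (nat_lit 131) (nat_lit 5) (nat_lit 137) (nat_lit 5) (nat_lit 132) (nat_lit 5) (nat_lit 432) (nat_lit 422) (nat_lit 346)) (XT.lf (nat_lit 0) (nat_lit 19403850610) (nat_lit 456) (nat_lit 4854123420) (nat_lit 76) (nat_lit 10518917974) (nat_lit 126) (nat_lit 5) (nat_lit 132) (nat_lit 5) (nat_lit 127) (nat_lit 5) (nat_lit 433) (nat_lit 422) (nat_lit 345))) (XT.nd (nat_lit 78) (nat_lit 380) (nat_lit 0) (XT.lf (nat_lit 0) (nat_lit 27335902236) (nat_lit 304) (nat_lit 826765018)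 (nat_lit 380) (nat_lit 8177669413) (nat_lit 122) (nat_lit 5) (nat_lit 126) (nat_lit 5) (nat_lit 127) (nat_lit 5) (nat_lit 434) (nat_lit 422) (nat_lit 344)) (XT.lf (nat_lit 0) (nat_lit 462923263) (nat_lit 380) (nat_lit 13351185678) (nat_lit 76) (nat_lit 24172237922) (nat_lit 117) (nat_lit 5) (nat_lit 122) (nat_lit 5) (nat_lit 118) (nat_lit 5) (nat_lit 435) (nat_lit 422) (nat_lit 343))))))))
noncomputable def xc80 : XT := (XT.nd (nat_lit 2262) (nat_lit 2660) (nat_lit 0) (XT.nd (nat_lit 1092) (nat_lit 2128) (nat_lit 0) (XT.nd (nat_lit 546) (nat_lit 1216) (nat_lit 0) (XT.nd (nat_lit 234) (nat_lit 988) (nat_lit 0) (XT.nd (nat_lit 78) (nat_lit 532) (nat_lit 0) (XT.lf (nat_lit 0) (nat_lit 10208501482) (nat_lit 380) (nat_lit 17848384163) (nat_lit 76) (nat_lit 11665438184) (nat_lit 113) (nat_lit 5) (nat_lit 118) (nat_lit 5) (nat_lit 114) (nat_lit 5) (nat_lit 436) (nat_lit 422) (nat_lit 342)) (XT.nd (nat_lit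 78) (nat_lit 228) (nat_lit 0) (XT.lf (nat_lit 0) (nat_lit 19173507980) (nat_lit 304) (nat_lit 2319691847) (nat_lit 380) (nat_lit 20066006502) (nat_lit 109) (nat_lit 5) (nat_lit 113) (nat_lit 5) (nat_lit 114) (nat_lit 5) (nat_lit 437) (nat_lit 422) (nat_lit 341)) (XT.lf (nat_lit 0) (nat_lit 16376720394) (nat_lit 228) (nat_lit 18264679073) (nat_lit 304) (nat_lit 8853604680) (nat_lit 106) (nat_lit 5) (nat_lit 109) (nat_lit 5) (nat_lit 110) (nat_lit 5) (nat_lit 438) (nat_lit 422) (nat_lit 340)))) (XT.nd (nat_lit 156) (nat_lit 456) (nat_lit 0) (XT.nd (nat_lit 78) (nat_lit 228) (nat_lit 0) (XT.lf (nat_lit 0) (nat_lit 3950558514) (nat_lit 304) (nat_lit 31899762286) (nat_lit 76) (nat_lit 9692855524) (nat_lit 102) (nat_lit 5) (nat_lit 106) (nat_lit 5) (nat_lit 103) (nat_lit 5) (nat_lit 439) (nat_lit 422) (nat_lit 339)) (XT.lf (nat_lit 0) (nat_lit 10771362837) (nat_lit 228) (nat_lit 7649943589) (nat_lit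 304) (nat_lit 29279017663) (nat_lit 99) (nat_lit 5) (nat_lit 102) (nat_lit 5) (nat_lit 103) (nat_lit 5) (nat_lit 440) (nat_lit 422) (nat_lit 338))) (XT.nd (nat_lit 78) (nat_lit 228) (nat_lit 0) (XT.lf (nat_lit 0) (nat_lit 7868640726) (nat_lit 228) (nat_lit 27217172269) (nat_lit 304) (nat_lit 14892426488) (nat_lit 96) (nat_lit 5) (nat_lit 99) (nat_lit 5) (nat_lit 100) (nat_lit 5) (nat_lit 441) (nat_lit 422) (nat_lit 337)) (XT.lf (nat_lit 0) (nat_lit 1538174191) (nat_lit 228) (nat_lit 47285141303) (nat_lit 76) (nat_lit 3568883230) (nat_lit 93) (nat_lit 5) (nat_lit 96) (nat_lit 5) (nat_lit 94) (nat_lit 5) (nat_lit 442) (nat_lit 422) (nat_lit 336))))) (XT.nd (nat_lit 234) (nat_lit 760) (nat_lit 0) (XT.nd (nat_lit 78) (nat_lit 228) (nat_lit 0) (XT.lf (nat_lit 0) (nat_lit 1972576068) (nat_lit 228) (nat_lit 18024138786) (nat_lit 304) (nat_lit 34928591055) (nat_lit 90) (nat_lit 5) (nat_lit 93) (nat_lit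 5) (nat_lit 94) (nat_lit 5) (nat_lit 443) (nat_lit 422) (nat_lit 335)) (XT.nd (nat_lit 78) (nat_lit 228) (nat_lit 0) (XT.lf (nat_lit 0) (nat_lit 41000344332) (nat_lit 304) (nat_lit 1022326541) (nat_lit 76) (nat_lit 15584971083) (nat_lit 90) (nat_lit 5) (nat_lit 94) (nat_lit 5) (nat_lit 91) (nat_lit 5) (nat_lit 444) (nat_lit 422) (nat_lit 334)) (XT.lf (nat_lit 0) (nat_lit 4278050957) (nat_lit 228) (nat_lit 3955388261) (nat_lit 76) (nat_lit 52208637872) (nat_lit 87) (nat_lit 5) (nat_lit 90) (nat_lit 5) (nat_lit 88) (nat_lit 5) (nat_lit 445) (nat_lit 422) (nat_lit 333)))) (XT.nd (nat_lit 156) (nat_lit 380) (nat_lit 0) (XT.nd (nat_lit 78) (nat_lit 152) (nat_lit 0) (XT.lf (nat_lit 0) (nat_lit 27617346918) (nat_lit 304) (nat_lit 7250922600) (nat_lit 76) (nat_lit 28553137525) (nat_lit 84) (nat_lit 5) (nat_lit 88) (nat_lit 5) (nat_lit 85) (nat_lit 5) (nat_lit 446) (nat_lit 422) (nat_lit 332)) (XT.lf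 (nat_lit 0) (nat_lit 53942163233) (nat_lit 228) (nat_lit 10358257148) (nat_lit 76) (nat_lit 2282744606) (nat_lit 82) (nat_lit 5) (nat_lit 85) (nat_lit 5) (nat_lit 83) (nat_lit 5) (nat_lit 447) (nat_lit 422) (nat_lit 331))) (XT.nd (nat_lit 78) (nat_lit 152) (nat_lit 0) (XT.lf (nat_lit 0) (nat_lit 13594065543) (nat_lit 228) (nat_lit 13890343672) (nat_lit 76) (nat_lit 42423041988) (nat_lit 79) (nat_lit 5) (nat_lit 82) (nat_lit 5) (nat_lit 80) (nat_lit 5) (nat_lit 448) (nat_lit 422) (nat_lit 330)) (XT.lf (nat_lit 0) (nat_lit 42758303697) (nat_lit 228) (nat_lit 17490694194) (nat_lit 76) (nat_lit 13174659068) (nat_lit 77) (nat_lit 5) (nat_lit 80) (nat_lit 5) (nat_lit 78) (nat_lit 5) (nat_lit 449) (nat_lit 422) (nat_lit 329)))))) (XT.nd (nat_lit 546) (nat_lit 988) (nat_lit 0) (XT.nd (nat_lit 234) (nat_lit 608) (nat_lit 0) (XT.nd (nat_lit 78) (nat_lit 380) (nat_lit 0) (XT.lf (nat_lit 0) (nat_lit 55943529829)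 (nat_lit 152) (nat_lit 19889841732) (nat_lit 228) (nat_lit 1308903407) (nat_lit 75) (nat_lit 5) (nat_lit 77) (nat_lit 5) (nat_lit 78) (nat_lit 5) (nat_lit 450) (nat_lit 422) (nat_lit 328)) (XT.nd (nat_lit 78) (nat_lit 152) (nat_lit 0) (XT.lf (nat_lit 0) (nat_lit 30999999799) (nat_lit 228) (nat_lit 25433312975) (nat_lit 76) (nat_lit 24622501482) (nat_lit 72) (nat_lit 5) (nat_lit 75) (nat_lit 5) (nat_lit 73) (nat_lit 5) (nat_lit 451) (nat_lit 422) (nat_lit 327)) (XT.lf (nat_lit 0) (nat_lit 55486589144) (nat_lit 152) (nat_lit 11934028957) (nat_lit 228) (nat_lit 17782102957) (nat_lit 70) (nat_lit 5) (nat_lit 72) (nat_lit 5) (nat_lit 73) (nat_lit 5) (nat_lit 452) (nat_lit 422) (nat_lit 326)))) (XT.nd (nat_lit 156) (nat_lit 304) (nat_lit 0) (XT.nd (nat_lit 78) (nat_lit 152) (nat_lit 0) (XT.lf (nat_lit 0) (nat_lit 18431193369) (nat_lit 152) (nat_lit 34564712539) (nat_lit 76) (nat_lit 36576939130) (nat_lit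 68) (nat_lit 5) (nat_lit 70) (nat_lit 5) (nat_lit 69) (nat_lit 5) (nat_lit 453) (nat_lit 422) (nat_lit 325)) (XT.lf (nat_lit 0) (nat_lit 54532721502) (nat_lit 152) (nat_lit 3968488776) (nat_lit 228) (nat_lit 35697660623) (nat_lit 66) (nat_lit 5) (nat_lit 68) (nat_lit 5) (nat_lit 69) (nat_lit 5) (nat_lit 454) (nat_lit 422) (nat_lit 324))) (XT.nd (nat_lit 78) (nat_lit 152) (nat_lit 0) (XT.lf (nat_lit 0) (nat_lit 4747333048) (nat_lit 152) (nat_lit 45395065862) (nat_lit 76) (nat_lit 48938158686) (nat_lit 64) (nat_lit 5) (nat_lit 66) (nat_lit 5) (nat_lit 65) (nat_lit 5) (nat_lit 455) (nat_lit 422) (nat_lit 323)) (XT.lf (nat_lit 0) (nat_lit 48839884001) (nat_lit 228) (nat_lit 51703684759) (nat_lit 76) (nat_lit 3696818768) (nat_lit 62) (nat_lit 5) (nat_lit 65) (nat_lit 5) (nat_lit 63) (nat_lit 4) (nat_lit 456) (nat_lit 422) (nat_lit 322))))) (XT.nd (nat_lit 312) (nat_lit 380) (nat_lit 0) (XT.nd (nat_lit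 156) (nat_lit 304) (nat_lit 0) (XT.nd (nat_lit 78) (nat_lit 228) (nat_lit 0) (XT.lf (nat_lit 0) (nat_lit 50914368639) (nat_lit 76) (nat_lit 47985597433) (nat_lit 152) (nat_lit 10791031593) (nat_lit 61) (nat_lit 5) (nat_lit 62) (nat_lit 5) (nat_lit 63) (nat_lit 4) (nat_lit 457) (nat_lit 422) (nat_lit 321)) (XT.lf (nat_lit 0) (nat_lit 38041536378) (nat_lit 228) (nat_lit 66619895929) (nat_lit 76) (nat_lit 10794490398) (nat_lit 58) (nat_lit 5) (nat_lit 61) (nat_lit 5) (nat_lit 59) (nat_lit 4) (nat_lit 458) (nat_lit 422) (nat_lit 320))) (XT.nd (nat_lit 78) (nat_lit 228) (nat_lit 0) (XT.lf (nat_lit 0) (nat_lit 45982628557) (nat_lit 76) (nat_lit 46989005785) (nat_lit 152) (nat_lit 28573112944) (nat_lit 57) (nat_lit 5) (nat_lit 58) (nat_lit 5) (nat_lit 59) (nat_lit 4) (nat_lit 459) (nat_lit 422) (nat_lit 319)) (XT.lf (nat_lit 0) (nat_lit 25522307830) (nat_lit 228) (nat_lit 85406020211) (nat_lit 76)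 (nat_lit 17067447010) (nat_lit 54) (nat_lit 5) (nat_lit 57) (nat_lit 5) (nat_lit 55) (nat_lit 4) (nat_lit 460) (nat_lit 422) (nat_lit 318)))) (XT.nd (nat_lit 156) (nat_lit 152) (nat_lit 0) (XT.nd (nat_lit 78) (nat_lit 152) (nat_lit 0) (XT.lf (nat_lit 0) (nat_lit 37905912562) (nat_lit 76) (nat_lit 47770221029) (nat_lit 152) (nat_lit 49126739269) (nat_lit 53) (nat_lit 5) (nat_lit 54) (nat_lit 5) (nat_lit 55) (nat_lit 4) (nat_lit 461) (nat_lit 422) (nat_lit 317)) (XT.lf (nat_lit 0) (nat_lit 10593590769) (nat_lit 152) (nat_lit 109457728201) (nat_lit 76) (nat_lit 21977717554) (nat_lit 51) (nat_lit 5) (nat_lit 53) (nat_lit 5) (nat_lit 52) (nat_lit 4) (nat_lit 462) (nat_lit 422) (nat_lit 316))) (XT.nd (nat_lit 78) (nat_lit 76) (nat_lit 0) (XT.lf (nat_lit 0) (nat_lit 25248595473) (nat_lit 76) (nat_lit 51056755303) (nat_lit 152) (nat_lit 73340926515) (nat_lit 50) (nat_lit 5) (nat_lit 51) (nat_lit 5)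 (nat_lit 52) (nat_lit 4) (nat_lit 463) (nat_lit 422) (nat_lit 315)) (XT.lf (nat_lit 0) (nat_lit 17003151653) (nat_lit 76) (nat_lit 132837355166) (nat_lit 76) (nat_lit 7904067821) (nat_lit 49) (nat_lit 4) (nat_lit 50) (nat_lit 5) (nat_lit 50) (nat_lit 4) (nat_lit 464) (nat_lit 422) (nat_lit 314))))))) (XT.nd (nat_lit 1170) (nat_lit 1140) (nat_lit 0) (XT.nd (nat_lit 546) (nat_lit 836) (nat_lit 0) (XT.nd (nat_lit 234) (nat_lit 380) (nat_lit 0) (XT.nd (nat_lit 78) (nat_lit 152) (nat_lit 0) (XT.lf (nat_lit 0) (nat_lit 6088353822) (nat_lit 76) (nat_lit 57825750868) (nat_lit 152) (nat_lit 102369865902) (nat_lit 47) (nat_lit 5) (nat_lit 48) (nat_lit 5) (nat_lit 49) (nat_lit 4) (nat_lit 465) (nat_lit 422) (nat_lit 313)) (XT.nd (nat_lit 78) (nat_lit 152) (nat_lit 0) (XT.lf (nat_lit 0) (nat_lit 144055343821) (nat_lit 152) (nat_lit 6234878445) (nat_lit 0) (nat_lit 25067090638) (nat_lit 47) (nat_lit 5) (nat_lit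 49) (nat_lit 4) (nat_lit 47) (nat_lit 4) (nat_lit 466) (nat_lit 422) (nat_lit 312)) (XT.lf (nat_lit 0) (nat_lit 47592423961) (nat_lit 152) (nat_lit 21425640364) (nat_lit 76) (nat_lit 115923187587) (nat_lit 45) (nat_lit 5) (nat_lit 47) (nat_lit 5) (nat_lit 46) (nat_lit 4) (nat_lit 467) (nat_lit 422) (nat_lit 311)))) (XT.nd (nat_lit 156) (nat_lit 152) (nat_lit 0) (XT.nd (nat_lit 78) (nat_lit 152) (nat_lit 0) (XT.lf (nat_lit 0) (nat_lit 134606778792) (nat_lit 152) (nat_lit 39232987961) (nat_lit 0) (nat_lit 21281228046) (nat_lit 44) (nat_lit 5) (nat_lit 46) (nat_lit 4) (nat_lit 44) (nat_lit 4) (nat_lit 468) (nat_lit 422) (nat_lit 310)) (XT.lf (nat_lit 0) (nat_lit 25623345608) (nat_lit 152) (nat_lit 60799207944) (nat_lit 76) (nat_lit 119481261331) (nat_lit 42) (nat_lit 5) (nat_lit 44) (nat_lit 5) (nat_lit 43) (nat_lit 4) (nat_lit 469) (nat_lit 422) (nat_lit 309))) (XT.nd (nat_lit 78) (nat_lit 76)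 (nat_lit 0) (XT.lf (nat_lit 0) (nat_lit 119487609350) (nat_lit 152) (nat_lit 86308525131) (nat_lit 0) (nat_lit 11555733291) (nat_lit 41) (nat_lit 5) (nat_lit 43) (nat_lit 4) (nat_lit 41) (nat_lit 4) (nat_lit 470) (nat_lit 422) (nat_lit 308)) (XT.lf (nat_lit 0) (nat_lit 112874876610) (nat_lit 76) (nat_lit 112279662853) (nat_lit 76) (nat_lit 4346549208) (nat_lit 40) (nat_lit 4) (nat_lit 41) (nat_lit 5) (nat_lit 41) (nat_lit 4) (nat_lit 471) (nat_lit 422) (nat_lit 307))))) (XT.nd (nat_lit 312) (nat_lit 456) (nat_lit 0) (XT.nd (nat_lit 156) (nat_lit 152) (nat_lit 0) (XT.nd (nat_lit 78) (nat_lit 76) (nat_lit 0) (XT.lf (nat_lit 0) (nat_lit 89865832577) (nat_lit 76) (nat_lit 6622017244) (nat_lit 152) (nat_lit 145912508621) (nat_lit 38) (nat_lit 5) (nat_lit 39) (nat_lit 5) (nat_lit 40) (nat_lit 4) (nat_lit 472) (nat_lit 422) (nat_lit 306)) (XT.lf (nat_lit 0) (nat_lit 60974127176) (nat_lit 76) (nat_lit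 148957342881) (nat_lit 76) (nat_lit 46161799466) (nat_lit 37) (nat_lit 4) (nat_lit 38) (nat_lit 5) (nat_lit 38) (nat_lit 4) (nat_lit 473) (nat_lit 422) (nat_lit 305))) (XT.nd (nat_lit 78) (nat_lit 0) (nat_lit 0) (XT.lf (nat_lit 0) (nat_lit 25972008350) (nat_lit 76) (nat_lit 36841887951) (nat_lit 152) (nat_lit 207858877949) (nat_lit 35) (nat_lit 5) (nat_lit 36) (nat_lit 5) (nat_lit 37) (nat_lit 4) (nat_lit 474) (nat_lit 422) (nat_lit 304)) (XT.lf (nat_lit 0) (nat_lit 183679641131) (nat_lit 152) (nat_lit 16684289406) (nat_lit 0) (nat_lit 85777407405) (nat_lit 35) (nat_lit 5) (nat_lit 37) (nat_lit 4) (nat_lit 35) (nat_lit 4) (nat_lit 475) (nat_lit 422) (nat_lit 303)))) (XT.nd (nat_lit 156) (nat_lit 228) (nat_lit 0) (XT.nd (nat_lit 78) (nat_lit 76) (nat_lit 0) (XT.lf (nat_lit 0) (nat_lit 15386041590) (nat_lit 152) (nat_lit 66361612438) (nat_lit 76) (nat_lit 220871728685) (nat_lit 33) (nat_lit 5)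 (nat_lit 35) (nat_lit 5) (nat_lit 34) (nat_lit 4) (nat_lit 476) (nat_lit 422) (nat_lit 302)) (XT.lf (nat_lit 0) (nat_lit 143250400220) (nat_lit 152) (nat_lit 126863581542) (nat_lit 0) (nat_lit 50008776334) (nat_lit 32) (nat_lit 5) (nat_lit 34) (nat_lit 4) (nat_lit 32) (nat_lit 4) (nat_lit 477) (nat_lit 422) (nat_lit 301))) (XT.nd (nat_lit 78) (nat_lit 152) (nat_lit 0) (XT.lf (nat_lit 0) (nat_lit 140134806314) (nat_lit 76) (nat_lit 145948439003) (nat_lit 76) (nat_lit 52706191324) (nat_lit 31) (nat_lit 4) (nat_lit 32) (nat_lit 5) (nat_lit 32) (nat_lit 4) (nat_lit 478) (nat_lit 422) (nat_lit 300)) (XT.lf (nat_lit 0) (nat_lit 75283206121) (nat_lit 76) (nat_lit 6924614067) (nat_lit 152) (nat_lit 276507108221) (nat_lit 29) (nat_lit 5) (nat_lit 30) (nat_lit 5) (nat_lit 31) (nat_lit 4) (nat_lit 479) (nat_lit 422) (nat_lit 299)))))) (XT.nd (nat_lit 546) (nat_lit 608) (nat_lit 0) (XT.nd (nat_lit 234)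 (nat_lit 304) (nat_lit 0) (XT.nd (nat_lit 78) (nat_lit 228) (nat_lit 0) (XT.lf (nat_lit 0) (nat_lit 231844525663) (nat_lit 152) (nat_lit 5016599418) (nat_lit 0) (nat_lit 143041325598) (nat_lit 29) (nat_lit 5) (nat_lit 31) (nat_lit 4) (nat_lit 29) (nat_lit 4) (nat_lit 480) (nat_lit 422) (nat_lit 298)) (XT.nd (nat_lit 78) (nat_lit 152) (nat_lit 0) (XT.lf (nat_lit 0) (nat_lit 305323919974) (nat_lit 76) (nat_lit 93010311622) (nat_lit 76) (nat_lit 4206639949) (nat_lit 28) (nat_lit 4) (nat_lit 29) (nat_lit 5) (nat_lit 29) (nat_lit 4) (nat_lit 481) (nat_lit 422) (nat_lit 297)) (XT.lf (nat_lit 0) (nat_lit 150879942145) (nat_lit 152) (nat_lit 209459575879) (nat_lit 0) (nat_lit 66304600864) (nat_lit 26) (nat_lit 5) (nat_lit 28) (nat_lit 4) (nat_lit 26) (nat_lit 4) (nat_lit 482) (nat_lit 422) (nat_lit 296)))) (XT.nd (nat_lit 156) (nat_lit 152) (nat_lit 0) (XT.nd (nat_lit 78) (nat_lit 76) (nat_lit 0) (XT.lf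 (nat_lit 0) (nat_lit 109451767958) (nat_lit 76) (nat_lit 213773098291) (nat_lit 76) (nat_lit 129197371936) (nat_lit 25) (nat_lit 4) (nat_lit 26) (nat_lit 5) (nat_lit 26) (nat_lit 4) (nat_lit 483) (nat_lit 422) (nat_lit 295)) (XT.lf (nat_lit 0) (nat_lit 31870506289) (nat_lit 152) (nat_lit 19241545010) (nat_lit 76) (nat_lit 428942496007) (nat_lit 24) (nat_lit 5) (nat_lit 26) (nat_lit 5) (nat_lit 25) (nat_lit 4) (nat_lit 484) (nat_lit 422) (nat_lit 294))) (XT.nd (nat_lit 78) (nat_lit 76) (nat_lit 0) (XT.lf (nat_lit 0) (nat_lit 208717324136) (nat_lit 152) (nat_lit 172534860417) (nat_lit 0) (nat_lit 128168359333) (nat_lit 23) (nat_lit 5) (nat_lit 25) (nat_lit 4) (nat_lit 23) (nat_lit 4) (nat_lit 485) (nat_lit 422) (nat_lit 293)) (XT.lf (nat_lit 0) (nat_lit 186159306180) (nat_lit 76) (nat_lit 217660194640) (nat_lit 76) (nat_lit 137110938710) (nat_lit 22) (nat_lit 4) (nat_lit 23) (nat_lit 5) (nat_lit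 23) (nat_lit 4) (nat_lit 486) (nat_lit 422) (nat_lit 292))))) (XT.nd (nat_lit 312) (nat_lit 304) (nat_lit 0) (XT.nd (nat_lit 156) (nat_lit 152) (nat_lit 0) (XT.nd (nat_lit 78) (nat_lit 0) (nat_lit 0) (XT.lf (nat_lit 0) (nat_lit 4369437422) (nat_lit 76) (nat_lit 37054446926) (nat_lit 152) (nat_lit 533350273262) (nat_lit 20) (nat_lit 5) (nat_lit 21) (nat_lit 5) (nat_lit 22) (nat_lit 4) (nat_lit 487) (nat_lit 422) (nat_lit 291)) (XT.lf (nat_lit 0) (nat_lit 238248736687) (nat_lit 152) (nat_lit 210989038124) (nat_lit 0) (nat_lit 161534665176) (nat_lit 20) (nat_lit 5) (nat_lit 22) (nat_lit 4) (nat_lit 20) (nat_lit 4) (nat_lit 488) (nat_lit 422) (nat_lit 290))) (XT.nd (nat_lit 78) (nat_lit 76) (nat_lit 0) (XT.lf (nat_lit 0) (nat_lit 182390308557) (nat_lit 76) (nat_lit 271900503146) (nat_lit 76) (nat_lit 195186211533) (nat_lit 19) (nat_lit 4) (nat_lit 20) (nat_lit 5) (nat_lit 20) (nat_lit 4) (nat_lit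 489) (nat_lit 422) (nat_lit 289)) (XT.lf (nat_lit 0) (nat_lit 189859829) (nat_lit 152) (nat_lit 76325282759) (nat_lit 76) (nat_lit 614578969933) (nat_lit 18) (nat_lit 5) (nat_lit 20) (nat_lit 5) (nat_lit 19) (nat_lit 4) (nat_lit 490) (nat_lit 422) (nat_lit 288)))) (XT.nd (nat_lit 156) (nat_lit 152) (nat_lit 0) (XT.nd (nat_lit 78) (nat_lit 76) (nat_lit 0) (XT.lf (nat_lit 0) (nat_lit 212215040181) (nat_lit 152) (nat_lit 384119233943) (nat_lit 0) (nat_lit 139153436265) (nat_lit 17) (nat_lit 5) (nat_lit 19) (nat_lit 4) (nat_lit 17) (nat_lit 4) (nat_lit 491) (nat_lit 422) (nat_lit 287)) (XT.lf (nat_lit 0) (nat_lit 32358549815) (nat_lit 76) (nat_lit 411989366271) (nat_lit 76) (nat_lit 338927595952) (nat_lit 16) (nat_lit 4) (nat_lit 17) (nat_lit 5) (nat_lit 17) (nat_lit 4) (nat_lit 492) (nat_lit 422) (nat_lit 286))) (XT.nd (nat_lit 78) (nat_lit 152) (nat_lit 0) (XT.lf (nat_lit 0) (nat_lit 495869308575)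 (nat_lit 76) (nat_lit 205872224057) (nat_lit 76) (nat_lit 132810299661) (nat_lit 16) (nat_lit 4) (nat_lit 17) (nat_lit 5) (nat_lit 17) (nat_lit 4) (nat_lit 493) (nat_lit 422) (nat_lit 285)) (XT.lf (nat_lit 0) (nat_lit 88929022865) (nat_lit 152) (nat_lit 781484700422) (nat_lit 0) (nat_lit 19346101856) (nat_lit 14) (nat_lit 5) (nat_lit 16) (nat_lit 4) (nat_lit 14) (nat_lit 4) (nat_lit 494) (nat_lit 422) (nat_lit 284))))))))
noncomputable def xc81 : XT := (XT.nd (nat_lit 58578) (nat_lit 0) (nat_lit 2052) (XT.nd (nat_lit 57408) (nat_lit 0) (nat_lit 6080) (XT.nd (nat_lit 56862) (nat_lit 0) (nat_lit 10412) (XT.nd (nat_lit 234) (nat_lit 228) (nat_lit 0) (XT.nd (nat_lit 78) (nat_lit 76) (nat_lit 0) (XT.lf (nat_lit 0) (nat_lit 333283486510) (nat_lit 152) (nat_lit 351815219255) (nat_lit 0) (nat_lit 263700439694) (nat_lit 14) (nat_lit 5) (nat_lit 16) (nat_lit 4) (nat_lit 14) (nat_lit 4) (nat_lit 495) (nat_lit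 422) (nat_lit 283)) (XT.nd (nat_lit 78) (nat_lit 0) (nat_lit 0) (XT.lf (nat_lit 0) (nat_lit 115936808605) (nat_lit 76) (nat_lit 483058751723) (nat_lit 76) (nat_lit 413475588421) (nat_lit 13) (nat_lit 4) (nat_lit 14) (nat_lit 5) (nat_lit 14) (nat_lit 4) (nat_lit 496) (nat_lit 422) (nat_lit 282)) (XT.lf (nat_lit 0) (nat_lit 633670567448) (nat_lit 76) (nat_lit 258421618366) (nat_lit 76) (nat_lit 188838347206) (nat_lit 13) (nat_lit 4) (nat_lit 14) (nat_lit 5) (nat_lit 14) (nat_lit 4) (nat_lit 497) (nat_lit 422) (nat_lit 281)))) (XT.nd (nat_lit 156) (nat_lit 76) (nat_lit 0) (XT.nd (nat_lit 78) (nat_lit 0) (nat_lit 0) (XT.lf (nat_lit 0) (nat_lit 38342517598) (nat_lit 76) (nat_lit 14304257341) (nat_lit 152) (nat_lit 1102148024505) (nat_lit 11) (nat_lit 5) (nat_lit 12) (nat_lit 5) (nat_lit 13) (nat_lit 4) (nat_lit 498) (nat_lit 422) (nat_lit 280)) (XT.lf (nat_lit 0) (nat_lit 318734076886) (nat_lit 152)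 (nat_lit 662620265832) (nat_lit 0) (nat_lit 252464111647) (nat_lit 11) (nat_lit 5) (nat_lit 13) (nat_lit 4) (nat_lit 11) (nat_lit 4) (nat_lit 499) (nat_lit 422) (nat_lit 279))) (XT.nd (nat_lit 78) (nat_lit 76) (nat_lit 0) (XT.lf (nat_lit 0) (nat_lit 606348874497) (nat_lit 152) (nat_lit 172724273893) (nat_lit 0) (nat_lit 540078827714) (nat_lit 11) (nat_lit 5) (nat_lit 13) (nat_lit 4) (nat_lit 11) (nat_lit 4) (nat_lit 500) (nat_lit 422) (nat_lit 278)) (XT.lf (nat_lit 0) (nat_lit 368145051634) (nat_lit 76) (nat_lit 554574946563) (nat_lit 76) (nat_lit 488304824276) (nat_lit 10) (nat_lit 4) (nat_lit 11) (nat_lit 5) (nat_lit 11) (nat_lit 4) (nat_lit 501) (nat_lit 422) (nat_lit 277))))) (XT.nd (nat_lit 234) (nat_lit 0) (nat_lit 152) (XT.nd (nat_lit 78) (nat_lit 0) (nat_lit 76) (XT.lf (nat_lit 0) (nat_lit 4178489316) (nat_lit 836) (nat_lit 3890005220) (nat_lit 836) (nat_lit 3890005220) (nat_lit 147)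 (nat_lit 3) (nat_lit 158) (nat_lit 3) (nat_lit 158) (nat_lit 5) (nat_lit 423) (nat_lit 423) (nat_lit 354)) (XT.nd (nat_lit 78) (nat_lit 0) (nat_lit 0) (XT.lf (nat_lit 0) (nat_lit 9088853507) (nat_lit 760) (nat_lit 13327632348) (nat_lit 836) (nat_lit 2437286370) (nat_lit 148) (nat_lit 5) (nat_lit 158) (nat_lit 5) (nat_lit 159) (nat_lit 5) (nat_lit 424) (nat_lit 423) (nat_lit 353)) (XT.lf (nat_lit 76) (nat_lit 6726180837) (nat_lit 0) (nat_lit 3650157386) (nat_lit 836) (nat_lit 15464298286) (nat_lit 149) (nat_lit 5) (nat_lit 148) (nat_lit 5) (nat_lit 159) (nat_lit 5) (nat_lit 425) (nat_lit 423) (nat_lit 352)))) (XT.nd (nat_lit 156) (nat_lit 0) (nat_lit 152) (XT.nd (nat_lit 78) (nat_lit 0) (nat_lit 76) (XT.lf (nat_lit 76) (nat_lit 1746900396) (nat_lit 0) (nat_lit 10526066555) (nat_lit 836) (nat_lit 14608178271) (nat_lit 150) (nat_lit 5) (nat_lit 149) (nat_lit 5) (nat_lit 160) (nat_lit 5) (nat_lit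 426) (nat_lit 423) (nat_lit 351)) (XT.lf (nat_lit 0) (nat_lit 14858397009) (nat_lit 760) (nat_lit 3259534923) (nat_lit 836) (nat_lit 9860111504) (nat_lit 150) (nat_lit 5) (nat_lit 160) (nat_lit 5) (nat_lit 161) (nat_lit 5) (nat_lit 427) (nat_lit 423) (nat_lit 350))) (XT.nd (nat_lit 78) (nat_lit 0) (nat_lit 0) (XT.lf (nat_lit 0) (nat_lit 18181551942) (nat_lit 760) (nat_lit 8336343990) (nat_lit 836) (nat_lit 2618255236) (nat_lit 151) (nat_lit 5) (nat_lit 161) (nat_lit 5) (nat_lit 162) (nat_lit 5) (nat_lit 428) (nat_lit 423) (nat_lit 349)) (XT.lf (nat_lit 76) (nat_lit 16734486778) (nat_lit 0) (nat_lit 5647239155) (nat_lit 836) (nat_lit 7974625271) (nat_lit 152) (nat_lit 5) (nat_lit 151) (nat_lit 5) (nat_lit 162) (nat_lit 5) (nat_lit 429) (nat_lit 423) (nat_lit 348)))))) (XT.nd (nat_lit 546) (nat_lit 2052) (nat_lit 0) (XT.nd (nat_lit 234) (nat_lit 1064) (nat_lit 0) (XT.nd (nat_lit 78) (nat_lit 836)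 (nat_lit 0) (XT.lf (nat_lit 0) (nat_lit 12566753075) (nat_lit 760) (nat_lit 14946244156) (nat_lit 836) (nat_lit 4131417715) (nat_lit 142) (nat_lit 5) (nat_lit 152) (nat_lit 5) (nat_lit 153) (nat_lit 5) (nat_lit 430) (nat_lit 423) (nat_lit 347)) (XT.nd (nat_lit 78) (nat_lit 380) (nat_lit 0) (XT.lf (nat_lit 0) (nat_lit 600313548) (nat_lit 456) (nat_lit 24663520396) (nat_lit 76) (nat_lit 7742592314) (nat_lit 136) (nat_lit 5) (nat_lit 142) (nat_lit 5) (nat_lit 137) (nat_lit 5) (nat_lit 431) (nat_lit 423) (nat_lit 346)) (XT.lf (nat_lit 0) (nat_lit 3966304889) (nat_lit 380) (nat_lit 2242012756) (nat_lit 456) (nat_lit 28233571996) (nat_lit 131) (nat_lit 5) (nat_lit 136) (nat_lit 5) (nat_lit 137) (nat_lit 5) (nat_lit 432) (nat_lit 423) (nat_lit 345)))) (XT.nd (nat_lit 156) (nat_lit 684) (nat_lit 0) (XT.nd (nat_lit 78) (nat_lit 380) (nat_lit 0) (XT.lf (nat_lit 0) (nat_lit 13044302858) (nat_lit 456) (nat_lit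 574841094) (nat_lit 76) (nat_lit 22334080518) (nat_lit 131) (nat_lit 5) (nat_lit 137) (nat_lit 5) (nat_lit 132) (nat_lit 5) (nat_lit 433) (nat_lit 423) (nat_lit 344)) (XT.lf (nat_lit 0) (nat_lit 21149508181) (nat_lit 456) (nat_lit 5025003468) (nat_lit 76) (nat_lit 11374838681) (nat_lit 126) (nat_lit 5) (nat_lit 132) (nat_lit 5) (nat_lit 127) (nat_lit 5) (nat_lit 434) (nat_lit 423) (nat_lit 343))) (XT.nd (nat_lit 78) (nat_lit 380) (nat_lit 0) (XT.lf (nat_lit 0) (nat_lit 29730774136) (nat_lit 304) (nat_lit 867181293) (nat_lit 380) (nat_lit 8640470769) (nat_lit 122) (nat_lit 5) (nat_lit 126) (nat_lit 5) (nat_lit 127) (nat_lit 5) (nat_lit 435) (nat_lit 423) (nat_lit 342)) (XT.lf (nat_lit 0) (nat_lit 675185897) (nat_lit 380) (nat_lit 14206149382) (nat_lit 76) (nat_lit 26135137025) (nat_lit 117) (nat_lit 5) (nat_lit 122) (nat_lit 5) (nat_lit 118) (nat_lit 5) (nat_lit 436) (nat_lit 423) (nat_lit 341)))))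 (XT.nd (nat_lit 312) (nat_lit 912) (nat_lit 0) (XT.nd (nat_lit 156) (nat_lit 532) (nat_lit 0) (XT.nd (nat_lit 78) (nat_lit 304) (nat_lit 0) (XT.lf (nat_lit 0) (nat_lit 11191213534) (nat_lit 380) (nat_lit 19064695361) (nat_lit 76) (nat_lit 12635879921) (nat_lit 113) (nat_lit 5) (nat_lit 118) (nat_lit 5) (nat_lit 114) (nat_lit 5) (nat_lit 437) (nat_lit 423) (nat_lit 340)) (XT.lf (nat_lit 0) (nat_lit 20909754034) (nat_lit 304) (nat_lit 2459794543) (nat_lit 380) (nat_lit 21506531729) (nat_lit 109) (nat_lit 5) (nat_lit 113) (nat_lit 5) (nat_lit 114) (nat_lit 5) (nat_lit 438) (nat_lit 423) (nat_lit 339))) (XT.nd (nat_lit 78) (nat_lit 304) (nat_lit 0) (XT.lf (nat_lit 0) (nat_lit 17887270619) (nat_lit 228) (nat_lit 19674498251) (nat_lit 304) (nat_lit 9405366170) (nat_lit 106) (nat_lit 5) (nat_lit 109) (nat_lit 5) (nat_lit 110) (nat_lit 5) (nat_lit 439) (nat_lit 423) (nat_lit 338)) (XT.lf (nat_lit 0)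 (nat_lit 4410794627) (nat_lit 304) (nat_lit 34248880261) (nat_lit 76) (nat_lit 10519731362) (nat_lit 102) (nat_lit 5) (nat_lit 106) (nat_lit 5) (nat_lit 103) (nat_lit 5) (nat_lit 440) (nat_lit 423) (nat_lit 337)))) (XT.nd (nat_lit 156) (nat_lit 456) (nat_lit 0) (XT.nd (nat_lit 78) (nat_lit 228) (nat_lit 0) (XT.lf (nat_lit 0) (nat_lit 11827118693) (nat_lit 228) (nat_lit 8204432447) (nat_lit 304) (nat_lit 31477958340) (nat_lit 99) (nat_lit 5) (nat_lit 102) (nat_lit 5) (nat_lit 103) (nat_lit 5) (nat_lit 441) (nat_lit 423) (nat_lit 336)) (XT.lf (nat_lit 0) (nat_lit 8689430209) (nat_lit 228) (nat_lit 29333491971) (nat_lit 304) (nat_lit 15947051730) (nat_lit 96) (nat_lit 5) (nat_lit 99) (nat_lit 5) (nat_lit 100) (nat_lit 5) (nat_lit 442) (nat_lit 423) (nat_lit 335))) (XT.nd (nat_lit 78) (nat_lit 228) (nat_lit 0) (XT.lf (nat_lit 0) (nat_lit 1787698166) (nat_lit 228) (nat_lit 50875445879) (nat_lit 76)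 (nat_lit 3914096030) (nat_lit 93) (nat_lit 5) (nat_lit 96) (nat_lit 5) (nat_lit 94) (nat_lit 5) (nat_lit 443) (nat_lit 423) (nat_lit 334)) (XT.lf (nat_lit 0) (nat_lit 2314522774) (nat_lit 228) (nat_lit 19401906109) (nat_lit 304) (nat_lit 37596892430) (nat_lit 90) (nat_lit 5) (nat_lit 93) (nat_lit 5) (nat_lit 94) (nat_lit 5) (nat_lit 444) (nat_lit 423) (nat_lit 333))))))) (XT.nd (nat_lit 1170) (nat_lit 1596) (nat_lit 0) (XT.nd (nat_lit 546) (nat_lit 1292) (nat_lit 0) (XT.nd (nat_lit 234) (nat_lit 684) (nat_lit 0) (XT.nd (nat_lit 78) (nat_lit 456) (nat_lit 0) (XT.lf (nat_lit 0) (nat_lit 44392389116) (nat_lit 304) (nat_lit 928975710) (nat_lit 76) (nat_lit 16889278157) (nat_lit 90) (nat_lit 5) (nat_lit 94) (nat_lit 5) (nat_lit 91) (nat_lit 5) (nat_lit 445) (nat_lit 423) (nat_lit 332)) (XT.nd (nat_lit 78) (nat_lit 228) (nat_lit 0) (XT.lf (nat_lit 0) (nat_lit 4728381931) (nat_lit 228) (nat_lit 4100711414)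 (nat_lit 76) (nat_lit 56442937217) (nat_lit 87) (nat_lit 5) (nat_lit 90) (nat_lit 5) (nat_lit 88) (nat_lit 5) (nat_lit 446) (nat_lit 423) (nat_lit 331)) (XT.lf (nat_lit 0) (nat_lit 29930323449) (nat_lit 304) (nat_lit 7663138061) (nat_lit 76) (nat_lit 30896470927) (nat_lit 84) (nat_lit 5) (nat_lit 88) (nat_lit 5) (nat_lit 85) (nat_lit 5) (nat_lit 447) (nat_lit 423) (nat_lit 330)))) (XT.nd (nat_lit 156) (nat_lit 304) (nat_lit 0) (XT.nd (nat_lit 78) (nat_lit 228) (nat_lit 0) (XT.lf (nat_lit 0) (nat_lit 58356928867) (nat_lit 228) (nat_lit 11022396210) (nat_lit 76) (nat_lit 2525516321) (nat_lit 82) (nat_lit 5) (nat_lit 85) (nat_lit 5) (nat_lit 83) (nat_lit 5) (nat_lit 448) (nat_lit 423) (nat_lit 329)) (XT.lf (nat_lit 0) (nat_lit 14777633347) (nat_lit 228) (nat_lit 14841017647) (nat_lit 76) (nat_lit 45876587865) (nat_lit 79) (nat_lit 5) (nat_lit 82) (nat_lit 5) (nat_lit 80) (nat_lit 5) (nat_lit 449)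 (nat_lit 423) (nat_lit 328))) (XT.nd (nat_lit 78) (nat_lit 152) (nat_lit 0) (XT.lf (nat_lit 0) (nat_lit 46271265940) (nat_lit 228) (nat_lit 18732773420) (nat_lit 76) (nat_lit 14288889414) (nat_lit 77) (nat_lit 5) (nat_lit 80) (nat_lit 5) (nat_lit 78) (nat_lit 5) (nat_lit 450) (nat_lit 423) (nat_lit 327)) (XT.lf (nat_lit 0) (nat_lit 60569357834) (nat_lit 152) (nat_lit 21418491830) (nat_lit 228) (nat_lit 1321411470) (nat_lit 75) (nat_lit 5) (nat_lit 77) (nat_lit 5) (nat_lit 78) (nat_lit 5) (nat_lit 451) (nat_lit 423) (nat_lit 326))))) (XT.nd (nat_lit 312) (nat_lit 608) (nat_lit 0) (XT.nd (nat_lit 156) (nat_lit 304) (nat_lit 0) (XT.nd (nat_lit 78) (nat_lit 152) (nat_lit 0) (XT.lf (nat_lit 0) (nat_lit 33565894436) (nat_lit 228) (nat_lit 27318050549) (nat_lit 76) (nat_lit 26652034906) (nat_lit 72) (nat_lit 5) (nat_lit 75) (nat_lit 5) (nat_lit 73) (nat_lit 5) (nat_lit 452) (nat_lit 423) (nat_lit 325))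 (XT.lf (nat_lit 0) (nat_lit 60068928074) (nat_lit 152) (nat_lit 12827110621) (nat_lit 228) (nat_lit 19118807071) (nat_lit 70) (nat_lit 5) (nat_lit 72) (nat_lit 5) (nat_lit 73) (nat_lit 5) (nat_lit 453) (nat_lit 423) (nat_lit 324))) (XT.nd (nat_lit 78) (nat_lit 152) (nat_lit 0) (XT.lf (nat_lit 0) (nat_lit 19985778125) (nat_lit 152) (nat_lit 37187063693) (nat_lit 76) (nat_lit 39561822462) (nat_lit 68) (nat_lit 5) (nat_lit 70) (nat_lit 5) (nat_lit 69) (nat_lit 5) (nat_lit 454) (nat_lit 423) (nat_lit 323)) (XT.lf (nat_lit 0) (nat_lit 59031958033) (nat_lit 152) (nat_lit 4225638816) (nat_lit 228) (nat_lit 38473365628) (nat_lit 66) (nat_lit 5) (nat_lit 68) (nat_lit 5) (nat_lit 69) (nat_lit 5) (nat_lit 455) (nat_lit 423) (nat_lit 322)))) (XT.nd (nat_lit 156) (nat_lit 304) (nat_lit 0) (XT.nd (nat_lit 78) (nat_lit 152) (nat_lit 0) (XT.lf (nat_lit 0) (nat_lit 5201923436) (nat_lit 152) (nat_lit 48890761880)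 (nat_lit 76) (nat_lit 52910573518) (nat_lit 64) (nat_lit 5) (nat_lit 66) (nat_lit 5) (nat_lit 65) (nat_lit 5) (nat_lit 456) (nat_lit 423) (nat_lit 321)) (XT.lf (nat_lit 0) (nat_lit 52819283788) (nat_lit 228) (nat_lit 55707325805) (nat_lit 76) (nat_lit 4049395536) (nat_lit 62) (nat_lit 5) (nat_lit 65) (nat_lit 5) (nat_lit 63) (nat_lit 4) (nat_lit 457) (nat_lit 423) (nat_lit 320))) (XT.nd (nat_lit 78) (nat_lit 228) (nat_lit 0) (XT.lf (nat_lit 0) (nat_lit 55114406895) (nat_lit 76) (nat_lit 51766397800) (nat_lit 152) (nat_lit 11582027989) (nat_lit 61) (nat_lit 5) (nat_lit 62) (nat_lit 5) (nat_lit 63) (nat_lit 4) (nat_lit 458) (nat_lit 423) (nat_lit 319)) (XT.lf (nat_lit 0) (nat_lit 41152466161) (nat_lit 228) (nat_lit 71823447284) (nat_lit 76) (nat_lit 11713100326) (nat_lit 58) (nat_lit 5) (nat_lit 61) (nat_lit 5) (nat_lit 59) (nat_lit 4) (nat_lit 459) (nat_lit 423) (nat_lit 318)))))) (XT.nd (nat_lit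 546) (nat_lit 760) (nat_lit 0) (XT.nd (nat_lit 234) (nat_lit 456) (nat_lit 0) (XT.nd (nat_lit 78) (nat_lit 304) (nat_lit 0) (XT.lf (nat_lit 0) (nat_lit 49781801602) (nat_lit 76) (nat_lit 50692044767) (nat_lit 152) (nat_lit 30791254409) (nat_lit 57) (nat_lit 5) (nat_lit 58) (nat_lit 5) (nat_lit 59) (nat_lit 4) (nat_lit 460) (nat_lit 423) (nat_lit 317)) (XT.nd (nat_lit 78) (nat_lit 76) (nat_lit 0) (XT.lf (nat_lit 0) (nat_lit 27627467848) (nat_lit 228) (nat_lit 92118832594) (nat_lit 76) (nat_lit 18485965879) (nat_lit 54) (nat_lit 5) (nat_lit 57) (nat_lit 5) (nat_lit 55) (nat_lit 4) (nat_lit 461) (nat_lit 423) (nat_lit 316)) (XT.lf (nat_lit 0) (nat_lit 41052854122) (nat_lit 76) (nat_lit 51537838250) (nat_lit 152) (nat_lit 52993385094) (nat_lit 53) (nat_lit 5) (nat_lit 54) (nat_lit 5) (nat_lit 55) (nat_lit 4) (nat_lit 462) (nat_lit 423) (nat_lit 315)))) (XT.nd (nat_lit 156) (nat_lit 228) (nat_lit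 0) (XT.nd (nat_lit 78) (nat_lit 76) (nat_lit 0) (XT.lf (nat_lit 0) (nat_lit 11500550586) (nat_lit 152) (nat_lit 118100797239) (nat_lit 76) (nat_lit 23787036390) (nat_lit 51) (nat_lit 5) (nat_lit 53) (nat_lit 5) (nat_lit 52) (nat_lit 4) (nat_lit 463) (nat_lit 423) (nat_lit 314)) (XT.lf (nat_lit 0) (nat_lit 27377097619) (nat_lit 76) (nat_lit 55089444177) (nat_lit 152) (nat_lit 79148598045) (nat_lit 50) (nat_lit 5) (nat_lit 51) (nat_lit 5) (nat_lit 52) (nat_lit 4) (nat_lit 464) (nat_lit 423) (nat_lit 313))) (XT.nd (nat_lit 78) (nat_lit 152) (nat_lit 0) (XT.lf (nat_lit 0) (nat_lit 18469239899) (nat_lit 76) (nat_lit 143413467739) (nat_lit 76) (nat_lit 8478683584) (nat_lit 49) (nat_lit 4) (nat_lit 50) (nat_lit 5) (nat_lit 50) (nat_lit 4) (nat_lit 465) (nat_lit 423) (nat_lit 312)) (XT.lf (nat_lit 0) (nat_lit 6678426784) (nat_lit 76) (nat_lit 62402139097) (nat_lit 152) (nat_lit 110503454506) (nat_lit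 47) (nat_lit 5) (nat_lit 48) (nat_lit 5) (nat_lit 49) (nat_lit 4) (nat_lit 466) (nat_lit 423) (nat_lit 311))))) (XT.nd (nat_lit 312) (nat_lit 380) (nat_lit 0) (XT.nd (nat_lit 156) (nat_lit 228) (nat_lit 0) (XT.nd (nat_lit 78) (nat_lit 152) (nat_lit 0) (XT.lf (nat_lit 0) (nat_lit 155629871633) (nat_lit 152) (nat_lit 6636541875) (nat_lit 0) (nat_lit 27116978289) (nat_lit 47) (nat_lit 5) (nat_lit 49) (nat_lit 4) (nat_lit 47) (nat_lit 4) (nat_lit 467) (nat_lit 423) (nat_lit 310)) (XT.lf (nat_lit 0) (nat_lit 51448442834) (nat_lit 152) (nat_lit 23045177012) (nat_lit 76) (nat_lit 125240499980) (nat_lit 45) (nat_lit 5) (nat_lit 47) (nat_lit 5) (nat_lit 46) (nat_lit 4) (nat_lit 468) (nat_lit 423) (nat_lit 309))) (XT.nd (nat_lit 78) (nat_lit 152) (nat_lit 0) (XT.lf (nat_lit 0) (nat_lit 145422442246) (nat_lit 152) (nat_lit 42279583792) (nat_lit 0) (nat_lit 23026291373) (nat_lit 44) (nat_lit 5) (nat_lit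 46) (nat_lit 4) (nat_lit 44) (nat_lit 4) (nat_lit 469) (nat_lit 423) (nat_lit 308)) (XT.lf (nat_lit 0) (nat_lit 27718957164) (nat_lit 152) (nat_lit 65573588150) (nat_lit 76) (nat_lit 129081286756) (nat_lit 42) (nat_lit 5) (nat_lit 44) (nat_lit 5) (nat_lit 43) (nat_lit 4) (nat_lit 470) (nat_lit 423) (nat_lit 307)))) (XT.nd (nat_lit 156) (nat_lit 228) (nat_lit 0) (XT.nd (nat_lit 78) (nat_lit 76) (nat_lit 0) (XT.lf (nat_lit 0) (nat_lit 129090966323) (nat_lit 152) (nat_lit 93126012622) (nat_lit 0) (nat_lit 12520820089) (nat_lit 41) (nat_lit 5) (nat_lit 43) (nat_lit 4) (nat_lit 41) (nat_lit 4) (nat_lit 471) (nat_lit 423) (nat_lit 306)) (XT.lf (nat_lit 0) (nat_lit 121988271890) (nat_lit 76) (nat_lit 121220996088) (nat_lit 76) (nat_lit 4649788825) (nat_lit 40) (nat_lit 4) (nat_lit 41) (nat_lit 5) (nat_lit 41) (nat_lit 4) (nat_lit 472) (nat_lit 423) (nat_lit 305))) (XT.nd (nat_lit 78) (nat_lit 76) (nat_lit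 0) (XT.lf (nat_lit 0) (nat_lit 97136242180) (nat_lit 76) (nat_lit 7111773369) (nat_lit 152) (nat_lit 157542314070) (nat_lit 38) (nat_lit 5) (nat_lit 39) (nat_lit 5) (nat_lit 40) (nat_lit 4) (nat_lit 473) (nat_lit 423) (nat_lit 304)) (XT.lf (nat_lit 0) (nat_lit 65931044604) (nat_lit 76) (nat_lit 160834845102) (nat_lit 76) (nat_lit 49812845711) (nat_lit 37) (nat_lit 4) (nat_lit 38) (nat_lit 5) (nat_lit 38) (nat_lit 4) (nat_lit 474) (nat_lit 423) (nat_lit 303))))))))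
noncomputable def xc82 : XT := (XT.nd (nat_lit 58656) (nat_lit 0) (nat_lit 4332) (XT.nd (nat_lit 1092) (nat_lit 684) (nat_lit 0) (XT.nd (nat_lit 546) (nat_lit 684) (nat_lit 0) (XT.nd (nat_lit 234) (nat_lit 304) (nat_lit 0) (XT.nd (nat_lit 78) (nat_lit 152) (nat_lit 0) (XT.lf (nat_lit 0) (nat_lit 28126606807) (nat_lit 76) (nat_lit 39751153372) (nat_lit 152) (nat_lit 224446897902) (nat_lit 35) (nat_lit 5) (nat_lit 36) (nat_lit 5) (nat_lit 37) (nat_lit 4) (nat_lit 475) (nat_lit 423) (nat_lit 302)) (XT.nd (nat_lit 78) (nat_lit 152) (nat_lit 0) (XT.lf (nat_lit 0) (nat_lit 198410444642) (nat_lit 152) (nat_lit 17946642489) (nat_lit 0) (nat_lit 92673735773) (nat_lit 35) (nat_lit 5) (nat_lit 37) (nat_lit 4) (nat_lit 35) (nat_lit 4) (nat_lit 476) (nat_lit 423) (nat_lit 301)) (XT.lf (nat_lit 0) (nat_lit 16652310694) (nat_lit 152) (nat_lit 71600126927) (nat_lit 76) (nat_lit 238574726012) (nat_lit 33) (nat_lit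 5) (nat_lit 35) (nat_lit 5) (nat_lit 34) (nat_lit 4) (nat_lit 477) (nat_lit 423) (nat_lit 300)))) (XT.nd (nat_lit 156) (nat_lit 152) (nat_lit 0) (XT.nd (nat_lit 78) (nat_lit 76) (nat_lit 0) (XT.lf (nat_lit 0) (nat_lit 154744772061) (nat_lit 152) (nat_lit 136944146126) (nat_lit 0) (nat_lit 54041943187) (nat_lit 32) (nat_lit 5) (nat_lit 34) (nat_lit 4) (nat_lit 32) (nat_lit 4) (nat_lit 478) (nat_lit 423) (nat_lit 299)) (XT.lf (nat_lit 0) (nat_lit 151411134878) (nat_lit 76) (nat_lit 157591589524) (nat_lit 76) (nat_lit 56888225847) (nat_lit 31) (nat_lit 4) (nat_lit 32) (nat_lit 5) (nat_lit 32) (nat_lit 4) (nat_lit 479) (nat_lit 423) (nat_lit 298))) (XT.nd (nat_lit 78) (nat_lit 0) (nat_lit 0) (XT.lf (nat_lit 0) (nat_lit 81369613551) (nat_lit 76) (nat_lit 7446714456) (nat_lit 152) (nat_lit 298594200258) (nat_lit 29) (nat_lit 5) (nat_lit 30) (nat_lit 5) (nat_lit 31) (nat_lit 4) (nat_lit 480) (nat_lit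 423) (nat_lit 297)) (XT.lf (nat_lit 0) (nat_lit 250422068979) (nat_lit 152) (nat_lit 5357883115) (nat_lit 0) (nat_lit 154513195292) (nat_lit 29) (nat_lit 5) (nat_lit 31) (nat_lit 4) (nat_lit 29) (nat_lit 4) (nat_lit 481) (nat_lit 423) (nat_lit 296))))) (XT.nd (nat_lit 234) (nat_lit 380) (nat_lit 0) (XT.nd (nat_lit 78) (nat_lit 228) (nat_lit 0) (XT.lf (nat_lit 0) (nat_lit 329807268379) (nat_lit 76) (nat_lit 100422358891) (nat_lit 76) (nat_lit 4513080878) (nat_lit 28) (nat_lit 4) (nat_lit 29) (nat_lit 5) (nat_lit 29) (nat_lit 4) (nat_lit 482) (nat_lit 423) (nat_lit 295)) (XT.nd (nat_lit 78) (nat_lit 76) (nat_lit 0) (XT.lf (nat_lit 0) (nat_lit 162978616720) (nat_lit 152) (nat_lit 226159526853) (nat_lit 0) (nat_lit 71636090634) (nat_lit 26) (nat_lit 5) (nat_lit 28) (nat_lit 4) (nat_lit 26) (nat_lit 4) (nat_lit 483) (nat_lit 423) (nat_lit 294)) (XT.lf (nat_lit 0) (nat_lit 118262255376) (nat_lit 76)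 (nat_lit 230847633113) (nat_lit 76) (nat_lit 139504776888) (nat_lit 25) (nat_lit 4) (nat_lit 26) (nat_lit 5) (nat_lit 26) (nat_lit 4) (nat_lit 484) (nat_lit 423) (nat_lit 293)))) (XT.nd (nat_lit 156) (nat_lit 228) (nat_lit 0) (XT.nd (nat_lit 78) (nat_lit 76) (nat_lit 0) (XT.lf (nat_lit 0) (nat_lit 34445587822) (nat_lit 152) (nat_lit 20729706872) (nat_lit 76) (nat_lit 463282344155) (nat_lit 24) (nat_lit 5) (nat_lit 26) (nat_lit 5) (nat_lit 25) (nat_lit 4) (nat_lit 485) (nat_lit 423) (nat_lit 292)) (XT.lf (nat_lit 0) (nat_lit 225439414992) (nat_lit 152) (nat_lit 186287879085) (nat_lit 0) (nat_lit 138445657898) (nat_lit 23) (nat_lit 5) (nat_lit 25) (nat_lit 4) (nat_lit 23) (nat_lit 4) (nat_lit 486) (nat_lit 423) (nat_lit 291))) (XT.nd (nat_lit 78) (nat_lit 152) (nat_lit 0) (XT.lf (nat_lit 0) (nat_lit 201099657889) (nat_lit 76) (nat_lit 235049021210) (nat_lit 76) (nat_lit 148055014521) (nat_lit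 22) (nat_lit 4) (nat_lit 23) (nat_lit 5) (nat_lit 23) (nat_lit 4) (nat_lit 487) (nat_lit 423) (nat_lit 290)) (XT.lf (nat_lit 0) (nat_lit 4765290064) (nat_lit 76) (nat_lit 39995455232) (nat_lit 152) (nat_lit 575994197269) (nat_lit 20) (nat_lit 5) (nat_lit 21) (nat_lit 5) (nat_lit 22) (nat_lit 4) (nat_lit 488) (nat_lit 423) (nat_lit 289)))))) (XT.nd (nat_lit 546) (nat_lit 228) (nat_lit 0) (XT.nd (nat_lit 234) (nat_lit 304) (nat_lit 0) (XT.nd (nat_lit 78) (nat_lit 152) (nat_lit 0) (XT.lf (nat_lit 0) (nat_lit 257330223326) (nat_lit 152) (nat_lit 227824567855) (nat_lit 0) (nat_lit 174478364486) (nat_lit 20) (nat_lit 5) (nat_lit 22) (nat_lit 4) (nat_lit 20) (nat_lit 4) (nat_lit 489) (nat_lit 423) (nat_lit 288)) (XT.nd (nat_lit 78) (nat_lit 76) (nat_lit 0) (XT.lf (nat_lit 0) (nat_lit 197023232048) (nat_lit 76) (nat_lit 293631484241) (nat_lit 76) (nat_lit 210779436700) (nat_lit 19) (nat_lit 4) (nat_lit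 20) (nat_lit 5) (nat_lit 20) (nat_lit 4) (nat_lit 490) (nat_lit 423) (nat_lit 287)) (XT.lf (nat_lit 0) (nat_lit 224472804) (nat_lit 152) (nat_lit 82392053014) (nat_lit 76) (nat_lit 663764144386) (nat_lit 18) (nat_lit 5) (nat_lit 20) (nat_lit 5) (nat_lit 19) (nat_lit 4) (nat_lit 491) (nat_lit 423) (nat_lit 286)))) (XT.nd (nat_lit 156) (nat_lit 152) (nat_lit 0) (XT.nd (nat_lit 78) (nat_lit 76) (nat_lit 0) (XT.lf (nat_lit 0) (nat_lit 229211111214) (nat_lit 152) (nat_lit 414810593726) (nat_lit 0) (nat_lit 150304078789) (nat_lit 17) (nat_lit 5) (nat_lit 19) (nat_lit 4) (nat_lit 17) (nat_lit 4) (nat_lit 492) (nat_lit 423) (nat_lit 285)) (XT.lf (nat_lit 0) (nat_lit 34983753522) (nat_lit 76) (nat_lit 444930036227) (nat_lit 76) (nat_lit 366022861139) (nat_lit 16) (nat_lit 4) (nat_lit 17) (nat_lit 5) (nat_lit 17) (nat_lit 4) (nat_lit 493) (nat_lit 423) (nat_lit 284))) (XT.nd (nat_lit 78) (nat_lit 152)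 (nat_lit 0) (XT.lf (nat_lit 0) (nat_lit 535572667819) (nat_lit 76) (nat_lit 222324891477) (nat_lit 76) (nat_lit 143417584292) (nat_lit 16) (nat_lit 4) (nat_lit 17) (nat_lit 5) (nat_lit 17) (nat_lit 4) (nat_lit 494) (nat_lit 423) (nat_lit 283)) (XT.lf (nat_lit 0) (nat_lit 96059838349) (nat_lit 152) (nat_lit 843970042551) (nat_lit 0) (nat_lit 20909905495) (nat_lit 14) (nat_lit 5) (nat_lit 16) (nat_lit 4) (nat_lit 14) (nat_lit 4) (nat_lit 495) (nat_lit 423) (nat_lit 282))))) (XT.nd (nat_lit 312) (nat_lit 0) (nat_lit 0) (XT.nd (nat_lit 156) (nat_lit 152) (nat_lit 0) (XT.nd (nat_lit 78) (nat_lit 76) (nat_lit 0) (XT.lf (nat_lit 0) (nat_lit 359961437333) (nat_lit 152) (nat_lit 379929479476) (nat_lit 0) (nat_lit 284811396621) (nat_lit 14) (nat_lit 5) (nat_lit 16) (nat_lit 4) (nat_lit 14) (nat_lit 4) (nat_lit 496) (nat_lit 423) (nat_lit 281)) (XT.lf (nat_lit 0) (nat_lit 125241365245) (nat_lit 76) (nat_lit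 521688442886) (nat_lit 76) (nat_lit 446538302305) (nat_lit 13) (nat_lit 4) (nat_lit 14) (nat_lit 5) (nat_lit 14) (nat_lit 4) (nat_lit 497) (nat_lit 423) (nat_lit 280))) (XT.nd (nat_lit 78) (nat_lit 152) (nat_lit 0) (XT.lf (nat_lit 0) (nat_lit 684391631317) (nat_lit 76) (nat_lit 279081450636) (nat_lit 76) (nat_lit 203931217584) (nat_lit 13) (nat_lit 4) (nat_lit 14) (nat_lit 5) (nat_lit 14) (nat_lit 4) (nat_lit 498) (nat_lit 423) (nat_lit 279)) (XT.lf (nat_lit 0) (nat_lit 41436580619) (nat_lit 76) (nat_lit 15435077572) (nat_lit 152) (nat_lit 1190306068094) (nat_lit 11) (nat_lit 5) (nat_lit 12) (nat_lit 5) (nat_lit 13) (nat_lit 4) (nat_lit 499) (nat_lit 423) (nat_lit 278)))) (XT.nd (nat_lit 56550) (nat_lit 0) (nat_lit 10336) (XT.nd (nat_lit 78) (nat_lit 0) (nat_lit 0) (XT.lf (nat_lit 0) (nat_lit 344245166320) (nat_lit 152) (nat_lit 715604787433) (nat_lit 0) (nat_lit 272673358747) (nat_lit 11) (nat_lit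 5) (nat_lit 13) (nat_lit 4) (nat_lit 11) (nat_lit 4) (nat_lit 500) (nat_lit 423) (nat_lit 277)) (XT.lf (nat_lit 0) (nat_lit 654868231942) (nat_lit 152) (nat_lit 186518975374) (nat_lit 0) (nat_lit 583296354457) (nat_lit 11) (nat_lit 5) (nat_lit 13) (nat_lit 4) (nat_lit 11) (nat_lit 4) (nat_lit 501) (nat_lit 423) (nat_lit 276))) (XT.nd (nat_lit 78) (nat_lit 0) (nat_lit 76) (XT.lf (nat_lit 0) (nat_lit 4686180005) (nat_lit 836) (nat_lit 4110151166) (nat_lit 836) (nat_lit 4110151166) (nat_lit 147) (nat_lit 3) (nat_lit 158) (nat_lit 3) (nat_lit 158) (nat_lit 5) (nat_lit 424) (nat_lit 424) (nat_lit 352)) (XT.lf (nat_lit 0) (nat_lit 10137477372) (nat_lit 760) (nat_lit 14201069374) (nat_lit 836) (nat_lit 2487401807) (nat_lit 148) (nat_lit 5) (nat_lit 158) (nat_lit 5) (nat_lit 159) (nat_lit 5) (nat_lit 425) (nat_lit 424) (nat_lit 351))))))) (XT.nd (nat_lit 1170) (nat_lit 2888) (nat_lit 0) (XT.nd (nat_lit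 546) (nat_lit 2280) (nat_lit 0) (XT.nd (nat_lit 234) (nat_lit 912) (nat_lit 0) (XT.nd (nat_lit 78) (nat_lit 0) (nat_lit 76) (XT.lf (nat_lit 76) (nat_lit 7448671162) (nat_lit 0) (nat_lit 4058352670) (nat_lit 836) (nat_lit 16385788679) (nat_lit 149) (nat_lit 5) (nat_lit 148) (nat_lit 5) (nat_lit 159) (nat_lit 5) (nat_lit 426) (nat_lit 424) (nat_lit 350)) (XT.nd (nat_lit 78) (nat_lit 0) (nat_lit 76) (XT.lf (nat_lit 76) (nat_lit 2079189555) (nat_lit 0) (nat_lit 11455254698) (nat_lit 836) (nat_lit 15483168004) (nat_lit 150) (nat_lit 5) (nat_lit 149) (nat_lit 5) (nat_lit 160) (nat_lit 5) (nat_lit 427) (nat_lit 424) (nat_lit 349)) (XT.lf (nat_lit 0) (nat_lit 16304735461) (nat_lit 760) (nat_lit 3327777691) (nat_lit 836) (nat_lit 10570850994) (nat_lit 150) (nat_lit 5) (nat_lit 160) (nat_lit 5) (nat_lit 161) (nat_lit 5) (nat_lit 428) (nat_lit 424) (nat_lit 348)))) (XT.nd (nat_lit 156) (nat_lit 1140) (nat_lit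 0) (XT.nd (nat_lit 78) (nat_lit 0) (nat_lit 0) (XT.lf (nat_lit 0) (nat_lit 19876636870) (nat_lit 760) (nat_lit 8806094242) (nat_lit 836) (nat_lit 2772247600) (nat_lit 151) (nat_lit 5) (nat_lit 161) (nat_lit 5) (nat_lit 162) (nat_lit 5) (nat_lit 429) (nat_lit 424) (nat_lit 347)) (XT.lf (nat_lit 76) (nat_lit 18261834773) (nat_lit 0) (nat_lit 6136115096) (nat_lit 836) (nat_lit 8375591334) (nat_lit 152) (nat_lit 5) (nat_lit 151) (nat_lit 5) (nat_lit 162) (nat_lit 5) (nat_lit 430) (nat_lit 424) (nat_lit 346))) (XT.nd (nat_lit 78) (nat_lit 456) (nat_lit 0) (XT.lf (nat_lit 0) (nat_lit 13763866765) (nat_lit 760) (nat_lit 16161596472) (nat_lit 836) (nat_lit 4239902292) (nat_lit 142) (nat_lit 5) (nat_lit 152) (nat_lit 5) (nat_lit 153) (nat_lit 5) (nat_lit 431) (nat_lit 424) (nat_lit 345)) (XT.lf (nat_lit 0) (nat_lit 850128758) (nat_lit 456) (nat_lit 26436027792) (nat_lit 76) (nat_lit 8350666700) (nat_lit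 136) (nat_lit 5) (nat_lit 142) (nat_lit 5) (nat_lit 137) (nat_lit 5) (nat_lit 432) (nat_lit 424) (nat_lit 344))))) (XT.nd (nat_lit 312) (nat_lit 1216) (nat_lit 0) (XT.nd (nat_lit 156) (nat_lit 684) (nat_lit 0) (XT.nd (nat_lit 78) (nat_lit 0) (nat_lit 0) (XT.lf (nat_lit 0) (nat_lit 4475466804) (nat_lit 380) (nat_lit 2419354396) (nat_lit 456) (nat_lit 30292902148) (nat_lit 131) (nat_lit 5) (nat_lit 136) (nat_lit 5) (nat_lit 137) (nat_lit 5) (nat_lit 433) (nat_lit 424) (nat_lit 343)) (XT.lf (nat_lit 0) (nat_lit 14263652338) (nat_lit 456) (nat_lit 434399251) (nat_lit 76) (nat_lit 24122616911) (nat_lit 131) (nat_lit 5) (nat_lit 137) (nat_lit 5) (nat_lit 132) (nat_lit 5) (nat_lit 434) (nat_lit 424) (nat_lit 342))) (XT.nd (nat_lit 78) (nat_lit 304) (nat_lit 0) (XT.lf (nat_lit 0) (nat_lit 23007234886) (nat_lit 456) (nat_lit 5240575569) (nat_lit 76) (nat_lit 12297177687) (nat_lit 126) (nat_lit 5) (nat_lit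 132) (nat_lit 5) (nat_lit 127) (nat_lit 5) (nat_lit 435) (nat_lit 424) (nat_lit 341)) (XT.lf (nat_lit 0) (nat_lit 32287562302) (nat_lit 304) (nat_lit 914500817) (nat_lit 380) (nat_lit 9167603322) (nat_lit 122) (nat_lit 5) (nat_lit 126) (nat_lit 5) (nat_lit 127) (nat_lit 5) (nat_lit 436) (nat_lit 424) (nat_lit 340)))) (XT.nd (nat_lit 156) (nat_lit 532) (nat_lit 0) (XT.nd (nat_lit 78) (nat_lit 304) (nat_lit 0) (XT.lf (nat_lit 0) (nat_lit 879431199) (nat_lit 380) (nat_lit 15159915724) (nat_lit 76) (nat_lit 28250913753) (nat_lit 117) (nat_lit 5) (nat_lit 122) (nat_lit 5) (nat_lit 118) (nat_lit 5) (nat_lit 437) (nat_lit 424) (nat_lit 339)) (XT.lf (nat_lit 0) (nat_lit 12228856240) (nat_lit 380) (nat_lit 20408492787) (nat_lit 76) (nat_lit 13678649048) (nat_lit 113) (nat_lit 5) (nat_lit 118) (nat_lit 5) (nat_lit 114) (nat_lit 5) (nat_lit 438) (nat_lit 424) (nat_lit 338))) (XT.nd (nat_lit 78) (nat_lit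 228) (nat_lit 0) (XT.lf (nat_lit 0) (nat_lit 22756030084) (nat_lit 304) (nat_lit 2617592636) (nat_lit 380) (nat_lit 23085803158) (nat_lit 109) (nat_lit 5) (nat_lit 113) (nat_lit 5) (nat_lit 114) (nat_lit 5) (nat_lit 439) (nat_lit 424) (nat_lit 337)) (XT.lf (nat_lit 0) (nat_lit 19490073765) (nat_lit 228) (nat_lit 21204429350) (nat_lit 304) (nat_lit 10023598890) (nat_lit 106) (nat_lit 5) (nat_lit 109) (nat_lit 5) (nat_lit 110) (nat_lit 5) (nat_lit 440) (nat_lit 424) (nat_lit 336)))))) (XT.nd (nat_lit 546) (nat_lit 1444) (nat_lit 0) (XT.nd (nat_lit 234) (nat_lit 684) (nat_lit 0) (XT.nd (nat_lit 78) (nat_lit 456) (nat_lit 0) (XT.lf (nat_lit 0) (nat_lit 4887279110) (nat_lit 304) (nat_lit 36814868350) (nat_lit 76) (nat_lit 11405417721) (nat_lit 102) (nat_lit 5) (nat_lit 106) (nat_lit 5) (nat_lit 103) (nat_lit 5) (nat_lit 441) (nat_lit 424) (nat_lit 335)) (XT.nd (nat_lit 78) (nat_lit 228) (nat_lit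 0) (XT.lf (nat_lit 0) (nat_lit 12939652068) (nat_lit 228) (nat_lit 8811484377) (nat_lit 304) (nat_lit 33873269136) (nat_lit 99) (nat_lit 5) (nat_lit 102) (nat_lit 5) (nat_lit 103) (nat_lit 5) (nat_lit 442) (nat_lit 424) (nat_lit 334)) (XT.lf (nat_lit 0) (nat_lit 9548592020) (nat_lit 228) (nat_lit 31627827297) (nat_lit 304) (nat_lit 17105558600) (nat_lit 96) (nat_lit 5) (nat_lit 99) (nat_lit 5) (nat_lit 100) (nat_lit 5) (nat_lit 443) (nat_lit 424) (nat_lit 333)))) (XT.nd (nat_lit 156) (nat_lit 228) (nat_lit 0) (XT.nd (nat_lit 78) (nat_lit 228) (nat_lit 0) (XT.lf (nat_lit 0) (nat_lit 2039141695) (nat_lit 228) (nat_lit 54780438059) (nat_lit 76) (nat_lit 4278408675) (nat_lit 93) (nat_lit 5) (nat_lit 96) (nat_lit 5) (nat_lit 94) (nat_lit 5) (nat_lit 444) (nat_lit 424) (nat_lit 332)) (XT.lf (nat_lit 0) (nat_lit 2657555497) (nat_lit 228) (nat_lit 20899048499) (nat_lit 304) (nat_lit 40496631215) (nat_lit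 90) (nat_lit 5) (nat_lit 93) (nat_lit 5) (nat_lit 94) (nat_lit 5) (nat_lit 445) (nat_lit 424) (nat_lit 331))) (XT.nd (nat_lit 78) (nat_lit 228) (nat_lit 0) (XT.lf (nat_lit 0) (nat_lit 48039816972) (nat_lit 304) (nat_lit 853142056) (nat_lit 76) (nat_lit 18289725439) (nat_lit 90) (nat_lit 5) (nat_lit 94) (nat_lit 5) (nat_lit 91) (nat_lit 5) (nat_lit 446) (nat_lit 424) (nat_lit 330)) (XT.lf (nat_lit 0) (nat_lit 5199319579) (nat_lit 228) (nat_lit 4282070876) (nat_lit 76) (nat_lit 61007762040) (nat_lit 87) (nat_lit 5) (nat_lit 90) (nat_lit 5) (nat_lit 88) (nat_lit 5) (nat_lit 447) (nat_lit 424) (nat_lit 329))))) (XT.nd (nat_lit 312) (nat_lit 684) (nat_lit 0) (XT.nd (nat_lit 156) (nat_lit 380) (nat_lit 0) (XT.nd (nat_lit 78) (nat_lit 152) (nat_lit 0) (XT.lf (nat_lit 0) (nat_lit 32413560005) (nat_lit 304) (nat_lit 8132277628) (nat_lit 76) (nat_lit 33418842237) (nat_lit 84) (nat_lit 5) (nat_lit 88)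 (nat_lit 5) (nat_lit 85) (nat_lit 5) (nat_lit 448) (nat_lit 424) (nat_lit 328)) (XT.lf (nat_lit 0) (nat_lit 63110696290) (nat_lit 228) (nat_lit 11763137229) (nat_lit 76) (nat_lit 2779128398) (nat_lit 82) (nat_lit 5) (nat_lit 85) (nat_lit 5) (nat_lit 83) (nat_lit 5) (nat_lit 449) (nat_lit 424) (nat_lit 327))) (XT.nd (nat_lit 78) (nat_lit 152) (nat_lit 0) (XT.lf (nat_lit 0) (nat_lit 16042185031) (nat_lit 228) (nat_lit 15890650293) (nat_lit 76) (nat_lit 49597900180) (nat_lit 79) (nat_lit 5) (nat_lit 82) (nat_lit 5) (nat_lit 80) (nat_lit 5) (nat_lit 450) (nat_lit 424) (nat_lit 326)) (XT.lf (nat_lit 0) (nat_lit 50052097828) (nat_lit 228) (nat_lit 20096641941) (nat_lit 76) (nat_lit 15483661764) (nat_lit 77) (nat_lit 5) (nat_lit 80) (nat_lit 5) (nat_lit 78) (nat_lit 5) (nat_lit 451) (nat_lit 424) (nat_lit 325)))) (XT.nd (nat_lit 156) (nat_lit 304) (nat_lit 0) (XT.nd (nat_lit 78) (nat_lit 228) (nat_lit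 0) (XT.lf (nat_lit 0) (nat_lit 65543803596) (nat_lit 152) (nat_lit 23078355572) (nat_lit 228) (nat_lit 1348074139) (nat_lit 75) (nat_lit 5) (nat_lit 77) (nat_lit 5) (nat_lit 78) (nat_lit 5) (nat_lit 452) (nat_lit 424) (nat_lit 324)) (XT.lf (nat_lit 0) (nat_lit 36324806812) (nat_lit 228) (nat_lit 29374955958) (nat_lit 76) (nat_lit 28835409379) (nat_lit 72) (nat_lit 5) (nat_lit 75) (nat_lit 5) (nat_lit 73) (nat_lit 5) (nat_lit 453) (nat_lit 424) (nat_lit 323))) (XT.nd (nat_lit 78) (nat_lit 152) (nat_lit 0) (XT.lf (nat_lit 0) (nat_lit 64997394823) (nat_lit 152) (nat_lit 13800432546) (nat_lit 228) (nat_lit 20574696991) (nat_lit 70) (nat_lit 5) (nat_lit 72) (nat_lit 5) (nat_lit 73) (nat_lit 5) (nat_lit 454) (nat_lit 424) (nat_lit 322)) (XT.lf (nat_lit 0) (nat_lit 21653304029) (nat_lit 152) (nat_lit 40039578644) (nat_lit 76) (nat_lit 42777118225) (nat_lit 68) (nat_lit 5) (nat_lit 70) (nat_lit 5) (nat_lit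 69) (nat_lit 5) (nat_lit 455) (nat_lit 424) (nat_lit 321))))))))
noncomputable def xc83 : XT := (XT.nd (nat_lit 2340) (nat_lit 1064) (nat_lit 0) (XT.nd (nat_lit 1170) (nat_lit 1444) (nat_lit 0) (XT.nd (nat_lit 546) (nat_lit 760) (nat_lit 0) (XT.nd (nat_lit 234) (nat_lit 608) (nat_lit 0) (XT.nd (nat_lit 78) (nat_lit 304) (nat_lit 0) (XT.lf (nat_lit 0) (nat_lit 63871643287) (nat_lit 152) (nat_lit 4511967474) (nat_lit 228) (nat_lit 41482555313) (nat_lit 66) (nat_lit 5) (nat_lit 68) (nat_lit 5) (nat_lit 69) (nat_lit 5) (nat_lit 456) (nat_lit 424) (nat_lit 320)) (XT.nd (nat_lit 78) (nat_lit 152) (nat_lit 0) (XT.lf (nat_lit 0) (nat_lit 5682209464) (nat_lit 152) (nat_lit 52685502555) (nat_lit 76) (nat_lit 57192598186) (nat_lit 64) (nat_lit 5) (nat_lit 66) (nat_lit 5) (nat_lit 65) (nat_lit 5) (nat_lit 457) (nat_lit 424) (nat_lit 319)) (XT.lf (nat_lit 0) (nat_lit 57106734128) (nat_lit 228) (nat_lit 60050182674)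 (nat_lit 76) (nat_lit 4422070831) (nat_lit 62) (nat_lit 5) (nat_lit 65) (nat_lit 5) (nat_lit 63) (nat_lit 4) (nat_lit 458) (nat_lit 424) (nat_lit 318)))) (XT.nd (nat_lit 156) (nat_lit 304) (nat_lit 0) (XT.nd (nat_lit 78) (nat_lit 228) (nat_lit 0) (XT.lf (nat_lit 0) (nat_lit 59632346111) (nat_lit 76) (nat_lit 55857943310) (nat_lit 152) (nat_lit 12446616521) (nat_lit 61) (nat_lit 5) (nat_lit 62) (nat_lit 5) (nat_lit 63) (nat_lit 4) (nat_lit 459) (nat_lit 424) (nat_lit 317)) (XT.lf (nat_lit 0) (nat_lit 44502625451) (nat_lit 228) (nat_lit 77461263809) (nat_lit 76) (nat_lit 12697345452) (nat_lit 58) (nat_lit 5) (nat_lit 61) (nat_lit 5) (nat_lit 59) (nat_lit 4) (nat_lit 460) (nat_lit 424) (nat_lit 316))) (XT.nd (nat_lit 78) (nat_lit 228) (nat_lit 0) (XT.lf (nat_lit 0) (nat_lit 53867708864) (nat_lit 76) (nat_lit 54699327517) (nat_lit 152) (nat_lit 33196506434) (nat_lit 57) (nat_lit 5) (nat_lit 58)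 (nat_lit 5) (nat_lit 59) (nat_lit 4) (nat_lit 461) (nat_lit 424) (nat_lit 315)) (XT.lf (nat_lit 0) (nat_lit 29891999460) (nat_lit 228) (nat_lit 99385742121) (nat_lit 76) (nat_lit 20010387653) (nat_lit 54) (nat_lit 5) (nat_lit 57) (nat_lit 5) (nat_lit 55) (nat_lit 4) (nat_lit 462) (nat_lit 424) (nat_lit 314))))) (XT.nd (nat_lit 312) (nat_lit 380) (nat_lit 0) (XT.nd (nat_lit 156) (nat_lit 152) (nat_lit 0) (XT.nd (nat_lit 78) (nat_lit 152) (nat_lit 0) (XT.lf (nat_lit 0) (nat_lit 44435220788) (nat_lit 76) (nat_lit 55614568617) (nat_lit 152) (nat_lit 57178420617) (nat_lit 53) (nat_lit 5) (nat_lit 54) (nat_lit 5) (nat_lit 55) (nat_lit 4) (nat_lit 463) (nat_lit 424) (nat_lit 313)) (XT.lf (nat_lit 0) (nat_lit 12471582764) (nat_lit 152) (nat_lit 127451510865) (nat_lit 76) (nat_lit 25733810542) (nat_lit 51) (nat_lit 5) (nat_lit 53) (nat_lit 5) (nat_lit 52) (nat_lit 4) (nat_lit 464) (nat_lit 424) (nat_lit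 312))) (XT.nd (nat_lit 78) (nat_lit 76) (nat_lit 0) (XT.lf (nat_lit 0) (nat_lit 29660384863) (nat_lit 76) (nat_lit 59452145364) (nat_lit 152) (nat_lit 85429386274) (nat_lit 50) (nat_lit 5) (nat_lit 51) (nat_lit 5) (nat_lit 52) (nat_lit 4) (nat_lit 465) (nat_lit 424) (nat_lit 311)) (XT.lf (nat_lit 0) (nat_lit 20037516500) (nat_lit 76) (nat_lit 154842927326) (nat_lit 76) (nat_lit 9107501536) (nat_lit 49) (nat_lit 4) (nat_lit 50) (nat_lit 5) (nat_lit 50) (nat_lit 4) (nat_lit 466) (nat_lit 424) (nat_lit 310)))) (XT.nd (nat_lit 156) (nat_lit 228) (nat_lit 0) (XT.nd (nat_lit 78) (nat_lit 0) (nat_lit 0) (XT.lf (nat_lit 0) (nat_lit 7301010817) (nat_lit 76) (nat_lit 67351724627) (nat_lit 152) (nat_lit 119295719320) (nat_lit 47) (nat_lit 5) (nat_lit 48) (nat_lit 5) (nat_lit 49) (nat_lit 4) (nat_lit 467) (nat_lit 424) (nat_lit 309)) (XT.lf (nat_lit 0) (nat_lit 168123214302) (nat_lit 152) (nat_lit 7084194611)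 (nat_lit 0) (nat_lit 29324505620) (nat_lit 47) (nat_lit 5) (nat_lit 49) (nat_lit 4) (nat_lit 47) (nat_lit 4) (nat_lit 468) (nat_lit 424) (nat_lit 308))) (XT.nd (nat_lit 78) (nat_lit 76) (nat_lit 0) (XT.lf (nat_lit 0) (nat_lit 55606006325) (nat_lit 152) (nat_lit 24807760153) (nat_lit 76) (nat_lit 135296997683) (nat_lit 45) (nat_lit 5) (nat_lit 47) (nat_lit 5) (nat_lit 46) (nat_lit 4) (nat_lit 469) (nat_lit 424) (nat_lit 307)) (XT.lf (nat_lit 0) (nat_lit 157096636417) (nat_lit 152) (nat_lit 45583038280) (nat_lit 0) (nat_lit 24904887380) (nat_lit 44) (nat_lit 5) (nat_lit 46) (nat_lit 4) (nat_lit 44) (nat_lit 4) (nat_lit 470) (nat_lit 424) (nat_lit 306)))))) (XT.nd (nat_lit 546) (nat_lit 760) (nat_lit 0) (XT.nd (nat_lit 234) (nat_lit 380) (nat_lit 0) (XT.nd (nat_lit 78) (nat_lit 152) (nat_lit 0) (XT.lf (nat_lit 0) (nat_lit 29975691765) (nat_lit 152) (nat_lit 70742694998) (nat_lit 76) (nat_lit 139443390278)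 (nat_lit 42) (nat_lit 5) (nat_lit 44) (nat_lit 5) (nat_lit 43) (nat_lit 4) (nat_lit 471) (nat_lit 424) (nat_lit 305)) (XT.nd (nat_lit 78) (nat_lit 76) (nat_lit 0) (XT.lf (nat_lit 0) (nat_lit 139456265083) (nat_lit 152) (nat_lit 100501338386) (nat_lit 0) (nat_lit 13557317774) (nat_lit 41) (nat_lit 5) (nat_lit 43) (nat_lit 4) (nat_lit 41) (nat_lit 4) (nat_lit 472) (nat_lit 424) (nat_lit 304)) (XT.lf (nat_lit 0) (nat_lit 131818840116) (nat_lit 76) (nat_lit 130883490768) (nat_lit 76) (nat_lit 4983633797) (nat_lit 40) (nat_lit 4) (nat_lit 41) (nat_lit 5) (nat_lit 41) (nat_lit 4) (nat_lit 473) (nat_lit 424) (nat_lit 303)))) (XT.nd (nat_lit 156) (nat_lit 152) (nat_lit 0) (XT.nd (nat_lit 78) (nat_lit 76) (nat_lit 0) (XT.lf (nat_lit 0) (nat_lit 104976708596) (nat_lit 76) (nat_lit 7646417182) (nat_lit 152) (nat_lit 170108666238) (nat_lit 38) (nat_lit 5) (nat_lit 39) (nat_lit 5) (nat_lit 40) (nat_lit 4)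 (nat_lit 474) (nat_lit 424) (nat_lit 302)) (XT.lf (nat_lit 0) (nat_lit 71273247011) (nat_lit 76) (nat_lit 173668123442) (nat_lit 76) (nat_lit 53761952834) (nat_lit 37) (nat_lit 4) (nat_lit 38) (nat_lit 5) (nat_lit 38) (nat_lit 4) (nat_lit 475) (nat_lit 424) (nat_lit 301))) (XT.nd (nat_lit 78) (nat_lit 0) (nat_lit 0) (XT.lf (nat_lit 0) (nat_lit 30442611372) (nat_lit 76) (nat_lit 42898593365) (nat_lit 152) (nat_lit 242367764376) (nat_lit 35) (nat_lit 5) (nat_lit 36) (nat_lit 5) (nat_lit 37) (nat_lit 4) (nat_lit 476) (nat_lit 424) (nat_lit 300)) (XT.lf (nat_lit 0) (nat_lit 214314514970) (nat_lit 152) (nat_lit 19320311072) (nat_lit 0) (nat_lit 100116900560) (nat_lit 35) (nat_lit 5) (nat_lit 37) (nat_lit 4) (nat_lit 35) (nat_lit 4) (nat_lit 477) (nat_lit 424) (nat_lit 299))))) (XT.nd (nat_lit 312) (nat_lit 304) (nat_lit 0) (XT.nd (nat_lit 156) (nat_lit 228) (nat_lit 0) (XT.nd (nat_lit 78) (nat_lit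 76) (nat_lit 0) (XT.lf (nat_lit 0) (nat_lit 18014833150) (nat_lit 152) (nat_lit 77267767992) (nat_lit 76) (nat_lit 257689218352) (nat_lit 33) (nat_lit 5) (nat_lit 35) (nat_lit 5) (nat_lit 34) (nat_lit 4) (nat_lit 478) (nat_lit 424) (nat_lit 298)) (XT.lf (nat_lit 0) (nat_lit 167153794691) (nat_lit 152) (nat_lit 147840931297) (nat_lit 0) (nat_lit 58393131930) (nat_lit 32) (nat_lit 5) (nat_lit 34) (nat_lit 4) (nat_lit 32) (nat_lit 4) (nat_lit 479) (nat_lit 424) (nat_lit 297))) (XT.nd (nat_lit 78) (nat_lit 152) (nat_lit 0) (XT.lf (nat_lit 0) (nat_lit 163580219135) (nat_lit 76) (nat_lit 170170860616) (nat_lit 76) (nat_lit 61409739349) (nat_lit 31) (nat_lit 4) (nat_lit 32) (nat_lit 5) (nat_lit 32) (nat_lit 4) (nat_lit 480) (nat_lit 424) (nat_lit 296)) (XT.lf (nat_lit 0) (nat_lit 87933838790) (nat_lit 76) (nat_lit 8015129307) (nat_lit 152) (nat_lit 322453035472) (nat_lit 29) (nat_lit 5) (nat_lit 30)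 (nat_lit 5) (nat_lit 31) (nat_lit 4) (nat_lit 481) (nat_lit 424) (nat_lit 295)))) (XT.nd (nat_lit 156) (nat_lit 228) (nat_lit 0) (XT.nd (nat_lit 78) (nat_lit 76) (nat_lit 0) (XT.lf (nat_lit 0) (nat_lit 270481538597) (nat_lit 152) (nat_lit 5735035491) (nat_lit 0) (nat_lit 166898739638) (nat_lit 29) (nat_lit 5) (nat_lit 31) (nat_lit 4) (nat_lit 29) (nat_lit 4) (nat_lit 482) (nat_lit 424) (nat_lit 294)) (XT.lf (nat_lit 0) (nat_lit 356241090938) (nat_lit 76) (nat_lit 108431475397) (nat_lit 76) (nat_lit 4848329793) (nat_lit 28) (nat_lit 4) (nat_lit 29) (nat_lit 5) (nat_lit 29) (nat_lit 4) (nat_lit 483) (nat_lit 424) (nat_lit 293))) (XT.nd (nat_lit 78) (nat_lit 76) (nat_lit 0) (XT.lf (nat_lit 0) (nat_lit 176041150916) (nat_lit 152) (nat_lit 244203579213) (nat_lit 0) (nat_lit 77390230371) (nat_lit 26) (nat_lit 5) (nat_lit 28) (nat_lit 4) (nat_lit 26) (nat_lit 4) (nat_lit 484) (nat_lit 424) (nat_lit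 292)) (XT.lf (nat_lit 0) (nat_lit 127769828727) (nat_lit 76) (nat_lit 249292027231) (nat_lit 76) (nat_lit 150640823646) (nat_lit 25) (nat_lit 4) (nat_lit 26) (nat_lit 5) (nat_lit 26) (nat_lit 4) (nat_lit 485) (nat_lit 424) (nat_lit 291))))))) (XT.nd (nat_lit 1170) (nat_lit 0) (nat_lit 0) (XT.nd (nat_lit 546) (nat_lit 532) (nat_lit 0) (XT.nd (nat_lit 234) (nat_lit 304) (nat_lit 0) (XT.nd (nat_lit 78) (nat_lit 152) (nat_lit 0) (XT.lf (nat_lit 0) (nat_lit 37223046430) (nat_lit 152) (nat_lit 22344220476) (nat_lit 76) (nat_lit 500365892308) (nat_lit 24) (nat_lit 5) (nat_lit 26) (nat_lit 5) (nat_lit 25) (nat_lit 4) (nat_lit 486) (nat_lit 424) (nat_lit 290)) (XT.nd (nat_lit 78) (nat_lit 76) (nat_lit 0) (XT.lf (nat_lit 0) (nat_lit 243495748682) (nat_lit 152) (nat_lit 201148239517) (nat_lit 0) (nat_lit 149541740758) (nat_lit 23) (nat_lit 5) (nat_lit 25) (nat_lit 4) (nat_lit 23) (nat_lit 4) (nat_lit 487)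 (nat_lit 424) (nat_lit 289)) (XT.lf (nat_lit 0) (nat_lit 217228446033) (nat_lit 76) (nat_lit 253832376204) (nat_lit 76) (nat_lit 159878154292) (nat_lit 22) (nat_lit 4) (nat_lit 23) (nat_lit 5) (nat_lit 23) (nat_lit 4) (nat_lit 488) (nat_lit 424) (nat_lit 288)))) (XT.nd (nat_lit 156) (nat_lit 152) (nat_lit 0) (XT.nd (nat_lit 78) (nat_lit 0) (nat_lit 0) (XT.lf (nat_lit 0) (nat_lit 5186206041) (nat_lit 76) (nat_lit 43175074977) (nat_lit 152) (nat_lit 622053073024) (nat_lit 20) (nat_lit 5) (nat_lit 21) (nat_lit 5) (nat_lit 22) (nat_lit 4) (nat_lit 489) (nat_lit 424) (nat_lit 287)) (XT.lf (nat_lit 0) (nat_lit 277935149169) (nat_lit 152) (nat_lit 246013159040) (nat_lit 0) (nat_lit 188454574399) (nat_lit 20) (nat_lit 5) (nat_lit 22) (nat_lit 4) (nat_lit 20) (nat_lit 4) (nat_lit 490) (nat_lit 424) (nat_lit 286))) (XT.nd (nat_lit 78) (nat_lit 76) (nat_lit 0) (XT.lf (nat_lit 0) (nat_lit 212820840617)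 (nat_lit 76) (nat_lit 317103948149) (nat_lit 76) (nat_lit 227623211598) (nat_lit 19) (nat_lit 4) (nat_lit 20) (nat_lit 5) (nat_lit 20) (nat_lit 4) (nat_lit 491) (nat_lit 424) (nat_lit 285)) (XT.lf (nat_lit 0) (nat_lit 259083740) (nat_lit 152) (nat_lit 88949764679) (nat_lit 76) (nat_lit 716881442653) (nat_lit 18) (nat_lit 5) (nat_lit 20) (nat_lit 5) (nat_lit 19) (nat_lit 4) (nat_lit 492) (nat_lit 424) (nat_lit 284))))) (XT.nd (nat_lit 312) (nat_lit 228) (nat_lit 0) (XT.nd (nat_lit 156) (nat_lit 152) (nat_lit 0) (XT.nd (nat_lit 78) (nat_lit 76) (nat_lit 0) (XT.lf (nat_lit 0) (nat_lit 247564176224) (nat_lit 152) (nat_lit 447962708944) (nat_lit 0) (nat_lit 162344152368) (nat_lit 17) (nat_lit 5) (nat_lit 19) (nat_lit 4) (nat_lit 17) (nat_lit 4) (nat_lit 493) (nat_lit 424) (nat_lit 283)) (XT.lf (nat_lit 0) (nat_lit 37813763580) (nat_lit 76) (nat_lit 480508596066) (nat_lit 76) (nat_lit 395288449898)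 (nat_lit 16) (nat_lit 4) (nat_lit 17) (nat_lit 5) (nat_lit 17) (nat_lit 4) (nat_lit 494) (nat_lit 424) (nat_lit 282))) (XT.nd (nat_lit 78) (nat_lit 152) (nat_lit 0) (XT.lf (nat_lit 0) (nat_lit 578447471777) (nat_lit 76) (nat_lit 240096213295) (nat_lit 76) (nat_lit 154875953877) (nat_lit 16) (nat_lit 4) (nat_lit 17) (nat_lit 5) (nat_lit 17) (nat_lit 4) (nat_lit 495) (nat_lit 424) (nat_lit 281)) (XT.lf (nat_lit 0) (nat_lit 103758766067) (nat_lit 152) (nat_lit 911458981771) (nat_lit 0) (nat_lit 22596514371) (nat_lit 14) (nat_lit 5) (nat_lit 16) (nat_lit 4) (nat_lit 14) (nat_lit 4) (nat_lit 496) (nat_lit 424) (nat_lit 280)))) (XT.nd (nat_lit 156) (nat_lit 152) (nat_lit 0) (XT.nd (nat_lit 78) (nat_lit 76) (nat_lit 0) (XT.lf (nat_lit 0) (nat_lit 388771445514) (nat_lit 152) (nat_lit 410297296923) (nat_lit 0) (nat_lit 307609101347) (nat_lit 14) (nat_lit 5) (nat_lit 16) (nat_lit 4) (nat_lit 14) (nat_lit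 4) (nat_lit 497) (nat_lit 424) (nat_lit 279)) (XT.lf (nat_lit 0) (nat_lit 135286061940) (nat_lit 76) (nat_lit 563410650539) (nat_lit 76) (nat_lit 482248220750) (nat_lit 13) (nat_lit 4) (nat_lit 14) (nat_lit 5) (nat_lit 14) (nat_lit 4) (nat_lit 498) (nat_lit 424) (nat_lit 278))) (XT.nd (nat_lit 78) (nat_lit 152) (nat_lit 0) (XT.lf (nat_lit 0) (nat_lit 739166468744) (nat_lit 76) (nat_lit 301396052078) (nat_lit 76) (nat_lit 220233543010) (nat_lit 13) (nat_lit 4) (nat_lit 14) (nat_lit 5) (nat_lit 14) (nat_lit 4) (nat_lit 499) (nat_lit 424) (nat_lit 277)) (XT.lf (nat_lit 0) (nat_lit 44774365104) (nat_lit 76) (nat_lit 16658292251) (nat_lit 152) (nat_lit 1285518723662) (nat_lit 11) (nat_lit 5) (nat_lit 12) (nat_lit 5) (nat_lit 13) (nat_lit 4) (nat_lit 500) (nat_lit 424) (nat_lit 276)))))) (XT.nd (nat_lit 57018) (nat_lit 0) (nat_lit 8056) (XT.nd (nat_lit 56706) (nat_lit 0) (nat_lit 10412) (XT.nd (nat_lit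 56550) (nat_lit 0) (nat_lit 10336) (XT.lf (nat_lit 0) (nat_lit 371795379149) (nat_lit 152) (nat_lit 772831651511) (nat_lit 0) (nat_lit 294497616822) (nat_lit 11) (nat_lit 5) (nat_lit 13) (nat_lit 4) (nat_lit 11) (nat_lit 4) (nat_lit 501) (nat_lit 424) (nat_lit 275)) (XT.nd (nat_lit 78) (nat_lit 0) (nat_lit 76) (XT.lf (nat_lit 0) (nat_lit 5209746854) (nat_lit 836) (nat_lit 4360898726) (nat_lit 836) (nat_lit 4360898726) (nat_lit 147) (nat_lit 3) (nat_lit 158) (nat_lit 3) (nat_lit 158) (nat_lit 5) (nat_lit 425) (nat_lit 425) (nat_lit 350)) (XT.lf (nat_lit 0) (nat_lit 11224123353) (nat_lit 760) (nat_lit 15171882666) (nat_lit 836) (nat_lit 2562193444) (nat_lit 148) (nat_lit 5) (nat_lit 158) (nat_lit 5) (nat_lit 159) (nat_lit 5) (nat_lit 426) (nat_lit 425) (nat_lit 349)))) (XT.nd (nat_lit 156) (nat_lit 0) (nat_lit 152) (XT.nd (nat_lit 78) (nat_lit 0) (nat_lit 76) (XT.lf (nat_lit 76) (nat_lit 8202654583)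 (nat_lit 0) (nat_lit 4482628817) (nat_lit 836) (nat_lit 17426029799) (nat_lit 149) (nat_lit 5) (nat_lit 148) (nat_lit 5) (nat_lit 159) (nat_lit 5) (nat_lit 427) (nat_lit 425) (nat_lit 348)) (XT.lf (nat_lit 76) (nat_lit 2410594272) (nat_lit 0) (nat_lit 12446351703) (nat_lit 836) (nat_lit 16470051445) (nat_lit 150) (nat_lit 5) (nat_lit 149) (nat_lit 5) (nat_lit 160) (nat_lit 5) (nat_lit 428) (nat_lit 425) (nat_lit 347))) (XT.nd (nat_lit 78) (nat_lit 0) (nat_lit 76) (XT.lf (nat_lit 0) (nat_lit 17830021955) (nat_lit 760) (nat_lit 3428945015) (nat_lit 836) (nat_lit 11349587120) (nat_lit 150) (nat_lit 5) (nat_lit 160) (nat_lit 5) (nat_lit 161) (nat_lit 5) (nat_lit 429) (nat_lit 425) (nat_lit 346)) (XT.lf (nat_lit 0) (nat_lit 21673009910) (nat_lit 760) (nat_lit 9341551202) (nat_lit 836) (nat_lit 2946472492) (nat_lit 151) (nat_lit 5) (nat_lit 161) (nat_lit 5) (nat_lit 162) (nat_lit 5) (nat_lit 430)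 (nat_lit 425) (nat_lit 345))))) (XT.nd (nat_lit 312) (nat_lit 1064) (nat_lit 0) (XT.nd (nat_lit 156) (nat_lit 836) (nat_lit 0) (XT.nd (nat_lit 78) (nat_lit 684) (nat_lit 0) (XT.lf (nat_lit 76) (nat_lit 19884466270) (nat_lit 0) (nat_lit 6658808837) (nat_lit 836) (nat_lit 8842445946) (nat_lit 152) (nat_lit 5) (nat_lit 151) (nat_lit 5) (nat_lit 162) (nat_lit 5) (nat_lit 431) (nat_lit 425) (nat_lit 344)) (XT.lf (nat_lit 0) (nat_lit 15029390925) (nat_lit 760) (nat_lit 17471373284) (nat_lit 836) (nat_lit 4388740531) (nat_lit 142) (nat_lit 5) (nat_lit 152) (nat_lit 5) (nat_lit 153) (nat_lit 5) (nat_lit 432) (nat_lit 425) (nat_lit 343))) (XT.nd (nat_lit 78) (nat_lit 380) (nat_lit 0) (XT.lf (nat_lit 0) (nat_lit 1091141568) (nat_lit 456) (nat_lit 28378949936) (nat_lit 76) (nat_lit 9009003816) (nat_lit 136) (nat_lit 5) (nat_lit 142) (nat_lit 5) (nat_lit 137) (nat_lit 5) (nat_lit 433) (nat_lit 425) (nat_lit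 342)) (XT.lf (nat_lit 0) (nat_lit 4997991052) (nat_lit 380) (nat_lit 2611171453) (nat_lit 456) (nat_lit 32545419018) (nat_lit 131) (nat_lit 5) (nat_lit 136) (nat_lit 5) (nat_lit 137) (nat_lit 5) (nat_lit 434) (nat_lit 425) (nat_lit 341)))) (XT.nd (nat_lit 156) (nat_lit 684) (nat_lit 0) (XT.nd (nat_lit 78) (nat_lit 380) (nat_lit 0) (XT.lf (nat_lit 0) (nat_lit 15555469192) (nat_lit 456) (nat_lit 309318260) (nat_lit 76) (nat_lit 26053978006) (nat_lit 131) (nat_lit 5) (nat_lit 137) (nat_lit 5) (nat_lit 132) (nat_lit 5) (nat_lit 435) (nat_lit 425) (nat_lit 340)) (XT.lf (nat_lit 0) (nat_lit 24989931347) (nat_lit 456) (nat_lit 5499989502) (nat_lit 76) (nat_lit 13291541675) (nat_lit 126) (nat_lit 5) (nat_lit 132) (nat_lit 5) (nat_lit 127) (nat_lit 5) (nat_lit 436) (nat_lit 425) (nat_lit 339))) (XT.nd (nat_lit 78) (nat_lit 380) (nat_lit 0) (XT.lf (nat_lit 0) (nat_lit 35023453290) (nat_lit 304) (nat_lit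 968752293) (nat_lit 380) (nat_lit 9760317909) (nat_lit 122) (nat_lit 5) (nat_lit 126) (nat_lit 5) (nat_lit 127) (nat_lit 5) (nat_lit 437) (nat_lit 425) (nat_lit 338)) (XT.lf (nat_lit 0) (nat_lit 1078584075) (nat_lit 380) (nat_lit 16216051225) (nat_lit 76) (nat_lit 30532390973) (nat_lit 117) (nat_lit 5) (nat_lit 122) (nat_lit 5) (nat_lit 118) (nat_lit 5) (nat_lit 438) (nat_lit 425) (nat_lit 337))))))))
noncomputable def xc84 : XT := (XT.nd (nat_lit 2262) (nat_lit 2660) (nat_lit 0) (XT.nd (nat_lit 1092) (nat_lit 2128) (nat_lit 0) (XT.nd (nat_lit 546) (nat_lit 1216) (nat_lit 0) (XT.nd (nat_lit 234) (nat_lit 988) (nat_lit 0) (XT.nd (nat_lit 78) (nat_lit 532) (nat_lit 0) (XT.lf (nat_lit 0) (nat_lit 13329203167) (nat_lit 380) (nat_lit 21885669635) (nat_lit 76) (nat_lit 14800288994) (nat_lit 113) (nat_lit 5) (nat_lit 118) (nat_lit 5) (nat_lit 114) (nat_lit 5) (nat_lit 439) (nat_lit 425) (nat_lit 336))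 (XT.nd (nat_lit 78) (nat_lit 228) (nat_lit 0) (XT.lf (nat_lit 0) (nat_lit 24725257113) (nat_lit 304) (nat_lit 2793576290) (nat_lit 380) (nat_lit 24811567352) (nat_lit 109) (nat_lit 5) (nat_lit 113) (nat_lit 5) (nat_lit 114) (nat_lit 5) (nat_lit 440) (nat_lit 425) (nat_lit 335)) (XT.lf (nat_lit 0) (nat_lit 21196588906) (nat_lit 228) (nat_lit 22863036131) (nat_lit 304) (nat_lit 10710434868) (nat_lit 106) (nat_lit 5) (nat_lit 109) (nat_lit 5) (nat_lit 110) (nat_lit 5) (nat_lit 441) (nat_lit 425) (nat_lit 334)))) (XT.nd (nat_lit 156) (nat_lit 456) (nat_lit 0) (XT.nd (nat_lit 78) (nat_lit 228) (nat_lit 0) (XT.lf (nat_lit 0) (nat_lit 5384246445) (nat_lit 304) (nat_lit 39610947451) (nat_lit 76) (nat_lit 12355666511) (nat_lit 102) (nat_lit 5) (nat_lit 106) (nat_lit 5) (nat_lit 103) (nat_lit 5) (nat_lit 442) (nat_lit 425) (nat_lit 333)) (XT.lf (nat_lit 0) (nat_lit 14117454445) (nat_lit 228) (nat_lit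 9474134039) (nat_lit 304) (nat_lit 36477741545) (nat_lit 99) (nat_lit 5) (nat_lit 102) (nat_lit 5) (nat_lit 103) (nat_lit 5) (nat_lit 443) (nat_lit 425) (nat_lit 332))) (XT.nd (nat_lit 78) (nat_lit 228) (nat_lit 0) (XT.lf (nat_lit 0) (nat_lit 10453089287) (nat_lit 228) (nat_lit 34113176910) (nat_lit 304) (nat_lit 18373474081) (nat_lit 96) (nat_lit 5) (nat_lit 99) (nat_lit 5) (nat_lit 100) (nat_lit 5) (nat_lit 444) (nat_lit 425) (nat_lit 331)) (XT.lf (nat_lit 0) (nat_lit 2295232285) (nat_lit 228) (nat_lit 59021374912) (nat_lit 76) (nat_lit 4664564225) (nat_lit 93) (nat_lit 5) (nat_lit 96) (nat_lit 5) (nat_lit 94) (nat_lit 5) (nat_lit 445) (nat_lit 425) (nat_lit 330))))) (XT.nd (nat_lit 234) (nat_lit 760) (nat_lit 0) (XT.nd (nat_lit 78) (nat_lit 228) (nat_lit 0) (XT.lf (nat_lit 0) (nat_lit 3005508790) (nat_lit 228) (nat_lit 22523810086) (nat_lit 304) (nat_lit 43643758308) (nat_lit 90) (nat_lit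 5) (nat_lit 93) (nat_lit 5) (nat_lit 94) (nat_lit 5) (nat_lit 446) (nat_lit 425) (nat_lit 329)) (XT.nd (nat_lit 78) (nat_lit 228) (nat_lit 0) (XT.lf (nat_lit 0) (nat_lit 51965338343) (nat_lit 304) (nat_lit 792662530) (nat_lit 76) (nat_lit 19795174591) (nat_lit 90) (nat_lit 5) (nat_lit 94) (nat_lit 5) (nat_lit 91) (nat_lit 5) (nat_lit 447) (nat_lit 425) (nat_lit 328)) (XT.lf (nat_lit 0) (nat_lit 5694712241) (nat_lit 228) (nat_lit 4498867126) (nat_lit 76) (nat_lit 65930726835) (nat_lit 87) (nat_lit 5) (nat_lit 90) (nat_lit 5) (nat_lit 88) (nat_lit 5) (nat_lit 448) (nat_lit 425) (nat_lit 327)))) (XT.nd (nat_lit 156) (nat_lit 380) (nat_lit 0) (XT.nd (nat_lit 78) (nat_lit 152) (nat_lit 0) (XT.lf (nat_lit 0) (nat_lit 35082785649) (nat_lit 304) (nat_lit 8659478941) (nat_lit 76) (nat_lit 36135776943) (nat_lit 84) (nat_lit 5) (nat_lit 88) (nat_lit 5) (nat_lit 85) (nat_lit 5) (nat_lit 449) (nat_lit 425)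 (nat_lit 326)) (XT.lf (nat_lit 0) (nat_lit 68232608504) (nat_lit 228) (nat_lit 12583259986) (nat_lit 76) (nat_lit 3045672293) (nat_lit 82) (nat_lit 5) (nat_lit 85) (nat_lit 5) (nat_lit 83) (nat_lit 5) (nat_lit 450) (nat_lit 425) (nat_lit 325))) (XT.nd (nat_lit 78) (nat_lit 152) (nat_lit 0) (XT.lf (nat_lit 0) (nat_lit 17396153983) (nat_lit 228) (nat_lit 17043890687) (nat_lit 76) (nat_lit 53609615327) (nat_lit 79) (nat_lit 5) (nat_lit 82) (nat_lit 5) (nat_lit 80) (nat_lit 5) (nat_lit 451) (nat_lit 425) (nat_lit 324)) (XT.lf (nat_lit 0) (nat_lit 54124107401) (nat_lit 228) (nat_lit 21588844017) (nat_lit 76) (nat_lit 16766645855) (nat_lit 77) (nat_lit 5) (nat_lit 80) (nat_lit 5) (nat_lit 78) (nat_lit 5) (nat_lit 452) (nat_lit 425) (nat_lit 323)))))) (XT.nd (nat_lit 546) (nat_lit 988) (nat_lit 0) (XT.nd (nat_lit 234) (nat_lit 608) (nat_lit 0) (XT.nd (nat_lit 78) (nat_lit 380) (nat_lit 0) (XT.lf (nat_lit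 0) (nat_lit 70897816402) (nat_lit 152) (nat_lit 24878657279) (nat_lit 228) (nat_lit 1388147224) (nat_lit 75) (nat_lit 5) (nat_lit 77) (nat_lit 5) (nat_lit 78) (nat_lit 5) (nat_lit 453) (nat_lit 425) (nat_lit 322)) (XT.nd (nat_lit 78) (nat_lit 152) (nat_lit 0) (XT.lf (nat_lit 0) (nat_lit 39293926491) (nat_lit 228) (nat_lit 31614751273) (nat_lit 76) (nat_lit 31186147892) (nat_lit 72) (nat_lit 5) (nat_lit 75) (nat_lit 5) (nat_lit 73) (nat_lit 5) (nat_lit 454) (nat_lit 425) (nat_lit 321)) (XT.lf (nat_lit 0) (nat_lit 70302598362) (nat_lit 152) (nat_lit 14859159430) (nat_lit 228) (nat_lit 22157560056) (nat_lit 70) (nat_lit 5) (nat_lit 72) (nat_lit 5) (nat_lit 73) (nat_lit 5) (nat_lit 455) (nat_lit 425) (nat_lit 320)))) (XT.nd (nat_lit 156) (nat_lit 304) (nat_lit 0) (XT.nd (nat_lit 78) (nat_lit 152) (nat_lit 0) (XT.lf (nat_lit 0) (nat_lit 23444436368) (nat_lit 152) (nat_lit 43137763673) (nat_lit 76)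 (nat_lit 46242454665) (nat_lit 68) (nat_lit 5) (nat_lit 70) (nat_lit 5) (nat_lit 69) (nat_lit 5) (nat_lit 456) (nat_lit 425) (nat_lit 319)) (XT.lf (nat_lit 0) (nat_lit 69081793655) (nat_lit 152) (nat_lit 4828581210) (nat_lit 228) (nat_lit 44742278081) (nat_lit 66) (nat_lit 5) (nat_lit 68) (nat_lit 5) (nat_lit 69) (nat_lit 5) (nat_lit 457) (nat_lit 425) (nat_lit 318))) (XT.nd (nat_lit 78) (nat_lit 152) (nat_lit 0) (XT.lf (nat_lit 0) (nat_lit 6191769207) (nat_lit 152) (nat_lit 56800445403) (nat_lit 76) (nat_lit 61810168924) (nat_lit 64) (nat_lit 5) (nat_lit 66) (nat_lit 5) (nat_lit 65) (nat_lit 5) (nat_lit 458) (nat_lit 425) (nat_lit 317)) (XT.lf (nat_lit 0) (nat_lit 61728348679) (nat_lit 228) (nat_lit 64756692833) (nat_lit 76) (nat_lit 4817609176) (nat_lit 62) (nat_lit 5) (nat_lit 65) (nat_lit 5) (nat_lit 63) (nat_lit 4) (nat_lit 459) (nat_lit 425) (nat_lit 316))))) (XT.nd (nat_lit 312) (nat_lit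 380) (nat_lit 0) (XT.nd (nat_lit 156) (nat_lit 304) (nat_lit 0) (XT.nd (nat_lit 78) (nat_lit 228) (nat_lit 0) (XT.lf (nat_lit 0) (nat_lit 64496200829) (nat_lit 76) (nat_lit 60283912183) (nat_lit 152) (nat_lit 13389213378) (nat_lit 61) (nat_lit 5) (nat_lit 62) (nat_lit 5) (nat_lit 63) (nat_lit 4) (nat_lit 460) (nat_lit 425) (nat_lit 315)) (XT.lf (nat_lit 0) (nat_lit 48112528556) (nat_lit 228) (nat_lit 83565521516) (nat_lit 76) (nat_lit 13753596994) (nat_lit 58) (nat_lit 5) (nat_lit 61) (nat_lit 5) (nat_lit 59) (nat_lit 4) (nat_lit 461) (nat_lit 425) (nat_lit 314))) (XT.nd (nat_lit 78) (nat_lit 228) (nat_lit 0) (XT.lf (nat_lit 0) (nat_lit 58265742802) (nat_lit 76) (nat_lit 59034052155) (nat_lit 152) (nat_lit 35802459863) (nat_lit 57) (nat_lit 5) (nat_lit 58) (nat_lit 5) (nat_lit 59) (nat_lit 4) (nat_lit 462) (nat_lit 425) (nat_lit 313)) (XT.lf (nat_lit 0) (nat_lit 32329942222) (nat_lit 228) (nat_lit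 107248641031) (nat_lit 76) (nat_lit 21650265736) (nat_lit 54) (nat_lit 5) (nat_lit 57) (nat_lit 5) (nat_lit 55) (nat_lit 4) (nat_lit 463) (nat_lit 425) (nat_lit 312)))) (XT.nd (nat_lit 156) (nat_lit 152) (nat_lit 0) (XT.nd (nat_lit 78) (nat_lit 152) (nat_lit 0) (XT.lf (nat_lit 0) (nat_lit 48074176256) (nat_lit 76) (nat_lit 60024042155) (nat_lit 152) (nat_lit 61706024783) (nat_lit 53) (nat_lit 5) (nat_lit 54) (nat_lit 5) (nat_lit 55) (nat_lit 4) (nat_lit 464) (nat_lit 425) (nat_lit 311)) (XT.lf (nat_lit 0) (nat_lit 13513023489) (nat_lit 152) (nat_lit 137564169669) (nat_lit 76) (nat_lit 27830076463) (nat_lit 51) (nat_lit 5) (nat_lit 53) (nat_lit 5) (nat_lit 52) (nat_lit 4) (nat_lit 465) (nat_lit 425) (nat_lit 310))) (XT.nd (nat_lit 78) (nat_lit 76) (nat_lit 0) (XT.lf (nat_lit 0) (nat_lit 32113050558) (nat_lit 76) (nat_lit 64170204556) (nat_lit 152) (nat_lit 92219927492) (nat_lit 50) (nat_lit 5)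 (nat_lit 51) (nat_lit 5) (nat_lit 52) (nat_lit 4) (nat_lit 466) (nat_lit 425) (nat_lit 309)) (XT.lf (nat_lit 0) (nat_lit 21718310523) (nat_lit 76) (nat_lit 167192966252) (nat_lit 76) (nat_lit 9793683334) (nat_lit 49) (nat_lit 4) (nat_lit 50) (nat_lit 5) (nat_lit 50) (nat_lit 4) (nat_lit 467) (nat_lit 425) (nat_lit 308))))))) (XT.nd (nat_lit 1170) (nat_lit 1140) (nat_lit 0) (XT.nd (nat_lit 546) (nat_lit 836) (nat_lit 0) (XT.nd (nat_lit 234) (nat_lit 380) (nat_lit 0) (XT.nd (nat_lit 78) (nat_lit 152) (nat_lit 0) (XT.lf (nat_lit 0) (nat_lit 7960803180) (nat_lit 76) (nat_lit 72703352311) (nat_lit 152) (nat_lit 128798214703) (nat_lit 47) (nat_lit 5) (nat_lit 48) (nat_lit 5) (nat_lit 49) (nat_lit 4) (nat_lit 468) (nat_lit 425) (nat_lit 307)) (XT.nd (nat_lit 78) (nat_lit 152) (nat_lit 0) (XT.lf (nat_lit 0) (nat_lit 181609896667) (nat_lit 152) (nat_lit 7579539049) (nat_lit 0) (nat_lit 31703189892) (nat_lit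 47) (nat_lit 5) (nat_lit 49) (nat_lit 4) (nat_lit 47) (nat_lit 4) (nat_lit 469) (nat_lit 425) (nat_lit 306)) (XT.lf (nat_lit 0) (nat_lit 60090227626) (nat_lit 152) (nat_lit 26722909926) (nat_lit 76) (nat_lit 146152699974) (nat_lit 45) (nat_lit 5) (nat_lit 47) (nat_lit 5) (nat_lit 46) (nat_lit 4) (nat_lit 470) (nat_lit 425) (nat_lit 305)))) (XT.nd (nat_lit 156) (nat_lit 152) (nat_lit 0) (XT.nd (nat_lit 78) (nat_lit 152) (nat_lit 0) (XT.lf (nat_lit 0) (nat_lit 169699002782) (nat_lit 152) (nat_lit 49162026838) (nat_lit 0) (nat_lit 26928564977) (nat_lit 44) (nat_lit 5) (nat_lit 46) (nat_lit 4) (nat_lit 44) (nat_lit 4) (nat_lit 471) (nat_lit 425) (nat_lit 304)) (XT.lf (nat_lit 0) (nat_lit 32407370244) (nat_lit 152) (nat_lit 76336283948) (nat_lit 76) (nat_lit 150629383261) (nat_lit 42) (nat_lit 5) (nat_lit 44) (nat_lit 5) (nat_lit 43) (nat_lit 4) (nat_lit 472) (nat_lit 425) (nat_lit 303))) (XT.nd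 (nat_lit 78) (nat_lit 76) (nat_lit 0) (XT.lf (nat_lit 0) (nat_lit 150645363558) (nat_lit 152) (nat_lit 108477354882) (nat_lit 0) (nat_lit 14671766088) (nat_lit 41) (nat_lit 5) (nat_lit 43) (nat_lit 4) (nat_lit 41) (nat_lit 4) (nat_lit 473) (nat_lit 425) (nat_lit 302)) (XT.lf (nat_lit 0) (nat_lit 142425652601) (nat_lit 76) (nat_lit 141324004556) (nat_lit 76) (nat_lit 5349627198) (nat_lit 40) (nat_lit 4) (nat_lit 41) (nat_lit 5) (nat_lit 41) (nat_lit 4) (nat_lit 474) (nat_lit 425) (nat_lit 301))))) (XT.nd (nat_lit 312) (nat_lit 456) (nat_lit 0) (XT.nd (nat_lit 156) (nat_lit 152) (nat_lit 0) (XT.nd (nat_lit 78) (nat_lit 76) (nat_lit 0) (XT.lf (nat_lit 0) (nat_lit 113434487809) (nat_lit 76) (nat_lit 8228725501) (nat_lit 152) (nat_lit 183685609744) (nat_lit 38) (nat_lit 5) (nat_lit 39) (nat_lit 5) (nat_lit 40) (nat_lit 4) (nat_lit 475) (nat_lit 425) (nat_lit 300)) (XT.lf (nat_lit 0) (nat_lit 77033164761)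 (nat_lit 76) (nat_lit 187532844521) (nat_lit 76) (nat_lit 58032112992) (nat_lit 37) (nat_lit 4) (nat_lit 38) (nat_lit 5) (nat_lit 38) (nat_lit 4) (nat_lit 476) (nat_lit 425) (nat_lit 299))) (XT.nd (nat_lit 78) (nat_lit 0) (nat_lit 0) (XT.lf (nat_lit 0) (nat_lit 32934498351) (nat_lit 76) (nat_lit 46302486770) (nat_lit 152) (nat_lit 261727276954) (nat_lit 35) (nat_lit 5) (nat_lit 36) (nat_lit 5) (nat_lit 37) (nat_lit 4) (nat_lit 477) (nat_lit 425) (nat_lit 298)) (XT.lf (nat_lit 0) (nat_lit 231486454937) (nat_lit 152) (nat_lit 20812727096) (nat_lit 0) (nat_lit 108151343419) (nat_lit 35) (nat_lit 5) (nat_lit 37) (nat_lit 4) (nat_lit 35) (nat_lit 4) (nat_lit 478) (nat_lit 425) (nat_lit 297)))) (XT.nd (nat_lit 156) (nat_lit 228) (nat_lit 0) (XT.nd (nat_lit 78) (nat_lit 76) (nat_lit 0) (XT.lf (nat_lit 0) (nat_lit 19482029405) (nat_lit 152) (nat_lit 83397432668) (nat_lit 76) (nat_lit 278328802202) (nat_lit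 33) (nat_lit 5) (nat_lit 35) (nat_lit 5) (nat_lit 34) (nat_lit 4) (nat_lit 479) (nat_lit 425) (nat_lit 296)) (XT.lf (nat_lit 0) (nat_lit 180551339062) (nat_lit 152) (nat_lit 159617840130) (nat_lit 0) (nat_lit 63088445043) (nat_lit 32) (nat_lit 5) (nat_lit 34) (nat_lit 4) (nat_lit 32) (nat_lit 4) (nat_lit 480) (nat_lit 425) (nat_lit 295))) (XT.nd (nat_lit 78) (nat_lit 152) (nat_lit 0) (XT.lf (nat_lit 0) (nat_lit 176714813506) (nat_lit 76) (nat_lit 183760475908) (nat_lit 76) (nat_lit 66297188793) (nat_lit 31) (nat_lit 4) (nat_lit 32) (nat_lit 5) (nat_lit 32) (nat_lit 4) (nat_lit 481) (nat_lit 425) (nat_lit 294)) (XT.lf (nat_lit 0) (nat_lit 95015404737) (nat_lit 76) (nat_lit 8632915179) (nat_lit 152) (nat_lit 348224671994) (nat_lit 29) (nat_lit 5) (nat_lit 30) (nat_lit 5) (nat_lit 31) (nat_lit 4) (nat_lit 482) (nat_lit 425) (nat_lit 293)))))) (XT.nd (nat_lit 546) (nat_lit 608) (nat_lit 0) (XT.nd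 (nat_lit 234) (nat_lit 304) (nat_lit 0) (XT.nd (nat_lit 78) (nat_lit 228) (nat_lit 0) (XT.lf (nat_lit 0) (nat_lit 292142098808) (nat_lit 152) (nat_lit 6149704009) (nat_lit 0) (nat_lit 180271633942) (nat_lit 29) (nat_lit 5) (nat_lit 31) (nat_lit 4) (nat_lit 29) (nat_lit 4) (nat_lit 483) (nat_lit 425) (nat_lit 292)) (XT.nd (nat_lit 78) (nat_lit 152) (nat_lit 0) (XT.lf (nat_lit 0) (nat_lit 384782594511) (nat_lit 76) (nat_lit 117084840989) (nat_lit 76) (nat_lit 5214078932) (nat_lit 28) (nat_lit 4) (nat_lit 29) (nat_lit 5) (nat_lit 29) (nat_lit 4) (nat_lit 484) (nat_lit 425) (nat_lit 291)) (XT.lf (nat_lit 0) (nat_lit 190145229048) (nat_lit 152) (nat_lit 263698104757) (nat_lit 0) (nat_lit 83601384061) (nat_lit 26) (nat_lit 5) (nat_lit 28) (nat_lit 4) (nat_lit 26) (nat_lit 4) (nat_lit 485) (nat_lit 425) (nat_lit 290)))) (XT.nd (nat_lit 156) (nat_lit 152) (nat_lit 0) (XT.nd (nat_lit 78) (nat_lit 76)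 (nat_lit 0) (XT.lf (nat_lit 0) (nat_lit 138031360944) (nat_lit 76) (nat_lit 269215313508) (nat_lit 76) (nat_lit 162671225860) (nat_lit 25) (nat_lit 4) (nat_lit 26) (nat_lit 5) (nat_lit 26) (nat_lit 4) (nat_lit 486) (nat_lit 425) (nat_lit 289)) (XT.lf (nat_lit 0) (nat_lit 40219590061) (nat_lit 152) (nat_lit 24094152709) (nat_lit 76) (nat_lit 540413134047) (nat_lit 24) (nat_lit 5) (nat_lit 26) (nat_lit 5) (nat_lit 25) (nat_lit 4) (nat_lit 487) (nat_lit 425) (nat_lit 288))) (XT.nd (nat_lit 78) (nat_lit 76) (nat_lit 0) (XT.lf (nat_lit 0) (nat_lit 262993567435) (nat_lit 152) (nat_lit 217203516121) (nat_lit 0) (nat_lit 161522595646) (nat_lit 23) (nat_lit 5) (nat_lit 25) (nat_lit 4) (nat_lit 23) (nat_lit 4) (nat_lit 488) (nat_lit 425) (nat_lit 287)) (XT.lf (nat_lit 0) (nat_lit 234641714440) (nat_lit 76) (nat_lit 274121333668) (nat_lit 76) (nat_lit 172650178420) (nat_lit 22) (nat_lit 4) (nat_lit 23)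 (nat_lit 5) (nat_lit 23) (nat_lit 4) (nat_lit 489) (nat_lit 425) (nat_lit 286))))) (XT.nd (nat_lit 312) (nat_lit 304) (nat_lit 0) (XT.nd (nat_lit 156) (nat_lit 152) (nat_lit 0) (XT.nd (nat_lit 78) (nat_lit 0) (nat_lit 0) (XT.lf (nat_lit 0) (nat_lit 5635132679) (nat_lit 76) (nat_lit 46611919904) (nat_lit 152) (nat_lit 671799606223) (nat_lit 20) (nat_lit 5) (nat_lit 21) (nat_lit 5) (nat_lit 22) (nat_lit 4) (nat_lit 490) (nat_lit 425) (nat_lit 285)) (XT.lf (nat_lit 0) (nat_lit 300185828709) (nat_lit 152) (nat_lit 265662169373) (nat_lit 0) (nat_lit 203546321656) (nat_lit 20) (nat_lit 5) (nat_lit 22) (nat_lit 4) (nat_lit 20) (nat_lit 4) (nat_lit 491) (nat_lit 425) (nat_lit 284))) (XT.nd (nat_lit 78) (nat_lit 76) (nat_lit 0) (XT.lf (nat_lit 0) (nat_lit 229877157733) (nat_lit 76) (nat_lit 342456784893) (nat_lit 76) (nat_lit 245817139139) (nat_lit 19) (nat_lit 4) (nat_lit 20) (nat_lit 5) (nat_lit 20)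 (nat_lit 4) (nat_lit 492) (nat_lit 425) (nat_lit 283)) (XT.lf (nat_lit 0) (nat_lit 294087798) (nat_lit 152) (nat_lit 96036894193) (nat_lit 76) (nat_lit 774245818419) (nat_lit 18) (nat_lit 5) (nat_lit 20) (nat_lit 5) (nat_lit 19) (nat_lit 4) (nat_lit 493) (nat_lit 425) (nat_lit 282)))) (XT.nd (nat_lit 156) (nat_lit 152) (nat_lit 0) (XT.nd (nat_lit 78) (nat_lit 76) (nat_lit 0) (XT.lf (nat_lit 0) (nat_lit 267383178732) (nat_lit 152) (nat_lit 483771663004) (nat_lit 0) (nat_lit 175345185309) (nat_lit 17) (nat_lit 5) (nat_lit 19) (nat_lit 4) (nat_lit 17) (nat_lit 4) (nat_lit 494) (nat_lit 425) (nat_lit 281)) (XT.lf (nat_lit 0) (nat_lit 40865707753) (nat_lit 76) (nat_lit 518935700881) (nat_lit 76) (nat_lit 426897602595) (nat_lit 16) (nat_lit 4) (nat_lit 17) (nat_lit 5) (nat_lit 17) (nat_lit 4) (nat_lit 495) (nat_lit 425) (nat_lit 280))) (XT.nd (nat_lit 78) (nat_lit 152) (nat_lit 0) (XT.lf (nat_lit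 0) (nat_lit 624748124229) (nat_lit 76) (nat_lit 259291333627) (nat_lit 76) (nat_lit 167253138247) (nat_lit 16) (nat_lit 4) (nat_lit 17) (nat_lit 5) (nat_lit 17) (nat_lit 4) (nat_lit 496) (nat_lit 425) (nat_lit 279)) (XT.lf (nat_lit 0) (nat_lit 112071590681) (nat_lit 152) (nat_lit 984351125395) (nat_lit 0) (nat_lit 24416080888) (nat_lit 14) (nat_lit 5) (nat_lit 16) (nat_lit 4) (nat_lit 14) (nat_lit 4) (nat_lit 497) (nat_lit 425) (nat_lit 278))))))))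
noncomputable def xc85 : XT := (XT.nd (nat_lit 58812) (nat_lit 0) (nat_lit 1672) (XT.nd (nat_lit 57642) (nat_lit 0) (nat_lit 5548) (XT.nd (nat_lit 57096) (nat_lit 0) (nat_lit 9120) (XT.nd (nat_lit 234) (nat_lit 152) (nat_lit 0) (XT.nd (nat_lit 78) (nat_lit 76) (nat_lit 0) (XT.lf (nat_lit 0) (nat_lit 419884386459) (nat_lit 152) (nat_lit 443098326124) (nat_lit 0) (nat_lit 332228797387) (nat_lit 14) (nat_lit 5) (nat_lit 16) (nat_lit 4) (nat_lit 14) (nat_lit 4) (nat_lit 498) (nat_lit 425) (nat_lit 277)) (XT.nd (nat_lit 78) (nat_lit 0) (nat_lit 0) (XT.lf (nat_lit 0) (nat_lit 146130712564) (nat_lit 76) (nat_lit 608472470537) (nat_lit 76) (nat_lit 520816808058) (nat_lit 13) (nat_lit 4) (nat_lit 14) (nat_lit 5) (nat_lit 14) (nat_lit 4) (nat_lit 499) (nat_lit 425) (nat_lit 276)) (XT.lf (nat_lit 0) (nat_lit 798319939641) (nat_lit 76) (nat_lit 325497521388) (nat_lit 76) (nat_lit 237841790940) (nat_lit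 13) (nat_lit 4) (nat_lit 14) (nat_lit 5) (nat_lit 14) (nat_lit 4) (nat_lit 500) (nat_lit 425) (nat_lit 275)))) (XT.nd (nat_lit 56706) (nat_lit 0) (nat_lit 10412) (XT.nd (nat_lit 56628) (nat_lit 0) (nat_lit 10336) (XT.lf (nat_lit 0) (nat_lit 48375911393) (nat_lit 76) (nat_lit 17981017765) (nat_lit 152) (nat_lit 1388350079340) (nat_lit 11) (nat_lit 5) (nat_lit 12) (nat_lit 5) (nat_lit 13) (nat_lit 4) (nat_lit 501) (nat_lit 425) (nat_lit 274)) (XT.lf (nat_lit 0) (nat_lit 5753989264) (nat_lit 836) (nat_lit 4642842869) (nat_lit 836) (nat_lit 4642842869) (nat_lit 147) (nat_lit 3) (nat_lit 158) (nat_lit 3) (nat_lit 158) (nat_lit 5) (nat_lit 426) (nat_lit 426) (nat_lit 348))) (XT.nd (nat_lit 78) (nat_lit 0) (nat_lit 0) (XT.lf (nat_lit 0) (nat_lit 12358376774) (nat_lit 760) (nat_lit 16243938956) (nat_lit 836) (nat_lit 2660687002) (nat_lit 148) (nat_lit 5) (nat_lit 158) (nat_lit 5) (nat_lit 159) (nat_lit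 5) (nat_lit 427) (nat_lit 426) (nat_lit 347)) (XT.lf (nat_lit 76) (nat_lit 8994403410) (nat_lit 0) (nat_lit 4926636870) (nat_lit 836) (nat_lit 18588097459) (nat_lit 149) (nat_lit 5) (nat_lit 148) (nat_lit 5) (nat_lit 159) (nat_lit 5) (nat_lit 428) (nat_lit 426) (nat_lit 346))))) (XT.nd (nat_lit 234) (nat_lit 1368) (nat_lit 0) (XT.nd (nat_lit 78) (nat_lit 0) (nat_lit 76) (XT.lf (nat_lit 76) (nat_lit 2744962349) (nat_lit 0) (nat_lit 13506083011) (nat_lit 836) (nat_lit 17571803366) (nat_lit 150) (nat_lit 5) (nat_lit 149) (nat_lit 5) (nat_lit 160) (nat_lit 5) (nat_lit 429) (nat_lit 426) (nat_lit 345)) (XT.nd (nat_lit 78) (nat_lit 0) (nat_lit 76) (XT.lf (nat_lit 0) (nat_lit 19445816421) (nat_lit 760) (nat_lit 3561752650) (nat_lit 836) (nat_lit 12200170728) (nat_lit 150) (nat_lit 5) (nat_lit 160) (nat_lit 5) (nat_lit 161) (nat_lit 5) (nat_lit 430) (nat_lit 426) (nat_lit 344)) (XT.lf (nat_lit 0) (nat_lit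 23583670052) (nat_lit 760) (nat_lit 9943958822) (nat_lit 836) (nat_lit 3141419615) (nat_lit 151) (nat_lit 5) (nat_lit 161) (nat_lit 5) (nat_lit 162) (nat_lit 5) (nat_lit 431) (nat_lit 426) (nat_lit 343)))) (XT.nd (nat_lit 156) (nat_lit 836) (nat_lit 0) (XT.nd (nat_lit 78) (nat_lit 684) (nat_lit 0) (XT.lf (nat_lit 76) (nat_lit 21613842155) (nat_lit 0) (nat_lit 7218780805) (nat_lit 836) (nat_lit 9375636637) (nat_lit 152) (nat_lit 5) (nat_lit 151) (nat_lit 5) (nat_lit 162) (nat_lit 5) (nat_lit 432) (nat_lit 426) (nat_lit 342)) (XT.lf (nat_lit 0) (nat_lit 16372701406) (nat_lit 760) (nat_lit 18883528530) (nat_lit 836) (nat_lit 4576641948) (nat_lit 142) (nat_lit 5) (nat_lit 152) (nat_lit 5) (nat_lit 153) (nat_lit 5) (nat_lit 433) (nat_lit 426) (nat_lit 341))) (XT.nd (nat_lit 78) (nat_lit 380) (nat_lit 0) (XT.lf (nat_lit 0) (nat_lit 1326754660) (nat_lit 456) (nat_lit 30501837880) (nat_lit 76) (nat_lit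 9721394029) (nat_lit 136) (nat_lit 5) (nat_lit 142) (nat_lit 5) (nat_lit 137) (nat_lit 5) (nat_lit 434) (nat_lit 426) (nat_lit 340)) (XT.lf (nat_lit 0) (nat_lit 5538851344) (nat_lit 380) (nat_lit 2818580864) (nat_lit 456) (nat_lit 35002520216) (nat_lit 131) (nat_lit 5) (nat_lit 136) (nat_lit 5) (nat_lit 137) (nat_lit 5) (nat_lit 435) (nat_lit 426) (nat_lit 339)))))) (XT.nd (nat_lit 546) (nat_lit 1672) (nat_lit 0) (XT.nd (nat_lit 234) (nat_lit 1216) (nat_lit 0) (XT.nd (nat_lit 78) (nat_lit 684) (nat_lit 0) (XT.lf (nat_lit 0) (nat_lit 16929128835) (nat_lit 456) (nat_lit 197032744) (nat_lit 76) (nat_lit 28139626616) (nat_lit 131) (nat_lit 5) (nat_lit 137) (nat_lit 5) (nat_lit 132) (nat_lit 5) (nat_lit 436) (nat_lit 426) (nat_lit 338)) (XT.nd (nat_lit 78) (nat_lit 304) (nat_lit 0) (XT.lf (nat_lit 0) (nat_lit 27110968851) (nat_lit 456) (nat_lit 5802958387) (nat_lit 76) (nat_lit 14363944033) (nat_lit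 126) (nat_lit 5) (nat_lit 132) (nat_lit 5) (nat_lit 127) (nat_lit 5) (nat_lit 437) (nat_lit 426) (nat_lit 337)) (XT.lf (nat_lit 0) (nat_lit 37956404660) (nat_lit 304) (nat_lit 1030041409) (nat_lit 380) (nat_lit 10420521188) (nat_lit 122) (nat_lit 5) (nat_lit 126) (nat_lit 5) (nat_lit 127) (nat_lit 5) (nat_lit 438) (nat_lit 426) (nat_lit 336)))) (XT.nd (nat_lit 156) (nat_lit 532) (nat_lit 0) (XT.nd (nat_lit 78) (nat_lit 304) (nat_lit 0) (XT.lf (nat_lit 0) (nat_lit 1275294651) (nat_lit 380) (nat_lit 17379026546) (nat_lit 76) (nat_lit 32993332834) (nat_lit 117) (nat_lit 5) (nat_lit 122) (nat_lit 5) (nat_lit 118) (nat_lit 5) (nat_lit 439) (nat_lit 426) (nat_lit 335)) (XT.lf (nat_lit 0) (nat_lit 14500167703) (nat_lit 380) (nat_lit 23503204812) (nat_lit 76) (nat_lit 16007758634) (nat_lit 113) (nat_lit 5) (nat_lit 118) (nat_lit 5) (nat_lit 114) (nat_lit 5) (nat_lit 440) (nat_lit 426) (nat_lit 334)))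 (XT.nd (nat_lit 78) (nat_lit 228) (nat_lit 0) (XT.lf (nat_lit 0) (nat_lit 26830802221) (nat_lit 304) (nat_lit 2988406908) (nat_lit 380) (nat_lit 26692668958) (nat_lit 109) (nat_lit 5) (nat_lit 113) (nat_lit 5) (nat_lit 114) (nat_lit 5) (nat_lit 441) (nat_lit 426) (nat_lit 333)) (XT.lf (nat_lit 0) (nat_lit 23018609948) (nat_lit 228) (nat_lit 24659716567) (nat_lit 304) (nat_lit 11468631169) (nat_lit 106) (nat_lit 5) (nat_lit 109) (nat_lit 5) (nat_lit 110) (nat_lit 5) (nat_lit 442) (nat_lit 426) (nat_lit 332))))) (XT.nd (nat_lit 312) (nat_lit 684) (nat_lit 0) (XT.nd (nat_lit 156) (nat_lit 456) (nat_lit 0) (XT.nd (nat_lit 78) (nat_lit 228) (nat_lit 0) (XT.lf (nat_lit 0) (nat_lit 5905851222) (nat_lit 304) (nat_lit 42651985141) (nat_lit 76) (nat_lit 13376540418) (nat_lit 102) (nat_lit 5) (nat_lit 106) (nat_lit 5) (nat_lit 103) (nat_lit 5) (nat_lit 443) (nat_lit 426) (nat_lit 331)) (XT.lf (nat_lit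 0) (nat_lit 15369133218) (nat_lit 228) (nat_lit 10195825831) (nat_lit 304) (nat_lit 39305606684) (nat_lit 99) (nat_lit 5) (nat_lit 102) (nat_lit 5) (nat_lit 103) (nat_lit 5) (nat_lit 444) (nat_lit 426) (nat_lit 330))) (XT.nd (nat_lit 78) (nat_lit 228) (nat_lit 0) (XT.lf (nat_lit 0) (nat_lit 11409886761) (nat_lit 228) (nat_lit 36803756636) (nat_lit 304) (nat_lit 19757164415) (nat_lit 96) (nat_lit 5) (nat_lit 99) (nat_lit 5) (nat_lit 100) (nat_lit 5) (nat_lit 445) (nat_lit 426) (nat_lit 329)) (XT.lf (nat_lit 0) (nat_lit 2558548446) (nat_lit 228) (nat_lit 63621773013) (nat_lit 76) (nat_lit 5075351839) (nat_lit 93) (nat_lit 5) (nat_lit 96) (nat_lit 5) (nat_lit 94) (nat_lit 5) (nat_lit 446) (nat_lit 426) (nat_lit 328)))) (XT.nd (nat_lit 156) (nat_lit 456) (nat_lit 0) (XT.nd (nat_lit 78) (nat_lit 0) (nat_lit 0) (XT.lf (nat_lit 0) (nat_lit 3361989318) (nat_lit 228) (nat_lit 24285280827) (nat_lit 304)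 (nat_lit 47055866480) (nat_lit 90) (nat_lit 5) (nat_lit 93) (nat_lit 5) (nat_lit 94) (nat_lit 5) (nat_lit 447) (nat_lit 426) (nat_lit 327)) (XT.lf (nat_lit 0) (nat_lit 56193155271) (nat_lit 304) (nat_lit 745709542) (nat_lit 76) (nat_lit 21415029227) (nat_lit 90) (nat_lit 5) (nat_lit 94) (nat_lit 5) (nat_lit 91) (nat_lit 5) (nat_lit 448) (nat_lit 426) (nat_lit 326))) (XT.nd (nat_lit 78) (nat_lit 228) (nat_lit 0) (XT.lf (nat_lit 0) (nat_lit 6218402301) (nat_lit 228) (nat_lit 4750949490) (nat_lit 76) (nat_lit 71241487992) (nat_lit 87) (nat_lit 5) (nat_lit 90) (nat_lit 5) (nat_lit 88) (nat_lit 5) (nat_lit 449) (nat_lit 426) (nat_lit 325)) (XT.lf (nat_lit 0) (nat_lit 37954687002) (nat_lit 304) (nat_lit 9246458024) (nat_lit 76) (nat_lit 39063871033) (nat_lit 84) (nat_lit 5) (nat_lit 88) (nat_lit 5) (nat_lit 85) (nat_lit 5) (nat_lit 450) (nat_lit 426) (nat_lit 324))))))) (XT.nd (nat_lit 1170) (nat_lit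 1520) (nat_lit 0) (XT.nd (nat_lit 546) (nat_lit 1140) (nat_lit 0) (XT.nd (nat_lit 234) (nat_lit 684) (nat_lit 0) (XT.nd (nat_lit 78) (nat_lit 380) (nat_lit 0) (XT.lf (nat_lit 0) (nat_lit 73753851366) (nat_lit 228) (nat_lit 13486244326) (nat_lit 76) (nat_lit 3327232133) (nat_lit 82) (nat_lit 5) (nat_lit 85) (nat_lit 5) (nat_lit 83) (nat_lit 5) (nat_lit 451) (nat_lit 426) (nat_lit 323)) (XT.nd (nat_lit 78) (nat_lit 152) (nat_lit 0) (XT.lf (nat_lit 0) (nat_lit 18848369406) (nat_lit 228) (nat_lit 18306225990) (nat_lit 76) (nat_lit 57936007267) (nat_lit 79) (nat_lit 5) (nat_lit 82) (nat_lit 5) (nat_lit 80) (nat_lit 5) (nat_lit 452) (nat_lit 426) (nat_lit 322)) (XT.lf (nat_lit 0) (nat_lit 58512199356) (nat_lit 228) (nat_lit 23216903802) (nat_lit 76) (nat_lit 18145950046) (nat_lit 77) (nat_lit 5) (nat_lit 80) (nat_lit 5) (nat_lit 78) (nat_lit 5) (nat_lit 453) (nat_lit 426) (nat_lit 321)))) (XT.nd (nat_lit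 156) (nat_lit 304) (nat_lit 0) (XT.nd (nat_lit 78) (nat_lit 228) (nat_lit 0) (XT.lf (nat_lit 0) (nat_lit 76664384957) (nat_lit 152) (nat_lit 26829540792) (nat_lit 228) (nat_lit 1441094709) (nat_lit 75) (nat_lit 5) (nat_lit 77) (nat_lit 5) (nat_lit 78) (nat_lit 5) (nat_lit 454) (nat_lit 426) (nat_lit 320)) (XT.lf (nat_lit 0) (nat_lit 42491568812) (nat_lit 228) (nat_lit 34049451641) (nat_lit 76) (nat_lit 33718681838) (nat_lit 72) (nat_lit 5) (nat_lit 75) (nat_lit 5) (nat_lit 73) (nat_lit 5) (nat_lit 455) (nat_lit 426) (nat_lit 319))) (XT.nd (nat_lit 78) (nat_lit 152) (nat_lit 0) (XT.lf (nat_lit 0) (nat_lit 76017179991) (nat_lit 152) (nat_lit 16009048118) (nat_lit 228) (nat_lit 23876055898) (nat_lit 70) (nat_lit 5) (nat_lit 72) (nat_lit 5) (nat_lit 73) (nat_lit 5) (nat_lit 456) (nat_lit 426) (nat_lit 318)) (XT.lf (nat_lit 0) (nat_lit 25370461113) (nat_lit 152) (nat_lit 46498780255) (nat_lit 76)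 (nat_lit 49978859766) (nat_lit 68) (nat_lit 5) (nat_lit 70) (nat_lit 5) (nat_lit 69) (nat_lit 5) (nat_lit 457) (nat_lit 426) (nat_lit 317))))) (XT.nd (nat_lit 312) (nat_lit 608) (nat_lit 0) (XT.nd (nat_lit 156) (nat_lit 228) (nat_lit 0) (XT.nd (nat_lit 78) (nat_lit 152) (nat_lit 0) (XT.lf (nat_lit 0) (nat_lit 74694430172) (nat_lit 152) (nat_lit 5176850165) (nat_lit 228) (nat_lit 48271178797) (nat_lit 66) (nat_lit 5) (nat_lit 68) (nat_lit 5) (nat_lit 69) (nat_lit 5) (nat_lit 458) (nat_lit 426) (nat_lit 316)) (XT.lf (nat_lit 0) (nat_lit 6734249791) (nat_lit 152) (nat_lit 61258835154) (nat_lit 76) (nat_lit 66791130314) (nat_lit 64) (nat_lit 5) (nat_lit 66) (nat_lit 5) (nat_lit 65) (nat_lit 5) (nat_lit 459) (nat_lit 426) (nat_lit 315))) (XT.nd (nat_lit 78) (nat_lit 76) (nat_lit 0) (XT.lf (nat_lit 0) (nat_lit 66712120534) (nat_lit 228) (nat_lit 69853633905) (nat_lit 76) (nat_lit 5238831248) (nat_lit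 62) (nat_lit 5) (nat_lit 65) (nat_lit 5) (nat_lit 63) (nat_lit 4) (nat_lit 460) (nat_lit 426) (nat_lit 314)) (XT.lf (nat_lit 0) (nat_lit 69735858341) (nat_lit 76) (nat_lit 65070045431) (nat_lit 152) (nat_lit 14414797923) (nat_lit 61) (nat_lit 5) (nat_lit 62) (nat_lit 5) (nat_lit 63) (nat_lit 4) (nat_lit 461) (nat_lit 426) (nat_lit 313)))) (XT.nd (nat_lit 156) (nat_lit 304) (nat_lit 0) (XT.nd (nat_lit 78) (nat_lit 76) (nat_lit 0) (XT.lf (nat_lit 0) (nat_lit 52004134639) (nat_lit 228) (nat_lit 90171336457) (nat_lit 76) (nat_lit 14888576030) (nat_lit 58) (nat_lit 5) (nat_lit 61) (nat_lit 5) (nat_lit 59) (nat_lit 4) (nat_lit 462) (nat_lit 426) (nat_lit 312)) (XT.lf (nat_lit 0) (nat_lit 63002977216) (nat_lit 76) (nat_lit 63721435482) (nat_lit 152) (nat_lit 38623989397) (nat_lit 57) (nat_lit 5) (nat_lit 58) (nat_lit 5) (nat_lit 59) (nat_lit 4) (nat_lit 463) (nat_lit 426) (nat_lit 311))) (XT.nd (nat_lit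 78) (nat_lit 76) (nat_lit 0) (XT.lf (nat_lit 0) (nat_lit 34956274846) (nat_lit 228) (nat_lit 115753120397) (nat_lit 76) (nat_lit 23415763564) (nat_lit 54) (nat_lit 5) (nat_lit 57) (nat_lit 5) (nat_lit 55) (nat_lit 4) (nat_lit 464) (nat_lit 426) (nat_lit 310)) (XT.lf (nat_lit 0) (nat_lit 51992244963) (nat_lit 76) (nat_lit 64791936077) (nat_lit 152) (nat_lit 66602495206) (nat_lit 53) (nat_lit 5) (nat_lit 54) (nat_lit 5) (nat_lit 55) (nat_lit 4) (nat_lit 465) (nat_lit 426) (nat_lit 309)))))) (XT.nd (nat_lit 546) (nat_lit 836) (nat_lit 0) (XT.nd (nat_lit 234) (nat_lit 380) (nat_lit 0) (XT.nd (nat_lit 78) (nat_lit 152) (nat_lit 0) (XT.lf (nat_lit 0) (nat_lit 14631543166) (nat_lit 152) (nat_lit 148497747973) (nat_lit 76) (nat_lit 30088685150) (nat_lit 51) (nat_lit 5) (nat_lit 53) (nat_lit 5) (nat_lit 52) (nat_lit 4) (nat_lit 466) (nat_lit 426) (nat_lit 308)) (XT.nd (nat_lit 78) (nat_lit 76) (nat_lit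 0) (XT.lf (nat_lit 0) (nat_lit 34750540167) (nat_lit 76) (nat_lit 69271145649) (nat_lit 152) (nat_lit 99559961949) (nat_lit 50) (nat_lit 5) (nat_lit 51) (nat_lit 5) (nat_lit 52) (nat_lit 4) (nat_lit 467) (nat_lit 426) (nat_lit 307)) (XT.lf (nat_lit 0) (nat_lit 23522470069) (nat_lit 76) (nat_lit 180536343143) (nat_lit 76) (nat_lit 10540811124) (nat_lit 49) (nat_lit 4) (nat_lit 50) (nat_lit 5) (nat_lit 50) (nat_lit 4) (nat_lit 468) (nat_lit 426) (nat_lit 306)))) (XT.nd (nat_lit 156) (nat_lit 228) (nat_lit 0) (XT.nd (nat_lit 78) (nat_lit 0) (nat_lit 0) (XT.lf (nat_lit 0) (nat_lit 8662577840) (nat_lit 76) (nat_lit 78488318810) (nat_lit 152) (nat_lit 139066781959) (nat_lit 47) (nat_lit 5) (nat_lit 48) (nat_lit 5) (nat_lit 49) (nat_lit 4) (nat_lit 469) (nat_lit 426) (nat_lit 305)) (XT.lf (nat_lit 0) (nat_lit 196170260093) (nat_lit 152) (nat_lit 8124695785) (nat_lit 0) (nat_lit 34267500488) (nat_lit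 47) (nat_lit 5) (nat_lit 49) (nat_lit 4) (nat_lit 47) (nat_lit 4) (nat_lit 470) (nat_lit 426) (nat_lit 304))) (XT.nd (nat_lit 78) (nat_lit 76) (nat_lit 0) (XT.lf (nat_lit 0) (nat_lit 64928087807) (nat_lit 152) (nat_lit 28801182502) (nat_lit 76) (nat_lit 157872301497) (nat_lit 45) (nat_lit 5) (nat_lit 47) (nat_lit 5) (nat_lit 46) (nat_lit 4) (nat_lit 471) (nat_lit 426) (nat_lit 303)) (XT.lf (nat_lit 0) (nat_lit 183304617322) (nat_lit 152) (nat_lit 53036986152) (nat_lit 0) (nat_lit 29109673398) (nat_lit 44) (nat_lit 5) (nat_lit 46) (nat_lit 4) (nat_lit 44) (nat_lit 4) (nat_lit 472) (nat_lit 426) (nat_lit 302))))) (XT.nd (nat_lit 312) (nat_lit 380) (nat_lit 0) (XT.nd (nat_lit 156) (nat_lit 228) (nat_lit 0) (XT.nd (nat_lit 78) (nat_lit 76) (nat_lit 0) (XT.lf (nat_lit 0) (nat_lit 35028786285) (nat_lit 152) (nat_lit 82386750922) (nat_lit 76) (nat_lit 162705901412) (nat_lit 42) (nat_lit 5) (nat_lit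 44) (nat_lit 5) (nat_lit 43) (nat_lit 4) (nat_lit 473) (nat_lit 426) (nat_lit 301)) (XT.lf (nat_lit 0) (nat_lit 162724939547) (nat_lit 152) (nat_lit 117100595935) (nat_lit 0) (nat_lit 15871109992) (nat_lit 41) (nat_lit 5) (nat_lit 43) (nat_lit 4) (nat_lit 41) (nat_lit 4) (nat_lit 474) (nat_lit 426) (nat_lit 300))) (XT.nd (nat_lit 78) (nat_lit 152) (nat_lit 0) (XT.lf (nat_lit 0) (nat_lit 153872264203) (nat_lit 76) (nat_lit 152604062890) (nat_lit 76) (nat_lit 5749564707) (nat_lit 40) (nat_lit 4) (nat_lit 41) (nat_lit 5) (nat_lit 41) (nat_lit 4) (nat_lit 475) (nat_lit 426) (nat_lit 299)) (XT.lf (nat_lit 0) (nat_lit 122560380686) (nat_lit 76) (nat_lit 8861813445) (nat_lit 152) (nat_lit 198353238195) (nat_lit 38) (nat_lit 5) (nat_lit 39) (nat_lit 5) (nat_lit 40) (nat_lit 4) (nat_lit 476) (nat_lit 426) (nat_lit 298)))) (XT.nd (nat_lit 156) (nat_lit 152) (nat_lit 0) (XT.nd (nat_lit 78) (nat_lit 152)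 (nat_lit 0) (XT.lf (nat_lit 0) (nat_lit 83245593310) (nat_lit 76) (nat_lit 202510841771) (nat_lit 76) (nat_lit 62648279366) (nat_lit 37) (nat_lit 4) (nat_lit 38) (nat_lit 5) (nat_lit 38) (nat_lit 4) (nat_lit 477) (nat_lit 426) (nat_lit 297)) (XT.lf (nat_lit 0) (nat_lit 35617679061) (nat_lit 76) (nat_lit 49982685314) (nat_lit 152) (nat_lit 282639817330) (nat_lit 35) (nat_lit 5) (nat_lit 36) (nat_lit 5) (nat_lit 37) (nat_lit 4) (nat_lit 478) (nat_lit 426) (nat_lit 296))) (XT.nd (nat_lit 78) (nat_lit 152) (nat_lit 0) (XT.lf (nat_lit 0) (nat_lit 250028329810) (nat_lit 152) (nat_lit 22432127241) (nat_lit 0) (nat_lit 116824962222) (nat_lit 35) (nat_lit 5) (nat_lit 37) (nat_lit 4) (nat_lit 35) (nat_lit 4) (nat_lit 479) (nat_lit 426) (nat_lit 295)) (XT.lf (nat_lit 0) (nat_lit 21062890799) (nat_lit 152) (nat_lit 90024854198) (nat_lit 76) (nat_lit 300616065210) (nat_lit 33) (nat_lit 5) (nat_lit 35) (nat_lit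 5) (nat_lit 34) (nat_lit 4) (nat_lit 480) (nat_lit 426) (nat_lit 294))))))))
noncomputable def xc86 : XT := (XT.nd (nat_lit 58890) (nat_lit 0) (nat_lit 3344) (XT.nd (nat_lit 1092) (nat_lit 380) (nat_lit 0) (XT.nd (nat_lit 546) (nat_lit 532) (nat_lit 0) (XT.nd (nat_lit 234) (nat_lit 304) (nat_lit 0) (XT.nd (nat_lit 78) (nat_lit 228) (nat_lit 0) (XT.lf (nat_lit 0) (nat_lit 195017086101) (nat_lit 152) (nat_lit 172344086895) (nat_lit 0) (nat_lit 68155978943) (nat_lit 32) (nat_lit 5) (nat_lit 34) (nat_lit 4) (nat_lit 32) (nat_lit 4) (nat_lit 481) (nat_lit 426) (nat_lit 293)) (XT.nd (nat_lit 78) (nat_lit 152) (nat_lit 0) (XT.lf (nat_lit 0) (nat_lit 190893302462) (nat_lit 76) (nat_lit 198440691932) (nat_lit 76) (nat_lit 71579247758) (nat_lit 31) (nat_lit 4) (nat_lit 32) (nat_lit 5) (nat_lit 32) (nat_lit 4) (nat_lit 482) (nat_lit 426) (nat_lit 292)) (XT.lf (nat_lit 0) (nat_lit 102656811022) (nat_lit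 76) (nat_lit 9303465683) (nat_lit 152) (nat_lit 376061549803) (nat_lit 29) (nat_lit 5) (nat_lit 30) (nat_lit 5) (nat_lit 31) (nat_lit 4) (nat_lit 483) (nat_lit 426) (nat_lit 291)))) (XT.nd (nat_lit 156) (nat_lit 228) (nat_lit 0) (XT.nd (nat_lit 78) (nat_lit 76) (nat_lit 0) (XT.lf (nat_lit 0) (nat_lit 315532359993) (nat_lit 152) (nat_lit 6603842263) (nat_lit 0) (nat_lit 194711364600) (nat_lit 29) (nat_lit 5) (nat_lit 31) (nat_lit 4) (nat_lit 29) (nat_lit 4) (nat_lit 484) (nat_lit 426) (nat_lit 290)) (XT.lf (nat_lit 0) (nat_lit 415601395743) (nat_lit 76) (nat_lit 126433493461) (nat_lit 76) (nat_lit 5612243273) (nat_lit 28) (nat_lit 4) (nat_lit 29) (nat_lit 5) (nat_lit 29) (nat_lit 4) (nat_lit 485) (nat_lit 426) (nat_lit 289))) (XT.nd (nat_lit 78) (nat_lit 76) (nat_lit 0) (XT.lf (nat_lit 0) (nat_lit 205374668066) (nat_lit 152) (nat_lit 284758149989) (nat_lit 0) (nat_lit 90306586058) (nat_lit 26)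 (nat_lit 5) (nat_lit 28) (nat_lit 4) (nat_lit 26) (nat_lit 4) (nat_lit 486) (nat_lit 426) (nat_lit 288)) (XT.lf (nat_lit 0) (nat_lit 149108117007) (nat_lit 76) (nat_lit 290735326740) (nat_lit 76) (nat_lit 175667036688) (nat_lit 25) (nat_lit 4) (nat_lit 26) (nat_lit 5) (nat_lit 26) (nat_lit 4) (nat_lit 487) (nat_lit 426) (nat_lit 287))))) (XT.nd (nat_lit 234) (nat_lit 304) (nat_lit 0) (XT.nd (nat_lit 78) (nat_lit 152) (nat_lit 0) (XT.lf (nat_lit 0) (nat_lit 43453189430) (nat_lit 152) (nat_lit 25989444352) (nat_lit 76) (nat_lit 583661591453) (nat_lit 24) (nat_lit 5) (nat_lit 26) (nat_lit 5) (nat_lit 25) (nat_lit 4) (nat_lit 488) (nat_lit 426) (nat_lit 286)) (XT.nd (nat_lit 78) (nat_lit 76) (nat_lit 0) (XT.lf (nat_lit 0) (nat_lit 284048621123) (nat_lit 152) (nat_lit 234548433764) (nat_lit 0) (nat_lit 174459420125) (nat_lit 23) (nat_lit 5) (nat_lit 25) (nat_lit 4) (nat_lit 23) (nat_lit 4) (nat_lit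 489) (nat_lit 426) (nat_lit 285)) (XT.lf (nat_lit 0) (nat_lit 253443052216) (nat_lit 76) (nat_lit 296035923221) (nat_lit 76) (nat_lit 186446564936) (nat_lit 22) (nat_lit 4) (nat_lit 23) (nat_lit 5) (nat_lit 23) (nat_lit 4) (nat_lit 490) (nat_lit 426) (nat_lit 284)))) (XT.nd (nat_lit 156) (nat_lit 152) (nat_lit 0) (XT.nd (nat_lit 78) (nat_lit 0) (nat_lit 0) (XT.lf (nat_lit 0) (nat_lit 6115118665) (nat_lit 76) (nat_lit 50326160644) (nat_lit 152) (nat_lit 725528388984) (nat_lit 20) (nat_lit 5) (nat_lit 21) (nat_lit 5) (nat_lit 22) (nat_lit 4) (nat_lit 491) (nat_lit 426) (nat_lit 283)) (XT.lf (nat_lit 0) (nat_lit 324214298921) (nat_lit 152) (nat_lit 286887671738) (nat_lit 0) (nat_lit 219843214379) (nat_lit 20) (nat_lit 5) (nat_lit 22) (nat_lit 4) (nat_lit 20) (nat_lit 4) (nat_lit 492) (nat_lit 426) (nat_lit 282))) (XT.nd (nat_lit 78) (nat_lit 76) (nat_lit 0) (XT.lf (nat_lit 0) (nat_lit 248293607673)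 (nat_lit 76) (nat_lit 369840056844) (nat_lit 76) (nat_lit 265468853388) (nat_lit 19) (nat_lit 4) (nat_lit 20) (nat_lit 5) (nat_lit 20) (nat_lit 4) (nat_lit 493) (nat_lit 426) (nat_lit 281)) (XT.lf (nat_lit 0) (nat_lit 329855356) (nat_lit 152) (nat_lit 103695110080) (nat_lit 76) (nat_lit 836197366912) (nat_lit 18) (nat_lit 5) (nat_lit 20) (nat_lit 5) (nat_lit 19) (nat_lit 4) (nat_lit 494) (nat_lit 426) (nat_lit 280)))))) (XT.nd (nat_lit 57174) (nat_lit 0) (nat_lit 9804) (XT.nd (nat_lit 234) (nat_lit 228) (nat_lit 0) (XT.nd (nat_lit 78) (nat_lit 76) (nat_lit 0) (XT.lf (nat_lit 0) (nat_lit 288785722956) (nat_lit 152) (nat_lit 522449336841) (nat_lit 0) (nat_lit 189384374851) (nat_lit 17) (nat_lit 5) (nat_lit 19) (nat_lit 4) (nat_lit 17) (nat_lit 4) (nat_lit 495) (nat_lit 426) (nat_lit 279)) (XT.nd (nat_lit 78) (nat_lit 0) (nat_lit 0) (XT.lf (nat_lit 0) (nat_lit 44157977993) (nat_lit 76) (nat_lit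 560438911829) (nat_lit 76) (nat_lit 461037473821) (nat_lit 16) (nat_lit 4) (nat_lit 17) (nat_lit 5) (nat_lit 17) (nat_lit 4) (nat_lit 496) (nat_lit 426) (nat_lit 278)) (XT.lf (nat_lit 0) (nat_lit 674749283075) (nat_lit 76) (nat_lit 280023857797) (nat_lit 76) (nat_lit 180622336546) (nat_lit 16) (nat_lit 4) (nat_lit 17) (nat_lit 5) (nat_lit 17) (nat_lit 4) (nat_lit 497) (nat_lit 426) (nat_lit 277)))) (XT.nd (nat_lit 156) (nat_lit 76) (nat_lit 0) (XT.nd (nat_lit 78) (nat_lit 0) (nat_lit 0) (XT.lf (nat_lit 0) (nat_lit 121047711735) (nat_lit 152) (nat_lit 1063078146396) (nat_lit 0) (nat_lit 26379522852) (nat_lit 14) (nat_lit 5) (nat_lit 16) (nat_lit 4) (nat_lit 14) (nat_lit 4) (nat_lit 498) (nat_lit 426) (nat_lit 276)) (XT.lf (nat_lit 0) (nat_lit 453484761265) (nat_lit 152) (nat_lit 478526683852) (nat_lit 0) (nat_lit 358816504412) (nat_lit 14) (nat_lit 5) (nat_lit 16) (nat_lit 4) (nat_lit 14) (nat_lit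 4) (nat_lit 499) (nat_lit 426) (nat_lit 275))) (XT.nd (nat_lit 78) (nat_lit 0) (nat_lit 0) (XT.lf (nat_lit 0) (nat_lit 157839830122) (nat_lit 76) (nat_lit 657140809979) (nat_lit 76) (nat_lit 562472490192) (nat_lit 13) (nat_lit 4) (nat_lit 14) (nat_lit 5) (nat_lit 14) (nat_lit 4) (nat_lit 500) (nat_lit 426) (nat_lit 274)) (XT.lf (nat_lit 0) (nat_lit 862202813101) (nat_lit 76) (nat_lit 351528565506) (nat_lit 76) (nat_lit 256860187446) (nat_lit 13) (nat_lit 4) (nat_lit 14) (nat_lit 5) (nat_lit 14) (nat_lit 4) (nat_lit 501) (nat_lit 426) (nat_lit 273))))) (XT.nd (nat_lit 312) (nat_lit 380) (nat_lit 0) (XT.nd (nat_lit 156) (nat_lit 0) (nat_lit 76) (XT.nd (nat_lit 78) (nat_lit 0) (nat_lit 76) (XT.lf (nat_lit 0) (nat_lit 6323587093) (nat_lit 836) (nat_lit 4956890536) (nat_lit 836) (nat_lit 4956890536) (nat_lit 147) (nat_lit 3) (nat_lit 158) (nat_lit 3) (nat_lit 158) (nat_lit 5) (nat_lit 427) (nat_lit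 427) (nat_lit 346)) (XT.lf (nat_lit 0) (nat_lit 13549656272) (nat_lit 760) (nat_lit 17421974029) (nat_lit 836) (nat_lit 2782250881) (nat_lit 148) (nat_lit 5) (nat_lit 158) (nat_lit 5) (nat_lit 159) (nat_lit 5) (nat_lit 428) (nat_lit 427) (nat_lit 345))) (XT.nd (nat_lit 78) (nat_lit 0) (nat_lit 76) (XT.lf (nat_lit 76) (nat_lit 9830156352) (nat_lit 0) (nat_lit 5393982624) (nat_lit 836) (nat_lit 19876230026) (nat_lit 149) (nat_lit 5) (nat_lit 148) (nat_lit 5) (nat_lit 159) (nat_lit 5) (nat_lit 429) (nat_lit 427) (nat_lit 344)) (XT.lf (nat_lit 76) (nat_lit 3085890386) (nat_lit 0) (nat_lit 14641459203) (nat_lit 836) (nat_lit 18792489169) (nat_lit 150) (nat_lit 5) (nat_lit 149) (nat_lit 5) (nat_lit 160) (nat_lit 5) (nat_lit 430) (nat_lit 427) (nat_lit 343)))) (XT.nd (nat_lit 156) (nat_lit 608) (nat_lit 0) (XT.nd (nat_lit 78) (nat_lit 0) (nat_lit 76) (XT.lf (nat_lit 0) (nat_lit 21163855457) (nat_lit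 760) (nat_lit 3725372589) (nat_lit 836) (nat_lit 13126987402) (nat_lit 150) (nat_lit 5) (nat_lit 160) (nat_lit 5) (nat_lit 161) (nat_lit 5) (nat_lit 431) (nat_lit 427) (nat_lit 342)) (XT.lf (nat_lit 0) (nat_lit 25621957749) (nat_lit 760) (nat_lit 10615233006) (nat_lit 836) (nat_lit 3357778901) (nat_lit 151) (nat_lit 5) (nat_lit 161) (nat_lit 5) (nat_lit 162) (nat_lit 5) (nat_lit 432) (nat_lit 427) (nat_lit 341))) (XT.nd (nat_lit 78) (nat_lit 684) (nat_lit 0) (XT.lf (nat_lit 76) (nat_lit 23461792621) (nat_lit 0) (nat_lit 7819660551) (nat_lit 836) (nat_lit 9976334872) (nat_lit 152) (nat_lit 5) (nat_lit 151) (nat_lit 5) (nat_lit 162) (nat_lit 5) (nat_lit 433) (nat_lit 427) (nat_lit 340)) (XT.lf (nat_lit 0) (nat_lit 17803367318) (nat_lit 760) (nat_lit 20406595399) (nat_lit 836) (nat_lit 4802857473) (nat_lit 142) (nat_lit 5) (nat_lit 152) (nat_lit 5) (nat_lit 153) (nat_lit 5) (nat_lit 434) (nat_lit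 427) (nat_lit 339))))))) (XT.nd (nat_lit 1170) (nat_lit 2508) (nat_lit 0) (XT.nd (nat_lit 546) (nat_lit 1748) (nat_lit 0) (XT.nd (nat_lit 234) (nat_lit 1368) (nat_lit 0) (XT.nd (nat_lit 78) (nat_lit 380) (nat_lit 0) (XT.lf (nat_lit 0) (nat_lit 1560057041) (nat_lit 456) (nat_lit 32815589119) (nat_lit 76) (nat_lit 10491963840) (nat_lit 136) (nat_lit 5) (nat_lit 142) (nat_lit 5) (nat_lit 137) (nat_lit 5) (nat_lit 435) (nat_lit 427) (nat_lit 338)) (XT.nd (nat_lit 78) (nat_lit 0) (nat_lit 0) (XT.lf (nat_lit 0) (nat_lit 6102862236) (nat_lit 380) (nat_lit 3042794781) (nat_lit 456) (nat_lit 37677093984) (nat_lit 131) (nat_lit 5) (nat_lit 136) (nat_lit 5) (nat_lit 137) (nat_lit 5) (nat_lit 436) (nat_lit 427) (nat_lit 337)) (XT.lf (nat_lit 0) (nat_lit 18394246271) (nat_lit 456) (nat_lit 95313388) (nat_lit 76) (nat_lit 30391937322) (nat_lit 131) (nat_lit 5) (nat_lit 137) (nat_lit 5) (nat_lit 132) (nat_lit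 5) (nat_lit 437) (nat_lit 427) (nat_lit 336)))) (XT.nd (nat_lit 156) (nat_lit 684) (nat_lit 0) (XT.nd (nat_lit 78) (nat_lit 304) (nat_lit 0) (XT.lf (nat_lit 0) (nat_lit 29384307089) (nat_lit 456) (nat_lit 6149713683) (nat_lit 76) (nat_lit 15520843355) (nat_lit 126) (nat_lit 5) (nat_lit 132) (nat_lit 5) (nat_lit 127) (nat_lit 5) (nat_lit 438) (nat_lit 427) (nat_lit 335)) (XT.lf (nat_lit 0) (nat_lit 41105292810) (nat_lit 304) (nat_lit 1098546344) (nat_lit 380) (nat_lit 11150748828) (nat_lit 122) (nat_lit 5) (nat_lit 126) (nat_lit 5) (nat_lit 127) (nat_lit 5) (nat_lit 439) (nat_lit 427) (nat_lit 334))) (XT.nd (nat_lit 78) (nat_lit 304) (nat_lit 0) (XT.lf (nat_lit 0) (nat_lit 1471988878) (nat_lit 380) (nat_lit 18654200541) (nat_lit 76) (nat_lit 35648532128) (nat_lit 117) (nat_lit 5) (nat_lit 122) (nat_lit 5) (nat_lit 118) (nat_lit 5) (nat_lit 440) (nat_lit 427) (nat_lit 333)) (XT.lf (nat_lit 0)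 (nat_lit 15749883007) (nat_lit 380) (nat_lit 25269162163) (nat_lit 76) (nat_lit 17308480938) (nat_lit 113) (nat_lit 5) (nat_lit 118) (nat_lit 5) (nat_lit 114) (nat_lit 5) (nat_lit 441) (nat_lit 427) (nat_lit 332))))) (XT.nd (nat_lit 312) (nat_lit 684) (nat_lit 0) (XT.nd (nat_lit 156) (nat_lit 532) (nat_lit 0) (XT.nd (nat_lit 78) (nat_lit 228) (nat_lit 0) (XT.lf (nat_lit 0) (nat_lit 29086598137) (nat_lit 304) (nat_lit 3202912002) (nat_lit 380) (nat_lit 28739070317) (nat_lit 109) (nat_lit 5) (nat_lit 113) (nat_lit 5) (nat_lit 114) (nat_lit 5) (nat_lit 442) (nat_lit 427) (nat_lit 331)) (XT.lf (nat_lit 0) (nat_lit 24968375432) (nat_lit 228) (nat_lit 26604748305) (nat_lit 304) (nat_lit 12301555058) (nat_lit 106) (nat_lit 5) (nat_lit 109) (nat_lit 5) (nat_lit 110) (nat_lit 5) (nat_lit 443) (nat_lit 427) (nat_lit 330))) (XT.nd (nat_lit 78) (nat_lit 228) (nat_lit 0) (XT.lf (nat_lit 0) (nat_lit 6456221464)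 (nat_lit 304) (nat_lit 45954543381) (nat_lit 76) (nat_lit 14474459078) (nat_lit 102) (nat_lit 5) (nat_lit 106) (nat_lit 5) (nat_lit 103) (nat_lit 5) (nat_lit 444) (nat_lit 427) (nat_lit 329)) (XT.lf (nat_lit 0) (nat_lit 16703501340) (nat_lit 228) (nat_lit 10980422855) (nat_lit 304) (nat_lit 42372591068) (nat_lit 99) (nat_lit 5) (nat_lit 102) (nat_lit 5) (nat_lit 103) (nat_lit 5) (nat_lit 445) (nat_lit 427) (nat_lit 328)))) (XT.nd (nat_lit 156) (nat_lit 228) (nat_lit 0) (XT.nd (nat_lit 78) (nat_lit 228) (nat_lit 0) (XT.lf (nat_lit 0) (nat_lit 12426030180) (nat_lit 228) (nat_lit 39715071548) (nat_lit 304) (nat_lit 21263845600) (nat_lit 96) (nat_lit 5) (nat_lit 99) (nat_lit 5) (nat_lit 100) (nat_lit 5) (nat_lit 446) (nat_lit 427) (nat_lit 327)) (XT.lf (nat_lit 0) (nat_lit 2831560150) (nat_lit 228) (nat_lit 68607509459) (nat_lit 76) (nat_lit 5513635195) (nat_lit 93) (nat_lit 5) (nat_lit 96) (nat_lit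 5) (nat_lit 94) (nat_lit 5) (nat_lit 447) (nat_lit 427) (nat_lit 326))) (XT.nd (nat_lit 78) (nat_lit 0) (nat_lit 0) (XT.lf (nat_lit 0) (nat_lit 3730433911) (nat_lit 228) (nat_lit 26193437600) (nat_lit 304) (nat_lit 50752269532) (nat_lit 90) (nat_lit 5) (nat_lit 93) (nat_lit 5) (nat_lit 94) (nat_lit 5) (nat_lit 448) (nat_lit 427) (nat_lit 325)) (XT.lf (nat_lit 0) (nat_lit 60749127121) (nat_lit 304) (nat_lit 710745258) (nat_lit 76) (nat_lit 23159302097) (nat_lit 90) (nat_lit 5) (nat_lit 94) (nat_lit 5) (nat_lit 91) (nat_lit 5) (nat_lit 449) (nat_lit 427) (nat_lit 324)))))) (XT.nd (nat_lit 546) (nat_lit 1140) (nat_lit 0) (XT.nd (nat_lit 234) (nat_lit 760) (nat_lit 0) (XT.nd (nat_lit 78) (nat_lit 380) (nat_lit 0) (XT.lf (nat_lit 0) (nat_lit 6774270472) (nat_lit 228) (nat_lit 5038581171) (nat_lit 76) (nat_lit 76971931012) (nat_lit 87) (nat_lit 5) (nat_lit 90) (nat_lit 5) (nat_lit 88) (nat_lit 5)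 (nat_lit 450) (nat_lit 427) (nat_lit 323)) (XT.nd (nat_lit 78) (nat_lit 152) (nat_lit 0) (XT.lf (nat_lit 0) (nat_lit 41047027756) (nat_lit 304) (nat_lit 9895486024) (nat_lit 76) (nat_lit 42220901098) (nat_lit 84) (nat_lit 5) (nat_lit 88) (nat_lit 5) (nat_lit 85) (nat_lit 5) (nat_lit 451) (nat_lit 427) (nat_lit 322)) (XT.lf (nat_lit 0) (nat_lit 79707858192) (nat_lit 228) (nat_lit 14476258019) (nat_lit 76) (nat_lit 3625909037) (nat_lit 82) (nat_lit 5) (nat_lit 85) (nat_lit 5) (nat_lit 83) (nat_lit 5) (nat_lit 452) (nat_lit 427) (nat_lit 321)))) (XT.nd (nat_lit 156) (nat_lit 380) (nat_lit 0) (XT.nd (nat_lit 78) (nat_lit 152) (nat_lit 0) (XT.lf (nat_lit 0) (nat_lit 20408127766) (nat_lit 228) (nat_lit 19683981999) (nat_lit 76) (nat_lit 62603143261) (nat_lit 79) (nat_lit 5) (nat_lit 82) (nat_lit 5) (nat_lit 80) (nat_lit 5) (nat_lit 453) (nat_lit 427) (nat_lit 320)) (XT.lf (nat_lit 0) (nat_lit 63243041013)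 (nat_lit 228) (nat_lit 24989338636) (nat_lit 76) (nat_lit 19630181367) (nat_lit 77) (nat_lit 5) (nat_lit 80) (nat_lit 5) (nat_lit 78) (nat_lit 5) (nat_lit 454) (nat_lit 427) (nat_lit 319))) (XT.nd (nat_lit 78) (nat_lit 228) (nat_lit 0) (XT.lf (nat_lit 0) (nat_lit 82878762814) (nat_lit 152) (nat_lit 28942117130) (nat_lit 228) (nat_lit 1506567221) (nat_lit 75) (nat_lit 5) (nat_lit 77) (nat_lit 5) (nat_lit 78) (nat_lit 5) (nat_lit 455) (nat_lit 427) (nat_lit 318)) (XT.lf (nat_lit 0) (nat_lit 45937300526) (nat_lit 228) (nat_lit 36692406629) (nat_lit 76) (nat_lit 36448448431) (nat_lit 72) (nat_lit 5) (nat_lit 75) (nat_lit 5) (nat_lit 73) (nat_lit 5) (nat_lit 456) (nat_lit 427) (nat_lit 317))))) (XT.nd (nat_lit 312) (nat_lit 532) (nat_lit 0) (XT.nd (nat_lit 156) (nat_lit 304) (nat_lit 0) (XT.nd (nat_lit 78) (nat_lit 152) (nat_lit 0) (XT.lf (nat_lit 0) (nat_lit 82176035323) (nat_lit 152) (nat_lit 17256469441)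 (nat_lit 228) (nat_lit 25739750656) (nat_lit 70) (nat_lit 5) (nat_lit 72) (nat_lit 5) (nat_lit 73) (nat_lit 5) (nat_lit 457) (nat_lit 427) (nat_lit 316)) (XT.lf (nat_lit 0) (nat_lit 27443367751) (nat_lit 152) (nat_lit 50141518314) (nat_lit 76) (nat_lit 54008897567) (nat_lit 68) (nat_lit 5) (nat_lit 70) (nat_lit 5) (nat_lit 69) (nat_lit 5) (nat_lit 458) (nat_lit 427) (nat_lit 315))) (XT.nd (nat_lit 78) (nat_lit 152) (nat_lit 0) (XT.lf (nat_lit 0) (nat_lit 80743795479) (nat_lit 152) (nat_lit 5558404263) (nat_lit 228) (nat_lit 52089593324) (nat_lit 66) (nat_lit 5) (nat_lit 68) (nat_lit 5) (nat_lit 69) (nat_lit 5) (nat_lit 459) (nat_lit 427) (nat_lit 314)) (XT.lf (nat_lit 0) (nat_lit 7313403909) (nat_lit 152) (nat_lit 66086114427) (nat_lit 76) (nat_lit 72165411717) (nat_lit 64) (nat_lit 5) (nat_lit 66) (nat_lit 5) (nat_lit 65) (nat_lit 5) (nat_lit 460) (nat_lit 427) (nat_lit 313)))) (XT.nd (nat_lit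 156) (nat_lit 304) (nat_lit 0) (XT.nd (nat_lit 78) (nat_lit 76) (nat_lit 0) (XT.lf (nat_lit 0) (nat_lit 72088102489) (nat_lit 228) (nat_lit 75370255932) (nat_lit 76) (nat_lit 5688641913) (nat_lit 62) (nat_lit 5) (nat_lit 65) (nat_lit 5) (nat_lit 63) (nat_lit 4) (nat_lit 461) (nat_lit 427) (nat_lit 312)) (XT.lf (nat_lit 0) (nat_lit 75383281060) (nat_lit 76) (nat_lit 70244287847) (nat_lit 152) (nat_lit 15528927809) (nat_lit 61) (nat_lit 5) (nat_lit 62) (nat_lit 5) (nat_lit 63) (nat_lit 4) (nat_lit 462) (nat_lit 427) (nat_lit 311))) (XT.nd (nat_lit 78) (nat_lit 76) (nat_lit 0) (XT.lf (nat_lit 0) (nat_lit 56200991300) (nat_lit 228) (nat_lit 97316947711) (nat_lit 76) (nat_lit 16109404291) (nat_lit 58) (nat_lit 5) (nat_lit 61) (nat_lit 5) (nat_lit 59) (nat_lit 4) (nat_lit 463) (nat_lit 427) (nat_lit 310)) (XT.lf (nat_lit 0) (nat_lit 68108351701) (nat_lit 76) (nat_lit 68788851241) (nat_lit 152) (nat_lit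 41677328256) (nat_lit 57) (nat_lit 5) (nat_lit 58) (nat_lit 5) (nat_lit 59) (nat_lit 4) (nat_lit 464) (nat_lit 427) (nat_lit 309))))))))
noncomputable def xc87 : XT := (XT.nd (nat_lit 2340) (nat_lit 456) (nat_lit 0) (XT.nd (nat_lit 1170) (nat_lit 1216) (nat_lit 0) (XT.nd (nat_lit 546) (nat_lit 912) (nat_lit 0) (XT.nd (nat_lit 234) (nat_lit 304) (nat_lit 0) (XT.nd (nat_lit 78) (nat_lit 228) (nat_lit 0) (XT.lf (nat_lit 0) (nat_lit 37787016586) (nat_lit 228) (nat_lit 124948716465) (nat_lit 76) (nat_lit 25317725412) (nat_lit 54) (nat_lit 5) (nat_lit 57) (nat_lit 5) (nat_lit 55) (nat_lit 4) (nat_lit 465) (nat_lit 427) (nat_lit 308)) (XT.nd (nat_lit 78) (nat_lit 152) (nat_lit 0) (XT.lf (nat_lit 0) (nat_lit 56213468359) (nat_lit 76) (nat_lit 69946116194) (nat_lit 152) (nat_lit 71896391359) (nat_lit 53) (nat_lit 5) (nat_lit 54) (nat_lit 5) (nat_lit 55) (nat_lit 4) (nat_lit 466) (nat_lit 427) (nat_lit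 307)) (XT.lf (nat_lit 0) (nat_lit 15834197790) (nat_lit 152) (nat_lit 160316220701) (nat_lit 76) (nat_lit 32523388476) (nat_lit 51) (nat_lit 5) (nat_lit 53) (nat_lit 5) (nat_lit 52) (nat_lit 4) (nat_lit 467) (nat_lit 427) (nat_lit 306)))) (XT.nd (nat_lit 156) (nat_lit 152) (nat_lit 0) (XT.nd (nat_lit 78) (nat_lit 76) (nat_lit 0) (XT.lf (nat_lit 0) (nat_lit 37589264419) (nat_lit 76) (nat_lit 74784823522) (nat_lit 152) (nat_lit 107492557479) (nat_lit 50) (nat_lit 5) (nat_lit 51) (nat_lit 5) (nat_lit 52) (nat_lit 4) (nat_lit 468) (nat_lit 427) (nat_lit 305)) (XT.lf (nat_lit 0) (nat_lit 25461447634) (nat_lit 76) (nat_lit 194951763962) (nat_lit 76) (nat_lit 11352897278) (nat_lit 49) (nat_lit 4) (nat_lit 50) (nat_lit 5) (nat_lit 50) (nat_lit 4) (nat_lit 469) (nat_lit 427) (nat_lit 304))) (XT.nd (nat_lit 78) (nat_lit 0) (nat_lit 0) (XT.lf (nat_lit 0) (nat_lit 9411234278) (nat_lit 76) (nat_lit 84740548165)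 (nat_lit 152) (nat_lit 150161869097) (nat_lit 47) (nat_lit 5) (nat_lit 48) (nat_lit 5) (nat_lit 49) (nat_lit 4) (nat_lit 470) (nat_lit 427) (nat_lit 303)) (XT.lf (nat_lit 0) (nat_lit 211890948537) (nat_lit 152) (nat_lit 8722196836) (nat_lit 0) (nat_lit 37032953514) (nat_lit 47) (nat_lit 5) (nat_lit 49) (nat_lit 4) (nat_lit 47) (nat_lit 4) (nat_lit 471) (nat_lit 427) (nat_lit 302))))) (XT.nd (nat_lit 312) (nat_lit 456) (nat_lit 0) (XT.nd (nat_lit 156) (nat_lit 228) (nat_lit 0) (XT.nd (nat_lit 78) (nat_lit 76) (nat_lit 0) (XT.lf (nat_lit 0) (nat_lit 70148605383) (nat_lit 152) (nat_lit 31054213815) (nat_lit 76) (nat_lit 170525564291) (nat_lit 45) (nat_lit 5) (nat_lit 47) (nat_lit 5) (nat_lit 46) (nat_lit 4) (nat_lit 472) (nat_lit 427) (nat_lit 301)) (XT.lf (nat_lit 0) (nat_lit 197994444799) (nat_lit 152) (nat_lit 57230216963) (nat_lit 0) (nat_lit 31461443859) (nat_lit 44) (nat_lit 5) (nat_lit 46)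 (nat_lit 4) (nat_lit 44) (nat_lit 4) (nat_lit 473) (nat_lit 427) (nat_lit 300))) (XT.nd (nat_lit 78) (nat_lit 76) (nat_lit 0) (XT.lf (nat_lit 0) (nat_lit 37855803197) (nat_lit 152) (nat_lit 88929306444) (nat_lit 76) (nat_lit 175744807930) (nat_lit 42) (nat_lit 5) (nat_lit 44) (nat_lit 5) (nat_lit 43) (nat_lit 4) (nat_lit 474) (nat_lit 427) (nat_lit 299)) (XT.lf (nat_lit 0) (nat_lit 175766894676) (nat_lit 152) (nat_lit 126421535125) (nat_lit 0) (nat_lit 17162748909) (nat_lit 41) (nat_lit 5) (nat_lit 43) (nat_lit 4) (nat_lit 41) (nat_lit 4) (nat_lit 475) (nat_lit 427) (nat_lit 298)))) (XT.nd (nat_lit 156) (nat_lit 228) (nat_lit 0) (XT.nd (nat_lit 78) (nat_lit 152) (nat_lit 0) (XT.lf (nat_lit 0) (nat_lit 166227106547) (nat_lit 76) (nat_lit 164790215398) (nat_lit 76) (nat_lit 6185496390) (nat_lit 40) (nat_lit 4) (nat_lit 41) (nat_lit 5) (nat_lit 41) (nat_lit 4) (nat_lit 476) (nat_lit 427) (nat_lit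 297)) (XT.lf (nat_lit 0) (nat_lit 132409050178) (nat_lit 76) (nat_lit 9549144927) (nat_lit 152) (nat_lit 214198160205) (nat_lit 38) (nat_lit 5) (nat_lit 39) (nat_lit 5) (nat_lit 40) (nat_lit 4) (nat_lit 477) (nat_lit 427) (nat_lit 296))) (XT.nd (nat_lit 78) (nat_lit 152) (nat_lit 0) (XT.lf (nat_lit 0) (nat_lit 89947915130) (nat_lit 76) (nat_lit 218690592590) (nat_lit 76) (nat_lit 67637505685) (nat_lit 37) (nat_lit 4) (nat_lit 38) (nat_lit 5) (nat_lit 38) (nat_lit 4) (nat_lit 478) (nat_lit 427) (nat_lit 295)) (XT.lf (nat_lit 0) (nat_lit 38508606453) (nat_lit 76) (nat_lit 53960723666) (nat_lit 152) (nat_lit 305229019023) (nat_lit 35) (nat_lit 5) (nat_lit 36) (nat_lit 5) (nat_lit 37) (nat_lit 4) (nat_lit 479) (nat_lit 427) (nat_lit 294)))))) (XT.nd (nat_lit 546) (nat_lit 684) (nat_lit 0) (XT.nd (nat_lit 234) (nat_lit 304) (nat_lit 0) (XT.nd (nat_lit 78) (nat_lit 228) (nat_lit 0) (XT.lf (nat_lit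 0) (nat_lit 270050279390) (nat_lit 152) (nat_lit 24187587319) (nat_lit 0) (nat_lit 126189401697) (nat_lit 35) (nat_lit 5) (nat_lit 37) (nat_lit 4) (nat_lit 35) (nat_lit 4) (nat_lit 480) (nat_lit 427) (nat_lit 293)) (XT.nd (nat_lit 78) (nat_lit 76) (nat_lit 0) (XT.lf (nat_lit 0) (nat_lit 22767039898) (nat_lit 152) (nat_lit 97188799768) (nat_lit 76) (nat_lit 324683319247) (nat_lit 33) (nat_lit 5) (nat_lit 35) (nat_lit 5) (nat_lit 34) (nat_lit 4) (nat_lit 481) (nat_lit 427) (nat_lit 292)) (XT.lf (nat_lit 0) (nat_lit 210637005727) (nat_lit 152) (nat_lit 186094593575) (nat_lit 0) (nat_lit 73625996952) (nat_lit 32) (nat_lit 5) (nat_lit 34) (nat_lit 4) (nat_lit 32) (nat_lit 4) (nat_lit 482) (nat_lit 427) (nat_lit 291)))) (XT.nd (nat_lit 156) (nat_lit 76) (nat_lit 0) (XT.nd (nat_lit 78) (nat_lit 152) (nat_lit 0) (XT.lf (nat_lit 0) (nat_lit 206200178075) (nat_lit 76) (nat_lit 214298267204) (nat_lit 76)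 (nat_lit 77286969491) (nat_lit 31) (nat_lit 4) (nat_lit 32) (nat_lit 5) (nat_lit 32) (nat_lit 4) (nat_lit 483) (nat_lit 427) (nat_lit 290)) (XT.lf (nat_lit 0) (nat_lit 110903798553) (nat_lit 76) (nat_lit 10030525251) (nat_lit 152) (nat_lit 406128387411) (nat_lit 29) (nat_lit 5) (nat_lit 30) (nat_lit 5) (nat_lit 31) (nat_lit 4) (nat_lit 484) (nat_lit 427) (nat_lit 289))) (XT.nd (nat_lit 78) (nat_lit 76) (nat_lit 0) (XT.lf (nat_lit 0) (nat_lit 340791146736) (nat_lit 152) (nat_lit 7099709600) (nat_lit 0) (nat_lit 210303705818) (nat_lit 29) (nat_lit 5) (nat_lit 31) (nat_lit 4) (nat_lit 29) (nat_lit 4) (nat_lit 485) (nat_lit 427) (nat_lit 288)) (XT.lf (nat_lit 0) (nat_lit 448880537641) (nat_lit 76) (nat_lit 136532625264) (nat_lit 76) (nat_lit 6044965900) (nat_lit 28) (nat_lit 4) (nat_lit 29) (nat_lit 5) (nat_lit 29) (nat_lit 4) (nat_lit 486) (nat_lit 427) (nat_lit 287))))) (XT.nd (nat_lit 312) (nat_lit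 304) (nat_lit 0) (XT.nd (nat_lit 156) (nat_lit 152) (nat_lit 0) (XT.nd (nat_lit 78) (nat_lit 76) (nat_lit 0) (XT.lf (nat_lit 0) (nat_lit 221819919885) (nat_lit 152) (nat_lit 307508106560) (nat_lit 0) (nat_lit 97545765954) (nat_lit 26) (nat_lit 5) (nat_lit 28) (nat_lit 4) (nat_lit 26) (nat_lit 4) (nat_lit 487) (nat_lit 427) (nat_lit 286)) (XT.lf (nat_lit 0) (nat_lit 161066127810) (nat_lit 76) (nat_lit 313979396492) (nat_lit 76) (nat_lit 189705064197) (nat_lit 25) (nat_lit 4) (nat_lit 26) (nat_lit 5) (nat_lit 26) (nat_lit 4) (nat_lit 488) (nat_lit 427) (nat_lit 285))) (XT.nd (nat_lit 78) (nat_lit 76) (nat_lit 0) (XT.lf (nat_lit 0) (nat_lit 46943189581) (nat_lit 152) (nat_lit 28040958804) (nat_lit 76) (nat_lit 630367727515) (nat_lit 24) (nat_lit 5) (nat_lit 26) (nat_lit 5) (nat_lit 25) (nat_lit 4) (nat_lit 489) (nat_lit 427) (nat_lit 284)) (XT.lf (nat_lit 0) (nat_lit 306785858115) (nat_lit 152)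 (nat_lit 253285419194) (nat_lit 0) (nat_lit 188429048244) (nat_lit 23) (nat_lit 5) (nat_lit 25) (nat_lit 4) (nat_lit 23) (nat_lit 4) (nat_lit 490) (nat_lit 427) (nat_lit 283)))) (XT.nd (nat_lit 156) (nat_lit 76) (nat_lit 0) (XT.nd (nat_lit 78) (nat_lit 152) (nat_lit 0) (XT.lf (nat_lit 0) (nat_lit 273744217090) (nat_lit 76) (nat_lit 319705836567) (nat_lit 76) (nat_lit 201348891848) (nat_lit 22) (nat_lit 4) (nat_lit 23) (nat_lit 5) (nat_lit 23) (nat_lit 4) (nat_lit 491) (nat_lit 427) (nat_lit 282)) (XT.lf (nat_lit 0) (nat_lit 6629341338) (nat_lit 76) (nat_lit 54339639596) (nat_lit 152) (nat_lit 783557640782) (nat_lit 20) (nat_lit 5) (nat_lit 21) (nat_lit 5) (nat_lit 22) (nat_lit 4) (nat_lit 492) (nat_lit 427) (nat_lit 281))) (XT.nd (nat_lit 78) (nat_lit 76) (nat_lit 0) (XT.lf (nat_lit 0) (nat_lit 350163105999) (nat_lit 152) (nat_lit 309815133363) (nat_lit 0) (nat_lit 237441977248) (nat_lit 20)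 (nat_lit 5) (nat_lit 22) (nat_lit 4) (nat_lit 20) (nat_lit 4) (nat_lit 493) (nat_lit 427) (nat_lit 280)) (XT.lf (nat_lit 0) (nat_lit 268179624854) (nat_lit 76) (nat_lit 399415883785) (nat_lit 76) (nat_lit 286694653084) (nat_lit 19) (nat_lit 4) (nat_lit 20) (nat_lit 5) (nat_lit 20) (nat_lit 4) (nat_lit 494) (nat_lit 427) (nat_lit 279))))))) (XT.nd (nat_lit 57876) (nat_lit 0) (nat_lit 5852) (XT.nd (nat_lit 57252) (nat_lit 0) (nat_lit 9804) (XT.nd (nat_lit 234) (nat_lit 228) (nat_lit 0) (XT.nd (nat_lit 78) (nat_lit 152) (nat_lit 0) (XT.lf (nat_lit 0) (nat_lit 366738069) (nat_lit 152) (nat_lit 111969512055) (nat_lit 76) (nat_lit 903103344039) (nat_lit 18) (nat_lit 5) (nat_lit 20) (nat_lit 5) (nat_lit 19) (nat_lit 4) (nat_lit 495) (nat_lit 427) (nat_lit 278)) (XT.nd (nat_lit 78) (nat_lit 76) (nat_lit 0) (XT.lf (nat_lit 0) (nat_lit 311898774488) (nat_lit 152) (nat_lit 564224656899) (nat_lit 0) (nat_lit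 204545048294) (nat_lit 17) (nat_lit 5) (nat_lit 19) (nat_lit 4) (nat_lit 17) (nat_lit 4) (nat_lit 496) (nat_lit 427) (nat_lit 277)) (XT.lf (nat_lit 0) (nat_lit 47710346702) (nat_lit 76) (nat_lit 605264040960) (nat_lit 76) (nat_lit 497910237689) (nat_lit 16) (nat_lit 4) (nat_lit 17) (nat_lit 5) (nat_lit 17) (nat_lit 4) (nat_lit 497) (nat_lit 427) (nat_lit 276)))) (XT.nd (nat_lit 156) (nat_lit 76) (nat_lit 0) (XT.nd (nat_lit 78) (nat_lit 152) (nat_lit 0) (XT.lf (nat_lit 0) (nat_lit 728747494674) (nat_lit 76) (nat_lit 302416522147) (nat_lit 76) (nat_lit 195062647509) (nat_lit 16) (nat_lit 4) (nat_lit 17) (nat_lit 5) (nat_lit 17) (nat_lit 4) (nat_lit 498) (nat_lit 427) (nat_lit 275)) (XT.lf (nat_lit 0) (nat_lit 130740439682) (nat_lit 152) (nat_lit 1148106334809) (nat_lit 0) (nat_lit 28498591378) (nat_lit 14) (nat_lit 5) (nat_lit 16) (nat_lit 4) (nat_lit 14) (nat_lit 4) (nat_lit 499) (nat_lit 427)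 (nat_lit 274))) (XT.nd (nat_lit 78) (nat_lit 76) (nat_lit 0) (XT.lf (nat_lit 0) (nat_lit 489771793100) (nat_lit 152) (nat_lit 516792093284) (nat_lit 0) (nat_lit 387529886523) (nat_lit 14) (nat_lit 5) (nat_lit 16) (nat_lit 4) (nat_lit 14) (nat_lit 4) (nat_lit 500) (nat_lit 427) (nat_lit 273)) (XT.lf (nat_lit 0) (nat_lit 170483014947) (nat_lit 76) (nat_lit 709703965895) (nat_lit 76) (nat_lit 607462005363) (nat_lit 13) (nat_lit 4) (nat_lit 14) (nat_lit 5) (nat_lit 14) (nat_lit 4) (nat_lit 501) (nat_lit 427) (nat_lit 272))))) (XT.nd (nat_lit 312) (nat_lit 380) (nat_lit 0) (XT.nd (nat_lit 156) (nat_lit 0) (nat_lit 76) (XT.nd (nat_lit 78) (nat_lit 0) (nat_lit 76) (XT.lf (nat_lit 0) (nat_lit 6923162922) (nat_lit 836) (nat_lit 5304247881) (nat_lit 836) (nat_lit 5304247881) (nat_lit 147) (nat_lit 3) (nat_lit 158) (nat_lit 3) (nat_lit 158) (nat_lit 5) (nat_lit 428) (nat_lit 428) (nat_lit 344)) (XT.lf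 (nat_lit 0) (nat_lit 14807333640) (nat_lit 760) (nat_lit 18711582394) (nat_lit 836) (nat_lit 2926563564) (nat_lit 148) (nat_lit 5) (nat_lit 158) (nat_lit 5) (nat_lit 159) (nat_lit 5) (nat_lit 429) (nat_lit 428) (nat_lit 343))) (XT.nd (nat_lit 78) (nat_lit 0) (nat_lit 76) (XT.lf (nat_lit 76) (nat_lit 10716192204) (nat_lit 0) (nat_lit 5888271128) (nat_lit 836) (nat_lit 21295790680) (nat_lit 149) (nat_lit 5) (nat_lit 148) (nat_lit 5) (nat_lit 159) (nat_lit 5) (nat_lit 430) (nat_lit 428) (nat_lit 342)) (XT.lf (nat_lit 76) (nat_lit 3436783436) (nat_lit 0) (nat_lit 15859834882) (nat_lit 836) (nat_lit 20137230495) (nat_lit 150) (nat_lit 5) (nat_lit 149) (nat_lit 5) (nat_lit 160) (nat_lit 5) (nat_lit 431) (nat_lit 428) (nat_lit 341)))) (XT.nd (nat_lit 156) (nat_lit 608) (nat_lit 0) (XT.nd (nat_lit 78) (nat_lit 0) (nat_lit 76) (XT.lf (nat_lit 0) (nat_lit 22996173190) (nat_lit 760) (nat_lit 3919389816)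 (nat_lit 836) (nat_lit 14134967911) (nat_lit 150) (nat_lit 5) (nat_lit 160) (nat_lit 5) (nat_lit 161) (nat_lit 5) (nat_lit 432) (nat_lit 428) (nat_lit 340)) (XT.lf (nat_lit 0) (nat_lit 27801681870) (nat_lit 760) (nat_lit 11357933710) (nat_lit 836) (nat_lit 3596433549) (nat_lit 151) (nat_lit 5) (nat_lit 161) (nat_lit 5) (nat_lit 162) (nat_lit 5) (nat_lit 433) (nat_lit 428) (nat_lit 339))) (XT.nd (nat_lit 78) (nat_lit 684) (nat_lit 0) (XT.lf (nat_lit 76) (nat_lit 25440624827) (nat_lit 0) (nat_lit 8465275646) (nat_lit 836) (nat_lit 10646395797) (nat_lit 152) (nat_lit 5) (nat_lit 151) (nat_lit 5) (nat_lit 162) (nat_lit 5) (nat_lit 434) (nat_lit 428) (nat_lit 338)) (XT.lf (nat_lit 0) (nat_lit 19331245928) (nat_lit 760) (nat_lit 22049740818) (nat_lit 836) (nat_lit 5067130797) (nat_lit 142) (nat_lit 5) (nat_lit 152) (nat_lit 5) (nat_lit 153) (nat_lit 5) (nat_lit 435) (nat_lit 428) (nat_lit 337))))))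 (XT.nd (nat_lit 546) (nat_lit 1748) (nat_lit 0) (XT.nd (nat_lit 234) (nat_lit 1368) (nat_lit 0) (XT.nd (nat_lit 78) (nat_lit 380) (nat_lit 0) (XT.lf (nat_lit 0) (nat_lit 1793882531) (nat_lit 456) (nat_lit 35332472230) (nat_lit 76) (nat_lit 11325198080) (nat_lit 136) (nat_lit 5) (nat_lit 142) (nat_lit 5) (nat_lit 137) (nat_lit 5) (nat_lit 436) (nat_lit 428) (nat_lit 336)) (XT.nd (nat_lit 78) (nat_lit 0) (nat_lit 0) (XT.lf (nat_lit 0) (nat_lit 6694745865) (nat_lit 380) (nat_lit 3285127354) (nat_lit 456) (nat_lit 40583555871) (nat_lit 131) (nat_lit 5) (nat_lit 136) (nat_lit 5) (nat_lit 137) (nat_lit 5) (nat_lit 437) (nat_lit 428) (nat_lit 335)) (XT.lf (nat_lit 0) (nat_lit 19960768080) (nat_lit 456) (nat_lit 2216601) (nat_lit 76) (nat_lit 32824270169) (nat_lit 131) (nat_lit 5) (nat_lit 137) (nat_lit 5) (nat_lit 132) (nat_lit 5) (nat_lit 438) (nat_lit 428) (nat_lit 334)))) (XT.nd (nat_lit 156) (nat_lit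 684) (nat_lit 0) (XT.nd (nat_lit 78) (nat_lit 304) (nat_lit 0) (XT.lf (nat_lit 0) (nat_lit 31824609896) (nat_lit 456) (nat_lit 6540969435) (nat_lit 76) (nat_lit 16769184177) (nat_lit 126) (nat_lit 5) (nat_lit 132) (nat_lit 5) (nat_lit 127) (nat_lit 5) (nat_lit 439) (nat_lit 428) (nat_lit 333)) (XT.lf (nat_lit 0) (nat_lit 44490060351) (nat_lit 304) (nat_lit 1174514433) (nat_lit 380) (nat_lit 11954147851) (nat_lit 122) (nat_lit 5) (nat_lit 126) (nat_lit 5) (nat_lit 127) (nat_lit 5) (nat_lit 440) (nat_lit 428) (nat_lit 332))) (XT.nd (nat_lit 78) (nat_lit 304) (nat_lit 0) (XT.lf (nat_lit 0) (nat_lit 1670912815) (nat_lit 380) (nat_lit 20047815623) (nat_lit 76) (nat_lit 38513902925) (nat_lit 117) (nat_lit 5) (nat_lit 122) (nat_lit 5) (nat_lit 118) (nat_lit 5) (nat_lit 441) (nat_lit 428) (nat_lit 331)) (XT.lf (nat_lit 0) (nat_lit 17086778558) (nat_lit 380) (nat_lit 27192702136) (nat_lit 76) (nat_lit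 18710393306) (nat_lit 113) (nat_lit 5) (nat_lit 118) (nat_lit 5) (nat_lit 114) (nat_lit 5) (nat_lit 442) (nat_lit 428) (nat_lit 330))))) (XT.nd (nat_lit 312) (nat_lit 684) (nat_lit 0) (XT.nd (nat_lit 156) (nat_lit 532) (nat_lit 0) (XT.nd (nat_lit 78) (nat_lit 228) (nat_lit 0) (XT.lf (nat_lit 0) (nat_lit 31507260331) (nat_lit 304) (nat_lit 3438082325) (nat_lit 380) (nat_lit 30961882363) (nat_lit 109) (nat_lit 5) (nat_lit 113) (nat_lit 5) (nat_lit 114) (nat_lit 5) (nat_lit 443) (nat_lit 428) (nat_lit 329)) (XT.lf (nat_lit 0) (nat_lit 27058675275) (nat_lit 228) (nat_lit 28709340799) (nat_lit 304) (nat_lit 13213177229) (nat_lit 106) (nat_lit 5) (nat_lit 109) (nat_lit 5) (nat_lit 110) (nat_lit 5) (nat_lit 444) (nat_lit 428) (nat_lit 328))) (XT.nd (nat_lit 78) (nat_lit 228) (nat_lit 0) (XT.lf (nat_lit 0) (nat_lit 7039507713) (nat_lit 304) (nat_lit 49536942027) (nat_lit 76) (nat_lit 15656245904) (nat_lit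 102) (nat_lit 5) (nat_lit 106) (nat_lit 5) (nat_lit 103) (nat_lit 5) (nat_lit 445) (nat_lit 428) (nat_lit 327)) (XT.lf (nat_lit 0) (nat_lit 18129662675) (nat_lit 228) (nat_lit 11832219988) (nat_lit 304) (nat_lit 45695985330) (nat_lit 99) (nat_lit 5) (nat_lit 102) (nat_lit 5) (nat_lit 103) (nat_lit 5) (nat_lit 446) (nat_lit 428) (nat_lit 326)))) (XT.nd (nat_lit 156) (nat_lit 228) (nat_lit 0) (XT.nd (nat_lit 78) (nat_lit 228) (nat_lit 0) (XT.lf (nat_lit 0) (nat_lit 13508720686) (nat_lit 228) (nat_lit 42863997420) (nat_lit 304) (nat_lit 22901602795) (nat_lit 96) (nat_lit 5) (nat_lit 99) (nat_lit 5) (nat_lit 100) (nat_lit 5) (nat_lit 447) (nat_lit 428) (nat_lit 325)) (XT.lf (nat_lit 0) (nat_lit 3116665061) (nat_lit 228) (nat_lit 74006942353) (nat_lit 76) (nat_lit 5982379653) (nat_lit 93) (nat_lit 5) (nat_lit 96) (nat_lit 5) (nat_lit 94) (nat_lit 5) (nat_lit 448) (nat_lit 428) (nat_lit 324))) (XT.nd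 (nat_lit 78) (nat_lit 0) (nat_lit 0) (XT.lf (nat_lit 0) (nat_lit 4114161360) (nat_lit 228) (nat_lit 28259192363) (nat_lit 304) (nat_lit 54754095242) (nat_lit 90) (nat_lit 5) (nat_lit 93) (nat_lit 5) (nat_lit 94) (nat_lit 5) (nat_lit 449) (nat_lit 428) (nat_lit 323)) (XT.lf (nat_lit 0) (nat_lit 65660942946) (nat_lit 304) (nat_lit 686482582) (nat_lit 76) (nat_lit 25038684239) (nat_lit 90) (nat_lit 5) (nat_lit 94) (nat_lit 5) (nat_lit 91) (nat_lit 5) (nat_lit 450) (nat_lit 428) (nat_lit 322))))))))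
noncomputable def xc88 : XT := (XT.nd (nat_lit 2262) (nat_lit 1748) (nat_lit 0) (XT.nd (nat_lit 1092) (nat_lit 1596) (nat_lit 0) (XT.nd (nat_lit 546) (nat_lit 1064) (nat_lit 0) (XT.nd (nat_lit 234) (nat_lit 760) (nat_lit 0) (XT.nd (nat_lit 78) (nat_lit 380) (nat_lit 0) (XT.lf (nat_lit 0) (nat_lit 7366277257) (nat_lit 228) (nat_lit 5362411596) (nat_lit 76) (nat_lit 83156369289) (nat_lit 87) (nat_lit 5) (nat_lit 90) (nat_lit 5) (nat_lit 88) (nat_lit 5) (nat_lit 451) (nat_lit 428) (nat_lit 321)) (XT.nd (nat_lit 78) (nat_lit 152) (nat_lit 0) (XT.lf (nat_lit 0) (nat_lit 44378771624) (nat_lit 304) (nat_lit 10609374013) (nat_lit 76) (nat_lit 45625939768) (nat_lit 84) (nat_lit 5) (nat_lit 88) (nat_lit 5) (nat_lit 85) (nat_lit 5) (nat_lit 452) (nat_lit 428) (nat_lit 320)) (XT.lf (nat_lit 0) (nat_lit 86130524841) (nat_lit 228) (nat_lit 15558153369) (nat_lit 76) (nat_lit 3943843843) (nat_lit 82) (nat_lit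 5) (nat_lit 85) (nat_lit 5) (nat_lit 83) (nat_lit 5) (nat_lit 453) (nat_lit 428) (nat_lit 319)))) (XT.nd (nat_lit 156) (nat_lit 380) (nat_lit 0) (XT.nd (nat_lit 78) (nat_lit 152) (nat_lit 0) (XT.lf (nat_lit 0) (nat_lit 22085264276) (nat_lit 228) (nat_lit 21184333214) (nat_lit 76) (nat_lit 67639048540) (nat_lit 79) (nat_lit 5) (nat_lit 82) (nat_lit 5) (nat_lit 80) (nat_lit 5) (nat_lit 454) (nat_lit 428) (nat_lit 318)) (XT.lf (nat_lit 0) (nat_lit 68345236102) (nat_lit 228) (nat_lit 26915682684) (nat_lit 76) (nat_lit 21228506813) (nat_lit 77) (nat_lit 5) (nat_lit 80) (nat_lit 5) (nat_lit 78) (nat_lit 5) (nat_lit 455) (nat_lit 428) (nat_lit 317))) (XT.nd (nat_lit 78) (nat_lit 228) (nat_lit 0) (XT.lf (nat_lit 0) (nat_lit 89578702950) (nat_lit 152) (nat_lit 31228519658) (nat_lit 228) (nat_lit 1584384209) (nat_lit 75) (nat_lit 5) (nat_lit 77) (nat_lit 5) (nat_lit 78) (nat_lit 5) (nat_lit 456) (nat_lit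 428) (nat_lit 316)) (XT.lf (nat_lit 0) (nat_lit 49652070412) (nat_lit 228) (nat_lit 39558353734) (nat_lit 76) (nat_lit 39391992384) (nat_lit 72) (nat_lit 5) (nat_lit 75) (nat_lit 5) (nat_lit 73) (nat_lit 5) (nat_lit 457) (nat_lit 428) (nat_lit 315))))) (XT.nd (nat_lit 234) (nat_lit 608) (nat_lit 0) (XT.nd (nat_lit 78) (nat_lit 304) (nat_lit 0) (XT.lf (nat_lit 0) (nat_lit 88816545560) (nat_lit 152) (nat_lit 18608435448) (nat_lit 228) (nat_lit 27759159006) (nat_lit 70) (nat_lit 5) (nat_lit 72) (nat_lit 5) (nat_lit 73) (nat_lit 5) (nat_lit 458) (nat_lit 428) (nat_lit 314)) (XT.nd (nat_lit 78) (nat_lit 152) (nat_lit 0) (XT.lf (nat_lit 0) (nat_lit 29675934007) (nat_lit 152) (nat_lit 54086683776) (nat_lit 76) (nat_lit 58356811893) (nat_lit 68) (nat_lit 5) (nat_lit 70) (nat_lit 5) (nat_lit 69) (nat_lit 5) (nat_lit 459) (nat_lit 428) (nat_lit 313)) (XT.lf (nat_lit 0) (nat_lit 87266580061) (nat_lit 152)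 (nat_lit 5975132575) (nat_lit 228) (nat_lit 56219655358) (nat_lit 66) (nat_lit 5) (nat_lit 68) (nat_lit 5) (nat_lit 69) (nat_lit 5) (nat_lit 460) (nat_lit 428) (nat_lit 312)))) (XT.nd (nat_lit 156) (nat_lit 304) (nat_lit 0) (XT.nd (nat_lit 78) (nat_lit 152) (nat_lit 0) (XT.lf (nat_lit 0) (nat_lit 7933124829) (nat_lit 152) (nat_lit 71310051302) (nat_lit 76) (nat_lit 77965214423) (nat_lit 64) (nat_lit 5) (nat_lit 66) (nat_lit 5) (nat_lit 65) (nat_lit 5) (nat_lit 461) (nat_lit 428) (nat_lit 311)) (XT.lf (nat_lit 0) (nat_lit 77888597458) (nat_lit 228) (nat_lit 81338432061) (nat_lit 76) (nat_lit 6170057140) (nat_lit 62) (nat_lit 5) (nat_lit 65) (nat_lit 5) (nat_lit 63) (nat_lit 4) (nat_lit 462) (nat_lit 428) (nat_lit 310))) (XT.nd (nat_lit 78) (nat_lit 228) (nat_lit 0) (XT.lf (nat_lit 0) (nat_lit 81472717595) (nat_lit 76) (nat_lit 75836943684) (nat_lit 152) (nat_lit 16737759569) (nat_lit 61) (nat_lit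 5) (nat_lit 62) (nat_lit 5) (nat_lit 63) (nat_lit 4) (nat_lit 463) (nat_lit 428) (nat_lit 309)) (XT.lf (nat_lit 0) (nat_lit 60728385667) (nat_lit 228) (nat_lit 105043922473) (nat_lit 76) (nat_lit 17423655759) (nat_lit 58) (nat_lit 5) (nat_lit 61) (nat_lit 5) (nat_lit 59) (nat_lit 4) (nat_lit 464) (nat_lit 428) (nat_lit 308)))))) (XT.nd (nat_lit 546) (nat_lit 760) (nat_lit 0) (XT.nd (nat_lit 234) (nat_lit 456) (nat_lit 0) (XT.nd (nat_lit 78) (nat_lit 304) (nat_lit 0) (XT.lf (nat_lit 0) (nat_lit 73612863722) (nat_lit 76) (nat_lit 74265982763) (nat_lit 152) (nat_lit 44980152811) (nat_lit 57) (nat_lit 5) (nat_lit 58) (nat_lit 5) (nat_lit 59) (nat_lit 4) (nat_lit 465) (nat_lit 428) (nat_lit 307)) (XT.nd (nat_lit 78) (nat_lit 76) (nat_lit 0) (XT.lf (nat_lit 0) (nat_lit 40839332982) (nat_lit 228) (nat_lit 134889183772) (nat_lit 76) (nat_lit 27367749723) (nat_lit 54) (nat_lit 5) (nat_lit 57) (nat_lit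 5) (nat_lit 55) (nat_lit 4) (nat_lit 466) (nat_lit 428) (nat_lit 306)) (XT.lf (nat_lit 0) (nat_lit 60763566917) (nat_lit 76) (nat_lit 75516792827) (nat_lit 152) (nat_lit 77618692977) (nat_lit 53) (nat_lit 5) (nat_lit 54) (nat_lit 5) (nat_lit 55) (nat_lit 4) (nat_lit 467) (nat_lit 428) (nat_lit 305)))) (XT.nd (nat_lit 156) (nat_lit 228) (nat_lit 0) (XT.nd (nat_lit 78) (nat_lit 76) (nat_lit 0) (XT.lf (nat_lit 0) (nat_lit 17128480914) (nat_lit 152) (nat_lit 173088923099) (nat_lit 76) (nat_lit 35148929404) (nat_lit 51) (nat_lit 5) (nat_lit 53) (nat_lit 5) (nat_lit 52) (nat_lit 4) (nat_lit 468) (nat_lit 428) (nat_lit 304)) (XT.lf (nat_lit 0) (nat_lit 40646715106) (nat_lit 76) (nat_lit 80743592103) (nat_lit 152) (nat_lit 116064354546) (nat_lit 50) (nat_lit 5) (nat_lit 51) (nat_lit 5) (nat_lit 52) (nat_lit 4) (nat_lit 469) (nat_lit 428) (nat_lit 303))) (XT.nd (nat_lit 78) (nat_lit 152) (nat_lit 0)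 (XT.lf (nat_lit 0) (nat_lit 27547386043) (nat_lit 76) (nat_lit 210524339721) (nat_lit 76) (nat_lit 12234398321) (nat_lit 49) (nat_lit 4) (nat_lit 50) (nat_lit 5) (nat_lit 50) (nat_lit 4) (nat_lit 470) (nat_lit 428) (nat_lit 302)) (XT.lf (nat_lit 0) (nat_lit 10211844106) (nat_lit 76) (nat_lit 91496784344) (nat_lit 152) (nat_lit 162148879480) (nat_lit 47) (nat_lit 5) (nat_lit 48) (nat_lit 5) (nat_lit 49) (nat_lit 4) (nat_lit 471) (nat_lit 428) (nat_lit 301))))) (XT.nd (nat_lit 312) (nat_lit 380) (nat_lit 0) (XT.nd (nat_lit 156) (nat_lit 228) (nat_lit 0) (XT.nd (nat_lit 78) (nat_lit 152) (nat_lit 0) (XT.lf (nat_lit 0) (nat_lit 228865430556) (nat_lit 152) (nat_lit 9374984061) (nat_lit 0) (nat_lit 40016211354) (nat_lit 47) (nat_lit 5) (nat_lit 49) (nat_lit 4) (nat_lit 47) (nat_lit 4) (nat_lit 472) (nat_lit 428) (nat_lit 300)) (XT.lf (nat_lit 0) (nat_lit 75783016577) (nat_lit 152) (nat_lit 33494772381)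 (nat_lit 76) (nat_lit 184187738613) (nat_lit 45) (nat_lit 5) (nat_lit 47) (nat_lit 5) (nat_lit 46) (nat_lit 4) (nat_lit 473) (nat_lit 428) (nat_lit 299))) (XT.nd (nat_lit 78) (nat_lit 152) (nat_lit 0) (XT.lf (nat_lit 0) (nat_lit 213855826593) (nat_lit 152) (nat_lit 61766000506) (nat_lit 0) (nat_lit 33998075237) (nat_lit 44) (nat_lit 5) (nat_lit 46) (nat_lit 4) (nat_lit 44) (nat_lit 4) (nat_lit 474) (nat_lit 428) (nat_lit 298)) (XT.lf (nat_lit 0) (nat_lit 40905455733) (nat_lit 152) (nat_lit 96002169004) (nat_lit 76) (nat_lit 189823626451) (nat_lit 42) (nat_lit 5) (nat_lit 44) (nat_lit 5) (nat_lit 43) (nat_lit 4) (nat_lit 475) (nat_lit 428) (nat_lit 297)))) (XT.nd (nat_lit 156) (nat_lit 228) (nat_lit 0) (XT.nd (nat_lit 78) (nat_lit 76) (nat_lit 0) (XT.lf (nat_lit 0) (nat_lit 189848788059) (nat_lit 152) (nat_lit 136494870001) (nat_lit 0) (nat_lit 18554587509) (nat_lit 41) (nat_lit 5) (nat_lit 43)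 (nat_lit 4) (nat_lit 41) (nat_lit 4) (nat_lit 476) (nat_lit 428) (nat_lit 296)) (XT.lf (nat_lit 0) (nat_lit 179563907794) (nat_lit 76) (nat_lit 177954423265) (nat_lit 76) (nat_lit 6659731254) (nat_lit 40) (nat_lit 4) (nat_lit 41) (nat_lit 5) (nat_lit 41) (nat_lit 4) (nat_lit 477) (nat_lit 428) (nat_lit 295))) (XT.nd (nat_lit 78) (nat_lit 76) (nat_lit 0) (XT.lf (nat_lit 0) (nat_lit 143039359100) (nat_lit 76) (nat_lit 10294546348) (nat_lit 152) (nat_lit 231314005267) (nat_lit 38) (nat_lit 5) (nat_lit 39) (nat_lit 5) (nat_lit 40) (nat_lit 4) (nat_lit 478) (nat_lit 428) (nat_lit 294)) (XT.lf (nat_lit 0) (nat_lit 97180334722) (nat_lit 76) (nat_lit 236167735982) (nat_lit 76) (nat_lit 73029099393) (nat_lit 37) (nat_lit 4) (nat_lit 38) (nat_lit 5) (nat_lit 38) (nat_lit 4) (nat_lit 479) (nat_lit 428) (nat_lit 293))))))) (XT.nd (nat_lit 1170) (nat_lit 456) (nat_lit 0) (XT.nd (nat_lit 546) (nat_lit 684)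 (nat_lit 0) (XT.nd (nat_lit 234) (nat_lit 304) (nat_lit 0) (XT.nd (nat_lit 78) (nat_lit 152) (nat_lit 0) (XT.lf (nat_lit 0) (nat_lit 41624885733) (nat_lit 76) (nat_lit 58259940550) (nat_lit 152) (nat_lit 329628493071) (nat_lit 35) (nat_lit 5) (nat_lit 36) (nat_lit 5) (nat_lit 37) (nat_lit 4) (nat_lit 480) (nat_lit 428) (nat_lit 292)) (XT.nd (nat_lit 78) (nat_lit 152) (nat_lit 0) (XT.lf (nat_lit 0) (nat_lit 291671176908) (nat_lit 152) (nat_lit 26089063696) (nat_lit 0) (nat_lit 136300365302) (nat_lit 35) (nat_lit 5) (nat_lit 37) (nat_lit 4) (nat_lit 35) (nat_lit 4) (nat_lit 481) (nat_lit 428) (nat_lit 291)) (XT.lf (nat_lit 0) (nat_lit 24604793551) (nat_lit 152) (nat_lit 104931288209) (nat_lit 76) (nat_lit 350673390154) (nat_lit 33) (nat_lit 5) (nat_lit 35) (nat_lit 5) (nat_lit 34) (nat_lit 4) (nat_lit 482) (nat_lit 428) (nat_lit 290)))) (XT.nd (nat_lit 156) (nat_lit 152) (nat_lit 0) (XT.nd (nat_lit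 78) (nat_lit 76) (nat_lit 0) (XT.lf (nat_lit 0) (nat_lit 227503872169) (nat_lit 152) (nat_lit 200950422145) (nat_lit 0) (nat_lit 79531114167) (nat_lit 32) (nat_lit 5) (nat_lit 34) (nat_lit 4) (nat_lit 32) (nat_lit 4) (nat_lit 483) (nat_lit 428) (nat_lit 289)) (XT.lf (nat_lit 0) (nat_lit 222726551903) (nat_lit 76) (nat_lit 231426970759) (nat_lit 76) (nat_lit 83453965040) (nat_lit 31) (nat_lit 4) (nat_lit 32) (nat_lit 5) (nat_lit 32) (nat_lit 4) (nat_lit 484) (nat_lit 428) (nat_lit 288))) (XT.nd (nat_lit 78) (nat_lit 0) (nat_lit 0) (XT.lf (nat_lit 0) (nat_lit 119805631458) (nat_lit 76) (nat_lit 10818205880) (nat_lit 152) (nat_lit 438603152251) (nat_lit 29) (nat_lit 5) (nat_lit 30) (nat_lit 5) (nat_lit 31) (nat_lit 4) (nat_lit 485) (nat_lit 428) (nat_lit 287)) (XT.lf (nat_lit 0) (nat_lit 368068325600) (nat_lit 152) (nat_lit 7639874260) (nat_lit 0) (nat_lit 227141232778) (nat_lit 29) (nat_lit 5)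 (nat_lit 31) (nat_lit 4) (nat_lit 29) (nat_lit 4) (nat_lit 486) (nat_lit 428) (nat_lit 286))))) (XT.nd (nat_lit 312) (nat_lit 304) (nat_lit 0) (XT.nd (nat_lit 156) (nat_lit 152) (nat_lit 0) (XT.nd (nat_lit 78) (nat_lit 152) (nat_lit 0) (XT.lf (nat_lit 0) (nat_lit 484817584081) (nat_lit 76) (nat_lit 147441905660) (nat_lit 76) (nat_lit 6514625556) (nat_lit 28) (nat_lit 4) (nat_lit 29) (nat_lit 5) (nat_lit 29) (nat_lit 4) (nat_lit 487) (nat_lit 428) (nat_lit 285)) (XT.lf (nat_lit 0) (nat_lit 239578612219) (nat_lit 152) (nat_lit 332082438701) (nat_lit 0) (nat_lit 105361989826) (nat_lit 26) (nat_lit 5) (nat_lit 28) (nat_lit 4) (nat_lit 26) (nat_lit 4) (nat_lit 488) (nat_lit 428) (nat_lit 284))) (XT.nd (nat_lit 78) (nat_lit 76) (nat_lit 0) (XT.lf (nat_lit 0) (nat_lit 173976590740) (nat_lit 76) (nat_lit 339085096988) (nat_lit 76) (nat_lit 204868321677) (nat_lit 25) (nat_lit 4) (nat_lit 26) (nat_lit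 5) (nat_lit 26) (nat_lit 4) (nat_lit 489) (nat_lit 428) (nat_lit 283)) (XT.lf (nat_lit 0) (nat_lit 50710428867) (nat_lit 152) (nat_lit 30260537724) (nat_lit 76) (nat_lit 680808470088) (nat_lit 24) (nat_lit 5) (nat_lit 26) (nat_lit 5) (nat_lit 25) (nat_lit 4) (nat_lit 490) (nat_lit 428) (nat_lit 282)))) (XT.nd (nat_lit 156) (nat_lit 152) (nat_lit 0) (XT.nd (nat_lit 78) (nat_lit 76) (nat_lit 0) (XT.lf (nat_lit 0) (nat_lit 331340169924) (nat_lit 152) (nat_lit 273525199513) (nat_lit 0) (nat_lit 203514409920) (nat_lit 23) (nat_lit 5) (nat_lit 25) (nat_lit 4) (nat_lit 23) (nat_lit 4) (nat_lit 491) (nat_lit 428) (nat_lit 281)) (XT.lf (nat_lit 0) (nat_lit 295665805809) (nat_lit 76) (nat_lit 345271191943) (nat_lit 76) (nat_lit 217445316328) (nat_lit 22) (nat_lit 4) (nat_lit 23) (nat_lit 5) (nat_lit 23) (nat_lit 4) (nat_lit 492) (nat_lit 428) (nat_lit 280))) (XT.nd (nat_lit 78) (nat_lit 0) (nat_lit 0)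 (XT.lf (nat_lit 0) (nat_lit 7181133414) (nat_lit 76) (nat_lit 58675996378) (nat_lit 152) (nat_lit 846231090075) (nat_lit 20) (nat_lit 5) (nat_lit 21) (nat_lit 5) (nat_lit 22) (nat_lit 4) (nat_lit 493) (nat_lit 428) (nat_lit 279)) (XT.lf (nat_lit 0) (nat_lit 378186153763) (nat_lit 152) (nat_lit 334580151891) (nat_lit 0) (nat_lit 256447028259) (nat_lit 20) (nat_lit 5) (nat_lit 22) (nat_lit 4) (nat_lit 20) (nat_lit 4) (nat_lit 494) (nat_lit 428) (nat_lit 278)))))) (XT.nd (nat_lit 57330) (nat_lit 0) (nat_lit 9728) (XT.nd (nat_lit 234) (nat_lit 228) (nat_lit 0) (XT.nd (nat_lit 78) (nat_lit 152) (nat_lit 0) (XT.lf (nat_lit 0) (nat_lit 289653309457) (nat_lit 76) (nat_lit 431359400024) (nat_lit 76) (nat_lit 309620187114) (nat_lit 19) (nat_lit 4) (nat_lit 20) (nat_lit 5) (nat_lit 20) (nat_lit 4) (nat_lit 495) (nat_lit 428) (nat_lit 277)) (XT.nd (nat_lit 78) (nat_lit 76) (nat_lit 0) (XT.lf (nat_lit 0)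 (nat_lit 405074273) (nat_lit 152) (nat_lit 120908891579) (nat_lit 76) (nat_lit 975360345936) (nat_lit 18) (nat_lit 5) (nat_lit 20) (nat_lit 5) (nat_lit 19) (nat_lit 4) (nat_lit 496) (nat_lit 428) (nat_lit 276)) (XT.lf (nat_lit 0) (nat_lit 336859415898) (nat_lit 152) (nat_lit 609344945218) (nat_lit 0) (nat_lit 220917159921) (nat_lit 17) (nat_lit 5) (nat_lit 19) (nat_lit 4) (nat_lit 17) (nat_lit 4) (nat_lit 497) (nat_lit 428) (nat_lit 275)))) (XT.nd (nat_lit 156) (nat_lit 152) (nat_lit 0) (XT.nd (nat_lit 78) (nat_lit 0) (nat_lit 0) (XT.lf (nat_lit 0) (nat_lit 51544090136) (nat_lit 76) (nat_lit 653676604725) (nat_lit 76) (nat_lit 537734282667) (nat_lit 16) (nat_lit 4) (nat_lit 17) (nat_lit 5) (nat_lit 17) (nat_lit 4) (nat_lit 498) (nat_lit 428) (nat_lit 274)) (XT.lf (nat_lit 0) (nat_lit 787062956931) (nat_lit 76) (nat_lit 326601918445) (nat_lit 76) (nat_lit 210659535201) (nat_lit 16) (nat_lit 4)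 (nat_lit 17) (nat_lit 5) (nat_lit 17) (nat_lit 4) (nat_lit 499) (nat_lit 428) (nat_lit 273))) (XT.nd (nat_lit 78) (nat_lit 0) (nat_lit 0) (XT.lf (nat_lit 0) (nat_lit 141207314610) (nat_lit 152) (nat_lit 1239939355228) (nat_lit 0) (nat_lit 30785943279) (nat_lit 14) (nat_lit 5) (nat_lit 16) (nat_lit 4) (nat_lit 14) (nat_lit 4) (nat_lit 500) (nat_lit 428) (nat_lit 272)) (XT.lf (nat_lit 0) (nat_lit 528960610393) (nat_lit 152) (nat_lit 558121121518) (nat_lit 0) (nat_lit 418539189103) (nat_lit 14) (nat_lit 5) (nat_lit 16) (nat_lit 4) (nat_lit 14) (nat_lit 4) (nat_lit 501) (nat_lit 428) (nat_lit 271))))) (XT.nd (nat_lit 312) (nat_lit 380) (nat_lit 0) (XT.nd (nat_lit 156) (nat_lit 0) (nat_lit 76) (XT.nd (nat_lit 78) (nat_lit 0) (nat_lit 76) (XT.lf (nat_lit 0) (nat_lit 7557339054) (nat_lit 836) (nat_lit 5686411873) (nat_lit 836) (nat_lit 5686411873) (nat_lit 147) (nat_lit 3) (nat_lit 158) (nat_lit 3)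 (nat_lit 158) (nat_lit 5) (nat_lit 429) (nat_lit 429) (nat_lit 342)) (XT.lf (nat_lit 0) (nat_lit 16140844256) (nat_lit 760) (nat_lit 20119217527) (nat_lit 836) (nat_lit 3093586979) (nat_lit 148) (nat_lit 5) (nat_lit 158) (nat_lit 5) (nat_lit 159) (nat_lit 5) (nat_lit 430) (nat_lit 429) (nat_lit 341))) (XT.nd (nat_lit 78) (nat_lit 0) (nat_lit 76) (XT.lf (nat_lit 76) (nat_lit 11658898541) (nat_lit 0) (nat_lit 6413147885) (nat_lit 836) (nat_lit 22853245302) (nat_lit 149) (nat_lit 5) (nat_lit 148) (nat_lit 5) (nat_lit 159) (nat_lit 5) (nat_lit 431) (nat_lit 429) (nat_lit 340)) (XT.lf (nat_lit 76) (nat_lit 3800908054) (nat_lit 0) (nat_lit 17168967132) (nat_lit 836) (nat_lit 21612185438) (nat_lit 150) (nat_lit 5) (nat_lit 149) (nat_lit 5) (nat_lit 160) (nat_lit 5) (nat_lit 432) (nat_lit 429) (nat_lit 339)))) (XT.nd (nat_lit 156) (nat_lit 608) (nat_lit 0) (XT.nd (nat_lit 78) (nat_lit 0) (nat_lit 76)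 (XT.lf (nat_lit 0) (nat_lit 24955216579) (nat_lit 760) (nat_lit 4143766979) (nat_lit 836) (nat_lit 15229604092) (nat_lit 150) (nat_lit 5) (nat_lit 160) (nat_lit 5) (nat_lit 161) (nat_lit 5) (nat_lit 433) (nat_lit 429) (nat_lit 338)) (XT.lf (nat_lit 0) (nat_lit 30137242603) (nat_lit 760) (nat_lit 12175246444) (nat_lit 836) (nat_lit 3858455791) (nat_lit 151) (nat_lit 5) (nat_lit 161) (nat_lit 5) (nat_lit 162) (nat_lit 5) (nat_lit 434) (nat_lit 429) (nat_lit 337))) (XT.nd (nat_lit 78) (nat_lit 684) (nat_lit 0) (XT.lf (nat_lit 76) (nat_lit 27563228035) (nat_lit 0) (nat_lit 9159680698) (nat_lit 836) (nat_lit 11388328771) (nat_lit 152) (nat_lit 5) (nat_lit 151) (nat_lit 5) (nat_lit 162) (nat_lit 5) (nat_lit 435) (nat_lit 429) (nat_lit 336)) (XT.lf (nat_lit 0) (nat_lit 20966573813) (nat_lit 760) (nat_lit 23822823125) (nat_lit 836) (nat_lit 5369658947) (nat_lit 142) (nat_lit 5) (nat_lit 152) (nat_lit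 5) (nat_lit 153) (nat_lit 5) (nat_lit 436) (nat_lit 429) (nat_lit 335))))))))
noncomputable def xc89 : XT := (XT.nd (nat_lit 2262) (nat_lit 2888) (nat_lit 0) (XT.nd (nat_lit 1092) (nat_lit 2432) (nat_lit 0) (XT.nd (nat_lit 546) (nat_lit 1748) (nat_lit 0) (XT.nd (nat_lit 234) (nat_lit 988) (nat_lit 0) (XT.nd (nat_lit 78) (nat_lit 760) (nat_lit 0) (XT.lf (nat_lit 0) (nat_lit 2030861005) (nat_lit 456) (nat_lit 38066165328) (nat_lit 76) (nat_lit 12225964555) (nat_lit 136) (nat_lit 5) (nat_lit 142) (nat_lit 5) (nat_lit 137) (nat_lit 5) (nat_lit 437) (nat_lit 429) (nat_lit 334)) (XT.nd (nat_lit 78) (nat_lit 380) (nat_lit 0) (XT.lf (nat_lit 0) (nat_lit 7319192690) (nat_lit 380) (nat_lit 3547002179) (nat_lit 456) (nat_lit 43737900121) (nat_lit 131) (nat_lit 5) (nat_lit 136) (nat_lit 5) (nat_lit 137) (nat_lit 5) (nat_lit 438) (nat_lit 429) (nat_lit 333)) (XT.lf (nat_lit 0) (nat_lit 86734887) (nat_lit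 380) (nat_lit 21553680661) (nat_lit 456) (nat_lit 35365669427) (nat_lit 126) (nat_lit 5) (nat_lit 131) (nat_lit 5) (nat_lit 132) (nat_lit 5) (nat_lit 439) (nat_lit 429) (nat_lit 332)))) (XT.nd (nat_lit 156) (nat_lit 684) (nat_lit 0) (XT.nd (nat_lit 78) (nat_lit 304) (nat_lit 0) (XT.lf (nat_lit 0) (nat_lit 34447360443) (nat_lit 456) (nat_lit 6977894672) (nat_lit 76) (nat_lit 18116440236) (nat_lit 126) (nat_lit 5) (nat_lit 132) (nat_lit 5) (nat_lit 127) (nat_lit 5) (nat_lit 440) (nat_lit 429) (nat_lit 331)) (XT.lf (nat_lit 0) (nat_lit 48131864729) (nat_lit 304) (nat_lit 1258259865) (nat_lit 380) (nat_lit 12834467262) (nat_lit 122) (nat_lit 5) (nat_lit 126) (nat_lit 5) (nat_lit 127) (nat_lit 5) (nat_lit 441) (nat_lit 429) (nat_lit 330))) (XT.nd (nat_lit 78) (nat_lit 304) (nat_lit 0) (XT.lf (nat_lit 0) (nat_lit 1874171597) (nat_lit 380) (nat_lit 21567003561) (nat_lit 76) (nat_lit 41606579139) (nat_lit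 117) (nat_lit 5) (nat_lit 122) (nat_lit 5) (nat_lit 118) (nat_lit 5) (nat_lit 442) (nat_lit 429) (nat_lit 329)) (XT.lf (nat_lit 0) (nat_lit 18519654409) (nat_lit 380) (nat_lit 29284105105) (nat_lit 76) (nat_lit 20222000056) (nat_lit 113) (nat_lit 5) (nat_lit 118) (nat_lit 5) (nat_lit 114) (nat_lit 5) (nat_lit 443) (nat_lit 429) (nat_lit 328))))) (XT.nd (nat_lit 234) (nat_lit 912) (nat_lit 0) (XT.nd (nat_lit 78) (nat_lit 532) (nat_lit 0) (XT.lf (nat_lit 0) (nat_lit 34108203248) (nat_lit 304) (nat_lit 3695071096) (nat_lit 380) (nat_lit 33373406358) (nat_lit 109) (nat_lit 5) (nat_lit 113) (nat_lit 5) (nat_lit 114) (nat_lit 5) (nat_lit 444) (nat_lit 429) (nat_lit 327)) (XT.nd (nat_lit 78) (nat_lit 304) (nat_lit 0) (XT.lf (nat_lit 0) (nat_lit 29302955895) (nat_lit 228) (nat_lit 30985694227) (nat_lit 304) (nat_lit 14208072428) (nat_lit 106) (nat_lit 5) (nat_lit 109) (nat_lit 5) (nat_lit 110) (nat_lit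 5) (nat_lit 445) (nat_lit 429) (nat_lit 326)) (XT.lf (nat_lit 0) (nat_lit 7659928732) (nat_lit 304) (nat_lit 53419337698) (nat_lit 76) (nat_lit 16929176045) (nat_lit 102) (nat_lit 5) (nat_lit 106) (nat_lit 5) (nat_lit 103) (nat_lit 5) (nat_lit 446) (nat_lit 429) (nat_lit 325)))) (XT.nd (nat_lit 156) (nat_lit 456) (nat_lit 0) (XT.nd (nat_lit 78) (nat_lit 228) (nat_lit 0) (XT.lf (nat_lit 0) (nat_lit 19657094354) (nat_lit 228) (nat_lit 12755960913) (nat_lit 304) (nat_lit 49294725694) (nat_lit 99) (nat_lit 5) (nat_lit 102) (nat_lit 5) (nat_lit 103) (nat_lit 5) (nat_lit 447) (nat_lit 429) (nat_lit 324)) (XT.lf (nat_lit 0) (nat_lit 14665385498) (nat_lit 228) (nat_lit 46268871799) (nat_lit 304) (nat_lit 24679418215) (nat_lit 96) (nat_lit 5) (nat_lit 99) (nat_lit 5) (nat_lit 100) (nat_lit 5) (nat_lit 448) (nat_lit 429) (nat_lit 323))) (XT.nd (nat_lit 78) (nat_lit 228) (nat_lit 0) (XT.lf (nat_lit 0)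 (nat_lit 3416221259) (nat_lit 228) (nat_lit 79851050671) (nat_lit 76) (nat_lit 6484678567) (nat_lit 93) (nat_lit 5) (nat_lit 96) (nat_lit 5) (nat_lit 94) (nat_lit 5) (nat_lit 449) (nat_lit 429) (nat_lit 322)) (XT.lf (nat_lit 0) (nat_lit 4516419042) (nat_lit 228) (nat_lit 30494447433) (nat_lit 304) (nat_lit 59084392123) (nat_lit 90) (nat_lit 5) (nat_lit 93) (nat_lit 5) (nat_lit 94) (nat_lit 5) (nat_lit 450) (nat_lit 429) (nat_lit 321)))))) (XT.nd (nat_lit 546) (nat_lit 1292) (nat_lit 0) (XT.nd (nat_lit 234) (nat_lit 684) (nat_lit 0) (XT.nd (nat_lit 78) (nat_lit 456) (nat_lit 0) (XT.lf (nat_lit 0) (nat_lit 70958301968) (nat_lit 304) (nat_lit 671851894) (nat_lit 76) (nat_lit 27064616747) (nat_lit 90) (nat_lit 5) (nat_lit 94) (nat_lit 5) (nat_lit 91) (nat_lit 5) (nat_lit 451) (nat_lit 429) (nat_lit 320)) (XT.nd (nat_lit 78) (nat_lit 228) (nat_lit 0) (XT.lf (nat_lit 0) (nat_lit 7998502232) (nat_lit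 228) (nat_lit 5723455219) (nat_lit 76) (nat_lit 89831755887) (nat_lit 87) (nat_lit 5) (nat_lit 90) (nat_lit 5) (nat_lit 88) (nat_lit 5) (nat_lit 452) (nat_lit 429) (nat_lit 319)) (XT.lf (nat_lit 0) (nat_lit 47970209882) (nat_lit 304) (nat_lit 11391465074) (nat_lit 76) (nat_lit 49299477384) (nat_lit 84) (nat_lit 5) (nat_lit 88) (nat_lit 5) (nat_lit 85) (nat_lit 5) (nat_lit 453) (nat_lit 429) (nat_lit 318)))) (XT.nd (nat_lit 156) (nat_lit 304) (nat_lit 0) (XT.nd (nat_lit 78) (nat_lit 228) (nat_lit 0) (XT.lf (nat_lit 0) (nat_lit 93060436987) (nat_lit 228) (nat_lit 16737471883) (nat_lit 76) (nat_lit 4283238595) (nat_lit 82) (nat_lit 5) (nat_lit 85) (nat_lit 5) (nat_lit 83) (nat_lit 5) (nat_lit 454) (nat_lit 429) (nat_lit 317)) (XT.lf (nat_lit 0) (nat_lit 23890225240) (nat_lit 228) (nat_lit 22815321860) (nat_lit 76) (nat_lit 73073881114) (nat_lit 79) (nat_lit 5) (nat_lit 82) (nat_lit 5) (nat_lit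 80) (nat_lit 5) (nat_lit 455) (nat_lit 429) (nat_lit 316))) (XT.nd (nat_lit 78) (nat_lit 152) (nat_lit 0) (XT.lf (nat_lit 0) (nat_lit 73849507775) (nat_lit 228) (nat_lit 29006520424) (nat_lit 76) (nat_lit 22950716489) (nat_lit 77) (nat_lit 5) (nat_lit 80) (nat_lit 5) (nat_lit 78) (nat_lit 5) (nat_lit 456) (nat_lit 429) (nat_lit 315)) (XT.lf (nat_lit 0) (nat_lit 96804703500) (nat_lit 152) (nat_lit 33701966832) (nat_lit 228) (nat_lit 1674519385) (nat_lit 75) (nat_lit 5) (nat_lit 77) (nat_lit 5) (nat_lit 78) (nat_lit 5) (nat_lit 457) (nat_lit 429) (nat_lit 314))))) (XT.nd (nat_lit 312) (nat_lit 608) (nat_lit 0) (XT.nd (nat_lit 156) (nat_lit 304) (nat_lit 0) (XT.nd (nat_lit 78) (nat_lit 152) (nat_lit 0) (XT.lf (nat_lit 0) (nat_lit 53658345994) (nat_lit 228) (nat_lit 42663483774) (nat_lit 76) (nat_lit 42567072692) (nat_lit 72) (nat_lit 5) (nat_lit 75) (nat_lit 5) (nat_lit 73) (nat_lit 5) (nat_lit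 458) (nat_lit 429) (nat_lit 313)) (XT.lf (nat_lit 0) (nat_lit 95978820003) (nat_lit 152) (nat_lit 20072631932) (nat_lit 228) (nat_lit 29945793902) (nat_lit 70) (nat_lit 5) (nat_lit 72) (nat_lit 5) (nat_lit 73) (nat_lit 5) (nat_lit 459) (nat_lit 429) (nat_lit 312))) (XT.nd (nat_lit 78) (nat_lit 152) (nat_lit 0) (XT.lf (nat_lit 0) (nat_lit 32081813286) (nat_lit 152) (nat_lit 58356900368) (nat_lit 76) (nat_lit 63048678621) (nat_lit 68) (nat_lit 5) (nat_lit 70) (nat_lit 5) (nat_lit 69) (nat_lit 5) (nat_lit 460) (nat_lit 429) (nat_lit 311)) (XT.lf (nat_lit 0) (nat_lit 94302159676) (nat_lit 152) (nat_lit 6429185680) (nat_lit 228) (nat_lit 60685415860) (nat_lit 66) (nat_lit 5) (nat_lit 68) (nat_lit 5) (nat_lit 69) (nat_lit 5) (nat_lit 461) (nat_lit 429) (nat_lit 310)))) (XT.nd (nat_lit 156) (nat_lit 304) (nat_lit 0) (XT.nd (nat_lit 78) (nat_lit 152) (nat_lit 0) (XT.lf (nat_lit 0) (nat_lit 8597480412)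 (nat_lit 152) (nat_lit 76960883973) (nat_lit 76) (nat_lit 84225210870) (nat_lit 64) (nat_lit 5) (nat_lit 66) (nat_lit 5) (nat_lit 65) (nat_lit 5) (nat_lit 462) (nat_lit 429) (nat_lit 309)) (XT.lf (nat_lit 0) (nat_lit 84148360469) (nat_lit 228) (nat_lit 87792828003) (nat_lit 76) (nat_lit 6686230189) (nat_lit 62) (nat_lit 5) (nat_lit 65) (nat_lit 5) (nat_lit 63) (nat_lit 4) (nat_lit 463) (nat_lit 429) (nat_lit 308))) (XT.nd (nat_lit 78) (nat_lit 228) (nat_lit 0) (XT.lf (nat_lit 0) (nat_lit 88040924277) (nat_lit 76) (nat_lit 81880847746) (nat_lit 152) (nat_lit 18048074517) (nat_lit 61) (nat_lit 5) (nat_lit 62) (nat_lit 5) (nat_lit 63) (nat_lit 4) (nat_lit 464) (nat_lit 429) (nat_lit 307)) (XT.lf (nat_lit 0) (nat_lit 65613504140) (nat_lit 228) (nat_lit 113397383926) (nat_lit 76) (nat_lit 18839409609) (nat_lit 58) (nat_lit 5) (nat_lit 61) (nat_lit 5) (nat_lit 59) (nat_lit 4) (nat_lit 465) (nat_lit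 429) (nat_lit 306))))))) (XT.nd (nat_lit 1170) (nat_lit 1292) (nat_lit 0) (XT.nd (nat_lit 546) (nat_lit 760) (nat_lit 0) (XT.nd (nat_lit 234) (nat_lit 456) (nat_lit 0) (XT.nd (nat_lit 78) (nat_lit 304) (nat_lit 0) (XT.lf (nat_lit 0) (nat_lit 79549769951) (nat_lit 76) (nat_lit 80184990656) (nat_lit 152) (nat_lit 48551677428) (nat_lit 57) (nat_lit 5) (nat_lit 58) (nat_lit 5) (nat_lit 59) (nat_lit 4) (nat_lit 466) (nat_lit 429) (nat_lit 305)) (XT.nd (nat_lit 78) (nat_lit 76) (nat_lit 0) (XT.lf (nat_lit 0) (nat_lit 44131646861) (nat_lit 228) (nat_lit 145632796175) (nat_lit 76) (nat_lit 29578265618) (nat_lit 54) (nat_lit 5) (nat_lit 57) (nat_lit 5) (nat_lit 55) (nat_lit 4) (nat_lit 467) (nat_lit 429) (nat_lit 304)) (XT.lf (nat_lit 0) (nat_lit 65670109308) (nat_lit 76) (nat_lit 81536691927) (nat_lit 152) (nat_lit 83802974345) (nat_lit 53) (nat_lit 5) (nat_lit 54) (nat_lit 5) (nat_lit 55) (nat_lit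 4) (nat_lit 468) (nat_lit 429) (nat_lit 303)))) (XT.nd (nat_lit 156) (nat_lit 228) (nat_lit 0) (XT.nd (nat_lit 78) (nat_lit 76) (nat_lit 0) (XT.lf (nat_lit 0) (nat_lit 18522376757) (nat_lit 152) (nat_lit 186890944990) (nat_lit 76) (nat_lit 37981136838) (nat_lit 51) (nat_lit 5) (nat_lit 53) (nat_lit 5) (nat_lit 52) (nat_lit 4) (nat_lit 469) (nat_lit 429) (nat_lit 302)) (XT.lf (nat_lit 0) (nat_lit 43941584630) (nat_lit 76) (nat_lit 87182488508) (nat_lit 152) (nat_lit 125325833901) (nat_lit 50) (nat_lit 5) (nat_lit 51) (nat_lit 5) (nat_lit 52) (nat_lit 4) (nat_lit 470) (nat_lit 429) (nat_lit 301))) (XT.nd (nat_lit 78) (nat_lit 152) (nat_lit 0) (XT.lf (nat_lit 0) (nat_lit 29793205903) (nat_lit 76) (nat_lit 227346083403) (nat_lit 76) (nat_lit 13190232885) (nat_lit 49) (nat_lit 4) (nat_lit 50) (nat_lit 5) (nat_lit 50) (nat_lit 4) (nat_lit 471) (nat_lit 429) (nat_lit 300)) (XT.lf (nat_lit 0) (nat_lit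 11069696201) (nat_lit 76) (nat_lit 98796801720) (nat_lit 152) (nat_lit 175098551203) (nat_lit 47) (nat_lit 5) (nat_lit 48) (nat_lit 5) (nat_lit 49) (nat_lit 4) (nat_lit 472) (nat_lit 429) (nat_lit 299))))) (XT.nd (nat_lit 312) (nat_lit 380) (nat_lit 0) (XT.nd (nat_lit 156) (nat_lit 228) (nat_lit 0) (XT.nd (nat_lit 78) (nat_lit 152) (nat_lit 0) (XT.lf (nat_lit 0) (nat_lit 247194560522) (nat_lit 152) (nat_lit 10086412379) (nat_lit 0) (nat_lit 43235187926) (nat_lit 47) (nat_lit 5) (nat_lit 49) (nat_lit 4) (nat_lit 47) (nat_lit 4) (nat_lit 473) (nat_lit 429) (nat_lit 298)) (XT.lf (nat_lit 0) (nat_lit 81864967542) (nat_lit 152) (nat_lit 36136821131) (nat_lit 76) (nat_lit 198940015228) (nat_lit 45) (nat_lit 5) (nat_lit 47) (nat_lit 5) (nat_lit 46) (nat_lit 4) (nat_lit 474) (nat_lit 429) (nat_lit 297))) (XT.nd (nat_lit 78) (nat_lit 152) (nat_lit 0) (XT.lf (nat_lit 0) (nat_lit 230983005177) (nat_lit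 152) (nat_lit 66670728923) (nat_lit 0) (nat_lit 36734824436) (nat_lit 44) (nat_lit 5) (nat_lit 46) (nat_lit 4) (nat_lit 44) (nat_lit 4) (nat_lit 475) (nat_lit 429) (nat_lit 296)) (XT.lf (nat_lit 0) (nat_lit 44196057727) (nat_lit 152) (nat_lit 103646778434) (nat_lit 76) (nat_lit 205026006525) (nat_lit 42) (nat_lit 5) (nat_lit 44) (nat_lit 5) (nat_lit 43) (nat_lit 4) (nat_lit 476) (nat_lit 429) (nat_lit 295)))) (XT.nd (nat_lit 156) (nat_lit 228) (nat_lit 0) (XT.nd (nat_lit 78) (nat_lit 76) (nat_lit 0) (XT.lf (nat_lit 0) (nat_lit 205054302394) (nat_lit 152) (nat_lit 147379833458) (nat_lit 0) (nat_lit 20055088502) (nat_lit 41) (nat_lit 5) (nat_lit 43) (nat_lit 4) (nat_lit 41) (nat_lit 4) (nat_lit 477) (nat_lit 429) (nat_lit 294)) (XT.lf (nat_lit 0) (nat_lit 193962141751) (nat_lit 76) (nat_lit 192174479660) (nat_lit 76) (nat_lit 7174844419) (nat_lit 40) (nat_lit 4) (nat_lit 41) (nat_lit 5) (nat_lit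 41) (nat_lit 4) (nat_lit 478) (nat_lit 429) (nat_lit 293))) (XT.nd (nat_lit 78) (nat_lit 76) (nat_lit 0) (XT.lf (nat_lit 0) (nat_lit 154514730828) (nat_lit 76) (nat_lit 11102223419) (nat_lit 152) (nat_lit 249801972264) (nat_lit 38) (nat_lit 5) (nat_lit 39) (nat_lit 5) (nat_lit 40) (nat_lit 4) (nat_lit 479) (nat_lit 429) (nat_lit 292)) (XT.lf (nat_lit 0) (nat_lit 104986128425) (nat_lit 76) (nat_lit 255045633586) (nat_lit 76) (nat_lit 78854789187) (nat_lit 37) (nat_lit 4) (nat_lit 38) (nat_lit 5) (nat_lit 38) (nat_lit 4) (nat_lit 480) (nat_lit 429) (nat_lit 291)))))) (XT.nd (nat_lit 546) (nat_lit 684) (nat_lit 0) (XT.nd (nat_lit 234) (nat_lit 304) (nat_lit 0) (XT.nd (nat_lit 78) (nat_lit 152) (nat_lit 0) (XT.lf (nat_lit 0) (nat_lit 44985389935) (nat_lit 76) (nat_lit 62905611473) (nat_lit 152) (nat_lit 355982613846) (nat_lit 35) (nat_lit 5) (nat_lit 36) (nat_lit 5) (nat_lit 37) (nat_lit 4) (nat_lit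 481) (nat_lit 429) (nat_lit 290)) (XT.nd (nat_lit 78) (nat_lit 152) (nat_lit 0) (XT.lf (nat_lit 0) (nat_lit 315019338797) (nat_lit 152) (nat_lit 28147441699) (nat_lit 0) (nat_lit 147217950312) (nat_lit 35) (nat_lit 5) (nat_lit 37) (nat_lit 4) (nat_lit 35) (nat_lit 4) (nat_lit 482) (nat_lit 429) (nat_lit 289)) (XT.lf (nat_lit 0) (nat_lit 26587229214) (nat_lit 152) (nat_lit 113297828697) (nat_lit 76) (nat_lit 378740468986) (nat_lit 33) (nat_lit 5) (nat_lit 35) (nat_lit 5) (nat_lit 34) (nat_lit 4) (nat_lit 483) (nat_lit 429) (nat_lit 288)))) (XT.nd (nat_lit 156) (nat_lit 152) (nat_lit 0) (XT.nd (nat_lit 78) (nat_lit 76) (nat_lit 0) (XT.lf (nat_lit 0) (nat_lit 245717818759) (nat_lit 152) (nat_lit 216999244912) (nat_lit 0) (nat_lit 85906495498) (nat_lit 32) (nat_lit 5) (nat_lit 34) (nat_lit 4) (nat_lit 32) (nat_lit 4) (nat_lit 484) (nat_lit 429) (nat_lit 287)) (XT.lf (nat_lit 0) (nat_lit 240570704503)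 (nat_lit 76) (nat_lit 249928133031) (nat_lit 76) (nat_lit 90116597393) (nat_lit 31) (nat_lit 4) (nat_lit 32) (nat_lit 5) (nat_lit 32) (nat_lit 4) (nat_lit 485) (nat_lit 429) (nat_lit 286))) (XT.nd (nat_lit 78) (nat_lit 0) (nat_lit 0) (XT.lf (nat_lit 0) (nat_lit 129415398350) (nat_lit 76) (nat_lit 11671006837) (nat_lit 152) (nat_lit 473678110404) (nat_lit 29) (nat_lit 5) (nat_lit 30) (nat_lit 5) (nat_lit 31) (nat_lit 4) (nat_lit 486) (nat_lit 429) (nat_lit 285)) (XT.lf (nat_lit 0) (nat_lit 397525697620) (nat_lit 152) (nat_lit 8227219800) (nat_lit 0) (nat_lit 245323874417) (nat_lit 29) (nat_lit 5) (nat_lit 31) (nat_lit 4) (nat_lit 29) (nat_lit 4) (nat_lit 487) (nat_lit 429) (nat_lit 284))))) (XT.nd (nat_lit 312) (nat_lit 304) (nat_lit 0) (XT.nd (nat_lit 156) (nat_lit 152) (nat_lit 0) (XT.nd (nat_lit 78) (nat_lit 152) (nat_lit 0) (XT.lf (nat_lit 0) (nat_lit 523625798960) (nat_lit 76) (nat_lit 159225830108)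 (nat_lit 76) (nat_lit 7023846341) (nat_lit 28) (nat_lit 4) (nat_lit 29) (nat_lit 5) (nat_lit 29) (nat_lit 4) (nat_lit 488) (nat_lit 429) (nat_lit 283)) (XT.lf (nat_lit 0) (nat_lit 258756131257) (nat_lit 152) (nat_lit 358626471741) (nat_lit 0) (nat_lit 113801719412) (nat_lit 26) (nat_lit 5) (nat_lit 28) (nat_lit 4) (nat_lit 26) (nat_lit 4) (nat_lit 489) (nat_lit 429) (nat_lit 282))) (XT.nd (nat_lit 78) (nat_lit 76) (nat_lit 0) (XT.lf (nat_lit 0) (nat_lit 187916299537) (nat_lit 76) (nat_lit 366201058363) (nat_lit 76) (nat_lit 221246515416) (nat_lit 25) (nat_lit 4) (nat_lit 26) (nat_lit 5) (nat_lit 26) (nat_lit 4) (nat_lit 490) (nat_lit 429) (nat_lit 281)) (XT.lf (nat_lit 0) (nat_lit 54777366159) (nat_lit 152) (nat_lit 32661063711) (nat_lit 76) (nat_lit 735282856518) (nat_lit 24) (nat_lit 5) (nat_lit 26) (nat_lit 5) (nat_lit 25) (nat_lit 4) (nat_lit 491) (nat_lit 429) (nat_lit 280)))) (XT.nd (nat_lit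 156) (nat_lit 152) (nat_lit 0) (XT.nd (nat_lit 78) (nat_lit 76) (nat_lit 0) (XT.lf (nat_lit 0) (nat_lit 357857194184) (nat_lit 152) (nat_lit 295387451056) (nat_lit 0) (nat_lit 219805025863) (nat_lit 23) (nat_lit 5) (nat_lit 25) (nat_lit 4) (nat_lit 23) (nat_lit 4) (nat_lit 492) (nat_lit 429) (nat_lit 279)) (XT.lf (nat_lit 0) (nat_lit 319337975753) (nat_lit 76) (nat_lit 372883360936) (nat_lit 76) (nat_lit 234831093497) (nat_lit 22) (nat_lit 4) (nat_lit 23) (nat_lit 5) (nat_lit 23) (nat_lit 4) (nat_lit 493) (nat_lit 429) (nat_lit 278))) (XT.nd (nat_lit 78) (nat_lit 0) (nat_lit 0) (XT.lf (nat_lit 0) (nat_lit 7774009521) (nat_lit 76) (nat_lit 63360804496) (nat_lit 152) (nat_lit 913920007692) (nat_lit 20) (nat_lit 5) (nat_lit 21) (nat_lit 5) (nat_lit 22) (nat_lit 4) (nat_lit 494) (nat_lit 429) (nat_lit 277)) (XT.lf (nat_lit 0) (nat_lit 408449618839) (nat_lit 152) (nat_lit 361329252536) (nat_lit 0)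 (nat_lit 276971100561) (nat_lit 20) (nat_lit 5) (nat_lit 22) (nat_lit 4) (nat_lit 20) (nat_lit 4) (nat_lit 495) (nat_lit 429) (nat_lit 276))))))))
noncomputable def xc90 : XT := (XT.nd (nat_lit 59124) (nat_lit 0) (nat_lit 1596) (XT.nd (nat_lit 57954) (nat_lit 0) (nat_lit 5776) (XT.nd (nat_lit 57408) (nat_lit 0) (nat_lit 9728) (XT.nd (nat_lit 234) (nat_lit 228) (nat_lit 0) (XT.nd (nat_lit 78) (nat_lit 152) (nat_lit 0) (XT.lf (nat_lit 0) (nat_lit 312842133383) (nat_lit 76) (nat_lit 465859789145) (nat_lit 76) (nat_lit 334381195931) (nat_lit 19) (nat_lit 4) (nat_lit 20) (nat_lit 5) (nat_lit 20) (nat_lit 4) (nat_lit 496) (nat_lit 429) (nat_lit 275)) (XT.nd (nat_lit 78) (nat_lit 76) (nat_lit 0) (XT.lf (nat_lit 0) (nat_lit 445193828) (nat_lit 152) (nat_lit 130566015251) (nat_lit 76) (nat_lit 1053396661929) (nat_lit 18) (nat_lit 5) (nat_lit 20) (nat_lit 5) (nat_lit 19) (nat_lit 4) (nat_lit 497) (nat_lit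 429) (nat_lit 274)) (XT.lf (nat_lit 0) (nat_lit 363815661840) (nat_lit 152) (nat_lit 658077379456) (nat_lit 0) (nat_lit 238597826750) (nat_lit 17) (nat_lit 5) (nat_lit 19) (nat_lit 4) (nat_lit 17) (nat_lit 4) (nat_lit 498) (nat_lit 429) (nat_lit 273)))) (XT.nd (nat_lit 156) (nat_lit 152) (nat_lit 0) (XT.nd (nat_lit 78) (nat_lit 0) (nat_lit 0) (XT.lf (nat_lit 0) (nat_lit 55682119831) (nat_lit 76) (nat_lit 705963394700) (nat_lit 76) (nat_lit 580745502957) (nat_lit 16) (nat_lit 4) (nat_lit 17) (nat_lit 5) (nat_lit 17) (nat_lit 4) (nat_lit 499) (nat_lit 429) (nat_lit 272)) (XT.lf (nat_lit 0) (nat_lit 850041421712) (nat_lit 76) (nat_lit 352723277104) (nat_lit 76) (nat_lit 227505332903) (nat_lit 16) (nat_lit 4) (nat_lit 17) (nat_lit 5) (nat_lit 17) (nat_lit 4) (nat_lit 500) (nat_lit 429) (nat_lit 271))) (XT.nd (nat_lit 56940) (nat_lit 0) (nat_lit 10108) (XT.lf (nat_lit 0) (nat_lit 152510449636) (nat_lit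 152) (nat_lit 1339121226582) (nat_lit 0) (nat_lit 33255218424) (nat_lit 14) (nat_lit 5) (nat_lit 16) (nat_lit 4) (nat_lit 14) (nat_lit 4) (nat_lit 501) (nat_lit 429) (nat_lit 270)) (XT.lf (nat_lit 0) (nat_lit 8230790288) (nat_lit 836) (nat_lit 6105165840) (nat_lit 836) (nat_lit 6105165840) (nat_lit 147) (nat_lit 3) (nat_lit 158) (nat_lit 3) (nat_lit 158) (nat_lit 5) (nat_lit 430) (nat_lit 430) (nat_lit 340))))) (XT.nd (nat_lit 234) (nat_lit 456) (nat_lit 0) (XT.nd (nat_lit 78) (nat_lit 0) (nat_lit 0) (XT.lf (nat_lit 0) (nat_lit 17559790058) (nat_lit 760) (nat_lit 21652201895) (nat_lit 836) (nat_lit 3283545071) (nat_lit 148) (nat_lit 5) (nat_lit 158) (nat_lit 5) (nat_lit 159) (nat_lit 5) (nat_lit 431) (nat_lit 430) (nat_lit 339)) (XT.nd (nat_lit 78) (nat_lit 0) (nat_lit 76) (XT.lf (nat_lit 76) (nat_lit 12664836557) (nat_lit 0) (nat_lit 6972337462) (nat_lit 836) (nat_lit 24556154591) (nat_lit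 149) (nat_lit 5) (nat_lit 148) (nat_lit 5) (nat_lit 159) (nat_lit 5) (nat_lit 432) (nat_lit 430) (nat_lit 338)) (XT.lf (nat_lit 76) (nat_lit 4181439840) (nat_lit 0) (nat_lit 18577074230) (nat_lit 836) (nat_lit 23224542049) (nat_lit 150) (nat_lit 5) (nat_lit 149) (nat_lit 5) (nat_lit 160) (nat_lit 5) (nat_lit 433) (nat_lit 430) (nat_lit 337)))) (XT.nd (nat_lit 156) (nat_lit 608) (nat_lit 0) (XT.nd (nat_lit 78) (nat_lit 0) (nat_lit 76) (XT.lf (nat_lit 0) (nat_lit 27053956893) (nat_lit 760) (nat_lit 4398815987) (nat_lit 836) (nat_lit 16416969974) (nat_lit 150) (nat_lit 5) (nat_lit 160) (nat_lit 5) (nat_lit 161) (nat_lit 5) (nat_lit 434) (nat_lit 430) (nat_lit 336)) (XT.lf (nat_lit 0) (nat_lit 32643752004) (nat_lit 760) (nat_lit 13070972296) (nat_lit 836) (nat_lit 4145105127) (nat_lit 151) (nat_lit 5) (nat_lit 161) (nat_lit 5) (nat_lit 162) (nat_lit 5) (nat_lit 435) (nat_lit 430) (nat_lit 335)))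 (XT.nd (nat_lit 78) (nat_lit 684) (nat_lit 0) (XT.lf (nat_lit 76) (nat_lit 29843177585) (nat_lit 0) (nat_lit 9907186807) (nat_lit 836) (nat_lit 12205277539) (nat_lit 152) (nat_lit 5) (nat_lit 151) (nat_lit 5) (nat_lit 162) (nat_lit 5) (nat_lit 436) (nat_lit 430) (nat_lit 334)) (XT.lf (nat_lit 0) (nat_lit 22720055591) (nat_lit 760) (nat_lit 25736453366) (nat_lit 836) (nat_lit 5711060956) (nat_lit 142) (nat_lit 5) (nat_lit 152) (nat_lit 5) (nat_lit 153) (nat_lit 5) (nat_lit 437) (nat_lit 430) (nat_lit 333)))))) (XT.nd (nat_lit 546) (nat_lit 1748) (nat_lit 0) (XT.nd (nat_lit 234) (nat_lit 988) (nat_lit 0) (XT.nd (nat_lit 78) (nat_lit 760) (nat_lit 0) (XT.lf (nat_lit 0) (nat_lit 2273463521) (nat_lit 456) (nat_lit 41031807766) (nat_lit 76) (nat_lit 13199541230) (nat_lit 136) (nat_lit 5) (nat_lit 142) (nat_lit 5) (nat_lit 137) (nat_lit 5) (nat_lit 438) (nat_lit 430) (nat_lit 332)) (XT.nd (nat_lit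 78) (nat_lit 380) (nat_lit 0) (XT.lf (nat_lit 0) (nat_lit 7980917368) (nat_lit 380) (nat_lit 3829960429) (nat_lit 456) (nat_lit 47157765276) (nat_lit 131) (nat_lit 5) (nat_lit 136) (nat_lit 5) (nat_lit 137) (nat_lit 5) (nat_lit 439) (nat_lit 430) (nat_lit 331)) (XT.lf (nat_lit 0) (nat_lit 170155135) (nat_lit 380) (nat_lit 23272502430) (nat_lit 456) (nat_lit 38120354371) (nat_lit 126) (nat_lit 5) (nat_lit 131) (nat_lit 5) (nat_lit 132) (nat_lit 5) (nat_lit 440) (nat_lit 430) (nat_lit 330)))) (XT.nd (nat_lit 156) (nat_lit 684) (nat_lit 0) (XT.nd (nat_lit 78) (nat_lit 304) (nat_lit 0) (XT.lf (nat_lit 0) (nat_lit 37268977258) (nat_lit 456) (nat_lit 7462093052) (nat_lit 76) (nat_lit 19570660569) (nat_lit 126) (nat_lit 5) (nat_lit 132) (nat_lit 5) (nat_lit 127) (nat_lit 5) (nat_lit 441) (nat_lit 430) (nat_lit 329)) (XT.lf (nat_lit 0) (nat_lit 52053229709) (nat_lit 304) (nat_lit 1350162318) (nat_lit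 380) (nat_lit 13796056247) (nat_lit 122) (nat_lit 5) (nat_lit 126) (nat_lit 5) (nat_lit 127) (nat_lit 5) (nat_lit 442) (nat_lit 430) (nat_lit 328))) (XT.nd (nat_lit 78) (nat_lit 304) (nat_lit 0) (XT.lf (nat_lit 0) (nat_lit 2083763895) (nat_lit 380) (nat_lit 23219800993) (nat_lit 76) (nat_lit 44945019720) (nat_lit 117) (nat_lit 5) (nat_lit 122) (nat_lit 5) (nat_lit 118) (nat_lit 5) (nat_lit 443) (nat_lit 430) (nat_lit 327)) (XT.lf (nat_lit 0) (nat_lit 20057754167) (nat_lit 380) (nat_lit 31554805733) (nat_lit 76) (nat_lit 21852427486) (nat_lit 113) (nat_lit 5) (nat_lit 118) (nat_lit 5) (nat_lit 114) (nat_lit 5) (nat_lit 444) (nat_lit 430) (nat_lit 326))))) (XT.nd (nat_lit 312) (nat_lit 684) (nat_lit 0) (XT.nd (nat_lit 156) (nat_lit 532) (nat_lit 0) (XT.nd (nat_lit 78) (nat_lit 228) (nat_lit 0) (XT.lf (nat_lit 0) (nat_lit 36905757049) (nat_lit 304) (nat_lit 3975195117) (nat_lit 380) (nat_lit 35987186108)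 (nat_lit 109) (nat_lit 5) (nat_lit 113) (nat_lit 5) (nat_lit 114) (nat_lit 5) (nat_lit 445) (nat_lit 430) (nat_lit 325)) (XT.lf (nat_lit 0) (nat_lit 31715425047) (nat_lit 228) (nat_lit 33447065338) (nat_lit 304) (nat_lit 15291426916) (nat_lit 106) (nat_lit 5) (nat_lit 109) (nat_lit 5) (nat_lit 110) (nat_lit 5) (nat_lit 446) (nat_lit 430) (nat_lit 324))) (XT.nd (nat_lit 78) (nat_lit 228) (nat_lit 0) (XT.lf (nat_lit 0) (nat_lit 8321814596) (nat_lit 304) (nat_lit 57623817763) (nat_lit 76) (nat_lit 18301025962) (nat_lit 102) (nat_lit 5) (nat_lit 106) (nat_lit 5) (nat_lit 103) (nat_lit 5) (nat_lit 447) (nat_lit 430) (nat_lit 323)) (XT.lf (nat_lit 0) (nat_lit 21295727288) (nat_lit 228) (nat_lit 13756859019) (nat_lit 304) (nat_lit 53189488194) (nat_lit 99) (nat_lit 5) (nat_lit 102) (nat_lit 5) (nat_lit 103) (nat_lit 5) (nat_lit 448) (nat_lit 430) (nat_lit 322)))) (XT.nd (nat_lit 156) (nat_lit 228)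 (nat_lit 0) (XT.nd (nat_lit 78) (nat_lit 228) (nat_lit 0) (XT.lf (nat_lit 0) (nat_lit 15903745931) (nat_lit 228) (nat_lit 49949595007) (nat_lit 304) (nat_lit 26607207198) (nat_lit 96) (nat_lit 5) (nat_lit 99) (nat_lit 5) (nat_lit 100) (nat_lit 5) (nat_lit 449) (nat_lit 430) (nat_lit 321)) (XT.lf (nat_lit 0) (nat_lit 3732577081) (nat_lit 228) (nat_lit 86173593684) (nat_lit 76) (nat_lit 7023779105) (nat_lit 93) (nat_lit 5) (nat_lit 96) (nat_lit 5) (nat_lit 94) (nat_lit 5) (nat_lit 450) (nat_lit 430) (nat_lit 320))) (XT.nd (nat_lit 78) (nat_lit 0) (nat_lit 0) (XT.lf (nat_lit 0) (nat_lit 4940425273) (nat_lit 228) (nat_lit 32912157960) (nat_lit 304) (nat_lit 63768250200) (nat_lit 90) (nat_lit 5) (nat_lit 93) (nat_lit 5) (nat_lit 94) (nat_lit 5) (nat_lit 451) (nat_lit 430) (nat_lit 319)) (XT.lf (nat_lit 0) (nat_lit 76673103631) (nat_lit 304) (nat_lit 665972735) (nat_lit 76) (nat_lit 29249365792) (nat_lit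 90) (nat_lit 5) (nat_lit 94) (nat_lit 5) (nat_lit 91) (nat_lit 5) (nat_lit 452) (nat_lit 430) (nat_lit 318))))))) (XT.nd (nat_lit 1170) (nat_lit 1672) (nat_lit 0) (XT.nd (nat_lit 546) (nat_lit 1140) (nat_lit 0) (XT.nd (nat_lit 234) (nat_lit 760) (nat_lit 0) (XT.nd (nat_lit 78) (nat_lit 380) (nat_lit 0) (XT.lf (nat_lit 0) (nat_lit 8675181788) (nat_lit 228) (nat_lit 6123076060) (nat_lit 76) (nat_lit 97037909745) (nat_lit 87) (nat_lit 5) (nat_lit 90) (nat_lit 5) (nat_lit 88) (nat_lit 5) (nat_lit 453) (nat_lit 430) (nat_lit 317)) (XT.nd (nat_lit 78) (nat_lit 152) (nat_lit 0) (XT.lf (nat_lit 0) (nat_lit 51843094616) (nat_lit 304) (nat_lit 12245633052) (nat_lit 76) (nat_lit 53263550830) (nat_lit 84) (nat_lit 5) (nat_lit 88) (nat_lit 5) (nat_lit 85) (nat_lit 5) (nat_lit 454) (nat_lit 430) (nat_lit 316)) (XT.lf (nat_lit 0) (nat_lit 100539111246) (nat_lit 228) (nat_lit 18020456469) (nat_lit 76) (nat_lit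 4646377146) (nat_lit 82) (nat_lit 5) (nat_lit 85) (nat_lit 5) (nat_lit 83) (nat_lit 5) (nat_lit 455) (nat_lit 430) (nat_lit 315)))) (XT.nd (nat_lit 156) (nat_lit 380) (nat_lit 0) (XT.nd (nat_lit 78) (nat_lit 152) (nat_lit 0) (XT.lf (nat_lit 0) (nat_lit 25834142010) (nat_lit 228) (nat_lit 24585885390) (nat_lit 76) (nat_lit 78940117984) (nat_lit 79) (nat_lit 5) (nat_lit 82) (nat_lit 5) (nat_lit 80) (nat_lit 5) (nat_lit 456) (nat_lit 430) (nat_lit 314)) (XT.lf (nat_lit 0) (nat_lit 79788892252) (nat_lit 228) (nat_lit 31273529648) (nat_lit 76) (nat_lit 24807289180) (nat_lit 77) (nat_lit 5) (nat_lit 80) (nat_lit 5) (nat_lit 78) (nat_lit 5) (nat_lit 457) (nat_lit 430) (nat_lit 313))) (XT.nd (nat_lit 78) (nat_lit 228) (nat_lit 0) (XT.lf (nat_lit 0) (nat_lit 104600266606) (nat_lit 152) (nat_lit 36376832685) (nat_lit 228) (nat_lit 1777088995) (nat_lit 75) (nat_lit 5) (nat_lit 77) (nat_lit 5) (nat_lit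 78) (nat_lit 5) (nat_lit 458) (nat_lit 430) (nat_lit 312)) (XT.lf (nat_lit 0) (nat_lit 57980257456) (nat_lit 228) (nat_lit 46025518016) (nat_lit 76) (nat_lit 45992775371) (nat_lit 72) (nat_lit 5) (nat_lit 75) (nat_lit 5) (nat_lit 73) (nat_lit 5) (nat_lit 459) (nat_lit 430) (nat_lit 311))))) (XT.nd (nat_lit 312) (nat_lit 532) (nat_lit 0) (XT.nd (nat_lit 156) (nat_lit 304) (nat_lit 0) (XT.nd (nat_lit 78) (nat_lit 152) (nat_lit 0) (XT.lf (nat_lit 0) (nat_lit 103705951734) (nat_lit 152) (nat_lit 21657456246) (nat_lit 228) (nat_lit 32312224025) (nat_lit 70) (nat_lit 5) (nat_lit 72) (nat_lit 5) (nat_lit 73) (nat_lit 5) (nat_lit 460) (nat_lit 430) (nat_lit 310)) (XT.lf (nat_lit 0) (nat_lit 34675625630) (nat_lit 152) (nat_lit 62976825760) (nat_lit 76) (nat_lit 68112567576) (nat_lit 68) (nat_lit 5) (nat_lit 70) (nat_lit 5) (nat_lit 69) (nat_lit 5) (nat_lit 461) (nat_lit 430) (nat_lit 309))) (XT.nd (nat_lit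 78) (nat_lit 152) (nat_lit 0) (XT.lf (nat_lit 0) (nat_lit 101892845833) (nat_lit 152) (nat_lit 6922980839) (nat_lit 228) (nat_lit 65512975528) (nat_lit 66) (nat_lit 5) (nat_lit 68) (nat_lit 5) (nat_lit 69) (nat_lit 5) (nat_lit 462) (nat_lit 430) (nat_lit 308)) (XT.lf (nat_lit 0) (nat_lit 9310746605) (nat_lit 152) (nat_lit 83071482885) (nat_lit 76) (nat_lit 90982757313) (nat_lit 64) (nat_lit 5) (nat_lit 66) (nat_lit 5) (nat_lit 65) (nat_lit 5) (nat_lit 463) (nat_lit 430) (nat_lit 307)))) (XT.nd (nat_lit 156) (nat_lit 304) (nat_lit 0) (XT.nd (nat_lit 78) (nat_lit 76) (nat_lit 0) (XT.lf (nat_lit 0) (nat_lit 90904813681) (nat_lit 228) (nat_lit 94771090814) (nat_lit 76) (nat_lit 7240477437) (nat_lit 62) (nat_lit 5) (nat_lit 65) (nat_lit 5) (nat_lit 63) (nat_lit 4) (nat_lit 464) (nat_lit 430) (nat_lit 306)) (XT.lf (nat_lit 0) (nat_lit 95127398900) (nat_lit 76) (nat_lit 88411552678) (nat_lit 152) (nat_lit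 19467309867) (nat_lit 61) (nat_lit 5) (nat_lit 62) (nat_lit 5) (nat_lit 63) (nat_lit 4) (nat_lit 465) (nat_lit 430) (nat_lit 305))) (XT.nd (nat_lit 78) (nat_lit 76) (nat_lit 0) (XT.lf (nat_lit 0) (nat_lit 70885601978) (nat_lit 228) (nat_lit 122426262822) (nat_lit 76) (nat_lit 20365304995) (nat_lit 58) (nat_lit 5) (nat_lit 61) (nat_lit 5) (nat_lit 59) (nat_lit 4) (nat_lit 466) (nat_lit 430) (nat_lit 304)) (XT.lf (nat_lit 0) (nat_lit 85954798470) (nat_lit 76) (nat_lit 86580696349) (nat_lit 152) (nat_lit 52412759832) (nat_lit 57) (nat_lit 5) (nat_lit 58) (nat_lit 5) (nat_lit 59) (nat_lit 4) (nat_lit 467) (nat_lit 430) (nat_lit 303)))))) (XT.nd (nat_lit 546) (nat_lit 912) (nat_lit 0) (XT.nd (nat_lit 234) (nat_lit 304) (nat_lit 0) (XT.nd (nat_lit 78) (nat_lit 228) (nat_lit 0) (XT.lf (nat_lit 0) (nat_lit 47683755461) (nat_lit 228) (nat_lit 157242677157) (nat_lit 76) (nat_lit 31962613216) (nat_lit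 54) (nat_lit 5) (nat_lit 57) (nat_lit 5) (nat_lit 55) (nat_lit 4) (nat_lit 468) (nat_lit 430) (nat_lit 302)) (XT.nd (nat_lit 78) (nat_lit 152) (nat_lit 0) (XT.lf (nat_lit 0) (nat_lit 70962690137) (nat_lit 76) (nat_lit 88041242228) (nat_lit 152) (nat_lit 90485595292) (nat_lit 53) (nat_lit 5) (nat_lit 54) (nat_lit 5) (nat_lit 55) (nat_lit 4) (nat_lit 469) (nat_lit 430) (nat_lit 301)) (XT.lf (nat_lit 0) (nat_lit 20024414986) (nat_lit 152) (nat_lit 201803561504) (nat_lit 76) (nat_lit 41037025831) (nat_lit 51) (nat_lit 5) (nat_lit 53) (nat_lit 5) (nat_lit 52) (nat_lit 4) (nat_lit 470) (nat_lit 430) (nat_lit 300)))) (XT.nd (nat_lit 156) (nat_lit 152) (nat_lit 0) (XT.nd (nat_lit 78) (nat_lit 76) (nat_lit 0) (XT.lf (nat_lit 0) (nat_lit 47493890409) (nat_lit 76) (nat_lit 94139434156) (nat_lit 152) (nat_lit 135331608253) (nat_lit 50) (nat_lit 5) (nat_lit 51) (nat_lit 5) (nat_lit 52) (nat_lit 4) (nat_lit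 471) (nat_lit 430) (nat_lit 299)) (XT.lf (nat_lit 0) (nat_lit 32212695449) (nat_lit 76) (nat_lit 245516448834) (nat_lit 76) (nat_lit 14225803624) (nat_lit 49) (nat_lit 4) (nat_lit 50) (nat_lit 5) (nat_lit 50) (nat_lit 4) (nat_lit 472) (nat_lit 430) (nat_lit 298))) (XT.nd (nat_lit 78) (nat_lit 0) (nat_lit 0) (XT.lf (nat_lit 0) (nat_lit 11990340969) (nat_lit 76) (nat_lit 106683634531) (nat_lit 152) (nat_lit 189087369254) (nat_lit 47) (nat_lit 5) (nat_lit 48) (nat_lit 5) (nat_lit 49) (nat_lit 4) (nat_lit 473) (nat_lit 430) (nat_lit 297)) (XT.lf (nat_lit 0) (nat_lit 266987182566) (nat_lit 152) (nat_lit 10860257462) (nat_lit 0) (nat_lit 46709160422) (nat_lit 47) (nat_lit 5) (nat_lit 49) (nat_lit 4) (nat_lit 47) (nat_lit 4) (nat_lit 474) (nat_lit 430) (nat_lit 296))))) (XT.nd (nat_lit 312) (nat_lit 456) (nat_lit 0) (XT.nd (nat_lit 156) (nat_lit 228) (nat_lit 0) (XT.nd (nat_lit 78) (nat_lit 76) (nat_lit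 0) (XT.lf (nat_lit 0) (nat_lit 88430719849) (nat_lit 152) (nat_lit 38995588289) (nat_lit 76) (nat_lit 214870011993) (nat_lit 45) (nat_lit 5) (nat_lit 47) (nat_lit 5) (nat_lit 46) (nat_lit 4) (nat_lit 475) (nat_lit 430) (nat_lit 295)) (XT.lf (nat_lit 0) (nat_lit 249477688507) (nat_lit 152) (nat_lit 71973050111) (nat_lit 0) (nat_lit 39688102144) (nat_lit 44) (nat_lit 5) (nat_lit 46) (nat_lit 4) (nat_lit 44) (nat_lit 4) (nat_lit 476) (nat_lit 430) (nat_lit 294))) (XT.nd (nat_lit 78) (nat_lit 76) (nat_lit 0) (XT.lf (nat_lit 0) (nat_lit 47747316364) (nat_lit 152) (nat_lit 111908030233) (nat_lit 76) (nat_lit 221442224528) (nat_lit 42) (nat_lit 5) (nat_lit 44) (nat_lit 5) (nat_lit 43) (nat_lit 4) (nat_lit 477) (nat_lit 430) (nat_lit 293)) (XT.lf (nat_lit 0) (nat_lit 221473745428) (nat_lit 152) (nat_lit 159140533798) (nat_lit 0) (nat_lit 21673327879) (nat_lit 41) (nat_lit 5) (nat_lit 43) (nat_lit 4)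 (nat_lit 41) (nat_lit 4) (nat_lit 478) (nat_lit 430) (nat_lit 292)))) (XT.nd (nat_lit 156) (nat_lit 228) (nat_lit 0) (XT.nd (nat_lit 78) (nat_lit 152) (nat_lit 0) (XT.lf (nat_lit 0) (nat_lit 209507509296) (nat_lit 76) (nat_lit 207534465582) (nat_lit 76) (nat_lit 7733686794) (nat_lit 40) (nat_lit 4) (nat_lit 41) (nat_lit 5) (nat_lit 41) (nat_lit 4) (nat_lit 479) (nat_lit 430) (nat_lit 291)) (XT.lf (nat_lit 0) (nat_lit 166903535324) (nat_lit 76) (nat_lit 11976781062) (nat_lit 152) (nat_lit 269771423748) (nat_lit 38) (nat_lit 5) (nat_lit 39) (nat_lit 5) (nat_lit 40) (nat_lit 4) (nat_lit 480) (nat_lit 430) (nat_lit 290))) (XT.nd (nat_lit 78) (nat_lit 152) (nat_lit 0) (XT.lf (nat_lit 0) (nat_lit 113411910781) (nat_lit 76) (nat_lit 275435977282) (nat_lit 76) (nat_lit 85148907784) (nat_lit 37) (nat_lit 4) (nat_lit 38) (nat_lit 5) (nat_lit 38) (nat_lit 4) (nat_lit 481) (nat_lit 430) (nat_lit 289)) (XT.lf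 (nat_lit 0) (nat_lit 48610381404) (nat_lit 76) (nat_lit 67925093722) (nat_lit 152) (nat_lit 384447369498) (nat_lit 35) (nat_lit 5) (nat_lit 36) (nat_lit 5) (nat_lit 37) (nat_lit 4) (nat_lit 482) (nat_lit 430) (nat_lit 288))))))))
noncomputable def xc91 : XT := (XT.nd (nat_lit 59280) (nat_lit 0) (nat_lit 2660) (XT.nd (nat_lit 1170) (nat_lit 228) (nat_lit 0) (XT.nd (nat_lit 546) (nat_lit 684) (nat_lit 0) (XT.nd (nat_lit 234) (nat_lit 304) (nat_lit 0) (XT.nd (nat_lit 78) (nat_lit 228) (nat_lit 0) (XT.lf (nat_lit 0) (nat_lit 340233289652) (nat_lit 152) (nat_lit 30374591037) (nat_lit 0) (nat_lit 159007008239) (nat_lit 35) (nat_lit 5) (nat_lit 37) (nat_lit 4) (nat_lit 35) (nat_lit 4) (nat_lit 483) (nat_lit 430) (nat_lit 287)) (XT.nd (nat_lit 78) (nat_lit 76) (nat_lit 0) (XT.lf (nat_lit 0) (nat_lit 28726255030) (nat_lit 152) (nat_lit 122337681596) (nat_lit 76) (nat_lit 409051029909) (nat_lit 33) (nat_lit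 5) (nat_lit 35) (nat_lit 5) (nat_lit 34) (nat_lit 4) (nat_lit 484) (nat_lit 430) (nat_lit 286)) (XT.lf (nat_lit 0) (nat_lit 265386935632) (nat_lit 152) (nat_lit 234335855454) (nat_lit 0) (nat_lit 92790068120) (nat_lit 32) (nat_lit 5) (nat_lit 34) (nat_lit 4) (nat_lit 32) (nat_lit 4) (nat_lit 485) (nat_lit 430) (nat_lit 285)))) (XT.nd (nat_lit 156) (nat_lit 76) (nat_lit 0) (XT.nd (nat_lit 78) (nat_lit 152) (nat_lit 0) (XT.lf (nat_lit 0) (nat_lit 259838676062) (nat_lit 76) (nat_lit 269911242222) (nat_lit 76) (nat_lit 97314192630) (nat_lit 31) (nat_lit 4) (nat_lit 32) (nat_lit 5) (nat_lit 32) (nat_lit 4) (nat_lit 486) (nat_lit 430) (nat_lit 284)) (XT.lf (nat_lit 0) (nat_lit 139790334929) (nat_lit 76) (nat_lit 12593837320) (nat_lit 152) (nat_lit 511560961751) (nat_lit 29) (nat_lit 5) (nat_lit 30) (nat_lit 5) (nat_lit 31) (nat_lit 4) (nat_lit 487) (nat_lit 430) (nat_lit 283))) (XT.nd (nat_lit 78)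 (nat_lit 76) (nat_lit 0) (XT.lf (nat_lit 0) (nat_lit 429337960882) (nat_lit 152) (nat_lit 8864954654) (nat_lit 0) (nat_lit 264959509179) (nat_lit 29) (nat_lit 5) (nat_lit 31) (nat_lit 4) (nat_lit 29) (nat_lit 4) (nat_lit 488) (nat_lit 430) (nat_lit 282)) (XT.lf (nat_lit 0) (nat_lit 565535417191) (nat_lit 76) (nat_lit 171954098844) (nat_lit 76) (nat_lit 7575509484) (nat_lit 28) (nat_lit 4) (nat_lit 29) (nat_lit 5) (nat_lit 29) (nat_lit 4) (nat_lit 489) (nat_lit 430) (nat_lit 281))))) (XT.nd (nat_lit 312) (nat_lit 304) (nat_lit 0) (XT.nd (nat_lit 156) (nat_lit 152) (nat_lit 0) (XT.nd (nat_lit 78) (nat_lit 76) (nat_lit 0) (XT.lf (nat_lit 0) (nat_lit 279466249724) (nat_lit 152) (nat_lit 387297246153) (nat_lit 0) (nat_lit 122915090848) (nat_lit 26) (nat_lit 5) (nat_lit 28) (nat_lit 4) (nat_lit 26) (nat_lit 4) (nat_lit 490) (nat_lit 430) (nat_lit 280)) (XT.lf (nat_lit 0) (nat_lit 202968106189) (nat_lit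 76) (nat_lit 395487844005) (nat_lit 76) (nat_lit 238936572729) (nat_lit 25) (nat_lit 4) (nat_lit 26) (nat_lit 5) (nat_lit 26) (nat_lit 4) (nat_lit 491) (nat_lit 430) (nat_lit 279))) (XT.nd (nat_lit 78) (nat_lit 76) (nat_lit 0) (XT.lf (nat_lit 0) (nat_lit 59168217131) (nat_lit 152) (nat_lit 35256530229) (nat_lit 76) (nat_lit 794113808790) (nat_lit 24) (nat_lit 5) (nat_lit 26) (nat_lit 5) (nat_lit 25) (nat_lit 4) (nat_lit 492) (nat_lit 430) (nat_lit 278)) (XT.lf (nat_lit 0) (nat_lit 386494180783) (nat_lit 152) (nat_lit 319001502339) (nat_lit 0) (nat_lit 237397541056) (nat_lit 23) (nat_lit 5) (nat_lit 25) (nat_lit 4) (nat_lit 23) (nat_lit 4) (nat_lit 493) (nat_lit 430) (nat_lit 277)))) (XT.nd (nat_lit 156) (nat_lit 76) (nat_lit 0) (XT.nd (nat_lit 78) (nat_lit 152) (nat_lit 0) (XT.lf (nat_lit 0) (nat_lit 344901222216) (nat_lit 76) (nat_lit 402705862490) (nat_lit 76) (nat_lit 253609137786) (nat_lit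 22) (nat_lit 4) (nat_lit 23) (nat_lit 5) (nat_lit 23) (nat_lit 4) (nat_lit 494) (nat_lit 430) (nat_lit 276)) (XT.lf (nat_lit 0) (nat_lit 8411692828) (nat_lit 76) (nat_lit 68421719959) (nat_lit 152) (nat_lit 987025403926) (nat_lit 20) (nat_lit 5) (nat_lit 21) (nat_lit 5) (nat_lit 22) (nat_lit 4) (nat_lit 495) (nat_lit 430) (nat_lit 275))) (XT.nd (nat_lit 78) (nat_lit 76) (nat_lit 0) (XT.lf (nat_lit 0) (nat_lit 441132938118) (nat_lit 152) (nat_lit 390220750913) (nat_lit 0) (nat_lit 299135913126) (nat_lit 20) (nat_lit 5) (nat_lit 22) (nat_lit 4) (nat_lit 20) (nat_lit 4) (nat_lit 496) (nat_lit 430) (nat_lit 274)) (XT.lf (nat_lit 0) (nat_lit 337883700873) (nat_lit 76) (nat_lit 503121402455) (nat_lit 76) (nat_lit 361124313217) (nat_lit 19) (nat_lit 4) (nat_lit 20) (nat_lit 5) (nat_lit 20) (nat_lit 4) (nat_lit 497) (nat_lit 430) (nat_lit 273)))))) (XT.nd (nat_lit 57486) (nat_lit 0) (nat_lit 8360) (XT.nd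 (nat_lit 234) (nat_lit 0) (nat_lit 0) (XT.nd (nat_lit 78) (nat_lit 152) (nat_lit 0) (XT.lf (nat_lit 0) (nat_lit 487422513) (nat_lit 152) (nat_lit 140997932570) (nat_lit 76) (nat_lit 1137674814909) (nat_lit 18) (nat_lit 5) (nat_lit 20) (nat_lit 5) (nat_lit 19) (nat_lit 4) (nat_lit 498) (nat_lit 430) (nat_lit 272)) (XT.nd (nat_lit 78) (nat_lit 76) (nat_lit 0) (XT.lf (nat_lit 0) (nat_lit 392927338544) (nat_lit 152) (nat_lit 710710571373) (nat_lit 0) (nat_lit 257691906350) (nat_lit 17) (nat_lit 5) (nat_lit 19) (nat_lit 4) (nat_lit 17) (nat_lit 4) (nat_lit 499) (nat_lit 430) (nat_lit 271)) (XT.lf (nat_lit 0) (nat_lit 60149122960) (nat_lit 76) (nat_lit 762434174779) (nat_lit 76) (nat_lit 627198694014) (nat_lit 16) (nat_lit 4) (nat_lit 17) (nat_lit 5) (nat_lit 17) (nat_lit 4) (nat_lit 500) (nat_lit 430) (nat_lit 270)))) (XT.nd (nat_lit 57096) (nat_lit 0) (nat_lit 10032) (XT.nd (nat_lit 57018) (nat_lit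 0) (nat_lit 9956) (XT.lf (nat_lit 0) (nat_lit 918056247989) (nat_lit 76) (nat_lit 380935313812) (nat_lit 76) (nat_lit 245699788072) (nat_lit 16) (nat_lit 4) (nat_lit 17) (nat_lit 5) (nat_lit 17) (nat_lit 4) (nat_lit 501) (nat_lit 430) (nat_lit 269)) (XT.lf (nat_lit 0) (nat_lit 8948293386) (nat_lit 836) (nat_lit 6562578607) (nat_lit 836) (nat_lit 6562578607) (nat_lit 147) (nat_lit 3) (nat_lit 158) (nat_lit 3) (nat_lit 158) (nat_lit 5) (nat_lit 431) (nat_lit 431) (nat_lit 338))) (XT.nd (nat_lit 78) (nat_lit 0) (nat_lit 0) (XT.lf (nat_lit 0) (nat_lit 19074036794) (nat_lit 760) (nat_lit 23318746159) (nat_lit 836) (nat_lit 3496906946) (nat_lit 148) (nat_lit 5) (nat_lit 158) (nat_lit 5) (nat_lit 159) (nat_lit 5) (nat_lit 432) (nat_lit 431) (nat_lit 337)) (XT.lf (nat_lit 76) (nat_lit 13740803087) (nat_lit 0) (nat_lit 7569680140) (nat_lit 836) (nat_lit 26413179249) (nat_lit 149) (nat_lit 5) (nat_lit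 148) (nat_lit 5) (nat_lit 159) (nat_lit 5) (nat_lit 433) (nat_lit 431) (nat_lit 336))))) (XT.nd (nat_lit 312) (nat_lit 1748) (nat_lit 0) (XT.nd (nat_lit 156) (nat_lit 0) (nat_lit 152) (XT.nd (nat_lit 78) (nat_lit 0) (nat_lit 76) (XT.lf (nat_lit 76) (nat_lit 4581506418) (nat_lit 0) (nat_lit 20092895285) (nat_lit 836) (nat_lit 24982524082) (nat_lit 150) (nat_lit 5) (nat_lit 149) (nat_lit 5) (nat_lit 160) (nat_lit 5) (nat_lit 434) (nat_lit 431) (nat_lit 335)) (XT.lf (nat_lit 0) (nat_lit 29305998915) (nat_lit 760) (nat_lit 4685175697) (nat_lit 836) (nat_lit 17703747972) (nat_lit 150) (nat_lit 5) (nat_lit 160) (nat_lit 5) (nat_lit 161) (nat_lit 5) (nat_lit 435) (nat_lit 431) (nat_lit 334))) (XT.nd (nat_lit 78) (nat_lit 0) (nat_lit 0) (XT.lf (nat_lit 0) (nat_lit 35337153736) (nat_lit 760) (nat_lit 14049525712) (nat_lit 836) (nat_lit 4457828825) (nat_lit 151) (nat_lit 5) (nat_lit 161) (nat_lit 5) (nat_lit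 162) (nat_lit 5) (nat_lit 436) (nat_lit 431) (nat_lit 333)) (XT.lf (nat_lit 76) (nat_lit 32294839017) (nat_lit 0) (nat_lit 10712391769) (nat_lit 836) (nat_lit 13101009128) (nat_lit 152) (nat_lit 5) (nat_lit 151) (nat_lit 5) (nat_lit 162) (nat_lit 5) (nat_lit 437) (nat_lit 431) (nat_lit 332)))) (XT.nd (nat_lit 156) (nat_lit 760) (nat_lit 0) (XT.nd (nat_lit 78) (nat_lit 456) (nat_lit 0) (XT.lf (nat_lit 0) (nat_lit 24602951425) (nat_lit 760) (nat_lit 27802060642) (nat_lit 836) (nat_lit 6092353662) (nat_lit 142) (nat_lit 5) (nat_lit 152) (nat_lit 5) (nat_lit 153) (nat_lit 5) (nat_lit 438) (nat_lit 431) (nat_lit 331)) (XT.lf (nat_lit 0) (nat_lit 2524042279) (nat_lit 456) (nat_lit 44246064674) (nat_lit 76) (nat_lit 14251646084) (nat_lit 136) (nat_lit 5) (nat_lit 142) (nat_lit 5) (nat_lit 137) (nat_lit 5) (nat_lit 439) (nat_lit 431) (nat_lit 330))) (XT.nd (nat_lit 78) (nat_lit 380) (nat_lit 0) (XT.lf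 (nat_lit 0) (nat_lit 8684710770) (nat_lit 380) (nat_lit 4135669743) (nat_lit 456) (nat_lit 50862513680) (nat_lit 131) (nat_lit 5) (nat_lit 136) (nat_lit 5) (nat_lit 137) (nat_lit 5) (nat_lit 440) (nat_lit 431) (nat_lit 329)) (XT.lf (nat_lit 0) (nat_lit 249338068) (nat_lit 380) (nat_lit 25129610681) (nat_lit 456) (nat_lit 41106052157) (nat_lit 126) (nat_lit 5) (nat_lit 131) (nat_lit 5) (nat_lit 132) (nat_lit 5) (nat_lit 441) (nat_lit 431) (nat_lit 328))))))) (XT.nd (nat_lit 1170) (nat_lit 2356) (nat_lit 0) (XT.nd (nat_lit 546) (nat_lit 1520) (nat_lit 0) (XT.nd (nat_lit 234) (nat_lit 1140) (nat_lit 0) (XT.nd (nat_lit 78) (nat_lit 684) (nat_lit 0) (XT.lf (nat_lit 0) (nat_lit 40306932321) (nat_lit 456) (nat_lit 7995588965) (nat_lit 76) (nat_lit 21140518759) (nat_lit 126) (nat_lit 5) (nat_lit 132) (nat_lit 5) (nat_lit 127) (nat_lit 5) (nat_lit 442) (nat_lit 431) (nat_lit 327)) (XT.nd (nat_lit 78)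 (nat_lit 380) (nat_lit 0) (XT.lf (nat_lit 0) (nat_lit 56278201222) (nat_lit 304) (nat_lit 1450666443) (nat_lit 380) (nat_lit 14843869351) (nat_lit 122) (nat_lit 5) (nat_lit 126) (nat_lit 5) (nat_lit 127) (nat_lit 5) (nat_lit 443) (nat_lit 431) (nat_lit 326)) (XT.lf (nat_lit 0) (nat_lit 2301612615) (nat_lit 380) (nat_lit 25015174122) (nat_lit 76) (nat_lit 48549121168) (nat_lit 117) (nat_lit 5) (nat_lit 122) (nat_lit 5) (nat_lit 118) (nat_lit 5) (nat_lit 444) (nat_lit 431) (nat_lit 325)))) (XT.nd (nat_lit 156) (nat_lit 532) (nat_lit 0) (XT.nd (nat_lit 78) (nat_lit 304) (nat_lit 0) (XT.lf (nat_lit 0) (nat_lit 21710837639) (nat_lit 380) (nat_lit 34017437980) (nat_lit 76) (nat_lit 23611481961) (nat_lit 113) (nat_lit 5) (nat_lit 118) (nat_lit 5) (nat_lit 114) (nat_lit 5) (nat_lit 445) (nat_lit 431) (nat_lit 324)) (XT.lf (nat_lit 0) (nat_lit 39917286148) (nat_lit 304) (nat_lit 4279937692) (nat_lit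 380) (nat_lit 38818070497) (nat_lit 109) (nat_lit 5) (nat_lit 113) (nat_lit 5) (nat_lit 114) (nat_lit 5) (nat_lit 446) (nat_lit 431) (nat_lit 323))) (XT.nd (nat_lit 78) (nat_lit 304) (nat_lit 0) (XT.lf (nat_lit 0) (nat_lit 34311157577) (nat_lit 228) (nat_lit 36107840487) (nat_lit 304) (nat_lit 16469052364) (nat_lit 106) (nat_lit 5) (nat_lit 109) (nat_lit 5) (nat_lit 110) (nat_lit 5) (nat_lit 447) (nat_lit 431) (nat_lit 322)) (XT.lf (nat_lit 0) (nat_lit 9029647868) (nat_lit 304) (nat_lit 62174509406) (nat_lit 76) (nat_lit 19780125044) (nat_lit 102) (nat_lit 5) (nat_lit 106) (nat_lit 5) (nat_lit 103) (nat_lit 5) (nat_lit 448) (nat_lit 431) (nat_lit 321))))) (XT.nd (nat_lit 312) (nat_lit 608) (nat_lit 0) (XT.nd (nat_lit 156) (nat_lit 456) (nat_lit 0) (XT.nd (nat_lit 78) (nat_lit 228) (nat_lit 0) (XT.lf (nat_lit 0) (nat_lit 23056025891) (nat_lit 228) (nat_lit 14840622104) (nat_lit 304) (nat_lit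 57402795780) (nat_lit 99) (nat_lit 5) (nat_lit 102) (nat_lit 5) (nat_lit 103) (nat_lit 5) (nat_lit 449) (nat_lit 431) (nat_lit 320)) (XT.lf (nat_lit 0) (nat_lit 17231883734) (nat_lit 228) (nat_lit 53927741504) (nat_lit 304) (nat_lit 28695862243) (nat_lit 96) (nat_lit 5) (nat_lit 99) (nat_lit 5) (nat_lit 100) (nat_lit 5) (nat_lit 450) (nat_lit 431) (nat_lit 319))) (XT.nd (nat_lit 78) (nat_lit 228) (nat_lit 0) (XT.lf (nat_lit 0) (nat_lit 4068098647) (nat_lit 228) (nat_lit 93011290300) (nat_lit 76) (nat_lit 7603107920) (nat_lit 93) (nat_lit 5) (nat_lit 96) (nat_lit 5) (nat_lit 94) (nat_lit 5) (nat_lit 451) (nat_lit 431) (nat_lit 318)) (XT.lf (nat_lit 0) (nat_lit 5389408187) (nat_lit 228) (nat_lit 35526401802) (nat_lit 304) (nat_lit 68832936130) (nat_lit 90) (nat_lit 5) (nat_lit 93) (nat_lit 5) (nat_lit 94) (nat_lit 5) (nat_lit 452) (nat_lit 431) (nat_lit 317)))) (XT.nd (nat_lit 156) (nat_lit 380)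 (nat_lit 0) (XT.nd (nat_lit 78) (nat_lit 228) (nat_lit 0) (XT.lf (nat_lit 0) (nat_lit 82839648685) (nat_lit 304) (nat_lit 668129746) (nat_lit 76) (nat_lit 31606101497) (nat_lit 90) (nat_lit 5) (nat_lit 94) (nat_lit 5) (nat_lit 91) (nat_lit 5) (nat_lit 453) (nat_lit 431) (nat_lit 316)) (XT.lf (nat_lit 0) (nat_lit 9400745866) (nat_lit 228) (nat_lit 6562977378) (nat_lit 76) (nat_lit 104817757843) (nat_lit 87) (nat_lit 5) (nat_lit 90) (nat_lit 5) (nat_lit 88) (nat_lit 5) (nat_lit 454) (nat_lit 431) (nat_lit 315))) (XT.nd (nat_lit 78) (nat_lit 152) (nat_lit 0) (XT.lf (nat_lit 0) (nat_lit 56020778762) (nat_lit 304) (nat_lit 13176287445) (nat_lit 76) (nat_lit 57541880485) (nat_lit 84) (nat_lit 5) (nat_lit 88) (nat_lit 5) (nat_lit 85) (nat_lit 5) (nat_lit 455) (nat_lit 431) (nat_lit 314)) (XT.lf (nat_lit 0) (nat_lit 108611251891) (nat_lit 228) (nat_lit 19414070726) (nat_lit 76) (nat_lit 5035645156)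 (nat_lit 82) (nat_lit 5) (nat_lit 85) (nat_lit 5) (nat_lit 83) (nat_lit 5) (nat_lit 456) (nat_lit 431) (nat_lit 313)))))) (XT.nd (nat_lit 546) (nat_lit 1140) (nat_lit 0) (XT.nd (nat_lit 234) (nat_lit 684) (nat_lit 0) (XT.nd (nat_lit 78) (nat_lit 304) (nat_lit 0) (XT.lf (nat_lit 0) (nat_lit 27928907279) (nat_lit 228) (nat_lit 26505892179) (nat_lit 76) (nat_lit 85272754019) (nat_lit 79) (nat_lit 5) (nat_lit 82) (nat_lit 5) (nat_lit 80) (nat_lit 5) (nat_lit 457) (nat_lit 431) (nat_lit 312)) (XT.nd (nat_lit 78) (nat_lit 152) (nat_lit 0) (XT.lf (nat_lit 0) (nat_lit 86198944523) (nat_lit 228) (nat_lit 33729533753) (nat_lit 76) (nat_lit 26809460939) (nat_lit 77) (nat_lit 5) (nat_lit 80) (nat_lit 5) (nat_lit 78) (nat_lit 5) (nat_lit 458) (nat_lit 431) (nat_lit 311)) (XT.lf (nat_lit 0) (nat_lit 113012172388) (nat_lit 152) (nat_lit 39268725275) (nat_lit 228) (nat_lit 1892342585) (nat_lit 75) (nat_lit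 5) (nat_lit 77) (nat_lit 5) (nat_lit 78) (nat_lit 5) (nat_lit 459) (nat_lit 431) (nat_lit 310)))) (XT.nd (nat_lit 156) (nat_lit 304) (nat_lit 0) (XT.nd (nat_lit 78) (nat_lit 152) (nat_lit 0) (XT.lf (nat_lit 0) (nat_lit 62643749883) (nat_lit 228) (nat_lit 49663797060) (nat_lit 76) (nat_lit 49689632983) (nat_lit 72) (nat_lit 5) (nat_lit 75) (nat_lit 5) (nat_lit 73) (nat_lit 5) (nat_lit 460) (nat_lit 431) (nat_lit 309)) (XT.lf (nat_lit 0) (nat_lit 112044288410) (nat_lit 152) (nat_lit 23372060427) (nat_lit 228) (nat_lit 34872139028) (nat_lit 70) (nat_lit 5) (nat_lit 72) (nat_lit 5) (nat_lit 73) (nat_lit 5) (nat_lit 461) (nat_lit 431) (nat_lit 308))) (XT.nd (nat_lit 78) (nat_lit 152) (nat_lit 0) (XT.lf (nat_lit 0) (nat_lit 37473052980) (nat_lit 152) (nat_lit 67973282318) (nat_lit 76) (nat_lit 73578715184) (nat_lit 68) (nat_lit 5) (nat_lit 70) (nat_lit 5) (nat_lit 69) (nat_lit 5) (nat_lit 462) (nat_lit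 431) (nat_lit 307)) (XT.lf (nat_lit 0) (nat_lit 110084151228) (nat_lit 152) (nat_lit 7459209828) (nat_lit 228) (nat_lit 70730630854) (nat_lit 66) (nat_lit 5) (nat_lit 68) (nat_lit 5) (nat_lit 69) (nat_lit 5) (nat_lit 463) (nat_lit 431) (nat_lit 306))))) (XT.nd (nat_lit 312) (nat_lit 532) (nat_lit 0) (XT.nd (nat_lit 156) (nat_lit 304) (nat_lit 0) (XT.nd (nat_lit 78) (nat_lit 152) (nat_lit 0) (XT.lf (nat_lit 0) (nat_lit 10077440834) (nat_lit 152) (nat_lit 89677530902) (nat_lit 76) (nat_lit 98278121359) (nat_lit 64) (nat_lit 5) (nat_lit 66) (nat_lit 5) (nat_lit 65) (nat_lit 5) (nat_lit 464) (nat_lit 431) (nat_lit 305)) (XT.lf (nat_lit 0) (nat_lit 98198275914) (nat_lit 228) (nat_lit 102314057719) (nat_lit 76) (nat_lit 7836304137) (nat_lit 62) (nat_lit 5) (nat_lit 65) (nat_lit 5) (nat_lit 63) (nat_lit 4) (nat_lit 465) (nat_lit 431) (nat_lit 304))) (XT.nd (nat_lit 78) (nat_lit 228) (nat_lit 0) (XT.lf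 (nat_lit 0) (nat_lit 102774628433) (nat_lit 76) (nat_lit 95467533402) (nat_lit 152) (nat_lit 21003595023) (nat_lit 61) (nat_lit 5) (nat_lit 62) (nat_lit 5) (nat_lit 63) (nat_lit 4) (nat_lit 466) (nat_lit 431) (nat_lit 303)) (XT.lf (nat_lit 0) (nat_lit 76576183938) (nat_lit 228) (nat_lit 132183573880) (nat_lit 76) (nat_lit 22010598168) (nat_lit 58) (nat_lit 5) (nat_lit 61) (nat_lit 5) (nat_lit 59) (nat_lit 4) (nat_lit 467) (nat_lit 431) (nat_lit 302)))) (XT.nd (nat_lit 156) (nat_lit 228) (nat_lit 0) (XT.nd (nat_lit 78) (nat_lit 228) (nat_lit 0) (XT.lf (nat_lit 0) (nat_lit 92866373468) (nat_lit 76) (nat_lit 93490782408) (nat_lit 152) (nat_lit 56586017424) (nat_lit 57) (nat_lit 5) (nat_lit 58) (nat_lit 5) (nat_lit 59) (nat_lit 4) (nat_lit 468) (nat_lit 431) (nat_lit 301)) (XT.lf (nat_lit 0) (nat_lit 51516954571) (nat_lit 228) (nat_lit 169787161021) (nat_lit 76) (nat_lit 34535128403) (nat_lit 54)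 (nat_lit 5) (nat_lit 57) (nat_lit 5) (nat_lit 55) (nat_lit 4) (nat_lit 469) (nat_lit 431) (nat_lit 300))) (XT.nd (nat_lit 78) (nat_lit 152) (nat_lit 0) (XT.lf (nat_lit 0) (nat_lit 76673117628) (nat_lit 76) (nat_lit 95068779386) (nat_lit 152) (nat_lit 97705909822) (nat_lit 53) (nat_lit 5) (nat_lit 54) (nat_lit 5) (nat_lit 55) (nat_lit 4) (nat_lit 470) (nat_lit 431) (nat_lit 299)) (XT.lf (nat_lit 0) (nat_lit 21643727657) (nat_lit 152) (nat_lit 217914702490) (nat_lit 76) (nat_lit 44334903919) (nat_lit 51) (nat_lit 5) (nat_lit 53) (nat_lit 5) (nat_lit 52) (nat_lit 4) (nat_lit 471) (nat_lit 431) (nat_lit 298))))))))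
noncomputable def xc92 : XT := (XT.nd (nat_lit 59358) (nat_lit 0) (nat_lit 4180) (XT.nd (nat_lit 1092) (nat_lit 1216) (nat_lit 0) (XT.nd (nat_lit 546) (nat_lit 684) (nat_lit 0) (XT.nd (nat_lit 234) (nat_lit 380) (nat_lit 0) (XT.nd (nat_lit 78) (nat_lit 228) (nat_lit 0) (XT.lf (nat_lit 0) (nat_lit 51325105181) (nat_lit 76) (nat_lit 101655453915) (nat_lit 152) (nat_lit 146140739485) (nat_lit 50) (nat_lit 5) (nat_lit 51) (nat_lit 5) (nat_lit 52) (nat_lit 4) (nat_lit 472) (nat_lit 431) (nat_lit 297)) (XT.nd (nat_lit 78) (nat_lit 152) (nat_lit 0) (XT.lf (nat_lit 0) (nat_lit 34820603638) (nat_lit 76) (nat_lit 265142914568) (nat_lit 76) (nat_lit 15347023013) (nat_lit 49) (nat_lit 4) (nat_lit 50) (nat_lit 5) (nat_lit 50) (nat_lit 4) (nat_lit 473) (nat_lit 431) (nat_lit 296)) (XT.lf (nat_lit 0) (nat_lit 12979634324) (nat_lit 76) (nat_lit 115203826557) (nat_lit 152) (nat_lit 204198012733) (nat_lit 47)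 (nat_lit 5) (nat_lit 48) (nat_lit 5) (nat_lit 49) (nat_lit 4) (nat_lit 474) (nat_lit 431) (nat_lit 295)))) (XT.nd (nat_lit 156) (nat_lit 228) (nat_lit 0) (XT.nd (nat_lit 78) (nat_lit 152) (nat_lit 0) (XT.lf (nat_lit 0) (nat_lit 288360780973) (nat_lit 152) (nat_lit 11700727659) (nat_lit 0) (nat_lit 50458888336) (nat_lit 47) (nat_lit 5) (nat_lit 49) (nat_lit 4) (nat_lit 47) (nat_lit 4) (nat_lit 475) (nat_lit 431) (nat_lit 294)) (XT.lf (nat_lit 0) (nat_lit 95519370599) (nat_lit 152) (nat_lit 42087647447) (nat_lit 76) (nat_lit 232072297750) (nat_lit 45) (nat_lit 5) (nat_lit 47) (nat_lit 5) (nat_lit 46) (nat_lit 4) (nat_lit 476) (nat_lit 431) (nat_lit 293))) (XT.nd (nat_lit 78) (nat_lit 152) (nat_lit 0) (XT.lf (nat_lit 0) (nat_lit 269449657802) (nat_lit 152) (nat_lit 77704027585) (nat_lit 0) (nat_lit 42875574657) (nat_lit 44) (nat_lit 5) (nat_lit 46) (nat_lit 4) (nat_lit 44) (nat_lit 4) (nat_lit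 477) (nat_lit 431) (nat_lit 292)) (XT.lf (nat_lit 0) (nat_lit 51580453884) (nat_lit 152) (nat_lit 120834531984) (nat_lit 76) (nat_lit 239169723101) (nat_lit 42) (nat_lit 5) (nat_lit 44) (nat_lit 5) (nat_lit 43) (nat_lit 4) (nat_lit 478) (nat_lit 431) (nat_lit 291))))) (XT.nd (nat_lit 234) (nat_lit 380) (nat_lit 0) (XT.nd (nat_lit 78) (nat_lit 228) (nat_lit 0) (XT.lf (nat_lit 0) (nat_lit 239204589886) (nat_lit 152) (nat_lit 171846325253) (nat_lit 0) (nat_lit 23419053075) (nat_lit 41) (nat_lit 5) (nat_lit 43) (nat_lit 4) (nat_lit 41) (nat_lit 4) (nat_lit 479) (nat_lit 431) (nat_lit 290)) (XT.nd (nat_lit 78) (nat_lit 152) (nat_lit 0) (XT.lf (nat_lit 0) (nat_lit 226292455208) (nat_lit 76) (nat_lit 224125243705) (nat_lit 76) (nat_lit 8339397189) (nat_lit 40) (nat_lit 4) (nat_lit 41) (nat_lit 5) (nat_lit 41) (nat_lit 4) (nat_lit 480) (nat_lit 431) (nat_lit 289)) (XT.lf (nat_lit 0) (nat_lit 180279503017)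 (nat_lit 76) (nat_lit 12923246395) (nat_lit 152) (nat_lit 291340529368) (nat_lit 38) (nat_lit 5) (nat_lit 39) (nat_lit 5) (nat_lit 40) (nat_lit 4) (nat_lit 481) (nat_lit 431) (nat_lit 288)))) (XT.nd (nat_lit 156) (nat_lit 152) (nat_lit 0) (XT.nd (nat_lit 78) (nat_lit 152) (nat_lit 0) (XT.lf (nat_lit 0) (nat_lit 122507919270) (nat_lit 76) (nat_lit 297459446864) (nat_lit 76) (nat_lit 91948590864) (nat_lit 37) (nat_lit 4) (nat_lit 38) (nat_lit 5) (nat_lit 38) (nat_lit 4) (nat_lit 482) (nat_lit 431) (nat_lit 287)) (XT.lf (nat_lit 0) (nat_lit 52521640135) (nat_lit 76) (nat_lit 73347984392) (nat_lit 152) (nat_lit 415191281952) (nat_lit 35) (nat_lit 5) (nat_lit 36) (nat_lit 5) (nat_lit 37) (nat_lit 4) (nat_lit 483) (nat_lit 431) (nat_lit 286))) (XT.nd (nat_lit 78) (nat_lit 152) (nat_lit 0) (XT.lf (nat_lit 0) (nat_lit 367462587043) (nat_lit 152) (nat_lit 32783428349) (nat_lit 0) (nat_lit 171737532806)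 (nat_lit 35) (nat_lit 5) (nat_lit 37) (nat_lit 4) (nat_lit 35) (nat_lit 4) (nat_lit 484) (nat_lit 431) (nat_lit 285)) (XT.lf (nat_lit 0) (nat_lit 31034684204) (nat_lit 152) (nat_lit 132104142801) (nat_lit 76) (nat_lit 441784820296) (nat_lit 33) (nat_lit 5) (nat_lit 35) (nat_lit 5) (nat_lit 34) (nat_lit 4) (nat_lit 485) (nat_lit 431) (nat_lit 284)))))) (XT.nd (nat_lit 546) (nat_lit 608) (nat_lit 0) (XT.nd (nat_lit 234) (nat_lit 304) (nat_lit 0) (XT.nd (nat_lit 78) (nat_lit 228) (nat_lit 0) (XT.lf (nat_lit 0) (nat_lit 286627913950) (nat_lit 152) (nat_lit 253062722989) (nat_lit 0) (nat_lit 100222749719) (nat_lit 32) (nat_lit 5) (nat_lit 34) (nat_lit 4) (nat_lit 32) (nat_lit 4) (nat_lit 486) (nat_lit 431) (nat_lit 283)) (XT.nd (nat_lit 78) (nat_lit 152) (nat_lit 0) (XT.lf (nat_lit 0) (nat_lit 280644901833) (nat_lit 76) (nat_lit 291494589601) (nat_lit 76) (nat_lit 105089269267) (nat_lit 31) (nat_lit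 4) (nat_lit 32) (nat_lit 5) (nat_lit 32) (nat_lit 4) (nat_lit 487) (nat_lit 431) (nat_lit 282)) (XT.lf (nat_lit 0) (nat_lit 150992170015) (nat_lit 76) (nat_lit 13592042126) (nat_lit 152) (nat_lit 552476067185) (nat_lit 29) (nat_lit 5) (nat_lit 30) (nat_lit 5) (nat_lit 31) (nat_lit 4) (nat_lit 488) (nat_lit 431) (nat_lit 281)))) (XT.nd (nat_lit 156) (nat_lit 228) (nat_lit 0) (XT.nd (nat_lit 78) (nat_lit 76) (nat_lit 0) (XT.lf (nat_lit 0) (nat_lit 463693748997) (nat_lit 152) (nat_lit 9556624680) (nat_lit 0) (nat_lit 286164607370) (nat_lit 29) (nat_lit 5) (nat_lit 31) (nat_lit 4) (nat_lit 29) (nat_lit 4) (nat_lit 489) (nat_lit 431) (nat_lit 280)) (XT.lf (nat_lit 0) (nat_lit 610795015239) (nat_lit 76) (nat_lit 185702026827) (nat_lit 76) (nat_lit 8172767181) (nat_lit 28) (nat_lit 4) (nat_lit 29) (nat_lit 5) (nat_lit 29) (nat_lit 4) (nat_lit 490) (nat_lit 431) (nat_lit 279))) (XT.nd (nat_lit 78) (nat_lit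 76) (nat_lit 0) (XT.lf (nat_lit 0) (nat_lit 301831804132) (nat_lit 152) (nat_lit 418264442060) (nat_lit 0) (nat_lit 132756214682) (nat_lit 26) (nat_lit 5) (nat_lit 28) (nat_lit 4) (nat_lit 26) (nat_lit 4) (nat_lit 491) (nat_lit 431) (nat_lit 278)) (XT.lf (nat_lit 0) (nat_lit 219221417759) (nat_lit 76) (nat_lit 427118899109) (nat_lit 76) (nat_lit 258043213294) (nat_lit 25) (nat_lit 4) (nat_lit 26) (nat_lit 5) (nat_lit 26) (nat_lit 4) (nat_lit 492) (nat_lit 431) (nat_lit 277))))) (XT.nd (nat_lit 312) (nat_lit 228) (nat_lit 0) (XT.nd (nat_lit 156) (nat_lit 228) (nat_lit 0) (XT.nd (nat_lit 78) (nat_lit 76) (nat_lit 0) (XT.lf (nat_lit 0) (nat_lit 63909100496) (nat_lit 152) (nat_lit 38062119023) (nat_lit 76) (nat_lit 857650049768) (nat_lit 24) (nat_lit 5) (nat_lit 26) (nat_lit 5) (nat_lit 25) (nat_lit 4) (nat_lit 493) (nat_lit 431) (nat_lit 276)) (XT.lf (nat_lit 0) (nat_lit 417420926378) (nat_lit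 152) (nat_lit 344507095089) (nat_lit 0) (nat_lit 256396300037) (nat_lit 23) (nat_lit 5) (nat_lit 25) (nat_lit 4) (nat_lit 23) (nat_lit 4) (nat_lit 494) (nat_lit 431) (nat_lit 275))) (XT.nd (nat_lit 78) (nat_lit 152) (nat_lit 0) (XT.lf (nat_lit 0) (nat_lit 372507216085) (nat_lit 76) (nat_lit 434915329329) (nat_lit 76) (nat_lit 273890630134) (nat_lit 22) (nat_lit 4) (nat_lit 23) (nat_lit 5) (nat_lit 23) (nat_lit 4) (nat_lit 495) (nat_lit 431) (nat_lit 274)) (XT.lf (nat_lit 0) (nat_lit 9098142097) (nat_lit 76) (nat_lit 73888642658) (nat_lit 152) (nat_lit 1065980402306) (nat_lit 20) (nat_lit 5) (nat_lit 21) (nat_lit 5) (nat_lit 22) (nat_lit 4) (nat_lit 496) (nat_lit 431) (nat_lit 273)))) (XT.nd (nat_lit 156) (nat_lit 152) (nat_lit 0) (XT.nd (nat_lit 78) (nat_lit 76) (nat_lit 0) (XT.lf (nat_lit 0) (nat_lit 476429874412) (nat_lit 152) (nat_lit 421425686512) (nat_lit 0) (nat_lit 323072894304) (nat_lit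 20) (nat_lit 5) (nat_lit 22) (nat_lit 4) (nat_lit 20) (nat_lit 4) (nat_lit 497) (nat_lit 431) (nat_lit 272)) (XT.lf (nat_lit 0) (nat_lit 364926568427) (nat_lit 76) (nat_lit 543364967684) (nat_lit 76) (nat_lit 390007932496) (nat_lit 19) (nat_lit 4) (nat_lit 20) (nat_lit 5) (nat_lit 20) (nat_lit 4) (nat_lit 498) (nat_lit 431) (nat_lit 271))) (XT.nd (nat_lit 78) (nat_lit 76) (nat_lit 0) (XT.lf (nat_lit 0) (nat_lit 532086050) (nat_lit 152) (nat_lit 152266309784) (nat_lit 76) (nat_lit 1228694304239) (nat_lit 18) (nat_lit 5) (nat_lit 20) (nat_lit 5) (nat_lit 19) (nat_lit 4) (nat_lit 499) (nat_lit 431) (nat_lit 270)) (XT.lf (nat_lit 0) (nat_lit 424367032964) (nat_lit 152) (nat_lit 767556273017) (nat_lit 0) (nat_lit 278312620192) (nat_lit 17) (nat_lit 5) (nat_lit 19) (nat_lit 4) (nat_lit 17) (nat_lit 4) (nat_lit 500) (nat_lit 431) (nat_lit 269))))))) (XT.nd (nat_lit 1170) (nat_lit 3116) (nat_lit 0)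 (XT.nd (nat_lit 546) (nat_lit 2584) (nat_lit 0) (XT.nd (nat_lit 234) (nat_lit 0) (nat_lit 152) (XT.nd (nat_lit 78) (nat_lit 0) (nat_lit 76) (XT.lf (nat_lit 0) (nat_lit 9714774034) (nat_lit 836) (nat_lit 7061006963) (nat_lit 836) (nat_lit 7061006963) (nat_lit 147) (nat_lit 3) (nat_lit 158) (nat_lit 3) (nat_lit 158) (nat_lit 5) (nat_lit 432) (nat_lit 432) (nat_lit 336)) (XT.nd (nat_lit 78) (nat_lit 0) (nat_lit 0) (XT.lf (nat_lit 0) (nat_lit 20693807071) (nat_lit 760) (nat_lit 25127977087) (nat_lit 836) (nat_lit 3734374068) (nat_lit 148) (nat_lit 5) (nat_lit 158) (nat_lit 5) (nat_lit 159) (nat_lit 5) (nat_lit 433) (nat_lit 432) (nat_lit 335)) (XT.lf (nat_lit 76) (nat_lit 14893890727) (nat_lit 0) (nat_lit 8209167172) (nat_lit 836) (nat_lit 28434097349) (nat_lit 149) (nat_lit 5) (nat_lit 148) (nat_lit 5) (nat_lit 159) (nat_lit 5) (nat_lit 434) (nat_lit 432) (nat_lit 334)))) (XT.nd (nat_lit 156) (nat_lit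 0) (nat_lit 152) (XT.nd (nat_lit 78) (nat_lit 0) (nat_lit 76) (XT.lf (nat_lit 76) (nat_lit 5004226684) (nat_lit 0) (nat_lit 21725751391) (nat_lit 836) (nat_lit 26895408132) (nat_lit 150) (nat_lit 5) (nat_lit 149) (nat_lit 5) (nat_lit 160) (nat_lit 5) (nat_lit 435) (nat_lit 432) (nat_lit 333)) (XT.lf (nat_lit 0) (nat_lit 31725689279) (nat_lit 760) (nat_lit 5003794993) (nat_lit 836) (nat_lit 19097260088) (nat_lit 150) (nat_lit 5) (nat_lit 160) (nat_lit 5) (nat_lit 161) (nat_lit 5) (nat_lit 436) (nat_lit 432) (nat_lit 332))) (XT.nd (nat_lit 78) (nat_lit 0) (nat_lit 0) (XT.lf (nat_lit 0) (nat_lit 38234343431) (nat_lit 760) (nat_lit 15115939442) (nat_lit 836) (nat_lit 4798264535) (nat_lit 151) (nat_lit 5) (nat_lit 161) (nat_lit 5) (nat_lit 162) (nat_lit 5) (nat_lit 437) (nat_lit 432) (nat_lit 331)) (XT.lf (nat_lit 76) (nat_lit 34933473485) (nat_lit 0) (nat_lit 11580211315) (nat_lit 836) (nat_lit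 14079910662) (nat_lit 152) (nat_lit 5) (nat_lit 151) (nat_lit 5) (nat_lit 162) (nat_lit 5) (nat_lit 438) (nat_lit 432) (nat_lit 330))))) (XT.nd (nat_lit 312) (nat_lit 988) (nat_lit 0) (XT.nd (nat_lit 156) (nat_lit 760) (nat_lit 0) (XT.nd (nat_lit 78) (nat_lit 456) (nat_lit 0) (XT.lf (nat_lit 0) (nat_lit 26627164380) (nat_lit 760) (nat_lit 30031961954) (nat_lit 836) (nat_lit 6514933853) (nat_lit 142) (nat_lit 5) (nat_lit 152) (nat_lit 5) (nat_lit 153) (nat_lit 5) (nat_lit 439) (nat_lit 432) (nat_lit 329)) (XT.lf (nat_lit 0) (nat_lit 2784866276) (nat_lit 456) (nat_lit 47727204141) (nat_lit 76) (nat_lit 15388469776) (nat_lit 136) (nat_lit 5) (nat_lit 142) (nat_lit 5) (nat_lit 137) (nat_lit 5) (nat_lit 440) (nat_lit 432) (nat_lit 328))) (XT.nd (nat_lit 78) (nat_lit 380) (nat_lit 0) (XT.lf (nat_lit 0) (nat_lit 9435489014) (nat_lit 380) (nat_lit 4465933884) (nat_lit 456) (nat_lit 54873324773) (nat_lit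 131) (nat_lit 5) (nat_lit 136) (nat_lit 5) (nat_lit 137) (nat_lit 5) (nat_lit 441) (nat_lit 432) (nat_lit 327)) (XT.lf (nat_lit 0) (nat_lit 325501268) (nat_lit 380) (nat_lit 27135956950) (nat_lit 456) (nat_lit 44339726175) (nat_lit 126) (nat_lit 5) (nat_lit 131) (nat_lit 5) (nat_lit 132) (nat_lit 5) (nat_lit 442) (nat_lit 432) (nat_lit 326)))) (XT.nd (nat_lit 156) (nat_lit 684) (nat_lit 0) (XT.nd (nat_lit 78) (nat_lit 304) (nat_lit 0) (XT.lf (nat_lit 0) (nat_lit 43579872437) (nat_lit 456) (nat_lit 8580819475) (nat_lit 76) (nat_lit 22835365665) (nat_lit 126) (nat_lit 5) (nat_lit 132) (nat_lit 5) (nat_lit 127) (nat_lit 5) (nat_lit 443) (nat_lit 432) (nat_lit 325)) (XT.lf (nat_lit 0) (nat_lit 60832509048) (nat_lit 304) (nat_lit 1560282120) (nat_lit 380) (nat_lit 15983478182) (nat_lit 122) (nat_lit 5) (nat_lit 126) (nat_lit 5) (nat_lit 127) (nat_lit 5) (nat_lit 444) (nat_lit 432) (nat_lit 324)))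 (XT.nd (nat_lit 78) (nat_lit 304) (nat_lit 0) (XT.lf (nat_lit 0) (nat_lit 2529592455) (nat_lit 380) (nat_lit 26963052188) (nat_lit 76) (nat_lit 52440338130) (nat_lit 117) (nat_lit 5) (nat_lit 122) (nat_lit 5) (nat_lit 118) (nat_lit 5) (nat_lit 445) (nat_lit 432) (nat_lit 323)) (XT.lf (nat_lit 0) (nat_lit 23489253980) (nat_lit 380) (nat_lit 36685890450) (nat_lit 76) (nat_lit 25509711454) (nat_lit 113) (nat_lit 5) (nat_lit 118) (nat_lit 5) (nat_lit 114) (nat_lit 5) (nat_lit 446) (nat_lit 432) (nat_lit 322)))))) (XT.nd (nat_lit 546) (nat_lit 1368) (nat_lit 0) (XT.nd (nat_lit 234) (nat_lit 912) (nat_lit 0) (XT.nd (nat_lit 78) (nat_lit 532) (nat_lit 0) (XT.lf (nat_lit 0) (nat_lit 43161310789) (nat_lit 304) (nat_lit 4610953220) (nat_lit 380) (nat_lit 41882286285) (nat_lit 109) (nat_lit 5) (nat_lit 113) (nat_lit 5) (nat_lit 114) (nat_lit 5) (nat_lit 447) (nat_lit 432) (nat_lit 321)) (XT.nd (nat_lit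 78) (nat_lit 304) (nat_lit 0) (XT.lf (nat_lit 0) (nat_lit 37106203240) (nat_lit 228) (nat_lit 38983616151) (nat_lit 304) (nat_lit 17747405852) (nat_lit 106) (nat_lit 5) (nat_lit 109) (nat_lit 5) (nat_lit 110) (nat_lit 5) (nat_lit 448) (nat_lit 432) (nat_lit 320)) (XT.lf (nat_lit 0) (nat_lit 9788103463) (nat_lit 304) (nat_lit 67097703888) (nat_lit 76) (nat_lit 21375409708) (nat_lit 102) (nat_lit 5) (nat_lit 106) (nat_lit 5) (nat_lit 103) (nat_lit 5) (nat_lit 449) (nat_lit 432) (nat_lit 319)))) (XT.nd (nat_lit 156) (nat_lit 456) (nat_lit 0) (XT.nd (nat_lit 78) (nat_lit 228) (nat_lit 0) (XT.lf (nat_lit 0) (nat_lit 24949067992) (nat_lit 228) (nat_lit 16013480894) (nat_lit 304) (nat_lit 61959138552) (nat_lit 99) (nat_lit 5) (nat_lit 102) (nat_lit 5) (nat_lit 103) (nat_lit 5) (nat_lit 450) (nat_lit 432) (nat_lit 318)) (XT.lf (nat_lit 0) (nat_lit 18658306627) (nat_lit 228) (nat_lit 58226682100) (nat_lit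 304) (nat_lit 30957304943) (nat_lit 96) (nat_lit 5) (nat_lit 99) (nat_lit 5) (nat_lit 100) (nat_lit 5) (nat_lit 451) (nat_lit 432) (nat_lit 317))) (XT.nd (nat_lit 78) (nat_lit 228) (nat_lit 0) (XT.lf (nat_lit 0) (nat_lit 4425195544) (nat_lit 228) (nat_lit 100404018903) (nat_lit 76) (nat_lit 8226296956) (nat_lit 93) (nat_lit 5) (nat_lit 96) (nat_lit 5) (nat_lit 94) (nat_lit 5) (nat_lit 452) (nat_lit 432) (nat_lit 316)) (XT.lf (nat_lit 0) (nat_lit 5866641853) (nat_lit 228) (nat_lit 38352457022) (nat_lit 304) (nat_lit 74308043169) (nat_lit 90) (nat_lit 5) (nat_lit 93) (nat_lit 5) (nat_lit 94) (nat_lit 5) (nat_lit 453) (nat_lit 432) (nat_lit 315))))) (XT.nd (nat_lit 312) (nat_lit 760) (nat_lit 0) (XT.nd (nat_lit 156) (nat_lit 380) (nat_lit 0) (XT.nd (nat_lit 78) (nat_lit 228) (nat_lit 0) (XT.lf (nat_lit 0) (nat_lit 89494852785) (nat_lit 304) (nat_lit 677752273) (nat_lit 76) (nat_lit 34148981285)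 (nat_lit 90) (nat_lit 5) (nat_lit 94) (nat_lit 5) (nat_lit 91) (nat_lit 5) (nat_lit 454) (nat_lit 432) (nat_lit 314)) (XT.lf (nat_lit 0) (nat_lit 10179854177) (nat_lit 228) (nat_lit 7045195981) (nat_lit 76) (nat_lit 113217594895) (nat_lit 87) (nat_lit 5) (nat_lit 90) (nat_lit 5) (nat_lit 88) (nat_lit 5) (nat_lit 455) (nat_lit 432) (nat_lit 313))) (XT.nd (nat_lit 78) (nat_lit 152) (nat_lit 0) (XT.lf (nat_lit 0) (nat_lit 60528364054) (nat_lit 304) (nat_lit 14188384052) (nat_lit 76) (nat_lit 62160016238) (nat_lit 84) (nat_lit 5) (nat_lit 88) (nat_lit 5) (nat_lit 85) (nat_lit 5) (nat_lit 456) (nat_lit 432) (nat_lit 312)) (XT.lf (nat_lit 0) (nat_lit 117325024938) (nat_lit 228) (nat_lit 20926025036) (nat_lit 76) (nat_lit 5453549785) (nat_lit 82) (nat_lit 5) (nat_lit 85) (nat_lit 5) (nat_lit 83) (nat_lit 5) (nat_lit 457) (nat_lit 432) (nat_lit 311)))) (XT.nd (nat_lit 156) (nat_lit 380) (nat_lit 0)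 (XT.nd (nat_lit 78) (nat_lit 152) (nat_lit 0) (XT.lf (nat_lit 0) (nat_lit 30187254419) (nat_lit 228) (nat_lit 28586185191) (nat_lit 76) (nat_lit 92109514838) (nat_lit 79) (nat_lit 5) (nat_lit 82) (nat_lit 5) (nat_lit 80) (nat_lit 5) (nat_lit 458) (nat_lit 432) (nat_lit 310)) (XT.lf (nat_lit 0) (nat_lit 93117957557) (nat_lit 228) (nat_lit 36388563234) (nat_lit 76) (nat_lit 28969297226) (nat_lit 77) (nat_lit 5) (nat_lit 80) (nat_lit 5) (nat_lit 78) (nat_lit 5) (nat_lit 459) (nat_lit 432) (nat_lit 309))) (XT.nd (nat_lit 78) (nat_lit 228) (nat_lit 0) (XT.lf (nat_lit 0) (nat_lit 122090770024) (nat_lit 152) (nat_lit 42394573414) (nat_lit 228) (nat_lit 2020655978) (nat_lit 75) (nat_lit 5) (nat_lit 77) (nat_lit 5) (nat_lit 78) (nat_lit 5) (nat_lit 460) (nat_lit 432) (nat_lit 308)) (XT.lf (nat_lit 0) (nat_lit 67676744928) (nat_lit 228) (nat_lit 53599381622) (nat_lit 76) (nat_lit 53679751823) (nat_lit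 72) (nat_lit 5) (nat_lit 75) (nat_lit 5) (nat_lit 73) (nat_lit 5) (nat_lit 461) (nat_lit 432) (nat_lit 307))))))))
noncomputable def xc93 : XT := (XT.nd (nat_lit 2340) (nat_lit 760) (nat_lit 0) (XT.nd (nat_lit 1170) (nat_lit 1444) (nat_lit 0) (XT.nd (nat_lit 546) (nat_lit 836) (nat_lit 0) (XT.nd (nat_lit 234) (nat_lit 608) (nat_lit 0) (XT.nd (nat_lit 78) (nat_lit 304) (nat_lit 0) (XT.lf (nat_lit 0) (nat_lit 121043720146) (nat_lit 152) (nat_lit 25226399748) (nat_lit 228) (nat_lit 37640422737) (nat_lit 70) (nat_lit 5) (nat_lit 72) (nat_lit 5) (nat_lit 73) (nat_lit 5) (nat_lit 462) (nat_lit 432) (nat_lit 306)) (XT.nd (nat_lit 78) (nat_lit 152) (nat_lit 0) (XT.lf (nat_lit 0) (nat_lit 40490939485) (nat_lit 152) (nat_lit 73375402873) (nat_lit 76) (nat_lit 79479709074) (nat_lit 68) (nat_lit 5) (nat_lit 70) (nat_lit 5) (nat_lit 69) (nat_lit 5) (nat_lit 463) (nat_lit 432) (nat_lit 305)) (XT.lf (nat_lit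 0) (nat_lit 118925072051) (nat_lit 152) (nat_lit 8040849325) (nat_lit 228) (nat_lit 76369034412) (nat_lit 66) (nat_lit 5) (nat_lit 68) (nat_lit 5) (nat_lit 69) (nat_lit 5) (nat_lit 464) (nat_lit 432) (nat_lit 304)))) (XT.nd (nat_lit 156) (nat_lit 304) (nat_lit 0) (XT.nd (nat_lit 78) (nat_lit 152) (nat_lit 0) (XT.lf (nat_lit 0) (nat_lit 10902355665) (nat_lit 152) (nat_lit 96817722216) (nat_lit 76) (nat_lit 106154725887) (nat_lit 64) (nat_lit 5) (nat_lit 66) (nat_lit 5) (nat_lit 65) (nat_lit 5) (nat_lit 465) (nat_lit 432) (nat_lit 303)) (XT.lf (nat_lit 0) (nat_lit 106072208236) (nat_lit 228) (nat_lit 110465985868) (nat_lit 76) (nat_lit 8477430437) (nat_lit 62) (nat_lit 5) (nat_lit 65) (nat_lit 5) (nat_lit 63) (nat_lit 4) (nat_lit 466) (nat_lit 432) (nat_lit 302))) (XT.nd (nat_lit 78) (nat_lit 228) (nat_lit 0) (XT.lf (nat_lit 0) (nat_lit 111028352497) (nat_lit 76) (nat_lit 103090409762) (nat_lit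 152) (nat_lit 22665793091) (nat_lit 61) (nat_lit 5) (nat_lit 62) (nat_lit 5) (nat_lit 63) (nat_lit 4) (nat_lit 467) (nat_lit 432) (nat_lit 301)) (XT.lf (nat_lit 0) (nat_lit 82719197207) (nat_lit 228) (nat_lit 142726718323) (nat_lit 76) (nat_lit 23785222405) (nat_lit 58) (nat_lit 5) (nat_lit 61) (nat_lit 5) (nat_lit 59) (nat_lit 4) (nat_lit 468) (nat_lit 432) (nat_lit 300))))) (XT.nd (nat_lit 312) (nat_lit 304) (nat_lit 0) (XT.nd (nat_lit 156) (nat_lit 228) (nat_lit 0) (XT.nd (nat_lit 78) (nat_lit 228) (nat_lit 0) (XT.lf (nat_lit 0) (nat_lit 100325854060) (nat_lit 76) (nat_lit 100956010664) (nat_lit 152) (nat_lit 61095955064) (nat_lit 57) (nat_lit 5) (nat_lit 58) (nat_lit 5) (nat_lit 59) (nat_lit 4) (nat_lit 469) (nat_lit 432) (nat_lit 299)) (XT.lf (nat_lit 0) (nat_lit 55654170567) (nat_lit 228) (nat_lit 183340186793) (nat_lit 76) (nat_lit 37311232682) (nat_lit 54) (nat_lit 5) (nat_lit 57) (nat_lit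 5) (nat_lit 55) (nat_lit 4) (nat_lit 470) (nat_lit 432) (nat_lit 298))) (XT.nd (nat_lit 78) (nat_lit 152) (nat_lit 0) (XT.lf (nat_lit 0) (nat_lit 82835612683) (nat_lit 76) (nat_lit 102660768173) (nat_lit 152) (nat_lit 105506493467) (nat_lit 53) (nat_lit 5) (nat_lit 54) (nat_lit 5) (nat_lit 55) (nat_lit 4) (nat_lit 471) (nat_lit 432) (nat_lit 297)) (XT.lf (nat_lit 0) (nat_lit 23390108819) (nat_lit 152) (nat_lit 235319463107) (nat_lit 76) (nat_lit 47894484316) (nat_lit 51) (nat_lit 5) (nat_lit 53) (nat_lit 5) (nat_lit 52) (nat_lit 4) (nat_lit 472) (nat_lit 432) (nat_lit 296)))) (XT.nd (nat_lit 156) (nat_lit 152) (nat_lit 0) (XT.nd (nat_lit 78) (nat_lit 76) (nat_lit 0) (XT.lf (nat_lit 0) (nat_lit 55458294270) (nat_lit 76) (nat_lit 109774914428) (nat_lit 152) (nat_lit 157817083153) (nat_lit 50) (nat_lit 5) (nat_lit 51) (nat_lit 5) (nat_lit 52) (nat_lit 4) (nat_lit 473) (nat_lit 432) (nat_lit 295))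 (XT.lf (nat_lit 0) (nat_lit 37632737314) (nat_lit 76) (nat_lit 286341616104) (nat_lit 76) (nat_lit 16560343067) (nat_lit 49) (nat_lit 4) (nat_lit 50) (nat_lit 5) (nat_lit 50) (nat_lit 4) (nat_lit 474) (nat_lit 432) (nat_lit 294))) (XT.nd (nat_lit 78) (nat_lit 0) (nat_lit 0) (XT.lf (nat_lit 0) (nat_lit 14043781885) (nat_lit 76) (nat_lit 124407702351) (nat_lit 152) (nat_lit 220519839639) (nat_lit 47) (nat_lit 5) (nat_lit 48) (nat_lit 5) (nat_lit 49) (nat_lit 4) (nat_lit 475) (nat_lit 432) (nat_lit 293)) (XT.lf (nat_lit 0) (nat_lit 311442181004) (nat_lit 152) (nat_lit 12612479973) (nat_lit 0) (nat_lit 54506740590) (nat_lit 47) (nat_lit 5) (nat_lit 49) (nat_lit 4) (nat_lit 47) (nat_lit 4) (nat_lit 476) (nat_lit 432) (nat_lit 292)))))) (XT.nd (nat_lit 546) (nat_lit 684) (nat_lit 0) (XT.nd (nat_lit 234) (nat_lit 380) (nat_lit 0) (XT.nd (nat_lit 78) (nat_lit 228) (nat_lit 0) (XT.lf (nat_lit 0) (nat_lit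 103173088595) (nat_lit 152) (nat_lit 45431007060) (nat_lit 76) (nat_lit 250648956739) (nat_lit 45) (nat_lit 5) (nat_lit 47) (nat_lit 5) (nat_lit 46) (nat_lit 4) (nat_lit 477) (nat_lit 432) (nat_lit 291)) (XT.nd (nat_lit 78) (nat_lit 152) (nat_lit 0) (XT.lf (nat_lit 0) (nat_lit 291017422449) (nat_lit 152) (nat_lit 83897316069) (nat_lit 0) (nat_lit 46316272500) (nat_lit 44) (nat_lit 5) (nat_lit 46) (nat_lit 4) (nat_lit 44) (nat_lit 4) (nat_lit 478) (nat_lit 432) (nat_lit 290)) (XT.lf (nat_lit 0) (nat_lit 55718337563) (nat_lit 152) (nat_lit 130478883133) (nat_lit 76) (nat_lit 258313692419) (nat_lit 42) (nat_lit 5) (nat_lit 44) (nat_lit 5) (nat_lit 43) (nat_lit 4) (nat_lit 479) (nat_lit 432) (nat_lit 289)))) (XT.nd (nat_lit 156) (nat_lit 228) (nat_lit 0) (XT.nd (nat_lit 78) (nat_lit 76) (nat_lit 0) (XT.lf (nat_lit 0) (nat_lit 258352055177) (nat_lit 152) (nat_lit 185572210930) (nat_lit 0) (nat_lit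 25302744472) (nat_lit 41) (nat_lit 5) (nat_lit 43) (nat_lit 4) (nat_lit 41) (nat_lit 4) (nat_lit 480) (nat_lit 432) (nat_lit 288)) (XT.lf (nat_lit 0) (nat_lit 244416723683) (nat_lit 76) (nat_lit 242044993033) (nat_lit 76) (nat_lit 8995416806) (nat_lit 40) (nat_lit 4) (nat_lit 41) (nat_lit 5) (nat_lit 41) (nat_lit 4) (nat_lit 481) (nat_lit 432) (nat_lit 287))) (XT.nd (nat_lit 78) (nat_lit 76) (nat_lit 0) (XT.lf (nat_lit 0) (nat_lit 194722169215) (nat_lit 76) (nat_lit 13947094830) (nat_lit 152) (nat_lit 314636962151) (nat_lit 38) (nat_lit 5) (nat_lit 39) (nat_lit 5) (nat_lit 40) (nat_lit 4) (nat_lit 482) (nat_lit 432) (nat_lit 286)) (XT.lf (nat_lit 0) (nat_lit 132328319295) (nat_lit 76) (nat_lit 321246421578) (nat_lit 76) (nat_lit 99293993271) (nat_lit 37) (nat_lit 4) (nat_lit 38) (nat_lit 5) (nat_lit 38) (nat_lit 4) (nat_lit 483) (nat_lit 432) (nat_lit 285))))) (XT.nd (nat_lit 312) (nat_lit 304)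 (nat_lit 0) (XT.nd (nat_lit 156) (nat_lit 228) (nat_lit 0) (XT.nd (nat_lit 78) (nat_lit 0) (nat_lit 0) (XT.lf (nat_lit 0) (nat_lit 56742599928) (nat_lit 76) (nat_lit 79206292255) (nat_lit 152) (nat_lit 448396401805) (nat_lit 35) (nat_lit 5) (nat_lit 36) (nat_lit 5) (nat_lit 37) (nat_lit 4) (nat_lit 484) (nat_lit 432) (nat_lit 284)) (XT.lf (nat_lit 0) (nat_lit 396868711134) (nat_lit 152) (nat_lit 35387987072) (nat_lit 0) (nat_lit 185485077875) (nat_lit 35) (nat_lit 5) (nat_lit 37) (nat_lit 4) (nat_lit 35) (nat_lit 4) (nat_lit 485) (nat_lit 432) (nat_lit 283))) (XT.nd (nat_lit 78) (nat_lit 76) (nat_lit 0) (XT.lf (nat_lit 0) (nat_lit 33526314196) (nat_lit 152) (nat_lit 142654853063) (nat_lit 76) (nat_lit 477135928961) (nat_lit 33) (nat_lit 5) (nat_lit 35) (nat_lit 5) (nat_lit 34) (nat_lit 4) (nat_lit 486) (nat_lit 432) (nat_lit 282)) (XT.lf (nat_lit 0) (nat_lit 309566740573) (nat_lit 152) (nat_lit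 273290593280) (nat_lit 0) (nat_lit 108248693968) (nat_lit 32) (nat_lit 5) (nat_lit 34) (nat_lit 4) (nat_lit 32) (nat_lit 4) (nat_lit 487) (nat_lit 432) (nat_lit 281)))) (XT.nd (nat_lit 156) (nat_lit 76) (nat_lit 0) (XT.nd (nat_lit 78) (nat_lit 152) (nat_lit 0) (XT.lf (nat_lit 0) (nat_lit 303112896317) (nat_lit 76) (nat_lit 314805967470) (nat_lit 76) (nat_lit 113487787031) (nat_lit 31) (nat_lit 4) (nat_lit 32) (nat_lit 5) (nat_lit 32) (nat_lit 4) (nat_lit 488) (nat_lit 432) (nat_lit 280)) (XT.lf (nat_lit 0) (nat_lit 163087497227) (nat_lit 76) (nat_lit 14671430375) (nat_lit 152) (nat_lit 596665775067) (nat_lit 29) (nat_lit 5) (nat_lit 30) (nat_lit 5) (nat_lit 31) (nat_lit 4) (nat_lit 489) (nat_lit 432) (nat_lit 279))) (XT.nd (nat_lit 78) (nat_lit 76) (nat_lit 0) (XT.lf (nat_lit 0) (nat_lit 500796751698) (nat_lit 152) (nat_lit 10306128637) (nat_lit 0) (nat_lit 309064923984) (nat_lit 29) (nat_lit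 5) (nat_lit 31) (nat_lit 4) (nat_lit 29) (nat_lit 4) (nat_lit 490) (nat_lit 432) (nat_lit 278)) (XT.lf (nat_lit 0) (nat_lit 659672989462) (nat_lit 76) (nat_lit 200550987391) (nat_lit 76) (nat_lit 8819058495) (nat_lit 28) (nat_lit 4) (nat_lit 29) (nat_lit 5) (nat_lit 29) (nat_lit 4) (nat_lit 491) (nat_lit 432) (nat_lit 277))))))) (XT.nd (nat_lit 58344) (nat_lit 0) (nat_lit 5700) (XT.nd (nat_lit 546) (nat_lit 152) (nat_lit 0) (XT.nd (nat_lit 234) (nat_lit 304) (nat_lit 0) (XT.nd (nat_lit 78) (nat_lit 152) (nat_lit 0) (XT.lf (nat_lit 0) (nat_lit 325985425306) (nat_lit 152) (nat_lit 451711379502) (nat_lit 0) (nat_lit 143383499035) (nat_lit 26) (nat_lit 5) (nat_lit 28) (nat_lit 4) (nat_lit 26) (nat_lit 4) (nat_lit 492) (nat_lit 432) (nat_lit 276)) (XT.nd (nat_lit 78) (nat_lit 76) (nat_lit 0) (XT.lf (nat_lit 0) (nat_lit 236772731209) (nat_lit 76) (nat_lit 461281575976) (nat_lit 76) (nat_lit 278679567089)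 (nat_lit 25) (nat_lit 4) (nat_lit 26) (nat_lit 5) (nat_lit 26) (nat_lit 4) (nat_lit 493) (nat_lit 432) (nat_lit 275)) (XT.lf (nat_lit 0) (nat_lit 69028195128) (nat_lit 152) (nat_lit 41094285370) (nat_lit 76) (nat_lit 926268171955) (nat_lit 24) (nat_lit 5) (nat_lit 26) (nat_lit 5) (nat_lit 25) (nat_lit 4) (nat_lit 494) (nat_lit 432) (nat_lit 274)))) (XT.nd (nat_lit 156) (nat_lit 152) (nat_lit 0) (XT.nd (nat_lit 78) (nat_lit 76) (nat_lit 0) (XT.lf (nat_lit 0) (nat_lit 450820782872) (nat_lit 152) (nat_lit 372055207761) (nat_lit 0) (nat_lit 276913967429) (nat_lit 23) (nat_lit 5) (nat_lit 25) (nat_lit 4) (nat_lit 23) (nat_lit 4) (nat_lit 495) (nat_lit 432) (nat_lit 273)) (XT.lf (nat_lit 0) (nat_lit 402319707031) (nat_lit 76) (nat_lit 469702552450) (nat_lit 76) (nat_lit 295795674547) (nat_lit 22) (nat_lit 4) (nat_lit 23) (nat_lit 5) (nat_lit 23) (nat_lit 4) (nat_lit 496) (nat_lit 432) (nat_lit 272)))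 (XT.nd (nat_lit 78) (nat_lit 0) (nat_lit 0) (XT.lf (nat_lit 0) (nat_lit 9837579406) (nat_lit 76) (nat_lit 79793891395) (nat_lit 152) (nat_lit 1151252804026) (nat_lit 20) (nat_lit 5) (nat_lit 21) (nat_lit 5) (nat_lit 22) (nat_lit 4) (nat_lit 497) (nat_lit 432) (nat_lit 271)) (XT.lf (nat_lit 0) (nat_lit 514549666667) (nat_lit 152) (nat_lit 455128832247) (nat_lit 0) (nat_lit 348923962584) (nat_lit 20) (nat_lit 5) (nat_lit 22) (nat_lit 4) (nat_lit 20) (nat_lit 4) (nat_lit 498) (nat_lit 432) (nat_lit 270))))) (XT.nd (nat_lit 57486) (nat_lit 0) (nat_lit 9880) (XT.nd (nat_lit 57330) (nat_lit 0) (nat_lit 9804) (XT.nd (nat_lit 78) (nat_lit 76) (nat_lit 0) (XT.lf (nat_lit 0) (nat_lit 394131128986) (nat_lit 76) (nat_lit 586828895066) (nat_lit 76) (nat_lit 421203143760) (nat_lit 19) (nat_lit 4) (nat_lit 20) (nat_lit 5) (nat_lit 20) (nat_lit 4) (nat_lit 499) (nat_lit 432) (nat_lit 269)) (XT.lf (nat_lit 0)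 (nat_lit 579513819) (nat_lit 152) (nat_lit 164437791701) (nat_lit 76) (nat_lit 1326994567488) (nat_lit 18) (nat_lit 5) (nat_lit 20) (nat_lit 5) (nat_lit 19) (nat_lit 4) (nat_lit 500) (nat_lit 432) (nat_lit 268))) (XT.nd (nat_lit 78) (nat_lit 0) (nat_lit 76) (XT.lf (nat_lit 0) (nat_lit 10535352027) (nat_lit 836) (nat_lit 7603101227) (nat_lit 836) (nat_lit 7603101227) (nat_lit 147) (nat_lit 3) (nat_lit 158) (nat_lit 3) (nat_lit 158) (nat_lit 5) (nat_lit 433) (nat_lit 433) (nat_lit 334)) (XT.lf (nat_lit 0) (nat_lit 22429770600) (nat_lit 760) (nat_lit 27089973857) (nat_lit 836) (nat_lit 3996871049) (nat_lit 148) (nat_lit 5) (nat_lit 158) (nat_lit 5) (nat_lit 159) (nat_lit 5) (nat_lit 434) (nat_lit 433) (nat_lit 333)))) (XT.nd (nat_lit 156) (nat_lit 0) (nat_lit 152) (XT.nd (nat_lit 78) (nat_lit 0) (nat_lit 76) (XT.lf (nat_lit 76) (nat_lit 16131546870) (nat_lit 0) (nat_lit 8894975152) (nat_lit 836)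 (nat_lit 30629833163) (nat_lit 149) (nat_lit 5) (nat_lit 148) (nat_lit 5) (nat_lit 159) (nat_lit 5) (nat_lit 435) (nat_lit 433) (nat_lit 332)) (XT.lf (nat_lit 76) (nat_lit 5452747047) (nat_lit 0) (nat_lit 23485608898) (nat_lit 836) (nat_lit 28973551519) (nat_lit 150) (nat_lit 5) (nat_lit 149) (nat_lit 5) (nat_lit 160) (nat_lit 5) (nat_lit 436) (nat_lit 433) (nat_lit 331))) (XT.nd (nat_lit 78) (nat_lit 0) (nat_lit 76) (XT.lf (nat_lit 0) (nat_lit 34328225261) (nat_lit 760) (nat_lit 5355920642) (nat_lit 836) (nat_lit 20605504095) (nat_lit 150) (nat_lit 5) (nat_lit 160) (nat_lit 5) (nat_lit 161) (nat_lit 5) (nat_lit 437) (nat_lit 433) (nat_lit 330)) (XT.lf (nat_lit 0) (nat_lit 41353291006) (nat_lit 760) (nat_lit 16275876183) (nat_lit 836) (nat_lit 5168244871) (nat_lit 151) (nat_lit 5) (nat_lit 161) (nat_lit 5) (nat_lit 162) (nat_lit 5) (nat_lit 438) (nat_lit 433) (nat_lit 329)))))) (XT.nd (nat_lit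 546) (nat_lit 2204) (nat_lit 0) (XT.nd (nat_lit 234) (nat_lit 1064) (nat_lit 0) (XT.nd (nat_lit 78) (nat_lit 1140) (nat_lit 0) (XT.lf (nat_lit 76) (nat_lit 37775345591) (nat_lit 0) (nat_lit 12515911661) (nat_lit 836) (nat_lit 15146993504) (nat_lit 152) (nat_lit 5) (nat_lit 151) (nat_lit 5) (nat_lit 162) (nat_lit 5) (nat_lit 439) (nat_lit 433) (nat_lit 328)) (XT.nd (nat_lit 78) (nat_lit 456) (nat_lit 0) (XT.lf (nat_lit 0) (nat_lit 28805328648) (nat_lit 760) (nat_lit 32439437000) (nat_lit 836) (nat_lit 6980566060) (nat_lit 142) (nat_lit 5) (nat_lit 152) (nat_lit 5) (nat_lit 153) (nat_lit 5) (nat_lit 440) (nat_lit 433) (nat_lit 327)) (XT.lf (nat_lit 0) (nat_lit 3058153361) (nat_lit 456) (nat_lit 51495186964) (nat_lit 76) (nat_lit 16616711287) (nat_lit 136) (nat_lit 5) (nat_lit 142) (nat_lit 5) (nat_lit 137) (nat_lit 5) (nat_lit 441) (nat_lit 433) (nat_lit 326)))) (XT.nd (nat_lit 156) (nat_lit 304)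 (nat_lit 0) (XT.nd (nat_lit 78) (nat_lit 380) (nat_lit 0) (XT.lf (nat_lit 0) (nat_lit 10238340294) (nat_lit 380) (nat_lit 4822703246) (nat_lit 456) (nat_lit 59213302208) (nat_lit 131) (nat_lit 5) (nat_lit 136) (nat_lit 5) (nat_lit 137) (nat_lit 5) (nat_lit 442) (nat_lit 433) (nat_lit 325)) (XT.lf (nat_lit 0) (nat_lit 399737661) (nat_lit 380) (nat_lit 29303384788) (nat_lit 456) (nat_lit 47839913395) (nat_lit 126) (nat_lit 5) (nat_lit 131) (nat_lit 5) (nat_lit 132) (nat_lit 5) (nat_lit 443) (nat_lit 433) (nat_lit 324))) (XT.nd (nat_lit 78) (nat_lit 304) (nat_lit 0) (XT.lf (nat_lit 0) (nat_lit 47107745025) (nat_lit 456) (nat_lit 9220631563) (nat_lit 76) (nat_lit 24665285972) (nat_lit 126) (nat_lit 5) (nat_lit 132) (nat_lit 5) (nat_lit 127) (nat_lit 5) (nat_lit 444) (nat_lit 433) (nat_lit 323)) (XT.lf (nat_lit 0) (nat_lit 65743735739) (nat_lit 304) (nat_lit 1679585453) (nat_lit 380) (nat_lit 17221089293)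 (nat_lit 122) (nat_lit 5) (nat_lit 126) (nat_lit 5) (nat_lit 127) (nat_lit 5) (nat_lit 445) (nat_lit 433) (nat_lit 322))))) (XT.nd (nat_lit 312) (nat_lit 988) (nat_lit 0) (XT.nd (nat_lit 156) (nat_lit 532) (nat_lit 0) (XT.nd (nat_lit 78) (nat_lit 304) (nat_lit 0) (XT.lf (nat_lit 0) (nat_lit 2769554871) (nat_lit 380) (nat_lit 29074369457) (nat_lit 76) (nat_lit 56641812839) (nat_lit 117) (nat_lit 5) (nat_lit 122) (nat_lit 5) (nat_lit 118) (nat_lit 5) (nat_lit 446) (nat_lit 433) (nat_lit 321)) (XT.lf (nat_lit 0) (nat_lit 25404016153) (nat_lit 380) (nat_lit 39575371967) (nat_lit 76) (nat_lit 27558470997) (nat_lit 113) (nat_lit 5) (nat_lit 118) (nat_lit 5) (nat_lit 114) (nat_lit 5) (nat_lit 447) (nat_lit 433) (nat_lit 320))) (XT.nd (nat_lit 78) (nat_lit 228) (nat_lit 0) (XT.lf (nat_lit 0) (nat_lit 46657632790) (nat_lit 304) (nat_lit 4970073402) (nat_lit 380) (nat_lit 45197521235) (nat_lit 109) (nat_lit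 5) (nat_lit 113) (nat_lit 5) (nat_lit 114) (nat_lit 5) (nat_lit 448) (nat_lit 433) (nat_lit 319)) (XT.lf (nat_lit 0) (nat_lit 40117697662) (nat_lit 228) (nat_lit 42091287288) (nat_lit 304) (nat_lit 19133615758) (nat_lit 106) (nat_lit 5) (nat_lit 109) (nat_lit 5) (nat_lit 110) (nat_lit 5) (nat_lit 449) (nat_lit 433) (nat_lit 318)))) (XT.nd (nat_lit 156) (nat_lit 456) (nat_lit 0) (XT.nd (nat_lit 78) (nat_lit 228) (nat_lit 0) (XT.lf (nat_lit 0) (nat_lit 10602087753) (nat_lit 304) (nat_lit 72421996304) (nat_lit 76) (nat_lit 23096480432) (nat_lit 102) (nat_lit 5) (nat_lit 106) (nat_lit 5) (nat_lit 103) (nat_lit 5) (nat_lit 450) (nat_lit 433) (nat_lit 317)) (XT.lf (nat_lit 0) (nat_lit 26986625831) (nat_lit 228) (nat_lit 17282221422) (nat_lit 304) (nat_lit 66885107556) (nat_lit 99) (nat_lit 5) (nat_lit 102) (nat_lit 5) (nat_lit 103) (nat_lit 5) (nat_lit 451) (nat_lit 433) (nat_lit 316))) (XT.nd (nat_lit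 78) (nat_lit 228) (nat_lit 0) (XT.lf (nat_lit 0) (nat_lit 20192013849) (nat_lit 228) (nat_lit 62871717625) (nat_lit 304) (nat_lit 33404545821) (nat_lit 96) (nat_lit 5) (nat_lit 99) (nat_lit 5) (nat_lit 100) (nat_lit 5) (nat_lit 452) (nat_lit 433) (nat_lit 315)) (XT.lf (nat_lit 0) (nat_lit 4806345107) (nat_lit 228) (nat_lit 108395038441) (nat_lit 76) (nat_lit 8897209700) (nat_lit 93) (nat_lit 5) (nat_lit 96) (nat_lit 5) (nat_lit 94) (nat_lit 5) (nat_lit 453) (nat_lit 433) (nat_lit 314))))))))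
noncomputable def xc94 : XT := (XT.nd (nat_lit 2262) (nat_lit 1596) (nat_lit 0) (XT.nd (nat_lit 1092) (nat_lit 1672) (nat_lit 0) (XT.nd (nat_lit 546) (nat_lit 1140) (nat_lit 0) (XT.nd (nat_lit 234) (nat_lit 760) (nat_lit 0) (XT.nd (nat_lit 78) (nat_lit 228) (nat_lit 0) (XT.lf (nat_lit 0) (nat_lit 6375480241) (nat_lit 228) (nat_lit 41406887360) (nat_lit 304) (nat_lit 80225656572) (nat_lit 90) (nat_lit 5) (nat_lit 93) (nat_lit 5) (nat_lit 94) (nat_lit 5) (nat_lit 454) (nat_lit 433) (nat_lit 313)) (XT.nd (nat_lit 78) (nat_lit 228) (nat_lit 0) (XT.lf (nat_lit 0) (nat_lit 96678474105) (nat_lit 304) (nat_lit 694397135) (nat_lit 76) (nat_lit 36893238324) (nat_lit 90) (nat_lit 5) (nat_lit 94) (nat_lit 5) (nat_lit 91) (nat_lit 5) (nat_lit 455) (nat_lit 433) (nat_lit 312)) (XT.lf (nat_lit 0) (nat_lit 11017432361) (nat_lit 228) (nat_lit 7572100764) (nat_lit 76) (nat_lit 122287362247) (nat_lit 87) (nat_lit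 5) (nat_lit 90) (nat_lit 5) (nat_lit 88) (nat_lit 5) (nat_lit 456) (nat_lit 433) (nat_lit 311)))) (XT.nd (nat_lit 156) (nat_lit 380) (nat_lit 0) (XT.nd (nat_lit 78) (nat_lit 152) (nat_lit 0) (XT.lf (nat_lit 0) (nat_lit 65392857965) (nat_lit 304) (nat_lit 15287441069) (nat_lit 76) (nat_lit 67145493560) (nat_lit 84) (nat_lit 5) (nat_lit 88) (nat_lit 5) (nat_lit 85) (nat_lit 5) (nat_lit 457) (nat_lit 433) (nat_lit 310)) (XT.lf (nat_lit 0) (nat_lit 126732351432) (nat_lit 228) (nat_lit 22564809244) (nat_lit 76) (nat_lit 5902739303) (nat_lit 82) (nat_lit 5) (nat_lit 85) (nat_lit 5) (nat_lit 83) (nat_lit 5) (nat_lit 458) (nat_lit 433) (nat_lit 309))) (XT.nd (nat_lit 78) (nat_lit 152) (nat_lit 0) (XT.lf (nat_lit 0) (nat_lit 32622840532) (nat_lit 228) (nat_lit 30838633537) (nat_lit 76) (nat_lit 99491085093) (nat_lit 79) (nat_lit 5) (nat_lit 82) (nat_lit 5) (nat_lit 80) (nat_lit 5) (nat_lit 459) (nat_lit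 433) (nat_lit 308)) (XT.lf (nat_lit 0) (nat_lit 100587196520) (nat_lit 228) (nat_lit 39265926398) (nat_lit 76) (nat_lit 31299769168) (nat_lit 77) (nat_lit 5) (nat_lit 80) (nat_lit 5) (nat_lit 78) (nat_lit 5) (nat_lit 460) (nat_lit 433) (nat_lit 307))))) (XT.nd (nat_lit 234) (nat_lit 608) (nat_lit 0) (XT.nd (nat_lit 78) (nat_lit 380) (nat_lit 0) (XT.lf (nat_lit 0) (nat_lit 131890288009) (nat_lit 152) (nat_lit 45772722034) (nat_lit 228) (nat_lit 2162526208) (nat_lit 75) (nat_lit 5) (nat_lit 77) (nat_lit 5) (nat_lit 78) (nat_lit 5) (nat_lit 461) (nat_lit 433) (nat_lit 306)) (XT.nd (nat_lit 78) (nat_lit 152) (nat_lit 0) (XT.lf (nat_lit 0) (nat_lit 73109313066) (nat_lit 228) (nat_lit 57855165483) (nat_lit 76) (nat_lit 57986947642) (nat_lit 72) (nat_lit 5) (nat_lit 75) (nat_lit 5) (nat_lit 73) (nat_lit 5) (nat_lit 462) (nat_lit 433) (nat_lit 305)) (XT.lf (nat_lit 0) (nat_lit 130757986502) (nat_lit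 152) (nat_lit 27231286836) (nat_lit 228) (nat_lit 40633234563) (nat_lit 70) (nat_lit 5) (nat_lit 72) (nat_lit 5) (nat_lit 73) (nat_lit 5) (nat_lit 463) (nat_lit 433) (nat_lit 304)))) (XT.nd (nat_lit 156) (nat_lit 304) (nat_lit 0) (XT.nd (nat_lit 78) (nat_lit 152) (nat_lit 0) (XT.lf (nat_lit 0) (nat_lit 43747397656) (nat_lit 152) (nat_lit 79214792073) (nat_lit 76) (nat_lit 85850685830) (nat_lit 68) (nat_lit 5) (nat_lit 70) (nat_lit 5) (nat_lit 69) (nat_lit 5) (nat_lit 464) (nat_lit 433) (nat_lit 303)) (XT.lf (nat_lit 0) (nat_lit 128468389137) (nat_lit 152) (nat_lit 8671173779) (nat_lit 228) (nat_lit 82461370171) (nat_lit 66) (nat_lit 5) (nat_lit 68) (nat_lit 5) (nat_lit 69) (nat_lit 5) (nat_lit 465) (nat_lit 433) (nat_lit 302))) (XT.nd (nat_lit 78) (nat_lit 152) (nat_lit 0) (XT.lf (nat_lit 0) (nat_lit 11790593127) (nat_lit 152) (nat_lit 104533980907) (nat_lit 76) (nat_lit 114659410902) (nat_lit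 64) (nat_lit 5) (nat_lit 66) (nat_lit 5) (nat_lit 65) (nat_lit 5) (nat_lit 466) (nat_lit 433) (nat_lit 301)) (XT.lf (nat_lit 0) (nat_lit 114573477221) (nat_lit 228) (nat_lit 119274804117) (nat_lit 76) (nat_lit 9167817919) (nat_lit 62) (nat_lit 5) (nat_lit 65) (nat_lit 5) (nat_lit 63) (nat_lit 4) (nat_lit 467) (nat_lit 433) (nat_lit 300)))))) (XT.nd (nat_lit 546) (nat_lit 760) (nat_lit 0) (XT.nd (nat_lit 234) (nat_lit 532) (nat_lit 0) (XT.nd (nat_lit 78) (nat_lit 304) (nat_lit 0) (XT.lf (nat_lit 0) (nat_lit 119937844454) (nat_lit 76) (nat_lit 111325188571) (nat_lit 152) (nat_lit 24463547678) (nat_lit 61) (nat_lit 5) (nat_lit 62) (nat_lit 5) (nat_lit 63) (nat_lit 4) (nat_lit 468) (nat_lit 433) (nat_lit 299)) (XT.nd (nat_lit 78) (nat_lit 76) (nat_lit 0) (XT.lf (nat_lit 0) (nat_lit 89351237917) (nat_lit 228) (nat_lit 154117814064) (nat_lit 76) (nat_lit 25699851226) (nat_lit 58) (nat_lit 5) (nat_lit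 61) (nat_lit 5) (nat_lit 59) (nat_lit 4) (nat_lit 469) (nat_lit 433) (nat_lit 298)) (XT.lf (nat_lit 0) (nat_lit 108377788909) (nat_lit 76) (nat_lit 109020459336) (nat_lit 152) (nat_lit 65969104932) (nat_lit 57) (nat_lit 5) (nat_lit 58) (nat_lit 5) (nat_lit 59) (nat_lit 4) (nat_lit 470) (nat_lit 433) (nat_lit 297)))) (XT.nd (nat_lit 156) (nat_lit 228) (nat_lit 0) (XT.nd (nat_lit 78) (nat_lit 76) (nat_lit 0) (XT.lf (nat_lit 0) (nat_lit 60120101289) (nat_lit 228) (nat_lit 197981726916) (nat_lit 76) (nat_lit 40307528764) (nat_lit 54) (nat_lit 5) (nat_lit 57) (nat_lit 5) (nat_lit 55) (nat_lit 4) (nat_lit 471) (nat_lit 433) (nat_lit 296)) (XT.lf (nat_lit 0) (nat_lit 89487020721) (nat_lit 76) (nat_lit 110862043925) (nat_lit 152) (nat_lit 113933390567) (nat_lit 53) (nat_lit 5) (nat_lit 54) (nat_lit 5) (nat_lit 55) (nat_lit 4) (nat_lit 472) (nat_lit 433) (nat_lit 295))) (XT.nd (nat_lit 78) (nat_lit 76)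 (nat_lit 0) (XT.lf (nat_lit 0) (nat_lit 25274077255) (nat_lit 152) (nat_lit 254120658374) (nat_lit 76) (nat_lit 51737006782) (nat_lit 51) (nat_lit 5) (nat_lit 53) (nat_lit 5) (nat_lit 52) (nat_lit 4) (nat_lit 473) (nat_lit 433) (nat_lit 294)) (XT.lf (nat_lit 0) (nat_lit 59918260860) (nat_lit 76) (nat_lit 118545782925) (nat_lit 152) (nat_lit 170429662176) (nat_lit 50) (nat_lit 5) (nat_lit 51) (nat_lit 5) (nat_lit 52) (nat_lit 4) (nat_lit 474) (nat_lit 433) (nat_lit 293))))) (XT.nd (nat_lit 312) (nat_lit 380) (nat_lit 0) (XT.nd (nat_lit 156) (nat_lit 152) (nat_lit 0) (XT.nd (nat_lit 78) (nat_lit 152) (nat_lit 0) (XT.lf (nat_lit 0) (nat_lit 40666063247) (nat_lit 76) (nat_lit 309238030072) (nat_lit 76) (nat_lit 17872789008) (nat_lit 49) (nat_lit 4) (nat_lit 50) (nat_lit 5) (nat_lit 50) (nat_lit 4) (nat_lit 475) (nat_lit 433) (nat_lit 292)) (XT.lf (nat_lit 0) (nat_lit 15189383901) (nat_lit 76) (nat_lit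 134349661535) (nat_lit 152) (nat_lit 238149411967) (nat_lit 47) (nat_lit 5) (nat_lit 48) (nat_lit 5) (nat_lit 49) (nat_lit 4) (nat_lit 476) (nat_lit 433) (nat_lit 291))) (XT.nd (nat_lit 78) (nat_lit 152) (nat_lit 0) (XT.lf (nat_lit 0) (nat_lit 336368304416) (nat_lit 152) (nat_lit 13600639981) (nat_lit 0) (nat_lit 58876831609) (nat_lit 47) (nat_lit 5) (nat_lit 49) (nat_lit 4) (nat_lit 47) (nat_lit 4) (nat_lit 477) (nat_lit 433) (nat_lit 290)) (XT.lf (nat_lit 0) (nat_lit 111437368080) (nat_lit 152) (nat_lit 49045209691) (nat_lit 76) (nat_lit 270710196982) (nat_lit 45) (nat_lit 5) (nat_lit 47) (nat_lit 5) (nat_lit 46) (nat_lit 4) (nat_lit 478) (nat_lit 433) (nat_lit 289)))) (XT.nd (nat_lit 156) (nat_lit 152) (nat_lit 0) (XT.nd (nat_lit 78) (nat_lit 152) (nat_lit 0) (XT.lf (nat_lit 0) (nat_lit 314308926003) (nat_lit 152) (nat_lit 90589353649) (nat_lit 0) (nat_lit 50030706562) (nat_lit 44) (nat_lit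 5) (nat_lit 46) (nat_lit 4) (nat_lit 44) (nat_lit 4) (nat_lit 479) (nat_lit 433) (nat_lit 288)) (XT.lf (nat_lit 0) (nat_lit 60185618841) (nat_lit 152) (nat_lit 140897979612) (nat_lit 76) (nat_lit 278987696824) (nat_lit 42) (nat_lit 5) (nat_lit 44) (nat_lit 5) (nat_lit 43) (nat_lit 4) (nat_lit 480) (nat_lit 433) (nat_lit 287))) (XT.nd (nat_lit 78) (nat_lit 76) (nat_lit 0) (XT.lf (nat_lit 0) (nat_lit 279029734423) (nat_lit 152) (nat_lit 200399280376) (nat_lit 0) (nat_lit 27335680724) (nat_lit 41) (nat_lit 5) (nat_lit 43) (nat_lit 4) (nat_lit 41) (nat_lit 4) (nat_lit 481) (nat_lit 433) (nat_lit 286)) (XT.lf (nat_lit 0) (nat_lit 263987956003) (nat_lit 76) (nat_lit 261399787461) (nat_lit 76) (nat_lit 9705506120) (nat_lit 40) (nat_lit 4) (nat_lit 41) (nat_lit 5) (nat_lit 41) (nat_lit 4) (nat_lit 482) (nat_lit 433) (nat_lit 285))))))) (XT.nd (nat_lit 1170) (nat_lit 228) (nat_lit 0) (XT.nd (nat_lit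 546) (nat_lit 684) (nat_lit 0) (XT.nd (nat_lit 234) (nat_lit 304) (nat_lit 0) (XT.nd (nat_lit 78) (nat_lit 228) (nat_lit 0) (XT.lf (nat_lit 0) (nat_lit 210317351837) (nat_lit 76) (nat_lit 15054279361) (nat_lit 152) (nat_lit 339798651661) (nat_lit 38) (nat_lit 5) (nat_lit 39) (nat_lit 5) (nat_lit 40) (nat_lit 4) (nat_lit 483) (nat_lit 433) (nat_lit 284)) (XT.nd (nat_lit 78) (nat_lit 152) (nat_lit 0) (XT.lf (nat_lit 0) (nat_lit 142931531413) (nat_lit 76) (nat_lit 346937749642) (nat_lit 76) (nat_lit 107228523654) (nat_lit 37) (nat_lit 4) (nat_lit 38) (nat_lit 5) (nat_lit 38) (nat_lit 4) (nat_lit 484) (nat_lit 433) (nat_lit 283)) (XT.lf (nat_lit 0) (nat_lit 61298493332) (nat_lit 76) (nat_lit 85534624435) (nat_lit 152) (nat_lit 484259383922) (nat_lit 35) (nat_lit 5) (nat_lit 36) (nat_lit 5) (nat_lit 37) (nat_lit 4) (nat_lit 485) (nat_lit 433) (nat_lit 282)))) (XT.nd (nat_lit 156) (nat_lit 152) (nat_lit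 0) (XT.nd (nat_lit 78) (nat_lit 152) (nat_lit 0) (XT.lf (nat_lit 0) (nat_lit 428626024492) (nat_lit 152) (nat_lit 38203494879) (nat_lit 0) (nat_lit 200331207875) (nat_lit 35) (nat_lit 5) (nat_lit 37) (nat_lit 4) (nat_lit 35) (nat_lit 4) (nat_lit 486) (nat_lit 433) (nat_lit 281)) (XT.lf (nat_lit 0) (nat_lit 36216011287) (nat_lit 152) (nat_lit 154052134003) (nat_lit 76) (nat_lit 515313938943) (nat_lit 33) (nat_lit 5) (nat_lit 35) (nat_lit 5) (nat_lit 34) (nat_lit 4) (nat_lit 487) (nat_lit 433) (nat_lit 280))) (XT.nd (nat_lit 78) (nat_lit 76) (nat_lit 0) (XT.lf (nat_lit 0) (nat_lit 334339447367) (nat_lit 152) (nat_lit 295139139483) (nat_lit 0) (nat_lit 116915554739) (nat_lit 32) (nat_lit 5) (nat_lit 34) (nat_lit 4) (nat_lit 32) (nat_lit 4) (nat_lit 488) (nat_lit 433) (nat_lit 279)) (XT.lf (nat_lit 0) (nat_lit 327375990383) (nat_lit 76) (nat_lit 339983423863) (nat_lit 76) (nat_lit 122559416495)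 (nat_lit 31) (nat_lit 4) (nat_lit 32) (nat_lit 5) (nat_lit 32) (nat_lit 4) (nat_lit 489) (nat_lit 433) (nat_lit 278))))) (XT.nd (nat_lit 312) (nat_lit 304) (nat_lit 0) (XT.nd (nat_lit 156) (nat_lit 228) (nat_lit 0) (XT.nd (nat_lit 78) (nat_lit 0) (nat_lit 0) (XT.lf (nat_lit 0) (nat_lit 176148174655) (nat_lit 76) (nat_lit 15838307425) (nat_lit 152) (nat_lit 644391854724) (nat_lit 29) (nat_lit 5) (nat_lit 30) (nat_lit 5) (nat_lit 31) (nat_lit 4) (nat_lit 490) (nat_lit 433) (nat_lit 277)) (XT.lf (nat_lit 0) (nat_lit 540866924260) (nat_lit 152) (nat_lit 11117736540) (nat_lit 0) (nat_lit 333796246182) (nat_lit 29) (nat_lit 5) (nat_lit 31) (nat_lit 4) (nat_lit 29) (nat_lit 4) (nat_lit 491) (nat_lit 433) (nat_lit 276))) (XT.nd (nat_lit 78) (nat_lit 152) (nat_lit 0) (XT.lf (nat_lit 0) (nat_lit 712459151154) (nat_lit 76) (nat_lit 216588892187) (nat_lit 76) (nat_lit 9518127362) (nat_lit 28) (nat_lit 4)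 (nat_lit 29) (nat_lit 5) (nat_lit 29) (nat_lit 4) (nat_lit 492) (nat_lit 433) (nat_lit 275)) (XT.lf (nat_lit 0) (nat_lit 352070326583) (nat_lit 152) (nat_lit 487836100285) (nat_lit 0) (nat_lit 154859997871) (nat_lit 26) (nat_lit 5) (nat_lit 28) (nat_lit 4) (nat_lit 26) (nat_lit 4) (nat_lit 493) (nat_lit 433) (nat_lit 274)))) (XT.nd (nat_lit 156) (nat_lit 152) (nat_lit 0) (XT.nd (nat_lit 78) (nat_lit 76) (nat_lit 0) (XT.lf (nat_lit 0) (nat_lit 255726209538) (nat_lit 76) (nat_lit 498178242090) (nat_lit 76) (nat_lit 300967842547) (nat_lit 25) (nat_lit 4) (nat_lit 26) (nat_lit 5) (nat_lit 26) (nat_lit 4) (nat_lit 494) (nat_lit 433) (nat_lit 273)) (XT.lf (nat_lit 0) (nat_lit 74555909066) (nat_lit 152) (nat_lit 44370851540) (nat_lit 76) (nat_lit 1000374871087) (nat_lit 24) (nat_lit 5) (nat_lit 26) (nat_lit 5) (nat_lit 25) (nat_lit 4) (nat_lit 495) (nat_lit 433) (nat_lit 272))) (XT.nd (nat_lit 78)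 (nat_lit 76) (nat_lit 0) (XT.lf (nat_lit 0) (nat_lit 486891745899) (nat_lit 152) (nat_lit 401808946282) (nat_lit 0) (nat_lit 299072197468) (nat_lit 23) (nat_lit 5) (nat_lit 25) (nat_lit 4) (nat_lit 23) (nat_lit 4) (nat_lit 496) (nat_lit 433) (nat_lit 271)) (XT.lf (nat_lit 0) (nat_lit 434515497636) (nat_lit 76) (nat_lit 507273609849) (nat_lit 76) (nat_lit 319454007868) (nat_lit 22) (nat_lit 4) (nat_lit 23) (nat_lit 5) (nat_lit 23) (nat_lit 4) (nat_lit 497) (nat_lit 433) (nat_lit 270)))))) (XT.nd (nat_lit 57798) (nat_lit 0) (nat_lit 8132) (XT.nd (nat_lit 57486) (nat_lit 0) (nat_lit 9728) (XT.nd (nat_lit 78) (nat_lit 76) (nat_lit 0) (XT.lf (nat_lit 0) (nat_lit 10634518837) (nat_lit 76) (nat_lit 86172393553) (nat_lit 152) (nat_lit 1243347858196) (nat_lit 20) (nat_lit 5) (nat_lit 21) (nat_lit 5) (nat_lit 22) (nat_lit 4) (nat_lit 498) (nat_lit 433) (nat_lit 269)) (XT.nd (nat_lit 78) (nat_lit 76) (nat_lit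 0) (XT.lf (nat_lit 0) (nat_lit 555718271604) (nat_lit 152) (nat_lit 491529785958) (nat_lit 0) (nat_lit 376842369247) (nat_lit 20) (nat_lit 5) (nat_lit 22) (nat_lit 4) (nat_lit 20) (nat_lit 4) (nat_lit 499) (nat_lit 433) (nat_lit 268)) (XT.lf (nat_lit 0) (nat_lit 425670565709) (nat_lit 76) (nat_lit 633770688467) (nat_lit 76) (nat_lit 454894745624) (nat_lit 19) (nat_lit 4) (nat_lit 20) (nat_lit 5) (nat_lit 20) (nat_lit 4) (nat_lit 500) (nat_lit 433) (nat_lit 267)))) (XT.nd (nat_lit 156) (nat_lit 0) (nat_lit 76) (XT.nd (nat_lit 78) (nat_lit 0) (nat_lit 76) (XT.lf (nat_lit 0) (nat_lit 11415385325) (nat_lit 836) (nat_lit 8191813751) (nat_lit 836) (nat_lit 8191813751) (nat_lit 147) (nat_lit 3) (nat_lit 158) (nat_lit 3) (nat_lit 158) (nat_lit 5) (nat_lit 434) (nat_lit 434) (nat_lit 332)) (XT.lf (nat_lit 0) (nat_lit 24293132840) (nat_lit 760) (nat_lit 29215812544) (nat_lit 836) (nat_lit 4285539676)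 (nat_lit 148) (nat_lit 5) (nat_lit 158) (nat_lit 5) (nat_lit 159) (nat_lit 5) (nat_lit 435) (nat_lit 434) (nat_lit 331))) (XT.nd (nat_lit 78) (nat_lit 0) (nat_lit 76) (XT.lf (nat_lit 76) (nat_lit 17461632420) (nat_lit 0) (nat_lit 9631499952) (nat_lit 836) (nat_lit 33012496930) (nat_lit 149) (nat_lit 5) (nat_lit 148) (nat_lit 5) (nat_lit 159) (nat_lit 5) (nat_lit 436) (nat_lit 434) (nat_lit 330)) (XT.lf (nat_lit 76) (nat_lit 5930275306) (nat_lit 0) (nat_lit 25383145363) (nat_lit 836) (nat_lit 31228430443) (nat_lit 150) (nat_lit 5) (nat_lit 149) (nat_lit 5) (nat_lit 160) (nat_lit 5) (nat_lit 437) (nat_lit 434) (nat_lit 329))))) (XT.nd (nat_lit 312) (nat_lit 1216) (nat_lit 0) (XT.nd (nat_lit 156) (nat_lit 608) (nat_lit 0) (XT.nd (nat_lit 78) (nat_lit 0) (nat_lit 76) (XT.lf (nat_lit 0) (nat_lit 37129765208) (nat_lit 760) (nat_lit 5743089467) (nat_lit 836) (nat_lit 22237194767) (nat_lit 150) (nat_lit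 5) (nat_lit 160) (nat_lit 5) (nat_lit 161) (nat_lit 5) (nat_lit 438) (nat_lit 434) (nat_lit 328)) (XT.lf (nat_lit 0) (nat_lit 44713166169) (nat_lit 760) (nat_lit 17535646539) (nat_lit 836) (nat_lit 5569803889) (nat_lit 151) (nat_lit 5) (nat_lit 161) (nat_lit 5) (nat_lit 162) (nat_lit 5) (nat_lit 439) (nat_lit 434) (nat_lit 327))) (XT.nd (nat_lit 78) (nat_lit 684) (nat_lit 0) (XT.lf (nat_lit 76) (nat_lit 40837834682) (nat_lit 0) (nat_lit 13525143647) (nat_lit 836) (nat_lit 16307904210) (nat_lit 152) (nat_lit 5) (nat_lit 151) (nat_lit 5) (nat_lit 162) (nat_lit 5) (nat_lit 440) (nat_lit 434) (nat_lit 326)) (XT.lf (nat_lit 0) (nat_lit 31150899589) (nat_lit 760) (nat_lit 35038808430) (nat_lit 836) (nat_lit 7491375455) (nat_lit 142) (nat_lit 5) (nat_lit 152) (nat_lit 5) (nat_lit 153) (nat_lit 5) (nat_lit 441) (nat_lit 434) (nat_lit 325)))) (XT.nd (nat_lit 156) (nat_lit 380) (nat_lit 0) (XT.nd (nat_lit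 78) (nat_lit 380) (nat_lit 0) (XT.lf (nat_lit 0) (nat_lit 3346099340) (nat_lit 456) (nat_lit 55571769078) (nat_lit 76) (nat_lit 17943616715) (nat_lit 136) (nat_lit 5) (nat_lit 142) (nat_lit 5) (nat_lit 137) (nat_lit 5) (nat_lit 442) (nat_lit 434) (nat_lit 324)) (XT.lf (nat_lit 0) (nat_lit 11098570206) (nat_lit 380) (nat_lit 5208086252) (nat_lit 456) (nat_lit 63907594996) (nat_lit 131) (nat_lit 5) (nat_lit 136) (nat_lit 5) (nat_lit 137) (nat_lit 5) (nat_lit 443) (nat_lit 434) (nat_lit 323))) (XT.nd (nat_lit 78) (nat_lit 0) (nat_lit 0) (XT.lf (nat_lit 0) (nat_lit 473037225) (nat_lit 380) (nat_lit 31644698850) (nat_lit 456) (nat_lit 51626819367) (nat_lit 126) (nat_lit 5) (nat_lit 131) (nat_lit 5) (nat_lit 132) (nat_lit 5) (nat_lit 444) (nat_lit 434) (nat_lit 322)) (XT.lf (nat_lit 0) (nat_lit 50911929436) (nat_lit 456) (nat_lit 9918284257) (nat_lit 76) (nat_lit 26641158930) (nat_lit 126) (nat_lit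 5) (nat_lit 132) (nat_lit 5) (nat_lit 127) (nat_lit 5) (nat_lit 445) (nat_lit 434) (nat_lit 321))))))))
noncomputable def xc95 : XT := (XT.nd (nat_lit 2340) (nat_lit 2280) (nat_lit 0) (XT.nd (nat_lit 1170) (nat_lit 2204) (nat_lit 0) (XT.nd (nat_lit 546) (nat_lit 1520) (nat_lit 0) (XT.nd (nat_lit 234) (nat_lit 1064) (nat_lit 0) (XT.nd (nat_lit 78) (nat_lit 684) (nat_lit 0) (XT.lf (nat_lit 0) (nat_lit 71041494172) (nat_lit 304) (nat_lit 1809220433) (nat_lit 380) (nat_lit 18563567979) (nat_lit 122) (nat_lit 5) (nat_lit 126) (nat_lit 5) (nat_lit 127) (nat_lit 5) (nat_lit 446) (nat_lit 434) (nat_lit 320)) (XT.nd (nat_lit 78) (nat_lit 304) (nat_lit 0) (XT.lf (nat_lit 0) (nat_lit 3023350930) (nat_lit 380) (nat_lit 31361115562) (nat_lit 76) (nat_lit 61178514227) (nat_lit 117) (nat_lit 5) (nat_lit 122) (nat_lit 5) (nat_lit 118) (nat_lit 5) (nat_lit 447) (nat_lit 434) (nat_lit 319)) (XT.lf (nat_lit 0)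 (nat_lit 27466877443) (nat_lit 380) (nat_lit 42702487356) (nat_lit 76) (nat_lit 29769992493) (nat_lit 113) (nat_lit 5) (nat_lit 118) (nat_lit 5) (nat_lit 114) (nat_lit 5) (nat_lit 448) (nat_lit 434) (nat_lit 318)))) (XT.nd (nat_lit 156) (nat_lit 532) (nat_lit 0) (XT.nd (nat_lit 78) (nat_lit 228) (nat_lit 0) (XT.lf (nat_lit 0) (nat_lit 50427466610) (nat_lit 304) (nat_lit 5359315011) (nat_lit 380) (nat_lit 48783017762) (nat_lit 109) (nat_lit 5) (nat_lit 113) (nat_lit 5) (nat_lit 114) (nat_lit 5) (nat_lit 449) (nat_lit 434) (nat_lit 317)) (XT.lf (nat_lit 0) (nat_lit 43363977469) (nat_lit 228) (nat_lit 45449143979) (nat_lit 304) (nat_lit 20635513384) (nat_lit 106) (nat_lit 5) (nat_lit 109) (nat_lit 5) (nat_lit 110) (nat_lit 5) (nat_lit 450) (nat_lit 434) (nat_lit 316))) (XT.nd (nat_lit 78) (nat_lit 228) (nat_lit 0) (XT.lf (nat_lit 0) (nat_lit 11476777419) (nat_lit 304) (nat_lit 78178441284) (nat_lit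 76) (nat_lit 24953662126) (nat_lit 102) (nat_lit 5) (nat_lit 106) (nat_lit 5) (nat_lit 103) (nat_lit 5) (nat_lit 451) (nat_lit 434) (nat_lit 315)) (XT.lf (nat_lit 0) (nat_lit 29181248970) (nat_lit 228) (nat_lit 18654221337) (nat_lit 304) (nat_lit 72209542636) (nat_lit 99) (nat_lit 5) (nat_lit 102) (nat_lit 5) (nat_lit 103) (nat_lit 5) (nat_lit 452) (nat_lit 434) (nat_lit 314))))) (XT.nd (nat_lit 312) (nat_lit 836) (nat_lit 0) (XT.nd (nat_lit 156) (nat_lit 228) (nat_lit 0) (XT.nd (nat_lit 78) (nat_lit 228) (nat_lit 0) (XT.lf (nat_lit 0) (nat_lit 21842562449) (nat_lit 228) (nat_lit 67890224717) (nat_lit 304) (nat_lit 36051752151) (nat_lit 96) (nat_lit 5) (nat_lit 99) (nat_lit 5) (nat_lit 100) (nat_lit 5) (nat_lit 453) (nat_lit 434) (nat_lit 313)) (XT.lf (nat_lit 0) (nat_lit 5214115679) (nat_lit 228) (nat_lit 117031231732) (nat_lit 76) (nat_lit 9619968118) (nat_lit 93) (nat_lit 5) (nat_lit 96)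 (nat_lit 5) (nat_lit 94) (nat_lit 5) (nat_lit 454) (nat_lit 434) (nat_lit 312))) (XT.nd (nat_lit 78) (nat_lit 0) (nat_lit 0) (XT.lf (nat_lit 0) (nat_lit 6919389579) (nat_lit 228) (nat_lit 44707636031) (nat_lit 304) (nat_lit 86620535186) (nat_lit 90) (nat_lit 5) (nat_lit 93) (nat_lit 5) (nat_lit 94) (nat_lit 5) (nat_lit 455) (nat_lit 434) (nat_lit 311)) (XT.lf (nat_lit 0) (nat_lit 104433356541) (nat_lit 304) (nat_lit 717734126) (nat_lit 76) (nat_lit 39855275696) (nat_lit 90) (nat_lit 5) (nat_lit 94) (nat_lit 5) (nat_lit 91) (nat_lit 5) (nat_lit 456) (nat_lit 434) (nat_lit 310)))) (XT.nd (nat_lit 156) (nat_lit 380) (nat_lit 0) (XT.nd (nat_lit 78) (nat_lit 228) (nat_lit 0) (XT.lf (nat_lit 0) (nat_lit 11918708509) (nat_lit 228) (nat_lit 8146395150) (nat_lit 76) (nat_lit 132080947730) (nat_lit 87) (nat_lit 5) (nat_lit 90) (nat_lit 5) (nat_lit 88) (nat_lit 5) (nat_lit 457) (nat_lit 434) (nat_lit 309))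 (XT.lf (nat_lit 0) (nat_lit 70643340774) (nat_lit 304) (nat_lit 16479560405) (nat_lit 76) (nat_lit 72528000691) (nat_lit 84) (nat_lit 5) (nat_lit 88) (nat_lit 5) (nat_lit 85) (nat_lit 5) (nat_lit 458) (nat_lit 434) (nat_lit 308))) (XT.nd (nat_lit 78) (nat_lit 228) (nat_lit 0) (XT.lf (nat_lit 0) (nat_lit 136889221868) (nat_lit 228) (nat_lit 24339731813) (nat_lit 76) (nat_lit 6386022863) (nat_lit 82) (nat_lit 5) (nat_lit 85) (nat_lit 5) (nat_lit 83) (nat_lit 5) (nat_lit 459) (nat_lit 434) (nat_lit 307)) (XT.lf (nat_lit 0) (nat_lit 35250333891) (nat_lit 228) (nat_lit 33276191924) (nat_lit 76) (nat_lit 107461353612) (nat_lit 79) (nat_lit 5) (nat_lit 82) (nat_lit 5) (nat_lit 80) (nat_lit 5) (nat_lit 460) (nat_lit 434) (nat_lit 306)))))) (XT.nd (nat_lit 546) (nat_lit 1064) (nat_lit 0) (XT.nd (nat_lit 234) (nat_lit 608) (nat_lit 0) (XT.nd (nat_lit 78) (nat_lit 380) (nat_lit 0) (XT.lf (nat_lit 0) (nat_lit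 108651149573) (nat_lit 228) (nat_lit 42378289419) (nat_lit 76) (nat_lit 33814834519) (nat_lit 77) (nat_lit 5) (nat_lit 80) (nat_lit 5) (nat_lit 78) (nat_lit 5) (nat_lit 461) (nat_lit 434) (nat_lit 305)) (XT.nd (nat_lit 78) (nat_lit 228) (nat_lit 0) (XT.lf (nat_lit 0) (nat_lit 142469165699) (nat_lit 152) (nat_lit 49423036665) (nat_lit 228) (nat_lit 2318568216) (nat_lit 75) (nat_lit 5) (nat_lit 77) (nat_lit 5) (nat_lit 78) (nat_lit 5) (nat_lit 462) (nat_lit 434) (nat_lit 304)) (XT.lf (nat_lit 0) (nat_lit 78973857617) (nat_lit 228) (nat_lit 62456000988) (nat_lit 76) (nat_lit 62636890828) (nat_lit 72) (nat_lit 5) (nat_lit 75) (nat_lit 5) (nat_lit 73) (nat_lit 5) (nat_lit 463) (nat_lit 434) (nat_lit 303)))) (XT.nd (nat_lit 156) (nat_lit 304) (nat_lit 0) (XT.nd (nat_lit 78) (nat_lit 152) (nat_lit 0) (XT.lf (nat_lit 0) (nat_lit 141245004662) (nat_lit 152) (nat_lit 29398451570) (nat_lit 228) (nat_lit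 43868099437) (nat_lit 70) (nat_lit 5) (nat_lit 72) (nat_lit 5) (nat_lit 73) (nat_lit 5) (nat_lit 464) (nat_lit 434) (nat_lit 302)) (XT.lf (nat_lit 0) (nat_lit 47261921133) (nat_lit 152) (nat_lit 85525703980) (nat_lit 76) (nat_lit 92729543192) (nat_lit 68) (nat_lit 5) (nat_lit 70) (nat_lit 5) (nat_lit 69) (nat_lit 5) (nat_lit 465) (nat_lit 434) (nat_lit 301))) (XT.nd (nat_lit 78) (nat_lit 152) (nat_lit 0) (XT.lf (nat_lit 0) (nat_lit 138770990001) (nat_lit 152) (nat_lit 9353770723) (nat_lit 228) (nat_lit 89043544707) (nat_lit 66) (nat_lit 5) (nat_lit 68) (nat_lit 5) (nat_lit 69) (nat_lit 5) (nat_lit 466) (nat_lit 434) (nat_lit 300)) (XT.lf (nat_lit 0) (nat_lit 12747600016) (nat_lit 152) (nat_lit 112871700164) (nat_lit 76) (nat_lit 123842714994) (nat_lit 64) (nat_lit 5) (nat_lit 66) (nat_lit 5) (nat_lit 65) (nat_lit 5) (nat_lit 467) (nat_lit 434) (nat_lit 299))))) (XT.nd (nat_lit 312) (nat_lit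 532) (nat_lit 0) (XT.nd (nat_lit 156) (nat_lit 304) (nat_lit 0) (XT.nd (nat_lit 78) (nat_lit 76) (nat_lit 0) (XT.lf (nat_lit 0) (nat_lit 123752637571) (nat_lit 228) (nat_lit 128792388051) (nat_lit 76) (nat_lit 9911696924) (nat_lit 62) (nat_lit 5) (nat_lit 65) (nat_lit 5) (nat_lit 63) (nat_lit 4) (nat_lit 468) (nat_lit 434) (nat_lit 298)) (XT.lf (nat_lit 0) (nat_lit 129556211994) (nat_lit 76) (nat_lit 120220526383) (nat_lit 152) (nat_lit 26407335145) (nat_lit 61) (nat_lit 5) (nat_lit 62) (nat_lit 5) (nat_lit 63) (nat_lit 4) (nat_lit 469) (nat_lit 434) (nat_lit 297))) (XT.nd (nat_lit 78) (nat_lit 76) (nat_lit 0) (XT.lf (nat_lit 0) (nat_lit 96511772593) (nat_lit 228) (nat_lit 166424055269) (nat_lit 76) (nat_lit 27765965377) (nat_lit 58) (nat_lit 5) (nat_lit 61) (nat_lit 5) (nat_lit 59) (nat_lit 4) (nat_lit 470) (nat_lit 434) (nat_lit 296)) (XT.lf (nat_lit 0) (nat_lit 117070188397) (nat_lit 76)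 (nat_lit 117731780427) (nat_lit 152) (nat_lit 71234179162) (nat_lit 57) (nat_lit 5) (nat_lit 58) (nat_lit 5) (nat_lit 59) (nat_lit 4) (nat_lit 471) (nat_lit 434) (nat_lit 295)))) (XT.nd (nat_lit 156) (nat_lit 228) (nat_lit 0) (XT.nd (nat_lit 78) (nat_lit 76) (nat_lit 0) (XT.lf (nat_lit 0) (nat_lit 64941366694) (nat_lit 228) (nat_lit 213798253050) (nat_lit 76) (nat_lit 43541902556) (nat_lit 54) (nat_lit 5) (nat_lit 57) (nat_lit 5) (nat_lit 55) (nat_lit 4) (nat_lit 472) (nat_lit 434) (nat_lit 294)) (XT.lf (nat_lit 0) (nat_lit 96667037782) (nat_lit 76) (nat_lit 119721074567) (nat_lit 152) (nat_lit 123036382819) (nat_lit 53) (nat_lit 5) (nat_lit 54) (nat_lit 5) (nat_lit 55) (nat_lit 4) (nat_lit 473) (nat_lit 434) (nat_lit 293))) (XT.nd (nat_lit 78) (nat_lit 76) (nat_lit 0) (XT.lf (nat_lit 0) (nat_lit 27306942848) (nat_lit 152) (nat_lit 274429424743) (nat_lit 76) (nat_lit 55885366947) (nat_lit 51)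 (nat_lit 5) (nat_lit 53) (nat_lit 5) (nat_lit 52) (nat_lit 4) (nat_lit 474) (nat_lit 434) (nat_lit 292)) (XT.lf (nat_lit 0) (nat_lit 64731700337) (nat_lit 76) (nat_lit 128019907959) (nat_lit 152) (nat_lit 184053071820) (nat_lit 50) (nat_lit 5) (nat_lit 51) (nat_lit 5) (nat_lit 52) (nat_lit 4) (nat_lit 475) (nat_lit 434) (nat_lit 291))))))) (XT.nd (nat_lit 1170) (nat_lit 836) (nat_lit 0) (XT.nd (nat_lit 546) (nat_lit 760) (nat_lit 0) (XT.nd (nat_lit 234) (nat_lit 456) (nat_lit 0) (XT.nd (nat_lit 78) (nat_lit 152) (nat_lit 0) (XT.lf (nat_lit 0) (nat_lit 43938815856) (nat_lit 76) (nat_lit 333967714350) (nat_lit 76) (nat_lit 19291996984) (nat_lit 49) (nat_lit 4) (nat_lit 50) (nat_lit 5) (nat_lit 50) (nat_lit 4) (nat_lit 476) (nat_lit 434) (nat_lit 290)) (XT.nd (nat_lit 78) (nat_lit 0) (nat_lit 0) (XT.lf (nat_lit 0) (nat_lit 16423481341) (nat_lit 76) (nat_lit 145088497794) (nat_lit 152) (nat_lit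 257191064133) (nat_lit 47) (nat_lit 5) (nat_lit 48) (nat_lit 5) (nat_lit 49) (nat_lit 4) (nat_lit 477) (nat_lit 434) (nat_lit 289)) (XT.lf (nat_lit 0) (nat_lit 363286984245) (nat_lit 152) (nat_lit 14670825618) (nat_lit 0) (nat_lit 63595167243) (nat_lit 47) (nat_lit 5) (nat_lit 49) (nat_lit 4) (nat_lit 47) (nat_lit 4) (nat_lit 478) (nat_lit 434) (nat_lit 288)))) (XT.nd (nat_lit 156) (nat_lit 228) (nat_lit 0) (XT.nd (nat_lit 78) (nat_lit 76) (nat_lit 0) (XT.lf (nat_lit 0) (nat_lit 120361301625) (nat_lit 152) (nat_lit 52951441406) (nat_lit 76) (nat_lit 292375006314) (nat_lit 45) (nat_lit 5) (nat_lit 47) (nat_lit 5) (nat_lit 46) (nat_lit 4) (nat_lit 479) (nat_lit 434) (nat_lit 287)) (XT.lf (nat_lit 0) (nat_lit 339462307571) (nat_lit 152) (nat_lit 97819571467) (nat_lit 0) (nat_lit 54040992530) (nat_lit 44) (nat_lit 5) (nat_lit 46) (nat_lit 4) (nat_lit 44) (nat_lit 4) (nat_lit 480) (nat_lit 434) (nat_lit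 286))) (XT.nd (nat_lit 78) (nat_lit 76) (nat_lit 0) (XT.lf (nat_lit 0) (nat_lit 65008882506) (nat_lit 152) (nat_lit 152153344926) (nat_lit 76) (nat_lit 301314350611) (nat_lit 42) (nat_lit 5) (nat_lit 44) (nat_lit 5) (nat_lit 43) (nat_lit 4) (nat_lit 481) (nat_lit 434) (nat_lit 285)) (XT.lf (nat_lit 0) (nat_lit 301360270612) (nat_lit 152) (nat_lit 216415184202) (nat_lit 0) (nat_lit 29530008341) (nat_lit 41) (nat_lit 5) (nat_lit 43) (nat_lit 4) (nat_lit 41) (nat_lit 4) (nat_lit 482) (nat_lit 434) (nat_lit 284))))) (XT.nd (nat_lit 312) (nat_lit 304) (nat_lit 0) (XT.nd (nat_lit 156) (nat_lit 228) (nat_lit 0) (XT.nd (nat_lit 78) (nat_lit 152) (nat_lit 0) (XT.lf (nat_lit 0) (nat_lit 285122334070) (nat_lit 76) (nat_lit 282304221578) (nat_lit 76) (nat_lit 10473764141) (nat_lit 40) (nat_lit 4) (nat_lit 41) (nat_lit 5) (nat_lit 41) (nat_lit 4) (nat_lit 483) (nat_lit 434) (nat_lit 283)) (XT.lf (nat_lit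 0) (nat_lit 227157665468) (nat_lit 76) (nat_lit 16251263124) (nat_lit 152) (nat_lit 366974598439) (nat_lit 38) (nat_lit 5) (nat_lit 39) (nat_lit 5) (nat_lit 40) (nat_lit 4) (nat_lit 484) (nat_lit 434) (nat_lit 282))) (XT.nd (nat_lit 78) (nat_lit 152) (nat_lit 0) (XT.lf (nat_lit 0) (nat_lit 154380582881) (nat_lit 76) (nat_lit 374685580260) (nat_lit 76) (nat_lit 115799098860) (nat_lit 37) (nat_lit 4) (nat_lit 38) (nat_lit 5) (nat_lit 38) (nat_lit 4) (nat_lit 485) (nat_lit 434) (nat_lit 281)) (XT.lf (nat_lit 0) (nat_lit 66216506381) (nat_lit 76) (nat_lit 92370388903) (nat_lit 152) (nat_lit 522992650045) (nat_lit 35) (nat_lit 5) (nat_lit 36) (nat_lit 5) (nat_lit 37) (nat_lit 4) (nat_lit 486) (nat_lit 434) (nat_lit 280)))) (XT.nd (nat_lit 156) (nat_lit 152) (nat_lit 0) (XT.nd (nat_lit 78) (nat_lit 152) (nat_lit 0) (XT.lf (nat_lit 0) (nat_lit 462922807812) (nat_lit 152) (nat_lit 41246459003) (nat_lit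 0) (nat_lit 216363983456) (nat_lit 35) (nat_lit 5) (nat_lit 37) (nat_lit 4) (nat_lit 35) (nat_lit 4) (nat_lit 487) (nat_lit 434) (nat_lit 279)) (XT.lf (nat_lit 0) (nat_lit 39119801068) (nat_lit 152) (nat_lit 166363352643) (nat_lit 76) (nat_lit 556545171742) (nat_lit 33) (nat_lit 5) (nat_lit 35) (nat_lit 5) (nat_lit 34) (nat_lit 4) (nat_lit 488) (nat_lit 434) (nat_lit 278))) (XT.nd (nat_lit 78) (nat_lit 76) (nat_lit 0) (XT.lf (nat_lit 0) (nat_lit 361092919641) (nat_lit 152) (nat_lit 318737666681) (nat_lit 0) (nat_lit 126274770700) (nat_lit 32) (nat_lit 5) (nat_lit 34) (nat_lit 4) (nat_lit 32) (nat_lit 4) (nat_lit 489) (nat_lit 434) (nat_lit 277)) (XT.lf (nat_lit 0) (nat_lit 353578125821) (nat_lit 76) (nat_lit 367176078393) (nat_lit 76) (nat_lit 132357831081) (nat_lit 31) (nat_lit 4) (nat_lit 32) (nat_lit 5) (nat_lit 32) (nat_lit 4) (nat_lit 490) (nat_lit 434) (nat_lit 276)))))) (XT.nd (nat_lit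 546) (nat_lit 228) (nat_lit 0) (XT.nd (nat_lit 234) (nat_lit 380) (nat_lit 0) (XT.nd (nat_lit 78) (nat_lit 76) (nat_lit 0) (XT.lf (nat_lit 0) (nat_lit 190251755007) (nat_lit 76) (nat_lit 17099510067) (nat_lit 152) (nat_lit 695937045395) (nat_lit 29) (nat_lit 5) (nat_lit 30) (nat_lit 5) (nat_lit 31) (nat_lit 4) (nat_lit 491) (nat_lit 434) (nat_lit 275)) (XT.nd (nat_lit 78) (nat_lit 76) (nat_lit 0) (XT.lf (nat_lit 0) (nat_lit 584141792970) (nat_lit 152) (nat_lit 11996110892) (nat_lit 0) (nat_lit 360505199889) (nat_lit 29) (nat_lit 5) (nat_lit 31) (nat_lit 4) (nat_lit 29) (nat_lit 4) (nat_lit 492) (nat_lit 434) (nat_lit 274)) (XT.lf (nat_lit 0) (nat_lit 769466447834) (nat_lit 76) (nat_lit 233910710185) (nat_lit 76) (nat_lit 10274042732) (nat_lit 28) (nat_lit 4) (nat_lit 29) (nat_lit 5) (nat_lit 29) (nat_lit 4) (nat_lit 493) (nat_lit 434) (nat_lit 273)))) (XT.nd (nat_lit 156) (nat_lit 152) (nat_lit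 0) (XT.nd (nat_lit 78) (nat_lit 76) (nat_lit 0) (XT.lf (nat_lit 0) (nat_lit 380241154400) (nat_lit 152) (nat_lit 526852537710) (nat_lit 0) (nat_lit 167253786480) (nat_lit 26) (nat_lit 5) (nat_lit 28) (nat_lit 4) (nat_lit 26) (nat_lit 4) (nat_lit 494) (nat_lit 434) (nat_lit 272)) (XT.lf (nat_lit 0) (nat_lit 276194302729) (nat_lit 76) (nat_lit 538027477482) (nat_lit 76) (nat_lit 325040048836) (nat_lit 25) (nat_lit 4) (nat_lit 26) (nat_lit 5) (nat_lit 26) (nat_lit 4) (nat_lit 495) (nat_lit 434) (nat_lit 271))) (XT.nd (nat_lit 78) (nat_lit 76) (nat_lit 0) (XT.lf (nat_lit 0) (nat_lit 80525061427) (nat_lit 152) (nat_lit 47911108947) (nat_lit 76) (nat_lit 1080409357837) (nat_lit 24) (nat_lit 5) (nat_lit 26) (nat_lit 5) (nat_lit 25) (nat_lit 4) (nat_lit 496) (nat_lit 434) (nat_lit 270)) (XT.lf (nat_lit 0) (nat_lit 525847629807) (nat_lit 152) (nat_lit 433944507235) (nat_lit 0) (nat_lit 323002356535)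 (nat_lit 23) (nat_lit 5) (nat_lit 25) (nat_lit 4) (nat_lit 23) (nat_lit 4) (nat_lit 497) (nat_lit 434) (nat_lit 269))))) (XT.nd (nat_lit 57642) (nat_lit 0) (nat_lit 9728) (XT.nd (nat_lit 156) (nat_lit 0) (nat_lit 0) (XT.nd (nat_lit 78) (nat_lit 152) (nat_lit 0) (XT.lf (nat_lit 0) (nat_lit 469285494342) (nat_lit 76) (nat_lit 547851086088) (nat_lit 76) (nat_lit 345005766905) (nat_lit 22) (nat_lit 4) (nat_lit 23) (nat_lit 5) (nat_lit 23) (nat_lit 4) (nat_lit 498) (nat_lit 434) (nat_lit 268)) (XT.lf (nat_lit 0) (nat_lit 11493796357) (nat_lit 76) (nat_lit 93061890496) (nat_lit 152) (nat_lit 1342811254281) (nat_lit 20) (nat_lit 5) (nat_lit 21) (nat_lit 5) (nat_lit 22) (nat_lit 4) (nat_lit 499) (nat_lit 434) (nat_lit 267))) (XT.nd (nat_lit 57408) (nat_lit 0) (nat_lit 9652) (XT.lf (nat_lit 0) (nat_lit 600179704185) (nat_lit 152) (nat_lit 530844150258) (nat_lit 0) (nat_lit 406993607943) (nat_lit 20)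 (nat_lit 5) (nat_lit 22) (nat_lit 4) (nat_lit 20) (nat_lit 4) (nat_lit 500) (nat_lit 434) (nat_lit 266)) (XT.lf (nat_lit 0) (nat_lit 12360513558) (nat_lit 836) (nat_lit 8830410246) (nat_lit 836) (nat_lit 8830410246) (nat_lit 147) (nat_lit 3) (nat_lit 158) (nat_lit 3) (nat_lit 158) (nat_lit 5) (nat_lit 435) (nat_lit 435) (nat_lit 330)))) (XT.nd (nat_lit 156) (nat_lit 0) (nat_lit 76) (XT.nd (nat_lit 78) (nat_lit 0) (nat_lit 0) (XT.lf (nat_lit 0) (nat_lit 26295723207) (nat_lit 760) (nat_lit 31517618680) (nat_lit 836) (nat_lit 4601735854) (nat_lit 148) (nat_lit 5) (nat_lit 158) (nat_lit 5) (nat_lit 159) (nat_lit 5) (nat_lit 436) (nat_lit 435) (nat_lit 329)) (XT.lf (nat_lit 76) (nat_lit 18892480882) (nat_lit 0) (nat_lit 10423390652) (nat_lit 836) (nat_lit 35595435225) (nat_lit 149) (nat_lit 5) (nat_lit 148) (nat_lit 5) (nat_lit 159) (nat_lit 5) (nat_lit 437) (nat_lit 435) (nat_lit 328))) (XT.nd (nat_lit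 78) (nat_lit 0) (nat_lit 76) (XT.lf (nat_lit 76) (nat_lit 6440112708) (nat_lit 0) (nat_lit 27429818729) (nat_lit 836) (nat_lit 33672688076) (nat_lit 150) (nat_lit 5) (nat_lit 149) (nat_lit 5) (nat_lit 160) (nat_lit 5) (nat_lit 438) (nat_lit 435) (nat_lit 327)) (XT.lf (nat_lit 0) (nat_lit 40147541767) (nat_lit 760) (nat_lit 6167124394) (nat_lit 836) (nat_lit 24001810217) (nat_lit 150) (nat_lit 5) (nat_lit 160) (nat_lit 5) (nat_lit 161) (nat_lit 5) (nat_lit 439) (nat_lit 435) (nat_lit 326))))))))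
noncomputable def xc96 : XT := (XT.nd (nat_lit 2262) (nat_lit 3116) (nat_lit 0) (XT.nd (nat_lit 1092) (nat_lit 2660) (nat_lit 0) (XT.nd (nat_lit 546) (nat_lit 2052) (nat_lit 0) (XT.nd (nat_lit 234) (nat_lit 1216) (nat_lit 0) (XT.nd (nat_lit 78) (nat_lit 684) (nat_lit 0) (XT.lf (nat_lit 0) (nat_lit 48334468333) (nat_lit 760) (nat_lit 18902233054) (nat_lit 836) (nat_lit 6005185378) (nat_lit 151) (nat_lit 5) (nat_lit 161) (nat_lit 5) (nat_lit 162) (nat_lit 5) (nat_lit 440) (nat_lit 435) (nat_lit 325)) (XT.nd (nat_lit 78) (nat_lit 684) (nat_lit 0) (XT.lf (nat_lit 76) (nat_lit 44139550622) (nat_lit 0) (nat_lit 14613978745) (nat_lit 836) (nat_lit 17568941919) (nat_lit 152) (nat_lit 5) (nat_lit 151) (nat_lit 5) (nat_lit 162) (nat_lit 5) (nat_lit 441) (nat_lit 435) (nat_lit 324)) (XT.lf (nat_lit 0) (nat_lit 33678246461) (nat_lit 760) (nat_lit 37845528047) (nat_lit 836) (nat_lit 8049845394) (nat_lit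 142) (nat_lit 5) (nat_lit 152) (nat_lit 5) (nat_lit 153) (nat_lit 5) (nat_lit 442) (nat_lit 435) (nat_lit 323)))) (XT.nd (nat_lit 156) (nat_lit 380) (nat_lit 0) (XT.nd (nat_lit 78) (nat_lit 380) (nat_lit 0) (XT.lf (nat_lit 0) (nat_lit 3650904665) (nat_lit 456) (nat_lit 59980616878) (nat_lit 76) (nat_lit 19377021455) (nat_lit 136) (nat_lit 5) (nat_lit 142) (nat_lit 5) (nat_lit 137) (nat_lit 5) (nat_lit 443) (nat_lit 435) (nat_lit 322)) (XT.lf (nat_lit 0) (nat_lit 12021746192) (nat_lit 380) (nat_lit 5624361706) (nat_lit 456) (nat_lit 68983533024) (nat_lit 131) (nat_lit 5) (nat_lit 136) (nat_lit 5) (nat_lit 137) (nat_lit 5) (nat_lit 444) (nat_lit 435) (nat_lit 321))) (XT.nd (nat_lit 78) (nat_lit 0) (nat_lit 0) (XT.lf (nat_lit 0) (nat_lit 546305916) (nat_lit 380) (nat_lit 34173739847) (nat_lit 456) (nat_lit 55722425222) (nat_lit 126) (nat_lit 5) (nat_lit 131) (nat_lit 5) (nat_lit 132) (nat_lit 5)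 (nat_lit 445) (nat_lit 435) (nat_lit 320)) (XT.lf (nat_lit 0) (nat_lit 55015374882) (nat_lit 456) (nat_lit 10677455304) (nat_lit 76) (nat_lit 28774723662) (nat_lit 126) (nat_lit 5) (nat_lit 132) (nat_lit 5) (nat_lit 127) (nat_lit 5) (nat_lit 446) (nat_lit 435) (nat_lit 319))))) (XT.nd (nat_lit 234) (nat_lit 1064) (nat_lit 0) (XT.nd (nat_lit 78) (nat_lit 684) (nat_lit 0) (XT.lf (nat_lit 0) (nat_lit 76757615124) (nat_lit 304) (nat_lit 1949901264) (nat_lit 380) (nat_lit 20018467841) (nat_lit 122) (nat_lit 5) (nat_lit 126) (nat_lit 5) (nat_lit 127) (nat_lit 5) (nat_lit 447) (nat_lit 435) (nat_lit 318)) (XT.nd (nat_lit 78) (nat_lit 304) (nat_lit 0) (XT.lf (nat_lit 0) (nat_lit 3292852466) (nat_lit 380) (nat_lit 33836394166) (nat_lit 76) (nat_lit 66077387581) (nat_lit 117) (nat_lit 5) (nat_lit 122) (nat_lit 5) (nat_lit 118) (nat_lit 5) (nat_lit 448) (nat_lit 435) (nat_lit 317)) (XT.lf (nat_lit 0) (nat_lit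 29690410765) (nat_lit 380) (nat_lit 46085323546) (nat_lit 76) (nat_lit 32157459362) (nat_lit 113) (nat_lit 5) (nat_lit 118) (nat_lit 5) (nat_lit 114) (nat_lit 5) (nat_lit 449) (nat_lit 435) (nat_lit 316)))) (XT.nd (nat_lit 156) (nat_lit 532) (nat_lit 0) (XT.nd (nat_lit 78) (nat_lit 228) (nat_lit 0) (XT.lf (nat_lit 0) (nat_lit 54493576831) (nat_lit 304) (nat_lit 5780889205) (nat_lit 380) (nat_lit 52659677382) (nat_lit 109) (nat_lit 5) (nat_lit 113) (nat_lit 5) (nat_lit 114) (nat_lit 5) (nat_lit 450) (nat_lit 435) (nat_lit 315)) (XT.lf (nat_lit 0) (nat_lit 46864700600) (nat_lit 228) (nat_lit 49076976825) (nat_lit 304) (nat_lit 22261670269) (nat_lit 106) (nat_lit 5) (nat_lit 109) (nat_lit 5) (nat_lit 110) (nat_lit 5) (nat_lit 451) (nat_lit 435) (nat_lit 314))) (XT.nd (nat_lit 78) (nat_lit 228) (nat_lit 0) (XT.lf (nat_lit 0) (nat_lit 12417658506) (nat_lit 304) (nat_lit 84400725224) (nat_lit 76)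 (nat_lit 26958068317) (nat_lit 102) (nat_lit 5) (nat_lit 106) (nat_lit 5) (nat_lit 103) (nat_lit 5) (nat_lit 452) (nat_lit 435) (nat_lit 313)) (XT.lf (nat_lit 0) (nat_lit 31546349944) (nat_lit 228) (nat_lit 20137490287) (nat_lit 304) (nat_lit 77963695000) (nat_lit 99) (nat_lit 5) (nat_lit 102) (nat_lit 5) (nat_lit 103) (nat_lit 5) (nat_lit 453) (nat_lit 435) (nat_lit 312)))))) (XT.nd (nat_lit 546) (nat_lit 1368) (nat_lit 0) (XT.nd (nat_lit 234) (nat_lit 608) (nat_lit 0) (XT.nd (nat_lit 78) (nat_lit 456) (nat_lit 0) (XT.lf (nat_lit 0) (nat_lit 23620135048) (nat_lit 228) (nat_lit 73311814507) (nat_lit 304) (nat_lit 38914323961) (nat_lit 96) (nat_lit 5) (nat_lit 99) (nat_lit 5) (nat_lit 100) (nat_lit 5) (nat_lit 454) (nat_lit 435) (nat_lit 311)) (XT.nd (nat_lit 78) (nat_lit 228) (nat_lit 0) (XT.lf (nat_lit 0) (nat_lit 5651189175) (nat_lit 228) (nat_lit 126363372087) (nat_lit 76) (nat_lit 10398980556)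 (nat_lit 93) (nat_lit 5) (nat_lit 96) (nat_lit 5) (nat_lit 94) (nat_lit 5) (nat_lit 455) (nat_lit 435) (nat_lit 310)) (XT.lf (nat_lit 0) (nat_lit 7501979599) (nat_lit 228) (nat_lit 48274128328) (nat_lit 304) (nat_lit 93530310106) (nat_lit 90) (nat_lit 5) (nat_lit 93) (nat_lit 5) (nat_lit 94) (nat_lit 5) (nat_lit 456) (nat_lit 435) (nat_lit 309)))) (XT.nd (nat_lit 156) (nat_lit 380) (nat_lit 0) (XT.nd (nat_lit 78) (nat_lit 228) (nat_lit 0) (XT.lf (nat_lit 0) (nat_lit 112805690109) (nat_lit 304) (nat_lit 747533874) (nat_lit 76) (nat_lit 43052766944) (nat_lit 90) (nat_lit 5) (nat_lit 94) (nat_lit 5) (nat_lit 91) (nat_lit 5) (nat_lit 457) (nat_lit 435) (nat_lit 308)) (XT.lf (nat_lit 0) (nat_lit 12889250421) (nat_lit 228) (nat_lit 8771123159) (nat_lit 76) (nat_lit 142656508342) (nat_lit 87) (nat_lit 5) (nat_lit 90) (nat_lit 5) (nat_lit 88) (nat_lit 5) (nat_lit 458) (nat_lit 435) (nat_lit 307))) (XT.nd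 (nat_lit 78) (nat_lit 152) (nat_lit 0) (XT.lf (nat_lit 0) (nat_lit 76311143918) (nat_lit 304) (nat_lit 17771454087) (nat_lit 76) (nat_lit 78339558002) (nat_lit 84) (nat_lit 5) (nat_lit 88) (nat_lit 5) (nat_lit 85) (nat_lit 5) (nat_lit 459) (nat_lit 435) (nat_lit 306)) (XT.lf (nat_lit 0) (nat_lit 147856033761) (nat_lit 228) (nat_lit 26260965425) (nat_lit 76) (nat_lit 6906390646) (nat_lit 82) (nat_lit 5) (nat_lit 85) (nat_lit 5) (nat_lit 83) (nat_lit 5) (nat_lit 460) (nat_lit 435) (nat_lit 305))))) (XT.nd (nat_lit 312) (nat_lit 608) (nat_lit 0) (XT.nd (nat_lit 156) (nat_lit 380) (nat_lit 0) (XT.nd (nat_lit 78) (nat_lit 152) (nat_lit 0) (XT.lf (nat_lit 0) (nat_lit 38085506451) (nat_lit 228) (nat_lit 35912968094) (nat_lit 76) (nat_lit 116067676948) (nat_lit 79) (nat_lit 5) (nat_lit 82) (nat_lit 5) (nat_lit 80) (nat_lit 5) (nat_lit 461) (nat_lit 435) (nat_lit 304)) (XT.lf (nat_lit 0) (nat_lit 117357796864)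 (nat_lit 228) (nat_lit 45743765973) (nat_lit 76) (nat_lit 36529523867) (nat_lit 77) (nat_lit 5) (nat_lit 80) (nat_lit 5) (nat_lit 78) (nat_lit 5) (nat_lit 462) (nat_lit 435) (nat_lit 303))) (XT.nd (nat_lit 78) (nat_lit 228) (nat_lit 0) (XT.lf (nat_lit 0) (nat_lit 153890408359) (nat_lit 152) (nat_lit 53367017517) (nat_lit 228) (nat_lit 2489513130) (nat_lit 75) (nat_lit 5) (nat_lit 77) (nat_lit 5) (nat_lit 78) (nat_lit 5) (nat_lit 463) (nat_lit 435) (nat_lit 302)) (XT.lf (nat_lit 0) (nat_lit 85305311757) (nat_lit 228) (nat_lit 67428837606) (nat_lit 76) (nat_lit 67657261997) (nat_lit 72) (nat_lit 5) (nat_lit 75) (nat_lit 5) (nat_lit 73) (nat_lit 5) (nat_lit 464) (nat_lit 435) (nat_lit 301)))) (XT.nd (nat_lit 156) (nat_lit 304) (nat_lit 0) (XT.nd (nat_lit 78) (nat_lit 152) (nat_lit 0) (XT.lf (nat_lit 0) (nat_lit 152567220980) (nat_lit 152) (nat_lit 31740607006) (nat_lit 228) (nat_lit 47364006677)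 (nat_lit 70) (nat_lit 5) (nat_lit 72) (nat_lit 5) (nat_lit 73) (nat_lit 5) (nat_lit 465) (nat_lit 435) (nat_lit 300)) (XT.lf (nat_lit 0) (nat_lit 51055504851) (nat_lit 152) (nat_lit 92345236757) (nat_lit 76) (nat_lit 100157168045) (nat_lit 68) (nat_lit 5) (nat_lit 70) (nat_lit 5) (nat_lit 69) (nat_lit 5) (nat_lit 466) (nat_lit 435) (nat_lit 299))) (XT.nd (nat_lit 78) (nat_lit 152) (nat_lit 0) (XT.lf (nat_lit 0) (nat_lit 149894213897) (nat_lit 152) (nat_lit 10092558528) (nat_lit 228) (nat_lit 96154395329) (nat_lit 66) (nat_lit 5) (nat_lit 68) (nat_lit 5) (nat_lit 69) (nat_lit 5) (nat_lit 467) (nat_lit 435) (nat_lit 298)) (XT.lf (nat_lit 0) (nat_lit 13779204518) (nat_lit 152) (nat_lit 121880003378) (nat_lit 76) (nat_lit 133759178165) (nat_lit 64) (nat_lit 5) (nat_lit 66) (nat_lit 5) (nat_lit 65) (nat_lit 5) (nat_lit 468) (nat_lit 435) (nat_lit 297))))))) (XT.nd (nat_lit 1170) (nat_lit 1368) (nat_lit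 0) (XT.nd (nat_lit 546) (nat_lit 760) (nat_lit 0) (XT.nd (nat_lit 234) (nat_lit 532) (nat_lit 0) (XT.nd (nat_lit 78) (nat_lit 304) (nat_lit 0) (XT.lf (nat_lit 0) (nat_lit 133664235899) (nat_lit 228) (nat_lit 139074859689) (nat_lit 76) (nat_lit 10713594932) (nat_lit 62) (nat_lit 5) (nat_lit 65) (nat_lit 5) (nat_lit 63) (nat_lit 4) (nat_lit 469) (nat_lit 435) (nat_lit 296)) (XT.nd (nat_lit 78) (nat_lit 228) (nat_lit 0) (XT.lf (nat_lit 0) (nat_lit 139940719228) (nat_lit 76) (nat_lit 129829014453) (nat_lit 152) (nat_lit 28508522481) (nat_lit 61) (nat_lit 5) (nat_lit 62) (nat_lit 5) (nat_lit 63) (nat_lit 4) (nat_lit 470) (nat_lit 435) (nat_lit 295)) (XT.lf (nat_lit 0) (nat_lit 104243375960) (nat_lit 228) (nat_lit 179718103216) (nat_lit 76) (nat_lit 29995924066) (nat_lit 58) (nat_lit 5) (nat_lit 61) (nat_lit 5) (nat_lit 59) (nat_lit 4) (nat_lit 471) (nat_lit 435) (nat_lit 294)))) (XT.nd (nat_lit 156)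 (nat_lit 228) (nat_lit 0) (XT.nd (nat_lit 78) (nat_lit 228) (nat_lit 0) (XT.lf (nat_lit 0) (nat_lit 126454816136) (nat_lit 76) (nat_lit 127141478848) (nat_lit 152) (nat_lit 76922236056) (nat_lit 57) (nat_lit 5) (nat_lit 58) (nat_lit 5) (nat_lit 59) (nat_lit 4) (nat_lit 472) (nat_lit 435) (nat_lit 293)) (XT.lf (nat_lit 0) (nat_lit 70146670287) (nat_lit 228) (nat_lit 230883241535) (nat_lit 76) (nat_lit 47033632240) (nat_lit 54) (nat_lit 5) (nat_lit 57) (nat_lit 5) (nat_lit 55) (nat_lit 4) (nat_lit 473) (nat_lit 435) (nat_lit 292))) (XT.nd (nat_lit 78) (nat_lit 152) (nat_lit 0) (XT.lf (nat_lit 0) (nat_lit 104418452420) (nat_lit 76) (nat_lit 129290244695) (nat_lit 152) (nat_lit 132869280591) (nat_lit 53) (nat_lit 5) (nat_lit 54) (nat_lit 5) (nat_lit 55) (nat_lit 4) (nat_lit 474) (nat_lit 435) (nat_lit 291)) (XT.lf (nat_lit 0) (nat_lit 29500877058) (nat_lit 152) (nat_lit 296365872086) (nat_lit 76)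 (nat_lit 60364254965) (nat_lit 51) (nat_lit 5) (nat_lit 53) (nat_lit 5) (nat_lit 52) (nat_lit 4) (nat_lit 475) (nat_lit 435) (nat_lit 290))))) (XT.nd (nat_lit 312) (nat_lit 456) (nat_lit 0) (XT.nd (nat_lit 156) (nat_lit 152) (nat_lit 0) (XT.nd (nat_lit 78) (nat_lit 76) (nat_lit 0) (XT.lf (nat_lit 0) (nat_lit 69927364800) (nat_lit 76) (nat_lit 138253323641) (nat_lit 152) (nat_lit 198767918276) (nat_lit 50) (nat_lit 5) (nat_lit 51) (nat_lit 5) (nat_lit 52) (nat_lit 4) (nat_lit 476) (nat_lit 435) (nat_lit 289)) (XT.lf (nat_lit 0) (nat_lit 47470611409) (nat_lit 76) (nat_lit 360677108412) (nat_lit 76) (nat_lit 20826255967) (nat_lit 49) (nat_lit 4) (nat_lit 50) (nat_lit 5) (nat_lit 50) (nat_lit 4) (nat_lit 477) (nat_lit 435) (nat_lit 288))) (XT.nd (nat_lit 78) (nat_lit 0) (nat_lit 0) (XT.lf (nat_lit 0) (nat_lit 17753603615) (nat_lit 76) (nat_lit 156687744401) (nat_lit 152) (nat_lit 277757517995) (nat_lit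 47) (nat_lit 5) (nat_lit 48) (nat_lit 5) (nat_lit 49) (nat_lit 4) (nat_lit 478) (nat_lit 435) (nat_lit 287)) (XT.lf (nat_lit 0) (nat_lit 392357843770) (nat_lit 152) (nat_lit 15829174828) (nat_lit 0) (nat_lit 68689801460) (nat_lit 47) (nat_lit 5) (nat_lit 49) (nat_lit 4) (nat_lit 47) (nat_lit 4) (nat_lit 479) (nat_lit 435) (nat_lit 286)))) (XT.nd (nat_lit 156) (nat_lit 228) (nat_lit 0) (XT.nd (nat_lit 78) (nat_lit 76) (nat_lit 0) (XT.lf (nat_lit 0) (nat_lit 129997873879) (nat_lit 152) (nat_lit 57172651832) (nat_lit 76) (nat_lit 315771860021) (nat_lit 45) (nat_lit 5) (nat_lit 47) (nat_lit 5) (nat_lit 46) (nat_lit 4) (nat_lit 480) (nat_lit 435) (nat_lit 285)) (XT.lf (nat_lit 0) (nat_lit 366626723151) (nat_lit 152) (nat_lit 105630622032) (nat_lit 0) (nat_lit 58370984418) (nat_lit 44) (nat_lit 5) (nat_lit 46) (nat_lit 4) (nat_lit 44) (nat_lit 4) (nat_lit 481) (nat_lit 435) (nat_lit 284))) (XT.nd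 (nat_lit 78) (nat_lit 76) (nat_lit 0) (XT.lf (nat_lit 0) (nat_lit 70216806891) (nat_lit 152) (nat_lit 164311489530) (nat_lit 76) (nat_lit 325426047049) (nat_lit 42) (nat_lit 5) (nat_lit 44) (nat_lit 5) (nat_lit 43) (nat_lit 4) (nat_lit 482) (nat_lit 435) (nat_lit 283)) (XT.lf (nat_lit 0) (nat_lit 325476085946) (nat_lit 152) (nat_lit 233714648421) (nat_lit 0) (nat_lit 31898816039) (nat_lit 41) (nat_lit 5) (nat_lit 43) (nat_lit 4) (nat_lit 41) (nat_lit 4) (nat_lit 483) (nat_lit 435) (nat_lit 282)))))) (XT.nd (nat_lit 546) (nat_lit 684) (nat_lit 0) (XT.nd (nat_lit 234) (nat_lit 380) (nat_lit 0) (XT.nd (nat_lit 78) (nat_lit 228) (nat_lit 0) (XT.lf (nat_lit 0) (nat_lit 307945273732) (nat_lit 76) (nat_lit 304882087356) (nat_lit 76) (nat_lit 11304650125) (nat_lit 40) (nat_lit 4) (nat_lit 41) (nat_lit 5) (nat_lit 41) (nat_lit 4) (nat_lit 484) (nat_lit 435) (nat_lit 281)) (XT.nd (nat_lit 78) (nat_lit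 76) (nat_lit 0) (XT.lf (nat_lit 0) (nat_lit 245343074902) (nat_lit 76) (nat_lit 17545055372) (nat_lit 152) (nat_lit 396325754453) (nat_lit 38) (nat_lit 5) (nat_lit 39) (nat_lit 5) (nat_lit 40) (nat_lit 4) (nat_lit 485) (nat_lit 435) (nat_lit 280)) (XT.lf (nat_lit 0) (nat_lit 166743485749) (nat_lit 76) (nat_lit 404654262969) (nat_lit 76) (nat_lit 125056419528) (nat_lit 37) (nat_lit 4) (nat_lit 38) (nat_lit 5) (nat_lit 38) (nat_lit 4) (nat_lit 486) (nat_lit 435) (nat_lit 279)))) (XT.nd (nat_lit 156) (nat_lit 228) (nat_lit 0) (XT.nd (nat_lit 78) (nat_lit 0) (nat_lit 0) (XT.lf (nat_lit 0) (nat_lit 71525944160) (nat_lit 76) (nat_lit 99754013939) (nat_lit 152) (nat_lit 564825645218) (nat_lit 35) (nat_lit 5) (nat_lit 36) (nat_lit 5) (nat_lit 37) (nat_lit 4) (nat_lit 487) (nat_lit 435) (nat_lit 278)) (XT.lf (nat_lit 0) (nat_lit 499962377774) (nat_lit 152) (nat_lit 44534759857) (nat_lit 0) (nat_lit 233678485322)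 (nat_lit 35) (nat_lit 5) (nat_lit 37) (nat_lit 4) (nat_lit 35) (nat_lit 4) (nat_lit 488) (nat_lit 435) (nat_lit 277))) (XT.nd (nat_lit 78) (nat_lit 76) (nat_lit 0) (XT.lf (nat_lit 0) (nat_lit 42254965467) (nat_lit 152) (nat_lit 179661316534) (nat_lit 76) (nat_lit 601074030409) (nat_lit 33) (nat_lit 5) (nat_lit 35) (nat_lit 5) (nat_lit 34) (nat_lit 4) (nat_lit 489) (nat_lit 435) (nat_lit 276)) (XT.lf (nat_lit 0) (nat_lit 389985768580) (nat_lit 152) (nat_lit 344225874151) (nat_lit 0) (nat_lit 136381872025) (nat_lit 32) (nat_lit 5) (nat_lit 34) (nat_lit 4) (nat_lit 32) (nat_lit 4) (nat_lit 490) (nat_lit 435) (nat_lit 275))))) (XT.nd (nat_lit 312) (nat_lit 380) (nat_lit 0) (XT.nd (nat_lit 156) (nat_lit 76) (nat_lit 0) (XT.nd (nat_lit 78) (nat_lit 152) (nat_lit 0) (XT.lf (nat_lit 0) (nat_lit 381874712142) (nat_lit 76) (nat_lit 396545004017) (nat_lit 76) (nat_lit 142941023125) (nat_lit 31) (nat_lit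 4) (nat_lit 32) (nat_lit 5) (nat_lit 32) (nat_lit 4) (nat_lit 491) (nat_lit 435) (nat_lit 274)) (XT.lf (nat_lit 0) (nat_lit 205481948889) (nat_lit 76) (nat_lit 18462445194) (nat_lit 152) (nat_lit 751606729786) (nat_lit 29) (nat_lit 5) (nat_lit 30) (nat_lit 5) (nat_lit 31) (nat_lit 4) (nat_lit 492) (nat_lit 435) (nat_lit 273))) (XT.nd (nat_lit 78) (nat_lit 76) (nat_lit 0) (XT.lf (nat_lit 0) (nat_lit 630877864433) (nat_lit 152) (nat_lit 12946330824) (nat_lit 0) (nat_lit 389350120348) (nat_lit 29) (nat_lit 5) (nat_lit 31) (nat_lit 4) (nat_lit 29) (nat_lit 4) (nat_lit 493) (nat_lit 435) (nat_lit 272)) (XT.lf (nat_lit 0) (nat_lit 831032821092) (nat_lit 76) (nat_lit 252619028782) (nat_lit 76) (nat_lit 11091220935) (nat_lit 28) (nat_lit 4) (nat_lit 29) (nat_lit 5) (nat_lit 29) (nat_lit 4) (nat_lit 494) (nat_lit 435) (nat_lit 271)))) (XT.nd (nat_lit 156) (nat_lit 152) (nat_lit 0) (XT.nd (nat_lit 78)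 (nat_lit 76) (nat_lit 0) (XT.lf (nat_lit 0) (nat_lit 410664906364) (nat_lit 152) (nat_lit 568991781024) (nat_lit 0) (nat_lit 180638366472) (nat_lit 26) (nat_lit 5) (nat_lit 28) (nat_lit 4) (nat_lit 26) (nat_lit 4) (nat_lit 495) (nat_lit 435) (nat_lit 270)) (XT.lf (nat_lit 0) (nat_lit 298298417273) (nat_lit 76) (nat_lit 581065368432) (nat_lit 76) (nat_lit 351038776478) (nat_lit 25) (nat_lit 4) (nat_lit 26) (nat_lit 5) (nat_lit 26) (nat_lit 4) (nat_lit 496) (nat_lit 435) (nat_lit 269))) (XT.nd (nat_lit 78) (nat_lit 76) (nat_lit 0) (XT.lf (nat_lit 0) (nat_lit 86971078375) (nat_lit 152) (nat_lit 51735929490) (nat_lit 76) (nat_lit 1166845961972) (nat_lit 24) (nat_lit 5) (nat_lit 26) (nat_lit 5) (nat_lit 25) (nat_lit 4) (nat_lit 497) (nat_lit 435) (nat_lit 268)) (XT.lf (nat_lit 0) (nat_lit 567919336142) (nat_lit 152) (nat_lit 468652219092) (nat_lit 0) (nat_lit 348846303004) (nat_lit 23) (nat_lit 5)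 (nat_lit 25) (nat_lit 4) (nat_lit 23) (nat_lit 4) (nat_lit 498) (nat_lit 435) (nat_lit 267))))))))
noncomputable def xc97 : XT := (XT.nd (nat_lit 59670) (nat_lit 0) (nat_lit 836) (XT.nd (nat_lit 58500) (nat_lit 0) (nat_lit 4484) (XT.nd (nat_lit 57954) (nat_lit 0) (nat_lit 8056) (XT.nd (nat_lit 57642) (nat_lit 0) (nat_lit 9728) (XT.nd (nat_lit 78) (nat_lit 152) (nat_lit 0) (XT.lf (nat_lit 0) (nat_lit 506835841516) (nat_lit 76) (nat_lit 591675389925) (nat_lit 76) (nat_lit 372602317426) (nat_lit 22) (nat_lit 4) (nat_lit 23) (nat_lit 5) (nat_lit 23) (nat_lit 4) (nat_lit 499) (nat_lit 435) (nat_lit 266)) (XT.nd (nat_lit 57486) (nat_lit 0) (nat_lit 9652) (XT.lf (nat_lit 0) (nat_lit 12420601174) (nat_lit 76) (nat_lit 100503159859) (nat_lit 152) (nat_lit 1450232354407) (nat_lit 20) (nat_lit 5) (nat_lit 21) (nat_lit 5) (nat_lit 22) (nat_lit 4) (nat_lit 500) (nat_lit 435) (nat_lit 265)) (XT.lf (nat_lit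 0) (nat_lit 13376701529) (nat_lit 836) (nat_lit 9522483836) (nat_lit 836) (nat_lit 9522483836) (nat_lit 147) (nat_lit 3) (nat_lit 158) (nat_lit 3) (nat_lit 158) (nat_lit 5) (nat_lit 436) (nat_lit 436) (nat_lit 328)))) (XT.nd (nat_lit 156) (nat_lit 0) (nat_lit 76) (XT.nd (nat_lit 78) (nat_lit 0) (nat_lit 0) (XT.lf (nat_lit 0) (nat_lit 28450083858) (nat_lit 760) (nat_lit 34008627912) (nat_lit 836) (nat_lit 4947029218) (nat_lit 148) (nat_lit 5) (nat_lit 158) (nat_lit 5) (nat_lit 159) (nat_lit 5) (nat_lit 437) (nat_lit 436) (nat_lit 327)) (XT.lf (nat_lit 76) (nat_lit 20432958457) (nat_lit 0) (nat_lit 11275583838) (nat_lit 836) (nat_lit 38393291700) (nat_lit 149) (nat_lit 5) (nat_lit 148) (nat_lit 5) (nat_lit 159) (nat_lit 5) (nat_lit 438) (nat_lit 436) (nat_lit 326))) (XT.nd (nat_lit 78) (nat_lit 0) (nat_lit 76) (XT.lf (nat_lit 76) (nat_lit 6985684702) (nat_lit 0) (nat_lit 29637940284) (nat_lit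 836) (nat_lit 36320192421) (nat_lit 150) (nat_lit 5) (nat_lit 149) (nat_lit 5) (nat_lit 160) (nat_lit 5) (nat_lit 439) (nat_lit 436) (nat_lit 325)) (XT.lf (nat_lit 0) (nat_lit 43399978974) (nat_lit 760) (nat_lit 6630134065) (nat_lit 836) (nat_lit 25909643537) (nat_lit 150) (nat_lit 5) (nat_lit 160) (nat_lit 5) (nat_lit 161) (nat_lit 5) (nat_lit 440) (nat_lit 436) (nat_lit 324))))) (XT.nd (nat_lit 234) (nat_lit 1216) (nat_lit 0) (XT.nd (nat_lit 78) (nat_lit 684) (nat_lit 0) (XT.lf (nat_lit 0) (nat_lit 52239162075) (nat_lit 760) (nat_lit 20383320128) (nat_lit 836) (nat_lit 6476852932) (nat_lit 151) (nat_lit 5) (nat_lit 161) (nat_lit 5) (nat_lit 162) (nat_lit 5) (nat_lit 441) (nat_lit 436) (nat_lit 323)) (XT.nd (nat_lit 78) (nat_lit 684) (nat_lit 0) (XT.lf (nat_lit 76) (nat_lit 47700455041) (nat_lit 0) (nat_lit 15788947186) (nat_lit 836) (nat_lit 18937081905) (nat_lit 152) (nat_lit 5) (nat_lit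 151) (nat_lit 5) (nat_lit 162) (nat_lit 5) (nat_lit 442) (nat_lit 436) (nat_lit 322)) (XT.lf (nat_lit 0) (nat_lit 36402748723) (nat_lit 760) (nat_lit 40876269522) (nat_lit 836) (nat_lit 8658819224) (nat_lit 142) (nat_lit 5) (nat_lit 152) (nat_lit 5) (nat_lit 153) (nat_lit 5) (nat_lit 443) (nat_lit 436) (nat_lit 321)))) (XT.nd (nat_lit 156) (nat_lit 380) (nat_lit 0) (XT.nd (nat_lit 78) (nat_lit 380) (nat_lit 0) (XT.lf (nat_lit 0) (nat_lit 3974799208) (nat_lit 456) (nat_lit 64747435804) (nat_lit 76) (nat_lit 20925395965) (nat_lit 136) (nat_lit 5) (nat_lit 142) (nat_lit 5) (nat_lit 137) (nat_lit 5) (nat_lit 444) (nat_lit 436) (nat_lit 320)) (XT.lf (nat_lit 0) (nat_lit 13013741692) (nat_lit 380) (nat_lit 6073992187) (nat_lit 456) (nat_lit 74470777419) (nat_lit 131) (nat_lit 5) (nat_lit 136) (nat_lit 5) (nat_lit 137) (nat_lit 5) (nat_lit 445) (nat_lit 436) (nat_lit 319))) (XT.nd (nat_lit 78) (nat_lit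 0) (nat_lit 0) (XT.lf (nat_lit 0) (nat_lit 620382228) (nat_lit 380) (nat_lit 36905465757) (nat_lit 456) (nat_lit 60150607019) (nat_lit 126) (nat_lit 5) (nat_lit 131) (nat_lit 5) (nat_lit 132) (nat_lit 5) (nat_lit 446) (nat_lit 436) (nat_lit 318)) (XT.lf (nat_lit 0) (nat_lit 59442746069) (nat_lit 456) (nat_lit 11502252129) (nat_lit 76) (nat_lit 31078649443) (nat_lit 126) (nat_lit 5) (nat_lit 132) (nat_lit 5) (nat_lit 127) (nat_lit 5) (nat_lit 447) (nat_lit 436) (nat_lit 317)))))) (XT.nd (nat_lit 546) (nat_lit 1520) (nat_lit 0) (XT.nd (nat_lit 234) (nat_lit 1064) (nat_lit 0) (XT.nd (nat_lit 78) (nat_lit 684) (nat_lit 0) (XT.lf (nat_lit 0) (nat_lit 82926346263) (nat_lit 304) (nat_lit 2102415309) (nat_lit 380) (nat_lit 21594066002) (nat_lit 122) (nat_lit 5) (nat_lit 126) (nat_lit 5) (nat_lit 127) (nat_lit 5) (nat_lit 448) (nat_lit 436) (nat_lit 316)) (XT.nd (nat_lit 78) (nat_lit 304) (nat_lit 0)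 (XT.lf (nat_lit 0) (nat_lit 3579971902) (nat_lit 380) (nat_lit 36514489992) (nat_lit 76) (nat_lit 71367515672) (nat_lit 117) (nat_lit 5) (nat_lit 122) (nat_lit 5) (nat_lit 118) (nat_lit 5) (nat_lit 449) (nat_lit 436) (nat_lit 315)) (XT.lf (nat_lit 0) (nat_lit 32088091436) (nat_lit 380) (nat_lit 49743546207) (nat_lit 76) (nat_lit 34735086520) (nat_lit 113) (nat_lit 5) (nat_lit 118) (nat_lit 5) (nat_lit 114) (nat_lit 5) (nat_lit 450) (nat_lit 436) (nat_lit 314)))) (XT.nd (nat_lit 156) (nat_lit 532) (nat_lit 0) (XT.nd (nat_lit 78) (nat_lit 228) (nat_lit 0) (XT.lf (nat_lit 0) (nat_lit 58880423139) (nat_lit 304) (nat_lit 6237212359) (nat_lit 380) (nat_lit 56850176366) (nat_lit 109) (nat_lit 5) (nat_lit 113) (nat_lit 5) (nat_lit 114) (nat_lit 5) (nat_lit 451) (nat_lit 436) (nat_lit 313)) (XT.lf (nat_lit 0) (nat_lit 50640972784) (nat_lit 228) (nat_lit 52996191664) (nat_lit 304) (nat_lit 24021441180)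 (nat_lit 106) (nat_lit 5) (nat_lit 109) (nat_lit 5) (nat_lit 110) (nat_lit 5) (nat_lit 452) (nat_lit 436) (nat_lit 312))) (XT.nd (nat_lit 78) (nat_lit 228) (nat_lit 0) (XT.lf (nat_lit 0) (nat_lit 13430566122) (nat_lit 304) (nat_lit 91125355806) (nat_lit 76) (nat_lit 29121669561) (nat_lit 102) (nat_lit 5) (nat_lit 106) (nat_lit 5) (nat_lit 103) (nat_lit 5) (nat_lit 453) (nat_lit 436) (nat_lit 311)) (XT.lf (nat_lit 0) (nat_lit 34096293413) (nat_lit 228) (nat_lit 21740714512) (nat_lit 304) (nat_lit 84181405271) (nat_lit 99) (nat_lit 5) (nat_lit 102) (nat_lit 5) (nat_lit 103) (nat_lit 5) (nat_lit 454) (nat_lit 436) (nat_lit 310))))) (XT.nd (nat_lit 312) (nat_lit 836) (nat_lit 0) (XT.nd (nat_lit 156) (nat_lit 228) (nat_lit 0) (XT.nd (nat_lit 78) (nat_lit 228) (nat_lit 0) (XT.lf (nat_lit 0) (nat_lit 25535609710) (nat_lit 228) (nat_lit 79168505048) (nat_lit 304) (nat_lit 42008978485) (nat_lit 96) (nat_lit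 5) (nat_lit 99) (nat_lit 5) (nat_lit 100) (nat_lit 5) (nat_lit 455) (nat_lit 436) (nat_lit 309)) (XT.lf (nat_lit 0) (nat_lit 6120383282) (nat_lit 228) (nat_lit 136446414605) (nat_lit 76) (nat_lit 11238970835) (nat_lit 93) (nat_lit 5) (nat_lit 96) (nat_lit 5) (nat_lit 94) (nat_lit 5) (nat_lit 456) (nat_lit 436) (nat_lit 308))) (XT.nd (nat_lit 78) (nat_lit 0) (nat_lit 0) (XT.lf (nat_lit 0) (nat_lit 8127034104) (nat_lit 228) (nat_lit 52127383538) (nat_lit 304) (nat_lit 100995701398) (nat_lit 90) (nat_lit 5) (nat_lit 93) (nat_lit 5) (nat_lit 94) (nat_lit 5) (nat_lit 457) (nat_lit 436) (nat_lit 307)) (XT.lf (nat_lit 0) (nat_lit 121845290246) (nat_lit 304) (nat_lit 783657759) (nat_lit 76) (nat_lit 46504763670) (nat_lit 90) (nat_lit 5) (nat_lit 94) (nat_lit 5) (nat_lit 91) (nat_lit 5) (nat_lit 458) (nat_lit 436) (nat_lit 306)))) (XT.nd (nat_lit 156) (nat_lit 380) (nat_lit 0) (XT.nd (nat_lit 78) (nat_lit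 228) (nat_lit 0) (XT.lf (nat_lit 0) (nat_lit 13935003994) (nat_lit 228) (nat_lit 9449678921) (nat_lit 76) (nat_lit 154076817755) (nat_lit 87) (nat_lit 5) (nat_lit 90) (nat_lit 5) (nat_lit 88) (nat_lit 5) (nat_lit 459) (nat_lit 436) (nat_lit 305)) (XT.lf (nat_lit 0) (nat_lit 82430040817) (nat_lit 304) (nat_lit 19170475669) (nat_lit 76) (nat_lit 84614710686) (nat_lit 84) (nat_lit 5) (nat_lit 88) (nat_lit 5) (nat_lit 85) (nat_lit 5) (nat_lit 460) (nat_lit 436) (nat_lit 304))) (XT.nd (nat_lit 78) (nat_lit 228) (nat_lit 0) (XT.lf (nat_lit 0) (nat_lit 159697954513) (nat_lit 228) (nat_lit 28339599061) (nat_lit 76) (nat_lit 7467034574) (nat_lit 82) (nat_lit 5) (nat_lit 85) (nat_lit 5) (nat_lit 83) (nat_lit 5) (nat_lit 461) (nat_lit 436) (nat_lit 303)) (XT.lf (nat_lit 0) (nat_lit 41145332091) (nat_lit 228) (nat_lit 38764298423) (nat_lit 76) (nat_lit 125361162990) (nat_lit 79) (nat_lit 5) (nat_lit 82)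 (nat_lit 5) (nat_lit 80) (nat_lit 5) (nat_lit 462) (nat_lit 436) (nat_lit 302))))))) (XT.nd (nat_lit 1170) (nat_lit 1444) (nat_lit 0) (XT.nd (nat_lit 546) (nat_lit 1064) (nat_lit 0) (XT.nd (nat_lit 234) (nat_lit 608) (nat_lit 0) (XT.nd (nat_lit 78) (nat_lit 380) (nat_lit 0) (XT.lf (nat_lit 0) (nat_lit 126758899458) (nat_lit 228) (nat_lit 49382016736) (nat_lit 76) (nat_lit 39460032713) (nat_lit 77) (nat_lit 5) (nat_lit 80) (nat_lit 5) (nat_lit 78) (nat_lit 5) (nat_lit 463) (nat_lit 436) (nat_lit 301)) (XT.nd (nat_lit 78) (nat_lit 228) (nat_lit 0) (XT.lf (nat_lit 0) (nat_lit 166221968021) (nat_lit 152) (nat_lit 57627923773) (nat_lit 228) (nat_lit 2676208009) (nat_lit 75) (nat_lit 5) (nat_lit 77) (nat_lit 5) (nat_lit 78) (nat_lit 5) (nat_lit 464) (nat_lit 436) (nat_lit 300)) (XT.lf (nat_lit 0) (nat_lit 92141349806) (nat_lit 228) (nat_lit 72802874157) (nat_lit 76) (nat_lit 73077919005) (nat_lit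 72) (nat_lit 5) (nat_lit 75) (nat_lit 5) (nat_lit 73) (nat_lit 5) (nat_lit 465) (nat_lit 436) (nat_lit 299)))) (XT.nd (nat_lit 156) (nat_lit 304) (nat_lit 0) (XT.nd (nat_lit 78) (nat_lit 152) (nat_lit 0) (XT.lf (nat_lit 0) (nat_lit 164791988187) (nat_lit 152) (nat_lit 34271521642) (nat_lit 228) (nat_lit 51141518230) (nat_lit 70) (nat_lit 5) (nat_lit 72) (nat_lit 5) (nat_lit 73) (nat_lit 5) (nat_lit 466) (nat_lit 436) (nat_lit 298)) (XT.lf (nat_lit 0) (nat_lit 55150773452) (nat_lit 152) (nat_lit 99713545391) (nat_lit 76) (nat_lit 108177681645) (nat_lit 68) (nat_lit 5) (nat_lit 70) (nat_lit 5) (nat_lit 69) (nat_lit 5) (nat_lit 467) (nat_lit 436) (nat_lit 297))) (XT.nd (nat_lit 78) (nat_lit 152) (nat_lit 0) (XT.lf (nat_lit 0) (nat_lit 161904222113) (nat_lit 152) (nat_lit 10891806615) (nat_lit 228) (nat_lit 103835916234) (nat_lit 66) (nat_lit 5) (nat_lit 68) (nat_lit 5) (nat_lit 69) (nat_lit 5)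 (nat_lit 468) (nat_lit 436) (nat_lit 296)) (XT.lf (nat_lit 0) (nat_lit 14891654478) (nat_lit 152) (nat_lit 131612028478) (nat_lit 76) (nat_lit 144467667880) (nat_lit 64) (nat_lit 5) (nat_lit 66) (nat_lit 5) (nat_lit 65) (nat_lit 5) (nat_lit 469) (nat_lit 436) (nat_lit 295))))) (XT.nd (nat_lit 312) (nat_lit 532) (nat_lit 0) (XT.nd (nat_lit 156) (nat_lit 304) (nat_lit 0) (XT.nd (nat_lit 78) (nat_lit 76) (nat_lit 0) (XT.lf (nat_lit 0) (nat_lit 144367137564) (nat_lit 228) (nat_lit 150182913446) (nat_lit 76) (nat_lit 11578366214) (nat_lit 62) (nat_lit 5) (nat_lit 65) (nat_lit 5) (nat_lit 63) (nat_lit 4) (nat_lit 470) (nat_lit 436) (nat_lit 294)) (XT.lf (nat_lit 0) (nat_lit 151153132351) (nat_lit 76) (nat_lit 140207487495) (nat_lit 152) (nat_lit 30779431067) (nat_lit 61) (nat_lit 5) (nat_lit 62) (nat_lit 5) (nat_lit 63) (nat_lit 4) (nat_lit 471) (nat_lit 436) (nat_lit 293))) (XT.nd (nat_lit 78) (nat_lit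 76) (nat_lit 0) (XT.lf (nat_lit 0) (nat_lit 112591986605) (nat_lit 228) (nat_lit 194078510600) (nat_lit 76) (nat_lit 32403040942) (nat_lit 58) (nat_lit 5) (nat_lit 61) (nat_lit 5) (nat_lit 59) (nat_lit 4) (nat_lit 472) (nat_lit 436) (nat_lit 292)) (XT.lf (nat_lit 0) (nat_lit 136587501725) (nat_lit 76) (nat_lit 137305214841) (nat_lit 152) (nat_lit 83066860757) (nat_lit 57) (nat_lit 5) (nat_lit 58) (nat_lit 5) (nat_lit 59) (nat_lit 4) (nat_lit 473) (nat_lit 436) (nat_lit 291)))) (XT.nd (nat_lit 156) (nat_lit 228) (nat_lit 0) (XT.nd (nat_lit 78) (nat_lit 76) (nat_lit 0) (XT.lf (nat_lit 0) (nat_lit 75766972375) (nat_lit 228) (nat_lit 249337721366) (nat_lit 76) (nat_lit 50803505157) (nat_lit 54) (nat_lit 5) (nat_lit 57) (nat_lit 5) (nat_lit 55) (nat_lit 4) (nat_lit 474) (nat_lit 436) (nat_lit 290)) (XT.lf (nat_lit 0) (nat_lit 112787404965) (nat_lit 76) (nat_lit 139626163313) (nat_lit 152) (nat_lit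 143490238630) (nat_lit 53) (nat_lit 5) (nat_lit 54) (nat_lit 5) (nat_lit 55) (nat_lit 4) (nat_lit 475) (nat_lit 436) (nat_lit 289))) (XT.nd (nat_lit 78) (nat_lit 76) (nat_lit 0) (XT.lf (nat_lit 0) (nat_lit 31868988017) (nat_lit 152) (nat_lit 320059789799) (nat_lit 76) (nat_lit 65200304366) (nat_lit 51) (nat_lit 5) (nat_lit 53) (nat_lit 5) (nat_lit 52) (nat_lit 4) (nat_lit 476) (nat_lit 436) (nat_lit 288)) (XT.lf (nat_lit 0) (nat_lit 75536238857) (nat_lit 76) (nat_lit 149306579111) (nat_lit 152) (nat_lit 214661293363) (nat_lit 50) (nat_lit 5) (nat_lit 51) (nat_lit 5) (nat_lit 52) (nat_lit 4) (nat_lit 477) (nat_lit 436) (nat_lit 287)))))) (XT.nd (nat_lit 546) (nat_lit 760) (nat_lit 0) (XT.nd (nat_lit 234) (nat_lit 456) (nat_lit 0) (XT.nd (nat_lit 78) (nat_lit 152) (nat_lit 0) (XT.lf (nat_lit 0) (nat_lit 51282569551) (nat_lit 76) (nat_lit 389524398582) (nat_lit 76) (nat_lit 22484553996) (nat_lit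 49) (nat_lit 4) (nat_lit 50) (nat_lit 5) (nat_lit 50) (nat_lit 4) (nat_lit 478) (nat_lit 436) (nat_lit 286)) (XT.nd (nat_lit 78) (nat_lit 0) (nat_lit 0) (XT.lf (nat_lit 0) (nat_lit 19187818315) (nat_lit 76) (nat_lit 169216048233) (nat_lit 152) (nat_lit 299970548046) (nat_lit 47) (nat_lit 5) (nat_lit 48) (nat_lit 5) (nat_lit 49) (nat_lit 4) (nat_lit 479) (nat_lit 436) (nat_lit 285)) (XT.lf (nat_lit 0) (nat_lit 423753244921) (nat_lit 152) (nat_lit 17082377094) (nat_lit 0) (nat_lit 74191004813) (nat_lit 47) (nat_lit 5) (nat_lit 49) (nat_lit 4) (nat_lit 47) (nat_lit 4) (nat_lit 480) (nat_lit 436) (nat_lit 284)))) (XT.nd (nat_lit 156) (nat_lit 228) (nat_lit 0) (XT.nd (nat_lit 78) (nat_lit 76) (nat_lit 0) (XT.lf (nat_lit 0) (nat_lit 140404277969) (nat_lit 152) (nat_lit 61733685440) (nat_lit 76) (nat_lit 341039484338) (nat_lit 45) (nat_lit 5) (nat_lit 47) (nat_lit 5) (nat_lit 46) (nat_lit 4) (nat_lit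 481) (nat_lit 436) (nat_lit 283)) (XT.lf (nat_lit 0) (nat_lit 395963231866) (nat_lit 152) (nat_lit 114068627390) (nat_lit 0) (nat_lit 63046418046) (nat_lit 44) (nat_lit 5) (nat_lit 46) (nat_lit 4) (nat_lit 44) (nat_lit 4) (nat_lit 482) (nat_lit 436) (nat_lit 282))) (XT.nd (nat_lit 78) (nat_lit 76) (nat_lit 0) (XT.lf (nat_lit 0) (nat_lit 75840336099) (nat_lit 152) (nat_lit 177444300505) (nat_lit 76) (nat_lit 351465745001) (nat_lit 42) (nat_lit 5) (nat_lit 44) (nat_lit 5) (nat_lit 43) (nat_lit 4) (nat_lit 483) (nat_lit 436) (nat_lit 281)) (XT.lf (nat_lit 0) (nat_lit 351520168780) (nat_lit 152) (nat_lit 252400031441) (nat_lit 0) (nat_lit 34456214317) (nat_lit 41) (nat_lit 5) (nat_lit 43) (nat_lit 4) (nat_lit 41) (nat_lit 4) (nat_lit 484) (nat_lit 436) (nat_lit 280))))) (XT.nd (nat_lit 312) (nat_lit 304) (nat_lit 0) (XT.nd (nat_lit 156) (nat_lit 228) (nat_lit 0) (XT.nd (nat_lit 78) (nat_lit 152)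 (nat_lit 0) (XT.lf (nat_lit 0) (nat_lit 332592172155) (nat_lit 76) (nat_lit 329267105692) (nat_lit 76) (nat_lit 12203007776) (nat_lit 40) (nat_lit 4) (nat_lit 41) (nat_lit 5) (nat_lit 41) (nat_lit 4) (nat_lit 485) (nat_lit 436) (nat_lit 279)) (XT.lf (nat_lit 0) (nat_lit 264981491571) (nat_lit 76) (nat_lit 18943251020) (nat_lit 152) (nat_lit 428025974737) (nat_lit 38) (nat_lit 5) (nat_lit 39) (nat_lit 5) (nat_lit 40) (nat_lit 4) (nat_lit 486) (nat_lit 436) (nat_lit 278))) (XT.nd (nat_lit 78) (nat_lit 152) (nat_lit 0) (XT.lf (nat_lit 0) (nat_lit 180093643825) (nat_lit 76) (nat_lit 437021319617) (nat_lit 76) (nat_lit 135055268445) (nat_lit 37) (nat_lit 4) (nat_lit 38) (nat_lit 5) (nat_lit 38) (nat_lit 4) (nat_lit 487) (nat_lit 436) (nat_lit 277)) (XT.lf (nat_lit 0) (nat_lit 77258408297) (nat_lit 76) (nat_lit 107729185811) (nat_lit 152) (nat_lit 610006195437) (nat_lit 35) (nat_lit 5) (nat_lit 36)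 (nat_lit 5) (nat_lit 37) (nat_lit 4) (nat_lit 488) (nat_lit 436) (nat_lit 276)))) (XT.nd (nat_lit 156) (nat_lit 152) (nat_lit 0) (XT.nd (nat_lit 78) (nat_lit 152) (nat_lit 0) (XT.lf (nat_lit 0) (nat_lit 539964293697) (nat_lit 152) (nat_lit 48087753381) (nat_lit 0) (nat_lit 252377379365) (nat_lit 35) (nat_lit 5) (nat_lit 37) (nat_lit 4) (nat_lit 35) (nat_lit 4) (nat_lit 489) (nat_lit 436) (nat_lit 275)) (XT.lf (nat_lit 0) (nat_lit 45640146924) (nat_lit 152) (nat_lit 194024701691) (nat_lit 76) (nat_lit 649164449522) (nat_lit 33) (nat_lit 5) (nat_lit 35) (nat_lit 5) (nat_lit 34) (nat_lit 4) (nat_lit 490) (nat_lit 436) (nat_lit 274))) (XT.nd (nat_lit 78) (nat_lit 76) (nat_lit 0) (XT.lf (nat_lit 0) (nat_lit 421189272871) (nat_lit 152) (nat_lit 371754679797) (nat_lit 0) (nat_lit 147296811079) (nat_lit 32) (nat_lit 5) (nat_lit 34) (nat_lit 4) (nat_lit 32) (nat_lit 4) (nat_lit 491) (nat_lit 436) (nat_lit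 273)) (XT.lf (nat_lit 0) (nat_lit 412433550786) (nat_lit 76) (nat_lit 428264179915) (nat_lit 76) (nat_lit 154371645816) (nat_lit 31) (nat_lit 4) (nat_lit 32) (nat_lit 5) (nat_lit 32) (nat_lit 4) (nat_lit 492) (nat_lit 436) (nat_lit 272))))))))
noncomputable def xc98 : XT := (XT.nd (nat_lit 59748) (nat_lit 0) (nat_lit 1216) (XT.nd (nat_lit 58578) (nat_lit 0) (nat_lit 5396) (XT.nd (nat_lit 546) (nat_lit 76) (nat_lit 0) (XT.nd (nat_lit 234) (nat_lit 380) (nat_lit 0) (XT.nd (nat_lit 78) (nat_lit 76) (nat_lit 0) (XT.lf (nat_lit 0) (nat_lit 221929124040) (nat_lit 76) (nat_lit 19935132100) (nat_lit 152) (nat_lit 811730742070) (nat_lit 29) (nat_lit 5) (nat_lit 30) (nat_lit 5) (nat_lit 31) (nat_lit 4) (nat_lit 493) (nat_lit 436) (nat_lit 271)) (XT.nd (nat_lit 78) (nat_lit 76) (nat_lit 0) (XT.lf (nat_lit 0) (nat_lit 681352147107) (nat_lit 152) (nat_lit 13973919201) (nat_lit 0) (nat_lit 420501991831) (nat_lit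 29) (nat_lit 5) (nat_lit 31) (nat_lit 4) (nat_lit 29) (nat_lit 4) (nat_lit 494) (nat_lit 436) (nat_lit 270)) (XT.lf (nat_lit 0) (nat_lit 897523212066) (nat_lit 76) (nat_lit 272824660294) (nat_lit 76) (nat_lit 11974450352) (nat_lit 28) (nat_lit 4) (nat_lit 29) (nat_lit 5) (nat_lit 29) (nat_lit 4) (nat_lit 495) (nat_lit 436) (nat_lit 269)))) (XT.nd (nat_lit 156) (nat_lit 152) (nat_lit 0) (XT.nd (nat_lit 78) (nat_lit 76) (nat_lit 0) (XT.lf (nat_lit 0) (nat_lit 443521922271) (nat_lit 152) (nat_lit 614503442005) (nat_lit 0) (nat_lit 195093102692) (nat_lit 26) (nat_lit 5) (nat_lit 28) (nat_lit 4) (nat_lit 26) (nat_lit 4) (nat_lit 496) (nat_lit 436) (nat_lit 268)) (XT.lf (nat_lit 0) (nat_lit 322169638327) (nat_lit 76) (nat_lit 627546905135) (nat_lit 76) (nat_lit 379118040921) (nat_lit 25) (nat_lit 4) (nat_lit 26) (nat_lit 5) (nat_lit 26) (nat_lit 4) (nat_lit 497) (nat_lit 436) (nat_lit 267))) (XT.nd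 (nat_lit 78) (nat_lit 76) (nat_lit 0) (XT.lf (nat_lit 0) (nat_lit 93932204317) (nat_lit 152) (nat_lit 55867886692) (nat_lit 76) (nat_lit 1260196944405) (nat_lit 24) (nat_lit 5) (nat_lit 26) (nat_lit 5) (nat_lit 25) (nat_lit 4) (nat_lit 498) (nat_lit 436) (nat_lit 266)) (XT.lf (nat_lit 0) (nat_lit 613356223183) (nat_lit 152) (nat_lit 506137667605) (nat_lit 0) (nat_lit 376757229078) (nat_lit 23) (nat_lit 5) (nat_lit 25) (nat_lit 4) (nat_lit 23) (nat_lit 4) (nat_lit 499) (nat_lit 436) (nat_lit 265))))) (XT.nd (nat_lit 57720) (nat_lit 0) (nat_lit 9576) (XT.nd (nat_lit 57564) (nat_lit 0) (nat_lit 9500) (XT.lf (nat_lit 0) (nat_lit 547389145417) (nat_lit 76) (nat_lit 639006177764) (nat_lit 76) (nat_lit 402407149913) (nat_lit 22) (nat_lit 4) (nat_lit 23) (nat_lit 5) (nat_lit 23) (nat_lit 4) (nat_lit 500) (nat_lit 436) (nat_lit 264)) (XT.nd (nat_lit 78) (nat_lit 0) (nat_lit 76) (XT.lf (nat_lit 0) (nat_lit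 14470283198) (nat_lit 836) (nat_lit 10271971817) (nat_lit 836) (nat_lit 10271971817) (nat_lit 147) (nat_lit 3) (nat_lit 158) (nat_lit 3) (nat_lit 158) (nat_lit 5) (nat_lit 437) (nat_lit 437) (nat_lit 326)) (XT.lf (nat_lit 0) (nat_lit 30769560041) (nat_lit 760) (nat_lit 36703254819) (nat_lit 836) (nat_lit 5323205218) (nat_lit 148) (nat_lit 5) (nat_lit 158) (nat_lit 5) (nat_lit 159) (nat_lit 5) (nat_lit 438) (nat_lit 437) (nat_lit 325)))) (XT.nd (nat_lit 156) (nat_lit 0) (nat_lit 152) (XT.nd (nat_lit 78) (nat_lit 0) (nat_lit 76) (XT.lf (nat_lit 76) (nat_lit 22092525779) (nat_lit 0) (nat_lit 12193338650) (nat_lit 836) (nat_lit 41422078130) (nat_lit 149) (nat_lit 5) (nat_lit 148) (nat_lit 5) (nat_lit 159) (nat_lit 5) (nat_lit 439) (nat_lit 437) (nat_lit 324)) (XT.lf (nat_lit 76) (nat_lit 7570570837) (nat_lit 0) (nat_lit 32020751962) (nat_lit 836) (nat_lit 39186103852) (nat_lit 150) (nat_lit 5) (nat_lit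 149) (nat_lit 5) (nat_lit 160) (nat_lit 5) (nat_lit 440) (nat_lit 437) (nat_lit 323))) (XT.nd (nat_lit 78) (nat_lit 0) (nat_lit 76) (XT.lf (nat_lit 0) (nat_lit 46906814284) (nat_lit 760) (nat_lit 7134515743) (nat_lit 836) (nat_lit 27971859896) (nat_lit 150) (nat_lit 5) (nat_lit 160) (nat_lit 5) (nat_lit 161) (nat_lit 5) (nat_lit 441) (nat_lit 437) (nat_lit 322)) (XT.lf (nat_lit 0) (nat_lit 56450819281) (nat_lit 760) (nat_lit 21987329728) (nat_lit 836) (nat_lit 6987501788) (nat_lit 151) (nat_lit 5) (nat_lit 161) (nat_lit 5) (nat_lit 162) (nat_lit 5) (nat_lit 442) (nat_lit 437) (nat_lit 321)))))) (XT.nd (nat_lit 546) (nat_lit 2204) (nat_lit 0) (XT.nd (nat_lit 234) (nat_lit 1064) (nat_lit 0) (XT.nd (nat_lit 78) (nat_lit 1140) (nat_lit 0) (XT.lf (nat_lit 76) (nat_lit 51541989017) (nat_lit 0) (nat_lit 17057078515) (nat_lit 836) (nat_lit 20420005104) (nat_lit 152) (nat_lit 5) (nat_lit 151) (nat_lit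 5) (nat_lit 162) (nat_lit 5) (nat_lit 443) (nat_lit 437) (nat_lit 320)) (XT.nd (nat_lit 78) (nat_lit 456) (nat_lit 0) (XT.lf (nat_lit 0) (nat_lit 39340896728) (nat_lit 760) (nat_lit 44149028175) (nat_lit 836) (nat_lit 9321506071) (nat_lit 142) (nat_lit 5) (nat_lit 152) (nat_lit 5) (nat_lit 153) (nat_lit 5) (nat_lit 444) (nat_lit 437) (nat_lit 319)) (XT.lf (nat_lit 0) (nat_lit 4320065525) (nat_lit 456) (nat_lit 69900112678) (nat_lit 76) (nat_lit 22597895400) (nat_lit 136) (nat_lit 5) (nat_lit 142) (nat_lit 5) (nat_lit 137) (nat_lit 5) (nat_lit 445) (nat_lit 437) (nat_lit 318)))) (XT.nd (nat_lit 156) (nat_lit 304) (nat_lit 0) (XT.nd (nat_lit 78) (nat_lit 380) (nat_lit 0) (XT.lf (nat_lit 0) (nat_lit 14080780503) (nat_lit 380) (nat_lit 6559638538) (nat_lit 456) (nat_lit 80401486383) (nat_lit 131) (nat_lit 5) (nat_lit 136) (nat_lit 5) (nat_lit 137) (nat_lit 5) (nat_lit 446) (nat_lit 437) (nat_lit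 317)) (XT.lf (nat_lit 0) (nat_lit 696051763) (nat_lit 380) (nat_lit 39856039782) (nat_lit 456) (nat_lit 64937267874) (nat_lit 126) (nat_lit 5) (nat_lit 131) (nat_lit 5) (nat_lit 132) (nat_lit 5) (nat_lit 447) (nat_lit 437) (nat_lit 316))) (XT.nd (nat_lit 78) (nat_lit 304) (nat_lit 0) (XT.lf (nat_lit 0) (nat_lit 64220577617) (nat_lit 456) (nat_lit 12397226881) (nat_lit 76) (nat_lit 33566611399) (nat_lit 126) (nat_lit 5) (nat_lit 132) (nat_lit 5) (nat_lit 127) (nat_lit 5) (nat_lit 448) (nat_lit 437) (nat_lit 315)) (XT.lf (nat_lit 0) (nat_lit 89584563986) (nat_lit 304) (nat_lit 2267626662) (nat_lit 380) (nat_lit 23299403982) (nat_lit 122) (nat_lit 5) (nat_lit 126) (nat_lit 5) (nat_lit 127) (nat_lit 5) (nat_lit 449) (nat_lit 437) (nat_lit 314))))) (XT.nd (nat_lit 312) (nat_lit 988) (nat_lit 0) (XT.nd (nat_lit 156) (nat_lit 532) (nat_lit 0) (XT.nd (nat_lit 78) (nat_lit 304) (nat_lit 0) (XT.lf (nat_lit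 0) (nat_lit 3886681074) (nat_lit 380) (nat_lit 39410944367) (nat_lit 76) (nat_lit 77080292341) (nat_lit 117) (nat_lit 5) (nat_lit 122) (nat_lit 5) (nat_lit 118) (nat_lit 5) (nat_lit 450) (nat_lit 437) (nat_lit 313)) (XT.lf (nat_lit 0) (nat_lit 34674384131) (nat_lit 380) (nat_lit 53698507251) (nat_lit 76) (nat_lit 37518206206) (nat_lit 113) (nat_lit 5) (nat_lit 118) (nat_lit 5) (nat_lit 114) (nat_lit 5) (nat_lit 451) (nat_lit 437) (nat_lit 312))) (XT.nd (nat_lit 78) (nat_lit 228) (nat_lit 0) (XT.lf (nat_lit 0) (nat_lit 63614313918) (nat_lit 304) (nat_lit 6730918443) (nat_lit 380) (nat_lit 61379093077) (nat_lit 109) (nat_lit 5) (nat_lit 113) (nat_lit 5) (nat_lit 114) (nat_lit 5) (nat_lit 452) (nat_lit 437) (nat_lit 311)) (XT.lf (nat_lit 0) (nat_lit 54715481176) (nat_lit 228) (nat_lit 57229934231) (nat_lit 304) (nat_lit 25925012861) (nat_lit 106) (nat_lit 5) (nat_lit 109) (nat_lit 5) (nat_lit 110)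 (nat_lit 5) (nat_lit 453) (nat_lit 437) (nat_lit 310)))) (XT.nd (nat_lit 156) (nat_lit 456) (nat_lit 0) (XT.nd (nat_lit 78) (nat_lit 228) (nat_lit 0) (XT.lf (nat_lit 0) (nat_lit 14521725177) (nat_lit 304) (nat_lit 98391869664) (nat_lit 76) (nat_lit 31457366585) (nat_lit 102) (nat_lit 5) (nat_lit 106) (nat_lit 5) (nat_lit 103) (nat_lit 5) (nat_lit 454) (nat_lit 437) (nat_lit 309)) (XT.lf (nat_lit 0) (nat_lit 36846489576) (nat_lit 228) (nat_lit 23473305866) (nat_lit 304) (nat_lit 90899297898) (nat_lit 99) (nat_lit 5) (nat_lit 102) (nat_lit 5) (nat_lit 103) (nat_lit 5) (nat_lit 455) (nat_lit 437) (nat_lit 308))) (XT.nd (nat_lit 78) (nat_lit 228) (nat_lit 0) (XT.lf (nat_lit 0) (nat_lit 27600632575) (nat_lit 228) (nat_lit 85494908446) (nat_lit 304) (nat_lit 45353843374) (nat_lit 96) (nat_lit 5) (nat_lit 99) (nat_lit 5) (nat_lit 100) (nat_lit 5) (nat_lit 456) (nat_lit 437) (nat_lit 307)) (XT.lf (nat_lit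 0) (nat_lit 6624673557) (nat_lit 228) (nat_lit 147339813602) (nat_lit 76) (nat_lit 12145008799) (nat_lit 93) (nat_lit 5) (nat_lit 96) (nat_lit 5) (nat_lit 94) (nat_lit 5) (nat_lit 457) (nat_lit 437) (nat_lit 306))))))) (XT.nd (nat_lit 1170) (nat_lit 1748) (nat_lit 0) (XT.nd (nat_lit 546) (nat_lit 1216) (nat_lit 0) (XT.nd (nat_lit 234) (nat_lit 760) (nat_lit 0) (XT.nd (nat_lit 78) (nat_lit 228) (nat_lit 0) (XT.lf (nat_lit 0) (nat_lit 8798541257) (nat_lit 228) (nat_lit 56290136759) (nat_lit 304) (nat_lit 109060754014) (nat_lit 90) (nat_lit 5) (nat_lit 93) (nat_lit 5) (nat_lit 94) (nat_lit 5) (nat_lit 458) (nat_lit 437) (nat_lit 305)) (XT.nd (nat_lit 78) (nat_lit 228) (nat_lit 0) (XT.lf (nat_lit 0) (nat_lit 131605897800) (nat_lit 304) (nat_lit 826049603) (nat_lit 76) (nat_lit 50231810890) (nat_lit 90) (nat_lit 5) (nat_lit 94) (nat_lit 5) (nat_lit 91) (nat_lit 5) (nat_lit 459) (nat_lit 437) (nat_lit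 304)) (XT.lf (nat_lit 0) (nat_lit 15062333068) (nat_lit 228) (nat_lit 10185819480) (nat_lit 76) (nat_lit 166409640769) (nat_lit 87) (nat_lit 5) (nat_lit 90) (nat_lit 5) (nat_lit 88) (nat_lit 5) (nat_lit 460) (nat_lit 437) (nat_lit 303)))) (XT.nd (nat_lit 156) (nat_lit 380) (nat_lit 0) (XT.nd (nat_lit 78) (nat_lit 152) (nat_lit 0) (XT.lf (nat_lit 0) (nat_lit 89036451443) (nat_lit 304) (nat_lit 20684656637) (nat_lit 76) (nat_lit 91390736002) (nat_lit 84) (nat_lit 5) (nat_lit 88) (nat_lit 5) (nat_lit 85) (nat_lit 5) (nat_lit 461) (nat_lit 437) (nat_lit 302)) (XT.lf (nat_lit 0) (nat_lit 172485311837) (nat_lit 228) (nat_lit 30587696686) (nat_lit 76) (nat_lit 8071369799) (nat_lit 82) (nat_lit 5) (nat_lit 85) (nat_lit 5) (nat_lit 83) (nat_lit 5) (nat_lit 462) (nat_lit 437) (nat_lit 301))) (XT.nd (nat_lit 78) (nat_lit 152) (nat_lit 0) (XT.lf (nat_lit 0) (nat_lit 44448091309) (nat_lit 228) (nat_lit 41846831941)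 (nat_lit 76) (nat_lit 135396976370) (nat_lit 79) (nat_lit 5) (nat_lit 82) (nat_lit 5) (nat_lit 80) (nat_lit 5) (nat_lit 463) (nat_lit 437) (nat_lit 300)) (XT.lf (nat_lit 0) (nat_lit 136910310014) (nat_lit 228) (nat_lit 53314359185) (nat_lit 76) (nat_lit 42623820015) (nat_lit 77) (nat_lit 5) (nat_lit 80) (nat_lit 5) (nat_lit 78) (nat_lit 5) (nat_lit 464) (nat_lit 437) (nat_lit 299))))) (XT.nd (nat_lit 312) (nat_lit 532) (nat_lit 0) (XT.nd (nat_lit 156) (nat_lit 304) (nat_lit 0) (XT.nd (nat_lit 78) (nat_lit 228) (nat_lit 0) (XT.lf (nat_lit 0) (nat_lit 179537152583) (nat_lit 152) (nat_lit 62230908751) (nat_lit 228) (nat_lit 2879616917) (nat_lit 75) (nat_lit 5) (nat_lit 77) (nat_lit 5) (nat_lit 78) (nat_lit 5) (nat_lit 465) (nat_lit 437) (nat_lit 298)) (XT.lf (nat_lit 0) (nat_lit 99522614159) (nat_lit 228) (nat_lit 78609725439) (nat_lit 76) (nat_lit 78931076435) (nat_lit 72) (nat_lit 5) (nat_lit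 75) (nat_lit 5) (nat_lit 73) (nat_lit 5) (nat_lit 466) (nat_lit 437) (nat_lit 297))) (XT.nd (nat_lit 78) (nat_lit 152) (nat_lit 0) (XT.lf (nat_lit 0) (nat_lit 177991970637) (nat_lit 152) (nat_lit 37006098376) (nat_lit 228) (nat_lit 55222886859) (nat_lit 70) (nat_lit 5) (nat_lit 72) (nat_lit 5) (nat_lit 73) (nat_lit 5) (nat_lit 467) (nat_lit 437) (nat_lit 296)) (XT.lf (nat_lit 0) (nat_lit 59572118775) (nat_lit 152) (nat_lit 107674073546) (nat_lit 76) (nat_lit 116838703581) (nat_lit 68) (nat_lit 5) (nat_lit 70) (nat_lit 5) (nat_lit 69) (nat_lit 5) (nat_lit 468) (nat_lit 437) (nat_lit 295)))) (XT.nd (nat_lit 156) (nat_lit 228) (nat_lit 0) (XT.nd (nat_lit 78) (nat_lit 152) (nat_lit 0) (XT.lf (nat_lit 0) (nat_lit 174872395877) (nat_lit 152) (nat_lit 11756158178) (nat_lit 228) (nat_lit 112133503934) (nat_lit 66) (nat_lit 5) (nat_lit 68) (nat_lit 5) (nat_lit 69) (nat_lit 5) (nat_lit 469) (nat_lit 437)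 (nat_lit 294)) (XT.lf (nat_lit 0) (nat_lit 16091657617) (nat_lit 152) (nat_lit 142125237009) (nat_lit 76) (nat_lit 156031730369) (nat_lit 64) (nat_lit 5) (nat_lit 66) (nat_lit 5) (nat_lit 65) (nat_lit 5) (nat_lit 470) (nat_lit 437) (nat_lit 293))) (XT.nd (nat_lit 78) (nat_lit 76) (nat_lit 0) (XT.lf (nat_lit 0) (nat_lit 155924878591) (nat_lit 228) (nat_lit 162182170133) (nat_lit 76) (nat_lit 12511223034) (nat_lit 62) (nat_lit 5) (nat_lit 65) (nat_lit 5) (nat_lit 63) (nat_lit 4) (nat_lit 471) (nat_lit 437) (nat_lit 292)) (XT.lf (nat_lit 0) (nat_lit 163260091088) (nat_lit 76) (nat_lit 151417358001) (nat_lit 152) (nat_lit 33233406598) (nat_lit 61) (nat_lit 5) (nat_lit 62) (nat_lit 5) (nat_lit 63) (nat_lit 4) (nat_lit 472) (nat_lit 437) (nat_lit 291)))))) (XT.nd (nat_lit 546) (nat_lit 836) (nat_lit 0) (XT.nd (nat_lit 234) (nat_lit 380) (nat_lit 0) (XT.nd (nat_lit 78) (nat_lit 304) (nat_lit 0) (XT.lf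 (nat_lit 0) (nat_lit 121607182098) (nat_lit 228) (nat_lit 209590181645) (nat_lit 76) (nat_lit 35001665349) (nat_lit 58) (nat_lit 5) (nat_lit 61) (nat_lit 5) (nat_lit 59) (nat_lit 4) (nat_lit 473) (nat_lit 437) (nat_lit 290)) (XT.nd (nat_lit 78) (nat_lit 228) (nat_lit 0) (XT.lf (nat_lit 0) (nat_lit 147528476741) (nat_lit 76) (nat_lit 148283131415) (nat_lit 152) (nat_lit 89704361381) (nat_lit 57) (nat_lit 5) (nat_lit 58) (nat_lit 5) (nat_lit 59) (nat_lit 4) (nat_lit 474) (nat_lit 437) (nat_lit 289)) (XT.lf (nat_lit 0) (nat_lit 81835676242) (nat_lit 228) (nat_lit 269270867770) (nat_lit 76) (nat_lit 54873943267) (nat_lit 54) (nat_lit 5) (nat_lit 57) (nat_lit 5) (nat_lit 55) (nat_lit 4) (nat_lit 475) (nat_lit 437) (nat_lit 288)))) (XT.nd (nat_lit 156) (nat_lit 152) (nat_lit 0) (XT.nd (nat_lit 78) (nat_lit 152) (nat_lit 0) (XT.lf (nat_lit 0) (nat_lit 121823665838) (nat_lit 76) (nat_lit 150789996984)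 (nat_lit 152) (nat_lit 154962097974) (nat_lit 53) (nat_lit 5) (nat_lit 54) (nat_lit 5) (nat_lit 55) (nat_lit 4) (nat_lit 476) (nat_lit 437) (nat_lit 287)) (XT.lf (nat_lit 0) (nat_lit 34425400744) (nat_lit 152) (nat_lit 345651411070) (nat_lit 76) (nat_lit 70422252072) (nat_lit 51) (nat_lit 5) (nat_lit 53) (nat_lit 5) (nat_lit 52) (nat_lit 4) (nat_lit 477) (nat_lit 437) (nat_lit 286))) (XT.nd (nat_lit 78) (nat_lit 76) (nat_lit 0) (XT.lf (nat_lit 0) (nat_lit 81591727877) (nat_lit 76) (nat_lit 161245095134) (nat_lit 152) (nat_lit 231827288074) (nat_lit 50) (nat_lit 5) (nat_lit 51) (nat_lit 5) (nat_lit 52) (nat_lit 4) (nat_lit 478) (nat_lit 437) (nat_lit 285)) (XT.lf (nat_lit 0) (nat_lit 55397442973) (nat_lit 76) (nat_lit 420680453261) (nat_lit 76) (nat_lit 24276628974) (nat_lit 49) (nat_lit 4) (nat_lit 50) (nat_lit 5) (nat_lit 50) (nat_lit 4) (nat_lit 479) (nat_lit 437) (nat_lit 284))))) (XT.nd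 (nat_lit 312) (nat_lit 456) (nat_lit 0) (XT.nd (nat_lit 156) (nat_lit 228) (nat_lit 0) (XT.nd (nat_lit 78) (nat_lit 0) (nat_lit 0) (XT.lf (nat_lit 0) (nat_lit 20734783433) (nat_lit 76) (nat_lit 182747574444) (nat_lit 152) (nat_lit 323961700644) (nat_lit 47) (nat_lit 5) (nat_lit 48) (nat_lit 5) (nat_lit 49) (nat_lit 4) (nat_lit 480) (nat_lit 437) (nat_lit 283)) (XT.lf (nat_lit 0) (nat_lit 457659311828) (nat_lit 152) (nat_lit 18437708928) (nat_lit 0) (nat_lit 80131445724) (nat_lit 47) (nat_lit 5) (nat_lit 49) (nat_lit 4) (nat_lit 47) (nat_lit 4) (nat_lit 481) (nat_lit 437) (nat_lit 282))) (XT.nd (nat_lit 78) (nat_lit 76) (nat_lit 0) (XT.lf (nat_lit 0) (nat_lit 151642256507) (nat_lit 152) (nat_lit 66661424739) (nat_lit 76) (nat_lit 368327680392) (nat_lit 45) (nat_lit 5) (nat_lit 47) (nat_lit 5) (nat_lit 46) (nat_lit 4) (nat_lit 482) (nat_lit 437) (nat_lit 281)) (XT.lf (nat_lit 0) (nat_lit 427645752403)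 (nat_lit 152) (nat_lit 123183448511) (nat_lit 0) (nat_lit 68095065367) (nat_lit 44) (nat_lit 5) (nat_lit 46) (nat_lit 4) (nat_lit 44) (nat_lit 4) (nat_lit 483) (nat_lit 437) (nat_lit 280)))) (XT.nd (nat_lit 156) (nat_lit 228) (nat_lit 0) (XT.nd (nat_lit 78) (nat_lit 76) (nat_lit 0) (XT.lf (nat_lit 0) (nat_lit 81912865334) (nat_lit 152) (nat_lit 191629463727) (nat_lit 76) (nat_lit 379587817862) (nat_lit 42) (nat_lit 5) (nat_lit 44) (nat_lit 5) (nat_lit 43) (nat_lit 4) (nat_lit 484) (nat_lit 437) (nat_lit 279)) (XT.lf (nat_lit 0) (nat_lit 379646922850) (nat_lit 152) (nat_lit 272581926916) (nat_lit 0) (nat_lit 37217420821) (nat_lit 41) (nat_lit 5) (nat_lit 43) (nat_lit 4) (nat_lit 41) (nat_lit 4) (nat_lit 485) (nat_lit 437) (nat_lit 278))) (XT.nd (nat_lit 78) (nat_lit 152) (nat_lit 0) (XT.lf (nat_lit 0) (nat_lit 359209213728) (nat_lit 76) (nat_lit 355603717073) (nat_lit 76) (nat_lit 13174092055)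 (nat_lit 40) (nat_lit 4) (nat_lit 41) (nat_lit 5) (nat_lit 41) (nat_lit 4) (nat_lit 486) (nat_lit 437) (nat_lit 277)) (XT.lf (nat_lit 0) (nat_lit 286189416483) (nat_lit 76) (nat_lit 20454073944) (nat_lit 152) (nat_lit 462263045795) (nat_lit 38) (nat_lit 5) (nat_lit 39) (nat_lit 5) (nat_lit 40) (nat_lit 4) (nat_lit 487) (nat_lit 437) (nat_lit 276))))))))
noncomputable def xc99 : XT := (XT.nd (nat_lit 59904) (nat_lit 0) (nat_lit 1596) (XT.nd (nat_lit 58734) (nat_lit 0) (nat_lit 6308) (XT.nd (nat_lit 546) (nat_lit 456) (nat_lit 0) (XT.nd (nat_lit 234) (nat_lit 456) (nat_lit 0) (XT.nd (nat_lit 78) (nat_lit 152) (nat_lit 0) (XT.lf (nat_lit 0) (nat_lit 194510291038) (nat_lit 76) (nat_lit 471978494675) (nat_lit 76) (nat_lit 145854833401) (nat_lit 37) (nat_lit 4) (nat_lit 38) (nat_lit 5) (nat_lit 38) (nat_lit 4) (nat_lit 488) (nat_lit 437) (nat_lit 275)) (XT.nd (nat_lit 78) (nat_lit 0) (nat_lit 0) (XT.lf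 (nat_lit 0) (nat_lit 83447987515) (nat_lit 76) (nat_lit 116343106031) (nat_lit 152) (nat_lit 658801974510) (nat_lit 35) (nat_lit 5) (nat_lit 36) (nat_lit 5) (nat_lit 37) (nat_lit 4) (nat_lit 489) (nat_lit 437) (nat_lit 274)) (XT.lf (nat_lit 0) (nat_lit 583165660187) (nat_lit 152) (nat_lit 51926382649) (nat_lit 0) (nat_lit 272571526519) (nat_lit 35) (nat_lit 5) (nat_lit 37) (nat_lit 4) (nat_lit 35) (nat_lit 4) (nat_lit 490) (nat_lit 437) (nat_lit 273)))) (XT.nd (nat_lit 156) (nat_lit 228) (nat_lit 0) (XT.nd (nat_lit 78) (nat_lit 76) (nat_lit 0) (XT.lf (nat_lit 0) (nat_lit 49295460375) (nat_lit 152) (nat_lit 209538515819) (nat_lit 76) (nat_lit 701101460661) (nat_lit 33) (nat_lit 5) (nat_lit 35) (nat_lit 5) (nat_lit 34) (nat_lit 4) (nat_lit 491) (nat_lit 437) (nat_lit 272)) (XT.lf (nat_lit 0) (nat_lit 454888395157) (nat_lit 152) (nat_lit 401487111547) (nat_lit 0) (nat_lit 159084319074) (nat_lit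 32) (nat_lit 5) (nat_lit 34) (nat_lit 4) (nat_lit 32) (nat_lit 4) (nat_lit 492) (nat_lit 437) (nat_lit 271))) (XT.nd (nat_lit 78) (nat_lit 152) (nat_lit 0) (XT.lf (nat_lit 0) (nat_lit 445435832304) (nat_lit 76) (nat_lit 462521521078) (nat_lit 76) (nat_lit 166717383004) (nat_lit 31) (nat_lit 4) (nat_lit 32) (nat_lit 5) (nat_lit 32) (nat_lit 4) (nat_lit 493) (nat_lit 437) (nat_lit 270)) (XT.lf (nat_lit 0) (nat_lit 239690843571) (nat_lit 76) (nat_lit 21526248644) (nat_lit 152) (nat_lit 876665321036) (nat_lit 29) (nat_lit 5) (nat_lit 30) (nat_lit 5) (nat_lit 31) (nat_lit 4) (nat_lit 494) (nat_lit 437) (nat_lit 269))))) (XT.nd (nat_lit 312) (nat_lit 152) (nat_lit 0) (XT.nd (nat_lit 156) (nat_lit 228) (nat_lit 0) (XT.nd (nat_lit 78) (nat_lit 76) (nat_lit 0) (XT.lf (nat_lit 0) (nat_lit 735863794115) (nat_lit 152) (nat_lit 15084872784) (nat_lit 0) (nat_lit 454145462096) (nat_lit 29) (nat_lit 5) (nat_lit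 31) (nat_lit 4) (nat_lit 29) (nat_lit 4) (nat_lit 495) (nat_lit 437) (nat_lit 268)) (XT.lf (nat_lit 0) (nat_lit 969331726514) (nat_lit 76) (nat_lit 294647297392) (nat_lit 76) (nat_lit 12928918506) (nat_lit 28) (nat_lit 4) (nat_lit 29) (nat_lit 5) (nat_lit 29) (nat_lit 4) (nat_lit 496) (nat_lit 437) (nat_lit 267))) (XT.nd (nat_lit 78) (nat_lit 76) (nat_lit 0) (XT.lf (nat_lit 0) (nat_lit 479006954001) (nat_lit 152) (nat_lit 663657131716) (nat_lit 0) (nat_lit 210703694685) (nat_lit 26) (nat_lit 5) (nat_lit 28) (nat_lit 4) (nat_lit 26) (nat_lit 4) (nat_lit 497) (nat_lit 437) (nat_lit 266)) (XT.lf (nat_lit 0) (nat_lit 347949508839) (nat_lit 76) (nat_lit 677747491590) (nat_lit 76) (nat_lit 409444194007) (nat_lit 25) (nat_lit 4) (nat_lit 26) (nat_lit 5) (nat_lit 26) (nat_lit 4) (nat_lit 498) (nat_lit 437) (nat_lit 265)))) (XT.nd (nat_lit 57720) (nat_lit 0) (nat_lit 9424) (XT.nd (nat_lit 78) (nat_lit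 76) (nat_lit 0) (XT.lf (nat_lit 0) (nat_lit 101449729627) (nat_lit 152) (nat_lit 60331387280) (nat_lit 76) (nat_lit 1361015533871) (nat_lit 24) (nat_lit 5) (nat_lit 26) (nat_lit 5) (nat_lit 25) (nat_lit 4) (nat_lit 499) (nat_lit 437) (nat_lit 264)) (XT.lf (nat_lit 0) (nat_lit 662427584678) (nat_lit 152) (nat_lit 546622911968) (nat_lit 0) (nat_lit 406900569607) (nat_lit 23) (nat_lit 5) (nat_lit 25) (nat_lit 4) (nat_lit 23) (nat_lit 4) (nat_lit 500) (nat_lit 437) (nat_lit 263))) (XT.nd (nat_lit 78) (nat_lit 0) (nat_lit 76) (XT.lf (nat_lit 0) (nat_lit 15648006631) (nat_lit 836) (nat_lit 11083175100) (nat_lit 836) (nat_lit 11083175100) (nat_lit 147) (nat_lit 3) (nat_lit 158) (nat_lit 3) (nat_lit 158) (nat_lit 5) (nat_lit 438) (nat_lit 438) (nat_lit 324)) (XT.lf (nat_lit 0) (nat_lit 33268392912) (nat_lit 760) (nat_lit 39617170104) (nat_lit 836) (nat_lit 5732269508) (nat_lit 148) (nat_lit 5) (nat_lit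 158) (nat_lit 5) (nat_lit 159) (nat_lit 5) (nat_lit 439) (nat_lit 438) (nat_lit 323)))))) (XT.nd (nat_lit 546) (nat_lit 2280) (nat_lit 0) (XT.nd (nat_lit 234) (nat_lit 912) (nat_lit 0) (XT.nd (nat_lit 78) (nat_lit 0) (nat_lit 76) (XT.lf (nat_lit 76) (nat_lit 23881301851) (nat_lit 0) (nat_lit 13182272910) (nat_lit 836) (nat_lit 44699255812) (nat_lit 149) (nat_lit 5) (nat_lit 148) (nat_lit 5) (nat_lit 159) (nat_lit 5) (nat_lit 440) (nat_lit 438) (nat_lit 322)) (XT.nd (nat_lit 78) (nat_lit 0) (nat_lit 76) (XT.lf (nat_lit 76) (nat_lit 8198534199) (nat_lit 0) (nat_lit 34592508531) (nat_lit 836) (nat_lit 42286952412) (nat_lit 150) (nat_lit 5) (nat_lit 149) (nat_lit 5) (nat_lit 160) (nat_lit 5) (nat_lit 441) (nat_lit 438) (nat_lit 321)) (XT.lf (nat_lit 0) (nat_lit 50689226531) (nat_lit 760) (nat_lit 7682961290) (nat_lit 836) (nat_lit 30200559369) (nat_lit 150) (nat_lit 5) (nat_lit 160) (nat_lit 5)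 (nat_lit 161) (nat_lit 5) (nat_lit 442) (nat_lit 438) (nat_lit 320)))) (XT.nd (nat_lit 156) (nat_lit 1140) (nat_lit 0) (XT.nd (nat_lit 78) (nat_lit 0) (nat_lit 0) (XT.lf (nat_lit 0) (nat_lit 60994769118) (nat_lit 760) (nat_lit 23723462874) (nat_lit 836) (nat_lit 7540072423) (nat_lit 151) (nat_lit 5) (nat_lit 161) (nat_lit 5) (nat_lit 162) (nat_lit 5) (nat_lit 443) (nat_lit 438) (nat_lit 319)) (XT.lf (nat_lit 76) (nat_lit 55687208197) (nat_lit 0) (nat_lit 18425944825) (nat_lit 836) (nat_lit 22026133502) (nat_lit 152) (nat_lit 5) (nat_lit 151) (nat_lit 5) (nat_lit 162) (nat_lit 5) (nat_lit 444) (nat_lit 438) (nat_lit 318))) (XT.nd (nat_lit 78) (nat_lit 456) (nat_lit 0) (XT.lf (nat_lit 0) (nat_lit 42510397640) (nat_lit 760) (nat_lit 47683228456) (nat_lit 836) (nat_lit 10041490368) (nat_lit 142) (nat_lit 5) (nat_lit 152) (nat_lit 5) (nat_lit 153) (nat_lit 5) (nat_lit 445) (nat_lit 438) (nat_lit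 317)) (XT.lf (nat_lit 0) (nat_lit 4689061012) (nat_lit 456) (nat_lit 75468872386) (nat_lit 76) (nat_lit 24404413382) (nat_lit 136) (nat_lit 5) (nat_lit 142) (nat_lit 5) (nat_lit 137) (nat_lit 5) (nat_lit 446) (nat_lit 438) (nat_lit 316))))) (XT.nd (nat_lit 312) (nat_lit 1216) (nat_lit 0) (XT.nd (nat_lit 156) (nat_lit 304) (nat_lit 0) (XT.nd (nat_lit 78) (nat_lit 380) (nat_lit 0) (XT.lf (nat_lit 0) (nat_lit 15229481863) (nat_lit 380) (nat_lit 7084175547) (nat_lit 456) (nat_lit 86810497243) (nat_lit 131) (nat_lit 5) (nat_lit 136) (nat_lit 5) (nat_lit 137) (nat_lit 5) (nat_lit 447) (nat_lit 438) (nat_lit 315)) (XT.lf (nat_lit 0) (nat_lit 774060112) (nat_lit 380) (nat_lit 43042925541) (nat_lit 456) (nat_lit 70110483437) (nat_lit 126) (nat_lit 5) (nat_lit 131) (nat_lit 5) (nat_lit 132) (nat_lit 5) (nat_lit 448) (nat_lit 438) (nat_lit 314))) (XT.nd (nat_lit 78) (nat_lit 304) (nat_lit 0) (XT.lf (nat_lit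 0) (nat_lit 69377438386) (nat_lit 456) (nat_lit 13367395448) (nat_lit 76) (nat_lit 36253372066) (nat_lit 126) (nat_lit 5) (nat_lit 132) (nat_lit 5) (nat_lit 127) (nat_lit 5) (nat_lit 449) (nat_lit 438) (nat_lit 313)) (XT.lf (nat_lit 0) (nat_lit 96771999562) (nat_lit 304) (nat_lit 2446480320) (nat_lit 380) (nat_lit 25144334267) (nat_lit 122) (nat_lit 5) (nat_lit 126) (nat_lit 5) (nat_lit 127) (nat_lit 5) (nat_lit 450) (nat_lit 438) (nat_lit 312)))) (XT.nd (nat_lit 156) (nat_lit 532) (nat_lit 0) (XT.nd (nat_lit 78) (nat_lit 304) (nat_lit 0) (XT.lf (nat_lit 0) (nat_lit 4215029328) (nat_lit 380) (nat_lit 42542639511) (nat_lit 76) (nat_lit 83249609604) (nat_lit 117) (nat_lit 5) (nat_lit 122) (nat_lit 5) (nat_lit 118) (nat_lit 5) (nat_lit 451) (nat_lit 438) (nat_lit 311)) (XT.lf (nat_lit 0) (nat_lit 37464834672) (nat_lit 380) (nat_lit 57973363609) (nat_lit 76) (nat_lit 40523360204) (nat_lit 113) (nat_lit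 5) (nat_lit 118) (nat_lit 5) (nat_lit 114) (nat_lit 5) (nat_lit 452) (nat_lit 438) (nat_lit 310))) (XT.nd (nat_lit 78) (nat_lit 228) (nat_lit 0) (XT.lf (nat_lit 0) (nat_lit 68723569567) (nat_lit 304) (nat_lit 7264872968) (nat_lit 380) (nat_lit 66273047581) (nat_lit 109) (nat_lit 5) (nat_lit 113) (nat_lit 5) (nat_lit 114) (nat_lit 5) (nat_lit 453) (nat_lit 438) (nat_lit 309)) (XT.lf (nat_lit 0) (nat_lit 59112636139) (nat_lit 228) (nat_lit 61803225432) (nat_lit 304) (nat_lit 27983458665) (nat_lit 106) (nat_lit 5) (nat_lit 109) (nat_lit 5) (nat_lit 110) (nat_lit 5) (nat_lit 454) (nat_lit 438) (nat_lit 308))))))) (XT.nd (nat_lit 1170) (nat_lit 1824) (nat_lit 0) (XT.nd (nat_lit 546) (nat_lit 1444) (nat_lit 0) (XT.nd (nat_lit 234) (nat_lit 684) (nat_lit 0) (XT.nd (nat_lit 78) (nat_lit 456) (nat_lit 0) (XT.lf (nat_lit 0) (nat_lit 15697792551) (nat_lit 304) (nat_lit 106243059253) (nat_lit 76) (nat_lit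 33979068617) (nat_lit 102) (nat_lit 5) (nat_lit 106) (nat_lit 5) (nat_lit 103) (nat_lit 5) (nat_lit 455) (nat_lit 438) (nat_lit 307)) (XT.nd (nat_lit 78) (nat_lit 228) (nat_lit 0) (XT.lf (nat_lit 0) (nat_lit 39813492598) (nat_lit 228) (nat_lit 25345455480) (nat_lit 304) (nat_lit 98156992935) (nat_lit 99) (nat_lit 5) (nat_lit 102) (nat_lit 5) (nat_lit 103) (nat_lit 5) (nat_lit 456) (nat_lit 438) (nat_lit 306)) (XT.lf (nat_lit 0) (nat_lit 29827693889) (nat_lit 228) (nat_lit 92328433731) (nat_lit 304) (nat_lit 48968559118) (nat_lit 96) (nat_lit 5) (nat_lit 99) (nat_lit 5) (nat_lit 100) (nat_lit 5) (nat_lit 457) (nat_lit 438) (nat_lit 305)))) (XT.nd (nat_lit 156) (nat_lit 228) (nat_lit 0) (XT.nd (nat_lit 78) (nat_lit 228) (nat_lit 0) (XT.lf (nat_lit 0) (nat_lit 7167215697) (nat_lit 228) (nat_lit 159107867885) (nat_lit 76) (nat_lit 13122542542) (nat_lit 93) (nat_lit 5) (nat_lit 96) (nat_lit 5) (nat_lit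 94) (nat_lit 5) (nat_lit 458) (nat_lit 438) (nat_lit 304)) (XT.lf (nat_lit 0) (nat_lit 9520723961) (nat_lit 228) (nat_lit 60786971274) (nat_lit 304) (nat_lit 117773094192) (nat_lit 90) (nat_lit 5) (nat_lit 93) (nat_lit 5) (nat_lit 94) (nat_lit 5) (nat_lit 459) (nat_lit 438) (nat_lit 303))) (XT.nd (nat_lit 78) (nat_lit 228) (nat_lit 0) (XT.lf (nat_lit 0) (nat_lit 142145501598) (nat_lit 304) (nat_lit 874728928) (nat_lit 76) (nat_lit 54256070891) (nat_lit 90) (nat_lit 5) (nat_lit 94) (nat_lit 5) (nat_lit 91) (nat_lit 5) (nat_lit 460) (nat_lit 438) (nat_lit 302)) (XT.lf (nat_lit 0) (nat_lit 16278061101) (nat_lit 228) (nat_lit 10983680791) (nat_lit 76) (nat_lit 179728136992) (nat_lit 87) (nat_lit 5) (nat_lit 90) (nat_lit 5) (nat_lit 88) (nat_lit 5) (nat_lit 461) (nat_lit 438) (nat_lit 301))))) (XT.nd (nat_lit 312) (nat_lit 684) (nat_lit 0) (XT.nd (nat_lit 156) (nat_lit 380) (nat_lit 0) (XT.nd (nat_lit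 78) (nat_lit 152) (nat_lit 0) (XT.lf (nat_lit 0) (nat_lit 96169661934) (nat_lit 304) (nat_lit 22322747853) (nat_lit 76) (nat_lit 98707866334) (nat_lit 84) (nat_lit 5) (nat_lit 88) (nat_lit 5) (nat_lit 85) (nat_lit 5) (nat_lit 462) (nat_lit 438) (nat_lit 300)) (XT.lf (nat_lit 0) (nat_lit 186294014153) (nat_lit 228) (nat_lit 33018362712) (nat_lit 76) (nat_lit 8723057143) (nat_lit 82) (nat_lit 5) (nat_lit 85) (nat_lit 5) (nat_lit 83) (nat_lit 5) (nat_lit 463) (nat_lit 438) (nat_lit 299))) (XT.nd (nat_lit 78) (nat_lit 152) (nat_lit 0) (XT.lf (nat_lit 0) (nat_lit 48013483067) (nat_lit 228) (nat_lit 45178623116) (nat_lit 76) (nat_lit 146234667557) (nat_lit 79) (nat_lit 5) (nat_lit 82) (nat_lit 5) (nat_lit 80) (nat_lit 5) (nat_lit 464) (nat_lit 438) (nat_lit 298)) (XT.lf (nat_lit 0) (nat_lit 147872307138) (nat_lit 228) (nat_lit 57563888157) (nat_lit 76) (nat_lit 46039713858) (nat_lit 77) (nat_lit 5)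 (nat_lit 80) (nat_lit 5) (nat_lit 78) (nat_lit 5) (nat_lit 465) (nat_lit 438) (nat_lit 297)))) (XT.nd (nat_lit 156) (nat_lit 304) (nat_lit 0) (XT.nd (nat_lit 78) (nat_lit 228) (nat_lit 0) (XT.lf (nat_lit 0) (nat_lit 193915065736) (nat_lit 152) (nat_lit 67203166667) (nat_lit 228) (nat_lit 3100823262) (nat_lit 75) (nat_lit 5) (nat_lit 77) (nat_lit 5) (nat_lit 78) (nat_lit 5) (nat_lit 466) (nat_lit 438) (nat_lit 296)) (XT.lf (nat_lit 0) (nat_lit 107492959274) (nat_lit 228) (nat_lit 84883604083) (nat_lit 76) (nat_lit 85251498686) (nat_lit 72) (nat_lit 5) (nat_lit 75) (nat_lit 5) (nat_lit 73) (nat_lit 5) (nat_lit 467) (nat_lit 438) (nat_lit 295))) (XT.nd (nat_lit 78) (nat_lit 152) (nat_lit 0) (XT.lf (nat_lit 0) (nat_lit 192245580170) (nat_lit 152) (nat_lit 39960460562) (nat_lit 228) (nat_lit 59632184860) (nat_lit 70) (nat_lit 5) (nat_lit 72) (nat_lit 5) (nat_lit 73) (nat_lit 5) (nat_lit 468) (nat_lit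 438) (nat_lit 294)) (XT.lf (nat_lit 0) (nat_lit 64345847337) (nat_lit 152) (nat_lit 116273805778) (nat_lit 76) (nat_lit 126191636120) (nat_lit 68) (nat_lit 5) (nat_lit 70) (nat_lit 5) (nat_lit 69) (nat_lit 5) (nat_lit 469) (nat_lit 438) (nat_lit 293)))))) (XT.nd (nat_lit 546) (nat_lit 760) (nat_lit 0) (XT.nd (nat_lit 234) (nat_lit 608) (nat_lit 0) (XT.nd (nat_lit 78) (nat_lit 304) (nat_lit 0) (XT.lf (nat_lit 0) (nat_lit 188875764361) (nat_lit 152) (nat_lit 12690655491) (nat_lit 228) (nat_lit 121096223345) (nat_lit 66) (nat_lit 5) (nat_lit 68) (nat_lit 5) (nat_lit 69) (nat_lit 5) (nat_lit 470) (nat_lit 438) (nat_lit 292)) (XT.nd (nat_lit 78) (nat_lit 152) (nat_lit 0) (XT.lf (nat_lit 0) (nat_lit 17386424023) (nat_lit 152) (nat_lit 153481749671) (nat_lit 76) (nat_lit 168519969295) (nat_lit 64) (nat_lit 5) (nat_lit 66) (nat_lit 5) (nat_lit 65) (nat_lit 5) (nat_lit 471) (nat_lit 438) (nat_lit 291))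 (XT.lf (nat_lit 0) (nat_lit 168406044823) (nat_lit 228) (nat_lit 175143560970) (nat_lit 76) (nat_lit 13517768617) (nat_lit 62) (nat_lit 5) (nat_lit 65) (nat_lit 5) (nat_lit 63) (nat_lit 4) (nat_lit 472) (nat_lit 438) (nat_lit 290)))) (XT.nd (nat_lit 156) (nat_lit 304) (nat_lit 0) (XT.nd (nat_lit 78) (nat_lit 228) (nat_lit 0) (XT.lf (nat_lit 0) (nat_lit 176333508242) (nat_lit 76) (nat_lit 163524978043) (nat_lit 152) (nat_lit 35884895523) (nat_lit 61) (nat_lit 5) (nat_lit 62) (nat_lit 5) (nat_lit 63) (nat_lit 4) (nat_lit 473) (nat_lit 438) (nat_lit 289)) (XT.lf (nat_lit 0) (nat_lit 131342475256) (nat_lit 228) (nat_lit 226344870626) (nat_lit 76) (nat_lit 37807269368) (nat_lit 58) (nat_lit 5) (nat_lit 61) (nat_lit 5) (nat_lit 59) (nat_lit 4) (nat_lit 474) (nat_lit 438) (nat_lit 288))) (XT.nd (nat_lit 78) (nat_lit 228) (nat_lit 0) (XT.lf (nat_lit 0) (nat_lit 159342736086) (nat_lit 76) (nat_lit 160140208701)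 (nat_lit 152) (nat_lit 96873981694) (nat_lit 57) (nat_lit 5) (nat_lit 58) (nat_lit 5) (nat_lit 59) (nat_lit 4) (nat_lit 475) (nat_lit 438) (nat_lit 287)) (XT.lf (nat_lit 0) (nat_lit 88388828419) (nat_lit 228) (nat_lit 290800644782) (nat_lit 76) (nat_lit 59269137961) (nat_lit 54) (nat_lit 5) (nat_lit 57) (nat_lit 5) (nat_lit 55) (nat_lit 4) (nat_lit 476) (nat_lit 438) (nat_lit 286))))) (XT.nd (nat_lit 312) (nat_lit 380) (nat_lit 0) (XT.nd (nat_lit 156) (nat_lit 152) (nat_lit 0) (XT.nd (nat_lit 78) (nat_lit 152) (nat_lit 0) (XT.lf (nat_lit 0) (nat_lit 131580934685) (nat_lit 76) (nat_lit 162847830321) (nat_lit 152) (nat_lit 167352756015) (nat_lit 53) (nat_lit 5) (nat_lit 54) (nat_lit 5) (nat_lit 55) (nat_lit 4) (nat_lit 477) (nat_lit 438) (nat_lit 285)) (XT.lf (nat_lit 0) (nat_lit 37185343027) (nat_lit 152) (nat_lit 373292239737) (nat_lit 76) (nat_lit 76061110562) (nat_lit 51) (nat_lit 5) (nat_lit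 53) (nat_lit 5) (nat_lit 52) (nat_lit 4) (nat_lit 478) (nat_lit 438) (nat_lit 284))) (XT.nd (nat_lit 78) (nat_lit 76) (nat_lit 0) (XT.lf (nat_lit 0) (nat_lit 88129859927) (nat_lit 76) (nat_lit 174139549876) (nat_lit 152) (nat_lit 250367547973) (nat_lit 50) (nat_lit 5) (nat_lit 51) (nat_lit 5) (nat_lit 52) (nat_lit 4) (nat_lit 479) (nat_lit 438) (nat_lit 283)) (XT.lf (nat_lit 0) (nat_lit 59839756122) (nat_lit 76) (nat_lit 454329833617) (nat_lit 76) (nat_lit 26213024260) (nat_lit 49) (nat_lit 4) (nat_lit 50) (nat_lit 5) (nat_lit 50) (nat_lit 4) (nat_lit 480) (nat_lit 438) (nat_lit 282)))) (XT.nd (nat_lit 156) (nat_lit 228) (nat_lit 0) (XT.nd (nat_lit 78) (nat_lit 0) (nat_lit 0) (XT.lf (nat_lit 0) (nat_lit 22403802436) (nat_lit 76) (nat_lit 197362444144) (nat_lit 152) (nat_lit 349873071498) (nat_lit 47) (nat_lit 5) (nat_lit 48) (nat_lit 5) (nat_lit 49) (nat_lit 4) (nat_lit 481) (nat_lit 438) (nat_lit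 281)) (XT.lf (nat_lit 0) (nat_lit 494277035609) (nat_lit 152) (nat_lit 19903073435) (nat_lit 0) (nat_lit 86546385700) (nat_lit 47) (nat_lit 5) (nat_lit 49) (nat_lit 4) (nat_lit 47) (nat_lit 4) (nat_lit 482) (nat_lit 438) (nat_lit 280))) (XT.nd (nat_lit 78) (nat_lit 76) (nat_lit 0) (XT.lf (nat_lit 0) (nat_lit 163778469246) (nat_lit 152) (nat_lit 71984946111) (nat_lit 76) (nat_lit 397798213503) (nat_lit 45) (nat_lit 5) (nat_lit 47) (nat_lit 5) (nat_lit 46) (nat_lit 4) (nat_lit 483) (nat_lit 438) (nat_lit 279)) (XT.lf (nat_lit 0) (nat_lit 461862095370) (nat_lit 152) (nat_lit 133028977383) (nat_lit 0) (nat_lit 73546900600) (nat_lit 44) (nat_lit 5) (nat_lit 46) (nat_lit 4) (nat_lit 44) (nat_lit 4) (nat_lit 484) (nat_lit 438) (nat_lit 278))))))))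
noncomputable def xc100 : XT := (XT.nd (nat_lit 59904) (nat_lit 0) (nat_lit 1900) (XT.nd (nat_lit 1092) (nat_lit 152) (nat_lit 0) (XT.nd (nat_lit 546) (nat_lit 684) (nat_lit 0) (XT.nd (nat_lit 234) (nat_lit 380) (nat_lit 0) (XT.nd (nat_lit 78) (nat_lit 152) (nat_lit 0) (XT.lf (nat_lit 0) (nat_lit 88470440468) (nat_lit 152) (nat_lit 206950920946) (nat_lit 76) (nat_lit 409958969887) (nat_lit 42) (nat_lit 5) (nat_lit 44) (nat_lit 5) (nat_lit 43) (nat_lit 4) (nat_lit 485) (nat_lit 438) (nat_lit 277)) (XT.nd (nat_lit 78) (nat_lit 76) (nat_lit 0) (XT.lf (nat_lit 0) (nat_lit 410023083887) (nat_lit 152) (nat_lit 294379815910) (nat_lit 0) (nat_lit 40198852002) (nat_lit 41) (nat_lit 5) (nat_lit 43) (nat_lit 4) (nat_lit 41) (nat_lit 4) (nat_lit 486) (nat_lit 438) (nat_lit 276)) (XT.lf (nat_lit 0) (nat_lit 387954239408) (nat_lit 76) (nat_lit 384047936013) (nat_lit 76) (nat_lit 14223598687) (nat_lit 40)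 (nat_lit 4) (nat_lit 41) (nat_lit 5) (nat_lit 41) (nat_lit 4) (nat_lit 487) (nat_lit 438) (nat_lit 275)))) (XT.nd (nat_lit 156) (nat_lit 152) (nat_lit 0) (XT.nd (nat_lit 78) (nat_lit 76) (nat_lit 0) (XT.lf (nat_lit 0) (nat_lit 309092633577) (nat_lit 76) (nat_lit 22086424244) (nat_lit 152) (nat_lit 499239796830) (nat_lit 38) (nat_lit 5) (nat_lit 39) (nat_lit 5) (nat_lit 40) (nat_lit 4) (nat_lit 488) (nat_lit 438) (nat_lit 274)) (XT.lf (nat_lit 0) (nat_lit 210078963863) (nat_lit 76) (nat_lit 509732890065) (nat_lit 76) (nat_lit 157519056391) (nat_lit 37) (nat_lit 4) (nat_lit 38) (nat_lit 5) (nat_lit 38) (nat_lit 4) (nat_lit 489) (nat_lit 438) (nat_lit 273))) (XT.nd (nat_lit 78) (nat_lit 0) (nat_lit 0) (XT.lf (nat_lit 0) (nat_lit 90131462451) (nat_lit 76) (nat_lit 125646769667) (nat_lit 152) (nat_lit 711502088780) (nat_lit 35) (nat_lit 5) (nat_lit 36) (nat_lit 5) (nat_lit 37) (nat_lit 4) (nat_lit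 490) (nat_lit 438) (nat_lit 272)) (XT.lf (nat_lit 0) (nat_lit 629822533539) (nat_lit 152) (nat_lit 56073299329) (nat_lit 0) (nat_lit 294380640963) (nat_lit 35) (nat_lit 5) (nat_lit 37) (nat_lit 4) (nat_lit 35) (nat_lit 4) (nat_lit 491) (nat_lit 438) (nat_lit 271))))) (XT.nd (nat_lit 234) (nat_lit 380) (nat_lit 0) (XT.nd (nat_lit 78) (nat_lit 152) (nat_lit 0) (XT.lf (nat_lit 0) (nat_lit 53242613749) (nat_lit 152) (nat_lit 226294599479) (nat_lit 76) (nat_lit 757192882708) (nat_lit 33) (nat_lit 5) (nat_lit 35) (nat_lit 5) (nat_lit 34) (nat_lit 4) (nat_lit 492) (nat_lit 438) (nat_lit 270)) (XT.nd (nat_lit 78) (nat_lit 76) (nat_lit 0) (XT.lf (nat_lit 0) (nat_lit 491282879370) (nat_lit 152) (nat_lit 433599270944) (nat_lit 0) (nat_lit 171814290860) (nat_lit 32) (nat_lit 5) (nat_lit 34) (nat_lit 4) (nat_lit 32) (nat_lit 4) (nat_lit 493) (nat_lit 438) (nat_lit 269)) (XT.lf (nat_lit 0) (nat_lit 481077212482)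 (nat_lit 76) (nat_lit 499519990681) (nat_lit 76) (nat_lit 180051349024) (nat_lit 31) (nat_lit 4) (nat_lit 32) (nat_lit 5) (nat_lit 32) (nat_lit 4) (nat_lit 494) (nat_lit 438) (nat_lit 268)))) (XT.nd (nat_lit 156) (nat_lit 228) (nat_lit 0) (XT.nd (nat_lit 78) (nat_lit 0) (nat_lit 0) (XT.lf (nat_lit 0) (nat_lit 258872446456) (nat_lit 76) (nat_lit 23245181506) (nat_lit 152) (nat_lit 946795219902) (nat_lit 29) (nat_lit 5) (nat_lit 30) (nat_lit 5) (nat_lit 31) (nat_lit 4) (nat_lit 495) (nat_lit 438) (nat_lit 267)) (XT.lf (nat_lit 0) (nat_lit 794735877102) (nat_lit 152) (nat_lit 16285695568) (nat_lit 0) (nat_lit 490479937643) (nat_lit 29) (nat_lit 5) (nat_lit 31) (nat_lit 4) (nat_lit 29) (nat_lit 4) (nat_lit 496) (nat_lit 438) (nat_lit 266))) (XT.nd (nat_lit 78) (nat_lit 152) (nat_lit 0) (XT.lf (nat_lit 0) (nat_lit 1046883972353) (nat_lit 76) (nat_lit 318216221336) (nat_lit 76) (nat_lit 13960241696)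 (nat_lit 28) (nat_lit 4) (nat_lit 29) (nat_lit 5) (nat_lit 29) (nat_lit 4) (nat_lit 497) (nat_lit 438) (nat_lit 265)) (XT.lf (nat_lit 0) (nat_lit 517330320632) (nat_lit 152) (nat_lit 716744056120) (nat_lit 0) (nat_lit 227562685542) (nat_lit 26) (nat_lit 5) (nat_lit 28) (nat_lit 4) (nat_lit 26) (nat_lit 4) (nat_lit 498) (nat_lit 438) (nat_lit 264)))))) (XT.nd (nat_lit 58188) (nat_lit 0) (nat_lit 7448) (XT.nd (nat_lit 57876) (nat_lit 0) (nat_lit 9424) (XT.nd (nat_lit 78) (nat_lit 76) (nat_lit 0) (XT.lf (nat_lit 0) (nat_lit 375790870304) (nat_lit 76) (nat_lit 731964576620) (nat_lit 76) (nat_lit 442196908721) (nat_lit 25) (nat_lit 4) (nat_lit 26) (nat_lit 5) (nat_lit 26) (nat_lit 4) (nat_lit 499) (nat_lit 438) (nat_lit 263)) (XT.nd (nat_lit 57720) (nat_lit 0) (nat_lit 9348) (XT.lf (nat_lit 0) (nat_lit 109568236258) (nat_lit 152) (nat_lit 65152813945) (nat_lit 76) (nat_lit 1469899206204) (nat_lit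 24) (nat_lit 5) (nat_lit 26) (nat_lit 5) (nat_lit 25) (nat_lit 4) (nat_lit 500) (nat_lit 438) (nat_lit 262)) (XT.lf (nat_lit 0) (nat_lit 16917080338) (nat_lit 836) (nat_lit 11960780358) (nat_lit 836) (nat_lit 11960780358) (nat_lit 147) (nat_lit 3) (nat_lit 158) (nat_lit 3) (nat_lit 158) (nat_lit 5) (nat_lit 439) (nat_lit 439) (nat_lit 322)))) (XT.nd (nat_lit 156) (nat_lit 0) (nat_lit 76) (XT.nd (nat_lit 78) (nat_lit 0) (nat_lit 0) (XT.lf (nat_lit 0) (nat_lit 35961815706) (nat_lit 760) (nat_lit 42767386390) (nat_lit 836) (nat_lit 6176454525) (nat_lit 148) (nat_lit 5) (nat_lit 158) (nat_lit 5) (nat_lit 159) (nat_lit 5) (nat_lit 440) (nat_lit 439) (nat_lit 321)) (XT.lf (nat_lit 76) (nat_lit 25810130768) (nat_lit 0) (nat_lit 14248400669) (nat_lit 836) (nat_lit 48243827477) (nat_lit 149) (nat_lit 5) (nat_lit 148) (nat_lit 5) (nat_lit 159) (nat_lit 5) (nat_lit 441) (nat_lit 439) (nat_lit 320))) (XT.nd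 (nat_lit 78) (nat_lit 0) (nat_lit 76) (XT.lf (nat_lit 76) (nat_lit 8873550760) (nat_lit 0) (nat_lit 37368565259) (nat_lit 836) (nat_lit 45640725008) (nat_lit 150) (nat_lit 5) (nat_lit 149) (nat_lit 5) (nat_lit 160) (nat_lit 5) (nat_lit 442) (nat_lit 439) (nat_lit 319)) (XT.lf (nat_lit 0) (nat_lit 54769970882) (nat_lit 760) (nat_lit 8278466066) (nat_lit 836) (nat_lit 32608845787) (nat_lit 150) (nat_lit 5) (nat_lit 160) (nat_lit 5) (nat_lit 161) (nat_lit 5) (nat_lit 443) (nat_lit 439) (nat_lit 318))))) (XT.nd (nat_lit 312) (nat_lit 1064) (nat_lit 0) (XT.nd (nat_lit 156) (nat_lit 1140) (nat_lit 0) (XT.nd (nat_lit 78) (nat_lit 0) (nat_lit 0) (XT.lf (nat_lit 0) (nat_lit 65898256936) (nat_lit 760) (nat_lit 25601746941) (nat_lit 836) (nat_lit 8137765949) (nat_lit 151) (nat_lit 5) (nat_lit 161) (nat_lit 5) (nat_lit 162) (nat_lit 5) (nat_lit 444) (nat_lit 439) (nat_lit 317)) (XT.lf (nat_lit 76) (nat_lit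 60160926329) (nat_lit 0) (nat_lit 19903706993) (nat_lit 836) (nat_lit 23764671361) (nat_lit 152) (nat_lit 5) (nat_lit 151) (nat_lit 5) (nat_lit 162) (nat_lit 5) (nat_lit 445) (nat_lit 439) (nat_lit 316))) (XT.nd (nat_lit 78) (nat_lit 456) (nat_lit 0) (XT.lf (nat_lit 0) (nat_lit 45930287385) (nat_lit 760) (nat_lit 51499839774) (nat_lit 836) (nat_lit 10822744964) (nat_lit 142) (nat_lit 5) (nat_lit 152) (nat_lit 5) (nat_lit 153) (nat_lit 5) (nat_lit 446) (nat_lit 439) (nat_lit 315)) (XT.lf (nat_lit 0) (nat_lit 5084239257) (nat_lit 456) (nat_lit 81486449645) (nat_lit 76) (nat_lit 26355640210) (nat_lit 136) (nat_lit 5) (nat_lit 142) (nat_lit 5) (nat_lit 137) (nat_lit 5) (nat_lit 447) (nat_lit 439) (nat_lit 314)))) (XT.nd (nat_lit 156) (nat_lit 304) (nat_lit 0) (XT.nd (nat_lit 78) (nat_lit 380) (nat_lit 0) (XT.lf (nat_lit 0) (nat_lit 16466906701) (nat_lit 380) (nat_lit 7650708911) (nat_lit 456) (nat_lit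 93735525594) (nat_lit 131) (nat_lit 5) (nat_lit 136) (nat_lit 5) (nat_lit 137) (nat_lit 5) (nat_lit 448) (nat_lit 439) (nat_lit 313)) (XT.lf (nat_lit 0) (nat_lit 855124332) (nat_lit 380) (nat_lit 46484990051) (nat_lit 456) (nat_lit 75700661390) (nat_lit 126) (nat_lit 5) (nat_lit 131) (nat_lit 5) (nat_lit 132) (nat_lit 5) (nat_lit 449) (nat_lit 439) (nat_lit 312))) (XT.nd (nat_lit 78) (nat_lit 304) (nat_lit 0) (XT.lf (nat_lit 0) (nat_lit 74944106845) (nat_lit 456) (nat_lit 14418260349) (nat_lit 76) (nat_lit 39154869332) (nat_lit 126) (nat_lit 5) (nat_lit 132) (nat_lit 5) (nat_lit 127) (nat_lit 5) (nat_lit 450) (nat_lit 439) (nat_lit 311)) (XT.lf (nat_lit 0) (nat_lit 104531481113) (nat_lit 304) (nat_lit 2640006981) (nat_lit 380) (nat_lit 27139572680) (nat_lit 122) (nat_lit 5) (nat_lit 126) (nat_lit 5) (nat_lit 127) (nat_lit 5) (nat_lit 451) (nat_lit 439) (nat_lit 310))))))) (XT.nd (nat_lit 1170)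 (nat_lit 2128) (nat_lit 0) (XT.nd (nat_lit 546) (nat_lit 1444) (nat_lit 0) (XT.nd (nat_lit 234) (nat_lit 988) (nat_lit 0) (XT.nd (nat_lit 78) (nat_lit 608) (nat_lit 0) (XT.lf (nat_lit 0) (nat_lit 4567161173) (nat_lit 380) (nat_lit 45927891888) (nat_lit 76) (nat_lit 89912059403) (nat_lit 117) (nat_lit 5) (nat_lit 122) (nat_lit 5) (nat_lit 118) (nat_lit 5) (nat_lit 452) (nat_lit 439) (nat_lit 309)) (XT.nd (nat_lit 78) (nat_lit 304) (nat_lit 0) (XT.lf (nat_lit 0) (nat_lit 40476167374) (nat_lit 380) (nat_lit 62593207815) (nat_lit 76) (nat_lit 43768399031) (nat_lit 113) (nat_lit 5) (nat_lit 118) (nat_lit 5) (nat_lit 114) (nat_lit 5) (nat_lit 453) (nat_lit 439) (nat_lit 308)) (XT.lf (nat_lit 0) (nat_lit 74238696675) (nat_lit 304) (nat_lit 7842188533) (nat_lit 380) (nat_lit 71560854230) (nat_lit 109) (nat_lit 5) (nat_lit 113) (nat_lit 5) (nat_lit 114) (nat_lit 5) (nat_lit 454) (nat_lit 439) (nat_lit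 307)))) (XT.nd (nat_lit 156) (nat_lit 456) (nat_lit 0) (XT.nd (nat_lit 78) (nat_lit 304) (nat_lit 0) (XT.lf (nat_lit 0) (nat_lit 63858722193) (nat_lit 228) (nat_lit 66743108006) (nat_lit 304) (nat_lit 30208799261) (nat_lit 106) (nat_lit 5) (nat_lit 109) (nat_lit 5) (nat_lit 110) (nat_lit 5) (nat_lit 455) (nat_lit 439) (nat_lit 306)) (XT.lf (nat_lit 0) (nat_lit 16965901072) (nat_lit 304) (nat_lit 114725220056) (nat_lit 76) (nat_lit 36701777426) (nat_lit 102) (nat_lit 5) (nat_lit 106) (nat_lit 5) (nat_lit 103) (nat_lit 5) (nat_lit 456) (nat_lit 439) (nat_lit 305))) (XT.nd (nat_lit 78) (nat_lit 228) (nat_lit 0) (XT.lf (nat_lit 0) (nat_lit 43015104805) (nat_lit 228) (nat_lit 27368192351) (nat_lit 304) (nat_lit 105997336325) (nat_lit 99) (nat_lit 5) (nat_lit 102) (nat_lit 5) (nat_lit 103) (nat_lit 5) (nat_lit 457) (nat_lit 439) (nat_lit 304)) (XT.lf (nat_lit 0) (nat_lit 32230208017) (nat_lit 228)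 (nat_lit 99709506619) (nat_lit 304) (nat_lit 52874391133) (nat_lit 96) (nat_lit 5) (nat_lit 99) (nat_lit 5) (nat_lit 100) (nat_lit 5) (nat_lit 458) (nat_lit 439) (nat_lit 303))))) (XT.nd (nat_lit 312) (nat_lit 760) (nat_lit 0) (XT.nd (nat_lit 156) (nat_lit 228) (nat_lit 0) (XT.nd (nat_lit 78) (nat_lit 228) (nat_lit 0) (XT.lf (nat_lit 0) (nat_lit 7751368206) (nat_lit 228) (nat_lit 171820095734) (nat_lit 76) (nat_lit 14177432571) (nat_lit 93) (nat_lit 5) (nat_lit 96) (nat_lit 5) (nat_lit 94) (nat_lit 5) (nat_lit 459) (nat_lit 439) (nat_lit 302)) (XT.lf (nat_lit 0) (nat_lit 10298070667) (nat_lit 228) (nat_lit 65644462219) (nat_lit 304) (nat_lit 127184207722) (nat_lit 90) (nat_lit 5) (nat_lit 93) (nat_lit 5) (nat_lit 94) (nat_lit 5) (nat_lit 460) (nat_lit 439) (nat_lit 301))) (XT.nd (nat_lit 78) (nat_lit 228) (nat_lit 0) (XT.lf (nat_lit 0) (nat_lit 153526685600) (nat_lit 304) (nat_lit 929785566)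 (nat_lit 76) (nat_lit 58601456365) (nat_lit 90) (nat_lit 5) (nat_lit 94) (nat_lit 5) (nat_lit 91) (nat_lit 5) (nat_lit 461) (nat_lit 439) (nat_lit 300)) (XT.lf (nat_lit 0) (nat_lit 17589514998) (nat_lit 228) (nat_lit 11847796853) (nat_lit 76) (nat_lit 194111296182) (nat_lit 87) (nat_lit 5) (nat_lit 90) (nat_lit 5) (nat_lit 88) (nat_lit 5) (nat_lit 462) (nat_lit 439) (nat_lit 299)))) (XT.nd (nat_lit 156) (nat_lit 380) (nat_lit 0) (XT.nd (nat_lit 78) (nat_lit 152) (nat_lit 0) (XT.lf (nat_lit 0) (nat_lit 103872060658) (nat_lit 304) (nat_lit 24094266143) (nat_lit 76) (nat_lit 106609529464) (nat_lit 84) (nat_lit 5) (nat_lit 88) (nat_lit 5) (nat_lit 85) (nat_lit 5) (nat_lit 463) (nat_lit 439) (nat_lit 298)) (XT.lf (nat_lit 0) (nat_lit 201206003538) (nat_lit 228) (nat_lit 35645814489) (nat_lit 76) (nat_lit 9426026680) (nat_lit 82) (nat_lit 5) (nat_lit 85) (nat_lit 5) (nat_lit 83) (nat_lit 5) (nat_lit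 464) (nat_lit 439) (nat_lit 297))) (XT.nd (nat_lit 78) (nat_lit 152) (nat_lit 0) (XT.lf (nat_lit 0) (nat_lit 51862744543) (nat_lit 228) (nat_lit 48779233798) (nat_lit 76) (nat_lit 157938527619) (nat_lit 79) (nat_lit 5) (nat_lit 82) (nat_lit 5) (nat_lit 80) (nat_lit 5) (nat_lit 465) (nat_lit 439) (nat_lit 296)) (XT.lf (nat_lit 0) (nat_lit 159709955499) (nat_lit 228) (nat_lit 62155607781) (nat_lit 76) (nat_lit 49728024919) (nat_lit 77) (nat_lit 5) (nat_lit 80) (nat_lit 5) (nat_lit 78) (nat_lit 5) (nat_lit 466) (nat_lit 439) (nat_lit 295)))))) (XT.nd (nat_lit 546) (nat_lit 988) (nat_lit 0) (XT.nd (nat_lit 234) (nat_lit 608) (nat_lit 0) (XT.nd (nat_lit 78) (nat_lit 380) (nat_lit 0) (XT.lf (nat_lit 0) (nat_lit 209441080449) (nat_lit 152) (nat_lit 72574091824) (nat_lit 228) (nat_lit 3341033320) (nat_lit 75) (nat_lit 5) (nat_lit 77) (nat_lit 5) (nat_lit 78) (nat_lit 5) (nat_lit 467) (nat_lit 439) (nat_lit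 294)) (XT.nd (nat_lit 78) (nat_lit 152) (nat_lit 0) (XT.lf (nat_lit 0) (nat_lit 116099714244) (nat_lit 228) (nat_lit 91661518583) (nat_lit 76) (nat_lit 92076707862) (nat_lit 72) (nat_lit 5) (nat_lit 75) (nat_lit 5) (nat_lit 73) (nat_lit 5) (nat_lit 468) (nat_lit 439) (nat_lit 293)) (XT.lf (nat_lit 0) (nat_lit 207637445275) (nat_lit 152) (nat_lit 43152045621) (nat_lit 228) (nat_lit 64395444022) (nat_lit 70) (nat_lit 5) (nat_lit 72) (nat_lit 5) (nat_lit 73) (nat_lit 5) (nat_lit 469) (nat_lit 439) (nat_lit 292)))) (XT.nd (nat_lit 156) (nat_lit 304) (nat_lit 0) (XT.nd (nat_lit 78) (nat_lit 152) (nat_lit 0) (XT.lf (nat_lit 0) (nat_lit 69500338734) (nat_lit 152) (nat_lit 125563541472) (nat_lit 76) (nat_lit 136291970655) (nat_lit 68) (nat_lit 5) (nat_lit 70) (nat_lit 5) (nat_lit 69) (nat_lit 5) (nat_lit 470) (nat_lit 439) (nat_lit 291)) (XT.lf (nat_lit 0) (nat_lit 203997465438) (nat_lit 152) (nat_lit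 13700767891) (nat_lit 228) (nat_lit 130777096020) (nat_lit 66) (nat_lit 5) (nat_lit 68) (nat_lit 5) (nat_lit 69) (nat_lit 5) (nat_lit 471) (nat_lit 439) (nat_lit 290))) (XT.nd (nat_lit 78) (nat_lit 152) (nat_lit 0) (XT.lf (nat_lit 0) (nat_lit 18783711227) (nat_lit 152) (nat_lit 165748710171) (nat_lit 76) (nat_lit 182006454095) (nat_lit 64) (nat_lit 5) (nat_lit 66) (nat_lit 5) (nat_lit 65) (nat_lit 5) (nat_lit 472) (nat_lit 439) (nat_lit 289)) (XT.lf (nat_lit 0) (nat_lit 181884680625) (nat_lit 228) (nat_lit 189143743743) (nat_lit 76) (nat_lit 14604032133) (nat_lit 62) (nat_lit 5) (nat_lit 65) (nat_lit 5) (nat_lit 63) (nat_lit 4) (nat_lit 473) (nat_lit 439) (nat_lit 288))))) (XT.nd (nat_lit 312) (nat_lit 380) (nat_lit 0) (XT.nd (nat_lit 156) (nat_lit 304) (nat_lit 0) (XT.nd (nat_lit 78) (nat_lit 228) (nat_lit 0) (XT.lf (nat_lit 0) (nat_lit 190450999830) (nat_lit 76) (nat_lit 176602030643) (nat_lit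 152) (nat_lit 38749528383) (nat_lit 61) (nat_lit 5) (nat_lit 62) (nat_lit 5) (nat_lit 63) (nat_lit 4) (nat_lit 474) (nat_lit 439) (nat_lit 287)) (XT.lf (nat_lit 0) (nat_lit 141855633385) (nat_lit 228) (nat_lit 244441721636) (nat_lit 76) (nat_lit 40836541239) (nat_lit 58) (nat_lit 5) (nat_lit 61) (nat_lit 5) (nat_lit 59) (nat_lit 4) (nat_lit 475) (nat_lit 439) (nat_lit 286))) (XT.nd (nat_lit 78) (nat_lit 228) (nat_lit 0) (XT.lf (nat_lit 0) (nat_lit 172100426925) (nat_lit 76) (nat_lit 172946647252) (nat_lit 152) (nat_lit 104618131542) (nat_lit 57) (nat_lit 5) (nat_lit 58) (nat_lit 5) (nat_lit 59) (nat_lit 4) (nat_lit 476) (nat_lit 439) (nat_lit 285)) (XT.lf (nat_lit 0) (nat_lit 95465334279) (nat_lit 228) (nat_lit 314054500540) (nat_lit 76) (nat_lit 64015195090) (nat_lit 54) (nat_lit 5) (nat_lit 57) (nat_lit 5) (nat_lit 55) (nat_lit 4) (nat_lit 477) (nat_lit 439) (nat_lit 284)))) (XT.nd (nat_lit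 156) (nat_lit 152) (nat_lit 0) (XT.nd (nat_lit 78) (nat_lit 152) (nat_lit 0) (XT.lf (nat_lit 0) (nat_lit 142117162186) (nat_lit 76) (nat_lit 175871055905) (nat_lit 152) (nat_lit 180735566863) (nat_lit 53) (nat_lit 5) (nat_lit 54) (nat_lit 5) (nat_lit 55) (nat_lit 4) (nat_lit 478) (nat_lit 439) (nat_lit 283)) (XT.lf (nat_lit 0) (nat_lit 40165237534) (nat_lit 152) (nat_lit 403145944518) (nat_lit 76) (nat_lit 82150353252) (nat_lit 51) (nat_lit 5) (nat_lit 53) (nat_lit 5) (nat_lit 52) (nat_lit 4) (nat_lit 479) (nat_lit 439) (nat_lit 282))) (XT.nd (nat_lit 78) (nat_lit 76) (nat_lit 0) (XT.lf (nat_lit 0) (nat_lit 95189502682) (nat_lit 76) (nat_lit 188066296112) (nat_lit 152) (nat_lit 270391873668) (nat_lit 50) (nat_lit 5) (nat_lit 51) (nat_lit 5) (nat_lit 52) (nat_lit 4) (nat_lit 480) (nat_lit 439) (nat_lit 281)) (XT.lf (nat_lit 0) (nat_lit 64635953853) (nat_lit 76) (nat_lit 490671885682) (nat_lit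 76) (nat_lit 28305149335) (nat_lit 49) (nat_lit 4) (nat_lit 50) (nat_lit 5) (nat_lit 50) (nat_lit 4) (nat_lit 481) (nat_lit 439) (nat_lit 280))))))))
noncomputable def xc101 : XT := (XT.nd (nat_lit 60060) (nat_lit 0) (nat_lit 1900) (XT.nd (nat_lit 1092) (nat_lit 380) (nat_lit 0) (XT.nd (nat_lit 546) (nat_lit 684) (nat_lit 0) (XT.nd (nat_lit 234) (nat_lit 380) (nat_lit 0) (XT.nd (nat_lit 78) (nat_lit 152) (nat_lit 0) (XT.lf (nat_lit 0) (nat_lit 24204882632) (nat_lit 76) (nat_lit 213147207633) (nat_lit 152) (nat_lit 377858145959) (nat_lit 47) (nat_lit 5) (nat_lit 48) (nat_lit 5) (nat_lit 49) (nat_lit 4) (nat_lit 482) (nat_lit 439) (nat_lit 279)) (XT.nd (nat_lit 78) (nat_lit 152) (nat_lit 0) (XT.lf (nat_lit 0) (nat_lit 533823467007) (nat_lit 152) (nat_lit 21487044098) (nat_lit 0) (nat_lit 93473889696) (nat_lit 47) (nat_lit 5) (nat_lit 49) (nat_lit 4) (nat_lit 47) (nat_lit 4) (nat_lit 483) (nat_lit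 439) (nat_lit 278)) (XT.lf (nat_lit 0) (nat_lit 176884889634) (nat_lit 152) (nat_lit 77735689153) (nat_lit 76) (nat_lit 429625773154) (nat_lit 45) (nat_lit 5) (nat_lit 47) (nat_lit 5) (nat_lit 46) (nat_lit 4) (nat_lit 484) (nat_lit 439) (nat_lit 277)))) (XT.nd (nat_lit 156) (nat_lit 152) (nat_lit 0) (XT.nd (nat_lit 78) (nat_lit 152) (nat_lit 0) (XT.lf (nat_lit 0) (nat_lit 498815077723) (nat_lit 152) (nat_lit 143663453489) (nat_lit 0) (nat_lit 79434279195) (nat_lit 44) (nat_lit 5) (nat_lit 46) (nat_lit 4) (nat_lit 44) (nat_lit 4) (nat_lit 485) (nat_lit 439) (nat_lit 276)) (XT.lf (nat_lit 0) (nat_lit 95551973088) (nat_lit 152) (nat_lit 223499364410) (nat_lit 76) (nat_lit 442759225369) (nat_lit 42) (nat_lit 5) (nat_lit 44) (nat_lit 5) (nat_lit 43) (nat_lit 4) (nat_lit 486) (nat_lit 439) (nat_lit 275))) (XT.nd (nat_lit 78) (nat_lit 76) (nat_lit 0) (XT.lf (nat_lit 0) (nat_lit 442828709068) (nat_lit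 152) (nat_lit 317922772206) (nat_lit 0) (nat_lit 43418221682) (nat_lit 41) (nat_lit 5) (nat_lit 43) (nat_lit 4) (nat_lit 41) (nat_lit 4) (nat_lit 487) (nat_lit 439) (nat_lit 274)) (XT.lf (nat_lit 0) (nat_lit 418997684684) (nat_lit 76) (nat_lit 414768274302) (nat_lit 76) (nat_lit 15357696516) (nat_lit 40) (nat_lit 4) (nat_lit 41) (nat_lit 5) (nat_lit 41) (nat_lit 4) (nat_lit 488) (nat_lit 439) (nat_lit 273))))) (XT.nd (nat_lit 234) (nat_lit 304) (nat_lit 0) (XT.nd (nat_lit 78) (nat_lit 228) (nat_lit 0) (XT.lf (nat_lit 0) (nat_lit 333826957650) (nat_lit 76) (nat_lit 23849929735) (nat_lit 152) (nat_lit 539175300340) (nat_lit 38) (nat_lit 5) (nat_lit 39) (nat_lit 5) (nat_lit 40) (nat_lit 4) (nat_lit 489) (nat_lit 439) (nat_lit 272)) (XT.nd (nat_lit 78) (nat_lit 152) (nat_lit 0) (XT.lf (nat_lit 0) (nat_lit 226892010690) (nat_lit 76) (nat_lit 550508191209) (nat_lit 76) (nat_lit 170117011215) (nat_lit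 37) (nat_lit 4) (nat_lit 38) (nat_lit 5) (nat_lit 38) (nat_lit 4) (nat_lit 490) (nat_lit 439) (nat_lit 271)) (XT.lf (nat_lit 0) (nat_lit 97348526030) (nat_lit 76) (nat_lit 135695266344) (nat_lit 152) (nat_lit 768418789068) (nat_lit 35) (nat_lit 5) (nat_lit 36) (nat_lit 5) (nat_lit 37) (nat_lit 4) (nat_lit 491) (nat_lit 439) (nat_lit 270)))) (XT.nd (nat_lit 156) (nat_lit 152) (nat_lit 0) (XT.nd (nat_lit 78) (nat_lit 152) (nat_lit 0) (XT.lf (nat_lit 0) (nat_lit 680211440249) (nat_lit 152) (nat_lit 60552995639) (nat_lit 0) (nat_lit 317934000610) (nat_lit 35) (nat_lit 5) (nat_lit 37) (nat_lit 4) (nat_lit 35) (nat_lit 4) (nat_lit 492) (nat_lit 439) (nat_lit 269)) (XT.lf (nat_lit 0) (nat_lit 57505037719) (nat_lit 152) (nat_lit 244392168118) (nat_lit 76) (nat_lit 817771146996) (nat_lit 33) (nat_lit 5) (nat_lit 35) (nat_lit 5) (nat_lit 34) (nat_lit 4) (nat_lit 493) (nat_lit 439) (nat_lit 268))) (XT.nd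 (nat_lit 78) (nat_lit 76) (nat_lit 0) (XT.lf (nat_lit 0) (nat_lit 530588435474) (nat_lit 152) (nat_lit 468281374547) (nat_lit 0) (nat_lit 185562200127) (nat_lit 32) (nat_lit 5) (nat_lit 34) (nat_lit 4) (nat_lit 32) (nat_lit 4) (nat_lit 494) (nat_lit 439) (nat_lit 267)) (XT.lf (nat_lit 0) (nat_lit 519568973838) (nat_lit 76) (nat_lit 539478801798) (nat_lit 76) (nat_lit 194452520885) (nat_lit 31) (nat_lit 4) (nat_lit 32) (nat_lit 5) (nat_lit 32) (nat_lit 4) (nat_lit 495) (nat_lit 439) (nat_lit 266)))))) (XT.nd (nat_lit 58344) (nat_lit 0) (nat_lit 7600) (XT.nd (nat_lit 234) (nat_lit 152) (nat_lit 0) (XT.nd (nat_lit 78) (nat_lit 76) (nat_lit 0) (XT.lf (nat_lit 0) (nat_lit 279587673755) (nat_lit 76) (nat_lit 25102080809) (nat_lit 152) (nat_lit 1022535985285) (nat_lit 29) (nat_lit 5) (nat_lit 30) (nat_lit 5) (nat_lit 31) (nat_lit 4) (nat_lit 496) (nat_lit 439) (nat_lit 265)) (XT.nd (nat_lit 78) (nat_lit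 76) (nat_lit 0) (XT.lf (nat_lit 0) (nat_lit 858317301675) (nat_lit 152) (nat_lit 17583435440) (nat_lit 0) (nat_lit 529720766278) (nat_lit 29) (nat_lit 5) (nat_lit 31) (nat_lit 4) (nat_lit 29) (nat_lit 4) (nat_lit 497) (nat_lit 439) (nat_lit 264)) (XT.lf (nat_lit 0) (nat_lit 1130639583589) (nat_lit 76) (nat_lit 343671067185) (nat_lit 76) (nat_lit 15074497339) (nat_lit 28) (nat_lit 4) (nat_lit 29) (nat_lit 5) (nat_lit 29) (nat_lit 4) (nat_lit 498) (nat_lit 439) (nat_lit 263)))) (XT.nd (nat_lit 57954) (nat_lit 0) (nat_lit 9272) (XT.nd (nat_lit 57876) (nat_lit 0) (nat_lit 9196) (XT.lf (nat_lit 0) (nat_lit 558719155672) (nat_lit 152) (nat_lit 774078739961) (nat_lit 0) (nat_lit 245770011155) (nat_lit 26) (nat_lit 5) (nat_lit 28) (nat_lit 4) (nat_lit 26) (nat_lit 4) (nat_lit 499) (nat_lit 439) (nat_lit 262)) (XT.lf (nat_lit 0) (nat_lit 18285221436) (nat_lit 836) (nat_lit 12909884941) (nat_lit 836)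 (nat_lit 12909884941) (nat_lit 147) (nat_lit 3) (nat_lit 158) (nat_lit 3) (nat_lit 158) (nat_lit 5) (nat_lit 440) (nat_lit 440) (nat_lit 320))) (XT.nd (nat_lit 78) (nat_lit 0) (nat_lit 0) (XT.lf (nat_lit 0) (nat_lit 38866154104) (nat_lit 760) (nat_lit 46172352985) (nat_lit 836) (nat_lit 6658228172) (nat_lit 148) (nat_lit 5) (nat_lit 158) (nat_lit 5) (nat_lit 159) (nat_lit 5) (nat_lit 441) (nat_lit 440) (nat_lit 319)) (XT.lf (nat_lit 76) (nat_lit 27890651764) (nat_lit 0) (nat_lit 15398171494) (nat_lit 836) (nat_lit 52076439985) (nat_lit 149) (nat_lit 5) (nat_lit 148) (nat_lit 5) (nat_lit 159) (nat_lit 5) (nat_lit 442) (nat_lit 440) (nat_lit 318))))) (XT.nd (nat_lit 312) (nat_lit 1748) (nat_lit 0) (XT.nd (nat_lit 156) (nat_lit 0) (nat_lit 152) (XT.nd (nat_lit 78) (nat_lit 0) (nat_lit 76) (XT.lf (nat_lit 76) (nat_lit 9599838993) (nat_lit 0) (nat_lit 40365471644) (nat_lit 836) (nat_lit 49266962778)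 (nat_lit 150) (nat_lit 5) (nat_lit 149) (nat_lit 5) (nat_lit 160) (nat_lit 5) (nat_lit 443) (nat_lit 440) (nat_lit 317)) (XT.lf (nat_lit 0) (nat_lit 59173521766) (nat_lit 760) (nat_lit 8924340637) (nat_lit 836) (nat_lit 35210901931) (nat_lit 150) (nat_lit 5) (nat_lit 160) (nat_lit 5) (nat_lit 161) (nat_lit 5) (nat_lit 444) (nat_lit 440) (nat_lit 316))) (XT.nd (nat_lit 78) (nat_lit 0) (nat_lit 0) (XT.lf (nat_lit 0) (nat_lit 71190613279) (nat_lit 760) (nat_lit 27633088888) (nat_lit 836) (nat_lit 8784061344) (nat_lit 151) (nat_lit 5) (nat_lit 161) (nat_lit 5) (nat_lit 162) (nat_lit 5) (nat_lit 445) (nat_lit 440) (nat_lit 315)) (XT.lf (nat_lit 76) (nat_lit 64989868232) (nat_lit 0) (nat_lit 21499164203) (nat_lit 836) (nat_lit 25645652322) (nat_lit 152) (nat_lit 5) (nat_lit 151) (nat_lit 5) (nat_lit 162) (nat_lit 5) (nat_lit 446) (nat_lit 440) (nat_lit 314)))) (XT.nd (nat_lit 156) (nat_lit 760) (nat_lit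 0) (XT.nd (nat_lit 78) (nat_lit 456) (nat_lit 0) (XT.lf (nat_lit 0) (nat_lit 49621049482) (nat_lit 760) (nat_lit 55621501374) (nat_lit 836) (nat_lit 11669647694) (nat_lit 142) (nat_lit 5) (nat_lit 152) (nat_lit 5) (nat_lit 153) (nat_lit 5) (nat_lit 447) (nat_lit 440) (nat_lit 313)) (XT.lf (nat_lit 0) (nat_lit 5508170926) (nat_lit 456) (nat_lit 87988276683) (nat_lit 76) (nat_lit 28463125855) (nat_lit 136) (nat_lit 5) (nat_lit 142) (nat_lit 5) (nat_lit 137) (nat_lit 5) (nat_lit 448) (nat_lit 440) (nat_lit 312))) (XT.nd (nat_lit 78) (nat_lit 380) (nat_lit 0) (XT.lf (nat_lit 0) (nat_lit 17800605507) (nat_lit 380) (nat_lit 8262593572) (nat_lit 456) (nat_lit 101217382535) (nat_lit 131) (nat_lit 5) (nat_lit 136) (nat_lit 5) (nat_lit 137) (nat_lit 5) (nat_lit 449) (nat_lit 440) (nat_lit 311)) (XT.lf (nat_lit 0) (nat_lit 939943238) (nat_lit 380) (nat_lit 50202615101) (nat_lit 456) (nat_lit 81740715739)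 (nat_lit 126) (nat_lit 5) (nat_lit 131) (nat_lit 5) (nat_lit 132) (nat_lit 5) (nat_lit 450) (nat_lit 440) (nat_lit 310))))))) (XT.nd (nat_lit 1170) (nat_lit 2356) (nat_lit 0) (XT.nd (nat_lit 546) (nat_lit 1520) (nat_lit 0) (XT.nd (nat_lit 234) (nat_lit 1140) (nat_lit 0) (XT.nd (nat_lit 78) (nat_lit 684) (nat_lit 0) (XT.lf (nat_lit 0) (nat_lit 80953758668) (nat_lit 456) (nat_lit 15555837488) (nat_lit 76) (nat_lit 42288311262) (nat_lit 126) (nat_lit 5) (nat_lit 132) (nat_lit 5) (nat_lit 127) (nat_lit 5) (nat_lit 451) (nat_lit 440) (nat_lit 309)) (XT.nd (nat_lit 78) (nat_lit 380) (nat_lit 0) (XT.lf (nat_lit 0) (nat_lit 112909193005) (nat_lit 304) (nat_lit 2849328454) (nat_lit 380) (nat_lit 29296756732) (nat_lit 122) (nat_lit 5) (nat_lit 126) (nat_lit 5) (nat_lit 127) (nat_lit 5) (nat_lit 452) (nat_lit 440) (nat_lit 308)) (XT.lf (nat_lit 0) (nat_lit 4945333707) (nat_lit 380) (nat_lit 49586555009)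 (nat_lit 76) (nat_lit 97107151240) (nat_lit 117) (nat_lit 5) (nat_lit 122) (nat_lit 5) (nat_lit 118) (nat_lit 5) (nat_lit 453) (nat_lit 440) (nat_lit 307)))) (XT.nd (nat_lit 156) (nat_lit 532) (nat_lit 0) (XT.nd (nat_lit 78) (nat_lit 304) (nat_lit 0) (XT.lf (nat_lit 0) (nat_lit 43726388617) (nat_lit 380) (nat_lit 67585211010) (nat_lit 76) (nat_lit 47272588727) (nat_lit 113) (nat_lit 5) (nat_lit 118) (nat_lit 5) (nat_lit 114) (nat_lit 5) (nat_lit 454) (nat_lit 440) (nat_lit 306)) (XT.lf (nat_lit 0) (nat_lit 80192574253) (nat_lit 304) (nat_lit 8466242052) (nat_lit 380) (nat_lit 77273687967) (nat_lit 109) (nat_lit 5) (nat_lit 113) (nat_lit 5) (nat_lit 114) (nat_lit 5) (nat_lit 455) (nat_lit 440) (nat_lit 305))) (XT.nd (nat_lit 78) (nat_lit 304) (nat_lit 0) (XT.lf (nat_lit 0) (nat_lit 68982059167) (nat_lit 228) (nat_lit 72078805394) (nat_lit 304) (nat_lit 32614069648) (nat_lit 106) (nat_lit 5) (nat_lit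 109) (nat_lit 5) (nat_lit 110) (nat_lit 5) (nat_lit 456) (nat_lit 440) (nat_lit 304)) (XT.lf (nat_lit 0) (nat_lit 18333705665) (nat_lit 304) (nat_lit 123888419470) (nat_lit 76) (nat_lit 39641677611) (nat_lit 102) (nat_lit 5) (nat_lit 106) (nat_lit 5) (nat_lit 103) (nat_lit 5) (nat_lit 457) (nat_lit 440) (nat_lit 303))))) (XT.nd (nat_lit 312) (nat_lit 608) (nat_lit 0) (XT.nd (nat_lit 156) (nat_lit 456) (nat_lit 0) (XT.nd (nat_lit 78) (nat_lit 228) (nat_lit 0) (XT.lf (nat_lit 0) (nat_lit 46470487399) (nat_lit 228) (nat_lit 29553447150) (nat_lit 304) (nat_lit 114466649941) (nat_lit 99) (nat_lit 5) (nat_lit 102) (nat_lit 5) (nat_lit 103) (nat_lit 5) (nat_lit 458) (nat_lit 440) (nat_lit 302)) (XT.lf (nat_lit 0) (nat_lit 34822598096) (nat_lit 228) (nat_lit 107681807434) (nat_lit 304) (nat_lit 57094352099) (nat_lit 96) (nat_lit 5) (nat_lit 99) (nat_lit 5) (nat_lit 100) (nat_lit 5) (nat_lit 459) (nat_lit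 440) (nat_lit 301))) (XT.nd (nat_lit 78) (nat_lit 228) (nat_lit 0) (XT.lf (nat_lit 0) (nat_lit 8380715706) (nat_lit 228) (nat_lit 185551641680) (nat_lit 76) (nat_lit 15315988138) (nat_lit 93) (nat_lit 5) (nat_lit 96) (nat_lit 5) (nat_lit 94) (nat_lit 5) (nat_lit 460) (nat_lit 440) (nat_lit 300)) (XT.lf (nat_lit 0) (nat_lit 11135366928) (nat_lit 228) (nat_lit 70891332334) (nat_lit 304) (nat_lit 137349741661) (nat_lit 90) (nat_lit 5) (nat_lit 93) (nat_lit 5) (nat_lit 94) (nat_lit 5) (nat_lit 461) (nat_lit 440) (nat_lit 299)))) (XT.nd (nat_lit 156) (nat_lit 380) (nat_lit 0) (XT.nd (nat_lit 78) (nat_lit 228) (nat_lit 0) (XT.lf (nat_lit 0) (nat_lit 165817002782) (nat_lit 304) (nat_lit 991375479) (nat_lit 76) (nat_lit 63293773665) (nat_lit 90) (nat_lit 5) (nat_lit 94) (nat_lit 5) (nat_lit 91) (nat_lit 5) (nat_lit 462) (nat_lit 440) (nat_lit 298)) (XT.lf (nat_lit 0) (nat_lit 19004571438) (nat_lit 228)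 (nat_lit 12783121972) (nat_lit 76) (nat_lit 209644407894) (nat_lit 87) (nat_lit 5) (nat_lit 90) (nat_lit 5) (nat_lit 88) (nat_lit 5) (nat_lit 463) (nat_lit 440) (nat_lit 297))) (XT.nd (nat_lit 78) (nat_lit 152) (nat_lit 0) (XT.lf (nat_lit 0) (nat_lit 112189392184) (nat_lit 304) (nat_lit 26009546170) (nat_lit 76) (nat_lit 115142607513) (nat_lit 84) (nat_lit 5) (nat_lit 88) (nat_lit 5) (nat_lit 85) (nat_lit 5) (nat_lit 464) (nat_lit 440) (nat_lit 296)) (XT.lf (nat_lit 0) (nat_lit 217309743982) (nat_lit 228) (nat_lit 38485462124) (nat_lit 76) (nat_lit 10184502647) (nat_lit 82) (nat_lit 5) (nat_lit 85) (nat_lit 5) (nat_lit 83) (nat_lit 5) (nat_lit 465) (nat_lit 440) (nat_lit 295)))))) (XT.nd (nat_lit 546) (nat_lit 1140) (nat_lit 0) (XT.nd (nat_lit 234) (nat_lit 684) (nat_lit 0) (XT.nd (nat_lit 78) (nat_lit 304) (nat_lit 0) (XT.lf (nat_lit 0) (nat_lit 56018779564) (nat_lit 228) (nat_lit 52669844821)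 (nat_lit 76) (nat_lit 170577970817) (nat_lit 79) (nat_lit 5) (nat_lit 82) (nat_lit 5) (nat_lit 80) (nat_lit 5) (nat_lit 466) (nat_lit 440) (nat_lit 294)) (XT.nd (nat_lit 78) (nat_lit 152) (nat_lit 0) (XT.lf (nat_lit 0) (nat_lit 172493493870) (nat_lit 228) (nat_lit 67116575412) (nat_lit 76) (nat_lit 53710668449) (nat_lit 77) (nat_lit 5) (nat_lit 80) (nat_lit 5) (nat_lit 78) (nat_lit 5) (nat_lit 467) (nat_lit 440) (nat_lit 293)) (XT.lf (nat_lit 0) (nat_lit 226207348926) (nat_lit 152) (nat_lit 78375451118) (nat_lit 228) (nat_lit 3601580901) (nat_lit 75) (nat_lit 5) (nat_lit 77) (nat_lit 5) (nat_lit 78) (nat_lit 5) (nat_lit 468) (nat_lit 440) (nat_lit 292)))) (XT.nd (nat_lit 156) (nat_lit 304) (nat_lit 0) (XT.nd (nat_lit 78) (nat_lit 152) (nat_lit 0) (XT.lf (nat_lit 0) (nat_lit 125393965585) (nat_lit 228) (nat_lit 98983488572) (nat_lit 76) (nat_lit 99447207728) (nat_lit 72) (nat_lit 5) (nat_lit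 75) (nat_lit 5) (nat_lit 73) (nat_lit 5) (nat_lit 469) (nat_lit 440) (nat_lit 291)) (XT.lf (nat_lit 0) (nat_lit 224258916456) (nat_lit 152) (nat_lit 46599706710) (nat_lit 228) (nat_lit 69540807572) (nat_lit 70) (nat_lit 5) (nat_lit 72) (nat_lit 5) (nat_lit 73) (nat_lit 5) (nat_lit 470) (nat_lit 440) (nat_lit 290))) (XT.nd (nat_lit 78) (nat_lit 152) (nat_lit 0) (XT.lf (nat_lit 0) (nat_lit 75066215980) (nat_lit 152) (nat_lit 135598192032) (nat_lit 76) (nat_lit 147199618127) (nat_lit 68) (nat_lit 5) (nat_lit 70) (nat_lit 5) (nat_lit 69) (nat_lit 5) (nat_lit 471) (nat_lit 440) (nat_lit 289)) (XT.lf (nat_lit 0) (nat_lit 220327242036) (nat_lit 152) (nat_lit 14792422568) (nat_lit 228) (nat_lit 141233412200) (nat_lit 66) (nat_lit 5) (nat_lit 68) (nat_lit 5) (nat_lit 69) (nat_lit 5) (nat_lit 472) (nat_lit 440) (nat_lit 288))))) (XT.nd (nat_lit 312) (nat_lit 532) (nat_lit 0) (XT.nd (nat_lit 156) (nat_lit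 304) (nat_lit 0) (XT.nd (nat_lit 78) (nat_lit 152) (nat_lit 0) (XT.lf (nat_lit 0) (nat_lit 20291872187) (nat_lit 152) (nat_lit 178998679452) (nat_lit 76) (nat_lit 196571160458) (nat_lit 64) (nat_lit 5) (nat_lit 66) (nat_lit 5) (nat_lit 65) (nat_lit 5) (nat_lit 473) (nat_lit 440) (nat_lit 287)) (XT.lf (nat_lit 0) (nat_lit 196440729608) (nat_lit 228) (nat_lit 204265553510) (nat_lit 76) (nat_lit 15776505961) (nat_lit 62) (nat_lit 5) (nat_lit 65) (nat_lit 5) (nat_lit 63) (nat_lit 4) (nat_lit 474) (nat_lit 440) (nat_lit 286))) (XT.nd (nat_lit 78) (nat_lit 228) (nat_lit 0) (XT.lf (nat_lit 0) (nat_lit 205696348445) (nat_lit 76) (nat_lit 190725953002) (nat_lit 152) (nat_lit 41844210491) (nat_lit 61) (nat_lit 5) (nat_lit 62) (nat_lit 5) (nat_lit 63) (nat_lit 4) (nat_lit 475) (nat_lit 440) (nat_lit 285)) (XT.lf (nat_lit 0) (nat_lit 153209022421) (nat_lit 228) (nat_lit 263987852713) (nat_lit 76) (nat_lit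 44107485734) (nat_lit 58) (nat_lit 5) (nat_lit 61) (nat_lit 5) (nat_lit 59) (nat_lit 4) (nat_lit 476) (nat_lit 440) (nat_lit 284)))) (XT.nd (nat_lit 156) (nat_lit 228) (nat_lit 0) (XT.nd (nat_lit 78) (nat_lit 228) (nat_lit 0) (XT.lf (nat_lit 0) (nat_lit 185877267623) (nat_lit 76) (nat_lit 186778282543) (nat_lit 152) (nat_lit 112982636345) (nat_lit 57) (nat_lit 5) (nat_lit 58) (nat_lit 5) (nat_lit 59) (nat_lit 4) (nat_lit 477) (nat_lit 440) (nat_lit 283)) (XT.lf (nat_lit 0) (nat_lit 103107190296) (nat_lit 228) (nat_lit 339170119308) (nat_lit 76) (nat_lit 69140291090) (nat_lit 54) (nat_lit 5) (nat_lit 57) (nat_lit 5) (nat_lit 55) (nat_lit 4) (nat_lit 478) (nat_lit 440) (nat_lit 282))) (XT.nd (nat_lit 78) (nat_lit 152) (nat_lit 0) (XT.lf (nat_lit 0) (nat_lit 153494896551) (nat_lit 76) (nat_lit 189936795897) (nat_lit 152) (nat_lit 195189774323) (nat_lit 53) (nat_lit 5) (nat_lit 54) (nat_lit 5) (nat_lit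 55) (nat_lit 4) (nat_lit 479) (nat_lit 440) (nat_lit 281)) (XT.lf (nat_lit 0) (nat_lit 43382800728) (nat_lit 152) (nat_lit 435389325842) (nat_lit 76) (nat_lit 88726114231) (nat_lit 51) (nat_lit 5) (nat_lit 53) (nat_lit 5) (nat_lit 52) (nat_lit 4) (nat_lit 480) (nat_lit 440) (nat_lit 280))))))))
noncomputable def xc102 : XT := (XT.nd (nat_lit 60138) (nat_lit 0) (nat_lit 1900) (XT.nd (nat_lit 1092) (nat_lit 380) (nat_lit 0) (XT.nd (nat_lit 546) (nat_lit 684) (nat_lit 0) (XT.nd (nat_lit 234) (nat_lit 380) (nat_lit 0) (XT.nd (nat_lit 78) (nat_lit 228) (nat_lit 0) (XT.lf (nat_lit 0) (nat_lit 102812596677) (nat_lit 76) (nat_lit 203107812288) (nat_lit 152) (nat_lit 292018869872) (nat_lit 50) (nat_lit 5) (nat_lit 51) (nat_lit 5) (nat_lit 52) (nat_lit 4) (nat_lit 481) (nat_lit 440) (nat_lit 279)) (XT.nd (nat_lit 78) (nat_lit 152) (nat_lit 0) (XT.lf (nat_lit 0) (nat_lit 69814560993) (nat_lit 76) (nat_lit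 529921920295) (nat_lit 76) (nat_lit 30565345862) (nat_lit 49) (nat_lit 4) (nat_lit 50) (nat_lit 5) (nat_lit 50) (nat_lit 4) (nat_lit 482) (nat_lit 440) (nat_lit 278)) (XT.lf (nat_lit 0) (nat_lit 26148797249) (nat_lit 76) (nat_lit 230195355948) (nat_lit 152) (nat_lit 408082707049) (nat_lit 47) (nat_lit 5) (nat_lit 48) (nat_lit 5) (nat_lit 49) (nat_lit 4) (nat_lit 483) (nat_lit 440) (nat_lit 277)))) (XT.nd (nat_lit 156) (nat_lit 228) (nat_lit 0) (XT.nd (nat_lit 78) (nat_lit 152) (nat_lit 0) (XT.lf (nat_lit 0) (nat_lit 576533003959) (nat_lit 152) (nat_lit 23198912966) (nat_lit 0) (nat_lit 100955052878) (nat_lit 47) (nat_lit 5) (nat_lit 49) (nat_lit 4) (nat_lit 47) (nat_lit 4) (nat_lit 484) (nat_lit 440) (nat_lit 276)) (XT.lf (nat_lit 0) (nat_lit 191039232630) (nat_lit 152) (nat_lit 83947640439) (nat_lit 76) (nat_lit 463999009365) (nat_lit 45) (nat_lit 5) (nat_lit 47) (nat_lit 5) (nat_lit 46) (nat_lit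 4) (nat_lit 485) (nat_lit 440) (nat_lit 275))) (XT.nd (nat_lit 78) (nat_lit 152) (nat_lit 0) (XT.lf (nat_lit 0) (nat_lit 538723725920) (nat_lit 152) (nat_lit 155149806444) (nat_lit 0) (nat_lit 85792130711) (nat_lit 44) (nat_lit 5) (nat_lit 46) (nat_lit 4) (nat_lit 44) (nat_lit 4) (nat_lit 486) (nat_lit 440) (nat_lit 274)) (XT.lf (nat_lit 0) (nat_lit 103199472313) (nat_lit 152) (nat_lit 241372771886) (nat_lit 76) (nat_lit 478182996570) (nat_lit 42) (nat_lit 5) (nat_lit 44) (nat_lit 5) (nat_lit 43) (nat_lit 4) (nat_lit 487) (nat_lit 440) (nat_lit 273))))) (XT.nd (nat_lit 234) (nat_lit 380) (nat_lit 0) (XT.nd (nat_lit 78) (nat_lit 228) (nat_lit 0) (XT.lf (nat_lit 0) (nat_lit 478258245223) (nat_lit 152) (nat_lit 343350224832) (nat_lit 0) (nat_lit 46894647111) (nat_lit 41) (nat_lit 5) (nat_lit 43) (nat_lit 4) (nat_lit 41) (nat_lit 4) (nat_lit 488) (nat_lit 440) (nat_lit 272)) (XT.nd (nat_lit 78)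 (nat_lit 152) (nat_lit 0) (XT.lf (nat_lit 0) (nat_lit 452523591813) (nat_lit 76) (nat_lit 447946738482) (nat_lit 76) (nat_lit 16583062866) (nat_lit 40) (nat_lit 4) (nat_lit 41) (nat_lit 5) (nat_lit 41) (nat_lit 4) (nat_lit 489) (nat_lit 440) (nat_lit 271)) (XT.lf (nat_lit 0) (nat_lit 360539041377) (nat_lit 76) (nat_lit 25755001917) (nat_lit 152) (nat_lit 582306169158) (nat_lit 38) (nat_lit 5) (nat_lit 39) (nat_lit 5) (nat_lit 40) (nat_lit 4) (nat_lit 490) (nat_lit 440) (nat_lit 270)))) (XT.nd (nat_lit 156) (nat_lit 152) (nat_lit 0) (XT.nd (nat_lit 78) (nat_lit 152) (nat_lit 0) (XT.lf (nat_lit 0) (nat_lit 245049141193) (nat_lit 76) (nat_lit 594545991514) (nat_lit 76) (nat_lit 183723311681) (nat_lit 37) (nat_lit 4) (nat_lit 38) (nat_lit 5) (nat_lit 38) (nat_lit 4) (nat_lit 491) (nat_lit 440) (nat_lit 269)) (XT.lf (nat_lit 0) (nat_lit 105142020753) (nat_lit 76) (nat_lit 146548105676) (nat_lit 152)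 (nat_lit 829889319960) (nat_lit 35) (nat_lit 5) (nat_lit 36) (nat_lit 5) (nat_lit 37) (nat_lit 4) (nat_lit 492) (nat_lit 440) (nat_lit 268))) (XT.nd (nat_lit 78) (nat_lit 152) (nat_lit 0) (XT.lf (nat_lit 0) (nat_lit 734631016671) (nat_lit 152) (nat_lit 65391947535) (nat_lit 0) (nat_lit 343371214117) (nat_lit 35) (nat_lit 5) (nat_lit 37) (nat_lit 4) (nat_lit 35) (nat_lit 4) (nat_lit 493) (nat_lit 440) (nat_lit 267)) (XT.lf (nat_lit 0) (nat_lit 62108025502) (nat_lit 152) (nat_lit 263938398118) (nat_lit 76) (nat_lit 883195268172) (nat_lit 33) (nat_lit 5) (nat_lit 35) (nat_lit 5) (nat_lit 34) (nat_lit 4) (nat_lit 494) (nat_lit 440) (nat_lit 266)))))) (XT.nd (nat_lit 58422) (nat_lit 0) (nat_lit 7828) (XT.nd (nat_lit 234) (nat_lit 76) (nat_lit 0) (XT.nd (nat_lit 78) (nat_lit 228) (nat_lit 0) (XT.lf (nat_lit 0) (nat_lit 573038018675) (nat_lit 152) (nat_lit 505738879305) (nat_lit 0) (nat_lit 200409547535)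 (nat_lit 32) (nat_lit 5) (nat_lit 34) (nat_lit 4) (nat_lit 32) (nat_lit 4) (nat_lit 495) (nat_lit 440) (nat_lit 265)) (XT.nd (nat_lit 78) (nat_lit 152) (nat_lit 0) (XT.lf (nat_lit 0) (nat_lit 561139279431) (nat_lit 76) (nat_lit 582634715563) (nat_lit 76) (nat_lit 210006205358) (nat_lit 31) (nat_lit 4) (nat_lit 32) (nat_lit 5) (nat_lit 32) (nat_lit 4) (nat_lit 496) (nat_lit 440) (nat_lit 264)) (XT.lf (nat_lit 0) (nat_lit 301959344362) (nat_lit 76) (nat_lit 27107919412) (nat_lit 152) (nat_lit 1104336418797) (nat_lit 29) (nat_lit 5) (nat_lit 30) (nat_lit 5) (nat_lit 31) (nat_lit 4) (nat_lit 497) (nat_lit 440) (nat_lit 263)))) (XT.nd (nat_lit 58032) (nat_lit 0) (nat_lit 9044) (XT.nd (nat_lit 78) (nat_lit 76) (nat_lit 0) (XT.lf (nat_lit 0) (nat_lit 926984875800) (nat_lit 152) (nat_lit 18985724325) (nat_lit 0) (nat_lit 572100514021) (nat_lit 29) (nat_lit 5) (nat_lit 31) (nat_lit 4) (nat_lit 29) (nat_lit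 4) (nat_lit 498) (nat_lit 440) (nat_lit 262)) (XT.lf (nat_lit 0) (nat_lit 1221094945619) (nat_lit 76) (nat_lit 371162650487) (nat_lit 76) (nat_lit 16278259173) (nat_lit 28) (nat_lit 4) (nat_lit 29) (nat_lit 5) (nat_lit 29) (nat_lit 4) (nat_lit 499) (nat_lit 440) (nat_lit 261))) (XT.nd (nat_lit 78) (nat_lit 0) (nat_lit 76) (XT.lf (nat_lit 0) (nat_lit 19760706050) (nat_lit 836) (nat_lit 13936024635) (nat_lit 836) (nat_lit 13936024635) (nat_lit 147) (nat_lit 3) (nat_lit 158) (nat_lit 3) (nat_lit 158) (nat_lit 5) (nat_lit 441) (nat_lit 441) (nat_lit 318)) (XT.lf (nat_lit 0) (nat_lit 41998931637) (nat_lit 760) (nat_lit 49852060020) (nat_lit 836) (nat_lit 7180304537) (nat_lit 148) (nat_lit 5) (nat_lit 158) (nat_lit 5) (nat_lit 159) (nat_lit 5) (nat_lit 442) (nat_lit 441) (nat_lit 317))))) (XT.nd (nat_lit 312) (nat_lit 1292) (nat_lit 0) (XT.nd (nat_lit 156) (nat_lit 0) (nat_lit 152) (XT.nd (nat_lit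 78) (nat_lit 0) (nat_lit 76) (XT.lf (nat_lit 76) (nat_lit 30135373158) (nat_lit 0) (nat_lit 16638511814) (nat_lit 836) (nat_lit 56219498180) (nat_lit 149) (nat_lit 5) (nat_lit 148) (nat_lit 5) (nat_lit 159) (nat_lit 5) (nat_lit 443) (nat_lit 441) (nat_lit 316)) (XT.lf (nat_lit 76) (nat_lit 10381890046) (nat_lit 0) (nat_lit 43601071828) (nat_lit 836) (nat_lit 53186868985) (nat_lit 150) (nat_lit 5) (nat_lit 149) (nat_lit 5) (nat_lit 160) (nat_lit 5) (nat_lit 444) (nat_lit 441) (nat_lit 315))) (XT.nd (nat_lit 78) (nat_lit 0) (nat_lit 76) (XT.lf (nat_lit 0) (nat_lit 63926224850) (nat_lit 760) (nat_lit 9624225204) (nat_lit 836) (nat_lit 38022071480) (nat_lit 150) (nat_lit 5) (nat_lit 160) (nat_lit 5) (nat_lit 161) (nat_lit 5) (nat_lit 445) (nat_lit 441) (nat_lit 314)) (XT.lf (nat_lit 0) (nat_lit 76903434177) (nat_lit 760) (nat_lit 29829334587) (nat_lit 836) (nat_lit 9482734571) (nat_lit 151) (nat_lit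 5) (nat_lit 161) (nat_lit 5) (nat_lit 162) (nat_lit 5) (nat_lit 446) (nat_lit 441) (nat_lit 313)))) (XT.nd (nat_lit 156) (nat_lit 836) (nat_lit 0) (XT.nd (nat_lit 78) (nat_lit 684) (nat_lit 0) (XT.lf (nat_lit 76) (nat_lit 70202833235) (nat_lit 0) (nat_lit 23221807086) (nat_lit 836) (nat_lit 27679992481) (nat_lit 152) (nat_lit 5) (nat_lit 151) (nat_lit 5) (nat_lit 162) (nat_lit 5) (nat_lit 447) (nat_lit 441) (nat_lit 312)) (XT.lf (nat_lit 0) (nat_lit 53604741590) (nat_lit 760) (nat_lit 60072657027) (nat_lit 836) (nat_lit 12587001345) (nat_lit 142) (nat_lit 5) (nat_lit 152) (nat_lit 5) (nat_lit 153) (nat_lit 5) (nat_lit 448) (nat_lit 441) (nat_lit 311))) (XT.nd (nat_lit 78) (nat_lit 380) (nat_lit 0) (XT.lf (nat_lit 0) (nat_lit 5963564421) (nat_lit 456) (nat_lit 95012687811) (nat_lit 76) (nat_lit 30739348101) (nat_lit 136) (nat_lit 5) (nat_lit 142) (nat_lit 5) (nat_lit 137) (nat_lit 5) (nat_lit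 449) (nat_lit 441) (nat_lit 310)) (XT.lf (nat_lit 0) (nat_lit 19238668239) (nat_lit 380) (nat_lit 8923453552) (nat_lit 456) (nat_lit 109300211146) (nat_lit 131) (nat_lit 5) (nat_lit 136) (nat_lit 5) (nat_lit 137) (nat_lit 5) (nat_lit 450) (nat_lit 441) (nat_lit 309))))))) (XT.nd (nat_lit 1170) (nat_lit 2356) (nat_lit 0) (XT.nd (nat_lit 546) (nat_lit 1672) (nat_lit 0) (XT.nd (nat_lit 234) (nat_lit 1216) (nat_lit 0) (XT.nd (nat_lit 78) (nat_lit 304) (nat_lit 0) (XT.lf (nat_lit 0) (nat_lit 1029206735) (nat_lit 380) (nat_lit 54217817660) (nat_lit 456) (nat_lit 88266256811) (nat_lit 126) (nat_lit 5) (nat_lit 131) (nat_lit 5) (nat_lit 132) (nat_lit 5) (nat_lit 451) (nat_lit 441) (nat_lit 308)) (XT.nd (nat_lit 78) (nat_lit 304) (nat_lit 0) (XT.lf (nat_lit 0) (nat_lit 87442167793) (nat_lit 456) (nat_lit 16786686783) (nat_lit 76) (nat_lit 45672278412) (nat_lit 126) (nat_lit 5) (nat_lit 132) (nat_lit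 5) (nat_lit 127) (nat_lit 5) (nat_lit 452) (nat_lit 441) (nat_lit 307)) (XT.lf (nat_lit 0) (nat_lit 121954954340) (nat_lit 304) (nat_lit 3075663718) (nat_lit 380) (nat_lit 31628510163) (nat_lit 122) (nat_lit 5) (nat_lit 126) (nat_lit 5) (nat_lit 127) (nat_lit 5) (nat_lit 453) (nat_lit 441) (nat_lit 306)))) (XT.nd (nat_lit 156) (nat_lit 532) (nat_lit 0) (XT.nd (nat_lit 78) (nat_lit 304) (nat_lit 0) (XT.lf (nat_lit 0) (nat_lit 5351934031) (nat_lit 380) (nat_lit 53540132162) (nat_lit 76) (nat_lit 104877546971) (nat_lit 117) (nat_lit 5) (nat_lit 122) (nat_lit 5) (nat_lit 118) (nat_lit 5) (nat_lit 454) (nat_lit 441) (nat_lit 305)) (XT.lf (nat_lit 0) (nat_lit 47234897386) (nat_lit 380) (nat_lit 72978779064) (nat_lit 76) (nat_lit 51056725878) (nat_lit 113) (nat_lit 5) (nat_lit 118) (nat_lit 5) (nat_lit 114) (nat_lit 5) (nat_lit 455) (nat_lit 441) (nat_lit 304))) (XT.nd (nat_lit 78) (nat_lit 228) (nat_lit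 0) (XT.lf (nat_lit 0) (nat_lit 86620653242) (nat_lit 304) (nat_lit 9140693711) (nat_lit 380) (nat_lit 83445265274) (nat_lit 109) (nat_lit 5) (nat_lit 113) (nat_lit 5) (nat_lit 114) (nat_lit 5) (nat_lit 456) (nat_lit 441) (nat_lit 303)) (XT.lf (nat_lit 0) (nat_lit 74513174654) (nat_lit 228) (nat_lit 77841893731) (nat_lit 304) (nat_lit 35213392790) (nat_lit 106) (nat_lit 5) (nat_lit 109) (nat_lit 5) (nat_lit 110) (nat_lit 5) (nat_lit 457) (nat_lit 441) (nat_lit 302))))) (XT.nd (nat_lit 312) (nat_lit 684) (nat_lit 0) (XT.nd (nat_lit 156) (nat_lit 456) (nat_lit 0) (XT.nd (nat_lit 78) (nat_lit 228) (nat_lit 0) (XT.lf (nat_lit 0) (nat_lit 19809432046) (nat_lit 304) (nat_lit 133786788817) (nat_lit 76) (nat_lit 42816233692) (nat_lit 102) (nat_lit 5) (nat_lit 106) (nat_lit 5) (nat_lit 103) (nat_lit 5) (nat_lit 458) (nat_lit 441) (nat_lit 301)) (XT.lf (nat_lit 0) (nat_lit 50200278492) (nat_lit 228) (nat_lit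 31914121593) (nat_lit 304) (nat_lit 123615002778) (nat_lit 99) (nat_lit 5) (nat_lit 102) (nat_lit 5) (nat_lit 103) (nat_lit 5) (nat_lit 459) (nat_lit 441) (nat_lit 300))) (XT.nd (nat_lit 78) (nat_lit 228) (nat_lit 0) (XT.lf (nat_lit 0) (nat_lit 37620385914) (nat_lit 228) (nat_lit 116292528543) (nat_lit 304) (nat_lit 61653335174) (nat_lit 96) (nat_lit 5) (nat_lit 99) (nat_lit 5) (nat_lit 100) (nat_lit 5) (nat_lit 460) (nat_lit 441) (nat_lit 299)) (XT.lf (nat_lit 0) (nat_lit 9059093095) (nat_lit 228) (nat_lit 200383717363) (nat_lit 76) (nat_lit 16545006010) (nat_lit 93) (nat_lit 5) (nat_lit 96) (nat_lit 5) (nat_lit 94) (nat_lit 5) (nat_lit 461) (nat_lit 441) (nat_lit 298)))) (XT.nd (nat_lit 156) (nat_lit 456) (nat_lit 0) (XT.nd (nat_lit 78) (nat_lit 0) (nat_lit 0) (XT.lf (nat_lit 0) (nat_lit 12037728011) (nat_lit 228) (nat_lit 76558620691) (nat_lit 304) (nat_lit 148329831179) (nat_lit 90) (nat_lit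 5) (nat_lit 93) (nat_lit 5) (nat_lit 94) (nat_lit 5) (nat_lit 462) (nat_lit 441) (nat_lit 297)) (XT.lf (nat_lit 0) (nat_lit 179089378036) (nat_lit 304) (nat_lit 1059717640) (nat_lit 76) (nat_lit 68360877059) (nat_lit 90) (nat_lit 5) (nat_lit 94) (nat_lit 5) (nat_lit 91) (nat_lit 5) (nat_lit 463) (nat_lit 441) (nat_lit 296))) (XT.nd (nat_lit 78) (nat_lit 228) (nat_lit 0) (XT.lf (nat_lit 0) (nat_lit 20531706050) (nat_lit 228) (nat_lit 13795056169) (nat_lit 76) (nat_lit 226419568222) (nat_lit 87) (nat_lit 5) (nat_lit 90) (nat_lit 5) (nat_lit 88) (nat_lit 5) (nat_lit 464) (nat_lit 441) (nat_lit 295)) (XT.lf (nat_lit 0) (nat_lit 121171030763) (nat_lit 304) (nat_lit 28079797806) (nat_lit 76) (nat_lit 124357716124) (nat_lit 84) (nat_lit 5) (nat_lit 88) (nat_lit 5) (nat_lit 85) (nat_lit 5) (nat_lit 465) (nat_lit 441) (nat_lit 294)))))) (XT.nd (nat_lit 546) (nat_lit 1140) (nat_lit 0) (XT.nd (nat_lit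 234) (nat_lit 684) (nat_lit 0) (XT.nd (nat_lit 78) (nat_lit 380) (nat_lit 0) (XT.lf (nat_lit 0) (nat_lit 234700747918) (nat_lit 228) (nat_lit 41553996004) (nat_lit 76) (nat_lit 11003029861) (nat_lit 82) (nat_lit 5) (nat_lit 85) (nat_lit 5) (nat_lit 83) (nat_lit 5) (nat_lit 466) (nat_lit 441) (nat_lit 293)) (XT.nd (nat_lit 78) (nat_lit 152) (nat_lit 0) (XT.lf (nat_lit 0) (nat_lit 60506296554) (nat_lit 228) (nat_lit 56873377811) (nat_lit 76) (nat_lit 184227947327) (nat_lit 79) (nat_lit 5) (nat_lit 82) (nat_lit 5) (nat_lit 80) (nat_lit 5) (nat_lit 467) (nat_lit 441) (nat_lit 292)) (XT.lf (nat_lit 0) (nat_lit 186298753500) (nat_lit 228) (nat_lit 72476058345) (nat_lit 76) (nat_lit 58011295533) (nat_lit 77) (nat_lit 5) (nat_lit 80) (nat_lit 5) (nat_lit 78) (nat_lit 5) (nat_lit 468) (nat_lit 441) (nat_lit 291)))) (XT.nd (nat_lit 156) (nat_lit 304) (nat_lit 0) (XT.nd (nat_lit 78) (nat_lit 228) (nat_lit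 0) (XT.lf (nat_lit 0) (nat_lit 244313352171) (nat_lit 152) (nat_lit 84641570840) (nat_lit 228) (nat_lit 3883933124) (nat_lit 75) (nat_lit 5) (nat_lit 77) (nat_lit 5) (nat_lit 78) (nat_lit 5) (nat_lit 469) (nat_lit 441) (nat_lit 290)) (XT.lf (nat_lit 0) (nat_lit 135430861948) (nat_lit 228) (nat_lit 106892778514) (nat_lit 76) (nat_lit 107406725119) (nat_lit 72) (nat_lit 5) (nat_lit 75) (nat_lit 5) (nat_lit 73) (nat_lit 5) (nat_lit 470) (nat_lit 441) (nat_lit 289))) (XT.nd (nat_lit 78) (nat_lit 152) (nat_lit 0) (XT.lf (nat_lit 0) (nat_lit 242208610876) (nat_lit 152) (nat_lit 50323823027) (nat_lit 228) (nat_lit 75098694974) (nat_lit 70) (nat_lit 5) (nat_lit 72) (nat_lit 5) (nat_lit 73) (nat_lit 5) (nat_lit 471) (nat_lit 441) (nat_lit 288)) (XT.lf (nat_lit 0) (nat_lit 81076528816) (nat_lit 152) (nat_lit 146437102986) (nat_lit 76) (nat_lit 158979265406) (nat_lit 68) (nat_lit 5) (nat_lit 70) (nat_lit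 5) (nat_lit 69) (nat_lit 5) (nat_lit 472) (nat_lit 441) (nat_lit 287))))) (XT.nd (nat_lit 312) (nat_lit 608) (nat_lit 0) (XT.nd (nat_lit 156) (nat_lit 228) (nat_lit 0) (XT.nd (nat_lit 78) (nat_lit 152) (nat_lit 0) (XT.lf (nat_lit 0) (nat_lit 237961977094) (nat_lit 152) (nat_lit 15972038291) (nat_lit 228) (nat_lit 152527068456) (nat_lit 66) (nat_lit 5) (nat_lit 68) (nat_lit 5) (nat_lit 69) (nat_lit 5) (nat_lit 473) (nat_lit 441) (nat_lit 286)) (XT.lf (nat_lit 0) (nat_lit 21919906515) (nat_lit 152) (nat_lit 193310062549) (nat_lit 76) (nat_lit 212300445574) (nat_lit 64) (nat_lit 5) (nat_lit 66) (nat_lit 5) (nat_lit 65) (nat_lit 5) (nat_lit 474) (nat_lit 441) (nat_lit 285))) (XT.nd (nat_lit 78) (nat_lit 76) (nat_lit 0) (XT.lf (nat_lit 0) (nat_lit 212160510039) (nat_lit 228) (nat_lit 220598490407) (nat_lit 76) (nat_lit 17042185472) (nat_lit 62) (nat_lit 5) (nat_lit 65) (nat_lit 5) (nat_lit 63) (nat_lit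 4) (nat_lit 475) (nat_lit 441) (nat_lit 284)) (XT.lf (nat_lit 0) (nat_lit 222160002676) (nat_lit 76) (nat_lit 205980394047) (nat_lit 152) (nat_lit 45187220442) (nat_lit 61) (nat_lit 5) (nat_lit 62) (nat_lit 5) (nat_lit 63) (nat_lit 4) (nat_lit 476) (nat_lit 441) (nat_lit 283)))) (XT.nd (nat_lit 156) (nat_lit 304) (nat_lit 0) (XT.nd (nat_lit 78) (nat_lit 76) (nat_lit 0) (XT.lf (nat_lit 0) (nat_lit 165469978067) (nat_lit 228) (nat_lit 285098987708) (nat_lit 76) (nat_lit 47639532119) (nat_lit 58) (nat_lit 5) (nat_lit 61) (nat_lit 5) (nat_lit 59) (nat_lit 4) (nat_lit 477) (nat_lit 441) (nat_lit 282)) (XT.lf (nat_lit 0) (nat_lit 200754999225) (nat_lit 76) (nat_lit 201717033068) (nat_lit 152) (nat_lit 122017007094) (nat_lit 57) (nat_lit 5) (nat_lit 58) (nat_lit 5) (nat_lit 59) (nat_lit 4) (nat_lit 478) (nat_lit 441) (nat_lit 281))) (XT.nd (nat_lit 78) (nat_lit 76) (nat_lit 0) (XT.lf (nat_lit 0) (nat_lit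 111359734377) (nat_lit 228) (nat_lit 366296234617) (nat_lit 76) (nat_lit 74674841190) (nat_lit 54) (nat_lit 5) (nat_lit 57) (nat_lit 5) (nat_lit 55) (nat_lit 4) (nat_lit 479) (nat_lit 441) (nat_lit 280)) (XT.lf (nat_lit 0) (nat_lit 165781656820) (nat_lit 76) (nat_lit 205128357812) (nat_lit 152) (nat_lit 210800980027) (nat_lit 53) (nat_lit 5) (nat_lit 54) (nat_lit 5) (nat_lit 55) (nat_lit 4) (nat_lit 480) (nat_lit 441) (nat_lit 279))))))))
noncomputable def xc103 : XT := (XT.nd (nat_lit 60294) (nat_lit 0) (nat_lit 1672) (XT.nd (nat_lit 1170) (nat_lit 304) (nat_lit 0) (XT.nd (nat_lit 546) (nat_lit 836) (nat_lit 0) (XT.nd (nat_lit 234) (nat_lit 380) (nat_lit 0) (XT.nd (nat_lit 78) (nat_lit 152) (nat_lit 0) (XT.lf (nat_lit 0) (nat_lit 46857149229) (nat_lit 152) (nat_lit 470213360938) (nat_lit 76) (nat_lit 95827403576) (nat_lit 51) (nat_lit 5) (nat_lit 53) (nat_lit 5) (nat_lit 52) (nat_lit 4) (nat_lit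 481) (nat_lit 441) (nat_lit 278)) (XT.nd (nat_lit 78) (nat_lit 76) (nat_lit 0) (XT.lf (nat_lit 0) (nat_lit 111044406349) (nat_lit 76) (nat_lit 219353190090) (nat_lit 152) (nat_lit 315376646875) (nat_lit 50) (nat_lit 5) (nat_lit 51) (nat_lit 5) (nat_lit 52) (nat_lit 4) (nat_lit 482) (nat_lit 441) (nat_lit 277)) (XT.lf (nat_lit 0) (nat_lit 75406353814) (nat_lit 76) (nat_lit 572312487841) (nat_lit 76) (nat_lit 33006959488) (nat_lit 49) (nat_lit 4) (nat_lit 50) (nat_lit 5) (nat_lit 50) (nat_lit 4) (nat_lit 483) (nat_lit 441) (nat_lit 276)))) (XT.nd (nat_lit 156) (nat_lit 228) (nat_lit 0) (XT.nd (nat_lit 78) (nat_lit 0) (nat_lit 0) (XT.lf (nat_lit 0) (nat_lit 28247151652) (nat_lit 76) (nat_lit 248607873746) (nat_lit 152) (nat_lit 440725816595) (nat_lit 47) (nat_lit 5) (nat_lit 48) (nat_lit 5) (nat_lit 49) (nat_lit 4) (nat_lit 484) (nat_lit 441) (nat_lit 275)) (XT.lf (nat_lit 0) (nat_lit 622658781787)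 (nat_lit 152) (nat_lit 25048743476) (nat_lit 0) (nat_lit 109034245180) (nat_lit 47) (nat_lit 5) (nat_lit 49) (nat_lit 4) (nat_lit 47) (nat_lit 4) (nat_lit 485) (nat_lit 441) (nat_lit 274))) (XT.nd (nat_lit 78) (nat_lit 76) (nat_lit 0) (XT.lf (nat_lit 0) (nat_lit 206325416357) (nat_lit 152) (nat_lit 90657532738) (nat_lit 76) (nat_lit 501121651614) (nat_lit 45) (nat_lit 5) (nat_lit 47) (nat_lit 5) (nat_lit 46) (nat_lit 4) (nat_lit 486) (nat_lit 441) (nat_lit 273)) (XT.lf (nat_lit 0) (nat_lit 581824574936) (nat_lit 152) (nat_lit 167556026792) (nat_lit 0) (nat_lit 92658166788) (nat_lit 44) (nat_lit 5) (nat_lit 46) (nat_lit 4) (nat_lit 44) (nat_lit 4) (nat_lit 487) (nat_lit 441) (nat_lit 272))))) (XT.nd (nat_lit 312) (nat_lit 380) (nat_lit 0) (XT.nd (nat_lit 156) (nat_lit 228) (nat_lit 0) (XT.nd (nat_lit 78) (nat_lit 76) (nat_lit 0) (XT.lf (nat_lit 0) (nat_lit 111458294791) (nat_lit 152) (nat_lit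 260676985203) (nat_lit 76) (nat_lit 516440236751) (nat_lit 42) (nat_lit 5) (nat_lit 44) (nat_lit 5) (nat_lit 43) (nat_lit 4) (nat_lit 488) (nat_lit 441) (nat_lit 271)) (XT.lf (nat_lit 0) (nat_lit 516521682130) (nat_lit 152) (nat_lit 370812782299) (nat_lit 0) (nat_lit 50648763199) (nat_lit 41) (nat_lit 5) (nat_lit 43) (nat_lit 4) (nat_lit 41) (nat_lit 4) (nat_lit 489) (nat_lit 441) (nat_lit 270))) (XT.nd (nat_lit 78) (nat_lit 152) (nat_lit 0) (XT.lf (nat_lit 0) (nat_lit 488730702371) (nat_lit 76) (nat_lit 483779907461) (nat_lit 76) (nat_lit 17906922084) (nat_lit 40) (nat_lit 4) (nat_lit 41) (nat_lit 5) (nat_lit 41) (nat_lit 4) (nat_lit 490) (nat_lit 441) (nat_lit 269)) (XT.lf (nat_lit 0) (nat_lit 389387246233) (nat_lit 76) (nat_lit 27812896759) (nat_lit 152) (nat_lit 628887957607) (nat_lit 38) (nat_lit 5) (nat_lit 39) (nat_lit 5) (nat_lit 40) (nat_lit 4) (nat_lit 491) (nat_lit 441) (nat_lit 268))))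 (XT.nd (nat_lit 156) (nat_lit 152) (nat_lit 0) (XT.nd (nat_lit 78) (nat_lit 152) (nat_lit 0) (XT.lf (nat_lit 0) (nat_lit 264658019032) (nat_lit 76) (nat_lit 642107223141) (nat_lit 76) (nat_lit 198418552789) (nat_lit 37) (nat_lit 4) (nat_lit 38) (nat_lit 5) (nat_lit 38) (nat_lit 4) (nat_lit 492) (nat_lit 441) (nat_lit 267)) (XT.lf (nat_lit 0) (nat_lit 113558194347) (nat_lit 76) (nat_lit 158269569035) (nat_lit 152) (nat_lit 896277917345) (nat_lit 35) (nat_lit 5) (nat_lit 36) (nat_lit 5) (nat_lit 37) (nat_lit 4) (nat_lit 493) (nat_lit 441) (nat_lit 266))) (XT.nd (nat_lit 78) (nat_lit 152) (nat_lit 0) (XT.lf (nat_lit 0) (nat_lit 793403779557) (nat_lit 152) (nat_lit 70618769940) (nat_lit 0) (nat_lit 370843048985) (nat_lit 35) (nat_lit 5) (nat_lit 37) (nat_lit 4) (nat_lit 35) (nat_lit 4) (nat_lit 494) (nat_lit 441) (nat_lit 265)) (XT.lf (nat_lit 0) (nat_lit 67078883561) (nat_lit 152) (nat_lit 285049060289)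 (nat_lit 76) (nat_lit 953852972459) (nat_lit 33) (nat_lit 5) (nat_lit 35) (nat_lit 5) (nat_lit 34) (nat_lit 4) (nat_lit 495) (nat_lit 441) (nat_lit 264)))))) (XT.nd (nat_lit 58500) (nat_lit 0) (nat_lit 7372) (XT.nd (nat_lit 234) (nat_lit 0) (nat_lit 0) (XT.nd (nat_lit 78) (nat_lit 228) (nat_lit 0) (XT.lf (nat_lit 0) (nat_lit 618883210686) (nat_lit 152) (nat_lit 546193698492) (nat_lit 0) (nat_lit 216444344429) (nat_lit 32) (nat_lit 5) (nat_lit 34) (nat_lit 4) (nat_lit 32) (nat_lit 4) (nat_lit 496) (nat_lit 441) (nat_lit 263)) (XT.nd (nat_lit 78) (nat_lit 152) (nat_lit 0) (XT.lf (nat_lit 0) (nat_lit 606034526454) (nat_lit 76) (nat_lit 629243443444) (nat_lit 76) (nat_lit 226804543695) (nat_lit 31) (nat_lit 4) (nat_lit 32) (nat_lit 5) (nat_lit 32) (nat_lit 4) (nat_lit 497) (nat_lit 441) (nat_lit 262)) (XT.lf (nat_lit 0) (nat_lit 326120084287) (nat_lit 76) (nat_lit 29274557199) (nat_lit 152) (nat_lit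 1192681235842) (nat_lit 29) (nat_lit 5) (nat_lit 30) (nat_lit 5) (nat_lit 31) (nat_lit 4) (nat_lit 498) (nat_lit 441) (nat_lit 261)))) (XT.nd (nat_lit 58110) (nat_lit 0) (nat_lit 9044) (XT.nd (nat_lit 58032) (nat_lit 0) (nat_lit 8968) (XT.lf (nat_lit 0) (nat_lit 1001145543428) (nat_lit 152) (nat_lit 20500822024) (nat_lit 0) (nat_lit 617870343929) (nat_lit 29) (nat_lit 5) (nat_lit 31) (nat_lit 4) (nat_lit 29) (nat_lit 4) (nat_lit 499) (nat_lit 441) (nat_lit 260)) (XT.lf (nat_lit 0) (nat_lit 21352422359) (nat_lit 836) (nat_lit 15045204358) (nat_lit 836) (nat_lit 15045204358) (nat_lit 147) (nat_lit 3) (nat_lit 158) (nat_lit 3) (nat_lit 158) (nat_lit 5) (nat_lit 442) (nat_lit 442) (nat_lit 316))) (XT.nd (nat_lit 78) (nat_lit 0) (nat_lit 0) (XT.lf (nat_lit 0) (nat_lit 45378980945) (nat_lit 760) (nat_lit 53828152459) (nat_lit 836) (nat_lit 7745656636) (nat_lit 148) (nat_lit 5) (nat_lit 158) (nat_lit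 5) (nat_lit 159) (nat_lit 5) (nat_lit 443) (nat_lit 442) (nat_lit 315)) (XT.lf (nat_lit 76) (nat_lit 32557750723) (nat_lit 0) (nat_lit 17976868651) (nat_lit 836) (nat_lit 60697290369) (nat_lit 149) (nat_lit 5) (nat_lit 148) (nat_lit 5) (nat_lit 159) (nat_lit 5) (nat_lit 444) (nat_lit 442) (nat_lit 314))))) (XT.nd (nat_lit 312) (nat_lit 1748) (nat_lit 0) (XT.nd (nat_lit 156) (nat_lit 0) (nat_lit 152) (XT.nd (nat_lit 78) (nat_lit 0) (nat_lit 76) (XT.lf (nat_lit 76) (nat_lit 11224498806) (nat_lit 0) (nat_lit 47094612351) (nat_lit 836) (nat_lit 57423427887) (nat_lit 150) (nat_lit 5) (nat_lit 149) (nat_lit 5) (nat_lit 160) (nat_lit 5) (nat_lit 445) (nat_lit 442) (nat_lit 313)) (XT.lf (nat_lit 0) (nat_lit 69056459106) (nat_lit 760) (nat_lit 10382106735) (nat_lit 836) (nat_lit 41058948134) (nat_lit 150) (nat_lit 5) (nat_lit 160) (nat_lit 5) (nat_lit 161) (nat_lit 5) (nat_lit 446) (nat_lit 442) (nat_lit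 312))) (XT.nd (nat_lit 78) (nat_lit 0) (nat_lit 0) (XT.lf (nat_lit 0) (nat_lit 83070773928) (nat_lit 760) (nat_lit 32203334463) (nat_lit 836) (nat_lit 10237879673) (nat_lit 151) (nat_lit 5) (nat_lit 161) (nat_lit 5) (nat_lit 162) (nat_lit 5) (nat_lit 447) (nat_lit 442) (nat_lit 311)) (XT.lf (nat_lit 76) (nat_lit 75830870204) (nat_lit 0) (nat_lit 25081874825) (nat_lit 836) (nat_lit 29879549607) (nat_lit 152) (nat_lit 5) (nat_lit 151) (nat_lit 5) (nat_lit 162) (nat_lit 5) (nat_lit 448) (nat_lit 442) (nat_lit 310)))) (XT.nd (nat_lit 156) (nat_lit 760) (nat_lit 0) (XT.nd (nat_lit 78) (nat_lit 456) (nat_lit 0) (XT.lf (nat_lit 0) (nat_lit 57905130648) (nat_lit 760) (nat_lit 64879700336) (nat_lit 836) (nat_lit 13580056990) (nat_lit 142) (nat_lit 5) (nat_lit 152) (nat_lit 5) (nat_lit 153) (nat_lit 5) (nat_lit 449) (nat_lit 442) (nat_lit 309)) (XT.lf (nat_lit 0) (nat_lit 6453286596) (nat_lit 456) (nat_lit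 102601141959) (nat_lit 76) (nat_lit 33197786224) (nat_lit 136) (nat_lit 5) (nat_lit 142) (nat_lit 5) (nat_lit 137) (nat_lit 5) (nat_lit 450) (nat_lit 442) (nat_lit 308))) (XT.nd (nat_lit 78) (nat_lit 380) (nat_lit 0) (XT.lf (nat_lit 0) (nat_lit 20789776695) (nat_lit 380) (nat_lit 9637203373) (nat_lit 456) (nat_lit 118031743477) (nat_lit 131) (nat_lit 5) (nat_lit 136) (nat_lit 5) (nat_lit 137) (nat_lit 5) (nat_lit 451) (nat_lit 442) (nat_lit 307)) (XT.lf (nat_lit 0) (nat_lit 1123604349) (nat_lit 380) (nat_lit 58554380035) (nat_lit 456) (nat_lit 95315797935) (nat_lit 126) (nat_lit 5) (nat_lit 131) (nat_lit 5) (nat_lit 132) (nat_lit 5) (nat_lit 452) (nat_lit 442) (nat_lit 306))))))) (XT.nd (nat_lit 1170) (nat_lit 2356) (nat_lit 0) (XT.nd (nat_lit 546) (nat_lit 1520) (nat_lit 0) (XT.nd (nat_lit 234) (nat_lit 1140) (nat_lit 0) (XT.nd (nat_lit 78) (nat_lit 684) (nat_lit 0) (XT.lf (nat_lit 0) (nat_lit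 94447922246) (nat_lit 456) (nat_lit 18117946740) (nat_lit 76) (nat_lit 49326834218) (nat_lit 126) (nat_lit 5) (nat_lit 132) (nat_lit 5) (nat_lit 127) (nat_lit 5) (nat_lit 453) (nat_lit 442) (nat_lit 305)) (XT.nd (nat_lit 78) (nat_lit 380) (nat_lit 0) (XT.lf (nat_lit 0) (nat_lit 131722518292) (nat_lit 304) (nat_lit 3320335632) (nat_lit 380) (nat_lit 34148513963) (nat_lit 122) (nat_lit 5) (nat_lit 126) (nat_lit 5) (nat_lit 127) (nat_lit 5) (nat_lit 454) (nat_lit 442) (nat_lit 304)) (XT.lf (nat_lit 0) (nat_lit 5789496871) (nat_lit 380) (nat_lit 57811899621) (nat_lit 76) (nat_lit 113269314199) (nat_lit 117) (nat_lit 5) (nat_lit 122) (nat_lit 5) (nat_lit 118) (nat_lit 5) (nat_lit 455) (nat_lit 442) (nat_lit 303)))) (XT.nd (nat_lit 156) (nat_lit 532) (nat_lit 0) (XT.nd (nat_lit 78) (nat_lit 304) (nat_lit 0) (XT.lf (nat_lit 0) (nat_lit 51022603512) (nat_lit 380) (nat_lit 78805722656) (nat_lit 76) (nat_lit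 55143261593) (nat_lit 113) (nat_lit 5) (nat_lit 118) (nat_lit 5) (nat_lit 114) (nat_lit 5) (nat_lit 456) (nat_lit 442) (nat_lit 302)) (XT.lf (nat_lit 0) (nat_lit 93561170598) (nat_lit 304) (nat_lit 9869507759) (nat_lit 380) (nat_lit 90112040705) (nat_lit 109) (nat_lit 5) (nat_lit 113) (nat_lit 5) (nat_lit 114) (nat_lit 5) (nat_lit 457) (nat_lit 442) (nat_lit 301))) (XT.nd (nat_lit 78) (nat_lit 304) (nat_lit 0) (XT.lf (nat_lit 0) (nat_lit 80484988875) (nat_lit 228) (nat_lit 84066487947) (nat_lit 304) (nat_lit 38022060209) (nat_lit 106) (nat_lit 5) (nat_lit 109) (nat_lit 5) (nat_lit 110) (nat_lit 5) (nat_lit 458) (nat_lit 442) (nat_lit 300)) (XT.lf (nat_lit 0) (nat_lit 21401928317) (nat_lit 304) (nat_lit 144478840111) (nat_lit 76) (nat_lit 46244294622) (nat_lit 102) (nat_lit 5) (nat_lit 106) (nat_lit 5) (nat_lit 103) (nat_lit 5) (nat_lit 459) (nat_lit 442) (nat_lit 299))))) (XT.nd (nat_lit 312)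 (nat_lit 608) (nat_lit 0) (XT.nd (nat_lit 156) (nat_lit 456) (nat_lit 0) (XT.nd (nat_lit 78) (nat_lit 228) (nat_lit 0) (XT.lf (nat_lit 0) (nat_lit 54226719238) (nat_lit 228) (nat_lit 34464163762) (nat_lit 304) (nat_lit 133496504820) (nat_lit 99) (nat_lit 5) (nat_lit 102) (nat_lit 5) (nat_lit 103) (nat_lit 5) (nat_lit 460) (nat_lit 442) (nat_lit 298)) (XT.lf (nat_lit 0) (nat_lit 40640287681) (nat_lit 228) (nat_lit 125592652804) (nat_lit 304) (nat_lit 66578258801) (nat_lit 96) (nat_lit 5) (nat_lit 99) (nat_lit 5) (nat_lit 100) (nat_lit 5) (nat_lit 461) (nat_lit 442) (nat_lit 297))) (XT.nd (nat_lit 78) (nat_lit 228) (nat_lit 0) (XT.lf (nat_lit 0) (nat_lit 9790610780) (nat_lit 228) (nat_lit 216404078973) (nat_lit 76) (nat_lit 17871811927) (nat_lit 93) (nat_lit 5) (nat_lit 96) (nat_lit 5) (nat_lit 94) (nat_lit 5) (nat_lit 462) (nat_lit 442) (nat_lit 296)) (XT.lf (nat_lit 0) (nat_lit 13010632850)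 (nat_lit 228) (nat_lit 82679865362) (nat_lit 304) (nat_lit 160189453430) (nat_lit 90) (nat_lit 5) (nat_lit 93) (nat_lit 5) (nat_lit 94) (nat_lit 5) (nat_lit 463) (nat_lit 442) (nat_lit 295)))) (XT.nd (nat_lit 156) (nat_lit 380) (nat_lit 0) (XT.nd (nat_lit 78) (nat_lit 228) (nat_lit 0) (XT.lf (nat_lit 0) (nat_lit 193422542538) (nat_lit 304) (nat_lit 1135091864) (nat_lit 76) (nat_lit 73832834930) (nat_lit 90) (nat_lit 5) (nat_lit 94) (nat_lit 5) (nat_lit 91) (nat_lit 5) (nat_lit 464) (nat_lit 442) (nat_lit 294)) (XT.lf (nat_lit 0) (nat_lit 22180045771) (nat_lit 228) (nat_lit 14889473797) (nat_lit 76) (nat_lit 244536226698) (nat_lit 87) (nat_lit 5) (nat_lit 90) (nat_lit 5) (nat_lit 88) (nat_lit 5) (nat_lit 465) (nat_lit 442) (nat_lit 293))) (XT.nd (nat_lit 78) (nat_lit 152) (nat_lit 0) (XT.lf (nat_lit 0) (nat_lit 130870274955) (nat_lit 304) (nat_lit 30317169235) (nat_lit 76) (nat_lit 134309505576)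 (nat_lit 84) (nat_lit 5) (nat_lit 88) (nat_lit 5) (nat_lit 85) (nat_lit 5) (nat_lit 466) (nat_lit 442) (nat_lit 292)) (XT.lf (nat_lit 0) (nat_lit 253482144187) (nat_lit 228) (nat_lit 44869482445) (nat_lit 76) (nat_lit 11886501848) (nat_lit 82) (nat_lit 5) (nat_lit 85) (nat_lit 5) (nat_lit 83) (nat_lit 5) (nat_lit 467) (nat_lit 442) (nat_lit 291)))))) (XT.nd (nat_lit 546) (nat_lit 1140) (nat_lit 0) (XT.nd (nat_lit 234) (nat_lit 684) (nat_lit 0) (XT.nd (nat_lit 78) (nat_lit 304) (nat_lit 0) (XT.lf (nat_lit 0) (nat_lit 65351956850) (nat_lit 228) (nat_lit 61414627840) (nat_lit 76) (nat_lit 198969388570) (nat_lit 79) (nat_lit 5) (nat_lit 82) (nat_lit 5) (nat_lit 80) (nat_lit 5) (nat_lit 468) (nat_lit 442) (nat_lit 290)) (XT.nd (nat_lit 78) (nat_lit 152) (nat_lit 0) (XT.lf (nat_lit 0) (nat_lit 201207609301) (nat_lit 228) (nat_lit 78265704141) (nat_lit 76) (nat_lit 62655434436) (nat_lit 77) (nat_lit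 5) (nat_lit 80) (nat_lit 5) (nat_lit 78) (nat_lit 5) (nat_lit 469) (nat_lit 442) (nat_lit 289)) (XT.lf (nat_lit 0) (nat_lit 263866492473) (nat_lit 152) (nat_lit 91409538853) (nat_lit 228) (nat_lit 4189697285) (nat_lit 75) (nat_lit 5) (nat_lit 77) (nat_lit 5) (nat_lit 78) (nat_lit 5) (nat_lit 470) (nat_lit 442) (nat_lit 288)))) (XT.nd (nat_lit 156) (nat_lit 304) (nat_lit 0) (XT.nd (nat_lit 78) (nat_lit 152) (nat_lit 0) (XT.lf (nat_lit 0) (nat_lit 146269942629) (nat_lit 228) (nat_lit 115436151117) (nat_lit 76) (nat_lit 116002470239) (nat_lit 72) (nat_lit 5) (nat_lit 75) (nat_lit 5) (nat_lit 73) (nat_lit 5) (nat_lit 471) (nat_lit 442) (nat_lit 287)) (XT.lf (nat_lit 0) (nat_lit 261592999595) (nat_lit 152) (nat_lit 54346419353) (nat_lit 228) (nat_lit 81101980486) (nat_lit 70) (nat_lit 5) (nat_lit 72) (nat_lit 5) (nat_lit 73) (nat_lit 5) (nat_lit 472) (nat_lit 442) (nat_lit 286))) (XT.nd (nat_lit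 78) (nat_lit 152) (nat_lit 0) (XT.lf (nat_lit 0) (nat_lit 87566951153) (nat_lit 152) (nat_lit 158144402836) (nat_lit 76) (nat_lit 171700759783) (nat_lit 68) (nat_lit 5) (nat_lit 70) (nat_lit 5) (nat_lit 69) (nat_lit 5) (nat_lit 473) (nat_lit 442) (nat_lit 285)) (XT.lf (nat_lit 0) (nat_lit 257006270392) (nat_lit 152) (nat_lit 17246562258) (nat_lit 228) (nat_lit 164724932904) (nat_lit 66) (nat_lit 5) (nat_lit 68) (nat_lit 5) (nat_lit 69) (nat_lit 5) (nat_lit 474) (nat_lit 442) (nat_lit 284))))) (XT.nd (nat_lit 312) (nat_lit 532) (nat_lit 0) (XT.nd (nat_lit 156) (nat_lit 304) (nat_lit 0) (XT.nd (nat_lit 78) (nat_lit 152) (nat_lit 0) (XT.lf (nat_lit 0) (nat_lit 23677515286) (nat_lit 152) (nat_lit 208767570520) (nat_lit 76) (nat_lit 229287561021) (nat_lit 64) (nat_lit 5) (nat_lit 66) (nat_lit 5) (nat_lit 65) (nat_lit 5) (nat_lit 475) (nat_lit 442) (nat_lit 283)) (XT.lf (nat_lit 0) (nat_lit 229137227782)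 (nat_lit 228) (nat_lit 238239247397) (nat_lit 76) (nat_lit 18408611608) (nat_lit 62) (nat_lit 5) (nat_lit 65) (nat_lit 5) (nat_lit 63) (nat_lit 4) (nat_lit 476) (nat_lit 442) (nat_lit 282))) (XT.nd (nat_lit 78) (nat_lit 228) (nat_lit 0) (XT.lf (nat_lit 0) (nat_lit 239939615609) (nat_lit 76) (nat_lit 222455708976) (nat_lit 152) (nat_lit 48798317001) (nat_lit 61) (nat_lit 5) (nat_lit 62) (nat_lit 5) (nat_lit 63) (nat_lit 4) (nat_lit 477) (nat_lit 442) (nat_lit 281)) (XT.lf (nat_lit 0) (nat_lit 178711206157) (nat_lit 228) (nat_lit 307900139560) (nat_lit 76) (nat_lit 51453650387) (nat_lit 58) (nat_lit 5) (nat_lit 61) (nat_lit 5) (nat_lit 59) (nat_lit 4) (nat_lit 478) (nat_lit 442) (nat_lit 280)))) (XT.nd (nat_lit 156) (nat_lit 228) (nat_lit 0) (XT.nd (nat_lit 78) (nat_lit 228) (nat_lit 0) (XT.lf (nat_lit 0) (nat_lit 216821872235) (nat_lit 76) (nat_lit 217851384671) (nat_lit 152) (nat_lit 131774732410)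 (nat_lit 57) (nat_lit 5) (nat_lit 58) (nat_lit 5) (nat_lit 59) (nat_lit 4) (nat_lit 479) (nat_lit 442) (nat_lit 279)) (XT.lf (nat_lit 0) (nat_lit 120271915782) (nat_lit 228) (nat_lit 395593508288) (nat_lit 76) (nat_lit 80651680690) (nat_lit 54) (nat_lit 5) (nat_lit 57) (nat_lit 5) (nat_lit 55) (nat_lit 4) (nat_lit 480) (nat_lit 442) (nat_lit 278))) (XT.nd (nat_lit 78) (nat_lit 152) (nat_lit 0) (XT.lf (nat_lit 0) (nat_lit 179050335237) (nat_lit 76) (nat_lit 221535727127) (nat_lit 152) (nat_lit 227661649443) (nat_lit 53) (nat_lit 5) (nat_lit 54) (nat_lit 5) (nat_lit 55) (nat_lit 4) (nat_lit 481) (nat_lit 442) (nat_lit 277)) (XT.lf (nat_lit 0) (nat_lit 50608914278) (nat_lit 152) (nat_lit 507824333301) (nat_lit 76) (nat_lit 103496339522) (nat_lit 51) (nat_lit 5) (nat_lit 53) (nat_lit 5) (nat_lit 52) (nat_lit 4) (nat_lit 482) (nat_lit 442) (nat_lit 276))))))))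
noncomputable def xc104 : XT := (XT.nd (nat_lit 60294) (nat_lit 0) (nat_lit 1596) (XT.nd (nat_lit 1092) (nat_lit 304) (nat_lit 0) (XT.nd (nat_lit 546) (nat_lit 684) (nat_lit 0) (XT.nd (nat_lit 234) (nat_lit 380) (nat_lit 0) (XT.nd (nat_lit 78) (nat_lit 228) (nat_lit 0) (XT.lf (nat_lit 0) (nat_lit 119933790422) (nat_lit 76) (nat_lit 236898661363) (nat_lit 152) (nat_lit 340603578533) (nat_lit 50) (nat_lit 5) (nat_lit 51) (nat_lit 5) (nat_lit 52) (nat_lit 4) (nat_lit 483) (nat_lit 442) (nat_lit 275)) (XT.nd (nat_lit 78) (nat_lit 152) (nat_lit 0) (XT.lf (nat_lit 0) (nat_lit 81444544511) (nat_lit 76) (nat_lit 618094755320) (nat_lit 76) (nat_lit 35644417787) (nat_lit 49) (nat_lit 4) (nat_lit 50) (nat_lit 5) (nat_lit 50) (nat_lit 4) (nat_lit 484) (nat_lit 442) (nat_lit 274)) (XT.lf (nat_lit 0) (nat_lit 30512454154) (nat_lit 76) (nat_lit 268493836741) (nat_lit 152) (nat_lit 475980875220) (nat_lit 47)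 (nat_lit 5) (nat_lit 48) (nat_lit 5) (nat_lit 49) (nat_lit 4) (nat_lit 485) (nat_lit 442) (nat_lit 273)))) (XT.nd (nat_lit 156) (nat_lit 228) (nat_lit 0) (XT.nd (nat_lit 78) (nat_lit 152) (nat_lit 0) (XT.lf (nat_lit 0) (nat_lit 672474174239) (nat_lit 152) (nat_lit 27047428167) (nat_lit 0) (nat_lit 117759375116) (nat_lit 47) (nat_lit 5) (nat_lit 49) (nat_lit 4) (nat_lit 47) (nat_lit 4) (nat_lit 486) (nat_lit 442) (nat_lit 272)) (XT.lf (nat_lit 0) (nat_lit 222834060363) (nat_lit 152) (nat_lit 97905060824) (nat_lit 76) (nat_lit 541213716991) (nat_lit 45) (nat_lit 5) (nat_lit 47) (nat_lit 5) (nat_lit 46) (nat_lit 4) (nat_lit 487) (nat_lit 442) (nat_lit 271))) (XT.nd (nat_lit 78) (nat_lit 152) (nat_lit 0) (XT.lf (nat_lit 0) (nat_lit 628373070888) (nat_lit 152) (nat_lit 180955567092) (nat_lit 0) (nat_lit 100073105470) (nat_lit 44) (nat_lit 5) (nat_lit 46) (nat_lit 4) (nat_lit 44) (nat_lit 4) (nat_lit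 488) (nat_lit 442) (nat_lit 270)) (XT.lf (nat_lit 0) (nat_lit 120377414387) (nat_lit 152) (nat_lit 281526335692) (nat_lit 76) (nat_lit 557757685162) (nat_lit 42) (nat_lit 5) (nat_lit 44) (nat_lit 5) (nat_lit 43) (nat_lit 4) (nat_lit 489) (nat_lit 442) (nat_lit 269))))) (XT.nd (nat_lit 234) (nat_lit 380) (nat_lit 0) (XT.nd (nat_lit 78) (nat_lit 228) (nat_lit 0) (XT.lf (nat_lit 0) (nat_lit 557845797778) (nat_lit 152) (nat_lit 400473123367) (nat_lit 0) (nat_lit 54702845600) (nat_lit 41) (nat_lit 5) (nat_lit 43) (nat_lit 4) (nat_lit 41) (nat_lit 4) (nat_lit 490) (nat_lit 442) (nat_lit 268)) (XT.nd (nat_lit 78) (nat_lit 152) (nat_lit 0) (XT.lf (nat_lit 0) (nat_lit 527833636623) (nat_lit 76) (nat_lit 522480096612) (nat_lit 76) (nat_lit 19337087466) (nat_lit 40) (nat_lit 4) (nat_lit 41) (nat_lit 5) (nat_lit 41) (nat_lit 4) (nat_lit 491) (nat_lit 442) (nat_lit 267)) (XT.lf (nat_lit 0) (nat_lit 420542582538)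 (nat_lit 76) (nat_lit 30035780598) (nat_lit 152) (nat_lit 679196675042) (nat_lit 38) (nat_lit 5) (nat_lit 39) (nat_lit 5) (nat_lit 40) (nat_lit 4) (nat_lit 492) (nat_lit 442) (nat_lit 266)))) (XT.nd (nat_lit 156) (nat_lit 152) (nat_lit 0) (XT.nd (nat_lit 78) (nat_lit 152) (nat_lit 0) (XT.lf (nat_lit 0) (nat_lit 285834901418) (nat_lit 76) (nat_lit 693473702488) (nat_lit 76) (nat_lit 214289787504) (nat_lit 37) (nat_lit 4) (nat_lit 38) (nat_lit 5) (nat_lit 38) (nat_lit 4) (nat_lit 493) (nat_lit 442) (nat_lit 265)) (XT.lf (nat_lit 0) (nat_lit 122646975353) (nat_lit 76) (nat_lit 170929089722) (nat_lit 152) (nat_lit 967977966051) (nat_lit 35) (nat_lit 5) (nat_lit 36) (nat_lit 5) (nat_lit 37) (nat_lit 4) (nat_lit 494) (nat_lit 442) (nat_lit 264))) (XT.nd (nat_lit 78) (nat_lit 152) (nat_lit 0) (XT.lf (nat_lit 0) (nat_lit 856878037985) (nat_lit 152) (nat_lit 76264384878) (nat_lit 0) (nat_lit 400512325670)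 (nat_lit 35) (nat_lit 5) (nat_lit 37) (nat_lit 4) (nat_lit 35) (nat_lit 4) (nat_lit 495) (nat_lit 442) (nat_lit 263)) (XT.lf (nat_lit 0) (nat_lit 72447094125) (nat_lit 152) (nat_lit 307849204524) (nat_lit 76) (nat_lit 1030162995949) (nat_lit 33) (nat_lit 5) (nat_lit 35) (nat_lit 5) (nat_lit 34) (nat_lit 4) (nat_lit 496) (nat_lit 442) (nat_lit 262)))))) (XT.nd (nat_lit 58578) (nat_lit 0) (nat_lit 7372) (XT.nd (nat_lit 58266) (nat_lit 0) (nat_lit 8968) (XT.nd (nat_lit 78) (nat_lit 228) (nat_lit 0) (XT.lf (nat_lit 0) (nat_lit 668395711263) (nat_lit 152) (nat_lit 589885515395) (nat_lit 0) (nat_lit 233761635031) (nat_lit 32) (nat_lit 5) (nat_lit 34) (nat_lit 4) (nat_lit 32) (nat_lit 4) (nat_lit 497) (nat_lit 442) (nat_lit 261)) (XT.nd (nat_lit 78) (nat_lit 152) (nat_lit 0) (XT.lf (nat_lit 0) (nat_lit 654520807663) (nat_lit 76) (nat_lit 679581161920) (nat_lit 76) (nat_lit 244947056974) (nat_lit 31)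 (nat_lit 4) (nat_lit 32) (nat_lit 5) (nat_lit 32) (nat_lit 4) (nat_lit 498) (nat_lit 442) (nat_lit 260)) (XT.lf (nat_lit 0) (nat_lit 352213113849) (nat_lit 76) (nat_lit 31614810727) (nat_lit 152) (nat_lit 1288093937333) (nat_lit 29) (nat_lit 5) (nat_lit 30) (nat_lit 5) (nat_lit 31) (nat_lit 4) (nat_lit 499) (nat_lit 442) (nat_lit 259)))) (XT.nd (nat_lit 156) (nat_lit 0) (nat_lit 76) (XT.nd (nat_lit 78) (nat_lit 0) (nat_lit 76) (XT.lf (nat_lit 0) (nat_lit 23069926697) (nat_lit 836) (nat_lit 16243931948) (nat_lit 836) (nat_lit 16243931948) (nat_lit 147) (nat_lit 3) (nat_lit 158) (nat_lit 3) (nat_lit 158) (nat_lit 5) (nat_lit 443) (nat_lit 443) (nat_lit 314)) (XT.lf (nat_lit 0) (nat_lit 49026561747) (nat_lit 760) (nat_lit 58124054551) (nat_lit 836) (nat_lit 8357531163) (nat_lit 148) (nat_lit 5) (nat_lit 158) (nat_lit 5) (nat_lit 159) (nat_lit 5) (nat_lit 444) (nat_lit 443) (nat_lit 313))) (XT.nd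 (nat_lit 78) (nat_lit 0) (nat_lit 76) (XT.lf (nat_lit 76) (nat_lit 35172271083) (nat_lit 0) (nat_lit 19421256047) (nat_lit 836) (nat_lit 65536126012) (nat_lit 149) (nat_lit 5) (nat_lit 148) (nat_lit 5) (nat_lit 159) (nat_lit 5) (nat_lit 445) (nat_lit 443) (nat_lit 312)) (XT.lf (nat_lit 76) (nat_lit 12132796121) (nat_lit 0) (nat_lit 50866857931) (nat_lit 836) (nat_lit 62001535128) (nat_lit 150) (nat_lit 5) (nat_lit 149) (nat_lit 5) (nat_lit 160) (nat_lit 5) (nat_lit 446) (nat_lit 443) (nat_lit 311))))) (XT.nd (nat_lit 312) (nat_lit 1216) (nat_lit 0) (XT.nd (nat_lit 156) (nat_lit 608) (nat_lit 0) (XT.nd (nat_lit 78) (nat_lit 0) (nat_lit 76) (XT.lf (nat_lit 0) (nat_lit 74594810083) (nat_lit 760) (nat_lit 11202338781) (nat_lit 836) (nat_lit 44339472399) (nat_lit 150) (nat_lit 5) (nat_lit 160) (nat_lit 5) (nat_lit 161) (nat_lit 5) (nat_lit 447) (nat_lit 443) (nat_lit 310)) (XT.lf (nat_lit 0) (nat_lit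 89729351666) (nat_lit 760) (nat_lit 34769015752) (nat_lit 836) (nat_lit 11053931941) (nat_lit 151) (nat_lit 5) (nat_lit 161) (nat_lit 5) (nat_lit 162) (nat_lit 5) (nat_lit 448) (nat_lit 443) (nat_lit 309))) (XT.nd (nat_lit 78) (nat_lit 684) (nat_lit 0) (XT.lf (nat_lit 76) (nat_lit 81907465257) (nat_lit 0) (nat_lit 27090416557) (nat_lit 836) (nat_lit 32257188719) (nat_lit 152) (nat_lit 5) (nat_lit 151) (nat_lit 5) (nat_lit 162) (nat_lit 5) (nat_lit 449) (nat_lit 443) (nat_lit 308)) (XT.lf (nat_lit 0) (nat_lit 62547837509) (nat_lit 760) (nat_lit 70071131531) (nat_lit 836) (nat_lit 14654540714) (nat_lit 142) (nat_lit 5) (nat_lit 152) (nat_lit 5) (nat_lit 153) (nat_lit 5) (nat_lit 450) (nat_lit 443) (nat_lit 307)))) (XT.nd (nat_lit 156) (nat_lit 380) (nat_lit 0) (XT.nd (nat_lit 78) (nat_lit 380) (nat_lit 0) (XT.lf (nat_lit 0) (nat_lit 6980383733) (nat_lit 456) (nat_lit 110798464389) (nat_lit 76)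 (nat_lit 35853000648) (nat_lit 136) (nat_lit 5) (nat_lit 142) (nat_lit 5) (nat_lit 137) (nat_lit 5) (nat_lit 451) (nat_lit 443) (nat_lit 306)) (XT.lf (nat_lit 0) (nat_lit 22463259753) (nat_lit 380) (nat_lit 10408071221) (nat_lit 456) (nat_lit 127463579457) (nat_lit 131) (nat_lit 5) (nat_lit 136) (nat_lit 5) (nat_lit 137) (nat_lit 5) (nat_lit 452) (nat_lit 443) (nat_lit 305))) (XT.nd (nat_lit 78) (nat_lit 0) (nat_lit 0) (XT.lf (nat_lit 0) (nat_lit 1223833124) (nat_lit 380) (nat_lit 63237990521) (nat_lit 456) (nat_lit 102930979962) (nat_lit 126) (nat_lit 5) (nat_lit 131) (nat_lit 5) (nat_lit 132) (nat_lit 5) (nat_lit 453) (nat_lit 443) (nat_lit 304)) (XT.lf (nat_lit 0) (nat_lit 102012656084) (nat_lit 456) (nat_lit 19557373061) (nat_lit 76) (nat_lit 53273644136) (nat_lit 126) (nat_lit 5) (nat_lit 132) (nat_lit 5) (nat_lit 127) (nat_lit 5) (nat_lit 454) (nat_lit 443) (nat_lit 303))))))) (XT.nd (nat_lit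 1170) (nat_lit 2204) (nat_lit 0) (XT.nd (nat_lit 546) (nat_lit 1520) (nat_lit 0) (XT.nd (nat_lit 234) (nat_lit 1064) (nat_lit 0) (XT.nd (nat_lit 78) (nat_lit 684) (nat_lit 0) (XT.lf (nat_lit 0) (nat_lit 142269894177) (nat_lit 304) (nat_lit 3584778340) (nat_lit 380) (nat_lit 36871584198) (nat_lit 122) (nat_lit 5) (nat_lit 126) (nat_lit 5) (nat_lit 127) (nat_lit 5) (nat_lit 455) (nat_lit 443) (nat_lit 302)) (XT.nd (nat_lit 78) (nat_lit 304) (nat_lit 0) (XT.lf (nat_lit 0) (nat_lit 6260722564) (nat_lit 380) (nat_lit 62427040965) (nat_lit 76) (nat_lit 122332199759) (nat_lit 117) (nat_lit 5) (nat_lit 122) (nat_lit 5) (nat_lit 118) (nat_lit 5) (nat_lit 456) (nat_lit 443) (nat_lit 301)) (XT.lf (nat_lit 0) (nat_lit 55112054397) (nat_lit 380) (nat_lit 85100442186) (nat_lit 76) (nat_lit 59556435179) (nat_lit 113) (nat_lit 5) (nat_lit 118) (nat_lit 5) (nat_lit 114) (nat_lit 5) (nat_lit 457) (nat_lit 443)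 (nat_lit 300)))) (XT.nd (nat_lit 156) (nat_lit 532) (nat_lit 0) (XT.nd (nat_lit 78) (nat_lit 228) (nat_lit 0) (XT.lf (nat_lit 0) (nat_lit 101055379315) (nat_lit 304) (nat_lit 10656975231) (nat_lit 380) (nat_lit 97313420122) (nat_lit 109) (nat_lit 5) (nat_lit 113) (nat_lit 5) (nat_lit 114) (nat_lit 5) (nat_lit 458) (nat_lit 443) (nat_lit 299)) (XT.lf (nat_lit 0) (nat_lit 86933013164) (nat_lit 228) (nat_lit 90789443057) (nat_lit 304) (nat_lit 41056619947) (nat_lit 106) (nat_lit 5) (nat_lit 109) (nat_lit 5) (nat_lit 110) (nat_lit 5) (nat_lit 459) (nat_lit 443) (nat_lit 298))) (XT.nd (nat_lit 78) (nat_lit 228) (nat_lit 0) (XT.lf (nat_lit 0) (nat_lit 23120719848) (nat_lit 304) (nat_lit 156027809346) (nat_lit 76) (nat_lit 49946206364) (nat_lit 102) (nat_lit 5) (nat_lit 106) (nat_lit 5) (nat_lit 103) (nat_lit 5) (nat_lit 460) (nat_lit 443) (nat_lit 297)) (XT.lf (nat_lit 0) (nat_lit 58573788934) (nat_lit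 228) (nat_lit 37218649780) (nat_lit 304) (nat_lit 144169625256) (nat_lit 99) (nat_lit 5) (nat_lit 102) (nat_lit 5) (nat_lit 103) (nat_lit 5) (nat_lit 461) (nat_lit 443) (nat_lit 296))))) (XT.nd (nat_lit 312) (nat_lit 836) (nat_lit 0) (XT.nd (nat_lit 156) (nat_lit 228) (nat_lit 0) (XT.nd (nat_lit 78) (nat_lit 228) (nat_lit 0) (XT.lf (nat_lit 0) (nat_lit 43900316331) (nat_lit 228) (nat_lit 135637254652) (nat_lit 304) (nat_lit 71898223907) (nat_lit 96) (nat_lit 5) (nat_lit 99) (nat_lit 5) (nat_lit 100) (nat_lit 5) (nat_lit 462) (nat_lit 443) (nat_lit 295)) (XT.lf (nat_lit 0) (nat_lit 10579681176) (nat_lit 228) (nat_lit 233707544026) (nat_lit 76) (nat_lit 19304305027) (nat_lit 93) (nat_lit 5) (nat_lit 96) (nat_lit 5) (nat_lit 94) (nat_lit 5) (nat_lit 463) (nat_lit 443) (nat_lit 294))) (XT.nd (nat_lit 78) (nat_lit 0) (nat_lit 0) (XT.lf (nat_lit 0) (nat_lit 14059959643) (nat_lit 228) (nat_lit 89291301073)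 (nat_lit 304) (nat_lit 172998810455) (nat_lit 90) (nat_lit 5) (nat_lit 93) (nat_lit 5) (nat_lit 94) (nat_lit 5) (nat_lit 464) (nat_lit 443) (nat_lit 293)) (XT.lf (nat_lit 0) (nat_lit 208901502200) (nat_lit 304) (nat_lit 1217837495) (nat_lit 76) (nat_lit 79742108936) (nat_lit 90) (nat_lit 5) (nat_lit 94) (nat_lit 5) (nat_lit 91) (nat_lit 5) (nat_lit 465) (nat_lit 443) (nat_lit 292)))) (XT.nd (nat_lit 156) (nat_lit 380) (nat_lit 0) (XT.nd (nat_lit 78) (nat_lit 228) (nat_lit 0) (XT.lf (nat_lit 0) (nat_lit 23959424774) (nat_lit 228) (nat_lit 16072755444) (nat_lit 76) (nat_lit 264101776598) (nat_lit 87) (nat_lit 5) (nat_lit 90) (nat_lit 5) (nat_lit 88) (nat_lit 5) (nat_lit 466) (nat_lit 443) (nat_lit 291)) (XT.lf (nat_lit 0) (nat_lit 141344665239) (nat_lit 304) (nat_lit 32734816097) (nat_lit 76) (nat_lit 145056985641) (nat_lit 84) (nat_lit 5) (nat_lit 88) (nat_lit 5) (nat_lit 85) (nat_lit 5) (nat_lit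 467) (nat_lit 443) (nat_lit 290))) (XT.nd (nat_lit 78) (nat_lit 228) (nat_lit 0) (XT.lf (nat_lit 0) (nat_lit 273765290855) (nat_lit 228) (nat_lit 48451467962) (nat_lit 76) (nat_lit 12840190855) (nat_lit 82) (nat_lit 5) (nat_lit 85) (nat_lit 5) (nat_lit 83) (nat_lit 5) (nat_lit 468) (nat_lit 443) (nat_lit 289)) (XT.lf (nat_lit 0) (nat_lit 70584534327) (nat_lit 228) (nat_lit 66320407639) (nat_lit 76) (nat_lit 214889687818) (nat_lit 79) (nat_lit 5) (nat_lit 82) (nat_lit 5) (nat_lit 80) (nat_lit 5) (nat_lit 469) (nat_lit 443) (nat_lit 288)))))) (XT.nd (nat_lit 546) (nat_lit 1064) (nat_lit 0) (XT.nd (nat_lit 234) (nat_lit 608) (nat_lit 0) (XT.nd (nat_lit 78) (nat_lit 380) (nat_lit 0) (XT.lf (nat_lit 0) (nat_lit 217308466606) (nat_lit 228) (nat_lit 84519725500) (nat_lit 76) (nat_lit 67670642905) (nat_lit 77) (nat_lit 5) (nat_lit 80) (nat_lit 5) (nat_lit 78) (nat_lit 5) (nat_lit 470) (nat_lit 443)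 (nat_lit 287)) (XT.nd (nat_lit 78) (nat_lit 228) (nat_lit 0) (XT.lf (nat_lit 0) (nat_lit 284982732421) (nat_lit 152) (nat_lit 98719423313) (nat_lit 228) (nat_lit 4520628822) (nat_lit 75) (nat_lit 5) (nat_lit 77) (nat_lit 5) (nat_lit 78) (nat_lit 5) (nat_lit 471) (nat_lit 443) (nat_lit 286)) (XT.lf (nat_lit 0) (nat_lit 157975491850) (nat_lit 228) (nat_lit 124664141906) (nat_lit 76) (nat_lit 125285417438) (nat_lit 72) (nat_lit 5) (nat_lit 75) (nat_lit 5) (nat_lit 73) (nat_lit 5) (nat_lit 472) (nat_lit 443) (nat_lit 285)))) (XT.nd (nat_lit 156) (nat_lit 304) (nat_lit 0) (XT.nd (nat_lit 78) (nat_lit 152) (nat_lit 0) (XT.lf (nat_lit 0) (nat_lit 282527040941) (nat_lit 152) (nat_lit 58691295525) (nat_lit 228) (nat_lit 87586186519) (nat_lit 70) (nat_lit 5) (nat_lit 72) (nat_lit 5) (nat_lit 73) (nat_lit 5) (nat_lit 473) (nat_lit 443) (nat_lit 284)) (XT.lf (nat_lit 0) (nat_lit 94575993830) (nat_lit 152)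 (nat_lit 170789380656) (nat_lit 76) (nat_lit 185439523880) (nat_lit 68) (nat_lit 5) (nat_lit 70) (nat_lit 5) (nat_lit 69) (nat_lit 5) (nat_lit 474) (nat_lit 443) (nat_lit 283))) (XT.nd (nat_lit 78) (nat_lit 152) (nat_lit 0) (XT.lf (nat_lit 0) (nat_lit 277573060715) (nat_lit 152) (nat_lit 18623510236) (nat_lit 228) (nat_lit 177899240097) (nat_lit 66) (nat_lit 5) (nat_lit 68) (nat_lit 5) (nat_lit 69) (nat_lit 5) (nat_lit 475) (nat_lit 443) (nat_lit 282)) (XT.lf (nat_lit 0) (nat_lit 25575159795) (nat_lit 152) (nat_lit 225462720132) (nat_lit 76) (nat_lit 247633206335) (nat_lit 64) (nat_lit 5) (nat_lit 66) (nat_lit 5) (nat_lit 65) (nat_lit 5) (nat_lit 476) (nat_lit 443) (nat_lit 281))))) (XT.nd (nat_lit 312) (nat_lit 532) (nat_lit 0) (XT.nd (nat_lit 156) (nat_lit 304) (nat_lit 0) (XT.nd (nat_lit 78) (nat_lit 76) (nat_lit 0) (XT.lf (nat_lit 0) (nat_lit 247471529855) (nat_lit 228) (nat_lit 257292281013)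 (nat_lit 76) (nat_lit 19883916533) (nat_lit 62) (nat_lit 5) (nat_lit 65) (nat_lit 5) (nat_lit 63) (nat_lit 4) (nat_lit 477) (nat_lit 443) (nat_lit 280)) (XT.lf (nat_lit 0) (nat_lit 259140625666) (nat_lit 76) (nat_lit 240249493717) (nat_lit 152) (nat_lit 52698854963) (nat_lit 61) (nat_lit 5) (nat_lit 62) (nat_lit 5) (nat_lit 63) (nat_lit 4) (nat_lit 478) (nat_lit 443) (nat_lit 279))) (XT.nd (nat_lit 78) (nat_lit 76) (nat_lit 0) (XT.lf (nat_lit 0) (nat_lit 193011214658) (nat_lit 228) (nat_lit 332526348971) (nat_lit 76) (nat_lit 55572476453) (nat_lit 58) (nat_lit 5) (nat_lit 61) (nat_lit 5) (nat_lit 59) (nat_lit 4) (nat_lit 479) (nat_lit 443) (nat_lit 278)) (XT.lf (nat_lit 0) (nat_lit 234173171630) (nat_lit 76) (nat_lit 235276913962) (nat_lit 152) (nat_lit 142313594360) (nat_lit 57) (nat_lit 5) (nat_lit 58) (nat_lit 5) (nat_lit 59) (nat_lit 4) (nat_lit 480) (nat_lit 443) (nat_lit 277)))) (XT.nd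 (nat_lit 156) (nat_lit 228) (nat_lit 0) (XT.nd (nat_lit 78) (nat_lit 76) (nat_lit 0) (XT.lf (nat_lit 0) (nat_lit 129896586273) (nat_lit 228) (nat_lit 427235480465) (nat_lit 76) (nat_lit 87106260452) (nat_lit 54) (nat_lit 5) (nat_lit 57) (nat_lit 5) (nat_lit 55) (nat_lit 4) (nat_lit 481) (nat_lit 443) (nat_lit 276)) (XT.lf (nat_lit 0) (nat_lit 193379631151) (nat_lit 76) (nat_lit 239256099605) (nat_lit 152) (nat_lit 245871658742) (nat_lit 53) (nat_lit 5) (nat_lit 54) (nat_lit 5) (nat_lit 55) (nat_lit 4) (nat_lit 482) (nat_lit 443) (nat_lit 275))) (XT.nd (nat_lit 78) (nat_lit 76) (nat_lit 0) (XT.lf (nat_lit 0) (nat_lit 54660364997) (nat_lit 152) (nat_lit 548445053188) (nat_lit 76) (nat_lit 111778398930) (nat_lit 51) (nat_lit 5) (nat_lit 53) (nat_lit 5) (nat_lit 52) (nat_lit 4) (nat_lit 483) (nat_lit 443) (nat_lit 274)) (XT.lf (nat_lit 0) (nat_lit 129533493283) (nat_lit 76) (nat_lit 255848167496)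 (nat_lit 152) (nat_lit 367849121253) (nat_lit 50) (nat_lit 5) (nat_lit 51) (nat_lit 5) (nat_lit 52) (nat_lit 4) (nat_lit 484) (nat_lit 443) (nat_lit 273))))))))
noncomputable def xc105 : XT := (XT.nd (nat_lit 60372) (nat_lit 0) (nat_lit 1216) (XT.nd (nat_lit 1092) (nat_lit 76) (nat_lit 0) (XT.nd (nat_lit 546) (nat_lit 684) (nat_lit 0) (XT.nd (nat_lit 234) (nat_lit 456) (nat_lit 0) (XT.nd (nat_lit 78) (nat_lit 152) (nat_lit 0) (XT.lf (nat_lit 0) (nat_lit 87964979807) (nat_lit 76) (nat_lit 667539993884) (nat_lit 76) (nat_lit 38493314781) (nat_lit 49) (nat_lit 4) (nat_lit 50) (nat_lit 5) (nat_lit 50) (nat_lit 4) (nat_lit 485) (nat_lit 443) (nat_lit 272)) (XT.nd (nat_lit 78) (nat_lit 0) (nat_lit 0) (XT.lf (nat_lit 0) (nat_lit 32958191887) (nat_lit 76) (nat_lit 289971057239) (nat_lit 152) (nat_lit 514056767475) (nat_lit 47) (nat_lit 5) (nat_lit 48) (nat_lit 5) (nat_lit 49) (nat_lit 4) (nat_lit 486)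 (nat_lit 443) (nat_lit 271)) (XT.lf (nat_lit 0) (nat_lit 726274414342) (nat_lit 152) (nat_lit 29206751581) (nat_lit 0) (nat_lit 127182174441) (nat_lit 47) (nat_lit 5) (nat_lit 49) (nat_lit 4) (nat_lit 47) (nat_lit 4) (nat_lit 487) (nat_lit 443) (nat_lit 270)))) (XT.nd (nat_lit 156) (nat_lit 228) (nat_lit 0) (XT.nd (nat_lit 78) (nat_lit 76) (nat_lit 0) (XT.lf (nat_lit 0) (nat_lit 240663023445) (nat_lit 152) (nat_lit 105733115096) (nat_lit 76) (nat_lit 584512814735) (nat_lit 45) (nat_lit 5) (nat_lit 47) (nat_lit 5) (nat_lit 46) (nat_lit 4) (nat_lit 488) (nat_lit 443) (nat_lit 269)) (XT.lf (nat_lit 0) (nat_lit 678645085590) (nat_lit 152) (nat_lit 195427775625) (nat_lit 0) (nat_lit 108080913219) (nat_lit 44) (nat_lit 5) (nat_lit 46) (nat_lit 4) (nat_lit 44) (nat_lit 4) (nat_lit 489) (nat_lit 443) (nat_lit 268))) (XT.nd (nat_lit 78) (nat_lit 76) (nat_lit 0) (XT.lf (nat_lit 0) (nat_lit 130009713173)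 (nat_lit 152) (nat_lit 304044320181) (nat_lit 76) (nat_lit 602380211388) (nat_lit 42) (nat_lit 5) (nat_lit 44) (nat_lit 5) (nat_lit 43) (nat_lit 4) (nat_lit 490) (nat_lit 443) (nat_lit 267)) (XT.lf (nat_lit 0) (nat_lit 602475502990) (nat_lit 152) (nat_lit 432506959592) (nat_lit 0) (nat_lit 59080943399) (nat_lit 41) (nat_lit 5) (nat_lit 43) (nat_lit 4) (nat_lit 41) (nat_lit 4) (nat_lit 491) (nat_lit 443) (nat_lit 266))))) (XT.nd (nat_lit 234) (nat_lit 380) (nat_lit 0) (XT.nd (nat_lit 78) (nat_lit 228) (nat_lit 0) (XT.lf (nat_lit 0) (nat_lit 570064166770) (nat_lit 76) (nat_lit 564276615241) (nat_lit 76) (nat_lit 20882006809) (nat_lit 40) (nat_lit 4) (nat_lit 41) (nat_lit 5) (nat_lit 41) (nat_lit 4) (nat_lit 492) (nat_lit 443) (nat_lit 265)) (XT.nd (nat_lit 78) (nat_lit 76) (nat_lit 0) (XT.lf (nat_lit 0) (nat_lit 454189724229) (nat_lit 76) (nat_lit 32436801567) (nat_lit 152) (nat_lit 733530420728)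 (nat_lit 38) (nat_lit 5) (nat_lit 39) (nat_lit 5) (nat_lit 40) (nat_lit 4) (nat_lit 493) (nat_lit 443) (nat_lit 264)) (XT.lf (nat_lit 0) (nat_lit 308705329389) (nat_lit 76) (nat_lit 748949799559) (nat_lit 76) (nat_lit 231431041914) (nat_lit 37) (nat_lit 4) (nat_lit 38) (nat_lit 5) (nat_lit 38) (nat_lit 4) (nat_lit 494) (nat_lit 443) (nat_lit 263)))) (XT.nd (nat_lit 156) (nat_lit 228) (nat_lit 0) (XT.nd (nat_lit 78) (nat_lit 0) (nat_lit 0) (XT.lf (nat_lit 0) (nat_lit 132462270296) (nat_lit 76) (nat_lit 184601663784) (nat_lit 152) (nat_lit 1045414330324) (nat_lit 35) (nat_lit 5) (nat_lit 36) (nat_lit 5) (nat_lit 37) (nat_lit 4) (nat_lit 495) (nat_lit 443) (nat_lit 262)) (XT.lf (nat_lit 0) (nat_lit 925429958033) (nat_lit 152) (nat_lit 82362203486) (nat_lit 0) (nat_lit 432554883025) (nat_lit 35) (nat_lit 5) (nat_lit 37) (nat_lit 4) (nat_lit 35) (nat_lit 4) (nat_lit 496) (nat_lit 443) (nat_lit 261)))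 (XT.nd (nat_lit 78) (nat_lit 76) (nat_lit 0) (XT.lf (nat_lit 0) (nat_lit 78244490496) (nat_lit 152) (nat_lit 332473899640) (nat_lit 76) (nat_lit 1112577566569) (nat_lit 33) (nat_lit 5) (nat_lit 35) (nat_lit 5) (nat_lit 34) (nat_lit 4) (nat_lit 497) (nat_lit 443) (nat_lit 260)) (XT.lf (nat_lit 0) (nat_lit 721868948858) (nat_lit 152) (nat_lit 637073202498) (nat_lit 0) (nat_lit 252464060216) (nat_lit 32) (nat_lit 5) (nat_lit 34) (nat_lit 4) (nat_lit 32) (nat_lit 4) (nat_lit 498) (nat_lit 443) (nat_lit 259)))))) (XT.nd (nat_lit 58656) (nat_lit 0) (nat_lit 6536) (XT.nd (nat_lit 58344) (nat_lit 0) (nat_lit 8892) (XT.nd (nat_lit 58188) (nat_lit 0) (nat_lit 8816) (XT.lf (nat_lit 0) (nat_lit 706885489330) (nat_lit 76) (nat_lit 733946148530) (nat_lit 76) (nat_lit 264541235270) (nat_lit 31) (nat_lit 4) (nat_lit 32) (nat_lit 5) (nat_lit 32) (nat_lit 4) (nat_lit 499) (nat_lit 443) (nat_lit 258)) (XT.nd (nat_lit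 78) (nat_lit 0) (nat_lit 76) (XT.lf (nat_lit 0) (nat_lit 24923503128) (nat_lit 836) (nat_lit 17539255182) (nat_lit 836) (nat_lit 17539255182) (nat_lit 147) (nat_lit 3) (nat_lit 158) (nat_lit 3) (nat_lit 158) (nat_lit 5) (nat_lit 444) (nat_lit 444) (nat_lit 312)) (XT.lf (nat_lit 0) (nat_lit 52963486350) (nat_lit 760) (nat_lit 62765105368) (nat_lit 836) (nat_lit 9019465271) (nat_lit 148) (nat_lit 5) (nat_lit 158) (nat_lit 5) (nat_lit 159) (nat_lit 5) (nat_lit 445) (nat_lit 444) (nat_lit 311)))) (XT.nd (nat_lit 156) (nat_lit 0) (nat_lit 152) (XT.nd (nat_lit 78) (nat_lit 0) (nat_lit 76) (XT.lf (nat_lit 76) (nat_lit 37994540683) (nat_lit 0) (nat_lit 20980304529) (nat_lit 836) (nat_lit 70764486269) (nat_lit 149) (nat_lit 5) (nat_lit 148) (nat_lit 5) (nat_lit 159) (nat_lit 5) (nat_lit 446) (nat_lit 444) (nat_lit 310)) (XT.lf (nat_lit 76) (nat_lit 13112282475) (nat_lit 0) (nat_lit 54940215990) (nat_lit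 836) (nat_lit 66948140286) (nat_lit 150) (nat_lit 5) (nat_lit 149) (nat_lit 5) (nat_lit 160) (nat_lit 5) (nat_lit 447) (nat_lit 444) (nat_lit 309))) (XT.nd (nat_lit 78) (nat_lit 0) (nat_lit 76) (XT.lf (nat_lit 0) (nat_lit 80574255528) (nat_lit 760) (nat_lit 12089664007) (nat_lit 836) (nat_lit 47883036582) (nat_lit 150) (nat_lit 5) (nat_lit 160) (nat_lit 5) (nat_lit 161) (nat_lit 5) (nat_lit 448) (nat_lit 444) (nat_lit 308)) (XT.lf (nat_lit 0) (nat_lit 96918773036) (nat_lit 760) (nat_lit 37541461679) (nat_lit 836) (nat_lit 11935693250) (nat_lit 151) (nat_lit 5) (nat_lit 161) (nat_lit 5) (nat_lit 162) (nat_lit 5) (nat_lit 449) (nat_lit 444) (nat_lit 307))))) (XT.nd (nat_lit 312) (nat_lit 1064) (nat_lit 0) (XT.nd (nat_lit 156) (nat_lit 836) (nat_lit 0) (XT.nd (nat_lit 78) (nat_lit 684) (nat_lit 0) (XT.lf (nat_lit 76) (nat_lit 88468743407) (nat_lit 0) (nat_lit 29259357482) (nat_lit 836) (nat_lit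 34826854303) (nat_lit 152) (nat_lit 5) (nat_lit 151) (nat_lit 5) (nat_lit 162) (nat_lit 5) (nat_lit 450) (nat_lit 444) (nat_lit 306)) (XT.lf (nat_lit 0) (nat_lit 67560492020) (nat_lit 760) (nat_lit 75677726689) (nat_lit 836) (nat_lit 15816683777) (nat_lit 142) (nat_lit 5) (nat_lit 152) (nat_lit 5) (nat_lit 153) (nat_lit 5) (nat_lit 451) (nat_lit 444) (nat_lit 305))) (XT.nd (nat_lit 78) (nat_lit 380) (nat_lit 0) (XT.lf (nat_lit 0) (nat_lit 7548103019) (nat_lit 456) (nat_lit 119653108920) (nat_lit 76) (nat_lit 38720719032) (nat_lit 136) (nat_lit 5) (nat_lit 142) (nat_lit 5) (nat_lit 137) (nat_lit 5) (nat_lit 452) (nat_lit 444) (nat_lit 304)) (XT.lf (nat_lit 0) (nat_lit 24269151914) (nat_lit 380) (nat_lit 11240623965) (nat_lit 456) (nat_lit 137651489289) (nat_lit 131) (nat_lit 5) (nat_lit 136) (nat_lit 5) (nat_lit 137) (nat_lit 5) (nat_lit 453) (nat_lit 444) (nat_lit 303)))) (XT.nd (nat_lit 156)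 (nat_lit 684) (nat_lit 0) (XT.nd (nat_lit 78) (nat_lit 0) (nat_lit 0) (XT.lf (nat_lit 0) (nat_lit 1330605025) (nat_lit 380) (nat_lit 68296395404) (nat_lit 456) (nat_lit 111156814834) (nat_lit 126) (nat_lit 5) (nat_lit 131) (nat_lit 5) (nat_lit 132) (nat_lit 5) (nat_lit 454) (nat_lit 444) (nat_lit 302)) (XT.lf (nat_lit 0) (nat_lit 110181298937) (nat_lit 456) (nat_lit 21113381443) (nat_lit 76) (nat_lit 57536104237) (nat_lit 126) (nat_lit 5) (nat_lit 132) (nat_lit 5) (nat_lit 127) (nat_lit 5) (nat_lit 455) (nat_lit 444) (nat_lit 301))) (XT.nd (nat_lit 78) (nat_lit 380) (nat_lit 0) (XT.lf (nat_lit 0) (nat_lit 153659694234) (nat_lit 304) (nat_lit 3870545396) (nat_lit 380) (nat_lit 39813757023) (nat_lit 122) (nat_lit 5) (nat_lit 126) (nat_lit 5) (nat_lit 127) (nat_lit 5) (nat_lit 456) (nat_lit 444) (nat_lit 300)) (XT.lf (nat_lit 0) (nat_lit 6768495616) (nat_lit 380) (nat_lit 67412793212) (nat_lit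 76) (nat_lit 132119924937) (nat_lit 117) (nat_lit 5) (nat_lit 122) (nat_lit 5) (nat_lit 118) (nat_lit 5) (nat_lit 457) (nat_lit 444) (nat_lit 299))))))) (XT.nd (nat_lit 1170) (nat_lit 2128) (nat_lit 0) (XT.nd (nat_lit 546) (nat_lit 1368) (nat_lit 0) (XT.nd (nat_lit 234) (nat_lit 988) (nat_lit 0) (XT.nd (nat_lit 78) (nat_lit 532) (nat_lit 0) (XT.lf (nat_lit 0) (nat_lit 59527571051) (nat_lit 380) (nat_lit 91900128553) (nat_lit 76) (nat_lit 64322418322) (nat_lit 113) (nat_lit 5) (nat_lit 118) (nat_lit 5) (nat_lit 114) (nat_lit 5) (nat_lit 458) (nat_lit 444) (nat_lit 298)) (XT.nd (nat_lit 78) (nat_lit 228) (nat_lit 0) (XT.lf (nat_lit 0) (nat_lit 109147795830) (nat_lit 304) (nat_lit 11507738712) (nat_lit 380) (nat_lit 105091991811) (nat_lit 109) (nat_lit 5) (nat_lit 113) (nat_lit 5) (nat_lit 114) (nat_lit 5) (nat_lit 459) (nat_lit 444) (nat_lit 297)) (XT.lf (nat_lit 0) (nat_lit 93895563321) (nat_lit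 228) (nat_lit 98050571817) (nat_lit 304) (nat_lit 44334972350) (nat_lit 106) (nat_lit 5) (nat_lit 109) (nat_lit 5) (nat_lit 110) (nat_lit 5) (nat_lit 460) (nat_lit 444) (nat_lit 296)))) (XT.nd (nat_lit 156) (nat_lit 456) (nat_lit 0) (XT.nd (nat_lit 78) (nat_lit 228) (nat_lit 0) (XT.lf (nat_lit 0) (nat_lit 24976067822) (nat_lit 304) (nat_lit 168502028286) (nat_lit 76) (nat_lit 53943933199) (nat_lit 102) (nat_lit 5) (nat_lit 106) (nat_lit 5) (nat_lit 103) (nat_lit 5) (nat_lit 461) (nat_lit 444) (nat_lit 295)) (XT.lf (nat_lit 0) (nat_lit 63267349934) (nat_lit 228) (nat_lit 40193872314) (nat_lit 304) (nat_lit 155697536884) (nat_lit 99) (nat_lit 5) (nat_lit 102) (nat_lit 5) (nat_lit 103) (nat_lit 5) (nat_lit 462) (nat_lit 444) (nat_lit 294))) (XT.nd (nat_lit 78) (nat_lit 228) (nat_lit 0) (XT.lf (nat_lit 0) (nat_lit 47419891051) (nat_lit 228) (nat_lit 146485825580) (nat_lit 304) (nat_lit 77644684358)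 (nat_lit 96) (nat_lit 5) (nat_lit 99) (nat_lit 5) (nat_lit 100) (nat_lit 5) (nat_lit 463) (nat_lit 444) (nat_lit 293)) (XT.lf (nat_lit 0) (nat_lit 11431046697) (nat_lit 228) (nat_lit 252396550443) (nat_lit 76) (nat_lit 20851005521) (nat_lit 93) (nat_lit 5) (nat_lit 96) (nat_lit 5) (nat_lit 94) (nat_lit 5) (nat_lit 464) (nat_lit 444) (nat_lit 292))))) (XT.nd (nat_lit 312) (nat_lit 684) (nat_lit 0) (XT.nd (nat_lit 156) (nat_lit 456) (nat_lit 0) (XT.nd (nat_lit 78) (nat_lit 0) (nat_lit 0) (XT.lf (nat_lit 0) (nat_lit 15192023359) (nat_lit 228) (nat_lit 96432072993) (nat_lit 304) (nat_lit 186833743370) (nat_lit 90) (nat_lit 5) (nat_lit 93) (nat_lit 5) (nat_lit 94) (nat_lit 5) (nat_lit 465) (nat_lit 444) (nat_lit 291)) (XT.lf (nat_lit 0) (nat_lit 225618043036) (nat_lit 304) (nat_lit 1308352872) (nat_lit 76) (nat_lit 86123747207) (nat_lit 90) (nat_lit 5) (nat_lit 94) (nat_lit 5) (nat_lit 91) (nat_lit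 5) (nat_lit 466) (nat_lit 444) (nat_lit 290))) (XT.nd (nat_lit 78) (nat_lit 228) (nat_lit 0) (XT.lf (nat_lit 0) (nat_lit 25880444308) (nat_lit 228) (nat_lit 17351823259) (nat_lit 76) (nat_lit 285232192186) (nat_lit 87) (nat_lit 5) (nat_lit 90) (nat_lit 5) (nat_lit 88) (nat_lit 5) (nat_lit 467) (nat_lit 444) (nat_lit 289)) (XT.lf (nat_lit 0) (nat_lit 152656326497) (nat_lit 304) (nat_lit 35346977006) (nat_lit 76) (nat_lit 156663876126) (nat_lit 84) (nat_lit 5) (nat_lit 88) (nat_lit 5) (nat_lit 85) (nat_lit 5) (nat_lit 468) (nat_lit 444) (nat_lit 288)))) (XT.nd (nat_lit 156) (nat_lit 304) (nat_lit 0) (XT.nd (nat_lit 78) (nat_lit 228) (nat_lit 0) (XT.lf (nat_lit 0) (nat_lit 295670436563) (nat_lit 228) (nat_lit 52321092705) (nat_lit 76) (nat_lit 13869779975) (nat_lit 82) (nat_lit 5) (nat_lit 85) (nat_lit 5) (nat_lit 83) (nat_lit 5) (nat_lit 469) (nat_lit 444) (nat_lit 287)) (XT.lf (nat_lit 0) (nat_lit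 76235087307) (nat_lit 228) (nat_lit 71619704149) (nat_lit 76) (nat_lit 232083218950) (nat_lit 79) (nat_lit 5) (nat_lit 82) (nat_lit 5) (nat_lit 80) (nat_lit 5) (nat_lit 470) (nat_lit 444) (nat_lit 286))) (XT.nd (nat_lit 78) (nat_lit 152) (nat_lit 0) (XT.lf (nat_lit 0) (nat_lit 234696786390) (nat_lit 228) (nat_lit 91275100717) (nat_lit 76) (nat_lit 73086672351) (nat_lit 77) (nat_lit 5) (nat_lit 80) (nat_lit 5) (nat_lit 78) (nat_lit 5) (nat_lit 471) (nat_lit 444) (nat_lit 285)) (XT.lf (nat_lit 0) (nat_lit 307787284270) (nat_lit 152) (nat_lit 106614509202) (nat_lit 228) (nat_lit 4878640371) (nat_lit 75) (nat_lit 5) (nat_lit 77) (nat_lit 5) (nat_lit 78) (nat_lit 5) (nat_lit 472) (nat_lit 444) (nat_lit 284)))))) (XT.nd (nat_lit 546) (nat_lit 1064) (nat_lit 0) (XT.nd (nat_lit 234) (nat_lit 532) (nat_lit 0) (XT.nd (nat_lit 78) (nat_lit 304) (nat_lit 0) (XT.lf (nat_lit 0) (nat_lit 170616920954) (nat_lit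 228) (nat_lit 134631356505) (nat_lit 76) (nat_lit 135310608154) (nat_lit 72) (nat_lit 5) (nat_lit 75) (nat_lit 5) (nat_lit 73) (nat_lit 5) (nat_lit 473) (nat_lit 444) (nat_lit 283)) (XT.nd (nat_lit 78) (nat_lit 152) (nat_lit 0) (XT.lf (nat_lit 0) (nat_lit 305134863835) (nat_lit 152) (nat_lit 63384166574) (nat_lit 228) (nat_lit 94589692890) (nat_lit 70) (nat_lit 5) (nat_lit 72) (nat_lit 5) (nat_lit 73) (nat_lit 5) (nat_lit 474) (nat_lit 444) (nat_lit 282)) (XT.lf (nat_lit 0) (nat_lit 102145233989) (nat_lit 152) (nat_lit 184446894614) (nat_lit 76) (nat_lit 200277003447) (nat_lit 68) (nat_lit 5) (nat_lit 70) (nat_lit 5) (nat_lit 69) (nat_lit 5) (nat_lit 475) (nat_lit 444) (nat_lit 281)))) (XT.nd (nat_lit 156) (nat_lit 228) (nat_lit 0) (XT.nd (nat_lit 78) (nat_lit 152) (nat_lit 0) (XT.lf (nat_lit 0) (nat_lit 299784297111) (nat_lit 152) (nat_lit 20111010222) (nat_lit 228) (nat_lit 192128017921) (nat_lit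 66) (nat_lit 5) (nat_lit 68) (nat_lit 5) (nat_lit 69) (nat_lit 5) (nat_lit 476) (nat_lit 444) (nat_lit 280)) (XT.lf (nat_lit 0) (nat_lit 27624124641) (nat_lit 152) (nat_lit 243494374205) (nat_lit 76) (nat_lit 267446126587) (nat_lit 64) (nat_lit 5) (nat_lit 66) (nat_lit 5) (nat_lit 65) (nat_lit 5) (nat_lit 477) (nat_lit 444) (nat_lit 279))) (XT.nd (nat_lit 78) (nat_lit 76) (nat_lit 0) (XT.lf (nat_lit 0) (nat_lit 267272101910) (nat_lit 228) (nat_lit 277870428434) (nat_lit 76) (nat_lit 21476872651) (nat_lit 62) (nat_lit 5) (nat_lit 65) (nat_lit 5) (nat_lit 63) (nat_lit 4) (nat_lit 478) (nat_lit 444) (nat_lit 278)) (XT.lf (nat_lit 0) (nat_lit 279876883271) (nat_lit 76) (nat_lit 259467162425) (nat_lit 152) (nat_lit 56911910652) (nat_lit 61) (nat_lit 5) (nat_lit 62) (nat_lit 5) (nat_lit 63) (nat_lit 4) (nat_lit 479) (nat_lit 444) (nat_lit 277))))) (XT.nd (nat_lit 312) (nat_lit 456) (nat_lit 0) (XT.nd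 (nat_lit 156) (nat_lit 304) (nat_lit 0) (XT.nd (nat_lit 78) (nat_lit 76) (nat_lit 0) (XT.lf (nat_lit 0) (nat_lit 208454779875) (nat_lit 228) (nat_lit 359123482820) (nat_lit 76) (nat_lit 60020447096) (nat_lit 58) (nat_lit 5) (nat_lit 61) (nat_lit 5) (nat_lit 59) (nat_lit 4) (nat_lit 480) (nat_lit 444) (nat_lit 276)) (XT.lf (nat_lit 0) (nat_lit 252911783262) (nat_lit 76) (nat_lit 254096853874) (nat_lit 152) (nat_lit 153696009890) (nat_lit 57) (nat_lit 5) (nat_lit 58) (nat_lit 5) (nat_lit 59) (nat_lit 4) (nat_lit 481) (nat_lit 444) (nat_lit 275))) (XT.nd (nat_lit 78) (nat_lit 76) (nat_lit 0) (XT.lf (nat_lit 0) (nat_lit 140290814229) (nat_lit 228) (nat_lit 461409596262) (nat_lit 76) (nat_lit 94076857744) (nat_lit 54) (nat_lit 5) (nat_lit 57) (nat_lit 5) (nat_lit 55) (nat_lit 4) (nat_lit 482) (nat_lit 444) (nat_lit 274)) (XT.lf (nat_lit 0) (nat_lit 208854519042) (nat_lit 76) (nat_lit 258394456494)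 (nat_lit 152) (nat_lit 265538885734) (nat_lit 53) (nat_lit 5) (nat_lit 54) (nat_lit 5) (nat_lit 55) (nat_lit 4) (nat_lit 483) (nat_lit 444) (nat_lit 273)))) (XT.nd (nat_lit 156) (nat_lit 228) (nat_lit 0) (XT.nd (nat_lit 78) (nat_lit 76) (nat_lit 0) (XT.lf (nat_lit 0) (nat_lit 59035541229) (nat_lit 152) (nat_lit 592316176325) (nat_lit 76) (nat_lit 120722687517) (nat_lit 51) (nat_lit 5) (nat_lit 53) (nat_lit 5) (nat_lit 52) (nat_lit 4) (nat_lit 484) (nat_lit 444) (nat_lit 272)) (XT.lf (nat_lit 0) (nat_lit 139900459120) (nat_lit 76) (nat_lit 276313974621) (nat_lit 152) (nat_lit 397274698790) (nat_lit 50) (nat_lit 5) (nat_lit 51) (nat_lit 5) (nat_lit 52) (nat_lit 4) (nat_lit 485) (nat_lit 444) (nat_lit 271))) (XT.nd (nat_lit 78) (nat_lit 152) (nat_lit 0) (XT.lf (nat_lit 0) (nat_lit 95006354919) (nat_lit 76) (nat_lit 720941185625) (nat_lit 76) (nat_lit 41570502503) (nat_lit 49) (nat_lit 4) (nat_lit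 50) (nat_lit 5) (nat_lit 50) (nat_lit 4) (nat_lit 486) (nat_lit 444) (nat_lit 270)) (XT.lf (nat_lit 0) (nat_lit 35598912225) (nat_lit 76) (nat_lit 313166781563) (nat_lit 152) (nat_lit 555179098856) (nat_lit 47) (nat_lit 5) (nat_lit 48) (nat_lit 5) (nat_lit 49) (nat_lit 4) (nat_lit 487) (nat_lit 444) (nat_lit 269))))))))
noncomputable def xc106 : XT := (XT.nd (nat_lit 60450) (nat_lit 0) (nat_lit 912) (XT.nd (nat_lit 59280) (nat_lit 0) (nat_lit 5624) (XT.nd (nat_lit 546) (nat_lit 456) (nat_lit 0) (XT.nd (nat_lit 234) (nat_lit 456) (nat_lit 0) (XT.nd (nat_lit 78) (nat_lit 228) (nat_lit 0) (XT.lf (nat_lit 0) (nat_lit 784378344654) (nat_lit 152) (nat_lit 31539458683) (nat_lit 0) (nat_lit 137358505354) (nat_lit 47) (nat_lit 5) (nat_lit 49) (nat_lit 4) (nat_lit 47) (nat_lit 4) (nat_lit 488) (nat_lit 444) (nat_lit 268)) (XT.nd (nat_lit 78) (nat_lit 76) (nat_lit 0) (XT.lf (nat_lit 0) (nat_lit 259917984261)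 (nat_lit 152) (nat_lit 114188034370) (nat_lit 76) (nat_lit 631275554921) (nat_lit 45) (nat_lit 5) (nat_lit 47) (nat_lit 5) (nat_lit 46) (nat_lit 4) (nat_lit 489) (nat_lit 444) (nat_lit 267)) (XT.lf (nat_lit 0) (nat_lit 732938552031) (nat_lit 152) (nat_lit 211058365272) (nat_lit 0) (nat_lit 116729066069) (nat_lit 44) (nat_lit 5) (nat_lit 46) (nat_lit 4) (nat_lit 44) (nat_lit 4) (nat_lit 490) (nat_lit 444) (nat_lit 266)))) (XT.nd (nat_lit 156) (nat_lit 228) (nat_lit 0) (XT.nd (nat_lit 78) (nat_lit 76) (nat_lit 0) (XT.lf (nat_lit 0) (nat_lit 140412295469) (nat_lit 152) (nat_lit 328364331531) (nat_lit 76) (nat_lit 650572267027) (nat_lit 42) (nat_lit 5) (nat_lit 44) (nat_lit 5) (nat_lit 43) (nat_lit 4) (nat_lit 491) (nat_lit 444) (nat_lit 265)) (XT.lf (nat_lit 0) (nat_lit 650675293393) (nat_lit 152) (nat_lit 467104075305) (nat_lit 0) (nat_lit 63809022224) (nat_lit 41) (nat_lit 5) (nat_lit 43) (nat_lit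 4) (nat_lit 41) (nat_lit 4) (nat_lit 492) (nat_lit 444) (nat_lit 264))) (XT.nd (nat_lit 78) (nat_lit 152) (nat_lit 0) (XT.lf (nat_lit 0) (nat_lit 615672591621) (nat_lit 76) (nat_lit 609417124861) (nat_lit 76) (nat_lit 22550811820) (nat_lit 40) (nat_lit 4) (nat_lit 41) (nat_lit 5) (nat_lit 41) (nat_lit 4) (nat_lit 493) (nat_lit 444) (nat_lit 263)) (XT.lf (nat_lit 0) (nat_lit 490528104403) (nat_lit 76) (nat_lit 35030166921) (nat_lit 152) (nat_lit 792211149725) (nat_lit 38) (nat_lit 5) (nat_lit 39) (nat_lit 5) (nat_lit 40) (nat_lit 4) (nat_lit 494) (nat_lit 444) (nat_lit 262))))) (XT.nd (nat_lit 234) (nat_lit 228) (nat_lit 0) (XT.nd (nat_lit 78) (nat_lit 152) (nat_lit 0) (XT.lf (nat_lit 0) (nat_lit 333404872901) (nat_lit 76) (nat_lit 808864241060) (nat_lit 76) (nat_lit 249943871811) (nat_lit 37) (nat_lit 4) (nat_lit 38) (nat_lit 5) (nat_lit 38) (nat_lit 4) (nat_lit 495) (nat_lit 444) (nat_lit 261))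 (XT.nd (nat_lit 78) (nat_lit 0) (nat_lit 0) (XT.lf (nat_lit 0) (nat_lit 143062284255) (nat_lit 76) (nat_lit 199368293872) (nat_lit 152) (nat_lit 1129045870944) (nat_lit 35) (nat_lit 5) (nat_lit 36) (nat_lit 5) (nat_lit 37) (nat_lit 4) (nat_lit 496) (nat_lit 444) (nat_lit 260)) (XT.lf (nat_lit 0) (nat_lit 999465792441) (nat_lit 152) (nat_lit 88948322956) (nat_lit 0) (nat_lit 467160620805) (nat_lit 35) (nat_lit 5) (nat_lit 37) (nat_lit 4) (nat_lit 35) (nat_lit 4) (nat_lit 497) (nat_lit 444) (nat_lit 259)))) (XT.nd (nat_lit 58344) (nat_lit 0) (nat_lit 8740) (XT.nd (nat_lit 78) (nat_lit 76) (nat_lit 0) (XT.lf (nat_lit 0) (nat_lit 84505446204) (nat_lit 152) (nat_lit 359069032766) (nat_lit 76) (nat_lit 1201585084433) (nat_lit 33) (nat_lit 5) (nat_lit 35) (nat_lit 5) (nat_lit 34) (nat_lit 4) (nat_lit 498) (nat_lit 444) (nat_lit 258)) (XT.lf (nat_lit 0) (nat_lit 779619819957) (nat_lit 152) (nat_lit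 688036354541) (nat_lit 0) (nat_lit 272662466225) (nat_lit 32) (nat_lit 5) (nat_lit 34) (nat_lit 4) (nat_lit 32) (nat_lit 4) (nat_lit 499) (nat_lit 444) (nat_lit 257))) (XT.nd (nat_lit 78) (nat_lit 0) (nat_lit 76) (XT.lf (nat_lit 0) (nat_lit 26924226910) (nat_lit 836) (nat_lit 18938802213) (nat_lit 836) (nat_lit 18938802213) (nat_lit 147) (nat_lit 3) (nat_lit 158) (nat_lit 3) (nat_lit 158) (nat_lit 5) (nat_lit 445) (nat_lit 445) (nat_lit 310)) (XT.lf (nat_lit 0) (nat_lit 57213253583) (nat_lit 760) (nat_lit 67778706161) (nat_lit 836) (nat_lit 9735305427) (nat_lit 148) (nat_lit 5) (nat_lit 158) (nat_lit 5) (nat_lit 159) (nat_lit 5) (nat_lit 446) (nat_lit 445) (nat_lit 309)))))) (XT.nd (nat_lit 546) (nat_lit 2280) (nat_lit 0) (XT.nd (nat_lit 234) (nat_lit 912) (nat_lit 0) (XT.nd (nat_lit 78) (nat_lit 0) (nat_lit 76) (XT.lf (nat_lit 76) (nat_lit 41041380955) (nat_lit 0) (nat_lit 22663313937) (nat_lit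 836) (nat_lit 76413188189) (nat_lit 149) (nat_lit 5) (nat_lit 148) (nat_lit 5) (nat_lit 159) (nat_lit 5) (nat_lit 447) (nat_lit 445) (nat_lit 308)) (XT.nd (nat_lit 78) (nat_lit 0) (nat_lit 76) (XT.lf (nat_lit 76) (nat_lit 14168863378) (nat_lit 0) (nat_lit 59338870704) (nat_lit 836) (nat_lit 72292402301) (nat_lit 150) (nat_lit 5) (nat_lit 149) (nat_lit 5) (nat_lit 160) (nat_lit 5) (nat_lit 448) (nat_lit 445) (nat_lit 307)) (XT.lf (nat_lit 0) (nat_lit 87030364555) (nat_lit 760) (nat_lit 13049239497) (nat_lit 836) (nat_lit 51710598569) (nat_lit 150) (nat_lit 5) (nat_lit 160) (nat_lit 5) (nat_lit 161) (nat_lit 5) (nat_lit 449) (nat_lit 445) (nat_lit 306)))) (XT.nd (nat_lit 156) (nat_lit 1140) (nat_lit 0) (XT.nd (nat_lit 78) (nat_lit 0) (nat_lit 0) (XT.lf (nat_lit 0) (nat_lit 104681768395) (nat_lit 760) (nat_lit 40536997978) (nat_lit 836) (nat_lit 12888359712) (nat_lit 151) (nat_lit 5) (nat_lit 161)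 (nat_lit 5) (nat_lit 162) (nat_lit 5) (nat_lit 450) (nat_lit 445) (nat_lit 305)) (XT.lf (nat_lit 76) (nat_lit 95553685378) (nat_lit 0) (nat_lit 31601570073) (nat_lit 836) (nat_lit 37603649498) (nat_lit 152) (nat_lit 5) (nat_lit 151) (nat_lit 5) (nat_lit 162) (nat_lit 5) (nat_lit 451) (nat_lit 445) (nat_lit 304))) (XT.nd (nat_lit 78) (nat_lit 456) (nat_lit 0) (XT.lf (nat_lit 0) (nat_lit 72972899549) (nat_lit 760) (nat_lit 81732720404) (nat_lit 836) (nat_lit 17073256309) (nat_lit 142) (nat_lit 5) (nat_lit 152) (nat_lit 5) (nat_lit 153) (nat_lit 5) (nat_lit 452) (nat_lit 445) (nat_lit 303)) (XT.lf (nat_lit 0) (nat_lit 8159914728) (nat_lit 456) (nat_lit 129217442151) (nat_lit 76) (nat_lit 41817929308) (nat_lit 136) (nat_lit 5) (nat_lit 142) (nat_lit 5) (nat_lit 137) (nat_lit 5) (nat_lit 453) (nat_lit 445) (nat_lit 302))))) (XT.nd (nat_lit 312) (nat_lit 1216) (nat_lit 0) (XT.nd (nat_lit 156) (nat_lit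 304) (nat_lit 0) (XT.nd (nat_lit 78) (nat_lit 380) (nat_lit 0) (XT.lf (nat_lit 0) (nat_lit 26218255553) (nat_lit 380) (nat_lit 12139794189) (nat_lit 456) (nat_lit 148655741041) (nat_lit 131) (nat_lit 5) (nat_lit 136) (nat_lit 5) (nat_lit 137) (nat_lit 5) (nat_lit 454) (nat_lit 445) (nat_lit 301)) (XT.lf (nat_lit 0) (nat_lit 1444653950) (nat_lit 380) (nat_lit 73759563176) (nat_lit 456) (nat_lit 120041949591) (nat_lit 126) (nat_lit 5) (nat_lit 131) (nat_lit 5) (nat_lit 132) (nat_lit 5) (nat_lit 455) (nat_lit 445) (nat_lit 300))) (XT.nd (nat_lit 78) (nat_lit 304) (nat_lit 0) (XT.lf (nat_lit 0) (nat_lit 119002344661) (nat_lit 456) (nat_lit 22795094738) (nat_lit 76) (nat_lit 62139480033) (nat_lit 126) (nat_lit 5) (nat_lit 132) (nat_lit 5) (nat_lit 127) (nat_lit 5) (nat_lit 456) (nat_lit 445) (nat_lit 299)) (XT.lf (nat_lit 0) (nat_lit 165959507258) (nat_lit 304) (nat_lit 4179318647) (nat_lit 380)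 (nat_lit 42992381323) (nat_lit 122) (nat_lit 5) (nat_lit 126) (nat_lit 5) (nat_lit 127) (nat_lit 5) (nat_lit 457) (nat_lit 445) (nat_lit 298)))) (XT.nd (nat_lit 156) (nat_lit 532) (nat_lit 0) (XT.nd (nat_lit 78) (nat_lit 304) (nat_lit 0) (XT.lf (nat_lit 0) (nat_lit 7315903975) (nat_lit 380) (nat_lit 72798605566) (nat_lit 76) (nat_lit 142690504184) (nat_lit 117) (nat_lit 5) (nat_lit 122) (nat_lit 5) (nat_lit 118) (nat_lit 5) (nat_lit 458) (nat_lit 445) (nat_lit 297)) (XT.lf (nat_lit 0) (nat_lit 64295394278) (nat_lit 380) (nat_lit 99244980908) (nat_lit 76) (nat_lit 69469470643) (nat_lit 113) (nat_lit 5) (nat_lit 118) (nat_lit 5) (nat_lit 114) (nat_lit 5) (nat_lit 459) (nat_lit 445) (nat_lit 296))) (XT.nd (nat_lit 78) (nat_lit 228) (nat_lit 0) (XT.lf (nat_lit 0) (nat_lit 117886466350) (nat_lit 304) (nat_lit 12426819283) (nat_lit 380) (nat_lit 113493776807) (nat_lit 109) (nat_lit 5) (nat_lit 113)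 (nat_lit 5) (nat_lit 114) (nat_lit 5) (nat_lit 460) (nat_lit 445) (nat_lit 295)) (XT.lf (nat_lit 0) (nat_lit 101413989169) (nat_lit 228) (nat_lit 105892880007) (nat_lit 304) (nat_lit 47876474190) (nat_lit 106) (nat_lit 5) (nat_lit 109) (nat_lit 5) (nat_lit 110) (nat_lit 5) (nat_lit 461) (nat_lit 445) (nat_lit 294))))))) (XT.nd (nat_lit 1170) (nat_lit 1824) (nat_lit 0) (XT.nd (nat_lit 546) (nat_lit 1444) (nat_lit 0) (XT.nd (nat_lit 234) (nat_lit 684) (nat_lit 0) (XT.nd (nat_lit 78) (nat_lit 456) (nat_lit 0) (XT.lf (nat_lit 0) (nat_lit 26979031837) (nat_lit 304) (nat_lit 181975326860) (nat_lit 76) (nat_lit 58261188531) (nat_lit 102) (nat_lit 5) (nat_lit 106) (nat_lit 5) (nat_lit 103) (nat_lit 5) (nat_lit 462) (nat_lit 445) (nat_lit 293)) (XT.nd (nat_lit 78) (nat_lit 228) (nat_lit 0) (XT.lf (nat_lit 0) (nat_lit 68335303330) (nat_lit 228) (nat_lit 43407436414) (nat_lit 304) (nat_lit 168148488676)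 (nat_lit 99) (nat_lit 5) (nat_lit 102) (nat_lit 5) (nat_lit 103) (nat_lit 5) (nat_lit 463) (nat_lit 445) (nat_lit 292)) (XT.lf (nat_lit 0) (nat_lit 51219954741) (nat_lit 228) (nat_lit 158202625916) (nat_lit 304) (nat_lit 83851631653) (nat_lit 96) (nat_lit 5) (nat_lit 99) (nat_lit 5) (nat_lit 100) (nat_lit 5) (nat_lit 464) (nat_lit 445) (nat_lit 291)))) (XT.nd (nat_lit 156) (nat_lit 228) (nat_lit 0) (XT.nd (nat_lit 78) (nat_lit 228) (nat_lit 0) (XT.lf (nat_lit 0) (nat_lit 12349809435) (nat_lit 228) (nat_lit 272581761184) (nat_lit 76) (nat_lit 22521105931) (nat_lit 93) (nat_lit 5) (nat_lit 96) (nat_lit 5) (nat_lit 94) (nat_lit 5) (nat_lit 465) (nat_lit 445) (nat_lit 290)) (XT.lf (nat_lit 0) (nat_lit 16413615462) (nat_lit 228) (nat_lit 104144467908) (nat_lit 304) (nat_lit 201776180219) (nat_lit 90) (nat_lit 5) (nat_lit 93) (nat_lit 5) (nat_lit 94) (nat_lit 5) (nat_lit 466) (nat_lit 445) (nat_lit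 289))) (XT.nd (nat_lit 78) (nat_lit 228) (nat_lit 0) (XT.lf (nat_lit 0) (nat_lit 243671276482) (nat_lit 304) (nat_lit 1407095498) (nat_lit 76) (nat_lit 93015592762) (nat_lit 90) (nat_lit 5) (nat_lit 94) (nat_lit 5) (nat_lit 91) (nat_lit 5) (nat_lit 467) (nat_lit 445) (nat_lit 288)) (XT.lf (nat_lit 0) (nat_lit 27954536877) (nat_lit 228) (nat_lit 18734179836) (nat_lit 76) (nat_lit 308052716687) (nat_lit 87) (nat_lit 5) (nat_lit 90) (nat_lit 5) (nat_lit 88) (nat_lit 5) (nat_lit 468) (nat_lit 445) (nat_lit 287))))) (XT.nd (nat_lit 312) (nat_lit 684) (nat_lit 0) (XT.nd (nat_lit 156) (nat_lit 380) (nat_lit 0) (XT.nd (nat_lit 78) (nat_lit 152) (nat_lit 0) (XT.lf (nat_lit 0) (nat_lit 164872337451) (nat_lit 304) (nat_lit 38169055828) (nat_lit 76) (nat_lit 169198985216) (nat_lit 84) (nat_lit 5) (nat_lit 88) (nat_lit 5) (nat_lit 85) (nat_lit 5) (nat_lit 469) (nat_lit 445) (nat_lit 286)) (XT.lf (nat_lit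 0) (nat_lit 319327434347) (nat_lit 228) (nat_lit 56501213682) (nat_lit 76) (nat_lit 14981397567) (nat_lit 82) (nat_lit 5) (nat_lit 85) (nat_lit 5) (nat_lit 83) (nat_lit 5) (nat_lit 470) (nat_lit 445) (nat_lit 285))) (XT.nd (nat_lit 78) (nat_lit 152) (nat_lit 0) (XT.lf (nat_lit 0) (nat_lit 82337143806) (nat_lit 228) (nat_lit 77343848295) (nat_lit 76) (nat_lit 250651896448) (nat_lit 79) (nat_lit 5) (nat_lit 82) (nat_lit 5) (nat_lit 80) (nat_lit 5) (nat_lit 471) (nat_lit 445) (nat_lit 284)) (XT.lf (nat_lit 0) (nat_lit 253475652121) (nat_lit 228) (nat_lit 98571790854) (nat_lit 76) (nat_lit 78935644902) (nat_lit 77) (nat_lit 5) (nat_lit 80) (nat_lit 5) (nat_lit 78) (nat_lit 5) (nat_lit 472) (nat_lit 445) (nat_lit 283)))) (XT.nd (nat_lit 156) (nat_lit 304) (nat_lit 0) (XT.nd (nat_lit 78) (nat_lit 228) (nat_lit 0) (XT.lf (nat_lit 0) (nat_lit 332415353822) (nat_lit 152) (nat_lit 115141554046) (nat_lit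 228) (nat_lit 5265811954) (nat_lit 75) (nat_lit 5) (nat_lit 77) (nat_lit 5) (nat_lit 78) (nat_lit 5) (nat_lit 473) (nat_lit 445) (nat_lit 282)) (XT.lf (nat_lit 0) (nat_lit 184269180800) (nat_lit 228) (nat_lit 145396792363) (nat_lit 76) (nat_lit 146137477830) (nat_lit 72) (nat_lit 5) (nat_lit 75) (nat_lit 5) (nat_lit 73) (nat_lit 5) (nat_lit 474) (nat_lit 445) (nat_lit 281))) (XT.nd (nat_lit 78) (nat_lit 152) (nat_lit 0) (XT.lf (nat_lit 0) (nat_lit 329550505152) (nat_lit 152) (nat_lit 68452814343) (nat_lit 228) (nat_lit 102153963185) (nat_lit 70) (nat_lit 5) (nat_lit 72) (nat_lit 5) (nat_lit 73) (nat_lit 5) (nat_lit 475) (nat_lit 445) (nat_lit 280)) (XT.lf (nat_lit 0) (nat_lit 110319562458) (nat_lit 152) (nat_lit 199197813798) (nat_lit 76) (nat_lit 216301150739) (nat_lit 68) (nat_lit 5) (nat_lit 70) (nat_lit 5) (nat_lit 69) (nat_lit 5) (nat_lit 476) (nat_lit 445) (nat_lit 279)))))) (XT.nd (nat_lit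 546) (nat_lit 760) (nat_lit 0) (XT.nd (nat_lit 234) (nat_lit 608) (nat_lit 0) (XT.nd (nat_lit 78) (nat_lit 304) (nat_lit 0) (XT.lf (nat_lit 0) (nat_lit 323771663256) (nat_lit 152) (nat_lit 21717849860) (nat_lit 228) (nat_lit 207495548977) (nat_lit 66) (nat_lit 5) (nat_lit 68) (nat_lit 5) (nat_lit 69) (nat_lit 5) (nat_lit 477) (nat_lit 445) (nat_lit 278)) (XT.nd (nat_lit 78) (nat_lit 152) (nat_lit 0) (XT.lf (nat_lit 0) (nat_lit 29836585531) (nat_lit 152) (nat_lit 262969325773) (nat_lit 76) (nat_lit 288843757511) (nat_lit 64) (nat_lit 5) (nat_lit 66) (nat_lit 5) (nat_lit 65) (nat_lit 5) (nat_lit 478) (nat_lit 445) (nat_lit 277)) (XT.lf (nat_lit 0) (nat_lit 288656313192) (nat_lit 228) (nat_lit 300095574487) (nat_lit 76) (nat_lit 23196945298) (nat_lit 62) (nat_lit 5) (nat_lit 65) (nat_lit 5) (nat_lit 63) (nat_lit 4) (nat_lit 479) (nat_lit 445) (nat_lit 276)))) (XT.nd (nat_lit 156) (nat_lit 304)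 (nat_lit 0) (XT.nd (nat_lit 78) (nat_lit 228) (nat_lit 0) (XT.lf (nat_lit 0) (nat_lit 302271327101) (nat_lit 76) (nat_lit 280222571435) (nat_lit 152) (nat_lit 61462417767) (nat_lit 61) (nat_lit 5) (nat_lit 62) (nat_lit 5) (nat_lit 63) (nat_lit 4) (nat_lit 480) (nat_lit 445) (nat_lit 275)) (XT.lf (nat_lit 0) (nat_lit 225133449683) (nat_lit 228) (nat_lit 387849096984) (nat_lit 76) (nat_lit 64823945455) (nat_lit 58) (nat_lit 5) (nat_lit 61) (nat_lit 5) (nat_lit 59) (nat_lit 4) (nat_lit 481) (nat_lit 445) (nat_lit 274))) (XT.nd (nat_lit 78) (nat_lit 228) (nat_lit 0) (XT.lf (nat_lit 0) (nat_lit 273148805057) (nat_lit 76) (nat_lit 274422704717) (nat_lit 152) (nat_lit 165989399856) (nat_lit 57) (nat_lit 5) (nat_lit 58) (nat_lit 5) (nat_lit 59) (nat_lit 4) (nat_lit 482) (nat_lit 445) (nat_lit 273)) (XT.lf (nat_lit 0) (nat_lit 151516223617) (nat_lit 228) (nat_lit 498318315061) (nat_lit 76) (nat_lit 101604803737)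 (nat_lit 54) (nat_lit 5) (nat_lit 57) (nat_lit 5) (nat_lit 55) (nat_lit 4) (nat_lit 483) (nat_lit 445) (nat_lit 272))))) (XT.nd (nat_lit 312) (nat_lit 380) (nat_lit 0) (XT.nd (nat_lit 156) (nat_lit 152) (nat_lit 0) (XT.nd (nat_lit 78) (nat_lit 152) (nat_lit 0) (XT.lf (nat_lit 0) (nat_lit 225566753507) (nat_lit 76) (nat_lit 279064185956) (nat_lit 152) (nat_lit 286779848353) (nat_lit 53) (nat_lit 5) (nat_lit 54) (nat_lit 5) (nat_lit 55) (nat_lit 4) (nat_lit 484) (nat_lit 445) (nat_lit 271)) (XT.lf (nat_lit 0) (nat_lit 63760396728) (nat_lit 152) (nat_lit 639697628594) (nat_lit 76) (nat_lit 130382231490) (nat_lit 51) (nat_lit 5) (nat_lit 53) (nat_lit 5) (nat_lit 52) (nat_lit 4) (nat_lit 485) (nat_lit 445) (nat_lit 270))) (XT.nd (nat_lit 78) (nat_lit 76) (nat_lit 0) (XT.lf (nat_lit 0) (nat_lit 151096170725) (nat_lit 76) (nat_lit 298417338240) (nat_lit 152) (nat_lit 429054658093) (nat_lit 50) (nat_lit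 5) (nat_lit 51) (nat_lit 5) (nat_lit 52) (nat_lit 4) (nat_lit 486) (nat_lit 445) (nat_lit 269)) (XT.lf (nat_lit 0) (nat_lit 102610444183) (nat_lit 76) (nat_lit 778614759136) (nat_lit 76) (nat_lit 44894190148) (nat_lit 49) (nat_lit 4) (nat_lit 50) (nat_lit 5) (nat_lit 50) (nat_lit 4) (nat_lit 487) (nat_lit 445) (nat_lit 268)))) (XT.nd (nat_lit 156) (nat_lit 228) (nat_lit 0) (XT.nd (nat_lit 78) (nat_lit 0) (nat_lit 0) (XT.lf (nat_lit 0) (nat_lit 38450310273) (nat_lit 76) (nat_lit 338218443486) (nat_lit 152) (nat_lit 599591532032) (nat_lit 47) (nat_lit 5) (nat_lit 48) (nat_lit 5) (nat_lit 49) (nat_lit 4) (nat_lit 488) (nat_lit 445) (nat_lit 267)) (XT.lf (nat_lit 0) (nat_lit 847130307325) (nat_lit 152) (nat_lit 34059329178) (nat_lit 0) (nat_lit 148348692090) (nat_lit 47) (nat_lit 5) (nat_lit 49) (nat_lit 4) (nat_lit 47) (nat_lit 4) (nat_lit 489) (nat_lit 445) (nat_lit 266))) (XT.nd (nat_lit 78)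 (nat_lit 76) (nat_lit 0) (XT.lf (nat_lit 0) (nat_lit 280713068184) (nat_lit 152) (nat_lit 123319879303) (nat_lit 76) (nat_lit 681779069656) (nat_lit 45) (nat_lit 5) (nat_lit 47) (nat_lit 5) (nat_lit 46) (nat_lit 4) (nat_lit 490) (nat_lit 445) (nat_lit 265)) (XT.lf (nat_lit 0) (nat_lit 791575230496) (nat_lit 152) (nat_lit 227939920293) (nat_lit 0) (nat_lit 126068831506) (nat_lit 44) (nat_lit 5) (nat_lit 46) (nat_lit 4) (nat_lit 44) (nat_lit 4) (nat_lit 491) (nat_lit 445) (nat_lit 264))))))))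
noncomputable def xc107 : XT := (XT.nd (nat_lit 60606) (nat_lit 0) (nat_lit 304) (XT.nd (nat_lit 59436) (nat_lit 0) (nat_lit 4332) (XT.nd (nat_lit 546) (nat_lit 152) (nat_lit 0) (XT.nd (nat_lit 234) (nat_lit 380) (nat_lit 0) (XT.nd (nat_lit 78) (nat_lit 152) (nat_lit 0) (XT.lf (nat_lit 0) (nat_lit 151646826811) (nat_lit 152) (nat_lit 354630447992) (nat_lit 76) (nat_lit 702619453334) (nat_lit 42) (nat_lit 5) (nat_lit 44) (nat_lit 5) (nat_lit 43) (nat_lit 4) (nat_lit 492) (nat_lit 445) (nat_lit 263)) (XT.nd (nat_lit 78) (nat_lit 76) (nat_lit 0) (XT.lf (nat_lit 0) (nat_lit 702730817347) (nat_lit 152) (nat_lit 504469451181) (nat_lit 0) (nat_lit 68915118618) (nat_lit 41) (nat_lit 5) (nat_lit 43) (nat_lit 4) (nat_lit 41) (nat_lit 4) (nat_lit 493) (nat_lit 445) (nat_lit 262)) (XT.lf (nat_lit 0) (nat_lit 664929220890) (nat_lit 76) (nat_lit 658169106306) (nat_lit 76) (nat_lit 24353371678) (nat_lit 40)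 (nat_lit 4) (nat_lit 41) (nat_lit 5) (nat_lit 41) (nat_lit 4) (nat_lit 494) (nat_lit 445) (nat_lit 261)))) (XT.nd (nat_lit 156) (nat_lit 152) (nat_lit 0) (XT.nd (nat_lit 78) (nat_lit 76) (nat_lit 0) (XT.lf (nat_lit 0) (nat_lit 529773098157) (nat_lit 76) (nat_lit 37831226732) (nat_lit 152) (nat_lit 855586580231) (nat_lit 38) (nat_lit 5) (nat_lit 39) (nat_lit 5) (nat_lit 40) (nat_lit 4) (nat_lit 495) (nat_lit 445) (nat_lit 260)) (XT.lf (nat_lit 0) (nat_lit 360079935197) (nat_lit 76) (nat_lit 873572057932) (nat_lit 76) (nat_lit 269937963984) (nat_lit 37) (nat_lit 4) (nat_lit 38) (nat_lit 5) (nat_lit 38) (nat_lit 4) (nat_lit 496) (nat_lit 445) (nat_lit 259))) (XT.nd (nat_lit 78) (nat_lit 0) (nat_lit 0) (XT.lf (nat_lit 0) (nat_lit 154509866733) (nat_lit 76) (nat_lit 215316468789) (nat_lit 152) (nat_lit 1219368163900) (nat_lit 35) (nat_lit 5) (nat_lit 36) (nat_lit 5) (nat_lit 37) (nat_lit 4) (nat_lit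 497) (nat_lit 445) (nat_lit 258)) (XT.lf (nat_lit 0) (nat_lit 1079424288488) (nat_lit 152) (nat_lit 96061739538) (nat_lit 0) (nat_lit 504534625423) (nat_lit 35) (nat_lit 5) (nat_lit 37) (nat_lit 4) (nat_lit 35) (nat_lit 4) (nat_lit 498) (nat_lit 445) (nat_lit 257))))) (XT.nd (nat_lit 58578) (nat_lit 0) (nat_lit 8816) (XT.nd (nat_lit 58422) (nat_lit 0) (nat_lit 8740) (XT.nd (nat_lit 58344) (nat_lit 0) (nat_lit 8664) (XT.lf (nat_lit 0) (nat_lit 91267079146) (nat_lit 152) (nat_lit 387792172975) (nat_lit 76) (nat_lit 1297713016477) (nat_lit 33) (nat_lit 5) (nat_lit 35) (nat_lit 5) (nat_lit 34) (nat_lit 4) (nat_lit 499) (nat_lit 445) (nat_lit 256)) (XT.lf (nat_lit 0) (nat_lit 29084032288) (nat_lit 836) (nat_lit 20450825643) (nat_lit 836) (nat_lit 20450825643) (nat_lit 147) (nat_lit 3) (nat_lit 158) (nat_lit 3) (nat_lit 158) (nat_lit 5) (nat_lit 446) (nat_lit 446) (nat_lit 308))) (XT.nd (nat_lit 78)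 (nat_lit 0) (nat_lit 0) (XT.lf (nat_lit 0) (nat_lit 61801192063) (nat_lit 760) (nat_lit 73194480332) (nat_lit 836) (nat_lit 10509228399) (nat_lit 148) (nat_lit 5) (nat_lit 158) (nat_lit 5) (nat_lit 159) (nat_lit 5) (nat_lit 447) (nat_lit 446) (nat_lit 307)) (XT.lf (nat_lit 76) (nat_lit 44330930302) (nat_lit 0) (nat_lit 24480309991) (nat_lit 836) (nat_lit 82515563390) (nat_lit 149) (nat_lit 5) (nat_lit 148) (nat_lit 5) (nat_lit 159) (nat_lit 5) (nat_lit 448) (nat_lit 446) (nat_lit 306)))) (XT.nd (nat_lit 156) (nat_lit 0) (nat_lit 152) (XT.nd (nat_lit 78) (nat_lit 0) (nat_lit 76) (XT.lf (nat_lit 76) (nat_lit 15308886771) (nat_lit 0) (nat_lit 64088927407) (nat_lit 836) (nat_lit 78065858607) (nat_lit 150) (nat_lit 5) (nat_lit 149) (nat_lit 5) (nat_lit 160) (nat_lit 5) (nat_lit 449) (nat_lit 446) (nat_lit 305)) (XT.lf (nat_lit 0) (nat_lit 94001511643) (nat_lit 760) (nat_lit 14086664913) (nat_lit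 836) (nat_lit 55844805044) (nat_lit 150) (nat_lit 5) (nat_lit 160) (nat_lit 5) (nat_lit 161) (nat_lit 5) (nat_lit 450) (nat_lit 446) (nat_lit 304))) (XT.nd (nat_lit 78) (nat_lit 0) (nat_lit 0) (XT.lf (nat_lit 0) (nat_lit 113064449026) (nat_lit 760) (nat_lit 43773287176) (nat_lit 836) (nat_lit 13917551777) (nat_lit 151) (nat_lit 5) (nat_lit 161) (nat_lit 5) (nat_lit 162) (nat_lit 5) (nat_lit 451) (nat_lit 446) (nat_lit 303)) (XT.lf (nat_lit 76) (nat_lit 103204360952) (nat_lit 0) (nat_lit 34130950816) (nat_lit 836) (nat_lit 40603922640) (nat_lit 152) (nat_lit 5) (nat_lit 151) (nat_lit 5) (nat_lit 162) (nat_lit 5) (nat_lit 452) (nat_lit 446) (nat_lit 302)))))) (XT.nd (nat_lit 546) (nat_lit 2052) (nat_lit 0) (XT.nd (nat_lit 234) (nat_lit 1064) (nat_lit 0) (XT.nd (nat_lit 78) (nat_lit 836) (nat_lit 0) (XT.lf (nat_lit 0) (nat_lit 78817219997) (nat_lit 760) (nat_lit 88272002971) (nat_lit 836) (nat_lit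 18431604666) (nat_lit 142) (nat_lit 5) (nat_lit 152) (nat_lit 5) (nat_lit 153) (nat_lit 5) (nat_lit 453) (nat_lit 446) (nat_lit 301)) (XT.nd (nat_lit 78) (nat_lit 380) (nat_lit 0) (XT.lf (nat_lit 0) (nat_lit 8819535296) (nat_lit 456) (nat_lit 139548051273) (nat_lit 76) (nat_lit 45162980210) (nat_lit 136) (nat_lit 5) (nat_lit 142) (nat_lit 5) (nat_lit 137) (nat_lit 5) (nat_lit 454) (nat_lit 446) (nat_lit 300)) (XT.lf (nat_lit 0) (nat_lit 28322207326) (nat_lit 380) (nat_lit 13110909400) (nat_lit 456) (nat_lit 160541455305) (nat_lit 131) (nat_lit 5) (nat_lit 136) (nat_lit 5) (nat_lit 137) (nat_lit 5) (nat_lit 455) (nat_lit 446) (nat_lit 299)))) (XT.nd (nat_lit 156) (nat_lit 684) (nat_lit 0) (XT.nd (nat_lit 78) (nat_lit 0) (nat_lit 0) (XT.lf (nat_lit 0) (nat_lit 1566742489) (nat_lit 380) (nat_lit 79659861957) (nat_lit 456) (nat_lit 129638952310) (nat_lit 126) (nat_lit 5) (nat_lit 131) (nat_lit 5)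 (nat_lit 132) (nat_lit 5) (nat_lit 456) (nat_lit 446) (nat_lit 298)) (XT.lf (nat_lit 0) (nat_lit 128528140781) (nat_lit 456) (nat_lit 24612394685) (nat_lit 76) (nat_lit 67111056351) (nat_lit 126) (nat_lit 5) (nat_lit 132) (nat_lit 5) (nat_lit 127) (nat_lit 5) (nat_lit 457) (nat_lit 446) (nat_lit 297))) (XT.nd (nat_lit 78) (nat_lit 380) (nat_lit 0) (XT.lf (nat_lit 0) (nat_lit 179242301348) (nat_lit 304) (nat_lit 4512917929) (nat_lit 380) (nat_lit 46426219479) (nat_lit 122) (nat_lit 5) (nat_lit 126) (nat_lit 5) (nat_lit 127) (nat_lit 5) (nat_lit 458) (nat_lit 446) (nat_lit 296)) (XT.lf (nat_lit 0) (nat_lit 7906259206) (nat_lit 380) (nat_lit 78616311653) (nat_lit 76) (nat_lit 154106589213) (nat_lit 117) (nat_lit 5) (nat_lit 122) (nat_lit 5) (nat_lit 118) (nat_lit 5) (nat_lit 459) (nat_lit 446) (nat_lit 295))))) (XT.nd (nat_lit 312) (nat_lit 912) (nat_lit 0) (XT.nd (nat_lit 156) (nat_lit 532) (nat_lit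 0) (XT.nd (nat_lit 78) (nat_lit 304) (nat_lit 0) (XT.lf (nat_lit 0) (nat_lit 69443841958) (nat_lit 380) (nat_lit 107178442611) (nat_lit 76) (nat_lit 75028107559) (nat_lit 113) (nat_lit 5) (nat_lit 118) (nat_lit 5) (nat_lit 114) (nat_lit 5) (nat_lit 460) (nat_lit 446) (nat_lit 294)) (XT.lf (nat_lit 0) (nat_lit 127323253732) (nat_lit 304) (nat_lit 13419645787) (nat_lit 380) (nat_lit 122568499846) (nat_lit 109) (nat_lit 5) (nat_lit 113) (nat_lit 5) (nat_lit 114) (nat_lit 5) (nat_lit 461) (nat_lit 446) (nat_lit 293))) (XT.nd (nat_lit 78) (nat_lit 304) (nat_lit 0) (XT.lf (nat_lit 0) (nat_lit 109532921730) (nat_lit 228) (nat_lit 114362820733) (nat_lit 304) (nat_lit 51702051703) (nat_lit 106) (nat_lit 5) (nat_lit 109) (nat_lit 5) (nat_lit 110) (nat_lit 5) (nat_lit 462) (nat_lit 446) (nat_lit 292)) (XT.lf (nat_lit 0) (nat_lit 29141536987) (nat_lit 304) (nat_lit 196527468501) (nat_lit 76) (nat_lit 62923575964)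 (nat_lit 102) (nat_lit 5) (nat_lit 106) (nat_lit 5) (nat_lit 103) (nat_lit 5) (nat_lit 463) (nat_lit 446) (nat_lit 291)))) (XT.nd (nat_lit 156) (nat_lit 456) (nat_lit 0) (XT.nd (nat_lit 78) (nat_lit 228) (nat_lit 0) (XT.lf (nat_lit 0) (nat_lit 73807756370) (nat_lit 228) (nat_lit 46878363215) (nat_lit 304) (nat_lit 181596208682) (nat_lit 99) (nat_lit 5) (nat_lit 102) (nat_lit 5) (nat_lit 103) (nat_lit 5) (nat_lit 464) (nat_lit 446) (nat_lit 290)) (XT.lf (nat_lit 0) (nat_lit 55323100164) (nat_lit 228) (nat_lit 170857064975) (nat_lit 304) (nat_lit 90555794890) (nat_lit 96) (nat_lit 5) (nat_lit 99) (nat_lit 5) (nat_lit 100) (nat_lit 5) (nat_lit 465) (nat_lit 446) (nat_lit 289))) (XT.nd (nat_lit 78) (nat_lit 228) (nat_lit 0) (XT.lf (nat_lit 0) (nat_lit 13341462743) (nat_lit 228) (nat_lit 294382717979) (nat_lit 76) (nat_lit 24324526203) (nat_lit 93) (nat_lit 5) (nat_lit 96) (nat_lit 5) (nat_lit 94)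 (nat_lit 5) (nat_lit 466) (nat_lit 446) (nat_lit 288)) (XT.lf (nat_lit 0) (nat_lit 17732046120) (nat_lit 228) (nat_lit 112474164123) (nat_lit 304) (nat_lit 217914620126) (nat_lit 90) (nat_lit 5) (nat_lit 93) (nat_lit 5) (nat_lit 94) (nat_lit 5) (nat_lit 467) (nat_lit 446) (nat_lit 287))))))) (XT.nd (nat_lit 1170) (nat_lit 1596) (nat_lit 0) (XT.nd (nat_lit 546) (nat_lit 1292) (nat_lit 0) (XT.nd (nat_lit 234) (nat_lit 684) (nat_lit 0) (XT.nd (nat_lit 78) (nat_lit 456) (nat_lit 0) (XT.lf (nat_lit 0) (nat_lit 263168227918) (nat_lit 304) (nat_lit 1514582889) (nat_lit 76) (nat_lit 100458508375) (nat_lit 90) (nat_lit 5) (nat_lit 94) (nat_lit 5) (nat_lit 91) (nat_lit 5) (nat_lit 468) (nat_lit 446) (nat_lit 286)) (XT.nd (nat_lit 78) (nat_lit 228) (nat_lit 0) (XT.lf (nat_lit 0) (nat_lit 30194035136) (nat_lit 228) (nat_lit 20227950846) (nat_lit 76) (nat_lit 332698605084) (nat_lit 87) (nat_lit 5) (nat_lit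 90) (nat_lit 5) (nat_lit 88) (nat_lit 5) (nat_lit 469) (nat_lit 446) (nat_lit 285)) (XT.lf (nat_lit 0) (nat_lit 178065129277) (nat_lit 304) (nat_lit 41217711178) (nat_lit 76) (nat_lit 182736617854) (nat_lit 84) (nat_lit 5) (nat_lit 88) (nat_lit 5) (nat_lit 85) (nat_lit 5) (nat_lit 470) (nat_lit 446) (nat_lit 284)))) (XT.nd (nat_lit 156) (nat_lit 304) (nat_lit 0) (XT.nd (nat_lit 78) (nat_lit 228) (nat_lit 0) (XT.lf (nat_lit 0) (nat_lit 344876512205) (nat_lit 228) (nat_lit 61016538453) (nat_lit 76) (nat_lit 16181654224) (nat_lit 82) (nat_lit 5) (nat_lit 85) (nat_lit 5) (nat_lit 83) (nat_lit 5) (nat_lit 471) (nat_lit 446) (nat_lit 283)) (XT.lf (nat_lit 0) (nat_lit 88926901245) (nat_lit 228) (nat_lit 83526698936) (nat_lit 76) (nat_lit 270705779973) (nat_lit 79) (nat_lit 5) (nat_lit 82) (nat_lit 5) (nat_lit 80) (nat_lit 5) (nat_lit 472) (nat_lit 446) (nat_lit 282))) (XT.nd (nat_lit 78) (nat_lit 152)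 (nat_lit 0) (XT.lf (nat_lit 0) (nat_lit 273756381604) (nat_lit 228) (nat_lit 106452974863) (nat_lit 76) (nat_lit 85252244405) (nat_lit 77) (nat_lit 5) (nat_lit 80) (nat_lit 5) (nat_lit 78) (nat_lit 5) (nat_lit 473) (nat_lit 446) (nat_lit 281)) (XT.lf (nat_lit 0) (nat_lit 359012943247) (nat_lit 152) (nat_lit 124351064334) (nat_lit 228) (nat_lit 5684402315) (nat_lit 75) (nat_lit 5) (nat_lit 77) (nat_lit 5) (nat_lit 78) (nat_lit 5) (nat_lit 474) (nat_lit 446) (nat_lit 280))))) (XT.nd (nat_lit 312) (nat_lit 608) (nat_lit 0) (XT.nd (nat_lit 156) (nat_lit 304) (nat_lit 0) (XT.nd (nat_lit 78) (nat_lit 152) (nat_lit 0) (XT.lf (nat_lit 0) (nat_lit 199013206835) (nat_lit 228) (nat_lit 157024186762) (nat_lit 76) (nat_lit 157830208758) (nat_lit 72) (nat_lit 5) (nat_lit 75) (nat_lit 5) (nat_lit 73) (nat_lit 5) (nat_lit 475) (nat_lit 446) (nat_lit 279)) (XT.lf (nat_lit 0) (nat_lit 355918705553) (nat_lit 152)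 (nat_lit 73927251462) (nat_lit 228) (nat_lit 110323789553) (nat_lit 70) (nat_lit 5) (nat_lit 72) (nat_lit 5) (nat_lit 73) (nat_lit 5) (nat_lit 476) (nat_lit 446) (nat_lit 278))) (XT.nd (nat_lit 78) (nat_lit 152) (nat_lit 0) (XT.lf (nat_lit 0) (nat_lit 119147450628) (nat_lit 152) (nat_lit 215129495910) (nat_lit 76) (nat_lit 233606946344) (nat_lit 68) (nat_lit 5) (nat_lit 70) (nat_lit 5) (nat_lit 69) (nat_lit 5) (nat_lit 477) (nat_lit 446) (nat_lit 277)) (XT.lf (nat_lit 0) (nat_lit 349677359259) (nat_lit 152) (nat_lit 23453527866) (nat_lit 228) (nat_lit 224092869183) (nat_lit 66) (nat_lit 5) (nat_lit 68) (nat_lit 5) (nat_lit 69) (nat_lit 5) (nat_lit 478) (nat_lit 446) (nat_lit 276)))) (XT.nd (nat_lit 156) (nat_lit 304) (nat_lit 0) (XT.nd (nat_lit 78) (nat_lit 152) (nat_lit 0) (XT.lf (nat_lit 0) (nat_lit 32225682227) (nat_lit 152) (nat_lit 284002929475) (nat_lit 76) (nat_lit 311952922033) (nat_lit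 64) (nat_lit 5) (nat_lit 66) (nat_lit 5) (nat_lit 65) (nat_lit 5) (nat_lit 479) (nat_lit 446) (nat_lit 275)) (XT.lf (nat_lit 0) (nat_lit 311750912837) (nat_lit 228) (nat_lit 324099372520) (nat_lit 76) (nat_lit 25054349443) (nat_lit 62) (nat_lit 5) (nat_lit 65) (nat_lit 5) (nat_lit 63) (nat_lit 4) (nat_lit 480) (nat_lit 446) (nat_lit 274))) (XT.nd (nat_lit 78) (nat_lit 228) (nat_lit 0) (XT.lf (nat_lit 0) (nat_lit 326456713969) (nat_lit 76) (nat_lit 302638693351) (nat_lit 152) (nat_lit 66377314364) (nat_lit 61) (nat_lit 5) (nat_lit 62) (nat_lit 5) (nat_lit 63) (nat_lit 4) (nat_lit 481) (nat_lit 446) (nat_lit 273)) (XT.lf (nat_lit 0) (nat_lit 243146086751) (nat_lit 228) (nat_lit 418873368654) (nat_lit 76) (nat_lit 70011457963) (nat_lit 58) (nat_lit 5) (nat_lit 61) (nat_lit 5) (nat_lit 59) (nat_lit 4) (nat_lit 482) (nat_lit 446) (nat_lit 272)))))) (XT.nd (nat_lit 546) (nat_lit 760) (nat_lit 0) (XT.nd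 (nat_lit 234) (nat_lit 456) (nat_lit 0) (XT.nd (nat_lit 78) (nat_lit 304) (nat_lit 0) (XT.lf (nat_lit 0) (nat_lit 295004206661) (nat_lit 76) (nat_lit 296374894322) (nat_lit 152) (nat_lit 179266587831) (nat_lit 57) (nat_lit 5) (nat_lit 58) (nat_lit 5) (nat_lit 59) (nat_lit 4) (nat_lit 483) (nat_lit 446) (nat_lit 271)) (XT.nd (nat_lit 78) (nat_lit 76) (nat_lit 0) (XT.lf (nat_lit 0) (nat_lit 163639359855) (nat_lit 228) (nat_lit 538180308985) (nat_lit 76) (nat_lit 109734728994) (nat_lit 54) (nat_lit 5) (nat_lit 57) (nat_lit 5) (nat_lit 55) (nat_lit 4) (nat_lit 484) (nat_lit 446) (nat_lit 270)) (XT.lf (nat_lit 0) (nat_lit 243615414211) (nat_lit 76) (nat_lit 301387754425) (nat_lit 152) (nat_lit 309720394452) (nat_lit 53) (nat_lit 5) (nat_lit 54) (nat_lit 5) (nat_lit 55) (nat_lit 4) (nat_lit 485) (nat_lit 446) (nat_lit 269)))) (XT.nd (nat_lit 156) (nat_lit 228) (nat_lit 0) (XT.nd (nat_lit 78) (nat_lit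 76) (nat_lit 0) (XT.lf (nat_lit 0) (nat_lit 68862953604) (nat_lit 152) (nat_lit 690870145126) (nat_lit 76) (nat_lit 140814292324) (nat_lit 51) (nat_lit 5) (nat_lit 53) (nat_lit 5) (nat_lit 52) (nat_lit 4) (nat_lit 486) (nat_lit 446) (nat_lit 268)) (XT.lf (nat_lit 0) (nat_lit 163187014996) (nat_lit 76) (nat_lit 322289221226) (nat_lit 152) (nat_lit 463377301830) (nat_lit 50) (nat_lit 5) (nat_lit 51) (nat_lit 5) (nat_lit 52) (nat_lit 4) (nat_lit 487) (nat_lit 446) (nat_lit 267))) (XT.nd (nat_lit 78) (nat_lit 152) (nat_lit 0) (XT.lf (nat_lit 0) (nat_lit 110822349737) (nat_lit 76) (nat_lit 840902464096) (nat_lit 76) (nat_lit 48484051359) (nat_lit 49) (nat_lit 4) (nat_lit 50) (nat_lit 5) (nat_lit 50) (nat_lit 4) (nat_lit 488) (nat_lit 446) (nat_lit 266)) (XT.lf (nat_lit 0) (nat_lit 41529322982) (nat_lit 76) (nat_lit 365274478119) (nat_lit 152) (nat_lit 647557230167) (nat_lit 47) (nat_lit 5) (nat_lit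 48) (nat_lit 5) (nat_lit 49) (nat_lit 4) (nat_lit 489) (nat_lit 446) (nat_lit 265))))) (XT.nd (nat_lit 312) (nat_lit 380) (nat_lit 0) (XT.nd (nat_lit 156) (nat_lit 228) (nat_lit 0) (XT.nd (nat_lit 78) (nat_lit 152) (nat_lit 0) (XT.lf (nat_lit 0) (nat_lit 914902185186) (nat_lit 152) (nat_lit 36781258125) (nat_lit 0) (nat_lit 160217878874) (nat_lit 47) (nat_lit 5) (nat_lit 49) (nat_lit 4) (nat_lit 47) (nat_lit 4) (nat_lit 490) (nat_lit 446) (nat_lit 264)) (XT.lf (nat_lit 0) (nat_lit 303171524117) (nat_lit 152) (nat_lit 133182728035) (nat_lit 76) (nat_lit 736322655810) (nat_lit 45) (nat_lit 5) (nat_lit 47) (nat_lit 5) (nat_lit 46) (nat_lit 4) (nat_lit 491) (nat_lit 446) (nat_lit 263))) (XT.nd (nat_lit 78) (nat_lit 152) (nat_lit 0) (XT.lf (nat_lit 0) (nat_lit 854902615792) (nat_lit 152) (nat_lit 246172443992) (nat_lit 0) (nat_lit 136155572725) (nat_lit 44) (nat_lit 5) (nat_lit 46) (nat_lit 4) (nat_lit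 44) (nat_lit 4) (nat_lit 492) (nat_lit 446) (nat_lit 262)) (XT.lf (nat_lit 0) (nat_lit 163779899863) (nat_lit 152) (nat_lit 382998286041) (nat_lit 76) (nat_lit 758830214115) (nat_lit 42) (nat_lit 5) (nat_lit 44) (nat_lit 5) (nat_lit 43) (nat_lit 4) (nat_lit 493) (nat_lit 446) (nat_lit 261)))) (XT.nd (nat_lit 156) (nat_lit 228) (nat_lit 0) (XT.nd (nat_lit 78) (nat_lit 76) (nat_lit 0) (XT.lf (nat_lit 0) (nat_lit 758950569157) (nat_lit 152) (nat_lit 544824477998) (nat_lit 0) (nat_lit 74429506620) (nat_lit 41) (nat_lit 5) (nat_lit 43) (nat_lit 4) (nat_lit 41) (nat_lit 4) (nat_lit 494) (nat_lit 446) (nat_lit 260)) (XT.lf (nat_lit 0) (nat_lit 718125977919) (nat_lit 76) (nat_lit 710821444357) (nat_lit 76) (nat_lit 26300351043) (nat_lit 40) (nat_lit 4) (nat_lit 41) (nat_lit 5) (nat_lit 41) (nat_lit 4) (nat_lit 495) (nat_lit 446) (nat_lit 259))) (XT.nd (nat_lit 78) (nat_lit 76) (nat_lit 0) (XT.lf (nat_lit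 0) (nat_lit 572157299748) (nat_lit 76) (nat_lit 40856564427) (nat_lit 152) (nat_lit 924032253672) (nat_lit 38) (nat_lit 5) (nat_lit 39) (nat_lit 5) (nat_lit 40) (nat_lit 4) (nat_lit 496) (nat_lit 446) (nat_lit 258)) (XT.lf (nat_lit 0) (nat_lit 388888621219) (nat_lit 76) (nat_lit 943456688810) (nat_lit 76) (nat_lit 291531785764) (nat_lit 37) (nat_lit 4) (nat_lit 38) (nat_lit 5) (nat_lit 38) (nat_lit 4) (nat_lit 497) (nat_lit 446) (nat_lit 257))))))))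
noncomputable def xc108 : XT := (XT.nd (nat_lit 60684) (nat_lit 0) (nat_lit 152) (XT.nd (nat_lit 59514) (nat_lit 0) (nat_lit 3192) (XT.nd (nat_lit 58968) (nat_lit 0) (nat_lit 6612) (XT.nd (nat_lit 58656) (nat_lit 0) (nat_lit 8588) (XT.nd (nat_lit 58500) (nat_lit 0) (nat_lit 8512) (XT.lf (nat_lit 0) (nat_lit 166872884928) (nat_lit 76) (nat_lit 232540681531) (nat_lit 152) (nat_lit 1316916436697) (nat_lit 35) (nat_lit 5) (nat_lit 36) (nat_lit 5) (nat_lit 37) (nat_lit 4) (nat_lit 498) (nat_lit 446) (nat_lit 256)) (XT.nd (nat_lit 78) (nat_lit 0) (nat_lit 76) (XT.lf (nat_lit 0) (nat_lit 31415785071) (nat_lit 836) (nat_lit 22084250451) (nat_lit 836) (nat_lit 22084250451) (nat_lit 147) (nat_lit 3) (nat_lit 158) (nat_lit 3) (nat_lit 158) (nat_lit 5) (nat_lit 447) (nat_lit 447) (nat_lit 306)) (XT.lf (nat_lit 0) (nat_lit 66754613726) (nat_lit 760) (nat_lit 79044446919) (nat_lit 836) (nat_lit 11345764458)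 (nat_lit 148) (nat_lit 5) (nat_lit 158) (nat_lit 5) (nat_lit 159) (nat_lit 5) (nat_lit 448) (nat_lit 447) (nat_lit 305)))) (XT.nd (nat_lit 156) (nat_lit 0) (nat_lit 152) (XT.nd (nat_lit 78) (nat_lit 0) (nat_lit 76) (XT.lf (nat_lit 76) (nat_lit 47882753551) (nat_lit 0) (nat_lit 26442104936) (nat_lit 836) (nat_lit 89107652207) (nat_lit 149) (nat_lit 5) (nat_lit 148) (nat_lit 5) (nat_lit 159) (nat_lit 5) (nat_lit 449) (nat_lit 447) (nat_lit 304)) (XT.lf (nat_lit 76) (nat_lit 16539182694) (nat_lit 0) (nat_lit 69218568217) (nat_lit 836) (nat_lit 84302608882) (nat_lit 150) (nat_lit 5) (nat_lit 149) (nat_lit 5) (nat_lit 160) (nat_lit 5) (nat_lit 450) (nat_lit 447) (nat_lit 303))) (XT.nd (nat_lit 78) (nat_lit 0) (nat_lit 76) (XT.lf (nat_lit 0) (nat_lit 101529106789) (nat_lit 760) (nat_lit 15208013620) (nat_lit 836) (nat_lit 60310124865) (nat_lit 150) (nat_lit 5) (nat_lit 160) (nat_lit 5) (nat_lit 161)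 (nat_lit 5) (nat_lit 451) (nat_lit 447) (nat_lit 302)) (XT.lf (nat_lit 0) (nat_lit 122116582966) (nat_lit 760) (nat_lit 47269431151) (nat_lit 836) (nat_lit 15029346941) (nat_lit 151) (nat_lit 5) (nat_lit 161) (nat_lit 5) (nat_lit 162) (nat_lit 5) (nat_lit 452) (nat_lit 447) (nat_lit 301))))) (XT.nd (nat_lit 234) (nat_lit 1064) (nat_lit 0) (XT.nd (nat_lit 78) (nat_lit 1140) (nat_lit 0) (XT.lf (nat_lit 76) (nat_lit 111466180286) (nat_lit 0) (nat_lit 36862502960) (nat_lit 836) (nat_lit 43845361607) (nat_lit 152) (nat_lit 5) (nat_lit 151) (nat_lit 5) (nat_lit 162) (nat_lit 5) (nat_lit 453) (nat_lit 447) (nat_lit 300)) (XT.nd (nat_lit 78) (nat_lit 456) (nat_lit 0) (XT.lf (nat_lit 0) (nat_lit 85128160426) (nat_lit 760) (nat_lit 95334333283) (nat_lit 836) (nat_lit 19899692583) (nat_lit 142) (nat_lit 5) (nat_lit 152) (nat_lit 5) (nat_lit 153) (nat_lit 5) (nat_lit 454) (nat_lit 447) (nat_lit 299)) (XT.lf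 (nat_lit 0) (nat_lit 9530951505) (nat_lit 456) (nat_lit 150706077258) (nat_lit 76) (nat_lit 48775689887) (nat_lit 136) (nat_lit 5) (nat_lit 142) (nat_lit 5) (nat_lit 137) (nat_lit 5) (nat_lit 455) (nat_lit 447) (nat_lit 298)))) (XT.nd (nat_lit 156) (nat_lit 304) (nat_lit 0) (XT.nd (nat_lit 78) (nat_lit 380) (nat_lit 0) (XT.lf (nat_lit 0) (nat_lit 30593549180) (nat_lit 380) (nat_lit 14159723575) (nat_lit 456) (nat_lit 173378988962) (nat_lit 131) (nat_lit 5) (nat_lit 136) (nat_lit 5) (nat_lit 137) (nat_lit 5) (nat_lit 456) (nat_lit 447) (nat_lit 297)) (XT.lf (nat_lit 0) (nat_lit 1697668500) (nat_lit 380) (nat_lit 86032251160) (nat_lit 456) (nat_lit 140004621608) (nat_lit 126) (nat_lit 5) (nat_lit 131) (nat_lit 5) (nat_lit 132) (nat_lit 5) (nat_lit 457) (nat_lit 447) (nat_lit 296))) (XT.nd (nat_lit 78) (nat_lit 304) (nat_lit 0) (XT.lf (nat_lit 0) (nat_lit 138815200468) (nat_lit 456) (nat_lit 26575978483)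 (nat_lit 76) (nat_lit 72480299155) (nat_lit 126) (nat_lit 5) (nat_lit 132) (nat_lit 5) (nat_lit 127) (nat_lit 5) (nat_lit 458) (nat_lit 447) (nat_lit 295)) (XT.lf (nat_lit 0) (nat_lit 193586858218) (nat_lit 304) (nat_lit 4873311608) (nat_lit 380) (nat_lit 50135556792) (nat_lit 122) (nat_lit 5) (nat_lit 126) (nat_lit 5) (nat_lit 127) (nat_lit 5) (nat_lit 459) (nat_lit 447) (nat_lit 294)))))) (XT.nd (nat_lit 546) (nat_lit 1444) (nat_lit 0) (XT.nd (nat_lit 234) (nat_lit 988) (nat_lit 0) (XT.nd (nat_lit 78) (nat_lit 608) (nat_lit 0) (XT.lf (nat_lit 0) (nat_lit 8543117721) (nat_lit 380) (nat_lit 84900316210) (nat_lit 76) (nat_lit 166435840540) (nat_lit 117) (nat_lit 5) (nat_lit 122) (nat_lit 5) (nat_lit 118) (nat_lit 5) (nat_lit 460) (nat_lit 447) (nat_lit 293)) (XT.nd (nat_lit 78) (nat_lit 304) (nat_lit 0) (XT.lf (nat_lit 0) (nat_lit 75003478376) (nat_lit 380) (nat_lit 115747456729) (nat_lit 76)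 (nat_lit 81031281460) (nat_lit 113) (nat_lit 5) (nat_lit 118) (nat_lit 5) (nat_lit 114) (nat_lit 5) (nat_lit 461) (nat_lit 447) (nat_lit 292)) (XT.lf (nat_lit 0) (nat_lit 137514146672) (nat_lit 304) (nat_lit 14492086586) (nat_lit 380) (nat_lit 132369882521) (nat_lit 109) (nat_lit 5) (nat_lit 113) (nat_lit 5) (nat_lit 114) (nat_lit 5) (nat_lit 462) (nat_lit 447) (nat_lit 291)))) (XT.nd (nat_lit 156) (nat_lit 456) (nat_lit 0) (XT.nd (nat_lit 78) (nat_lit 304) (nat_lit 0) (XT.lf (nat_lit 0) (nat_lit 118300539545) (nat_lit 228) (nat_lit 123510569237) (nat_lit 304) (nat_lit 55834323160) (nat_lit 106) (nat_lit 5) (nat_lit 109) (nat_lit 5) (nat_lit 110) (nat_lit 5) (nat_lit 463) (nat_lit 447) (nat_lit 290)) (XT.lf (nat_lit 0) (nat_lit 31476445855) (nat_lit 304) (nat_lit 212244620965) (nat_lit 76) (nat_lit 67958741490) (nat_lit 102) (nat_lit 5) (nat_lit 106) (nat_lit 5) (nat_lit 103) (nat_lit 5) (nat_lit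 464) (nat_lit 447) (nat_lit 289))) (XT.nd (nat_lit 78) (nat_lit 228) (nat_lit 0) (XT.lf (nat_lit 0) (nat_lit 79717202646) (nat_lit 228) (nat_lit 50627202135) (nat_lit 304) (nat_lit 196120339630) (nat_lit 99) (nat_lit 5) (nat_lit 102) (nat_lit 5) (nat_lit 103) (nat_lit 5) (nat_lit 465) (nat_lit 447) (nat_lit 288)) (XT.lf (nat_lit 0) (nat_lit 59753705588) (nat_lit 228) (nat_lit 184524111815) (nat_lit 304) (nat_lit 97796857165) (nat_lit 96) (nat_lit 5) (nat_lit 99) (nat_lit 5) (nat_lit 100) (nat_lit 5) (nat_lit 466) (nat_lit 447) (nat_lit 287))))) (XT.nd (nat_lit 312) (nat_lit 760) (nat_lit 0) (XT.nd (nat_lit 156) (nat_lit 228) (nat_lit 0) (XT.nd (nat_lit 78) (nat_lit 228) (nat_lit 0) (XT.lf (nat_lit 0) (nat_lit 14411924956) (nat_lit 228) (nat_lit 317928547952) (nat_lit 76) (nat_lit 26271973037) (nat_lit 93) (nat_lit 5) (nat_lit 96) (nat_lit 5) (nat_lit 94) (nat_lit 5) (nat_lit 467) (nat_lit 447)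 (nat_lit 286)) (XT.lf (nat_lit 0) (nat_lit 19155189218) (nat_lit 228) (nat_lit 121470501558) (nat_lit 304) (nat_lit 235344656582) (nat_lit 90) (nat_lit 5) (nat_lit 93) (nat_lit 5) (nat_lit 94) (nat_lit 5) (nat_lit 468) (nat_lit 447) (nat_lit 285))) (XT.nd (nat_lit 78) (nat_lit 228) (nat_lit 0) (XT.lf (nat_lit 0) (nat_lit 284224471917) (nat_lit 304) (nat_lit 1631394025) (nat_lit 76) (nat_lit 108496619251) (nat_lit 90) (nat_lit 5) (nat_lit 94) (nat_lit 5) (nat_lit 91) (nat_lit 5) (nat_lit 469) (nat_lit 447) (nat_lit 284)) (XT.lf (nat_lit 0) (nat_lit 32612245969) (nat_lit 228) (nat_lit 21841931617) (nat_lit 76) (nat_lit 359315926157) (nat_lit 87) (nat_lit 5) (nat_lit 90) (nat_lit 5) (nat_lit 88) (nat_lit 5) (nat_lit 470) (nat_lit 447) (nat_lit 283)))) (XT.nd (nat_lit 156) (nat_lit 380) (nat_lit 0) (XT.nd (nat_lit 78) (nat_lit 152) (nat_lit 0) (XT.lf (nat_lit 0) (nat_lit 192312915777) (nat_lit 304)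 (nat_lit 44510953589) (nat_lit 76) (nat_lit 197357016608) (nat_lit 84) (nat_lit 5) (nat_lit 88) (nat_lit 5) (nat_lit 85) (nat_lit 5) (nat_lit 471) (nat_lit 447) (nat_lit 282)) (XT.lf (nat_lit 0) (nat_lit 372469104983) (nat_lit 228) (nat_lit 65893770030) (nat_lit 76) (nat_lit 17477682490) (nat_lit 82) (nat_lit 5) (nat_lit 85) (nat_lit 5) (nat_lit 83) (nat_lit 5) (nat_lit 472) (nat_lit 447) (nat_lit 281))) (XT.nd (nat_lit 78) (nat_lit 152) (nat_lit 0) (XT.lf (nat_lit 0) (nat_lit 96043441835) (nat_lit 228) (nat_lit 90204842032) (nat_lit 76) (nat_lit 292363727117) (nat_lit 79) (nat_lit 5) (nat_lit 82) (nat_lit 5) (nat_lit 80) (nat_lit 5) (nat_lit 473) (nat_lit 447) (nat_lit 280)) (XT.lf (nat_lit 0) (nat_lit 295659187498) (nat_lit 228) (nat_lit 114965304022) (nat_lit 76) (nat_lit 92073922509) (nat_lit 77) (nat_lit 5) (nat_lit 80) (nat_lit 5) (nat_lit 78) (nat_lit 5) (nat_lit 474) (nat_lit 447) (nat_lit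 279))))))) (XT.nd (nat_lit 1170) (nat_lit 912) (nat_lit 0) (XT.nd (nat_lit 546) (nat_lit 988) (nat_lit 0) (XT.nd (nat_lit 234) (nat_lit 608) (nat_lit 0) (XT.nd (nat_lit 78) (nat_lit 380) (nat_lit 0) (XT.lf (nat_lit 0) (nat_lit 387737717664) (nat_lit 152) (nat_lit 134297594237) (nat_lit 228) (nat_lit 6136861467) (nat_lit 75) (nat_lit 5) (nat_lit 77) (nat_lit 5) (nat_lit 78) (nat_lit 5) (nat_lit 475) (nat_lit 447) (nat_lit 278)) (XT.nd (nat_lit 78) (nat_lit 152) (nat_lit 0) (XT.lf (nat_lit 0) (nat_lit 214936399503) (nat_lit 228) (nat_lit 169582393145) (nat_lit 76) (nat_lit 170458110971) (nat_lit 72) (nat_lit 5) (nat_lit 75) (nat_lit 5) (nat_lit 73) (nat_lit 5) (nat_lit 476) (nat_lit 447) (nat_lit 277)) (XT.lf (nat_lit 0) (nat_lit 384395768517) (nat_lit 152) (nat_lit 79839898632) (nat_lit 228) (nat_lit 119147557356) (nat_lit 70) (nat_lit 5) (nat_lit 72) (nat_lit 5) (nat_lit 73) (nat_lit 5) (nat_lit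 477) (nat_lit 447) (nat_lit 276)))) (XT.nd (nat_lit 156) (nat_lit 304) (nat_lit 0) (XT.nd (nat_lit 78) (nat_lit 152) (nat_lit 0) (XT.lf (nat_lit 0) (nat_lit 128681238425) (nat_lit 152) (nat_lit 232336303636) (nat_lit 76) (nat_lit 252296962568) (nat_lit 68) (nat_lit 5) (nat_lit 70) (nat_lit 5) (nat_lit 69) (nat_lit 5) (nat_lit 478) (nat_lit 447) (nat_lit 275)) (XT.lf (nat_lit 0) (nat_lit 377654945584) (nat_lit 152) (nat_lit 25328309767) (nat_lit 228) (nat_lit 242018306509) (nat_lit 66) (nat_lit 5) (nat_lit 68) (nat_lit 5) (nat_lit 69) (nat_lit 5) (nat_lit 479) (nat_lit 447) (nat_lit 274))) (XT.nd (nat_lit 78) (nat_lit 152) (nat_lit 0) (XT.lf (nat_lit 0) (nat_lit 34805597106) (nat_lit 152) (nat_lit 306719783895) (nat_lit 76) (nat_lit 336910582339) (nat_lit 64) (nat_lit 5) (nat_lit 66) (nat_lit 5) (nat_lit 65) (nat_lit 5) (nat_lit 480) (nat_lit 447) (nat_lit 273)) (XT.lf (nat_lit 0) (nat_lit 336692781637)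 (nat_lit 228) (nat_lit 350024023345) (nat_lit 76) (nat_lit 27060110740) (nat_lit 62) (nat_lit 5) (nat_lit 65) (nat_lit 5) (nat_lit 63) (nat_lit 4) (nat_lit 481) (nat_lit 447) (nat_lit 272))))) (XT.nd (nat_lit 312) (nat_lit 380) (nat_lit 0) (XT.nd (nat_lit 156) (nat_lit 304) (nat_lit 0) (XT.nd (nat_lit 78) (nat_lit 228) (nat_lit 0) (XT.lf (nat_lit 0) (nat_lit 352576406694) (nat_lit 76) (nat_lit 326848345233) (nat_lit 152) (nat_lit 71685701823) (nat_lit 61) (nat_lit 5) (nat_lit 62) (nat_lit 5) (nat_lit 63) (nat_lit 4) (nat_lit 482) (nat_lit 447) (nat_lit 271)) (XT.lf (nat_lit 0) (nat_lit 262599455012) (nat_lit 228) (nat_lit 452380103639) (nat_lit 76) (nat_lit 75613743660) (nat_lit 58) (nat_lit 5) (nat_lit 61) (nat_lit 5) (nat_lit 59) (nat_lit 4) (nat_lit 483) (nat_lit 447) (nat_lit 270))) (XT.nd (nat_lit 78) (nat_lit 228) (nat_lit 0) (XT.lf (nat_lit 0) (nat_lit 318607541479) (nat_lit 76) (nat_lit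 320083491173) (nat_lit 152) (nat_lit 193606231033) (nat_lit 57) (nat_lit 5) (nat_lit 58) (nat_lit 5) (nat_lit 59) (nat_lit 4) (nat_lit 484) (nat_lit 447) (nat_lit 269)) (XT.lf (nat_lit 0) (nat_lit 176732084731) (nat_lit 228) (nat_lit 581231757640) (nat_lit 76) (nat_lit 118514828436) (nat_lit 54) (nat_lit 5) (nat_lit 57) (nat_lit 5) (nat_lit 55) (nat_lit 4) (nat_lit 485) (nat_lit 447) (nat_lit 268)))) (XT.nd (nat_lit 156) (nat_lit 152) (nat_lit 0) (XT.nd (nat_lit 78) (nat_lit 152) (nat_lit 0) (XT.lf (nat_lit 0) (nat_lit 263107494076) (nat_lit 76) (nat_lit 325497431837) (nat_lit 152) (nat_lit 334496446988) (nat_lit 53) (nat_lit 5) (nat_lit 54) (nat_lit 5) (nat_lit 55) (nat_lit 4) (nat_lit 486) (nat_lit 447) (nat_lit 267)) (XT.lf (nat_lit 0) (nat_lit 74373468920) (nat_lit 152) (nat_lit 746136932871) (nat_lit 76) (nat_lit 152080706555) (nat_lit 51) (nat_lit 5) (nat_lit 53) (nat_lit 5) (nat_lit 52)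 (nat_lit 4) (nat_lit 487) (nat_lit 447) (nat_lit 266))) (XT.nd (nat_lit 78) (nat_lit 76) (nat_lit 0) (XT.lf (nat_lit 0) (nat_lit 176244677339) (nat_lit 76) (nat_lit 348071069423) (nat_lit 152) (nat_lit 500446003715) (nat_lit 50) (nat_lit 5) (nat_lit 51) (nat_lit 5) (nat_lit 52) (nat_lit 4) (nat_lit 488) (nat_lit 447) (nat_lit 265)) (XT.lf (nat_lit 0) (nat_lit 119690769763) (nat_lit 76) (nat_lit 908173395989) (nat_lit 76) (nat_lit 52361340281) (nat_lit 49) (nat_lit 4) (nat_lit 50) (nat_lit 5) (nat_lit 50) (nat_lit 4) (nat_lit 489) (nat_lit 447) (nat_lit 264)))))) (XT.nd (nat_lit 546) (nat_lit 228) (nat_lit 0) (XT.nd (nat_lit 234) (nat_lit 380) (nat_lit 0) (XT.nd (nat_lit 78) (nat_lit 152) (nat_lit 0) (XT.lf (nat_lit 0) (nat_lit 44854230452) (nat_lit 76) (nat_lit 394495201076) (nat_lit 152) (nat_lit 699360415895) (nat_lit 47) (nat_lit 5) (nat_lit 48) (nat_lit 5) (nat_lit 49) (nat_lit 4) (nat_lit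 490) (nat_lit 447) (nat_lit 263)) (XT.nd (nat_lit 78) (nat_lit 152) (nat_lit 0) (XT.lf (nat_lit 0) (nat_lit 988095605949) (nat_lit 152) (nat_lit 39721343319) (nat_lit 0) (nat_lit 173036416366) (nat_lit 47) (nat_lit 5) (nat_lit 49) (nat_lit 4) (nat_lit 47) (nat_lit 4) (nat_lit 491) (nat_lit 447) (nat_lit 262)) (XT.lf (nat_lit 0) (nat_lit 327426455304) (nat_lit 152) (nat_lit 143834995787) (nat_lit 76) (nat_lit 795229549020) (nat_lit 45) (nat_lit 5) (nat_lit 47) (nat_lit 5) (nat_lit 46) (nat_lit 4) (nat_lit 492) (nat_lit 447) (nat_lit 261)))) (XT.nd (nat_lit 156) (nat_lit 152) (nat_lit 0) (XT.nd (nat_lit 78) (nat_lit 152) (nat_lit 0) (XT.lf (nat_lit 0) (nat_lit 923295996916) (nat_lit 152) (nat_lit 265863950482) (nat_lit 0) (nat_lit 147049077097) (nat_lit 44) (nat_lit 5) (nat_lit 46) (nat_lit 4) (nat_lit 44) (nat_lit 4) (nat_lit 493) (nat_lit 447) (nat_lit 260)) (XT.lf (nat_lit 0) (nat_lit 176883429461)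 (nat_lit 152) (nat_lit 413635921738) (nat_lit 76) (nat_lit 819537663921) (nat_lit 42) (nat_lit 5) (nat_lit 44) (nat_lit 5) (nat_lit 43) (nat_lit 4) (nat_lit 494) (nat_lit 447) (nat_lit 259))) (XT.nd (nat_lit 78) (nat_lit 76) (nat_lit 0) (XT.lf (nat_lit 0) (nat_lit 819667717589) (nat_lit 152) (nat_lit 588408267791) (nat_lit 0) (nat_lit 80384877534) (nat_lit 41) (nat_lit 5) (nat_lit 43) (nat_lit 4) (nat_lit 41) (nat_lit 4) (nat_lit 495) (nat_lit 447) (nat_lit 258)) (XT.lf (nat_lit 0) (nat_lit 775578130362) (nat_lit 76) (nat_lit 767686139283) (nat_lit 76) (nat_lit 28403272842) (nat_lit 40) (nat_lit 4) (nat_lit 41) (nat_lit 5) (nat_lit 41) (nat_lit 4) (nat_lit 496) (nat_lit 447) (nat_lit 257))))) (XT.nd (nat_lit 58812) (nat_lit 0) (nat_lit 8436) (XT.nd (nat_lit 58656) (nat_lit 0) (nat_lit 8360) (XT.nd (nat_lit 78) (nat_lit 76) (nat_lit 0) (XT.lf (nat_lit 0) (nat_lit 617931901680) (nat_lit 76) (nat_lit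 44124094687) (nat_lit 152) (nat_lit 997953759740) (nat_lit 38) (nat_lit 5) (nat_lit 39) (nat_lit 5) (nat_lit 40) (nat_lit 4) (nat_lit 497) (nat_lit 447) (nat_lit 256)) (XT.lf (nat_lit 0) (nat_lit 420001675257) (nat_lit 76) (nat_lit 1018932251902) (nat_lit 76) (nat_lit 314853286667) (nat_lit 37) (nat_lit 4) (nat_lit 38) (nat_lit 5) (nat_lit 38) (nat_lit 4) (nat_lit 498) (nat_lit 447) (nat_lit 255))) (XT.nd (nat_lit 78) (nat_lit 0) (nat_lit 76) (XT.lf (nat_lit 0) (nat_lit 33933360462) (nat_lit 836) (nat_lit 23848726046) (nat_lit 836) (nat_lit 23848726046) (nat_lit 147) (nat_lit 3) (nat_lit 158) (nat_lit 3) (nat_lit 158) (nat_lit 5) (nat_lit 448) (nat_lit 448) (nat_lit 304)) (XT.lf (nat_lit 0) (nat_lit 72102978621) (nat_lit 760) (nat_lit 85363208571) (nat_lit 836) (nat_lit 12249822893) (nat_lit 148) (nat_lit 5) (nat_lit 158) (nat_lit 5) (nat_lit 159) (nat_lit 5) (nat_lit 449) (nat_lit 448) (nat_lit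 303)))) (XT.nd (nat_lit 156) (nat_lit 0) (nat_lit 152) (XT.nd (nat_lit 78) (nat_lit 0) (nat_lit 76) (XT.lf (nat_lit 76) (nat_lit 51717959591) (nat_lit 0) (nat_lit 28560362687) (nat_lit 836) (nat_lit 96228414372) (nat_lit 149) (nat_lit 5) (nat_lit 148) (nat_lit 5) (nat_lit 159) (nat_lit 5) (nat_lit 450) (nat_lit 448) (nat_lit 302)) (XT.lf (nat_lit 76) (nat_lit 17867105531) (nat_lit 0) (nat_lit 74758219841) (nat_lit 836) (nat_lit 91039514425) (nat_lit 150) (nat_lit 5) (nat_lit 149) (nat_lit 5) (nat_lit 160) (nat_lit 5) (nat_lit 451) (nat_lit 448) (nat_lit 301))) (XT.nd (nat_lit 78) (nat_lit 0) (nat_lit 76) (XT.lf (nat_lit 0) (nat_lit 109657843266) (nat_lit 760) (nat_lit 16419866914) (nat_lit 836) (nat_lit 65132993339) (nat_lit 150) (nat_lit 5) (nat_lit 160) (nat_lit 5) (nat_lit 161) (nat_lit 5) (nat_lit 452) (nat_lit 448) (nat_lit 300)) (XT.lf (nat_lit 0) (nat_lit 131891892128) (nat_lit 760) (nat_lit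 51046082523) (nat_lit 836) (nat_lit 16230315257) (nat_lit 151) (nat_lit 5) (nat_lit 161) (nat_lit 5) (nat_lit 162) (nat_lit 5) (nat_lit 453) (nat_lit 448) (nat_lit 299))))))))
noncomputable def xc109 : XT := (XT.nd (nat_lit 2340) (nat_lit 1748) (nat_lit 0) (XT.nd (nat_lit 1170) (nat_lit 2432) (nat_lit 0) (XT.nd (nat_lit 546) (nat_lit 2204) (nat_lit 0) (XT.nd (nat_lit 234) (nat_lit 1064) (nat_lit 0) (XT.nd (nat_lit 78) (nat_lit 1140) (nat_lit 0) (XT.lf (nat_lit 76) (nat_lit 120388164746) (nat_lit 0) (nat_lit 39812425760) (nat_lit 836) (nat_lit 47347096465) (nat_lit 152) (nat_lit 5) (nat_lit 151) (nat_lit 5) (nat_lit 162) (nat_lit 5) (nat_lit 454) (nat_lit 448) (nat_lit 298)) (XT.nd (nat_lit 78) (nat_lit 456) (nat_lit 0) (XT.lf (nat_lit 0) (nat_lit 91943182489) (nat_lit 760) (nat_lit 102961568692) (nat_lit 836) (nat_lit 21486146336) (nat_lit 142) (nat_lit 5) (nat_lit 152) (nat_lit 5) (nat_lit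 153) (nat_lit 5) (nat_lit 455) (nat_lit 448) (nat_lit 297)) (XT.lf (nat_lit 0) (nat_lit 10298445961) (nat_lit 456) (nat_lit 162757575342) (nat_lit 76) (nat_lit 52677463237) (nat_lit 136) (nat_lit 5) (nat_lit 142) (nat_lit 5) (nat_lit 137) (nat_lit 5) (nat_lit 456) (nat_lit 448) (nat_lit 296)))) (XT.nd (nat_lit 156) (nat_lit 304) (nat_lit 0) (XT.nd (nat_lit 78) (nat_lit 380) (nat_lit 0) (XT.lf (nat_lit 0) (nat_lit 33045804434) (nat_lit 380) (nat_lit 15292451241) (nat_lit 456) (nat_lit 187244350289) (nat_lit 131) (nat_lit 5) (nat_lit 136) (nat_lit 5) (nat_lit 137) (nat_lit 5) (nat_lit 457) (nat_lit 448) (nat_lit 295)) (XT.lf (nat_lit 0) (nat_lit 1838271599) (nat_lit 380) (nat_lit 92914488528) (nat_lit 456) (nat_lit 151200321509) (nat_lit 126) (nat_lit 5) (nat_lit 131) (nat_lit 5) (nat_lit 132) (nat_lit 5) (nat_lit 458) (nat_lit 448) (nat_lit 294))) (XT.nd (nat_lit 78) (nat_lit 304) (nat_lit 0)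 (XT.lf (nat_lit 0) (nat_lit 149924538955) (nat_lit 456) (nat_lit 28697420464) (nat_lit 76) (nat_lit 78279030268) (nat_lit 126) (nat_lit 5) (nat_lit 132) (nat_lit 5) (nat_lit 127) (nat_lit 5) (nat_lit 459) (nat_lit 448) (nat_lit 293)) (XT.lf (nat_lit 0) (nat_lit 209078241685) (nat_lit 304) (nat_lit 5262628049) (nat_lit 380) (nat_lit 54142320192) (nat_lit 122) (nat_lit 5) (nat_lit 126) (nat_lit 5) (nat_lit 127) (nat_lit 5) (nat_lit 460) (nat_lit 448) (nat_lit 292))))) (XT.nd (nat_lit 312) (nat_lit 988) (nat_lit 0) (XT.nd (nat_lit 156) (nat_lit 532) (nat_lit 0) (XT.nd (nat_lit 78) (nat_lit 304) (nat_lit 0) (XT.lf (nat_lit 0) (nat_lit 9230303232) (nat_lit 380) (nat_lit 91687797289) (nat_lit 76) (nat_lit 179751328659) (nat_lit 117) (nat_lit 5) (nat_lit 122) (nat_lit 5) (nat_lit 118) (nat_lit 5) (nat_lit 461) (nat_lit 448) (nat_lit 291)) (XT.lf (nat_lit 0) (nat_lit 81007296651) (nat_lit 380) (nat_lit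 125002742558) (nat_lit 76) (nat_lit 87514577269) (nat_lit 113) (nat_lit 5) (nat_lit 118) (nat_lit 5) (nat_lit 114) (nat_lit 5) (nat_lit 462) (nat_lit 448) (nat_lit 290))) (XT.nd (nat_lit 78) (nat_lit 228) (nat_lit 0) (XT.lf (nat_lit 0) (nat_lit 148519593085) (nat_lit 304) (nat_lit 15650483981) (nat_lit 380) (nat_lit 142955960338) (nat_lit 109) (nat_lit 5) (nat_lit 113) (nat_lit 5) (nat_lit 114) (nat_lit 5) (nat_lit 463) (nat_lit 448) (nat_lit 289)) (XT.lf (nat_lit 0) (nat_lit 127768855751) (nat_lit 228) (nat_lit 133390319821) (nat_lit 304) (nat_lit 60297731667) (nat_lit 106) (nat_lit 5) (nat_lit 109) (nat_lit 5) (nat_lit 110) (nat_lit 5) (nat_lit 464) (nat_lit 448) (nat_lit 288)))) (XT.nd (nat_lit 156) (nat_lit 456) (nat_lit 0) (XT.nd (nat_lit 78) (nat_lit 228) (nat_lit 0) (XT.lf (nat_lit 0) (nat_lit 33997635861) (nat_lit 304) (nat_lit 229219865354) (nat_lit 76) (nat_lit 73396537731) (nat_lit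 102) (nat_lit 5) (nat_lit 106) (nat_lit 5) (nat_lit 103) (nat_lit 5) (nat_lit 465) (nat_lit 448) (nat_lit 287)) (XT.lf (nat_lit 0) (nat_lit 86098716175) (nat_lit 228) (nat_lit 54676152194) (nat_lit 304) (nat_lit 211806909747) (nat_lit 99) (nat_lit 5) (nat_lit 102) (nat_lit 5) (nat_lit 103) (nat_lit 5) (nat_lit 466) (nat_lit 448) (nat_lit 286))) (XT.nd (nat_lit 78) (nat_lit 228) (nat_lit 0) (XT.lf (nat_lit 0) (nat_lit 64538080749) (nat_lit 228) (nat_lit 199284739012) (nat_lit 304) (nat_lit 105617689658) (nat_lit 96) (nat_lit 5) (nat_lit 99) (nat_lit 5) (nat_lit 100) (nat_lit 5) (nat_lit 467) (nat_lit 448) (nat_lit 285)) (XT.lf (nat_lit 0) (nat_lit 15567575450) (nat_lit 228) (nat_lit 343358727309) (nat_lit 76) (nat_lit 28375003803) (nat_lit 93) (nat_lit 5) (nat_lit 96) (nat_lit 5) (nat_lit 94) (nat_lit 5) (nat_lit 468) (nat_lit 448) (nat_lit 284)))))) (XT.nd (nat_lit 546) (nat_lit 1216) (nat_lit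 0) (XT.nd (nat_lit 234) (nat_lit 760) (nat_lit 0) (XT.nd (nat_lit 78) (nat_lit 228) (nat_lit 0) (XT.lf (nat_lit 0) (nat_lit 20691530460) (nat_lit 228) (nat_lit 131186773632) (nat_lit 304) (nat_lit 254169542934) (nat_lit 90) (nat_lit 5) (nat_lit 93) (nat_lit 5) (nat_lit 94) (nat_lit 5) (nat_lit 469) (nat_lit 448) (nat_lit 283)) (XT.nd (nat_lit 78) (nat_lit 228) (nat_lit 0) (XT.lf (nat_lit 0) (nat_lit 306964818016) (nat_lit 304) (nat_lit 1758171412) (nat_lit 76) (nat_lit 117177574962) (nat_lit 90) (nat_lit 5) (nat_lit 94) (nat_lit 5) (nat_lit 91) (nat_lit 5) (nat_lit 470) (nat_lit 448) (nat_lit 282)) (XT.lf (nat_lit 0) (nat_lit 35223530192) (nat_lit 228) (nat_lit 23585637915) (nat_lit 76) (nat_lit 388062428529) (nat_lit 87) (nat_lit 5) (nat_lit 90) (nat_lit 5) (nat_lit 88) (nat_lit 5) (nat_lit 471) (nat_lit 448) (nat_lit 281)))) (XT.nd (nat_lit 156) (nat_lit 380) (nat_lit 0) (XT.nd (nat_lit 78)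 (nat_lit 152) (nat_lit 0) (XT.lf (nat_lit 0) (nat_lit 207700157680) (nat_lit 304) (nat_lit 48068250930) (nat_lit 76) (nat_lit 213146837646) (nat_lit 84) (nat_lit 5) (nat_lit 88) (nat_lit 5) (nat_lit 85) (nat_lit 5) (nat_lit 472) (nat_lit 448) (nat_lit 280)) (XT.lf (nat_lit 0) (nat_lit 402268752554) (nat_lit 228) (nat_lit 71161763832) (nat_lit 76) (nat_lit 18877179607) (nat_lit 82) (nat_lit 5) (nat_lit 85) (nat_lit 5) (nat_lit 83) (nat_lit 5) (nat_lit 473) (nat_lit 448) (nat_lit 279))) (XT.nd (nat_lit 78) (nat_lit 152) (nat_lit 0) (XT.lf (nat_lit 0) (nat_lit 103728964928) (nat_lit 228) (nat_lit 97417806196) (nat_lit 76) (nat_lit 315754098218) (nat_lit 79) (nat_lit 5) (nat_lit 82) (nat_lit 5) (nat_lit 80) (nat_lit 5) (nat_lit 474) (nat_lit 448) (nat_lit 278)) (XT.lf (nat_lit 0) (nat_lit 319313890403) (nat_lit 228) (nat_lit 124159177151) (nat_lit 76) (nat_lit 99441121076) (nat_lit 77) (nat_lit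 5) (nat_lit 80) (nat_lit 5) (nat_lit 78) (nat_lit 5) (nat_lit 475) (nat_lit 448) (nat_lit 277))))) (XT.nd (nat_lit 312) (nat_lit 532) (nat_lit 0) (XT.nd (nat_lit 156) (nat_lit 304) (nat_lit 0) (XT.nd (nat_lit 78) (nat_lit 228) (nat_lit 0) (XT.lf (nat_lit 0) (nat_lit 418759940631) (nat_lit 152) (nat_lit 145040068405) (nat_lit 228) (nat_lit 6625844477) (nat_lit 75) (nat_lit 5) (nat_lit 77) (nat_lit 5) (nat_lit 78) (nat_lit 5) (nat_lit 476) (nat_lit 448) (nat_lit 276)) (XT.lf (nat_lit 0) (nat_lit 232133142843) (nat_lit 228) (nat_lit 183145787958) (nat_lit 76) (nat_lit 184096033436) (nat_lit 72) (nat_lit 5) (nat_lit 75) (nat_lit 5) (nat_lit 73) (nat_lit 5) (nat_lit 477) (nat_lit 448) (nat_lit 275))) (XT.nd (nat_lit 78) (nat_lit 152) (nat_lit 0) (XT.lf (nat_lit 0) (nat_lit 415150487714) (nat_lit 152) (nat_lit 86225776269) (nat_lit 228) (nat_lit 128677531216) (nat_lit 70) (nat_lit 5) (nat_lit 72)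 (nat_lit 5) (nat_lit 73) (nat_lit 5) (nat_lit 478) (nat_lit 448) (nat_lit 274)) (XT.lf (nat_lit 0) (nat_lit 138977445101) (nat_lit 152) (nat_lit 250920162704) (nat_lit 76) (nat_lit 272481971731) (nat_lit 68) (nat_lit 5) (nat_lit 70) (nat_lit 5) (nat_lit 69) (nat_lit 5) (nat_lit 479) (nat_lit 448) (nat_lit 273)))) (XT.nd (nat_lit 156) (nat_lit 228) (nat_lit 0) (XT.nd (nat_lit 78) (nat_lit 152) (nat_lit 0) (XT.lf (nat_lit 0) (nat_lit 407870254111) (nat_lit 152) (nat_lit 27353288259) (nat_lit 228) (nat_lit 261378063032) (nat_lit 66) (nat_lit 5) (nat_lit 68) (nat_lit 5) (nat_lit 69) (nat_lit 5) (nat_lit 480) (nat_lit 448) (nat_lit 272)) (XT.lf (nat_lit 0) (nat_lit 37591639782) (nat_lit 152) (nat_lit 331254468855) (nat_lit 76) (nat_lit 363864651957) (nat_lit 64) (nat_lit 5) (nat_lit 66) (nat_lit 5) (nat_lit 65) (nat_lit 5) (nat_lit 481) (nat_lit 448) (nat_lit 271))) (XT.nd (nat_lit 78) (nat_lit 76)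 (nat_lit 0) (XT.lf (nat_lit 0) (nat_lit 363629743754) (nat_lit 228) (nat_lit 378023116872) (nat_lit 76) (nat_lit 29226131312) (nat_lit 62) (nat_lit 5) (nat_lit 65) (nat_lit 5) (nat_lit 63) (nat_lit 4) (nat_lit 482) (nat_lit 448) (nat_lit 270)) (XT.lf (nat_lit 0) (nat_lit 380785224654) (nat_lit 76) (nat_lit 352994975210) (nat_lit 152) (nat_lit 77419016740) (nat_lit 61) (nat_lit 5) (nat_lit 62) (nat_lit 5) (nat_lit 63) (nat_lit 4) (nat_lit 483) (nat_lit 448) (nat_lit 269))))))) (XT.nd (nat_lit 59748) (nat_lit 0) (nat_lit 5700) (XT.nd (nat_lit 546) (nat_lit 836) (nat_lit 0) (XT.nd (nat_lit 234) (nat_lit 380) (nat_lit 0) (XT.nd (nat_lit 78) (nat_lit 304) (nat_lit 0) (XT.lf (nat_lit 0) (nat_lit 283608852874) (nat_lit 228) (nat_lit 488567824596) (nat_lit 76) (nat_lit 81664016902) (nat_lit 58) (nat_lit 5) (nat_lit 61) (nat_lit 5) (nat_lit 59) (nat_lit 4) (nat_lit 484) (nat_lit 448) (nat_lit 268)) (XT.nd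 (nat_lit 78) (nat_lit 228) (nat_lit 0) (XT.lf (nat_lit 0) (nat_lit 344098715344) (nat_lit 76) (nat_lit 345688974741) (nat_lit 152) (nat_lit 209093285907) (nat_lit 57) (nat_lit 5) (nat_lit 58) (nat_lit 5) (nat_lit 59) (nat_lit 4) (nat_lit 485) (nat_lit 448) (nat_lit 267)) (XT.lf (nat_lit 0) (nat_lit 190872002751) (nat_lit 228) (nat_lit 627727746757) (nat_lit 76) (nat_lit 127997147361) (nat_lit 54) (nat_lit 5) (nat_lit 57) (nat_lit 5) (nat_lit 55) (nat_lit 4) (nat_lit 486) (nat_lit 448) (nat_lit 266)))) (XT.nd (nat_lit 156) (nat_lit 152) (nat_lit 0) (XT.nd (nat_lit 78) (nat_lit 152) (nat_lit 0) (XT.lf (nat_lit 0) (nat_lit 284158534212) (nat_lit 76) (nat_lit 351536075028) (nat_lit 152) (nat_lit 361254808991) (nat_lit 53) (nat_lit 5) (nat_lit 54) (nat_lit 5) (nat_lit 55) (nat_lit 4) (nat_lit 487) (nat_lit 448) (nat_lit 265)) (XT.lf (nat_lit 0) (nat_lit 80324614462) (nat_lit 152) (nat_lit 805825466492)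 (nat_lit 76) (nat_lit 164248252625) (nat_lit 51) (nat_lit 5) (nat_lit 53) (nat_lit 5) (nat_lit 52) (nat_lit 4) (nat_lit 488) (nat_lit 448) (nat_lit 264))) (XT.nd (nat_lit 78) (nat_lit 76) (nat_lit 0) (XT.lf (nat_lit 0) (nat_lit 190346567321) (nat_lit 76) (nat_lit 375915649438) (nat_lit 152) (nat_lit 540480413212) (nat_lit 50) (nat_lit 5) (nat_lit 51) (nat_lit 5) (nat_lit 52) (nat_lit 4) (nat_lit 489) (nat_lit 448) (nat_lit 263)) (XT.lf (nat_lit 0) (nat_lit 129268287900) (nat_lit 76) (nat_lit 980826182933) (nat_lit 76) (nat_lit 56549017063) (nat_lit 49) (nat_lit 4) (nat_lit 50) (nat_lit 5) (nat_lit 50) (nat_lit 4) (nat_lit 490) (nat_lit 448) (nat_lit 262))))) (XT.nd (nat_lit 312) (nat_lit 456) (nat_lit 0) (XT.nd (nat_lit 156) (nat_lit 228) (nat_lit 0) (XT.nd (nat_lit 78) (nat_lit 0) (nat_lit 0) (XT.lf (nat_lit 0) (nat_lit 48444765074) (nat_lit 76) (nat_lit 426053758097) (nat_lit 152) (nat_lit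 755308055164) (nat_lit 47) (nat_lit 5) (nat_lit 48) (nat_lit 5) (nat_lit 49) (nat_lit 4) (nat_lit 491) (nat_lit 448) (nat_lit 261)) (XT.lf (nat_lit 0) (nat_lit 1067144322625) (nat_lit 152) (nat_lit 42896979921) (nat_lit 0) (nat_lit 186880278904) (nat_lit 47) (nat_lit 5) (nat_lit 49) (nat_lit 4) (nat_lit 47) (nat_lit 4) (nat_lit 492) (nat_lit 448) (nat_lit 260))) (XT.nd (nat_lit 78) (nat_lit 76) (nat_lit 0) (XT.lf (nat_lit 0) (nat_lit 353621608472) (nat_lit 152) (nat_lit 155339780283) (nat_lit 76) (nat_lit 858848839507) (nat_lit 45) (nat_lit 5) (nat_lit 47) (nat_lit 5) (nat_lit 46) (nat_lit 4) (nat_lit 493) (nat_lit 448) (nat_lit 259)) (XT.lf (nat_lit 0) (nat_lit 997160681350) (nat_lit 152) (nat_lit 287131104046) (nat_lit 0) (nat_lit 158813910805) (nat_lit 44) (nat_lit 5) (nat_lit 46) (nat_lit 4) (nat_lit 44) (nat_lit 4) (nat_lit 494) (nat_lit 448) (nat_lit 258)))) (XT.nd (nat_lit 156) (nat_lit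 228) (nat_lit 0) (XT.nd (nat_lit 78) (nat_lit 76) (nat_lit 0) (XT.lf (nat_lit 0) (nat_lit 191035079134) (nat_lit 152) (nat_lit 446724886024) (nat_lit 76) (nat_lit 885101562388) (nat_lit 42) (nat_lit 5) (nat_lit 44) (nat_lit 5) (nat_lit 43) (nat_lit 4) (nat_lit 495) (nat_lit 448) (nat_lit 257)) (XT.lf (nat_lit 0) (nat_lit 885242080555) (nat_lit 152) (nat_lit 635479070120) (nat_lit 0) (nat_lit 86816533979) (nat_lit 41) (nat_lit 5) (nat_lit 43) (nat_lit 4) (nat_lit 41) (nat_lit 4) (nat_lit 496) (nat_lit 448) (nat_lit 256))) (XT.nd (nat_lit 78) (nat_lit 152) (nat_lit 0) (XT.lf (nat_lit 0) (nat_lit 837626159092) (nat_lit 76) (nat_lit 829100155407) (nat_lit 76) (nat_lit 30674586209) (nat_lit 40) (nat_lit 4) (nat_lit 41) (nat_lit 5) (nat_lit 41) (nat_lit 4) (nat_lit 497) (nat_lit 448) (nat_lit 255)) (XT.lf (nat_lit 0) (nat_lit 667368183883) (nat_lit 76) (nat_lit 47653169301) (nat_lit 152) (nat_lit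 1077789139543) (nat_lit 38) (nat_lit 5) (nat_lit 39) (nat_lit 5) (nat_lit 40) (nat_lit 4) (nat_lit 498) (nat_lit 448) (nat_lit 254)))))) (XT.nd (nat_lit 546) (nat_lit 2584) (nat_lit 0) (XT.nd (nat_lit 234) (nat_lit 0) (nat_lit 152) (XT.nd (nat_lit 78) (nat_lit 0) (nat_lit 76) (XT.lf (nat_lit 0) (nat_lit 36651726647) (nat_lit 836) (nat_lit 25754682736) (nat_lit 836) (nat_lit 25754682736) (nat_lit 147) (nat_lit 3) (nat_lit 158) (nat_lit 3) (nat_lit 158) (nat_lit 5) (nat_lit 449) (nat_lit 449) (nat_lit 302)) (XT.nd (nat_lit 78) (nat_lit 0) (nat_lit 0) (XT.lf (nat_lit 0) (nat_lit 77878072018) (nat_lit 760) (nat_lit 92188155087) (nat_lit 836) (nat_lit 13226719972) (nat_lit 148) (nat_lit 5) (nat_lit 158) (nat_lit 5) (nat_lit 159) (nat_lit 5) (nat_lit 450) (nat_lit 449) (nat_lit 301)) (XT.lf (nat_lit 76) (nat_lit 55859327904) (nat_lit 0) (nat_lit 30847668860) (nat_lit 836) (nat_lit 103919957402) (nat_lit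 149) (nat_lit 5) (nat_lit 148) (nat_lit 5) (nat_lit 159) (nat_lit 5) (nat_lit 451) (nat_lit 449) (nat_lit 300)))) (XT.nd (nat_lit 156) (nat_lit 0) (nat_lit 152) (XT.nd (nat_lit 78) (nat_lit 0) (nat_lit 76) (XT.lf (nat_lit 76) (nat_lit 19300579101) (nat_lit 0) (nat_lit 80740734568) (nat_lit 836) (nat_lit 98316414291) (nat_lit 150) (nat_lit 5) (nat_lit 149) (nat_lit 5) (nat_lit 160) (nat_lit 5) (nat_lit 452) (nat_lit 449) (nat_lit 299)) (XT.lf (nat_lit 0) (nat_lit 118435964497) (nat_lit 760) (nat_lit 17729351504) (nat_lit 836) (nat_lit 70341968270) (nat_lit 150) (nat_lit 5) (nat_lit 160) (nat_lit 5) (nat_lit 161) (nat_lit 5) (nat_lit 453) (nat_lit 449) (nat_lit 298))) (XT.nd (nat_lit 78) (nat_lit 0) (nat_lit 0) (XT.lf (nat_lit 0) (nat_lit 142448372550) (nat_lit 760) (nat_lit 55125565489) (nat_lit 836) (nat_lit 17527557830) (nat_lit 151) (nat_lit 5) (nat_lit 161) (nat_lit 5) (nat_lit 162) (nat_lit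 5) (nat_lit 454) (nat_lit 449) (nat_lit 297)) (XT.lf (nat_lit 76) (nat_lit 130023238876) (nat_lit 0) (nat_lit 42998210771) (nat_lit 836) (nat_lit 51129810966) (nat_lit 152) (nat_lit 5) (nat_lit 151) (nat_lit 5) (nat_lit 162) (nat_lit 5) (nat_lit 455) (nat_lit 449) (nat_lit 296))))) (XT.nd (nat_lit 312) (nat_lit 988) (nat_lit 0) (XT.nd (nat_lit 156) (nat_lit 760) (nat_lit 0) (XT.nd (nat_lit 78) (nat_lit 456) (nat_lit 0) (XT.lf (nat_lit 0) (nat_lit 99302725934) (nat_lit 760) (nat_lit 111198913209) (nat_lit 836) (nat_lit 23200304115) (nat_lit 142) (nat_lit 5) (nat_lit 152) (nat_lit 5) (nat_lit 153) (nat_lit 5) (nat_lit 456) (nat_lit 449) (nat_lit 295)) (XT.lf (nat_lit 0) (nat_lit 11126624051) (nat_lit 456) (nat_lit 175773904880) (nat_lit 76) (nat_lit 56891418663) (nat_lit 136) (nat_lit 5) (nat_lit 142) (nat_lit 5) (nat_lit 137) (nat_lit 5) (nat_lit 457) (nat_lit 449) (nat_lit 294))) (XT.nd (nat_lit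 78) (nat_lit 380) (nat_lit 0) (XT.lf (nat_lit 0) (nat_lit 35693559427) (nat_lit 380) (nat_lit 16515804285) (nat_lit 456) (nat_lit 202219647805) (nat_lit 131) (nat_lit 5) (nat_lit 136) (nat_lit 5) (nat_lit 137) (nat_lit 5) (nat_lit 458) (nat_lit 449) (nat_lit 293)) (XT.lf (nat_lit 0) (nat_lit 1989439653) (nat_lit 380) (nat_lit 100347353779) (nat_lit 456) (nat_lit 163292343605) (nat_lit 126) (nat_lit 5) (nat_lit 131) (nat_lit 5) (nat_lit 132) (nat_lit 5) (nat_lit 459) (nat_lit 449) (nat_lit 292)))) (XT.nd (nat_lit 156) (nat_lit 684) (nat_lit 0) (XT.nd (nat_lit 78) (nat_lit 304) (nat_lit 0) (XT.lf (nat_lit 0) (nat_lit 161922036407) (nat_lit 456) (nat_lit 30989239223) (nat_lit 76) (nat_lit 84541616048) (nat_lit 126) (nat_lit 5) (nat_lit 132) (nat_lit 5) (nat_lit 127) (nat_lit 5) (nat_lit 460) (nat_lit 449) (nat_lit 291)) (XT.lf (nat_lit 0) (nat_lit 225808303155) (nat_lit 304) (nat_lit 5683168054)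 (nat_lit 380) (nat_lit 58470206885) (nat_lit 122) (nat_lit 5) (nat_lit 126) (nat_lit 5) (nat_lit 127) (nat_lit 5) (nat_lit 461) (nat_lit 449) (nat_lit 290))) (XT.nd (nat_lit 78) (nat_lit 304) (nat_lit 0) (XT.lf (nat_lit 0) (nat_lit 9971930588) (nat_lit 380) (nat_lit 99018925137) (nat_lit 76) (nat_lit 194131967252) (nat_lit 117) (nat_lit 5) (nat_lit 122) (nat_lit 5) (nat_lit 118) (nat_lit 5) (nat_lit 462) (nat_lit 449) (nat_lit 289)) (XT.lf (nat_lit 0) (nat_lit 87490915367) (nat_lit 380) (nat_lit 134999094756) (nat_lit 76) (nat_lit 94516423571) (nat_lit 113) (nat_lit 5) (nat_lit 118) (nat_lit 5) (nat_lit 114) (nat_lit 5) (nat_lit 463) (nat_lit 449) (nat_lit 288))))))))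
noncomputable def xc110 : XT := (XT.nd (nat_lit 2262) (nat_lit 532) (nat_lit 0) (XT.nd (nat_lit 1092) (nat_lit 2128) (nat_lit 0) (XT.nd (nat_lit 546) (nat_lit 1140) (nat_lit 0) (XT.nd (nat_lit 234) (nat_lit 912) (nat_lit 0) (XT.nd (nat_lit 78) (nat_lit 532) (nat_lit 0) (XT.lf (nat_lit 0) (nat_lit 160404859674) (nat_lit 304) (nat_lit 16901691481) (nat_lit 380) (nat_lit 154389425518) (nat_lit 109) (nat_lit 5) (nat_lit 113) (nat_lit 5) (nat_lit 114) (nat_lit 5) (nat_lit 464) (nat_lit 449) (nat_lit 287)) (XT.nd (nat_lit 78) (nat_lit 304) (nat_lit 0) (XT.lf (nat_lit 0) (nat_lit 137994027657) (nat_lit 228) (nat_lit 144060606659) (nat_lit 304) (nat_lit 65118688965) (nat_lit 106) (nat_lit 5) (nat_lit 109) (nat_lit 5) (nat_lit 110) (nat_lit 5) (nat_lit 465) (nat_lit 449) (nat_lit 286)) (XT.lf (nat_lit 0) (nat_lit 36720082480) (nat_lit 304) (nat_lit 247553746344) (nat_lit 76) (nat_lit 79269201183) (nat_lit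 102) (nat_lit 5) (nat_lit 106) (nat_lit 5) (nat_lit 103) (nat_lit 5) (nat_lit 466) (nat_lit 449) (nat_lit 285)))) (XT.nd (nat_lit 156) (nat_lit 456) (nat_lit 0) (XT.nd (nat_lit 78) (nat_lit 228) (nat_lit 0) (XT.lf (nat_lit 0) (nat_lit 92990160551) (nat_lit 228) (nat_lit 59049193176) (nat_lit 304) (nat_lit 228748841596) (nat_lit 99) (nat_lit 5) (nat_lit 102) (nat_lit 5) (nat_lit 103) (nat_lit 5) (nat_lit 467) (nat_lit 449) (nat_lit 284)) (XT.lf (nat_lit 0) (nat_lit 69704624048) (nat_lit 228) (nat_lit 215226402094) (nat_lit 304) (nat_lit 114064604761) (nat_lit 96) (nat_lit 5) (nat_lit 99) (nat_lit 5) (nat_lit 100) (nat_lit 5) (nat_lit 468) (nat_lit 449) (nat_lit 283))) (XT.nd (nat_lit 78) (nat_lit 228) (nat_lit 0) (XT.lf (nat_lit 0) (nat_lit 16815293297) (nat_lit 228) (nat_lit 370823906563) (nat_lit 76) (nat_lit 30646095434) (nat_lit 93) (nat_lit 5) (nat_lit 96) (nat_lit 5) (nat_lit 94) (nat_lit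 5) (nat_lit 469) (nat_lit 449) (nat_lit 282)) (XT.lf (nat_lit 0) (nat_lit 22350218898) (nat_lit 228) (nat_lit 141680542640) (nat_lit 304) (nat_lit 274500803408) (nat_lit 90) (nat_lit 5) (nat_lit 93) (nat_lit 5) (nat_lit 94) (nat_lit 5) (nat_lit 470) (nat_lit 449) (nat_lit 281))))) (XT.nd (nat_lit 234) (nat_lit 684) (nat_lit 0) (XT.nd (nat_lit 78) (nat_lit 456) (nat_lit 0) (XT.lf (nat_lit 0) (nat_lit 331524051078) (nat_lit 304) (nat_lit 1895623706) (nat_lit 76) (nat_lit 126552832203) (nat_lit 90) (nat_lit 5) (nat_lit 94) (nat_lit 5) (nat_lit 91) (nat_lit 5) (nat_lit 471) (nat_lit 449) (nat_lit 280)) (XT.nd (nat_lit 78) (nat_lit 228) (nat_lit 0) (XT.lf (nat_lit 0) (nat_lit 38043388383) (nat_lit 228) (nat_lit 25469361179) (nat_lit 76) (nat_lit 419108475864) (nat_lit 87) (nat_lit 5) (nat_lit 90) (nat_lit 5) (nat_lit 88) (nat_lit 5) (nat_lit 472) (nat_lit 449) (nat_lit 279)) (XT.lf (nat_lit 0) (nat_lit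 224318063847) (nat_lit 304) (nat_lit 51910642635) (nat_lit 76) (nat_lit 230199664655) (nat_lit 84) (nat_lit 5) (nat_lit 88) (nat_lit 5) (nat_lit 85) (nat_lit 5) (nat_lit 473) (nat_lit 449) (nat_lit 278)))) (XT.nd (nat_lit 156) (nat_lit 304) (nat_lit 0) (XT.nd (nat_lit 78) (nat_lit 228) (nat_lit 0) (XT.lf (nat_lit 0) (nat_lit 434452069606) (nat_lit 228) (nat_lit 76851697565) (nat_lit 76) (nat_lit 20388453528) (nat_lit 82) (nat_lit 5) (nat_lit 85) (nat_lit 5) (nat_lit 83) (nat_lit 5) (nat_lit 474) (nat_lit 449) (nat_lit 277)) (XT.lf (nat_lit 0) (nat_lit 112029037733) (nat_lit 228) (nat_lit 105208295851) (nat_lit 76) (nat_lit 341015517408) (nat_lit 79) (nat_lit 5) (nat_lit 82) (nat_lit 5) (nat_lit 80) (nat_lit 5) (nat_lit 475) (nat_lit 449) (nat_lit 276))) (XT.nd (nat_lit 78) (nat_lit 152) (nat_lit 0) (XT.lf (nat_lit 0) (nat_lit 344860688797) (nat_lit 228) (nat_lit 134089038217) (nat_lit 76) (nat_lit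 107397512242) (nat_lit 77) (nat_lit 5) (nat_lit 80) (nat_lit 5) (nat_lit 78) (nat_lit 5) (nat_lit 476) (nat_lit 449) (nat_lit 275)) (XT.lf (nat_lit 0) (nat_lit 452263484127) (nat_lit 152) (nat_lit 156642130727) (nat_lit 228) (nat_lit 7154226587) (nat_lit 75) (nat_lit 5) (nat_lit 77) (nat_lit 5) (nat_lit 78) (nat_lit 5) (nat_lit 477) (nat_lit 449) (nat_lit 274)))))) (XT.nd (nat_lit 546) (nat_lit 1064) (nat_lit 0) (XT.nd (nat_lit 234) (nat_lit 532) (nat_lit 0) (XT.nd (nat_lit 78) (nat_lit 304) (nat_lit 0) (XT.lf (nat_lit 0) (nat_lit 250705364383) (nat_lit 228) (nat_lit 197794710394) (nat_lit 76) (nat_lit 198824808007) (nat_lit 72) (nat_lit 5) (nat_lit 75) (nat_lit 5) (nat_lit 73) (nat_lit 5) (nat_lit 478) (nat_lit 449) (nat_lit 273)) (XT.nd (nat_lit 78) (nat_lit 152) (nat_lit 0) (XT.lf (nat_lit 0) (nat_lit 448365148230) (nat_lit 152) (nat_lit 93122711609) (nat_lit 228) (nat_lit 138970164158) (nat_lit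 70) (nat_lit 5) (nat_lit 72) (nat_lit 5) (nat_lit 73) (nat_lit 5) (nat_lit 479) (nat_lit 449) (nat_lit 272)) (XT.lf (nat_lit 0) (nat_lit 150097104703) (nat_lit 152) (nat_lit 270991164933) (nat_lit 76) (nat_lit 294281602993) (nat_lit 68) (nat_lit 5) (nat_lit 70) (nat_lit 5) (nat_lit 69) (nat_lit 5) (nat_lit 480) (nat_lit 449) (nat_lit 271)))) (XT.nd (nat_lit 156) (nat_lit 228) (nat_lit 0) (XT.nd (nat_lit 78) (nat_lit 152) (nat_lit 0) (XT.lf (nat_lit 0) (nat_lit 440502371766) (nat_lit 152) (nat_lit 29540448533) (nat_lit 228) (nat_lit 282286843742) (nat_lit 66) (nat_lit 5) (nat_lit 68) (nat_lit 5) (nat_lit 69) (nat_lit 5) (nat_lit 481) (nat_lit 449) (nat_lit 270)) (XT.lf (nat_lit 0) (nat_lit 40600338341) (nat_lit 152) (nat_lit 357752342008) (nat_lit 76) (nat_lit 392974872666) (nat_lit 64) (nat_lit 5) (nat_lit 66) (nat_lit 5) (nat_lit 65) (nat_lit 5) (nat_lit 482) (nat_lit 449) (nat_lit 269))) (XT.nd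 (nat_lit 78) (nat_lit 76) (nat_lit 0) (XT.lf (nat_lit 0) (nat_lit 392721443202) (nat_lit 228) (nat_lit 408262541376) (nat_lit 76) (nat_lit 31565260665) (nat_lit 62) (nat_lit 5) (nat_lit 65) (nat_lit 5) (nat_lit 63) (nat_lit 4) (nat_lit 483) (nat_lit 449) (nat_lit 268)) (XT.lf (nat_lit 0) (nat_lit 411250362091) (nat_lit 76) (nat_lit 381233512148) (nat_lit 152) (nat_lit 83611216723) (nat_lit 61) (nat_lit 5) (nat_lit 62) (nat_lit 5) (nat_lit 63) (nat_lit 4) (nat_lit 484) (nat_lit 449) (nat_lit 267))))) (XT.nd (nat_lit 312) (nat_lit 456) (nat_lit 0) (XT.nd (nat_lit 156) (nat_lit 304) (nat_lit 0) (XT.nd (nat_lit 78) (nat_lit 76) (nat_lit 0) (XT.lf (nat_lit 0) (nat_lit 306298796925) (nat_lit 228) (nat_lit 527650946607) (nat_lit 76) (nat_lit 88198144554) (nat_lit 58) (nat_lit 5) (nat_lit 61) (nat_lit 5) (nat_lit 59) (nat_lit 4) (nat_lit 485) (nat_lit 449) (nat_lit 266)) (XT.lf (nat_lit 0) (nat_lit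 371628816400) (nat_lit 76) (nat_lit 373343067577) (nat_lit 152) (nat_lit 225819511118) (nat_lit 57) (nat_lit 5) (nat_lit 58) (nat_lit 5) (nat_lit 59) (nat_lit 4) (nat_lit 486) (nat_lit 449) (nat_lit 265))) (XT.nd (nat_lit 78) (nat_lit 76) (nat_lit 0) (XT.lf (nat_lit 0) (nat_lit 206142921443) (nat_lit 228) (nat_lit 677943779001) (nat_lit 76) (nat_lit 138237890214) (nat_lit 54) (nat_lit 5) (nat_lit 57) (nat_lit 5) (nat_lit 55) (nat_lit 4) (nat_lit 487) (nat_lit 449) (nat_lit 264)) (XT.lf (nat_lit 0) (nat_lit 306893309379) (nat_lit 76) (nat_lit 379657973928) (nat_lit 152) (nat_lit 390154033083) (nat_lit 53) (nat_lit 5) (nat_lit 54) (nat_lit 5) (nat_lit 55) (nat_lit 4) (nat_lit 488) (nat_lit 449) (nat_lit 263)))) (XT.nd (nat_lit 156) (nat_lit 228) (nat_lit 0) (XT.nd (nat_lit 78) (nat_lit 76) (nat_lit 0) (XT.lf (nat_lit 0) (nat_lit 86751670749) (nat_lit 152) (nat_lit 870289428187) (nat_lit 76) (nat_lit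 177389046944) (nat_lit 51) (nat_lit 5) (nat_lit 53) (nat_lit 5) (nat_lit 52) (nat_lit 4) (nat_lit 489) (nat_lit 449) (nat_lit 262)) (XT.lf (nat_lit 0) (nat_lit 205576278127) (nat_lit 76) (nat_lit 405987953572) (nat_lit 152) (nat_lit 583717756762) (nat_lit 50) (nat_lit 5) (nat_lit 51) (nat_lit 5) (nat_lit 52) (nat_lit 4) (nat_lit 490) (nat_lit 449) (nat_lit 261))) (XT.nd (nat_lit 78) (nat_lit 152) (nat_lit 0) (XT.lf (nat_lit 0) (nat_lit 139611685566) (nat_lit 76) (nat_lit 1059291347581) (nat_lit 76) (nat_lit 61071883523) (nat_lit 49) (nat_lit 4) (nat_lit 50) (nat_lit 5) (nat_lit 50) (nat_lit 4) (nat_lit 491) (nat_lit 449) (nat_lit 260)) (XT.lf (nat_lit 0) (nat_lit 52322229155) (nat_lit 76) (nat_lit 460137150767) (nat_lit 152) (nat_lit 815731675912) (nat_lit 47) (nat_lit 5) (nat_lit 48) (nat_lit 5) (nat_lit 49) (nat_lit 4) (nat_lit 492) (nat_lit 449) (nat_lit 259))))))) (XT.nd (nat_lit 59826)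 (nat_lit 0) (nat_lit 3572) (XT.nd (nat_lit 59202) (nat_lit 0) (nat_lit 7296) (XT.nd (nat_lit 234) (nat_lit 304) (nat_lit 0) (XT.nd (nat_lit 78) (nat_lit 228) (nat_lit 0) (XT.lf (nat_lit 0) (nat_lit 1152516784245) (nat_lit 152) (nat_lit 46326962883) (nat_lit 0) (nat_lit 201831515028) (nat_lit 47) (nat_lit 5) (nat_lit 49) (nat_lit 4) (nat_lit 47) (nat_lit 4) (nat_lit 493) (nat_lit 449) (nat_lit 258)) (XT.nd (nat_lit 78) (nat_lit 76) (nat_lit 0) (XT.lf (nat_lit 0) (nat_lit 381912225991) (nat_lit 152) (nat_lit 167765235025) (nat_lit 76) (nat_lit 927557541047) (nat_lit 45) (nat_lit 5) (nat_lit 47) (nat_lit 5) (nat_lit 46) (nat_lit 4) (nat_lit 494) (nat_lit 449) (nat_lit 257)) (XT.lf (nat_lit 0) (nat_lit 1076934397210) (nat_lit 152) (nat_lit 310099909865) (nat_lit 0) (nat_lit 171519801739) (nat_lit 44) (nat_lit 5) (nat_lit 46) (nat_lit 4) (nat_lit 44) (nat_lit 4) (nat_lit 495) (nat_lit 449) (nat_lit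 256)))) (XT.nd (nat_lit 156) (nat_lit 76) (nat_lit 0) (XT.nd (nat_lit 78) (nat_lit 76) (nat_lit 0) (XT.lf (nat_lit 0) (nat_lit 206318721641) (nat_lit 152) (nat_lit 482461239858) (nat_lit 76) (nat_lit 955910446427) (nat_lit 42) (nat_lit 5) (nat_lit 44) (nat_lit 5) (nat_lit 43) (nat_lit 4) (nat_lit 496) (nat_lit 449) (nat_lit 255)) (XT.lf (nat_lit 0) (nat_lit 956062257663) (nat_lit 152) (nat_lit 686315801856) (nat_lit 0) (nat_lit 93762599360) (nat_lit 41) (nat_lit 5) (nat_lit 43) (nat_lit 4) (nat_lit 41) (nat_lit 4) (nat_lit 497) (nat_lit 449) (nat_lit 254))) (XT.nd (nat_lit 58734) (nat_lit 0) (nat_lit 8132) (XT.lf (nat_lit 0) (nat_lit 904637776425) (nat_lit 76) (nat_lit 895427417652) (nat_lit 76) (nat_lit 33127739954) (nat_lit 40) (nat_lit 4) (nat_lit 41) (nat_lit 5) (nat_lit 41) (nat_lit 4) (nat_lit 498) (nat_lit 449) (nat_lit 253)) (XT.lf (nat_lit 0) (nat_lit 39587034658) (nat_lit 836) (nat_lit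 27813392924) (nat_lit 836) (nat_lit 27813392924) (nat_lit 147) (nat_lit 3) (nat_lit 158) (nat_lit 3) (nat_lit 158) (nat_lit 5) (nat_lit 450) (nat_lit 450) (nat_lit 300))))) (XT.nd (nat_lit 312) (nat_lit 912) (nat_lit 0) (XT.nd (nat_lit 156) (nat_lit 0) (nat_lit 76) (XT.nd (nat_lit 78) (nat_lit 0) (nat_lit 0) (XT.lf (nat_lit 0) (nat_lit 84114194929) (nat_lit 760) (nat_lit 99559683687) (nat_lit 836) (nat_lit 14282209463) (nat_lit 148) (nat_lit 5) (nat_lit 158) (nat_lit 5) (nat_lit 159) (nat_lit 5) (nat_lit 451) (nat_lit 450) (nat_lit 299)) (XT.lf (nat_lit 76) (nat_lit 60331444804) (nat_lit 0) (nat_lit 33317606132) (nat_lit 836) (nat_lit 112227784001) (nat_lit 149) (nat_lit 5) (nat_lit 148) (nat_lit 5) (nat_lit 159) (nat_lit 5) (nat_lit 452) (nat_lit 450) (nat_lit 298))) (XT.nd (nat_lit 78) (nat_lit 0) (nat_lit 76) (XT.lf (nat_lit 76) (nat_lit 20848144915) (nat_lit 0) (nat_lit 87201585530) (nat_lit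 836) (nat_lit 106176359388) (nat_lit 150) (nat_lit 5) (nat_lit 149) (nat_lit 5) (nat_lit 160) (nat_lit 5) (nat_lit 453) (nat_lit 450) (nat_lit 297)) (XT.lf (nat_lit 0) (nat_lit 127915551680) (nat_lit 760) (nat_lit 19144180451) (nat_lit 836) (nat_lit 75967898660) (nat_lit 150) (nat_lit 5) (nat_lit 160) (nat_lit 5) (nat_lit 161) (nat_lit 5) (nat_lit 454) (nat_lit 450) (nat_lit 296)))) (XT.nd (nat_lit 156) (nat_lit 1140) (nat_lit 0) (XT.nd (nat_lit 78) (nat_lit 0) (nat_lit 0) (XT.lf (nat_lit 0) (nat_lit 153848639689) (nat_lit 760) (nat_lit 59532006789) (nat_lit 836) (nat_lit 18928748528) (nat_lit 151) (nat_lit 5) (nat_lit 161) (nat_lit 5) (nat_lit 162) (nat_lit 5) (nat_lit 455) (nat_lit 450) (nat_lit 295)) (XT.lf (nat_lit 76) (nat_lit 140428545302) (nat_lit 0) (nat_lit 46438745744) (nat_lit 836) (nat_lit 55215863526) (nat_lit 152) (nat_lit 5) (nat_lit 151) (nat_lit 5) (nat_lit 162) (nat_lit 5)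 (nat_lit 456) (nat_lit 450) (nat_lit 294))) (XT.nd (nat_lit 78) (nat_lit 456) (nat_lit 0) (XT.lf (nat_lit 0) (nat_lit 107250449534) (nat_lit 760) (nat_lit 120095185509) (nat_lit 836) (nat_lit 25052269865) (nat_lit 142) (nat_lit 5) (nat_lit 152) (nat_lit 5) (nat_lit 153) (nat_lit 5) (nat_lit 457) (nat_lit 450) (nat_lit 293)) (XT.lf (nat_lit 0) (nat_lit 12020442601) (nat_lit 456) (nat_lit 189832150871) (nat_lit 76) (nat_lit 61442524994) (nat_lit 136) (nat_lit 5) (nat_lit 142) (nat_lit 5) (nat_lit 137) (nat_lit 5) (nat_lit 458) (nat_lit 450) (nat_lit 292)))))) (XT.nd (nat_lit 546) (nat_lit 1672) (nat_lit 0) (XT.nd (nat_lit 234) (nat_lit 1292) (nat_lit 0) (XT.nd (nat_lit 78) (nat_lit 380) (nat_lit 0) (XT.lf (nat_lit 0) (nat_lit 38552551244) (nat_lit 380) (nat_lit 17837031715) (nat_lit 456) (nat_lit 218393575506) (nat_lit 131) (nat_lit 5) (nat_lit 136) (nat_lit 5) (nat_lit 137) (nat_lit 5) (nat_lit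 459) (nat_lit 450) (nat_lit 291)) (XT.nd (nat_lit 78) (nat_lit 0) (nat_lit 0) (XT.lf (nat_lit 0) (nat_lit 2152115338) (nat_lit 380) (nat_lit 108374890169) (nat_lit 456) (nat_lit 176352298631) (nat_lit 126) (nat_lit 5) (nat_lit 131) (nat_lit 5) (nat_lit 132) (nat_lit 5) (nat_lit 460) (nat_lit 450) (nat_lit 290)) (XT.lf (nat_lit 0) (nat_lit 174878829443) (nat_lit 456) (nat_lit 33464970544) (nat_lit 76) (nat_lit 91305171118) (nat_lit 126) (nat_lit 5) (nat_lit 132) (nat_lit 5) (nat_lit 127) (nat_lit 5) (nat_lit 461) (nat_lit 450) (nat_lit 289)))) (XT.nd (nat_lit 156) (nat_lit 608) (nat_lit 0) (XT.nd (nat_lit 78) (nat_lit 380) (nat_lit 0) (XT.lf (nat_lit 0) (nat_lit 243876227124) (nat_lit 304) (nat_lit 6137418344) (nat_lit 380) (nat_lit 63144823673) (nat_lit 122) (nat_lit 5) (nat_lit 126) (nat_lit 5) (nat_lit 127) (nat_lit 5) (nat_lit 462) (nat_lit 450) (nat_lit 288)) (XT.lf (nat_lit 0) (nat_lit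 10772431174) (nat_lit 380) (nat_lit 106937099013) (nat_lit 76) (nat_lit 209662980994) (nat_lit 117) (nat_lit 5) (nat_lit 122) (nat_lit 5) (nat_lit 118) (nat_lit 5) (nat_lit 463) (nat_lit 450) (nat_lit 287))) (XT.nd (nat_lit 78) (nat_lit 304) (nat_lit 0) (XT.lf (nat_lit 0) (nat_lit 94492790605) (nat_lit 380) (nat_lit 145795706831) (nat_lit 76) (nat_lit 102078320550) (nat_lit 113) (nat_lit 5) (nat_lit 118) (nat_lit 5) (nat_lit 114) (nat_lit 5) (nat_lit 464) (nat_lit 450) (nat_lit 286)) (XT.lf (nat_lit 0) (nat_lit 173240419866) (nat_lit 304) (nat_lit 18253114164) (nat_lit 380) (nat_lit 166737997557) (nat_lit 109) (nat_lit 5) (nat_lit 113) (nat_lit 5) (nat_lit 114) (nat_lit 5) (nat_lit 465) (nat_lit 450) (nat_lit 285))))) (XT.nd (nat_lit 312) (nat_lit 684) (nat_lit 0) (XT.nd (nat_lit 156) (nat_lit 456) (nat_lit 0) (XT.nd (nat_lit 78) (nat_lit 304) (nat_lit 0) (XT.lf (nat_lit 0) (nat_lit 149036690684)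 (nat_lit 228) (nat_lit 155584650367) (nat_lit 304) (nat_lit 70325731033) (nat_lit 106) (nat_lit 5) (nat_lit 109) (nat_lit 5) (nat_lit 110) (nat_lit 5) (nat_lit 466) (nat_lit 450) (nat_lit 284)) (XT.lf (nat_lit 0) (nat_lit 39659948809) (nat_lit 304) (nat_lit 267354866835) (nat_lit 76) (nat_lit 85611543548) (nat_lit 102) (nat_lit 5) (nat_lit 106) (nat_lit 5) (nat_lit 103) (nat_lit 5) (nat_lit 467) (nat_lit 450) (nat_lit 283))) (XT.nd (nat_lit 78) (nat_lit 228) (nat_lit 0) (XT.lf (nat_lit 0) (nat_lit 100432414447) (nat_lit 228) (nat_lit 63772227402) (nat_lit 304) (nat_lit 247046501898) (nat_lit 99) (nat_lit 5) (nat_lit 102) (nat_lit 5) (nat_lit 103) (nat_lit 5) (nat_lit 468) (nat_lit 450) (nat_lit 282)) (XT.lf (nat_lit 0) (nat_lit 75283991948) (nat_lit 228) (nat_lit 232443557438) (nat_lit 304) (nat_lit 123187629736) (nat_lit 96) (nat_lit 5) (nat_lit 99) (nat_lit 5) (nat_lit 100) (nat_lit 5) (nat_lit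 469) (nat_lit 450) (nat_lit 281)))) (XT.nd (nat_lit 156) (nat_lit 228) (nat_lit 0) (XT.nd (nat_lit 78) (nat_lit 228) (nat_lit 0) (XT.lf (nat_lit 0) (nat_lit 18162498766) (nat_lit 228) (nat_lit 400486802173) (nat_lit 76) (nat_lit 33098718705) (nat_lit 93) (nat_lit 5) (nat_lit 96) (nat_lit 5) (nat_lit 94) (nat_lit 5) (nat_lit 470) (nat_lit 450) (nat_lit 280)) (XT.lf (nat_lit 0) (nat_lit 24141122214) (nat_lit 228) (nat_lit 153013980493) (nat_lit 304) (nat_lit 296458893262) (nat_lit 90) (nat_lit 5) (nat_lit 93) (nat_lit 5) (nat_lit 94) (nat_lit 5) (nat_lit 471) (nat_lit 450) (nat_lit 279))) (XT.nd (nat_lit 78) (nat_lit 228) (nat_lit 0) (XT.lf (nat_lit 0) (nat_lit 358047730669) (nat_lit 304) (nat_lit 2044528901) (nat_lit 76) (nat_lit 136677960051) (nat_lit 90) (nat_lit 5) (nat_lit 94) (nat_lit 5) (nat_lit 91) (nat_lit 5) (nat_lit 472) (nat_lit 450) (nat_lit 278)) (XT.lf (nat_lit 0) (nat_lit 41088553364)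 (nat_lit 228) (nat_lit 27504228515) (nat_lit 76) (nat_lit 452638056755) (nat_lit 87) (nat_lit 5) (nat_lit 90) (nat_lit 5) (nat_lit 88) (nat_lit 5) (nat_lit 473) (nat_lit 450) (nat_lit 277))))))))
noncomputable def xc111 : XT := (XT.nd (nat_lit 61074) (nat_lit 0) (nat_lit 1596) (XT.nd (nat_lit 1170) (nat_lit 988) (nat_lit 0) (XT.nd (nat_lit 546) (nat_lit 1216) (nat_lit 0) (XT.nd (nat_lit 234) (nat_lit 684) (nat_lit 0) (XT.nd (nat_lit 78) (nat_lit 380) (nat_lit 0) (XT.lf (nat_lit 0) (nat_lit 242265132371) (nat_lit 304) (nat_lit 56060863414) (nat_lit 76) (nat_lit 248616563752) (nat_lit 84) (nat_lit 5) (nat_lit 88) (nat_lit 5) (nat_lit 85) (nat_lit 5) (nat_lit 474) (nat_lit 450) (nat_lit 276)) (XT.nd (nat_lit 78) (nat_lit 228) (nat_lit 0) (XT.lf (nat_lit 0) (nat_lit 469209792830) (nat_lit 228) (nat_lit 82997255032) (nat_lit 76) (nat_lit 22020472499) (nat_lit 82) (nat_lit 5) (nat_lit 85) (nat_lit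 5) (nat_lit 83) (nat_lit 5) (nat_lit 475) (nat_lit 450) (nat_lit 275)) (XT.lf (nat_lit 0) (nat_lit 120992865906) (nat_lit 228) (nat_lit 113622443366) (nat_lit 76) (nat_lit 368297694443) (nat_lit 79) (nat_lit 5) (nat_lit 82) (nat_lit 5) (nat_lit 80) (nat_lit 5) (nat_lit 476) (nat_lit 450) (nat_lit 274)))) (XT.nd (nat_lit 156) (nat_lit 380) (nat_lit 0) (XT.nd (nat_lit 78) (nat_lit 152) (nat_lit 0) (XT.lf (nat_lit 0) (nat_lit 372450990371) (nat_lit 228) (nat_lit 144813698048) (nat_lit 76) (nat_lit 115990257563) (nat_lit 77) (nat_lit 5) (nat_lit 80) (nat_lit 5) (nat_lit 78) (nat_lit 5) (nat_lit 477) (nat_lit 450) (nat_lit 273)) (XT.lf (nat_lit 0) (nat_lit 488446919034) (nat_lit 152) (nat_lit 169172521118) (nat_lit 228) (nat_lit 7725119713) (nat_lit 75) (nat_lit 5) (nat_lit 77) (nat_lit 5) (nat_lit 78) (nat_lit 5) (nat_lit 478) (nat_lit 450) (nat_lit 272))) (XT.nd (nat_lit 78) (nat_lit 152) (nat_lit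 0) (XT.lf (nat_lit 0) (nat_lit 270763139653) (nat_lit 228) (nat_lit 213615937601) (nat_lit 76) (nat_lit 214731728773) (nat_lit 72) (nat_lit 5) (nat_lit 75) (nat_lit 5) (nat_lit 73) (nat_lit 5) (nat_lit 479) (nat_lit 450) (nat_lit 271)) (XT.lf (nat_lit 0) (nat_lit 484236607600) (nat_lit 152) (nat_lit 100571562521) (nat_lit 228) (nat_lit 150086431651) (nat_lit 70) (nat_lit 5) (nat_lit 72) (nat_lit 5) (nat_lit 73) (nat_lit 5) (nat_lit 480) (nat_lit 450) (nat_lit 270))))) (XT.nd (nat_lit 312) (nat_lit 608) (nat_lit 0) (XT.nd (nat_lit 156) (nat_lit 304) (nat_lit 0) (XT.nd (nat_lit 78) (nat_lit 152) (nat_lit 0) (XT.lf (nat_lit 0) (nat_lit 162106128218) (nat_lit 152) (nat_lit 292668219798) (nat_lit 76) (nat_lit 317825051605) (nat_lit 68) (nat_lit 5) (nat_lit 70) (nat_lit 5) (nat_lit 69) (nat_lit 5) (nat_lit 481) (nat_lit 450) (nat_lit 269)) (XT.lf (nat_lit 0) (nat_lit 475744702562) (nat_lit 152) (nat_lit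 31902738954) (nat_lit 228) (nat_lit 304868535813) (nat_lit 66) (nat_lit 5) (nat_lit 68) (nat_lit 5) (nat_lit 69) (nat_lit 5) (nat_lit 482) (nat_lit 450) (nat_lit 268))) (XT.nd (nat_lit 78) (nat_lit 152) (nat_lit 0) (XT.lf (nat_lit 0) (nat_lit 43849537713) (nat_lit 152) (nat_lit 386370399434) (nat_lit 76) (nat_lit 424413761444) (nat_lit 64) (nat_lit 5) (nat_lit 66) (nat_lit 5) (nat_lit 65) (nat_lit 5) (nat_lit 483) (nat_lit 450) (nat_lit 267)) (XT.lf (nat_lit 0) (nat_lit 424140290300) (nat_lit 228) (nat_lit 440921465771) (nat_lit 76) (nat_lit 34091372163) (nat_lit 62) (nat_lit 5) (nat_lit 65) (nat_lit 5) (nat_lit 63) (nat_lit 4) (nat_lit 484) (nat_lit 450) (nat_lit 266)))) (XT.nd (nat_lit 156) (nat_lit 304) (nat_lit 0) (XT.nd (nat_lit 78) (nat_lit 228) (nat_lit 0) (XT.lf (nat_lit 0) (nat_lit 444152379626) (nat_lit 76) (nat_lit 411731283415) (nat_lit 152) (nat_lit 90298981212) (nat_lit 61) (nat_lit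 5) (nat_lit 62) (nat_lit 5) (nat_lit 63) (nat_lit 4) (nat_lit 485) (nat_lit 450) (nat_lit 265)) (XT.lf (nat_lit 0) (nat_lit 330803760196) (nat_lit 228) (nat_lit 569861047065) (nat_lit 76) (nat_lit 95254858858) (nat_lit 58) (nat_lit 5) (nat_lit 61) (nat_lit 5) (nat_lit 59) (nat_lit 4) (nat_lit 486) (nat_lit 450) (nat_lit 264))) (XT.nd (nat_lit 78) (nat_lit 228) (nat_lit 0) (XT.lf (nat_lit 0) (nat_lit 401361011141) (nat_lit 76) (nat_lit 403209634089) (nat_lit 152) (nat_lit 243884010912) (nat_lit 57) (nat_lit 5) (nat_lit 58) (nat_lit 5) (nat_lit 59) (nat_lit 4) (nat_lit 487) (nat_lit 450) (nat_lit 263)) (XT.lf (nat_lit 0) (nat_lit 222635348361) (nat_lit 228) (nat_lit 732177405896) (nat_lit 76) (nat_lit 149297753963) (nat_lit 54) (nat_lit 5) (nat_lit 57) (nat_lit 5) (nat_lit 55) (nat_lit 4) (nat_lit 488) (nat_lit 450) (nat_lit 262)))))) (XT.nd (nat_lit 546) (nat_lit 304) (nat_lit 0) (XT.nd (nat_lit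 234) (nat_lit 380) (nat_lit 0) (XT.nd (nat_lit 78) (nat_lit 228) (nat_lit 0) (XT.lf (nat_lit 0) (nat_lit 331446568051) (nat_lit 76) (nat_lit 410029765561) (nat_lit 152) (nat_lit 421365360679) (nat_lit 53) (nat_lit 5) (nat_lit 54) (nat_lit 5) (nat_lit 55) (nat_lit 4) (nat_lit 489) (nat_lit 450) (nat_lit 261)) (XT.nd (nat_lit 78) (nat_lit 76) (nat_lit 0) (XT.lf (nat_lit 0) (nat_lit 93692736447) (nat_lit 152) (nat_lit 939910802928) (nat_lit 76) (nat_lit 191580971548) (nat_lit 51) (nat_lit 5) (nat_lit 53) (nat_lit 5) (nat_lit 52) (nat_lit 4) (nat_lit 490) (nat_lit 450) (nat_lit 260)) (XT.lf (nat_lit 0) (nat_lit 222024082556) (nat_lit 76) (nat_lit 438466177254) (nat_lit 152) (nat_lit 630414243227) (nat_lit 50) (nat_lit 5) (nat_lit 51) (nat_lit 5) (nat_lit 52) (nat_lit 4) (nat_lit 491) (nat_lit 450) (nat_lit 259)))) (XT.nd (nat_lit 156) (nat_lit 152) (nat_lit 0) (XT.nd (nat_lit 78) (nat_lit 152) (nat_lit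 0) (XT.lf (nat_lit 0) (nat_lit 150782279047) (nat_lit 76) (nat_lit 1144033858075) (nat_lit 76) (nat_lit 65956729794) (nat_lit 49) (nat_lit 4) (nat_lit 50) (nat_lit 5) (nat_lit 50) (nat_lit 4) (nat_lit 492) (nat_lit 450) (nat_lit 258)) (XT.lf (nat_lit 0) (nat_lit 56509621749) (nat_lit 76) (nat_lit 496947344385) (nat_lit 152) (nat_lit 880989332357) (nat_lit 47) (nat_lit 5) (nat_lit 48) (nat_lit 5) (nat_lit 49) (nat_lit 4) (nat_lit 493) (nat_lit 450) (nat_lit 257))) (XT.nd (nat_lit 78) (nat_lit 152) (nat_lit 0) (XT.lf (nat_lit 0) (nat_lit 1244718912143) (nat_lit 152) (nat_lit 50031597767) (nat_lit 0) (nat_lit 217978733943) (nat_lit 47) (nat_lit 5) (nat_lit 49) (nat_lit 4) (nat_lit 47) (nat_lit 4) (nat_lit 494) (nat_lit 450) (nat_lit 256)) (XT.lf (nat_lit 0) (nat_lit 412465966108) (nat_lit 152) (nat_lit 181184972619) (nat_lit 76) (nat_lit 1001762825384) (nat_lit 45) (nat_lit 5) (nat_lit 47) (nat_lit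 5) (nat_lit 46) (nat_lit 4) (nat_lit 495) (nat_lit 450) (nat_lit 255))))) (XT.nd (nat_lit 59046) (nat_lit 0) (nat_lit 8132) (XT.nd (nat_lit 156) (nat_lit 76) (nat_lit 0) (XT.nd (nat_lit 78) (nat_lit 152) (nat_lit 0) (XT.lf (nat_lit 0) (nat_lit 1163089887457) (nat_lit 152) (nat_lit 334906460177) (nat_lit 0) (nat_lit 185242052947) (nat_lit 44) (nat_lit 5) (nat_lit 46) (nat_lit 4) (nat_lit 44) (nat_lit 4) (nat_lit 496) (nat_lit 450) (nat_lit 254)) (XT.lf (nat_lit 0) (nat_lit 222824936259) (nat_lit 152) (nat_lit 521056735542) (nat_lit 76) (nat_lit 1032383932903) (nat_lit 42) (nat_lit 5) (nat_lit 44) (nat_lit 5) (nat_lit 43) (nat_lit 4) (nat_lit 497) (nat_lit 450) (nat_lit 253))) (XT.nd (nat_lit 58812) (nat_lit 0) (nat_lit 8056) (XT.lf (nat_lit 0) (nat_lit 1032547933290) (nat_lit 152) (nat_lit 741219699514) (nat_lit 0) (nat_lit 101264244022) (nat_lit 41) (nat_lit 5) (nat_lit 43) (nat_lit 4) (nat_lit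 41) (nat_lit 4) (nat_lit 498) (nat_lit 450) (nat_lit 252)) (XT.lf (nat_lit 0) (nat_lit 42756715091) (nat_lit 836) (nat_lit 30037037375) (nat_lit 836) (nat_lit 30037037375) (nat_lit 147) (nat_lit 3) (nat_lit 158) (nat_lit 3) (nat_lit 158) (nat_lit 5) (nat_lit 451) (nat_lit 451) (nat_lit 298)))) (XT.nd (nat_lit 156) (nat_lit 0) (nat_lit 76) (XT.nd (nat_lit 78) (nat_lit 0) (nat_lit 0) (XT.lf (nat_lit 0) (nat_lit 90848369232) (nat_lit 760) (nat_lit 107521437285) (nat_lit 836) (nat_lit 15422515895) (nat_lit 148) (nat_lit 5) (nat_lit 158) (nat_lit 5) (nat_lit 159) (nat_lit 5) (nat_lit 452) (nat_lit 451) (nat_lit 297)) (XT.lf (nat_lit 76) (nat_lit 65160850192) (nat_lit 0) (nat_lit 35984835408) (nat_lit 836) (nat_lit 121201059883) (nat_lit 149) (nat_lit 5) (nat_lit 148) (nat_lit 5) (nat_lit 159) (nat_lit 5) (nat_lit 453) (nat_lit 451) (nat_lit 296))) (XT.nd (nat_lit 78) (nat_lit 0) (nat_lit 76) (XT.lf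 (nat_lit 76) (nat_lit 22519013900) (nat_lit 0) (nat_lit 94179077426) (nat_lit 836) (nat_lit 114665865906) (nat_lit 150) (nat_lit 5) (nat_lit 149) (nat_lit 5) (nat_lit 160) (nat_lit 5) (nat_lit 454) (nat_lit 451) (nat_lit 295)) (XT.lf (nat_lit 0) (nat_lit 138152833899) (nat_lit 760) (nat_lit 20672697763) (nat_lit 836) (nat_lit 82044107070) (nat_lit 150) (nat_lit 5) (nat_lit 160) (nat_lit 5) (nat_lit 161) (nat_lit 5) (nat_lit 455) (nat_lit 451) (nat_lit 294))))))) (XT.nd (nat_lit 1170) (nat_lit 2584) (nat_lit 0) (XT.nd (nat_lit 546) (nat_lit 2280) (nat_lit 0) (XT.nd (nat_lit 234) (nat_lit 1216) (nat_lit 0) (XT.nd (nat_lit 78) (nat_lit 684) (nat_lit 0) (XT.lf (nat_lit 0) (nat_lit 166160300870) (nat_lit 760) (nat_lit 64291477535) (nat_lit 836) (nat_lit 20442179129) (nat_lit 151) (nat_lit 5) (nat_lit 161) (nat_lit 5) (nat_lit 162) (nat_lit 5) (nat_lit 456) (nat_lit 451) (nat_lit 293)) (XT.nd (nat_lit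 78) (nat_lit 684) (nat_lit 0) (XT.lf (nat_lit 76) (nat_lit 151665784445) (nat_lit 0) (nat_lit 50154426775) (nat_lit 836) (nat_lit 59629418344) (nat_lit 152) (nat_lit 5) (nat_lit 151) (nat_lit 5) (nat_lit 162) (nat_lit 5) (nat_lit 457) (nat_lit 451) (nat_lit 292)) (XT.lf (nat_lit 0) (nat_lit 115833490921) (nat_lit 760) (nat_lit 129703108343) (nat_lit 836) (nat_lit 27052971876) (nat_lit 142) (nat_lit 5) (nat_lit 152) (nat_lit 5) (nat_lit 153) (nat_lit 5) (nat_lit 458) (nat_lit 451) (nat_lit 291)))) (XT.nd (nat_lit 156) (nat_lit 380) (nat_lit 0) (XT.nd (nat_lit 78) (nat_lit 380) (nat_lit 0) (XT.lf (nat_lit 0) (nat_lit 12985240412) (nat_lit 456) (nat_lit 205015579593) (nat_lit 76) (nat_lit 66357749386) (nat_lit 136) (nat_lit 5) (nat_lit 142) (nat_lit 5) (nat_lit 137) (nat_lit 5) (nat_lit 459) (nat_lit 451) (nat_lit 290)) (XT.lf (nat_lit 0) (nat_lit 41639762085) (nat_lit 380) (nat_lit 19263962605)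 (nat_lit 456) (nat_lit 235861937297) (nat_lit 131) (nat_lit 5) (nat_lit 136) (nat_lit 5) (nat_lit 137) (nat_lit 5) (nat_lit 460) (nat_lit 451) (nat_lit 289))) (XT.nd (nat_lit 78) (nat_lit 0) (nat_lit 0) (XT.lf (nat_lit 0) (nat_lit 2327302838) (nat_lit 380) (nat_lit 117044665408) (nat_lit 456) (nat_lit 190457539738) (nat_lit 126) (nat_lit 5) (nat_lit 131) (nat_lit 5) (nat_lit 132) (nat_lit 5) (nat_lit 461) (nat_lit 451) (nat_lit 288)) (XT.lf (nat_lit 0) (nat_lit 188871733641) (nat_lit 456) (nat_lit 36139246534) (nat_lit 76) (nat_lit 98609778384) (nat_lit 126) (nat_lit 5) (nat_lit 132) (nat_lit 5) (nat_lit 127) (nat_lit 5) (nat_lit 462) (nat_lit 451) (nat_lit 287))))) (XT.nd (nat_lit 312) (nat_lit 988) (nat_lit 0) (XT.nd (nat_lit 156) (nat_lit 608) (nat_lit 0) (XT.nd (nat_lit 78) (nat_lit 380) (nat_lit 0) (XT.lf (nat_lit 0) (nat_lit 263389119977) (nat_lit 304) (nat_lit 6628066172) (nat_lit 380)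 (nat_lit 68193837755) (nat_lit 122) (nat_lit 5) (nat_lit 126) (nat_lit 5) (nat_lit 127) (nat_lit 5) (nat_lit 463) (nat_lit 451) (nat_lit 286)) (XT.lf (nat_lit 0) (nat_lit 11636580041) (nat_lit 380) (nat_lit 115489203305) (nat_lit 76) (nat_lit 226436410731) (nat_lit 117) (nat_lit 5) (nat_lit 122) (nat_lit 5) (nat_lit 118) (nat_lit 5) (nat_lit 464) (nat_lit 451) (nat_lit 285))) (XT.nd (nat_lit 78) (nat_lit 304) (nat_lit 0) (XT.lf (nat_lit 0) (nat_lit 102054444657) (nat_lit 380) (nat_lit 157456520865) (nat_lit 76) (nat_lit 110245086103) (nat_lit 113) (nat_lit 5) (nat_lit 118) (nat_lit 5) (nat_lit 114) (nat_lit 5) (nat_lit 465) (nat_lit 451) (nat_lit 284)) (XT.lf (nat_lit 0) (nat_lit 187102372436) (nat_lit 304) (nat_lit 19712752327) (nat_lit 380) (nat_lit 180074823711) (nat_lit 109) (nat_lit 5) (nat_lit 113) (nat_lit 5) (nat_lit 114) (nat_lit 5) (nat_lit 466) (nat_lit 451) (nat_lit 283)))) (XT.nd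 (nat_lit 156) (nat_lit 456) (nat_lit 0) (XT.nd (nat_lit 78) (nat_lit 304) (nat_lit 0) (XT.lf (nat_lit 0) (nat_lit 160962318680) (nat_lit 228) (nat_lit 168030732389) (nat_lit 304) (nat_lit 75949686422) (nat_lit 106) (nat_lit 5) (nat_lit 109) (nat_lit 5) (nat_lit 110) (nat_lit 5) (nat_lit 467) (nat_lit 451) (nat_lit 282)) (XT.lf (nat_lit 0) (nat_lit 42834682069) (nat_lit 304) (nat_lit 288740530517) (nat_lit 76) (nat_lit 92461158279) (nat_lit 102) (nat_lit 5) (nat_lit 106) (nat_lit 5) (nat_lit 103) (nat_lit 5) (nat_lit 468) (nat_lit 451) (nat_lit 281))) (XT.nd (nat_lit 78) (nat_lit 228) (nat_lit 0) (XT.lf (nat_lit 0) (nat_lit 108469614814) (nat_lit 228) (nat_lit 68873232935) (nat_lit 304) (nat_lit 266808295588) (nat_lit 99) (nat_lit 5) (nat_lit 102) (nat_lit 5) (nat_lit 103) (nat_lit 5) (nat_lit 469) (nat_lit 451) (nat_lit 280)) (XT.lf (nat_lit 0) (nat_lit 81309281584) (nat_lit 228) (nat_lit 251038221711)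 (nat_lit 304) (nat_lit 133040802490) (nat_lit 96) (nat_lit 5) (nat_lit 99) (nat_lit 5) (nat_lit 100) (nat_lit 5) (nat_lit 470) (nat_lit 451) (nat_lit 279)))))) (XT.nd (nat_lit 546) (nat_lit 1292) (nat_lit 0) (XT.nd (nat_lit 234) (nat_lit 836) (nat_lit 0) (XT.nd (nat_lit 78) (nat_lit 228) (nat_lit 0) (XT.lf (nat_lit 0) (nat_lit 19617197918) (nat_lit 228) (nat_lit 432523159829) (nat_lit 76) (nat_lit 35747418359) (nat_lit 93) (nat_lit 5) (nat_lit 96) (nat_lit 5) (nat_lit 94) (nat_lit 5) (nat_lit 471) (nat_lit 451) (nat_lit 278)) (XT.nd (nat_lit 78) (nat_lit 0) (nat_lit 0) (XT.lf (nat_lit 0) (nat_lit 26074886102) (nat_lit 228) (nat_lit 165254236829) (nat_lit 304) (nat_lit 320173911978) (nat_lit 90) (nat_lit 5) (nat_lit 93) (nat_lit 5) (nat_lit 94) (nat_lit 5) (nat_lit 472) (nat_lit 451) (nat_lit 277)) (XT.lf (nat_lit 0) (nat_lit 386693054185) (nat_lit 304) (nat_lit 2205738075) (nat_lit 76) (nat_lit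 147612969551) (nat_lit 90) (nat_lit 5) (nat_lit 94) (nat_lit 5) (nat_lit 91) (nat_lit 5) (nat_lit 473) (nat_lit 451) (nat_lit 276)))) (XT.nd (nat_lit 156) (nat_lit 380) (nat_lit 0) (XT.nd (nat_lit 78) (nat_lit 228) (nat_lit 0) (XT.lf (nat_lit 0) (nat_lit 44377089887) (nat_lit 228) (nat_lit 29702267792) (nat_lit 76) (nat_lit 488849875321) (nat_lit 87) (nat_lit 5) (nat_lit 90) (nat_lit 5) (nat_lit 88) (nat_lit 5) (nat_lit 474) (nat_lit 451) (nat_lit 275)) (XT.lf (nat_lit 0) (nat_lit 261647734778) (nat_lit 304) (nat_lit 60543477144) (nat_lit 76) (nat_lit 268506682683) (nat_lit 84) (nat_lit 5) (nat_lit 88) (nat_lit 5) (nat_lit 85) (nat_lit 5) (nat_lit 475) (nat_lit 451) (nat_lit 274))) (XT.nd (nat_lit 78) (nat_lit 228) (nat_lit 0) (XT.lf (nat_lit 0) (nat_lit 506747911694) (nat_lit 228) (nat_lit 89634824925) (nat_lit 76) (nat_lit 23782918502) (nat_lit 82) (nat_lit 5) (nat_lit 85) (nat_lit 5) (nat_lit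 83) (nat_lit 5) (nat_lit 476) (nat_lit 451) (nat_lit 273)) (XT.lf (nat_lit 0) (nat_lit 130673585606) (nat_lit 228) (nat_lit 122710081640) (nat_lit 76) (nat_lit 397762312161) (nat_lit 79) (nat_lit 5) (nat_lit 82) (nat_lit 5) (nat_lit 80) (nat_lit 5) (nat_lit 477) (nat_lit 451) (nat_lit 272))))) (XT.nd (nat_lit 312) (nat_lit 608) (nat_lit 0) (XT.nd (nat_lit 156) (nat_lit 380) (nat_lit 0) (XT.nd (nat_lit 78) (nat_lit 152) (nat_lit 0) (XT.lf (nat_lit 0) (nat_lit 402248309715) (nat_lit 228) (nat_lit 156396682072) (nat_lit 76) (nat_lit 125270287789) (nat_lit 77) (nat_lit 5) (nat_lit 80) (nat_lit 5) (nat_lit 78) (nat_lit 5) (nat_lit 478) (nat_lit 451) (nat_lit 271)) (XT.lf (nat_lit 0) (nat_lit 527524692599) (nat_lit 152) (nat_lit 182705482557) (nat_lit 228) (nat_lit 8341890435) (nat_lit 75) (nat_lit 5) (nat_lit 77) (nat_lit 5) (nat_lit 78) (nat_lit 5) (nat_lit 479) (nat_lit 451) (nat_lit 270))) (XT.nd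 (nat_lit 78) (nat_lit 152) (nat_lit 0) (XT.lf (nat_lit 0) (nat_lit 292425344905) (nat_lit 228) (nat_lit 230703198185) (nat_lit 76) (nat_lit 231911069651) (nat_lit 72) (nat_lit 5) (nat_lit 75) (nat_lit 5) (nat_lit 73) (nat_lit 5) (nat_lit 480) (nat_lit 451) (nat_lit 269)) (XT.lf (nat_lit 0) (nat_lit 522977463088) (nat_lit 152) (nat_lit 108616459320) (nat_lit 228) (nat_lit 162092192513) (nat_lit 70) (nat_lit 5) (nat_lit 72) (nat_lit 5) (nat_lit 73) (nat_lit 5) (nat_lit 481) (nat_lit 451) (nat_lit 268)))) (XT.nd (nat_lit 156) (nat_lit 304) (nat_lit 0) (XT.nd (nat_lit 78) (nat_lit 152) (nat_lit 0) (XT.lf (nat_lit 0) (nat_lit 175075694554) (nat_lit 152) (nat_lit 316079758375) (nat_lit 76) (nat_lit 343251844805) (nat_lit 68) (nat_lit 5) (nat_lit 70) (nat_lit 5) (nat_lit 69) (nat_lit 5) (nat_lit 482) (nat_lit 451) (nat_lit 267)) (XT.lf (nat_lit 0) (nat_lit 513806114376) (nat_lit 152) (nat_lit 34454147490)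 (nat_lit 228) (nat_lit 329256942349) (nat_lit 66) (nat_lit 5) (nat_lit 68) (nat_lit 5) (nat_lit 69) (nat_lit 5) (nat_lit 483) (nat_lit 451) (nat_lit 266))) (XT.nd (nat_lit 78) (nat_lit 152) (nat_lit 0) (XT.lf (nat_lit 0) (nat_lit 47358505793) (nat_lit 152) (nat_lit 417278205313) (nat_lit 76) (nat_lit 458367633077) (nat_lit 64) (nat_lit 5) (nat_lit 66) (nat_lit 5) (nat_lit 65) (nat_lit 5) (nat_lit 484) (nat_lit 451) (nat_lit 265)) (XT.lf (nat_lit 0) (nat_lit 458072483724) (nat_lit 228) (nat_lit 476193400699) (nat_lit 76) (nat_lit 36819445520) (nat_lit 62) (nat_lit 5) (nat_lit 65) (nat_lit 5) (nat_lit 63) (nat_lit 4) (nat_lit 485) (nat_lit 451) (nat_lit 264))))))))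
noncomputable def xc112 : XT := (XT.nd (nat_lit 61074) (nat_lit 0) (nat_lit 228) (XT.nd (nat_lit 59904) (nat_lit 0) (nat_lit 5092) (XT.nd (nat_lit 546) (nat_lit 608) (nat_lit 0) (XT.nd (nat_lit 234) (nat_lit 532) (nat_lit 0) (XT.nd (nat_lit 78) (nat_lit 304) (nat_lit 0) (XT.lf (nat_lit 0) (nat_lit 479686274873) (nat_lit 76) (nat_lit 444669006164) (nat_lit 152) (nat_lit 97521928473) (nat_lit 61) (nat_lit 5) (nat_lit 62) (nat_lit 5) (nat_lit 63) (nat_lit 4) (nat_lit 486) (nat_lit 451) (nat_lit 263)) (XT.nd (nat_lit 78) (nat_lit 76) (nat_lit 0) (XT.lf (nat_lit 0) (nat_lit 357268969378) (nat_lit 228) (nat_lit 615448237354) (nat_lit 76) (nat_lit 102875987228) (nat_lit 58) (nat_lit 5) (nat_lit 61) (nat_lit 5) (nat_lit 59) (nat_lit 4) (nat_lit 487) (nat_lit 451) (nat_lit 262)) (XT.lf (nat_lit 0) (nat_lit 433471511912) (nat_lit 76) (nat_lit 435465651306) (nat_lit 152) (nat_lit 263393822066) (nat_lit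 57) (nat_lit 5) (nat_lit 58) (nat_lit 5) (nat_lit 59) (nat_lit 4) (nat_lit 488) (nat_lit 451) (nat_lit 261)))) (XT.nd (nat_lit 156) (nat_lit 228) (nat_lit 0) (XT.nd (nat_lit 78) (nat_lit 76) (nat_lit 0) (XT.lf (nat_lit 0) (nat_lit 240447027741) (nat_lit 228) (nat_lit 790749990493) (nat_lit 76) (nat_lit 161242288042) (nat_lit 54) (nat_lit 5) (nat_lit 57) (nat_lit 5) (nat_lit 55) (nat_lit 4) (nat_lit 489) (nat_lit 451) (nat_lit 260)) (XT.lf (nat_lit 0) (nat_lit 357963831494) (nat_lit 76) (nat_lit 442831421256) (nat_lit 152) (nat_lit 455073736438) (nat_lit 53) (nat_lit 5) (nat_lit 54) (nat_lit 5) (nat_lit 55) (nat_lit 4) (nat_lit 490) (nat_lit 451) (nat_lit 259))) (XT.nd (nat_lit 78) (nat_lit 76) (nat_lit 0) (XT.lf (nat_lit 0) (nat_lit 101188954435) (nat_lit 152) (nat_lit 1015102141516) (nat_lit 76) (nat_lit 206908135871) (nat_lit 51) (nat_lit 5) (nat_lit 53) (nat_lit 5) (nat_lit 52) (nat_lit 4)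 (nat_lit 491) (nat_lit 451) (nat_lit 258)) (XT.lf (nat_lit 0) (nat_lit 239787468504) (nat_lit 76) (nat_lit 473542774758) (nat_lit 152) (nat_lit 680846581865) (nat_lit 50) (nat_lit 5) (nat_lit 51) (nat_lit 5) (nat_lit 52) (nat_lit 4) (nat_lit 492) (nat_lit 451) (nat_lit 257))))) (XT.nd (nat_lit 234) (nat_lit 380) (nat_lit 0) (XT.nd (nat_lit 78) (nat_lit 152) (nat_lit 0) (XT.lf (nat_lit 0) (nat_lit 162846283384) (nat_lit 76) (nat_lit 1235555883154) (nat_lit 76) (nat_lit 71232492791) (nat_lit 49) (nat_lit 4) (nat_lit 50) (nat_lit 5) (nat_lit 50) (nat_lit 4) (nat_lit 493) (nat_lit 451) (nat_lit 256)) (XT.nd (nat_lit 78) (nat_lit 0) (nat_lit 0) (XT.lf (nat_lit 0) (nat_lit 61031775459) (nat_lit 76) (nat_lit 536702464545) (nat_lit 152) (nat_lit 951467726521) (nat_lit 47) (nat_lit 5) (nat_lit 48) (nat_lit 5) (nat_lit 49) (nat_lit 4) (nat_lit 494) (nat_lit 451) (nat_lit 255)) (XT.lf (nat_lit 0) (nat_lit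 1344297098262) (nat_lit 152) (nat_lit 54032820593) (nat_lit 0) (nat_lit 235417630834) (nat_lit 47) (nat_lit 5) (nat_lit 49) (nat_lit 4) (nat_lit 47) (nat_lit 4) (nat_lit 495) (nat_lit 451) (nat_lit 254)))) (XT.nd (nat_lit 156) (nat_lit 152) (nat_lit 0) (XT.nd (nat_lit 78) (nat_lit 76) (nat_lit 0) (XT.lf (nat_lit 0) (nat_lit 445463896721) (nat_lit 152) (nat_lit 195678500531) (nat_lit 76) (nat_lit 1081904435308) (nat_lit 45) (nat_lit 5) (nat_lit 47) (nat_lit 5) (nat_lit 46) (nat_lit 4) (nat_lit 496) (nat_lit 451) (nat_lit 253)) (XT.lf (nat_lit 0) (nat_lit 1256137711573) (nat_lit 152) (nat_lit 361697740299) (nat_lit 0) (nat_lit 200061989087) (nat_lit 44) (nat_lit 5) (nat_lit 46) (nat_lit 4) (nat_lit 44) (nat_lit 4) (nat_lit 497) (nat_lit 451) (nat_lit 252))) (XT.nd (nat_lit 58890) (nat_lit 0) (nat_lit 7980) (XT.lf (nat_lit 0) (nat_lit 240651545775) (nat_lit 152) (nat_lit 562740071106) (nat_lit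 76) (nat_lit 1114975205458) (nat_lit 42) (nat_lit 5) (nat_lit 44) (nat_lit 5) (nat_lit 43) (nat_lit 4) (nat_lit 498) (nat_lit 451) (nat_lit 251)) (XT.lf (nat_lit 0) (nat_lit 46179582254) (nat_lit 836) (nat_lit 32438776959) (nat_lit 836) (nat_lit 32438776959) (nat_lit 147) (nat_lit 3) (nat_lit 158) (nat_lit 3) (nat_lit 158) (nat_lit 5) (nat_lit 452) (nat_lit 452) (nat_lit 296)))))) (XT.nd (nat_lit 546) (nat_lit 2508) (nat_lit 0) (XT.nd (nat_lit 234) (nat_lit 456) (nat_lit 0) (XT.nd (nat_lit 78) (nat_lit 0) (nat_lit 0) (XT.lf (nat_lit 0) (nat_lit 98120558651) (nat_lit 760) (nat_lit 116120562164) (nat_lit 836) (nat_lit 16654370728) (nat_lit 148) (nat_lit 5) (nat_lit 158) (nat_lit 5) (nat_lit 159) (nat_lit 5) (nat_lit 453) (nat_lit 452) (nat_lit 295)) (XT.nd (nat_lit 78) (nat_lit 0) (nat_lit 76) (XT.lf (nat_lit 76) (nat_lit 70376195748) (nat_lit 0) (nat_lit 38865183270) (nat_lit 836) (nat_lit 130892903556)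 (nat_lit 149) (nat_lit 5) (nat_lit 148) (nat_lit 5) (nat_lit 159) (nat_lit 5) (nat_lit 454) (nat_lit 452) (nat_lit 294)) (XT.lf (nat_lit 76) (nat_lit 24323121939) (nat_lit 0) (nat_lit 101714573932) (nat_lit 836) (nat_lit 123835189504) (nat_lit 150) (nat_lit 5) (nat_lit 149) (nat_lit 5) (nat_lit 160) (nat_lit 5) (nat_lit 455) (nat_lit 452) (nat_lit 293)))) (XT.nd (nat_lit 156) (nat_lit 608) (nat_lit 0) (XT.nd (nat_lit 78) (nat_lit 0) (nat_lit 76) (XT.lf (nat_lit 0) (nat_lit 149208522619) (nat_lit 760) (nat_lit 22323926887) (nat_lit 836) (nat_lit 88606586695) (nat_lit 150) (nat_lit 5) (nat_lit 160) (nat_lit 5) (nat_lit 161) (nat_lit 5) (nat_lit 456) (nat_lit 452) (nat_lit 292)) (XT.lf (nat_lit 0) (nat_lit 179456357111) (nat_lit 760) (nat_lit 69432146734) (nat_lit 836) (nat_lit 22076808191) (nat_lit 151) (nat_lit 5) (nat_lit 161) (nat_lit 5) (nat_lit 162) (nat_lit 5) (nat_lit 457) (nat_lit 452)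 (nat_lit 291))) (XT.nd (nat_lit 78) (nat_lit 684) (nat_lit 0) (XT.lf (nat_lit 76) (nat_lit 163801581082) (nat_lit 0) (nat_lit 54167279350) (nat_lit 836) (nat_lit 64396587428) (nat_lit 152) (nat_lit 5) (nat_lit 151) (nat_lit 5) (nat_lit 162) (nat_lit 5) (nat_lit 458) (nat_lit 452) (nat_lit 290)) (XT.lf (nat_lit 0) (nat_lit 125102746861) (nat_lit 760) (nat_lit 140079621065) (nat_lit 836) (nat_lit 29214226448) (nat_lit 142) (nat_lit 5) (nat_lit 152) (nat_lit 5) (nat_lit 153) (nat_lit 5) (nat_lit 459) (nat_lit 452) (nat_lit 289))))) (XT.nd (nat_lit 312) (nat_lit 1292) (nat_lit 0) (XT.nd (nat_lit 156) (nat_lit 380) (nat_lit 0) (XT.nd (nat_lit 78) (nat_lit 380) (nat_lit 0) (XT.lf (nat_lit 0) (nat_lit 14026770895) (nat_lit 456) (nat_lit 221414131047) (nat_lit 76) (nat_lit 71666217067) (nat_lit 136) (nat_lit 5) (nat_lit 142) (nat_lit 5) (nat_lit 137) (nat_lit 5) (nat_lit 460) (nat_lit 452) (nat_lit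 288)) (XT.lf (nat_lit 0) (nat_lit 44973520848) (nat_lit 380) (nat_lit 20805052481) (nat_lit 456) (nat_lit 254728213741) (nat_lit 131) (nat_lit 5) (nat_lit 136) (nat_lit 5) (nat_lit 137) (nat_lit 5) (nat_lit 461) (nat_lit 452) (nat_lit 287))) (XT.nd (nat_lit 78) (nat_lit 0) (nat_lit 0) (XT.lf (nat_lit 0) (nat_lit 2516074747) (nat_lit 380) (nat_lit 126408053477) (nat_lit 456) (nat_lit 205691619954) (nat_lit 126) (nat_lit 5) (nat_lit 131) (nat_lit 5) (nat_lit 132) (nat_lit 5) (nat_lit 462) (nat_lit 452) (nat_lit 286)) (XT.lf (nat_lit 0) (nat_lit 203983699564) (nat_lit 456) (nat_lit 39027881409) (nat_lit 76) (nat_lit 106498726615) (nat_lit 126) (nat_lit 5) (nat_lit 132) (nat_lit 5) (nat_lit 127) (nat_lit 5) (nat_lit 463) (nat_lit 452) (nat_lit 285)))) (XT.nd (nat_lit 156) (nat_lit 608) (nat_lit 0) (XT.nd (nat_lit 78) (nat_lit 380) (nat_lit 0) (XT.lf (nat_lit 0) (nat_lit 284462645564) (nat_lit 304)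 (nat_lit 7158015135) (nat_lit 380) (nat_lit 73647139861) (nat_lit 122) (nat_lit 5) (nat_lit 126) (nat_lit 5) (nat_lit 127) (nat_lit 5) (nat_lit 464) (nat_lit 452) (nat_lit 284)) (XT.lf (nat_lit 0) (nat_lit 12569524939) (nat_lit 380) (nat_lit 124725884470) (nat_lit 76) (nat_lit 244551659029) (nat_lit 117) (nat_lit 5) (nat_lit 122) (nat_lit 5) (nat_lit 118) (nat_lit 5) (nat_lit 465) (nat_lit 452) (nat_lit 283))) (XT.nd (nat_lit 78) (nat_lit 304) (nat_lit 0) (XT.lf (nat_lit 0) (nat_lit 110220712784) (nat_lit 380) (nat_lit 170050605539) (nat_lit 76) (nat_lit 119065121582) (nat_lit 113) (nat_lit 5) (nat_lit 118) (nat_lit 5) (nat_lit 114) (nat_lit 5) (nat_lit 466) (nat_lit 452) (nat_lit 282)) (XT.lf (nat_lit 0) (nat_lit 202072893318) (nat_lit 304) (nat_lit 21289248705) (nat_lit 380) (nat_lit 194478911760) (nat_lit 109) (nat_lit 5) (nat_lit 113) (nat_lit 5) (nat_lit 114) (nat_lit 5) (nat_lit 467) (nat_lit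 452) (nat_lit 281))))))) (XT.nd (nat_lit 1170) (nat_lit 1900) (nat_lit 0) (XT.nd (nat_lit 546) (nat_lit 1520) (nat_lit 0) (XT.nd (nat_lit 234) (nat_lit 684) (nat_lit 0) (XT.nd (nat_lit 78) (nat_lit 532) (nat_lit 0) (XT.lf (nat_lit 0) (nat_lit 173841612766) (nat_lit 228) (nat_lit 181472599411) (nat_lit 304) (nat_lit 82023858272) (nat_lit 106) (nat_lit 5) (nat_lit 109) (nat_lit 5) (nat_lit 110) (nat_lit 5) (nat_lit 468) (nat_lit 452) (nat_lit 280)) (XT.nd (nat_lit 78) (nat_lit 228) (nat_lit 0) (XT.lf (nat_lit 0) (nat_lit 46263117604) (nat_lit 304) (nat_lit 311837436139) (nat_lit 76) (nat_lit 99858643574) (nat_lit 102) (nat_lit 5) (nat_lit 106) (nat_lit 5) (nat_lit 103) (nat_lit 5) (nat_lit 469) (nat_lit 452) (nat_lit 279)) (XT.lf (nat_lit 0) (nat_lit 117149419262) (nat_lit 228) (nat_lit 74382429140) (nat_lit 304) (nat_lit 288151307604) (nat_lit 99) (nat_lit 5) (nat_lit 102) (nat_lit 5) (nat_lit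 103) (nat_lit 5) (nat_lit 470) (nat_lit 452) (nat_lit 278)))) (XT.nd (nat_lit 156) (nat_lit 228) (nat_lit 0) (XT.nd (nat_lit 78) (nat_lit 228) (nat_lit 0) (XT.lf (nat_lit 0) (nat_lit 87816227713) (nat_lit 228) (nat_lit 271120576154) (nat_lit 304) (nat_lit 143682491221) (nat_lit 96) (nat_lit 5) (nat_lit 99) (nat_lit 5) (nat_lit 100) (nat_lit 5) (nat_lit 471) (nat_lit 452) (nat_lit 277)) (XT.lf (nat_lit 0) (nat_lit 21188030584) (nat_lit 228) (nat_lit 467122795092) (nat_lit 76) (nat_lit 38607899548) (nat_lit 93) (nat_lit 5) (nat_lit 96) (nat_lit 5) (nat_lit 94) (nat_lit 5) (nat_lit 472) (nat_lit 452) (nat_lit 276))) (XT.nd (nat_lit 78) (nat_lit 0) (nat_lit 0) (XT.lf (nat_lit 0) (nat_lit 28162998143) (nat_lit 228) (nat_lit 178473836660) (nat_lit 304) (nat_lit 345786373679) (nat_lit 90) (nat_lit 5) (nat_lit 93) (nat_lit 5) (nat_lit 94) (nat_lit 5) (nat_lit 473) (nat_lit 452) (nat_lit 275)) (XT.lf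 (nat_lit 0) (nat_lit 417629788869) (nat_lit 304) (nat_lit 2380179684) (nat_lit 76) (nat_lit 159422669577) (nat_lit 90) (nat_lit 5) (nat_lit 94) (nat_lit 5) (nat_lit 91) (nat_lit 5) (nat_lit 474) (nat_lit 452) (nat_lit 274))))) (XT.nd (nat_lit 312) (nat_lit 684) (nat_lit 0) (XT.nd (nat_lit 156) (nat_lit 380) (nat_lit 0) (XT.nd (nat_lit 78) (nat_lit 228) (nat_lit 0) (XT.lf (nat_lit 0) (nat_lit 47928502153) (nat_lit 228) (nat_lit 32076478189) (nat_lit 76) (nat_lit 527958528948) (nat_lit 87) (nat_lit 5) (nat_lit 90) (nat_lit 5) (nat_lit 88) (nat_lit 5) (nat_lit 475) (nat_lit 452) (nat_lit 273)) (XT.lf (nat_lit 0) (nat_lit 282580746820) (nat_lit 304) (nat_lit 65385021722) (nat_lit 76) (nat_lit 289987897879) (nat_lit 84) (nat_lit 5) (nat_lit 88) (nat_lit 5) (nat_lit 85) (nat_lit 5) (nat_lit 476) (nat_lit 452) (nat_lit 272))) (XT.nd (nat_lit 78) (nat_lit 228) (nat_lit 0) (XT.lf (nat_lit 0) (nat_lit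 547288889552) (nat_lit 228) (nat_lit 96803715763) (nat_lit 76) (nat_lit 25686244887) (nat_lit 82) (nat_lit 5) (nat_lit 85) (nat_lit 5) (nat_lit 83) (nat_lit 5) (nat_lit 477) (nat_lit 452) (nat_lit 271)) (XT.lf (nat_lit 0) (nat_lit 141128578787) (nat_lit 228) (nat_lit 132525038724) (nat_lit 76) (nat_lit 429583984859) (nat_lit 79) (nat_lit 5) (nat_lit 82) (nat_lit 5) (nat_lit 80) (nat_lit 5) (nat_lit 478) (nat_lit 452) (nat_lit 270)))) (XT.nd (nat_lit 156) (nat_lit 380) (nat_lit 0) (XT.nd (nat_lit 78) (nat_lit 152) (nat_lit 0) (XT.lf (nat_lit 0) (nat_lit 434429237690) (nat_lit 228) (nat_lit 168906606093) (nat_lit 76) (nat_lit 135292604932) (nat_lit 77) (nat_lit 5) (nat_lit 80) (nat_lit 5) (nat_lit 78) (nat_lit 5) (nat_lit 479) (nat_lit 452) (nat_lit 269)) (XT.lf (nat_lit 0) (nat_lit 569728399868) (nat_lit 152) (nat_lit 197321200783) (nat_lit 228) (nat_lit 9008179552) (nat_lit 75) (nat_lit 5) (nat_lit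 77) (nat_lit 5) (nat_lit 78) (nat_lit 5) (nat_lit 480) (nat_lit 452) (nat_lit 268))) (XT.nd (nat_lit 78) (nat_lit 152) (nat_lit 0) (XT.lf (nat_lit 0) (nat_lit 315820361934) (nat_lit 228) (nat_lit 249157726996) (nat_lit 76) (nat_lit 250464643302) (nat_lit 72) (nat_lit 5) (nat_lit 75) (nat_lit 5) (nat_lit 73) (nat_lit 5) (nat_lit 481) (nat_lit 452) (nat_lit 267)) (XT.lf (nat_lit 0) (nat_lit 564817312124) (nat_lit 152) (nat_lit 117305066014) (nat_lit 228) (nat_lit 175058578829) (nat_lit 70) (nat_lit 5) (nat_lit 72) (nat_lit 5) (nat_lit 73) (nat_lit 5) (nat_lit 482) (nat_lit 452) (nat_lit 266)))))) (XT.nd (nat_lit 546) (nat_lit 912) (nat_lit 0) (XT.nd (nat_lit 234) (nat_lit 532) (nat_lit 0) (XT.nd (nat_lit 78) (nat_lit 304) (nat_lit 0) (XT.lf (nat_lit 0) (nat_lit 189082672682) (nat_lit 152) (nat_lit 341364493806) (nat_lit 76) (nat_lit 370712668891) (nat_lit 68) (nat_lit 5) (nat_lit 70) (nat_lit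 5) (nat_lit 69) (nat_lit 5) (nat_lit 483) (nat_lit 452) (nat_lit 265)) (XT.nd (nat_lit 78) (nat_lit 152) (nat_lit 0) (XT.lf (nat_lit 0) (nat_lit 554912177265) (nat_lit 152) (nat_lit 37209784347) (nat_lit 228) (nat_lit 355596574959) (nat_lit 66) (nat_lit 5) (nat_lit 68) (nat_lit 5) (nat_lit 69) (nat_lit 5) (nat_lit 484) (nat_lit 452) (nat_lit 264)) (XT.lf (nat_lit 0) (nat_lit 51148047935) (nat_lit 152) (nat_lit 450658896173) (nat_lit 76) (nat_lit 495037704488) (nat_lit 64) (nat_lit 5) (nat_lit 66) (nat_lit 5) (nat_lit 65) (nat_lit 5) (nat_lit 485) (nat_lit 452) (nat_lit 263)))) (XT.nd (nat_lit 156) (nat_lit 304) (nat_lit 0) (XT.nd (nat_lit 78) (nat_lit 76) (nat_lit 0) (XT.lf (nat_lit 0) (nat_lit 494719114212) (nat_lit 228) (nat_lit 514287344690) (nat_lit 76) (nat_lit 39765655813) (nat_lit 62) (nat_lit 5) (nat_lit 65) (nat_lit 5) (nat_lit 63) (nat_lit 4) (nat_lit 486) (nat_lit 452) (nat_lit 262))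 (XT.lf (nat_lit 0) (nat_lit 518062638519) (nat_lit 76) (nat_lit 480241857997) (nat_lit 152) (nat_lit 105322850073) (nat_lit 61) (nat_lit 5) (nat_lit 62) (nat_lit 5) (nat_lit 63) (nat_lit 4) (nat_lit 487) (nat_lit 452) (nat_lit 261))) (XT.nd (nat_lit 78) (nat_lit 76) (nat_lit 0) (XT.lf (nat_lit 0) (nat_lit 385851265705) (nat_lit 228) (nat_lit 664682644459) (nat_lit 76) (nat_lit 111106700346) (nat_lit 58) (nat_lit 5) (nat_lit 61) (nat_lit 5) (nat_lit 59) (nat_lit 4) (nat_lit 488) (nat_lit 452) (nat_lit 260)) (XT.lf (nat_lit 0) (nat_lit 468150621651) (nat_lit 76) (nat_lit 470302257397) (nat_lit 152) (nat_lit 284464547895) (nat_lit 57) (nat_lit 5) (nat_lit 58) (nat_lit 5) (nat_lit 59) (nat_lit 4) (nat_lit 489) (nat_lit 452) (nat_lit 259))))) (XT.nd (nat_lit 312) (nat_lit 380) (nat_lit 0) (XT.nd (nat_lit 156) (nat_lit 228) (nat_lit 0) (XT.nd (nat_lit 78) (nat_lit 76) (nat_lit 0) (XT.lf (nat_lit 0)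 (nat_lit 259683519994) (nat_lit 228) (nat_lit 854008611240) (nat_lit 76) (nat_lit 174142283021) (nat_lit 54) (nat_lit 5) (nat_lit 57) (nat_lit 5) (nat_lit 55) (nat_lit 4) (nat_lit 490) (nat_lit 452) (nat_lit 258)) (XT.lf (nat_lit 0) (nat_lit 386602256599) (nat_lit 76) (nat_lit 478257312914) (nat_lit 152) (nat_lit 491478903961) (nat_lit 53) (nat_lit 5) (nat_lit 54) (nat_lit 5) (nat_lit 55) (nat_lit 4) (nat_lit 491) (nat_lit 452) (nat_lit 257))) (XT.nd (nat_lit 78) (nat_lit 76) (nat_lit 0) (XT.lf (nat_lit 0) (nat_lit 109284755866) (nat_lit 152) (nat_lit 1096309004842) (nat_lit 76) (nat_lit 223461375388) (nat_lit 51) (nat_lit 5) (nat_lit 53) (nat_lit 5) (nat_lit 52) (nat_lit 4) (nat_lit 492) (nat_lit 452) (nat_lit 256)) (XT.lf (nat_lit 0) (nat_lit 258971717136) (nat_lit 76) (nat_lit 511425599450) (nat_lit 152) (nat_lit 735313621840) (nat_lit 50) (nat_lit 5) (nat_lit 51) (nat_lit 5) (nat_lit 52)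 (nat_lit 4) (nat_lit 493) (nat_lit 452) (nat_lit 255)))) (XT.nd (nat_lit 156) (nat_lit 152) (nat_lit 0) (XT.nd (nat_lit 78) (nat_lit 152) (nat_lit 0) (XT.lf (nat_lit 0) (nat_lit 175875205201) (nat_lit 76) (nat_lit 1334399767757) (nat_lit 76) (nat_lit 76930427445) (nat_lit 49) (nat_lit 4) (nat_lit 50) (nat_lit 5) (nat_lit 50) (nat_lit 4) (nat_lit 494) (nat_lit 452) (nat_lit 254)) (XT.lf (nat_lit 0) (nat_lit 65915504027) (nat_lit 76) (nat_lit 579638089529) (nat_lit 152) (nat_lit 1027584499560) (nat_lit 47) (nat_lit 5) (nat_lit 48) (nat_lit 5) (nat_lit 49) (nat_lit 4) (nat_lit 495) (nat_lit 452) (nat_lit 253))) (XT.nd (nat_lit 78) (nat_lit 152) (nat_lit 0) (XT.lf (nat_lit 0) (nat_lit 1451841443238) (nat_lit 152) (nat_lit 58354327418) (nat_lit 0) (nat_lit 254251554140) (nat_lit 47) (nat_lit 5) (nat_lit 49) (nat_lit 4) (nat_lit 47) (nat_lit 4) (nat_lit 496) (nat_lit 452) (nat_lit 252)) (XT.lf (nat_lit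 0) (nat_lit 481101568579) (nat_lit 152) (nat_lit 211331691842) (nat_lit 76) (nat_lit 1168457290727) (nat_lit 45) (nat_lit 5) (nat_lit 47) (nat_lit 5) (nat_lit 46) (nat_lit 4) (nat_lit 497) (nat_lit 452) (nat_lit 251))))))))
noncomputable def xc113 : XT := (XT.nd (nat_lit 61152) (nat_lit 0) (nat_lit 228) (XT.nd (nat_lit 59982) (nat_lit 0) (nat_lit 2508) (XT.nd (nat_lit 59436) (nat_lit 0) (nat_lit 5928) (XT.nd (nat_lit 59124) (nat_lit 0) (nat_lit 7904) (XT.nd (nat_lit 58968) (nat_lit 0) (nat_lit 7828) (XT.lf (nat_lit 0) (nat_lit 1356629271296) (nat_lit 152) (nat_lit 390632499259) (nat_lit 0) (nat_lit 216067438529) (nat_lit 44) (nat_lit 5) (nat_lit 46) (nat_lit 4) (nat_lit 44) (nat_lit 4) (nat_lit 498) (nat_lit 452) (nat_lit 250)) (XT.nd (nat_lit 78) (nat_lit 0) (nat_lit 76) (XT.lf (nat_lit 0) (nat_lit 49875946396) (nat_lit 836) (nat_lit 35032830241) (nat_lit 836) (nat_lit 35032830241) (nat_lit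 147) (nat_lit 3) (nat_lit 158) (nat_lit 3) (nat_lit 158) (nat_lit 5) (nat_lit 453) (nat_lit 453) (nat_lit 294)) (XT.lf (nat_lit 0) (nat_lit 105973906944) (nat_lit 760) (nat_lit 125407986540) (nat_lit 836) (nat_lit 17985051630) (nat_lit 148) (nat_lit 5) (nat_lit 158) (nat_lit 5) (nat_lit 159) (nat_lit 5) (nat_lit 454) (nat_lit 453) (nat_lit 293)))) (XT.nd (nat_lit 156) (nat_lit 0) (nat_lit 152) (XT.nd (nat_lit 78) (nat_lit 0) (nat_lit 76) (XT.lf (nat_lit 76) (nat_lit 76008415500) (nat_lit 0) (nat_lit 41975736263) (nat_lit 836) (nat_lit 141360699766) (nat_lit 149) (nat_lit 5) (nat_lit 148) (nat_lit 5) (nat_lit 159) (nat_lit 5) (nat_lit 455) (nat_lit 453) (nat_lit 292)) (XT.lf (nat_lit 76) (nat_lit 26271189567) (nat_lit 0) (nat_lit 109852743201) (nat_lit 836) (nat_lit 133738621885) (nat_lit 150) (nat_lit 5) (nat_lit 149) (nat_lit 5) (nat_lit 160) (nat_lit 5) (nat_lit 456) (nat_lit 453) (nat_lit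 291))) (XT.nd (nat_lit 78) (nat_lit 0) (nat_lit 76) (XT.lf (nat_lit 0) (nat_lit 161148172541) (nat_lit 760) (nat_lit 24107623362) (nat_lit 836) (nat_lit 95694214334) (nat_lit 150) (nat_lit 5) (nat_lit 160) (nat_lit 5) (nat_lit 161) (nat_lit 5) (nat_lit 457) (nat_lit 453) (nat_lit 290)) (XT.lf (nat_lit 0) (nat_lit 193815636747) (nat_lit 760) (nat_lit 74984447380) (nat_lit 836) (nat_lit 23842313899) (nat_lit 151) (nat_lit 5) (nat_lit 161) (nat_lit 5) (nat_lit 162) (nat_lit 5) (nat_lit 458) (nat_lit 453) (nat_lit 289))))) (XT.nd (nat_lit 234) (nat_lit 1064) (nat_lit 0) (XT.nd (nat_lit 78) (nat_lit 1140) (nat_lit 0) (XT.lf (nat_lit 76) (nat_lit 176907879962) (nat_lit 0) (nat_lit 58501089023) (nat_lit 836) (nat_lit 69545584328) (nat_lit 152) (nat_lit 5) (nat_lit 151) (nat_lit 5) (nat_lit 162) (nat_lit 5) (nat_lit 459) (nat_lit 453) (nat_lit 288)) (XT.nd (nat_lit 78) (nat_lit 456) (nat_lit 0) (XT.lf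 (nat_lit 0) (nat_lit 135113175685) (nat_lit 760) (nat_lit 151286217135) (nat_lit 836) (nat_lit 31548806970) (nat_lit 142) (nat_lit 5) (nat_lit 152) (nat_lit 5) (nat_lit 153) (nat_lit 5) (nat_lit 460) (nat_lit 453) (nat_lit 287)) (XT.lf (nat_lit 0) (nat_lit 15151237026) (nat_lit 456) (nat_lit 239124951077) (nat_lit 76) (nat_lit 77399383885) (nat_lit 136) (nat_lit 5) (nat_lit 142) (nat_lit 5) (nat_lit 137) (nat_lit 5) (nat_lit 461) (nat_lit 453) (nat_lit 286)))) (XT.nd (nat_lit 156) (nat_lit 304) (nat_lit 0) (XT.nd (nat_lit 78) (nat_lit 380) (nat_lit 0) (XT.lf (nat_lit 0) (nat_lit 48573612560) (nat_lit 380) (nat_lit 22469433417) (nat_lit 456) (nat_lit 275104174424) (nat_lit 131) (nat_lit 5) (nat_lit 136) (nat_lit 5) (nat_lit 137) (nat_lit 5) (nat_lit 462) (nat_lit 453) (nat_lit 285)) (XT.lf (nat_lit 0) (nat_lit 2719579247) (nat_lit 380) (nat_lit 136520539008) (nat_lit 456) (nat_lit 222144786517)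 (nat_lit 126) (nat_lit 5) (nat_lit 131) (nat_lit 5) (nat_lit 132) (nat_lit 5) (nat_lit 463) (nat_lit 453) (nat_lit 284))) (XT.nd (nat_lit 78) (nat_lit 304) (nat_lit 0) (XT.lf (nat_lit 0) (nat_lit 220304305021) (nat_lit 456) (nat_lit 42147964420) (nat_lit 76) (nat_lit 115018767028) (nat_lit 126) (nat_lit 5) (nat_lit 132) (nat_lit 5) (nat_lit 127) (nat_lit 5) (nat_lit 464) (nat_lit 453) (nat_lit 283)) (XT.lf (nat_lit 0) (nat_lit 307221711385) (nat_lit 304) (nat_lit 7730402290) (nat_lit 380) (nat_lit 79537020691) (nat_lit 122) (nat_lit 5) (nat_lit 126) (nat_lit 5) (nat_lit 127) (nat_lit 5) (nat_lit 465) (nat_lit 453) (nat_lit 282)))))) (XT.nd (nat_lit 546) (nat_lit 1444) (nat_lit 0) (XT.nd (nat_lit 234) (nat_lit 988) (nat_lit 0) (XT.nd (nat_lit 78) (nat_lit 608) (nat_lit 0) (XT.lf (nat_lit 0) (nat_lit 13576817467) (nat_lit 380) (nat_lit 134701850376) (nat_lit 76) (nat_lit 264116079337) (nat_lit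 117) (nat_lit 5) (nat_lit 122) (nat_lit 5) (nat_lit 118) (nat_lit 5) (nat_lit 466) (nat_lit 453) (nat_lit 281)) (XT.nd (nat_lit 78) (nat_lit 304) (nat_lit 0) (XT.lf (nat_lit 0) (nat_lit 119040009514) (nat_lit 380) (nat_lit 183652564651) (nat_lit 76) (nat_lit 128590698756) (nat_lit 113) (nat_lit 5) (nat_lit 118) (nat_lit 5) (nat_lit 114) (nat_lit 5) (nat_lit 467) (nat_lit 453) (nat_lit 280)) (XT.lf (nat_lit 0) (nat_lit 218240723314) (nat_lit 304) (nat_lit 22991939520) (nat_lit 380) (nat_lit 210035597601) (nat_lit 109) (nat_lit 5) (nat_lit 113) (nat_lit 5) (nat_lit 114) (nat_lit 5) (nat_lit 468) (nat_lit 453) (nat_lit 279)))) (XT.nd (nat_lit 156) (nat_lit 456) (nat_lit 0) (XT.nd (nat_lit 78) (nat_lit 304) (nat_lit 0) (XT.lf (nat_lit 0) (nat_lit 187750921033) (nat_lit 228) (nat_lit 195989900188) (nat_lit 304) (nat_lit 88584221097) (nat_lit 106) (nat_lit 5) (nat_lit 109) (nat_lit 5) (nat_lit 110)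 (nat_lit 5) (nat_lit 469) (nat_lit 453) (nat_lit 278)) (XT.lf (nat_lit 0) (nat_lit 49965591025) (nat_lit 304) (nat_lit 336782427585) (nat_lit 76) (nat_lit 107847843147) (nat_lit 102) (nat_lit 5) (nat_lit 106) (nat_lit 5) (nat_lit 103) (nat_lit 5) (nat_lit 470) (nat_lit 453) (nat_lit 277))) (XT.nd (nat_lit 78) (nat_lit 228) (nat_lit 0) (XT.lf (nat_lit 0) (nat_lit 126523289182) (nat_lit 228) (nat_lit 80332455544) (nat_lit 304) (nat_lit 311201996205) (nat_lit 99) (nat_lit 5) (nat_lit 102) (nat_lit 5) (nat_lit 103) (nat_lit 5) (nat_lit 471) (nat_lit 453) (nat_lit 276)) (XT.lf (nat_lit 0) (nat_lit 94843415164) (nat_lit 228) (nat_lit 292809619285) (nat_lit 304) (nat_lit 155175739810) (nat_lit 96) (nat_lit 5) (nat_lit 99) (nat_lit 5) (nat_lit 100) (nat_lit 5) (nat_lit 472) (nat_lit 453) (nat_lit 275))))) (XT.nd (nat_lit 312) (nat_lit 760) (nat_lit 0) (XT.nd (nat_lit 156) (nat_lit 228) (nat_lit 0) (XT.nd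 (nat_lit 78) (nat_lit 228) (nat_lit 0) (XT.lf (nat_lit 0) (nat_lit 22884322031) (nat_lit 228) (nat_lit 504490717531) (nat_lit 76) (nat_lit 41697121122) (nat_lit 93) (nat_lit 5) (nat_lit 96) (nat_lit 5) (nat_lit 94) (nat_lit 5) (nat_lit 473) (nat_lit 453) (nat_lit 274)) (XT.lf (nat_lit 0) (nat_lit 30417856540) (nat_lit 228) (nat_lit 192751109921) (nat_lit 304) (nat_lit 373448039355) (nat_lit 90) (nat_lit 5) (nat_lit 93) (nat_lit 5) (nat_lit 94) (nat_lit 5) (nat_lit 474) (nat_lit 453) (nat_lit 273))) (XT.nd (nat_lit 78) (nat_lit 228) (nat_lit 0) (XT.lf (nat_lit 0) (nat_lit 451041278244) (nat_lit 304) (nat_lit 2568864432) (nat_lit 76) (nat_lit 172177051097) (nat_lit 90) (nat_lit 5) (nat_lit 94) (nat_lit 5) (nat_lit 91) (nat_lit 5) (nat_lit 475) (nat_lit 453) (nat_lit 272)) (XT.lf (nat_lit 0) (nat_lit 51763849775) (nat_lit 228) (nat_lit 34640906608) (nat_lit 76) (nat_lit 570195780195) (nat_lit 87)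 (nat_lit 5) (nat_lit 90) (nat_lit 5) (nat_lit 88) (nat_lit 5) (nat_lit 476) (nat_lit 453) (nat_lit 271)))) (XT.nd (nat_lit 156) (nat_lit 380) (nat_lit 0) (XT.nd (nat_lit 78) (nat_lit 152) (nat_lit 0) (XT.lf (nat_lit 0) (nat_lit 305188229593) (nat_lit 304) (nat_lit 70614165715) (nat_lit 76) (nat_lit 313187513198) (nat_lit 84) (nat_lit 5) (nat_lit 88) (nat_lit 5) (nat_lit 85) (nat_lit 5) (nat_lit 477) (nat_lit 453) (nat_lit 270)) (XT.lf (nat_lit 0) (nat_lit 591072982303) (nat_lit 228) (nat_lit 104546388234) (nat_lit 76) (nat_lit 27741738532) (nat_lit 82) (nat_lit 5) (nat_lit 85) (nat_lit 5) (nat_lit 83) (nat_lit 5) (nat_lit 478) (nat_lit 453) (nat_lit 269))) (XT.nd (nat_lit 78) (nat_lit 152) (nat_lit 0) (XT.lf (nat_lit 0) (nat_lit 152419813593) (nat_lit 228) (nat_lit 143125456219) (nat_lit 76) (nat_lit 463951293261) (nat_lit 79) (nat_lit 5) (nat_lit 82) (nat_lit 5) (nat_lit 80) (nat_lit 5) (nat_lit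 479) (nat_lit 453) (nat_lit 268)) (XT.lf (nat_lit 0) (nat_lit 469184488226) (nat_lit 228) (nat_lit 182417582330) (nat_lit 76) (nat_lit 146116608422) (nat_lit 77) (nat_lit 5) (nat_lit 80) (nat_lit 5) (nat_lit 78) (nat_lit 5) (nat_lit 480) (nat_lit 453) (nat_lit 267))))))) (XT.nd (nat_lit 1170) (nat_lit 152) (nat_lit 0) (XT.nd (nat_lit 546) (nat_lit 988) (nat_lit 0) (XT.nd (nat_lit 234) (nat_lit 608) (nat_lit 0) (XT.nd (nat_lit 78) (nat_lit 380) (nat_lit 0) (XT.lf (nat_lit 0) (nat_lit 615308156649) (nat_lit 152) (nat_lit 213106279237) (nat_lit 228) (nat_lit 9727923321) (nat_lit 75) (nat_lit 5) (nat_lit 77) (nat_lit 5) (nat_lit 78) (nat_lit 5) (nat_lit 481) (nat_lit 453) (nat_lit 266)) (XT.nd (nat_lit 78) (nat_lit 152) (nat_lit 0) (XT.lf (nat_lit 0) (nat_lit 341086839172) (nat_lit 228) (nat_lit 269088864494) (nat_lit 76) (nat_lit 270502404684) (nat_lit 72) (nat_lit 5) (nat_lit 75) (nat_lit 5) (nat_lit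 73) (nat_lit 5) (nat_lit 482) (nat_lit 453) (nat_lit 265)) (XT.lf (nat_lit 0) (nat_lit 610004113408) (nat_lit 152) (nat_lit 126688862542) (nat_lit 228) (nat_lit 189062417154) (nat_lit 70) (nat_lit 5) (nat_lit 72) (nat_lit 5) (nat_lit 73) (nat_lit 5) (nat_lit 483) (nat_lit 453) (nat_lit 264)))) (XT.nd (nat_lit 156) (nat_lit 304) (nat_lit 0) (XT.nd (nat_lit 78) (nat_lit 152) (nat_lit 0) (XT.lf (nat_lit 0) (nat_lit 204210077447) (nat_lit 152) (nat_lit 368672242783) (nat_lit 76) (nat_lit 400370262394) (nat_lit 68) (nat_lit 5) (nat_lit 70) (nat_lit 5) (nat_lit 69) (nat_lit 5) (nat_lit 484) (nat_lit 453) (nat_lit 263)) (XT.lf (nat_lit 0) (nat_lit 599306500674) (nat_lit 152) (nat_lit 40185971294) (nat_lit 228) (nat_lit 384043509823) (nat_lit 66) (nat_lit 5) (nat_lit 68) (nat_lit 5) (nat_lit 69) (nat_lit 5) (nat_lit 485) (nat_lit 453) (nat_lit 262))) (XT.nd (nat_lit 78) (nat_lit 152) (nat_lit 0) (XT.lf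 (nat_lit 0) (nat_lit 55240630521) (nat_lit 152) (nat_lit 486710265647) (nat_lit 76) (nat_lit 534641287348) (nat_lit 64) (nat_lit 5) (nat_lit 66) (nat_lit 5) (nat_lit 65) (nat_lit 5) (nat_lit 486) (nat_lit 453) (nat_lit 261)) (XT.lf (nat_lit 0) (nat_lit 534297356476) (nat_lit 228) (nat_lit 555429022197) (nat_lit 76) (nat_lit 42947469535) (nat_lit 62) (nat_lit 5) (nat_lit 65) (nat_lit 5) (nat_lit 63) (nat_lit 4) (nat_lit 487) (nat_lit 453) (nat_lit 260))))) (XT.nd (nat_lit 312) (nat_lit 380) (nat_lit 0) (XT.nd (nat_lit 156) (nat_lit 304) (nat_lit 0) (XT.nd (nat_lit 78) (nat_lit 228) (nat_lit 0) (XT.lf (nat_lit 0) (nat_lit 559508902735) (nat_lit 76) (nat_lit 518660633369) (nat_lit 152) (nat_lit 113747964191) (nat_lit 61) (nat_lit 5) (nat_lit 62) (nat_lit 5) (nat_lit 63) (nat_lit 4) (nat_lit 488) (nat_lit 453) (nat_lit 259)) (XT.lf (nat_lit 0) (nat_lit 416720034637) (nat_lit 228) (nat_lit 717856011260)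 (nat_lit 76) (nat_lit 119995780046) (nat_lit 58) (nat_lit 5) (nat_lit 61) (nat_lit 5) (nat_lit 59) (nat_lit 4) (nat_lit 489) (nat_lit 453) (nat_lit 258))) (XT.nd (nat_lit 78) (nat_lit 228) (nat_lit 0) (XT.lf (nat_lit 0) (nat_lit 505603862044) (nat_lit 76) (nat_lit 507925884136) (nat_lit 152) (nat_lit 307221043056) (nat_lit 57) (nat_lit 5) (nat_lit 58) (nat_lit 5) (nat_lit 59) (nat_lit 4) (nat_lit 490) (nat_lit 453) (nat_lit 257)) (XT.lf (nat_lit 0) (nat_lit 280458827479) (nat_lit 228) (nat_lit 922328118303) (nat_lit 76) (nat_lit 188074190299) (nat_lit 54) (nat_lit 5) (nat_lit 57) (nat_lit 5) (nat_lit 55) (nat_lit 4) (nat_lit 491) (nat_lit 453) (nat_lit 256)))) (XT.nd (nat_lit 156) (nat_lit 152) (nat_lit 0) (XT.nd (nat_lit 78) (nat_lit 152) (nat_lit 0) (XT.lf (nat_lit 0) (nat_lit 417531567602) (nat_lit 76) (nat_lit 516517364647) (nat_lit 152) (nat_lit 530796589227) (nat_lit 53) (nat_lit 5) (nat_lit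 54) (nat_lit 5) (nat_lit 55) (nat_lit 4) (nat_lit 492) (nat_lit 453) (nat_lit 255)) (XT.lf (nat_lit 0) (nat_lit 118028123678) (nat_lit 152) (nat_lit 1184012603833) (nat_lit 76) (nat_lit 241338790089) (nat_lit 51) (nat_lit 5) (nat_lit 53) (nat_lit 5) (nat_lit 52) (nat_lit 4) (nat_lit 493) (nat_lit 453) (nat_lit 254))) (XT.nd (nat_lit 78) (nat_lit 76) (nat_lit 0) (XT.lf (nat_lit 0) (nat_lit 279690527168) (nat_lit 76) (nat_lit 552339135328) (nat_lit 152) (nat_lit 794138122961) (nat_lit 50) (nat_lit 5) (nat_lit 51) (nat_lit 5) (nat_lit 52) (nat_lit 4) (nat_lit 494) (nat_lit 453) (nat_lit 253)) (XT.lf (nat_lit 0) (nat_lit 189946266840) (nat_lit 76) (nat_lit 1441151246736) (nat_lit 76) (nat_lit 83084291709) (nat_lit 49) (nat_lit 4) (nat_lit 50) (nat_lit 5) (nat_lit 50) (nat_lit 4) (nat_lit 495) (nat_lit 453) (nat_lit 252)))))) (XT.nd (nat_lit 59592) (nat_lit 0) (nat_lit 5700) (XT.nd (nat_lit 59280)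 (nat_lit 0) (nat_lit 7676) (XT.nd (nat_lit 78) (nat_lit 0) (nat_lit 0) (XT.lf (nat_lit 0) (nat_lit 71189761608) (nat_lit 76) (nat_lit 626008646140) (nat_lit 152) (nat_lit 1109790706470) (nat_lit 47) (nat_lit 5) (nat_lit 48) (nat_lit 5) (nat_lit 49) (nat_lit 4) (nat_lit 496) (nat_lit 453) (nat_lit 251)) (XT.nd (nat_lit 59124) (nat_lit 0) (nat_lit 7600) (XT.lf (nat_lit 0) (nat_lit 1567989253481) (nat_lit 152) (nat_lit 63021714401) (nat_lit 0) (nat_lit 274592118148) (nat_lit 47) (nat_lit 5) (nat_lit 49) (nat_lit 4) (nat_lit 47) (nat_lit 4) (nat_lit 497) (nat_lit 453) (nat_lit 250)) (XT.lf (nat_lit 0) (nat_lit 53867734695) (nat_lit 836) (nat_lit 37834557420) (nat_lit 836) (nat_lit 37834557420) (nat_lit 147) (nat_lit 3) (nat_lit 158) (nat_lit 3) (nat_lit 158) (nat_lit 5) (nat_lit 454) (nat_lit 454) (nat_lit 292)))) (XT.nd (nat_lit 156) (nat_lit 0) (nat_lit 76) (XT.nd (nat_lit 78) (nat_lit 0) (nat_lit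 0) (XT.lf (nat_lit 0) (nat_lit 114454994741) (nat_lit 760) (nat_lit 135438721660) (nat_lit 836) (nat_lit 19422425070) (nat_lit 148) (nat_lit 5) (nat_lit 158) (nat_lit 5) (nat_lit 159) (nat_lit 5) (nat_lit 455) (nat_lit 454) (nat_lit 291)) (XT.lf (nat_lit 76) (nat_lit 82090909807) (nat_lit 0) (nat_lit 45334942568) (nat_lit 836) (nat_lit 152666438400) (nat_lit 149) (nat_lit 5) (nat_lit 148) (nat_lit 5) (nat_lit 159) (nat_lit 5) (nat_lit 456) (nat_lit 454) (nat_lit 290))) (XT.nd (nat_lit 78) (nat_lit 0) (nat_lit 76) (XT.lf (nat_lit 76) (nat_lit 28374786201) (nat_lit 0) (nat_lit 118641822872) (nat_lit 836) (nat_lit 144434811448) (nat_lit 150) (nat_lit 5) (nat_lit 149) (nat_lit 5) (nat_lit 160) (nat_lit 5) (nat_lit 457) (nat_lit 454) (nat_lit 289)) (XT.lf (nat_lit 0) (nat_lit 174042571023) (nat_lit 760) (nat_lit 26034331932) (nat_lit 836) (nat_lit 103348980478) (nat_lit 150) (nat_lit 5) (nat_lit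 160) (nat_lit 5) (nat_lit 161) (nat_lit 5) (nat_lit 458) (nat_lit 454) (nat_lit 288))))) (XT.nd (nat_lit 312) (nat_lit 1064) (nat_lit 0) (XT.nd (nat_lit 156) (nat_lit 1140) (nat_lit 0) (XT.nd (nat_lit 78) (nat_lit 0) (nat_lit 0) (XT.lf (nat_lit 0) (nat_lit 209323263430) (nat_lit 760) (nat_lit 80981256074) (nat_lit 836) (nat_lit 25749151216) (nat_lit 151) (nat_lit 5) (nat_lit 161) (nat_lit 5) (nat_lit 162) (nat_lit 5) (nat_lit 459) (nat_lit 454) (nat_lit 287)) (XT.lf (nat_lit 76) (nat_lit 191062372837) (nat_lit 0) (nat_lit 63181542508) (nat_lit 836) (nat_lit 75106890457) (nat_lit 152) (nat_lit 5) (nat_lit 151) (nat_lit 5) (nat_lit 162) (nat_lit 5) (nat_lit 460) (nat_lit 454) (nat_lit 286))) (XT.nd (nat_lit 78) (nat_lit 456) (nat_lit 0) (XT.lf (nat_lit 0) (nat_lit 145924123667) (nat_lit 760) (nat_lit 163389308593) (nat_lit 836) (nat_lit 34070518804) (nat_lit 142) (nat_lit 5) (nat_lit 152) (nat_lit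 5) (nat_lit 153) (nat_lit 5) (nat_lit 461) (nat_lit 454) (nat_lit 285)) (XT.lf (nat_lit 0) (nat_lit 16365328838) (nat_lit 456) (nat_lit 258252966321) (nat_lit 76) (nat_lit 83591222673) (nat_lit 136) (nat_lit 5) (nat_lit 142) (nat_lit 5) (nat_lit 137) (nat_lit 5) (nat_lit 462) (nat_lit 454) (nat_lit 284)))) (XT.nd (nat_lit 156) (nat_lit 304) (nat_lit 0) (XT.nd (nat_lit 78) (nat_lit 380) (nat_lit 0) (XT.lf (nat_lit 0) (nat_lit 52461396322) (nat_lit 380) (nat_lit 24266968148) (nat_lit 456) (nat_lit 297110539571) (nat_lit 131) (nat_lit 5) (nat_lit 136) (nat_lit 5) (nat_lit 137) (nat_lit 5) (nat_lit 463) (nat_lit 454) (nat_lit 283)) (XT.lf (nat_lit 0) (nat_lit 2939047610) (nat_lit 380) (nat_lit 147442046028) (nat_lit 456) (nat_lit 239914514985) (nat_lit 126) (nat_lit 5) (nat_lit 131) (nat_lit 5) (nat_lit 132) (nat_lit 5) (nat_lit 464) (nat_lit 454) (nat_lit 282))) (XT.nd (nat_lit 78) (nat_lit 304)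 (nat_lit 0) (XT.lf (nat_lit 0) (nat_lit 237930286504) (nat_lit 456) (nat_lit 45517960436) (nat_lit 76) (nat_lit 124220390376) (nat_lit 126) (nat_lit 5) (nat_lit 132) (nat_lit 5) (nat_lit 127) (nat_lit 5) (nat_lit 465) (nat_lit 454) (nat_lit 281)) (XT.lf (nat_lit 0) (nat_lit 331801209419) (nat_lit 304) (nat_lit 8348616662) (nat_lit 380) (nat_lit 85898361668) (nat_lit 122) (nat_lit 5) (nat_lit 126) (nat_lit 5) (nat_lit 127) (nat_lit 5) (nat_lit 466) (nat_lit 454) (nat_lit 280))))))))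
noncomputable def xc114 : XT := (XT.nd (nat_lit 2262) (nat_lit 228) (nat_lit 0) (XT.nd (nat_lit 1092) (nat_lit 2204) (nat_lit 0) (XT.nd (nat_lit 546) (nat_lit 1292) (nat_lit 0) (XT.nd (nat_lit 234) (nat_lit 988) (nat_lit 0) (XT.nd (nat_lit 78) (nat_lit 608) (nat_lit 0) (XT.lf (nat_lit 0) (nat_lit 14664446519) (nat_lit 380) (nat_lit 145476193835) (nat_lit 76) (nat_lit 285245612243) (nat_lit 117) (nat_lit 5) (nat_lit 122) (nat_lit 5) (nat_lit 118) (nat_lit 5) (nat_lit 467) (nat_lit 454) (nat_lit 279)) (XT.nd (nat_lit 78) (nat_lit 304) (nat_lit 0) (XT.lf (nat_lit 0) (nat_lit 128564616060) (nat_lit 380) (nat_lit 198342978558) (nat_lit 76) (nat_lit 138878269684) (nat_lit 113) (nat_lit 5) (nat_lit 118) (nat_lit 5) (nat_lit 114) (nat_lit 5) (nat_lit 468) (nat_lit 454) (nat_lit 278)) (XT.lf (nat_lit 0) (nat_lit 235701694598) (nat_lit 304) (nat_lit 24830909667) (nat_lit 380) (nat_lit 226837050434) (nat_lit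 109) (nat_lit 5) (nat_lit 113) (nat_lit 5) (nat_lit 114) (nat_lit 5) (nat_lit 469) (nat_lit 454) (nat_lit 277)))) (XT.nd (nat_lit 156) (nat_lit 456) (nat_lit 0) (XT.nd (nat_lit 78) (nat_lit 304) (nat_lit 0) (XT.lf (nat_lit 0) (nat_lit 202772691600) (nat_lit 228) (nat_lit 211668657381) (nat_lit 304) (nat_lit 95669633480) (nat_lit 106) (nat_lit 5) (nat_lit 109) (nat_lit 5) (nat_lit 110) (nat_lit 5) (nat_lit 470) (nat_lit 454) (nat_lit 276)) (XT.lf (nat_lit 0) (nat_lit 53964059170) (nat_lit 304) (nat_lit 363723304160) (nat_lit 76) (nat_lit 116476106201) (nat_lit 102) (nat_lit 5) (nat_lit 106) (nat_lit 5) (nat_lit 103) (nat_lit 5) (nat_lit 471) (nat_lit 454) (nat_lit 275))) (XT.nd (nat_lit 78) (nat_lit 228) (nat_lit 0) (XT.lf (nat_lit 0) (nat_lit 136646795302) (nat_lit 228) (nat_lit 86758565082) (nat_lit 304) (nat_lit 336096941903) (nat_lit 99) (nat_lit 5) (nat_lit 102) (nat_lit 5) (nat_lit 103)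 (nat_lit 5) (nat_lit 472) (nat_lit 454) (nat_lit 274)) (XT.lf (nat_lit 0) (nat_lit 102432508090) (nat_lit 228) (nat_lit 316233871885) (nat_lit 304) (nat_lit 167588640979) (nat_lit 96) (nat_lit 5) (nat_lit 99) (nat_lit 5) (nat_lit 100) (nat_lit 5) (nat_lit 473) (nat_lit 454) (nat_lit 273))))) (XT.nd (nat_lit 234) (nat_lit 836) (nat_lit 0) (XT.nd (nat_lit 78) (nat_lit 228) (nat_lit 0) (XT.lf (nat_lit 0) (nat_lit 24716138609) (nat_lit 228) (nat_lit 544848344988) (nat_lit 76) (nat_lit 45033396307) (nat_lit 93) (nat_lit 5) (nat_lit 96) (nat_lit 5) (nat_lit 94) (nat_lit 5) (nat_lit 474) (nat_lit 454) (nat_lit 272)) (XT.nd (nat_lit 78) (nat_lit 0) (nat_lit 0) (XT.lf (nat_lit 0) (nat_lit 32852844173) (nat_lit 228) (nat_lit 208170655443) (nat_lit 304) (nat_lit 403322815787) (nat_lit 90) (nat_lit 5) (nat_lit 93) (nat_lit 5) (nat_lit 94) (nat_lit 5) (nat_lit 475) (nat_lit 454) (nat_lit 271)) (XT.lf (nat_lit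 0) (nat_lit 487125528949) (nat_lit 304) (nat_lit 2772890710) (nat_lit 76) (nat_lit 185951702114) (nat_lit 90) (nat_lit 5) (nat_lit 94) (nat_lit 5) (nat_lit 91) (nat_lit 5) (nat_lit 476) (nat_lit 454) (nat_lit 270)))) (XT.nd (nat_lit 156) (nat_lit 380) (nat_lit 0) (XT.nd (nat_lit 78) (nat_lit 228) (nat_lit 0) (XT.lf (nat_lit 0) (nat_lit 55905872924) (nat_lit 228) (nat_lit 37410730374) (nat_lit 76) (nat_lit 615811930378) (nat_lit 87) (nat_lit 5) (nat_lit 90) (nat_lit 5) (nat_lit 88) (nat_lit 5) (nat_lit 477) (nat_lit 454) (nat_lit 269)) (XT.lf (nat_lit 0) (nat_lit 329604165042) (nat_lit 304) (nat_lit 76261877724) (nat_lit 76) (nat_lit 338243014502) (nat_lit 84) (nat_lit 5) (nat_lit 88) (nat_lit 5) (nat_lit 85) (nat_lit 5) (nat_lit 478) (nat_lit 454) (nat_lit 268))) (XT.nd (nat_lit 78) (nat_lit 228) (nat_lit 0) (XT.lf (nat_lit 0) (nat_lit 638359662439) (nat_lit 228) (nat_lit 112908706297) (nat_lit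 76) (nat_lit 29961586920) (nat_lit 82) (nat_lit 5) (nat_lit 85) (nat_lit 5) (nat_lit 83) (nat_lit 5) (nat_lit 479) (nat_lit 454) (nat_lit 267)) (XT.lf (nat_lit 0) (nat_lit 164614211868) (nat_lit 228) (nat_lit 154574133317) (nat_lit 76) (nat_lit 501067902221) (nat_lit 79) (nat_lit 5) (nat_lit 82) (nat_lit 5) (nat_lit 80) (nat_lit 5) (nat_lit 480) (nat_lit 454) (nat_lit 266)))))) (XT.nd (nat_lit 546) (nat_lit 1064) (nat_lit 0) (XT.nd (nat_lit 234) (nat_lit 608) (nat_lit 0) (XT.nd (nat_lit 78) (nat_lit 380) (nat_lit 0) (XT.lf (nat_lit 0) (nat_lit 506720028767) (nat_lit 228) (nat_lit 197009658112) (nat_lit 76) (nat_lit 157806447294) (nat_lit 77) (nat_lit 5) (nat_lit 80) (nat_lit 5) (nat_lit 78) (nat_lit 5) (nat_lit 481) (nat_lit 454) (nat_lit 265)) (XT.nd (nat_lit 78) (nat_lit 228) (nat_lit 0) (XT.lf (nat_lit 0) (nat_lit 664534082150) (nat_lit 152) (nat_lit 230154252077) (nat_lit 228) (nat_lit 10505376498)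 (nat_lit 75) (nat_lit 5) (nat_lit 77) (nat_lit 5) (nat_lit 78) (nat_lit 5) (nat_lit 482) (nat_lit 454) (nat_lit 264)) (XT.lf (nat_lit 0) (nat_lit 368374513572) (nat_lit 228) (nat_lit 290614704225) (nat_lit 76) (nat_lit 292143102818) (nat_lit 72) (nat_lit 5) (nat_lit 75) (nat_lit 5) (nat_lit 73) (nat_lit 5) (nat_lit 483) (nat_lit 454) (nat_lit 263)))) (XT.nd (nat_lit 156) (nat_lit 304) (nat_lit 0) (XT.nd (nat_lit 78) (nat_lit 152) (nat_lit 0) (XT.lf (nat_lit 0) (nat_lit 658805656742) (nat_lit 152) (nat_lit 136823449636) (nat_lit 228) (nat_lit 204186683518) (nat_lit 70) (nat_lit 5) (nat_lit 72) (nat_lit 5) (nat_lit 73) (nat_lit 5) (nat_lit 484) (nat_lit 454) (nat_lit 262)) (XT.lf (nat_lit 0) (nat_lit 220547561755) (nat_lit 152) (nat_lit 398164812906) (nat_lit 76) (nat_lit 432400380634) (nat_lit 68) (nat_lit 5) (nat_lit 70) (nat_lit 5) (nat_lit 69) (nat_lit 5) (nat_lit 485) (nat_lit 454) (nat_lit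 261))) (XT.nd (nat_lit 78) (nat_lit 152) (nat_lit 0) (XT.lf (nat_lit 0) (nat_lit 647252177473) (nat_lit 152) (nat_lit 43400338194) (nat_lit 228) (nat_lit 414766312339) (nat_lit 66) (nat_lit 5) (nat_lit 68) (nat_lit 5) (nat_lit 69) (nat_lit 5) (nat_lit 486) (nat_lit 454) (nat_lit 260)) (XT.lf (nat_lit 0) (nat_lit 59660514322) (nat_lit 152) (nat_lit 525645936161) (nat_lit 76) (nat_lit 577413076018) (nat_lit 64) (nat_lit 5) (nat_lit 66) (nat_lit 5) (nat_lit 65) (nat_lit 5) (nat_lit 487) (nat_lit 454) (nat_lit 259))))) (XT.nd (nat_lit 312) (nat_lit 532) (nat_lit 0) (XT.nd (nat_lit 156) (nat_lit 304) (nat_lit 0) (XT.nd (nat_lit 78) (nat_lit 76) (nat_lit 0) (XT.lf (nat_lit 0) (nat_lit 577041756385) (nat_lit 228) (nat_lit 599862220799) (nat_lit 76) (nat_lit 46383748286) (nat_lit 62) (nat_lit 5) (nat_lit 65) (nat_lit 5) (nat_lit 63) (nat_lit 4) (nat_lit 488) (nat_lit 454) (nat_lit 258)) (XT.lf (nat_lit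 0) (nat_lit 604270689316) (nat_lit 76) (nat_lit 560152992554) (nat_lit 152) (nat_lit 122847189283) (nat_lit 61) (nat_lit 5) (nat_lit 62) (nat_lit 5) (nat_lit 63) (nat_lit 4) (nat_lit 489) (nat_lit 454) (nat_lit 257))) (XT.nd (nat_lit 78) (nat_lit 76) (nat_lit 0) (XT.lf (nat_lit 0) (nat_lit 450058209832) (nat_lit 228) (nat_lit 775283424983) (nat_lit 76) (nat_lit 129595908562) (nat_lit 58) (nat_lit 5) (nat_lit 61) (nat_lit 5) (nat_lit 59) (nat_lit 4) (nat_lit 490) (nat_lit 454) (nat_lit 256)) (XT.lf (nat_lit 0) (nat_lit 546053191806) (nat_lit 76) (nat_lit 548559480028) (nat_lit 152) (nat_lit 331798153224) (nat_lit 57) (nat_lit 5) (nat_lit 58) (nat_lit 5) (nat_lit 59) (nat_lit 4) (nat_lit 491) (nat_lit 454) (nat_lit 255)))) (XT.nd (nat_lit 156) (nat_lit 228) (nat_lit 0) (XT.nd (nat_lit 78) (nat_lit 76) (nat_lit 0) (XT.lf (nat_lit 0) (nat_lit 302896070274) (nat_lit 228) (nat_lit 996113354533) (nat_lit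 76) (nat_lit 203120575313) (nat_lit 54) (nat_lit 5) (nat_lit 57) (nat_lit 5) (nat_lit 55) (nat_lit 4) (nat_lit 492) (nat_lit 454) (nat_lit 254)) (XT.lf (nat_lit 0) (nat_lit 450935062210) (nat_lit 76) (nat_lit 557838296599) (nat_lit 152) (nat_lit 573259778771) (nat_lit 53) (nat_lit 5) (nat_lit 54) (nat_lit 5) (nat_lit 55) (nat_lit 4) (nat_lit 493) (nat_lit 454) (nat_lit 253))) (XT.nd (nat_lit 78) (nat_lit 76) (nat_lit 0) (XT.lf (nat_lit 0) (nat_lit 127470877124) (nat_lit 152) (nat_lit 1278732650724) (nat_lit 76) (nat_lit 260646325970) (nat_lit 51) (nat_lit 5) (nat_lit 53) (nat_lit 5) (nat_lit 52) (nat_lit 4) (nat_lit 494) (nat_lit 454) (nat_lit 252)) (XT.lf (nat_lit 0) (nat_lit 302066688975) (nat_lit 76) (nat_lit 596525827129) (nat_lit 152) (nat_lit 857668668146) (nat_lit 50) (nat_lit 5) (nat_lit 51) (nat_lit 5) (nat_lit 52) (nat_lit 4) (nat_lit 495) (nat_lit 454) (nat_lit 251))))))) (XT.nd (nat_lit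 60294) (nat_lit 0) (nat_lit 2280) (XT.nd (nat_lit 59670) (nat_lit 0) (nat_lit 5700) (XT.nd (nat_lit 59358) (nat_lit 0) (nat_lit 7676) (XT.nd (nat_lit 78) (nat_lit 152) (nat_lit 0) (XT.lf (nat_lit 0) (nat_lit 205142864296) (nat_lit 76) (nat_lit 1556442915711) (nat_lit 76) (nat_lit 89730546421) (nat_lit 49) (nat_lit 4) (nat_lit 50) (nat_lit 5) (nat_lit 50) (nat_lit 4) (nat_lit 496) (nat_lit 454) (nat_lit 250)) (XT.nd (nat_lit 59202) (nat_lit 0) (nat_lit 7600) (XT.lf (nat_lit 0) (nat_lit 76885814672) (nat_lit 76) (nat_lit 676088917262) (nat_lit 152) (nat_lit 1198573488833) (nat_lit 47) (nat_lit 5) (nat_lit 48) (nat_lit 5) (nat_lit 49) (nat_lit 4) (nat_lit 497) (nat_lit 454) (nat_lit 249)) (XT.lf (nat_lit 0) (nat_lit 58178621738) (nat_lit 836) (nat_lit 40860551059) (nat_lit 836) (nat_lit 40860551059) (nat_lit 147) (nat_lit 3) (nat_lit 158) (nat_lit 3) (nat_lit 158) (nat_lit 5) (nat_lit 455) (nat_lit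 455) (nat_lit 290)))) (XT.nd (nat_lit 156) (nat_lit 0) (nat_lit 76) (XT.nd (nat_lit 78) (nat_lit 0) (nat_lit 0) (XT.lf (nat_lit 0) (nat_lit 123614116577) (nat_lit 760) (nat_lit 146272187188) (nat_lit 836) (nat_lit 20974992489) (nat_lit 148) (nat_lit 5) (nat_lit 158) (nat_lit 5) (nat_lit 159) (nat_lit 5) (nat_lit 456) (nat_lit 455) (nat_lit 289)) (XT.lf (nat_lit 76) (nat_lit 88659743863) (nat_lit 0) (nat_lit 48962721686) (nat_lit 836) (nat_lit 164877080849) (nat_lit 149) (nat_lit 5) (nat_lit 148) (nat_lit 5) (nat_lit 159) (nat_lit 5) (nat_lit 457) (nat_lit 455) (nat_lit 288))) (XT.nd (nat_lit 78) (nat_lit 0) (nat_lit 76) (XT.lf (nat_lit 76) (nat_lit 30646399300) (nat_lit 0) (nat_lit 128133906198) (nat_lit 836) (nat_lit 155987109920) (nat_lit 150) (nat_lit 5) (nat_lit 149) (nat_lit 5) (nat_lit 160) (nat_lit 5) (nat_lit 458) (nat_lit 455) (nat_lit 287)) (XT.lf (nat_lit 0) (nat_lit 187968158357)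 (nat_lit 760) (nat_lit 28115448428) (nat_lit 836) (nat_lit 111616237906) (nat_lit 150) (nat_lit 5) (nat_lit 160) (nat_lit 5) (nat_lit 161) (nat_lit 5) (nat_lit 459) (nat_lit 455) (nat_lit 286))))) (XT.nd (nat_lit 312) (nat_lit 1064) (nat_lit 0) (XT.nd (nat_lit 156) (nat_lit 1140) (nat_lit 0) (XT.nd (nat_lit 78) (nat_lit 0) (nat_lit 0) (XT.lf (nat_lit 0) (nat_lit 226071161321) (nat_lit 760) (nat_lit 87458087238) (nat_lit 836) (nat_lit 27808613668) (nat_lit 151) (nat_lit 5) (nat_lit 161) (nat_lit 5) (nat_lit 162) (nat_lit 5) (nat_lit 460) (nat_lit 455) (nat_lit 285)) (XT.lf (nat_lit 76) (nat_lit 206348959439) (nat_lit 0) (nat_lit 68236380005) (nat_lit 836) (nat_lit 81113434992) (nat_lit 152) (nat_lit 5) (nat_lit 151) (nat_lit 5) (nat_lit 162) (nat_lit 5) (nat_lit 461) (nat_lit 455) (nat_lit 284))) (XT.nd (nat_lit 78) (nat_lit 456) (nat_lit 0) (XT.lf (nat_lit 0) (nat_lit 157599677297) (nat_lit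 760) (nat_lit 176460619680) (nat_lit 836) (nat_lit 36794280400) (nat_lit 142) (nat_lit 5) (nat_lit 152) (nat_lit 5) (nat_lit 153) (nat_lit 5) (nat_lit 462) (nat_lit 455) (nat_lit 283)) (XT.lf (nat_lit 0) (nat_lit 17676263693) (nat_lit 456) (nat_lit 278911505374) (nat_lit 76) (nat_lit 90278424531) (nat_lit 136) (nat_lit 5) (nat_lit 142) (nat_lit 5) (nat_lit 137) (nat_lit 5) (nat_lit 463) (nat_lit 455) (nat_lit 282)))) (XT.nd (nat_lit 156) (nat_lit 304) (nat_lit 0) (XT.nd (nat_lit 78) (nat_lit 380) (nat_lit 0) (XT.lf (nat_lit 0) (nat_lit 56659932477) (nat_lit 380) (nat_lit 26208308502) (nat_lit 456) (nat_lit 320877694802) (nat_lit 131) (nat_lit 5) (nat_lit 136) (nat_lit 5) (nat_lit 137) (nat_lit 5) (nat_lit 464) (nat_lit 455) (nat_lit 281)) (XT.lf (nat_lit 0) (nat_lit 3175802097) (nat_lit 380) (nat_lit 159237293026) (nat_lit 456) (nat_lit 259106086290) (nat_lit 126) (nat_lit 5) (nat_lit 131) (nat_lit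 5) (nat_lit 132) (nat_lit 5) (nat_lit 465) (nat_lit 455) (nat_lit 280))) (XT.nd (nat_lit 78) (nat_lit 304) (nat_lit 0) (XT.lf (nat_lit 0) (nat_lit 256966112957) (nat_lit 456) (nat_lit 49157818792) (nat_lit 76) (nat_lit 134158126189) (nat_lit 126) (nat_lit 5) (nat_lit 132) (nat_lit 5) (nat_lit 127) (nat_lit 5) (nat_lit 466) (nat_lit 455) (nat_lit 279)) (XT.lf (nat_lit 0) (nat_lit 358346816053) (nat_lit 304) (nat_lit 9016319256) (nat_lit 380) (nat_lit 92768841131) (nat_lit 122) (nat_lit 5) (nat_lit 126) (nat_lit 5) (nat_lit 127) (nat_lit 5) (nat_lit 467) (nat_lit 455) (nat_lit 278)))))) (XT.nd (nat_lit 546) (nat_lit 1444) (nat_lit 0) (XT.nd (nat_lit 234) (nat_lit 988) (nat_lit 0) (XT.nd (nat_lit 78) (nat_lit 608) (nat_lit 0) (XT.lf (nat_lit 0) (nat_lit 15838874234) (nat_lit 380) (nat_lit 157112742212) (nat_lit 76) (nat_lit 308065472606) (nat_lit 117) (nat_lit 5) (nat_lit 122) (nat_lit 5) (nat_lit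 118) (nat_lit 5) (nat_lit 468) (nat_lit 455) (nat_lit 277)) (XT.nd (nat_lit 78) (nat_lit 304) (nat_lit 0) (XT.lf (nat_lit 0) (nat_lit 138850990579) (nat_lit 380) (nat_lit 214208881122) (nat_lit 76) (nat_lit 149988801344) (nat_lit 113) (nat_lit 5) (nat_lit 118) (nat_lit 5) (nat_lit 114) (nat_lit 5) (nat_lit 469) (nat_lit 455) (nat_lit 276)) (XT.lf (nat_lit 0) (nat_lit 254559299146) (nat_lit 304) (nat_lit 26817052352) (nat_lit 380) (nat_lit 244982818502) (nat_lit 109) (nat_lit 5) (nat_lit 113) (nat_lit 5) (nat_lit 114) (nat_lit 5) (nat_lit 470) (nat_lit 455) (nat_lit 275)))) (XT.nd (nat_lit 156) (nat_lit 456) (nat_lit 0) (XT.nd (nat_lit 78) (nat_lit 304) (nat_lit 0) (XT.lf (nat_lit 0) (nat_lit 218995961733) (nat_lit 228) (nat_lit 228601777182) (nat_lit 304) (nat_lit 103322067922) (nat_lit 106) (nat_lit 5) (nat_lit 109) (nat_lit 5) (nat_lit 110) (nat_lit 5) (nat_lit 471) (nat_lit 455) (nat_lit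 274)) (XT.lf (nat_lit 0) (nat_lit 58282230596) (nat_lit 304) (nat_lit 392819695901) (nat_lit 76) (nat_lit 125794568157) (nat_lit 102) (nat_lit 5) (nat_lit 106) (nat_lit 5) (nat_lit 103) (nat_lit 5) (nat_lit 472) (nat_lit 455) (nat_lit 273))) (XT.nd (nat_lit 78) (nat_lit 228) (nat_lit 0) (XT.lf (nat_lit 0) (nat_lit 147579947521) (nat_lit 228) (nat_lit 93698832845) (nat_lit 304) (nat_lit 362983656448) (nat_lit 99) (nat_lit 5) (nat_lit 102) (nat_lit 5) (nat_lit 103) (nat_lit 5) (nat_lit 473) (nat_lit 455) (nat_lit 272)) (XT.lf (nat_lit 0) (nat_lit 110628497380) (nat_lit 228) (nat_lit 341532138442) (nat_lit 304) (nat_lit 180994739445) (nat_lit 96) (nat_lit 5) (nat_lit 99) (nat_lit 5) (nat_lit 100) (nat_lit 5) (nat_lit 474) (nat_lit 455) (nat_lit 271))))) (XT.nd (nat_lit 312) (nat_lit 760) (nat_lit 0) (XT.nd (nat_lit 156) (nat_lit 228) (nat_lit 0) (XT.nd (nat_lit 78) (nat_lit 228) (nat_lit 0) (XT.lf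 (nat_lit 0) (nat_lit 26694347750) (nat_lit 228) (nat_lit 588434815172) (nat_lit 76) (nat_lit 48636501392) (nat_lit 93) (nat_lit 5) (nat_lit 96) (nat_lit 5) (nat_lit 94) (nat_lit 5) (nat_lit 475) (nat_lit 455) (nat_lit 270)) (XT.lf (nat_lit 0) (nat_lit 35482408393) (nat_lit 228) (nat_lit 224823842110) (nat_lit 304) (nat_lit 435587726512) (nat_lit 90) (nat_lit 5) (nat_lit 93) (nat_lit 5) (nat_lit 94) (nat_lit 5) (nat_lit 476) (nat_lit 455) (nat_lit 269))) (XT.nd (nat_lit 78) (nat_lit 228) (nat_lit 0) (XT.lf (nat_lit 0) (nat_lit 526096384403) (nat_lit 304) (nat_lit 2993450639) (nat_lit 76) (nat_lit 200828255747) (nat_lit 90) (nat_lit 5) (nat_lit 94) (nat_lit 5) (nat_lit 91) (nat_lit 5) (nat_lit 477) (nat_lit 455) (nat_lit 268)) (XT.lf (nat_lit 0) (nat_lit 60379127366) (nat_lit 228) (nat_lit 40402346723) (nat_lit 76) (nat_lit 665077302989) (nat_lit 87) (nat_lit 5) (nat_lit 90) (nat_lit 5) (nat_lit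 88) (nat_lit 5) (nat_lit 478) (nat_lit 455) (nat_lit 267)))) (XT.nd (nat_lit 156) (nat_lit 380) (nat_lit 0) (XT.nd (nat_lit 78) (nat_lit 152) (nat_lit 0) (XT.lf (nat_lit 0) (nat_lit 355973250202) (nat_lit 304) (nat_lit 82361609450) (nat_lit 76) (nat_lit 365302884544) (nat_lit 84) (nat_lit 5) (nat_lit 88) (nat_lit 5) (nat_lit 85) (nat_lit 5) (nat_lit 479) (nat_lit 455) (nat_lit 266)) (XT.lf (nat_lit 0) (nat_lit 689429156930) (nat_lit 228) (nat_lit 121940208531) (nat_lit 76) (nat_lit 32358950521) (nat_lit 82) (nat_lit 5) (nat_lit 85) (nat_lit 5) (nat_lit 83) (nat_lit 5) (nat_lit 480) (nat_lit 455) (nat_lit 265))) (XT.nd (nat_lit 78) (nat_lit 152) (nat_lit 0) (XT.lf (nat_lit 0) (nat_lit 177784045995) (nat_lit 228) (nat_lit 166938898517) (nat_lit 76) (nat_lit 541153767782) (nat_lit 79) (nat_lit 5) (nat_lit 82) (nat_lit 5) (nat_lit 80) (nat_lit 5) (nat_lit 481) (nat_lit 455) (nat_lit 264)) (XT.lf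 (nat_lit 0) (nat_lit 547258301063) (nat_lit 228) (nat_lit 212769289811) (nat_lit 76) (nat_lit 170431400491) (nat_lit 77) (nat_lit 5) (nat_lit 80) (nat_lit 5) (nat_lit 78) (nat_lit 5) (nat_lit 482) (nat_lit 455) (nat_lit 263))))))))
noncomputable def xc115 : XT := (XT.nd (nat_lit 61542) (nat_lit 0) (nat_lit 76) (XT.nd (nat_lit 60372) (nat_lit 0) (nat_lit 4864) (XT.nd (nat_lit 546) (nat_lit 988) (nat_lit 0) (XT.nd (nat_lit 234) (nat_lit 608) (nat_lit 0) (XT.nd (nat_lit 78) (nat_lit 380) (nat_lit 0) (XT.lf (nat_lit 0) (nat_lit 717697900088) (nat_lit 152) (nat_lit 248566138282) (nat_lit 228) (nat_lit 11345137303) (nat_lit 75) (nat_lit 5) (nat_lit 77) (nat_lit 5) (nat_lit 78) (nat_lit 5) (nat_lit 483) (nat_lit 455) (nat_lit 262)) (XT.nd (nat_lit 78) (nat_lit 152) (nat_lit 0) (XT.lf (nat_lit 0) (nat_lit 397845098171) (nat_lit 228) (nat_lit 313862792232) (nat_lit 76) (nat_lit 315514984650) (nat_lit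 72) (nat_lit 5) (nat_lit 75) (nat_lit 5) (nat_lit 73) (nat_lit 5) (nat_lit 484) (nat_lit 455) (nat_lit 261)) (XT.lf (nat_lit 0) (nat_lit 711511150314) (nat_lit 152) (nat_lit 147768878155) (nat_lit 228) (nat_lit 220520994908) (nat_lit 70) (nat_lit 5) (nat_lit 72) (nat_lit 5) (nat_lit 73) (nat_lit 5) (nat_lit 485) (nat_lit 455) (nat_lit 260)))) (XT.nd (nat_lit 156) (nat_lit 304) (nat_lit 0) (XT.nd (nat_lit 78) (nat_lit 152) (nat_lit 0) (XT.lf (nat_lit 0) (nat_lit 238191948068) (nat_lit 152) (nat_lit 430016961159) (nat_lit 76) (nat_lit 466992837396) (nat_lit 68) (nat_lit 5) (nat_lit 70) (nat_lit 5) (nat_lit 69) (nat_lit 5) (nat_lit 486) (nat_lit 455) (nat_lit 259)) (XT.lf (nat_lit 0) (nat_lit 699033343393) (nat_lit 152) (nat_lit 46871927318) (nat_lit 228) (nat_lit 447947035820) (nat_lit 66) (nat_lit 5) (nat_lit 68) (nat_lit 5) (nat_lit 69) (nat_lit 5) (nat_lit 487) (nat_lit 455) (nat_lit 258)))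 (XT.nd (nat_lit 78) (nat_lit 152) (nat_lit 0) (XT.lf (nat_lit 0) (nat_lit 64433898472) (nat_lit 152) (nat_lit 567696624483) (nat_lit 76) (nat_lit 623606538494) (nat_lit 64) (nat_lit 5) (nat_lit 66) (nat_lit 5) (nat_lit 65) (nat_lit 5) (nat_lit 488) (nat_lit 455) (nat_lit 257)) (XT.lf (nat_lit 0) (nat_lit 623205621064) (nat_lit 228) (nat_lit 647850235524) (nat_lit 76) (nat_lit 50094860689) (nat_lit 62) (nat_lit 5) (nat_lit 65) (nat_lit 5) (nat_lit 63) (nat_lit 4) (nat_lit 489) (nat_lit 455) (nat_lit 256))))) (XT.nd (nat_lit 312) (nat_lit 380) (nat_lit 0) (XT.nd (nat_lit 156) (nat_lit 304) (nat_lit 0) (XT.nd (nat_lit 78) (nat_lit 228) (nat_lit 0) (XT.lf (nat_lit 0) (nat_lit 652613265552) (nat_lit 76) (nat_lit 604964810589) (nat_lit 152) (nat_lit 132674439698) (nat_lit 61) (nat_lit 5) (nat_lit 62) (nat_lit 5) (nat_lit 63) (nat_lit 4) (nat_lit 490) (nat_lit 455) (nat_lit 255)) (XT.lf (nat_lit 0)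 (nat_lit 486063357380) (nat_lit 228) (nat_lit 837305184049) (nat_lit 76) (nat_lit 139963980862) (nat_lit 58) (nat_lit 5) (nat_lit 61) (nat_lit 5) (nat_lit 59) (nat_lit 4) (nat_lit 491) (nat_lit 455) (nat_lit 254))) (XT.nd (nat_lit 78) (nat_lit 228) (nat_lit 0) (XT.lf (nat_lit 0) (nat_lit 589738322322) (nat_lit 76) (nat_lit 592443831332) (nat_lit 152) (nat_lit 358341513990) (nat_lit 57) (nat_lit 5) (nat_lit 58) (nat_lit 5) (nat_lit 59) (nat_lit 4) (nat_lit 492) (nat_lit 455) (nat_lit 253)) (XT.lf (nat_lit 0) (nat_lit 327128215941) (nat_lit 228) (nat_lit 1075801554211) (nat_lit 76) (nat_lit 219370606962) (nat_lit 54) (nat_lit 5) (nat_lit 57) (nat_lit 5) (nat_lit 55) (nat_lit 4) (nat_lit 493) (nat_lit 455) (nat_lit 252)))) (XT.nd (nat_lit 156) (nat_lit 152) (nat_lit 0) (XT.nd (nat_lit 78) (nat_lit 152) (nat_lit 0) (XT.lf (nat_lit 0) (nat_lit 487010698119) (nat_lit 76) (nat_lit 602464968335) (nat_lit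 152) (nat_lit 619120100171) (nat_lit 53) (nat_lit 5) (nat_lit 54) (nat_lit 5) (nat_lit 55) (nat_lit 4) (nat_lit 494) (nat_lit 455) (nat_lit 251)) (XT.lf (nat_lit 0) (nat_lit 137668979008) (nat_lit 152) (nat_lit 1381030438523) (nat_lit 76) (nat_lit 281498402995) (nat_lit 51) (nat_lit 5) (nat_lit 53) (nat_lit 5) (nat_lit 52) (nat_lit 4) (nat_lit 495) (nat_lit 455) (nat_lit 250))) (XT.nd (nat_lit 78) (nat_lit 76) (nat_lit 0) (XT.lf (nat_lit 0) (nat_lit 326232812531) (nat_lit 76) (nat_lit 644247516907) (nat_lit 152) (nat_lit 926281728939) (nat_lit 50) (nat_lit 5) (nat_lit 51) (nat_lit 5) (nat_lit 52) (nat_lit 4) (nat_lit 496) (nat_lit 455) (nat_lit 249)) (XT.lf (nat_lit 0) (nat_lit 221555061709) (nat_lit 76) (nat_lit 1680957979658) (nat_lit 76) (nat_lit 96908571217) (nat_lit 49) (nat_lit 4) (nat_lit 50) (nat_lit 5) (nat_lit 50) (nat_lit 4) (nat_lit 497) (nat_lit 455) (nat_lit 248)))))) (XT.nd (nat_lit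 546) (nat_lit 2584) (nat_lit 0) (XT.nd (nat_lit 234) (nat_lit 0) (nat_lit 152) (XT.nd (nat_lit 78) (nat_lit 0) (nat_lit 76) (XT.lf (nat_lit 0) (nat_lit 62834170280) (nat_lit 836) (nat_lit 44128734175) (nat_lit 836) (nat_lit 44128734175) (nat_lit 147) (nat_lit 3) (nat_lit 158) (nat_lit 3) (nat_lit 158) (nat_lit 5) (nat_lit 456) (nat_lit 456) (nat_lit 288)) (XT.nd (nat_lit 78) (nat_lit 0) (nat_lit 0) (XT.lf (nat_lit 0) (nat_lit 133505579801) (nat_lit 760) (nat_lit 157972562811) (nat_lit 836) (nat_lit 22651940289) (nat_lit 148) (nat_lit 5) (nat_lit 158) (nat_lit 5) (nat_lit 159) (nat_lit 5) (nat_lit 457) (nat_lit 456) (nat_lit 287)) (XT.lf (nat_lit 76) (nat_lit 95753861910) (nat_lit 0) (nat_lit 52880582797) (nat_lit 836) (nat_lit 178064955973) (nat_lit 149) (nat_lit 5) (nat_lit 148) (nat_lit 5) (nat_lit 159) (nat_lit 5) (nat_lit 458) (nat_lit 456) (nat_lit 286)))) (XT.nd (nat_lit 156) (nat_lit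 0) (nat_lit 152) (XT.nd (nat_lit 78) (nat_lit 0) (nat_lit 76) (XT.lf (nat_lit 76) (nat_lit 33099508881) (nat_lit 0) (nat_lit 138385250977) (nat_lit 836) (nat_lit 168463946989) (nat_lit 150) (nat_lit 5) (nat_lit 149) (nat_lit 5) (nat_lit 160) (nat_lit 5) (nat_lit 459) (nat_lit 456) (nat_lit 285)) (XT.lf (nat_lit 0) (nat_lit 203007481441) (nat_lit 760) (nat_lit 30363286790) (nat_lit 836) (nat_lit 120544970229) (nat_lit 150) (nat_lit 5) (nat_lit 160) (nat_lit 5) (nat_lit 161) (nat_lit 5) (nat_lit 460) (nat_lit 456) (nat_lit 284))) (XT.nd (nat_lit 78) (nat_lit 0) (nat_lit 0) (XT.lf (nat_lit 0) (nat_lit 244158600469) (nat_lit 760) (nat_lit 94453303044) (nat_lit 836) (nat_lit 30032900117) (nat_lit 151) (nat_lit 5) (nat_lit 161) (nat_lit 5) (nat_lit 162) (nat_lit 5) (nat_lit 461) (nat_lit 456) (nat_lit 283)) (XT.lf (nat_lit 76) (nat_lit 222858245171) (nat_lit 0) (nat_lit 73695559693) (nat_lit 836)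 (nat_lit 87600789369) (nat_lit 152) (nat_lit 5) (nat_lit 151) (nat_lit 5) (nat_lit 162) (nat_lit 5) (nat_lit 462) (nat_lit 456) (nat_lit 282))))) (XT.nd (nat_lit 312) (nat_lit 988) (nat_lit 0) (XT.nd (nat_lit 156) (nat_lit 760) (nat_lit 0) (XT.nd (nat_lit 78) (nat_lit 456) (nat_lit 0) (XT.lf (nat_lit 0) (nat_lit 170209043573) (nat_lit 760) (nat_lit 190577611915) (nat_lit 836) (nat_lit 39736211114) (nat_lit 142) (nat_lit 5) (nat_lit 152) (nat_lit 5) (nat_lit 153) (nat_lit 5) (nat_lit 463) (nat_lit 456) (nat_lit 281)) (XT.lf (nat_lit 0) (nat_lit 19091829593) (nat_lit 456) (nat_lit 301222969826) (nat_lit 76) (nat_lit 97500616226) (nat_lit 136) (nat_lit 5) (nat_lit 142) (nat_lit 5) (nat_lit 137) (nat_lit 5) (nat_lit 464) (nat_lit 456) (nat_lit 280))) (XT.nd (nat_lit 78) (nat_lit 380) (nat_lit 0) (XT.lf (nat_lit 0) (nat_lit 61194119778) (nat_lit 380) (nat_lit 28304958523) (nat_lit 456) (nat_lit 346546463254)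 (nat_lit 131) (nat_lit 5) (nat_lit 136) (nat_lit 5) (nat_lit 137) (nat_lit 5) (nat_lit 465) (nat_lit 456) (nat_lit 279)) (XT.lf (nat_lit 0) (nat_lit 3431264309) (nat_lit 380) (nat_lit 171976176430) (nat_lit 456) (nat_lit 279833210115) (nat_lit 126) (nat_lit 5) (nat_lit 131) (nat_lit 5) (nat_lit 132) (nat_lit 5) (nat_lit 466) (nat_lit 456) (nat_lit 278)))) (XT.nd (nat_lit 156) (nat_lit 684) (nat_lit 0) (XT.nd (nat_lit 78) (nat_lit 304) (nat_lit 0) (XT.lf (nat_lit 0) (nat_lit 277524605298) (nat_lit 456) (nat_lit 53089091004) (nat_lit 76) (nat_lit 144890865947) (nat_lit 126) (nat_lit 5) (nat_lit 132) (nat_lit 5) (nat_lit 127) (nat_lit 5) (nat_lit 467) (nat_lit 456) (nat_lit 277)) (XT.lf (nat_lit 0) (nat_lit 387015855816) (nat_lit 304) (nat_lit 9737464699) (nat_lit 380) (nat_lit 100189157175) (nat_lit 122) (nat_lit 5) (nat_lit 126) (nat_lit 5) (nat_lit 127) (nat_lit 5) (nat_lit 468) (nat_lit 456)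 (nat_lit 276))) (XT.nd (nat_lit 78) (nat_lit 304) (nat_lit 0) (XT.lf (nat_lit 0) (nat_lit 17107074703) (nat_lit 380) (nat_lit 169680435175) (nat_lit 76) (nat_lit 332710891642) (nat_lit 117) (nat_lit 5) (nat_lit 122) (nat_lit 5) (nat_lit 118) (nat_lit 5) (nat_lit 469) (nat_lit 456) (nat_lit 275)) (XT.lf (nat_lit 0) (nat_lit 149960103119) (nat_lit 380) (nat_lit 231344274979) (nat_lit 76) (nat_lit 161988137006) (nat_lit 113) (nat_lit 5) (nat_lit 118) (nat_lit 5) (nat_lit 114) (nat_lit 5) (nat_lit 470) (nat_lit 456) (nat_lit 274))))))) (XT.nd (nat_lit 1170) (nat_lit 1672) (nat_lit 0) (XT.nd (nat_lit 546) (nat_lit 1368) (nat_lit 0) (XT.nd (nat_lit 234) (nat_lit 912) (nat_lit 0) (XT.nd (nat_lit 78) (nat_lit 532) (nat_lit 0) (XT.lf (nat_lit 0) (nat_lit 274925302492) (nat_lit 304) (nat_lit 28962133543) (nat_lit 380) (nat_lit 264580418634) (nat_lit 109) (nat_lit 5) (nat_lit 113) (nat_lit 5) (nat_lit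 114) (nat_lit 5) (nat_lit 471) (nat_lit 456) (nat_lit 273)) (XT.nd (nat_lit 78) (nat_lit 304) (nat_lit 0) (XT.lf (nat_lit 0) (nat_lit 236516885932) (nat_lit 228) (nat_lit 246889599750) (nat_lit 304) (nat_lit 111586859216) (nat_lit 106) (nat_lit 5) (nat_lit 109) (nat_lit 5) (nat_lit 110) (nat_lit 5) (nat_lit 472) (nat_lit 456) (nat_lit 272)) (XT.lf (nat_lit 0) (nat_lit 62945706413) (nat_lit 304) (nat_lit 424244009063) (nat_lit 76) (nat_lit 135858453790) (nat_lit 102) (nat_lit 5) (nat_lit 106) (nat_lit 5) (nat_lit 103) (nat_lit 5) (nat_lit 473) (nat_lit 456) (nat_lit 271)))) (XT.nd (nat_lit 156) (nat_lit 456) (nat_lit 0) (XT.nd (nat_lit 78) (nat_lit 228) (nat_lit 0) (XT.lf (nat_lit 0) (nat_lit 159387550966) (nat_lit 228) (nat_lit 101194381582) (nat_lit 304) (nat_lit 392021456639) (nat_lit 99) (nat_lit 5) (nat_lit 102) (nat_lit 5) (nat_lit 103) (nat_lit 5) (nat_lit 474) (nat_lit 456) (nat_lit 270))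 (XT.lf (nat_lit 0) (nat_lit 119479967708) (nat_lit 228) (nat_lit 368854329549) (nat_lit 304) (nat_lit 195473467425) (nat_lit 96) (nat_lit 5) (nat_lit 99) (nat_lit 5) (nat_lit 100) (nat_lit 5) (nat_lit 475) (nat_lit 456) (nat_lit 269))) (XT.nd (nat_lit 78) (nat_lit 228) (nat_lit 0) (XT.lf (nat_lit 0) (nat_lit 28830682652) (nat_lit 228) (nat_lit 635508402327) (nat_lit 76) (nat_lit 52527793057) (nat_lit 93) (nat_lit 5) (nat_lit 96) (nat_lit 5) (nat_lit 94) (nat_lit 5) (nat_lit 476) (nat_lit 456) (nat_lit 268)) (XT.lf (nat_lit 0) (nat_lit 38322147056) (nat_lit 228) (nat_lit 242809350158) (nat_lit 304) (nat_lit 470433960565) (nat_lit 90) (nat_lit 5) (nat_lit 93) (nat_lit 5) (nat_lit 94) (nat_lit 5) (nat_lit 477) (nat_lit 456) (nat_lit 267))))) (XT.nd (nat_lit 312) (nat_lit 760) (nat_lit 0) (XT.nd (nat_lit 156) (nat_lit 380) (nat_lit 0) (XT.nd (nat_lit 78) (nat_lit 228) (nat_lit 0) (XT.lf (nat_lit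 0) (nat_lit 568184792290) (nat_lit 304) (nat_lit 3231836732) (nat_lit 76) (nat_lit 216894874114) (nat_lit 90) (nat_lit 5) (nat_lit 94) (nat_lit 5) (nat_lit 91) (nat_lit 5) (nat_lit 478) (nat_lit 456) (nat_lit 266)) (XT.lf (nat_lit 0) (nat_lit 65210130230) (nat_lit 228) (nat_lit 43633469577) (nat_lit 76) (nat_lit 718283845752) (nat_lit 87) (nat_lit 5) (nat_lit 90) (nat_lit 5) (nat_lit 88) (nat_lit 5) (nat_lit 479) (nat_lit 456) (nat_lit 265))) (XT.nd (nat_lit 78) (nat_lit 152) (nat_lit 0) (XT.lf (nat_lit 0) (nat_lit 384451754899) (nat_lit 304) (nat_lit 88949493545) (nat_lit 76) (nat_lit 394527483005) (nat_lit 84) (nat_lit 5) (nat_lit 88) (nat_lit 5) (nat_lit 85) (nat_lit 5) (nat_lit 480) (nat_lit 456) (nat_lit 264)) (XT.lf (nat_lit 0) (nat_lit 744584108050) (nat_lit 228) (nat_lit 131694401320) (nat_lit 76) (nat_lit 34948040917) (nat_lit 82) (nat_lit 5) (nat_lit 85) (nat_lit 5) (nat_lit 83) (nat_lit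 5) (nat_lit 481) (nat_lit 456) (nat_lit 263)))) (XT.nd (nat_lit 156) (nat_lit 380) (nat_lit 0) (XT.nd (nat_lit 78) (nat_lit 152) (nat_lit 0) (XT.lf (nat_lit 0) (nat_lit 192007367392) (nat_lit 228) (nat_lit 180293011199) (nat_lit 76) (nat_lit 584446440761) (nat_lit 79) (nat_lit 5) (nat_lit 82) (nat_lit 5) (nat_lit 80) (nat_lit 5) (nat_lit 482) (nat_lit 456) (nat_lit 262)) (XT.lf (nat_lit 0) (nat_lit 591039539561) (nat_lit 228) (nat_lit 229789854815) (nat_lit 76) (nat_lit 184066287541) (nat_lit 77) (nat_lit 5) (nat_lit 80) (nat_lit 5) (nat_lit 78) (nat_lit 5) (nat_lit 483) (nat_lit 456) (nat_lit 261))) (XT.nd (nat_lit 78) (nat_lit 228) (nat_lit 0) (XT.lf (nat_lit 0) (nat_lit 775114667766) (nat_lit 152) (nat_lit 268451040146) (nat_lit 228) (nat_lit 12252174458) (nat_lit 75) (nat_lit 5) (nat_lit 77) (nat_lit 5) (nat_lit 78) (nat_lit 5) (nat_lit 484) (nat_lit 456) (nat_lit 260)) (XT.lf (nat_lit 0)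 (nat_lit 429673240587) (nat_lit 228) (nat_lit 338970882543) (nat_lit 76) (nat_lit 340756555170) (nat_lit 72) (nat_lit 5) (nat_lit 75) (nat_lit 5) (nat_lit 73) (nat_lit 5) (nat_lit 485) (nat_lit 456) (nat_lit 259)))))) (XT.nd (nat_lit 546) (nat_lit 608) (nat_lit 0) (XT.nd (nat_lit 234) (nat_lit 608) (nat_lit 0) (XT.nd (nat_lit 78) (nat_lit 304) (nat_lit 0) (XT.lf (nat_lit 0) (nat_lit 768432934857) (nat_lit 152) (nat_lit 159590004789) (nat_lit 228) (nat_lit 238162140129) (nat_lit 70) (nat_lit 5) (nat_lit 72) (nat_lit 5) (nat_lit 73) (nat_lit 5) (nat_lit 486) (nat_lit 456) (nat_lit 258)) (XT.nd (nat_lit 78) (nat_lit 152) (nat_lit 0) (XT.lf (nat_lit 0) (nat_lit 257247802346) (nat_lit 152) (nat_lit 464417429180) (nat_lit 76) (nat_lit 504352629880) (nat_lit 68) (nat_lit 5) (nat_lit 70) (nat_lit 5) (nat_lit 69) (nat_lit 5) (nat_lit 487) (nat_lit 456) (nat_lit 257)) (XT.lf (nat_lit 0) (nat_lit 754956861107)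 (nat_lit 152) (nat_lit 50621306048) (nat_lit 228) (nat_lit 483782300137) (nat_lit 66) (nat_lit 5) (nat_lit 68) (nat_lit 5) (nat_lit 69) (nat_lit 5) (nat_lit 488) (nat_lit 456) (nat_lit 256)))) (XT.nd (nat_lit 156) (nat_lit 304) (nat_lit 0) (XT.nd (nat_lit 78) (nat_lit 152) (nat_lit 0) (XT.lf (nat_lit 0) (nat_lit 69589075888) (nat_lit 152) (nat_lit 613111508615) (nat_lit 76) (nat_lit 673495418565) (nat_lit 64) (nat_lit 5) (nat_lit 66) (nat_lit 5) (nat_lit 65) (nat_lit 5) (nat_lit 489) (nat_lit 456) (nat_lit 255)) (XT.lf (nat_lit 0) (nat_lit 673062520140) (nat_lit 228) (nat_lit 699677428800) (nat_lit 76) (nat_lit 54102803232) (nat_lit 62) (nat_lit 5) (nat_lit 65) (nat_lit 5) (nat_lit 63) (nat_lit 4) (nat_lit 490) (nat_lit 456) (nat_lit 254))) (XT.nd (nat_lit 78) (nat_lit 228) (nat_lit 0) (XT.lf (nat_lit 0) (nat_lit 704823116484) (nat_lit 76) (nat_lit 653361634180) (nat_lit 152) (nat_lit 143287945003)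 (nat_lit 61) (nat_lit 5) (nat_lit 62) (nat_lit 5) (nat_lit 63) (nat_lit 4) (nat_lit 491) (nat_lit 456) (nat_lit 253)) (XT.lf (nat_lit 0) (nat_lit 524948846719) (nat_lit 228) (nat_lit 904288814366) (nat_lit 76) (nat_lit 151161441937) (nat_lit 58) (nat_lit 5) (nat_lit 61) (nat_lit 5) (nat_lit 59) (nat_lit 4) (nat_lit 492) (nat_lit 456) (nat_lit 252))))) (XT.nd (nat_lit 312) (nat_lit 76) (nat_lit 0) (XT.nd (nat_lit 156) (nat_lit 228) (nat_lit 0) (XT.nd (nat_lit 78) (nat_lit 228) (nat_lit 0) (XT.lf (nat_lit 0) (nat_lit 636918138425) (nat_lit 76) (nat_lit 639838988818) (nat_lit 152) (nat_lit 387008413733) (nat_lit 57) (nat_lit 5) (nat_lit 58) (nat_lit 5) (nat_lit 59) (nat_lit 4) (nat_lit 493) (nat_lit 456) (nat_lit 251)) (XT.lf (nat_lit 0) (nat_lit 353298867631) (nat_lit 228) (nat_lit 1161864933791) (nat_lit 76) (nat_lit 236920586128) (nat_lit 54) (nat_lit 5) (nat_lit 57) (nat_lit 5) (nat_lit 55)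 (nat_lit 4) (nat_lit 494) (nat_lit 456) (nat_lit 250))) (XT.nd (nat_lit 78) (nat_lit 152) (nat_lit 0) (XT.lf (nat_lit 0) (nat_lit 525972266360) (nat_lit 76) (nat_lit 650661829732) (nat_lit 152) (nat_lit 668649313037) (nat_lit 53) (nat_lit 5) (nat_lit 54) (nat_lit 5) (nat_lit 55) (nat_lit 4) (nat_lit 495) (nat_lit 456) (nat_lit 249)) (XT.lf (nat_lit 0) (nat_lit 148682867453) (nat_lit 152) (nat_lit 1491512166935) (nat_lit 76) (nat_lit 304018593263) (nat_lit 51) (nat_lit 5) (nat_lit 53) (nat_lit 5) (nat_lit 52) (nat_lit 4) (nat_lit 496) (nat_lit 456) (nat_lit 248)))) (XT.nd (nat_lit 59436) (nat_lit 0) (nat_lit 7448) (XT.nd (nat_lit 59358) (nat_lit 0) (nat_lit 7372) (XT.lf (nat_lit 0) (nat_lit 352332113492) (nat_lit 76) (nat_lit 695786995563) (nat_lit 152) (nat_lit 1000383896320) (nat_lit 50) (nat_lit 5) (nat_lit 51) (nat_lit 5) (nat_lit 52) (nat_lit 4) (nat_lit 497) (nat_lit 456) (nat_lit 247))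 (XT.lf (nat_lit 0) (nat_lit 67861983122) (nat_lit 836) (nat_lit 47658466235) (nat_lit 836) (nat_lit 47658466235) (nat_lit 147) (nat_lit 3) (nat_lit 158) (nat_lit 3) (nat_lit 158) (nat_lit 5) (nat_lit 457) (nat_lit 457) (nat_lit 286))) (XT.nd (nat_lit 78) (nat_lit 0) (nat_lit 0) (XT.lf (nat_lit 0) (nat_lit 144188027125) (nat_lit 760) (nat_lit 170609168116) (nat_lit 836) (nat_lit 24463193934) (nat_lit 148) (nat_lit 5) (nat_lit 158) (nat_lit 5) (nat_lit 159) (nat_lit 5) (nat_lit 458) (nat_lit 457) (nat_lit 285)) (XT.lf (nat_lit 76) (nat_lit 103415318444) (nat_lit 0) (nat_lit 57111752480) (nat_lit 836) (nat_lit 192308187994) (nat_lit 149) (nat_lit 5) (nat_lit 148) (nat_lit 5) (nat_lit 159) (nat_lit 5) (nat_lit 459) (nat_lit 457) (nat_lit 284))))))))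
noncomputable def xc116 : XT := (XT.nd (nat_lit 2262) (nat_lit 1292) (nat_lit 0) (XT.nd (nat_lit 1092) (nat_lit 2888) (nat_lit 0) (XT.nd (nat_lit 546) (nat_lit 1900) (nat_lit 0) (XT.nd (nat_lit 234) (nat_lit 1368) (nat_lit 0) (XT.nd (nat_lit 78) (nat_lit 0) (nat_lit 76) (XT.lf (nat_lit 76) (nat_lit 35748667839) (nat_lit 0) (nat_lit 149456613136) (nat_lit 836) (nat_lit 181939235138) (nat_lit 150) (nat_lit 5) (nat_lit 149) (nat_lit 5) (nat_lit 160) (nat_lit 5) (nat_lit 460) (nat_lit 457) (nat_lit 283)) (XT.nd (nat_lit 78) (nat_lit 0) (nat_lit 76) (XT.lf (nat_lit 0) (nat_lit 219249683535) (nat_lit 760) (nat_lit 32791151592) (nat_lit 836) (nat_lit 130188081985) (nat_lit 150) (nat_lit 5) (nat_lit 160) (nat_lit 5) (nat_lit 161) (nat_lit 5) (nat_lit 461) (nat_lit 457) (nat_lit 282)) (XT.lf (nat_lit 0) (nat_lit 263692785628) (nat_lit 760) (nat_lit 102008340286) (nat_lit 836) (nat_lit 32435186922) (nat_lit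 151) (nat_lit 5) (nat_lit 161) (nat_lit 5) (nat_lit 162) (nat_lit 5) (nat_lit 462) (nat_lit 457) (nat_lit 281)))) (XT.nd (nat_lit 156) (nat_lit 836) (nat_lit 0) (XT.nd (nat_lit 78) (nat_lit 684) (nat_lit 0) (XT.lf (nat_lit 76) (nat_lit 240688078462) (nat_lit 0) (nat_lit 79591435339) (nat_lit 836) (nat_lit 94607377533) (nat_lit 152) (nat_lit 5) (nat_lit 151) (nat_lit 5) (nat_lit 162) (nat_lit 5) (nat_lit 463) (nat_lit 457) (nat_lit 280)) (XT.lf (nat_lit 0) (nat_lit 183826960554) (nat_lit 760) (nat_lit 205823943177) (nat_lit 836) (nat_lit 42913726215) (nat_lit 142) (nat_lit 5) (nat_lit 152) (nat_lit 5) (nat_lit 153) (nat_lit 5) (nat_lit 464) (nat_lit 457) (nat_lit 279))) (XT.nd (nat_lit 78) (nat_lit 380) (nat_lit 0) (XT.lf (nat_lit 0) (nat_lit 20620431794) (nat_lit 456) (nat_lit 325319559146) (nat_lit 76) (nat_lit 105300594994) (nat_lit 136) (nat_lit 5) (nat_lit 142) (nat_lit 5) (nat_lit 137)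 (nat_lit 5) (nat_lit 465) (nat_lit 457) (nat_lit 278)) (XT.lf (nat_lit 0) (nat_lit 66090843378) (nat_lit 380) (nat_lit 30569342637) (nat_lit 456) (nat_lit 374268939632) (nat_lit 131) (nat_lit 5) (nat_lit 136) (nat_lit 5) (nat_lit 137) (nat_lit 5) (nat_lit 466) (nat_lit 457) (nat_lit 277))))) (XT.nd (nat_lit 234) (nat_lit 1216) (nat_lit 0) (XT.nd (nat_lit 78) (nat_lit 304) (nat_lit 0) (XT.lf (nat_lit 0) (nat_lit 3706964052) (nat_lit 380) (nat_lit 185734184778) (nat_lit 456) (nat_lit 302218698304) (nat_lit 126) (nat_lit 5) (nat_lit 131) (nat_lit 5) (nat_lit 132) (nat_lit 5) (nat_lit 467) (nat_lit 457) (nat_lit 276)) (XT.nd (nat_lit 78) (nat_lit 304) (nat_lit 0) (XT.lf (nat_lit 0) (nat_lit 299727605360) (nat_lit 456) (nat_lit 57335058056) (nat_lit 76) (nat_lit 156482212095) (nat_lit 126) (nat_lit 5) (nat_lit 132) (nat_lit 5) (nat_lit 127) (nat_lit 5) (nat_lit 468) (nat_lit 457) (nat_lit 275)) (XT.lf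 (nat_lit 0) (nat_lit 417978234088) (nat_lit 304) (nat_lit 10516324616) (nat_lit 380) (nat_lit 108203268446) (nat_lit 122) (nat_lit 5) (nat_lit 126) (nat_lit 5) (nat_lit 127) (nat_lit 5) (nat_lit 469) (nat_lit 457) (nat_lit 274)))) (XT.nd (nat_lit 156) (nat_lit 532) (nat_lit 0) (XT.nd (nat_lit 78) (nat_lit 304) (nat_lit 0) (XT.lf (nat_lit 0) (nat_lit 18476575633) (nat_lit 380) (nat_lit 183253732803) (nat_lit 76) (nat_lit 359327918347) (nat_lit 117) (nat_lit 5) (nat_lit 122) (nat_lit 5) (nat_lit 118) (nat_lit 5) (nat_lit 470) (nat_lit 457) (nat_lit 273)) (XT.lf (nat_lit 0) (nat_lit 161957797251) (nat_lit 380) (nat_lit 249850688177) (nat_lit 76) (nat_lit 174947386487) (nat_lit 113) (nat_lit 5) (nat_lit 118) (nat_lit 5) (nat_lit 114) (nat_lit 5) (nat_lit 471) (nat_lit 457) (nat_lit 272))) (XT.nd (nat_lit 78) (nat_lit 228) (nat_lit 0) (XT.lf (nat_lit 0) (nat_lit 296920406435) (nat_lit 304) (nat_lit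 31278861601) (nat_lit 380) (nat_lit 285745973053) (nat_lit 109) (nat_lit 5) (nat_lit 113) (nat_lit 5) (nat_lit 114) (nat_lit 5) (nat_lit 472) (nat_lit 457) (nat_lit 271)) (XT.lf (nat_lit 0) (nat_lit 255439306131) (nat_lit 228) (nat_lit 266640493718) (nat_lit 304) (nat_lit 120512972786) (nat_lit 106) (nat_lit 5) (nat_lit 109) (nat_lit 5) (nat_lit 110) (nat_lit 5) (nat_lit 473) (nat_lit 457) (nat_lit 270)))))) (XT.nd (nat_lit 546) (nat_lit 1444) (nat_lit 0) (XT.nd (nat_lit 234) (nat_lit 684) (nat_lit 0) (XT.nd (nat_lit 78) (nat_lit 456) (nat_lit 0) (XT.lf (nat_lit 0) (nat_lit 67982132277) (nat_lit 304) (nat_lit 458182447388) (nat_lit 76) (nat_lit 146727404597) (nat_lit 102) (nat_lit 5) (nat_lit 106) (nat_lit 5) (nat_lit 103) (nat_lit 5) (nat_lit 474) (nat_lit 457) (nat_lit 269)) (XT.nd (nat_lit 78) (nat_lit 228) (nat_lit 0) (XT.lf (nat_lit 0) (nat_lit 172139590403) (nat_lit 228) (nat_lit 109289625276)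 (nat_lit 304) (nat_lit 423382408146) (nat_lit 99) (nat_lit 5) (nat_lit 102) (nat_lit 5) (nat_lit 103) (nat_lit 5) (nat_lit 475) (nat_lit 457) (nat_lit 268)) (XT.lf (nat_lit 0) (nat_lit 129039385819) (nat_lit 228) (nat_lit 398362350152) (nat_lit 304) (nat_lit 211110615073) (nat_lit 96) (nat_lit 5) (nat_lit 99) (nat_lit 5) (nat_lit 100) (nat_lit 5) (nat_lit 476) (nat_lit 457) (nat_lit 267)))) (XT.nd (nat_lit 156) (nat_lit 228) (nat_lit 0) (XT.nd (nat_lit 78) (nat_lit 228) (nat_lit 0) (XT.lf (nat_lit 0) (nat_lit 31137812060) (nat_lit 228) (nat_lit 686348047371) (nat_lit 76) (nat_lit 56730335050) (nat_lit 93) (nat_lit 5) (nat_lit 96) (nat_lit 5) (nat_lit 94) (nat_lit 5) (nat_lit 477) (nat_lit 457) (nat_lit 266)) (XT.lf (nat_lit 0) (nat_lit 41388901325) (nat_lit 228) (nat_lit 262233755817) (nat_lit 304) (nat_lit 508068005197) (nat_lit 90) (nat_lit 5) (nat_lit 93) (nat_lit 5) (nat_lit 94) (nat_lit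 5) (nat_lit 478) (nat_lit 457) (nat_lit 265))) (XT.nd (nat_lit 78) (nat_lit 228) (nat_lit 0) (XT.lf (nat_lit 0) (nat_lit 613640173355) (nat_lit 304) (nat_lit 3489449207) (nat_lit 76) (nat_lit 234246770892) (nat_lit 90) (nat_lit 5) (nat_lit 94) (nat_lit 5) (nat_lit 91) (nat_lit 5) (nat_lit 479) (nat_lit 457) (nat_lit 264)) (XT.lf (nat_lit 0) (nat_lit 70427517359) (nat_lit 228) (nat_lit 47123234177) (nat_lit 76) (nat_lit 775746860788) (nat_lit 87) (nat_lit 5) (nat_lit 90) (nat_lit 5) (nat_lit 88) (nat_lit 5) (nat_lit 480) (nat_lit 457) (nat_lit 263))))) (XT.nd (nat_lit 312) (nat_lit 684) (nat_lit 0) (XT.nd (nat_lit 156) (nat_lit 380) (nat_lit 0) (XT.nd (nat_lit 78) (nat_lit 152) (nat_lit 0) (XT.lf (nat_lit 0) (nat_lit 415208448001) (nat_lit 304) (nat_lit 96064557401) (nat_lit 76) (nat_lit 426089996887) (nat_lit 84) (nat_lit 5) (nat_lit 88) (nat_lit 5) (nat_lit 85) (nat_lit 5) (nat_lit 481) (nat_lit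 457) (nat_lit 262)) (XT.lf (nat_lit 0) (nat_lit 804151367015) (nat_lit 228) (nat_lit 142229075602) (nat_lit 76) (nat_lit 37744205140) (nat_lit 82) (nat_lit 5) (nat_lit 85) (nat_lit 5) (nat_lit 83) (nat_lit 5) (nat_lit 482) (nat_lit 457) (nat_lit 261))) (XT.nd (nat_lit 78) (nat_lit 152) (nat_lit 0) (XT.lf (nat_lit 0) (nat_lit 207368469230) (nat_lit 228) (nat_lit 194715595443) (nat_lit 76) (nat_lit 631202474571) (nat_lit 79) (nat_lit 5) (nat_lit 82) (nat_lit 5) (nat_lit 80) (nat_lit 5) (nat_lit 483) (nat_lit 457) (nat_lit 260)) (XT.lf (nat_lit 0) (nat_lit 638323195193) (nat_lit 228) (nat_lit 248172204568) (nat_lit 76) (nat_lit 198791912056) (nat_lit 77) (nat_lit 5) (nat_lit 80) (nat_lit 5) (nat_lit 78) (nat_lit 5) (nat_lit 484) (nat_lit 457) (nat_lit 259)))) (XT.nd (nat_lit 156) (nat_lit 304) (nat_lit 0) (XT.nd (nat_lit 78) (nat_lit 228) (nat_lit 0) (XT.lf (nat_lit 0) (nat_lit 837124643374) (nat_lit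 152) (nat_lit 289926789683) (nat_lit 228) (nat_lit 13231856448) (nat_lit 75) (nat_lit 5) (nat_lit 77) (nat_lit 5) (nat_lit 78) (nat_lit 5) (nat_lit 485) (nat_lit 457) (nat_lit 258)) (XT.lf (nat_lit 0) (nat_lit 464047558135) (nat_lit 228) (nat_lit 366087753190) (nat_lit 76) (nat_lit 368017398298) (nat_lit 72) (nat_lit 5) (nat_lit 75) (nat_lit 5) (nat_lit 73) (nat_lit 5) (nat_lit 486) (nat_lit 457) (nat_lit 257))) (XT.nd (nat_lit 78) (nat_lit 152) (nat_lit 0) (XT.lf (nat_lit 0) (nat_lit 829908334836) (nat_lit 152) (nat_lit 172356876281) (nat_lit 228) (nat_lit 257214653201) (nat_lit 70) (nat_lit 5) (nat_lit 72) (nat_lit 5) (nat_lit 73) (nat_lit 5) (nat_lit 487) (nat_lit 457) (nat_lit 256)) (XT.lf (nat_lit 0) (nat_lit 277828053859) (nat_lit 152) (nat_lit 501570061451) (nat_lit 76) (nat_lit 544701153622) (nat_lit 68) (nat_lit 5) (nat_lit 70) (nat_lit 5) (nat_lit 69) (nat_lit 5) (nat_lit 488) (nat_lit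 457) (nat_lit 255))))))) (XT.nd (nat_lit 60528) (nat_lit 0) (nat_lit 3192) (XT.nd (nat_lit 546) (nat_lit 228) (nat_lit 0) (XT.nd (nat_lit 234) (nat_lit 608) (nat_lit 0) (XT.nd (nat_lit 78) (nat_lit 304) (nat_lit 0) (XT.lf (nat_lit 0) (nat_lit 815354138941) (nat_lit 152) (nat_lit 54670688639) (nat_lit 228) (nat_lit 522484456723) (nat_lit 66) (nat_lit 5) (nat_lit 68) (nat_lit 5) (nat_lit 69) (nat_lit 5) (nat_lit 489) (nat_lit 457) (nat_lit 254)) (XT.nd (nat_lit 78) (nat_lit 152) (nat_lit 0) (XT.lf (nat_lit 0) (nat_lit 75156601084) (nat_lit 152) (nat_lit 662159704145) (nat_lit 76) (nat_lit 727375358112) (nat_lit 64) (nat_lit 5) (nat_lit 66) (nat_lit 5) (nat_lit 65) (nat_lit 5) (nat_lit 490) (nat_lit 457) (nat_lit 253)) (XT.lf (nat_lit 0) (nat_lit 726907907031) (nat_lit 228) (nat_lit 755650915314) (nat_lit 76) (nat_lit 58431330720) (nat_lit 62) (nat_lit 5) (nat_lit 65) (nat_lit 5) (nat_lit 63) (nat_lit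 4) (nat_lit 491) (nat_lit 457) (nat_lit 252)))) (XT.nd (nat_lit 156) (nat_lit 304) (nat_lit 0) (XT.nd (nat_lit 78) (nat_lit 228) (nat_lit 0) (XT.lf (nat_lit 0) (nat_lit 761209642833) (nat_lit 76) (nat_lit 705630255196) (nat_lit 152) (nat_lit 154750594913) (nat_lit 61) (nat_lit 5) (nat_lit 62) (nat_lit 5) (nat_lit 63) (nat_lit 4) (nat_lit 492) (nat_lit 457) (nat_lit 251)) (XT.lf (nat_lit 0) (nat_lit 566945115181) (nat_lit 228) (nat_lit 976631247012) (nat_lit 76) (nat_lit 163254651022) (nat_lit 58) (nat_lit 5) (nat_lit 61) (nat_lit 5) (nat_lit 59) (nat_lit 4) (nat_lit 493) (nat_lit 457) (nat_lit 250))) (XT.nd (nat_lit 78) (nat_lit 228) (nat_lit 0) (XT.lf (nat_lit 0) (nat_lit 687872232776) (nat_lit 76) (nat_lit 691025808694) (nat_lit 152) (nat_lit 417968725570) (nat_lit 57) (nat_lit 5) (nat_lit 58) (nat_lit 5) (nat_lit 59) (nat_lit 4) (nat_lit 494) (nat_lit 457) (nat_lit 249)) (XT.lf (nat_lit 0)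 (nat_lit 381563115188) (nat_lit 228) (nat_lit 1254813489985) (nat_lit 76) (nat_lit 255874516463) (nat_lit 54) (nat_lit 5) (nat_lit 57) (nat_lit 5) (nat_lit 55) (nat_lit 4) (nat_lit 495) (nat_lit 457) (nat_lit 248))))) (XT.nd (nat_lit 59670) (nat_lit 0) (nat_lit 7372) (XT.nd (nat_lit 59514) (nat_lit 0) (nat_lit 7296) (XT.nd (nat_lit 78) (nat_lit 152) (nat_lit 0) (XT.lf (nat_lit 0) (nat_lit 568050658429) (nat_lit 76) (nat_lit 702714487985) (nat_lit 152) (nat_lit 722140919304) (nat_lit 53) (nat_lit 5) (nat_lit 54) (nat_lit 5) (nat_lit 55) (nat_lit 4) (nat_lit 496) (nat_lit 457) (nat_lit 247)) (XT.lf (nat_lit 0) (nat_lit 160577814173) (nat_lit 152) (nat_lit 1610832534435) (nat_lit 76) (nat_lit 328340353381) (nat_lit 51) (nat_lit 5) (nat_lit 53) (nat_lit 5) (nat_lit 52) (nat_lit 4) (nat_lit 497) (nat_lit 457) (nat_lit 246))) (XT.nd (nat_lit 78) (nat_lit 0) (nat_lit 76) (XT.lf (nat_lit 0) (nat_lit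 73291867030) (nat_lit 836) (nat_lit 51470657702) (nat_lit 836) (nat_lit 51470657702) (nat_lit 147) (nat_lit 3) (nat_lit 158) (nat_lit 3) (nat_lit 158) (nat_lit 5) (nat_lit 458) (nat_lit 458) (nat_lit 284)) (XT.lf (nat_lit 0) (nat_lit 155724784779) (nat_lit 760) (nat_lit 184256873000) (nat_lit 836) (nat_lit 26419476492) (nat_lit 148) (nat_lit 5) (nat_lit 158) (nat_lit 5) (nat_lit 159) (nat_lit 5) (nat_lit 459) (nat_lit 458) (nat_lit 283)))) (XT.nd (nat_lit 156) (nat_lit 0) (nat_lit 152) (XT.nd (nat_lit 78) (nat_lit 0) (nat_lit 76) (XT.lf (nat_lit 76) (nat_lit 111689527785) (nat_lit 0) (nat_lit 61681312584) (nat_lit 836) (nat_lit 207691158827) (nat_lit 149) (nat_lit 5) (nat_lit 148) (nat_lit 5) (nat_lit 159) (nat_lit 5) (nat_lit 460) (nat_lit 458) (nat_lit 282)) (XT.lf (nat_lit 76) (nat_lit 38609588570) (nat_lit 0) (nat_lit 161413606935) (nat_lit 836) (nat_lit 196492807067) (nat_lit 150) (nat_lit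 5) (nat_lit 149) (nat_lit 5) (nat_lit 160) (nat_lit 5) (nat_lit 461) (nat_lit 458) (nat_lit 281))) (XT.nd (nat_lit 78) (nat_lit 0) (nat_lit 76) (XT.lf (nat_lit 0) (nat_lit 236791033029) (nat_lit 760) (nat_lit 35413416507) (nat_lit 836) (nat_lit 140602711995) (nat_lit 150) (nat_lit 5) (nat_lit 160) (nat_lit 5) (nat_lit 161) (nat_lit 5) (nat_lit 462) (nat_lit 458) (nat_lit 280)) (XT.lf (nat_lit 0) (nat_lit 284789492018) (nat_lit 760) (nat_lit 110167955553) (nat_lit 836) (nat_lit 35029705920) (nat_lit 151) (nat_lit 5) (nat_lit 161) (nat_lit 5) (nat_lit 162) (nat_lit 5) (nat_lit 463) (nat_lit 458) (nat_lit 279)))))) (XT.nd (nat_lit 546) (nat_lit 2204) (nat_lit 0) (XT.nd (nat_lit 234) (nat_lit 1064) (nat_lit 0) (XT.nd (nat_lit 78) (nat_lit 1140) (nat_lit 0) (XT.lf (nat_lit 76) (nat_lit 259944130978) (nat_lit 0) (nat_lit 85958948101) (nat_lit 836) (nat_lit 102174703173) (nat_lit 152) (nat_lit 5) (nat_lit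 151) (nat_lit 5) (nat_lit 162) (nat_lit 5) (nat_lit 464) (nat_lit 458) (nat_lit 278)) (XT.nd (nat_lit 78) (nat_lit 456) (nat_lit 0) (XT.lf (nat_lit 0) (nat_lit 198534140628) (nat_lit 760) (nat_lit 222289963491) (nat_lit 836) (nat_lit 46345639652) (nat_lit 142) (nat_lit 5) (nat_lit 152) (nat_lit 5) (nat_lit 153) (nat_lit 5) (nat_lit 465) (nat_lit 458) (nat_lit 277)) (XT.lf (nat_lit 0) (nat_lit 22271143012) (nat_lit 456) (nat_lit 351344053690) (nat_lit 76) (nat_lit 113724582125) (nat_lit 136) (nat_lit 5) (nat_lit 142) (nat_lit 5) (nat_lit 137) (nat_lit 5) (nat_lit 466) (nat_lit 458) (nat_lit 276)))) (XT.nd (nat_lit 156) (nat_lit 304) (nat_lit 0) (XT.nd (nat_lit 78) (nat_lit 380) (nat_lit 0) (XT.lf (nat_lit 0) (nat_lit 71379134527) (nat_lit 380) (nat_lit 33014879274) (nat_lit 456) (nat_lit 404209391118) (nat_lit 131) (nat_lit 5) (nat_lit 136) (nat_lit 5) (nat_lit 137) (nat_lit 5) (nat_lit 467)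 (nat_lit 458) (nat_lit 275)) (XT.lf (nat_lit 0) (nat_lit 4004548780) (nat_lit 380) (nat_lit 200592846029) (nat_lit 456) (nat_lit 326395192265) (nat_lit 126) (nat_lit 5) (nat_lit 131) (nat_lit 5) (nat_lit 132) (nat_lit 5) (nat_lit 468) (nat_lit 458) (nat_lit 274))) (XT.nd (nat_lit 78) (nat_lit 304) (nat_lit 0) (XT.lf (nat_lit 0) (nat_lit 323706698253) (nat_lit 456) (nat_lit 61920867991) (nat_lit 76) (nat_lit 169000854968) (nat_lit 126) (nat_lit 5) (nat_lit 132) (nat_lit 5) (nat_lit 127) (nat_lit 5) (nat_lit 469) (nat_lit 458) (nat_lit 273)) (XT.lf (nat_lit 0) (nat_lit 451417444295) (nat_lit 304) (nat_lit 11357512909) (nat_lit 380) (nat_lit 116858654320) (nat_lit 122) (nat_lit 5) (nat_lit 126) (nat_lit 5) (nat_lit 127) (nat_lit 5) (nat_lit 470) (nat_lit 458) (nat_lit 272))))) (XT.nd (nat_lit 312) (nat_lit 988) (nat_lit 0) (XT.nd (nat_lit 156) (nat_lit 532) (nat_lit 0) (XT.nd (nat_lit 78) (nat_lit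 304) (nat_lit 0) (XT.lf (nat_lit 0) (nat_lit 19955503255) (nat_lit 380) (nat_lit 197913056474) (nat_lit 76) (nat_lit 388074285023) (nat_lit 117) (nat_lit 5) (nat_lit 122) (nat_lit 5) (nat_lit 118) (nat_lit 5) (nat_lit 471) (nat_lit 458) (nat_lit 271)) (XT.lf (nat_lit 0) (nat_lit 174915180533) (nat_lit 380) (nat_lit 269837775466) (nat_lit 76) (nat_lit 188943347605) (nat_lit 113) (nat_lit 5) (nat_lit 118) (nat_lit 5) (nat_lit 114) (nat_lit 5) (nat_lit 472) (nat_lit 458) (nat_lit 270))) (XT.nd (nat_lit 78) (nat_lit 228) (nat_lit 0) (XT.lf (nat_lit 0) (nat_lit 320674964657) (nat_lit 304) (nat_lit 33780962518) (nat_lit 380) (nat_lit 308604897236) (nat_lit 109) (nat_lit 5) (nat_lit 113) (nat_lit 5) (nat_lit 114) (nat_lit 5) (nat_lit 473) (nat_lit 458) (nat_lit 269)) (XT.lf (nat_lit 0) (nat_lit 275875367395) (nat_lit 228) (nat_lit 287971498295) (nat_lit 304) (nat_lit 130153294588) (nat_lit 106) (nat_lit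 5) (nat_lit 109) (nat_lit 5) (nat_lit 110) (nat_lit 5) (nat_lit 474) (nat_lit 458) (nat_lit 268)))) (XT.nd (nat_lit 156) (nat_lit 456) (nat_lit 0) (XT.nd (nat_lit 78) (nat_lit 228) (nat_lit 0) (XT.lf (nat_lit 0) (nat_lit 73421362453) (nat_lit 304) (nat_lit 494836115197) (nat_lit 76) (nat_lit 158465832307) (nat_lit 102) (nat_lit 5) (nat_lit 106) (nat_lit 5) (nat_lit 103) (nat_lit 5) (nat_lit 475) (nat_lit 458) (nat_lit 267)) (XT.lf (nat_lit 0) (nat_lit 185911645289) (nat_lit 228) (nat_lit 118032532238) (nat_lit 304) (nat_lit 457252344912) (nat_lit 99) (nat_lit 5) (nat_lit 102) (nat_lit 5) (nat_lit 103) (nat_lit 5) (nat_lit 476) (nat_lit 458) (nat_lit 266))) (XT.nd (nat_lit 78) (nat_lit 228) (nat_lit 0) (XT.lf (nat_lit 0) (nat_lit 139363411765) (nat_lit 228) (nat_lit 430231058877) (nat_lit 304) (nat_lit 227998838639) (nat_lit 96) (nat_lit 5) (nat_lit 99) (nat_lit 5) (nat_lit 100) (nat_lit 5) (nat_lit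 477) (nat_lit 458) (nat_lit 265)) (XT.lf (nat_lit 0) (nat_lit 33629415553) (nat_lit 228) (nat_lit 741255010552) (nat_lit 76) (nat_lit 61269034957) (nat_lit 93) (nat_lit 5) (nat_lit 96) (nat_lit 5) (nat_lit 94) (nat_lit 5) (nat_lit 478) (nat_lit 458) (nat_lit 264))))))))
noncomputable def xc117 : XT := (XT.nd (nat_lit 61776) (nat_lit 0) (nat_lit 304) (XT.nd (nat_lit 1170) (nat_lit 608) (nat_lit 0) (XT.nd (nat_lit 546) (nat_lit 1216) (nat_lit 0) (XT.nd (nat_lit 234) (nat_lit 760) (nat_lit 0) (XT.nd (nat_lit 78) (nat_lit 228) (nat_lit 0) (XT.lf (nat_lit 0) (nat_lit 44700855769) (nat_lit 228) (nat_lit 283212162770) (nat_lit 304) (nat_lit 548712869299) (nat_lit 90) (nat_lit 5) (nat_lit 93) (nat_lit 5) (nat_lit 94) (nat_lit 5) (nat_lit 479) (nat_lit 458) (nat_lit 263)) (XT.nd (nat_lit 78) (nat_lit 228) (nat_lit 0) (XT.lf (nat_lit 0) (nat_lit 662731899638) (nat_lit 304) (nat_lit 3767803992) (nat_lit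 76) (nat_lit 252986775636) (nat_lit 90) (nat_lit 5) (nat_lit 94) (nat_lit 5) (nat_lit 91) (nat_lit 5) (nat_lit 480) (nat_lit 458) (nat_lit 262)) (XT.lf (nat_lit 0) (nat_lit 76062213184) (nat_lit 228) (nat_lit 50892310190) (nat_lit 76) (nat_lit 837806873176) (nat_lit 87) (nat_lit 5) (nat_lit 90) (nat_lit 5) (nat_lit 88) (nat_lit 5) (nat_lit 481) (nat_lit 458) (nat_lit 261)))) (XT.nd (nat_lit 156) (nat_lit 380) (nat_lit 0) (XT.nd (nat_lit 78) (nat_lit 152) (nat_lit 0) (XT.lf (nat_lit 0) (nat_lit 448425597701) (nat_lit 304) (nat_lit 103748954137) (nat_lit 76) (nat_lit 460177466906) (nat_lit 84) (nat_lit 5) (nat_lit 88) (nat_lit 5) (nat_lit 85) (nat_lit 5) (nat_lit 482) (nat_lit 458) (nat_lit 260)) (XT.lf (nat_lit 0) (nat_lit 868483931041) (nat_lit 228) (nat_lit 153606649058) (nat_lit 76) (nat_lit 40764016713) (nat_lit 82) (nat_lit 5) (nat_lit 85) (nat_lit 5) (nat_lit 83) (nat_lit 5) (nat_lit 483)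 (nat_lit 458) (nat_lit 259))) (XT.nd (nat_lit 78) (nat_lit 152) (nat_lit 0) (XT.lf (nat_lit 0) (nat_lit 223958386108) (nat_lit 228) (nat_lit 210292108638) (nat_lit 76) (nat_lit 681698945642) (nat_lit 79) (nat_lit 5) (nat_lit 82) (nat_lit 5) (nat_lit 80) (nat_lit 5) (nat_lit 484) (nat_lit 458) (nat_lit 258)) (XT.lf (nat_lit 0) (nat_lit 689389473019) (nat_lit 228) (nat_lit 268025261941) (nat_lit 76) (nat_lit 214695540665) (nat_lit 77) (nat_lit 5) (nat_lit 80) (nat_lit 5) (nat_lit 78) (nat_lit 5) (nat_lit 485) (nat_lit 458) (nat_lit 257))))) (XT.nd (nat_lit 312) (nat_lit 532) (nat_lit 0) (XT.nd (nat_lit 156) (nat_lit 304) (nat_lit 0) (XT.nd (nat_lit 78) (nat_lit 228) (nat_lit 0) (XT.lf (nat_lit 0) (nat_lit 904095302589) (nat_lit 152) (nat_lit 313120646786) (nat_lit 228) (nat_lit 14289983182) (nat_lit 75) (nat_lit 5) (nat_lit 77) (nat_lit 5) (nat_lit 78) (nat_lit 5) (nat_lit 486) (nat_lit 458) (nat_lit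 256)) (XT.lf (nat_lit 0) (nat_lit 501171755705) (nat_lit 228) (nat_lit 395374087613) (nat_lit 76) (nat_lit 397459063408) (nat_lit 72) (nat_lit 5) (nat_lit 75) (nat_lit 5) (nat_lit 73) (nat_lit 5) (nat_lit 487) (nat_lit 458) (nat_lit 255))) (XT.nd (nat_lit 78) (nat_lit 152) (nat_lit 0) (XT.lf (nat_lit 0) (nat_lit 896301657651) (nat_lit 152) (nat_lit 186145144413) (nat_lit 228) (nat_lit 277791432677) (nat_lit 70) (nat_lit 5) (nat_lit 72) (nat_lit 5) (nat_lit 73) (nat_lit 5) (nat_lit 488) (nat_lit 458) (nat_lit 254)) (XT.lf (nat_lit 0) (nat_lit 300054664531) (nat_lit 152) (nat_lit 541695013020) (nat_lit 76) (nat_lit 588277514560) (nat_lit 68) (nat_lit 5) (nat_lit 70) (nat_lit 5) (nat_lit 69) (nat_lit 5) (nat_lit 489) (nat_lit 458) (nat_lit 253)))) (XT.nd (nat_lit 156) (nat_lit 228) (nat_lit 0) (XT.nd (nat_lit 78) (nat_lit 152) (nat_lit 0) (XT.lf (nat_lit 0) (nat_lit 880583095010) (nat_lit 152)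 (nat_lit 59044067759) (nat_lit 228) (nat_lit 564282846813) (nat_lit 66) (nat_lit 5) (nat_lit 68) (nat_lit 5) (nat_lit 69) (nat_lit 5) (nat_lit 490) (nat_lit 458) (nat_lit 252)) (XT.lf (nat_lit 0) (nat_lit 81169471355) (nat_lit 152) (nat_lit 715131858769) (nat_lit 76) (nat_lit 785565649161) (nat_lit 64) (nat_lit 5) (nat_lit 66) (nat_lit 5) (nat_lit 65) (nat_lit 5) (nat_lit 491) (nat_lit 458) (nat_lit 251))) (XT.nd (nat_lit 78) (nat_lit 76) (nat_lit 0) (XT.lf (nat_lit 0) (nat_lit 785060869909) (nat_lit 228) (nat_lit 816102381724) (nat_lit 76) (nat_lit 63106097149) (nat_lit 62) (nat_lit 5) (nat_lit 65) (nat_lit 5) (nat_lit 63) (nat_lit 4) (nat_lit 492) (nat_lit 458) (nat_lit 250)) (XT.lf (nat_lit 0) (nat_lit 822106994704) (nat_lit 76) (nat_lit 762080410077) (nat_lit 152) (nat_lit 167130311838) (nat_lit 61) (nat_lit 5) (nat_lit 62) (nat_lit 5) (nat_lit 63) (nat_lit 4) (nat_lit 493) (nat_lit 458)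 (nat_lit 249)))))) (XT.nd (nat_lit 59982) (nat_lit 0) (nat_lit 5548) (XT.nd (nat_lit 234) (nat_lit 76) (nat_lit 0) (XT.nd (nat_lit 78) (nat_lit 304) (nat_lit 0) (XT.lf (nat_lit 0) (nat_lit 612301033659) (nat_lit 228) (nat_lit 1054761170210) (nat_lit 76) (nat_lit 176315274929) (nat_lit 58) (nat_lit 5) (nat_lit 61) (nat_lit 5) (nat_lit 59) (nat_lit 4) (nat_lit 494) (nat_lit 458) (nat_lit 248)) (XT.nd (nat_lit 78) (nat_lit 228) (nat_lit 0) (XT.lf (nat_lit 0) (nat_lit 742902562904) (nat_lit 76) (nat_lit 746307616849) (nat_lit 152) (nat_lit 451405913892) (nat_lit 57) (nat_lit 5) (nat_lit 58) (nat_lit 5) (nat_lit 59) (nat_lit 4) (nat_lit 495) (nat_lit 458) (nat_lit 247)) (XT.lf (nat_lit 0) (nat_lit 412088454310) (nat_lit 228) (nat_lit 1355198021766) (nat_lit 76) (nat_lit 276344720788) (nat_lit 54) (nat_lit 5) (nat_lit 57) (nat_lit 5) (nat_lit 55) (nat_lit 4) (nat_lit 496) (nat_lit 458) (nat_lit 246))))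 (XT.nd (nat_lit 59592) (nat_lit 0) (nat_lit 7220) (XT.nd (nat_lit 59514) (nat_lit 0) (nat_lit 7144) (XT.lf (nat_lit 0) (nat_lit 613495234732) (nat_lit 76) (nat_lit 758931400003) (nat_lit 152) (nat_lit 779911902402) (nat_lit 53) (nat_lit 5) (nat_lit 54) (nat_lit 5) (nat_lit 55) (nat_lit 4) (nat_lit 497) (nat_lit 458) (nat_lit 245)) (XT.lf (nat_lit 0) (nat_lit 79156009651) (nat_lit 836) (nat_lit 55587893796) (nat_lit 836) (nat_lit 55587893796) (nat_lit 147) (nat_lit 3) (nat_lit 158) (nat_lit 3) (nat_lit 158) (nat_lit 5) (nat_lit 459) (nat_lit 459) (nat_lit 282))) (XT.nd (nat_lit 78) (nat_lit 0) (nat_lit 0) (XT.lf (nat_lit 0) (nat_lit 168184238312) (nat_lit 760) (nat_lit 198996541011) (nat_lit 836) (nat_lit 28532371925) (nat_lit 148) (nat_lit 5) (nat_lit 158) (nat_lit 5) (nat_lit 159) (nat_lit 5) (nat_lit 460) (nat_lit 459) (nat_lit 281)) (XT.lf (nat_lit 76) (nat_lit 120625533514) (nat_lit 0) (nat_lit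 66616349061) (nat_lit 836) (nat_lit 224305007598) (nat_lit 149) (nat_lit 5) (nat_lit 148) (nat_lit 5) (nat_lit 159) (nat_lit 5) (nat_lit 461) (nat_lit 459) (nat_lit 280))))) (XT.nd (nat_lit 312) (nat_lit 1748) (nat_lit 0) (XT.nd (nat_lit 156) (nat_lit 0) (nat_lit 152) (XT.nd (nat_lit 78) (nat_lit 0) (nat_lit 76) (XT.lf (nat_lit 76) (nat_lit 41699236404) (nat_lit 0) (nat_lit 174327093935) (nat_lit 836) (nat_lit 212210888285) (nat_lit 150) (nat_lit 5) (nat_lit 149) (nat_lit 5) (nat_lit 160) (nat_lit 5) (nat_lit 462) (nat_lit 459) (nat_lit 279)) (XT.lf (nat_lit 0) (nat_lit 255735494349) (nat_lit 760) (nat_lit 38245609158) (nat_lit 836) (nat_lit 151850571832) (nat_lit 150) (nat_lit 5) (nat_lit 160) (nat_lit 5) (nat_lit 161) (nat_lit 5) (nat_lit 463) (nat_lit 459) (nat_lit 278))) (XT.nd (nat_lit 78) (nat_lit 0) (nat_lit 0) (XT.lf (nat_lit 0) (nat_lit 307573751809) (nat_lit 760) (nat_lit 118980490115)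 (nat_lit 836) (nat_lit 37831828659) (nat_lit 151) (nat_lit 5) (nat_lit 161) (nat_lit 5) (nat_lit 162) (nat_lit 5) (nat_lit 464) (nat_lit 459) (nat_lit 277)) (XT.lf (nat_lit 76) (nat_lit 280740524144) (nat_lit 0) (nat_lit 92835833646) (nat_lit 836) (nat_lit 110347595269) (nat_lit 152) (nat_lit 5) (nat_lit 151) (nat_lit 5) (nat_lit 162) (nat_lit 5) (nat_lit 465) (nat_lit 459) (nat_lit 276)))) (XT.nd (nat_lit 156) (nat_lit 760) (nat_lit 0) (XT.nd (nat_lit 78) (nat_lit 456) (nat_lit 0) (XT.lf (nat_lit 0) (nat_lit 214417749133) (nat_lit 760) (nat_lit 240073250470) (nat_lit 836) (nat_lit 50052275168) (nat_lit 142) (nat_lit 5) (nat_lit 152) (nat_lit 5) (nat_lit 153) (nat_lit 5) (nat_lit 466) (nat_lit 459) (nat_lit 275)) (XT.lf (nat_lit 0) (nat_lit 24053757528) (nat_lit 456) (nat_lit 379450660472) (nat_lit 76) (nat_lit 122822496853) (nat_lit 136) (nat_lit 5) (nat_lit 142) (nat_lit 5) (nat_lit 137) (nat_lit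 5) (nat_lit 467) (nat_lit 459) (nat_lit 274))) (XT.nd (nat_lit 78) (nat_lit 380) (nat_lit 0) (XT.lf (nat_lit 0) (nat_lit 77090342928) (nat_lit 380) (nat_lit 35656060378) (nat_lit 456) (nat_lit 436545230468) (nat_lit 131) (nat_lit 5) (nat_lit 136) (nat_lit 5) (nat_lit 137) (nat_lit 5) (nat_lit 468) (nat_lit 459) (nat_lit 273)) (XT.lf (nat_lit 0) (nat_lit 4325793687) (nat_lit 380) (nat_lit 216640210671) (nat_lit 456) (nat_lit 352505948676) (nat_lit 126) (nat_lit 5) (nat_lit 131) (nat_lit 5) (nat_lit 132) (nat_lit 5) (nat_lit 469) (nat_lit 459) (nat_lit 272))))))) (XT.nd (nat_lit 1170) (nat_lit 1900) (nat_lit 0) (XT.nd (nat_lit 546) (nat_lit 1520) (nat_lit 0) (XT.nd (nat_lit 234) (nat_lit 1140) (nat_lit 0) (XT.nd (nat_lit 78) (nat_lit 684) (nat_lit 0) (XT.lf (nat_lit 0) (nat_lit 349603992399) (nat_lit 456) (nat_lit 66873684627) (nat_lit 76) (nat_lit 182520979868) (nat_lit 126) (nat_lit 5) (nat_lit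 132) (nat_lit 5) (nat_lit 127) (nat_lit 5) (nat_lit 470) (nat_lit 459) (nat_lit 271)) (XT.nd (nat_lit 78) (nat_lit 380) (nat_lit 0) (XT.lf (nat_lit 0) (nat_lit 487531655580) (nat_lit 304) (nat_lit 12266013053) (nat_lit 380) (nat_lit 126206595978) (nat_lit 122) (nat_lit 5) (nat_lit 126) (nat_lit 5) (nat_lit 127) (nat_lit 5) (nat_lit 471) (nat_lit 459) (nat_lit 270)) (XT.lf (nat_lit 0) (nat_lit 21552630735) (nat_lit 380) (nat_lit 213745265126) (nat_lit 76) (nat_lit 419120342029) (nat_lit 117) (nat_lit 5) (nat_lit 122) (nat_lit 5) (nat_lit 118) (nat_lit 5) (nat_lit 472) (nat_lit 459) (nat_lit 269)))) (XT.nd (nat_lit 156) (nat_lit 532) (nat_lit 0) (XT.nd (nat_lit 78) (nat_lit 304) (nat_lit 0) (XT.lf (nat_lit 0) (nat_lit 188909046126) (nat_lit 380) (nat_lit 291423967802) (nat_lit 76) (nat_lit 204058961332) (nat_lit 113) (nat_lit 5) (nat_lit 118) (nat_lit 5) (nat_lit 114) (nat_lit 5) (nat_lit 473)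 (nat_lit 459) (nat_lit 268)) (XT.lf (nat_lit 0) (nat_lit 346329755474) (nat_lit 304) (nat_lit 36483261183) (nat_lit 380) (nat_lit 333292642871) (nat_lit 109) (nat_lit 5) (nat_lit 113) (nat_lit 5) (nat_lit 114) (nat_lit 5) (nat_lit 474) (nat_lit 459) (nat_lit 267))) (XT.nd (nat_lit 78) (nat_lit 304) (nat_lit 0) (XT.lf (nat_lit 0) (nat_lit 297946182773) (nat_lit 228) (nat_lit 311009016752) (nat_lit 304) (nat_lit 140564944282) (nat_lit 106) (nat_lit 5) (nat_lit 109) (nat_lit 5) (nat_lit 110) (nat_lit 5) (nat_lit 475) (nat_lit 459) (nat_lit 266)) (XT.lf (nat_lit 0) (nat_lit 79295636944) (nat_lit 304) (nat_lit 534422208817) (nat_lit 76) (nat_lit 171143300660) (nat_lit 102) (nat_lit 5) (nat_lit 106) (nat_lit 5) (nat_lit 103) (nat_lit 5) (nat_lit 476) (nat_lit 459) (nat_lit 265))))) (XT.nd (nat_lit 312) (nat_lit 608) (nat_lit 0) (XT.nd (nat_lit 156) (nat_lit 456) (nat_lit 0) (XT.nd (nat_lit 78) (nat_lit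 228) (nat_lit 0) (XT.lf (nat_lit 0) (nat_lit 200785337932) (nat_lit 228) (nat_lit 127474909285) (nat_lit 304) (nat_lit 493831970189) (nat_lit 99) (nat_lit 5) (nat_lit 102) (nat_lit 5) (nat_lit 103) (nat_lit 5) (nat_lit 477) (nat_lit 459) (nat_lit 264)) (XT.lf (nat_lit 0) (nat_lit 150513234947) (nat_lit 228) (nat_lit 464649304143) (nat_lit 304) (nat_lit 246238209344) (nat_lit 96) (nat_lit 5) (nat_lit 99) (nat_lit 5) (nat_lit 100) (nat_lit 5) (nat_lit 478) (nat_lit 459) (nat_lit 263))) (XT.nd (nat_lit 78) (nat_lit 228) (nat_lit 0) (XT.lf (nat_lit 0) (nat_lit 36320264792) (nat_lit 228) (nat_lit 800554656416) (nat_lit 76) (nat_lit 66170791896) (nat_lit 93) (nat_lit 5) (nat_lit 96) (nat_lit 5) (nat_lit 94) (nat_lit 5) (nat_lit 479) (nat_lit 459) (nat_lit 262)) (XT.lf (nat_lit 0) (nat_lit 48277646401) (nat_lit 228) (nat_lit 305868884152) (nat_lit 304) (nat_lit 592609404747) (nat_lit 90) (nat_lit 5)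 (nat_lit 93) (nat_lit 5) (nat_lit 94) (nat_lit 5) (nat_lit 480) (nat_lit 459) (nat_lit 261)))) (XT.nd (nat_lit 156) (nat_lit 380) (nat_lit 0) (XT.nd (nat_lit 78) (nat_lit 228) (nat_lit 0) (XT.lf (nat_lit 0) (nat_lit 715750890923) (nat_lit 304) (nat_lit 4068541452) (nat_lit 76) (nat_lit 273225943229) (nat_lit 90) (nat_lit 5) (nat_lit 94) (nat_lit 5) (nat_lit 91) (nat_lit 5) (nat_lit 481) (nat_lit 459) (nat_lit 260)) (XT.lf (nat_lit 0) (nat_lit 82147614138) (nat_lit 228) (nat_lit 54963023948) (nat_lit 76) (nat_lit 904831648961) (nat_lit 87) (nat_lit 5) (nat_lit 90) (nat_lit 5) (nat_lit 88) (nat_lit 5) (nat_lit 482) (nat_lit 459) (nat_lit 259))) (XT.nd (nat_lit 78) (nat_lit 152) (nat_lit 0) (XT.lf (nat_lit 0) (nat_lit 484300051775) (nat_lit 304) (nat_lit 112048212155) (nat_lit 76) (nat_lit 496991895970) (nat_lit 84) (nat_lit 5) (nat_lit 88) (nat_lit 5) (nat_lit 85) (nat_lit 5) (nat_lit 483) (nat_lit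 459) (nat_lit 258)) (XT.lf (nat_lit 0) (nat_lit 937963035326) (nat_lit 228) (nat_lit 165894535756) (nat_lit 76) (nat_lit 44025373957) (nat_lit 82) (nat_lit 5) (nat_lit 85) (nat_lit 5) (nat_lit 83) (nat_lit 5) (nat_lit 484) (nat_lit 459) (nat_lit 257)))))) (XT.nd (nat_lit 546) (nat_lit 684) (nat_lit 0) (XT.nd (nat_lit 234) (nat_lit 684) (nat_lit 0) (XT.nd (nat_lit 78) (nat_lit 304) (nat_lit 0) (XT.lf (nat_lit 0) (nat_lit 241875433660) (nat_lit 228) (nat_lit 227114847664) (nat_lit 76) (nat_lit 736235095437) (nat_lit 79) (nat_lit 5) (nat_lit 82) (nat_lit 5) (nat_lit 80) (nat_lit 5) (nat_lit 485) (nat_lit 459) (nat_lit 256)) (XT.nd (nat_lit 78) (nat_lit 152) (nat_lit 0) (XT.lf (nat_lit 0) (nat_lit 744540992838) (nat_lit 228) (nat_lit 289466666476) (nat_lit 76) (nat_lit 231871420239) (nat_lit 77) (nat_lit 5) (nat_lit 80) (nat_lit 5) (nat_lit 78) (nat_lit 5) (nat_lit 486) (nat_lit 459) (nat_lit 255))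 (XT.lf (nat_lit 0) (nat_lit 976423516428) (nat_lit 152) (nat_lit 338170053268) (nat_lit 228) (nat_lit 15432820227) (nat_lit 75) (nat_lit 5) (nat_lit 77) (nat_lit 5) (nat_lit 78) (nat_lit 5) (nat_lit 487) (nat_lit 459) (nat_lit 254)))) (XT.nd (nat_lit 156) (nat_lit 304) (nat_lit 0) (XT.nd (nat_lit 78) (nat_lit 152) (nat_lit 0) (XT.lf (nat_lit 0) (nat_lit 541265833027) (nat_lit 228) (nat_lit 427003426631) (nat_lit 76) (nat_lit 429256022745) (nat_lit 72) (nat_lit 5) (nat_lit 75) (nat_lit 5) (nat_lit 73) (nat_lit 5) (nat_lit 488) (nat_lit 459) (nat_lit 253)) (XT.lf (nat_lit 0) (nat_lit 968006352700) (nat_lit 152) (nat_lit 201036514221) (nat_lit 228) (nat_lit 300014410546) (nat_lit 70) (nat_lit 5) (nat_lit 72) (nat_lit 5) (nat_lit 73) (nat_lit 5) (nat_lit 489) (nat_lit 459) (nat_lit 252))) (XT.nd (nat_lit 78) (nat_lit 152) (nat_lit 0) (XT.lf (nat_lit 0) (nat_lit 324059351791) (nat_lit 152) (nat_lit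 585030053922) (nat_lit 76) (nat_lit 635339946047) (nat_lit 68) (nat_lit 5) (nat_lit 70) (nat_lit 5) (nat_lit 69) (nat_lit 5) (nat_lit 490) (nat_lit 459) (nat_lit 251)) (XT.lf (nat_lit 0) (nat_lit 951030278407) (nat_lit 152) (nat_lit 63767356579) (nat_lit 228) (nat_lit 609425160389) (nat_lit 66) (nat_lit 5) (nat_lit 68) (nat_lit 5) (nat_lit 69) (nat_lit 5) (nat_lit 491) (nat_lit 459) (nat_lit 250))))) (XT.nd (nat_lit 312) (nat_lit 76) (nat_lit 0) (XT.nd (nat_lit 156) (nat_lit 304) (nat_lit 0) (XT.nd (nat_lit 78) (nat_lit 152) (nat_lit 0) (XT.lf (nat_lit 0) (nat_lit 87663322432) (nat_lit 152) (nat_lit 772341874456) (nat_lit 76) (nat_lit 848411126058) (nat_lit 64) (nat_lit 5) (nat_lit 66) (nat_lit 5) (nat_lit 65) (nat_lit 5) (nat_lit 492) (nat_lit 459) (nat_lit 249)) (XT.lf (nat_lit 0) (nat_lit 847866022694) (nat_lit 228) (nat_lit 881390052016) (nat_lit 76) (nat_lit 68154807804) (nat_lit 62) (nat_lit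 5) (nat_lit 65) (nat_lit 5) (nat_lit 63) (nat_lit 4) (nat_lit 493) (nat_lit 459) (nat_lit 248))) (XT.nd (nat_lit 78) (nat_lit 228) (nat_lit 0) (XT.lf (nat_lit 0) (nat_lit 887876051917) (nat_lit 76) (nat_lit 823046615231) (nat_lit 152) (nat_lit 180500453290) (nat_lit 61) (nat_lit 5) (nat_lit 62) (nat_lit 5) (nat_lit 63) (nat_lit 4) (nat_lit 494) (nat_lit 459) (nat_lit 247)) (XT.lf (nat_lit 0) (nat_lit 661285381495) (nat_lit 228) (nat_lit 1139141569517) (nat_lit 76) (nat_lit 190420712823) (nat_lit 58) (nat_lit 5) (nat_lit 61) (nat_lit 5) (nat_lit 59) (nat_lit 4) (nat_lit 495) (nat_lit 459) (nat_lit 246)))) (XT.nd (nat_lit 59748) (nat_lit 0) (nat_lit 6916) (XT.nd (nat_lit 59670) (nat_lit 0) (nat_lit 6840) (XT.lf (nat_lit 0) (nat_lit 802335240764) (nat_lit 76) (nat_lit 806012006254) (nat_lit 152) (nat_lit 487518121466) (nat_lit 57) (nat_lit 5) (nat_lit 58) (nat_lit 5) (nat_lit 59) (nat_lit 4) (nat_lit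 496) (nat_lit 459) (nat_lit 245)) (XT.lf (nat_lit 0) (nat_lit 85489170515) (nat_lit 836) (nat_lit 60034568199) (nat_lit 836) (nat_lit 60034568199) (nat_lit 147) (nat_lit 3) (nat_lit 158) (nat_lit 3) (nat_lit 158) (nat_lit 5) (nat_lit 460) (nat_lit 460) (nat_lit 280))) (XT.nd (nat_lit 78) (nat_lit 0) (nat_lit 0) (XT.lf (nat_lit 0) (nat_lit 181640238309) (nat_lit 760) (nat_lit 214915508265) (nat_lit 836) (nat_lit 30814393532) (nat_lit 148) (nat_lit 5) (nat_lit 158) (nat_lit 5) (nat_lit 159) (nat_lit 5) (nat_lit 461) (nat_lit 460) (nat_lit 279)) (XT.lf (nat_lit 76) (nat_lit 130276299366) (nat_lit 0) (nat_lit 71946112635) (nat_lit 836) (nat_lit 242248170264) (nat_lit 149) (nat_lit 5) (nat_lit 148) (nat_lit 5) (nat_lit 159) (nat_lit 5) (nat_lit 462) (nat_lit 460) (nat_lit 278))))))))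
noncomputable def xc118 : XT := (XT.nd (nat_lit 2262) (nat_lit 760) (nat_lit 0) (XT.nd (nat_lit 1092) (nat_lit 2888) (nat_lit 0) (XT.nd (nat_lit 546) (nat_lit 1900) (nat_lit 0) (XT.nd (nat_lit 234) (nat_lit 1368) (nat_lit 0) (XT.nd (nat_lit 78) (nat_lit 0) (nat_lit 76) (XT.lf (nat_lit 76) (nat_lit 45035930416) (nat_lit 0) (nat_lit 188273603053) (nat_lit 836) (nat_lit 229186607643) (nat_lit 150) (nat_lit 5) (nat_lit 149) (nat_lit 5) (nat_lit 160) (nat_lit 5) (nat_lit 463) (nat_lit 460) (nat_lit 277)) (XT.nd (nat_lit 78) (nat_lit 0) (nat_lit 76) (XT.lf (nat_lit 0) (nat_lit 276195344424) (nat_lit 760) (nat_lit 41304502858) (nat_lit 836) (nat_lit 163998311402) (nat_lit 150) (nat_lit 5) (nat_lit 160) (nat_lit 5) (nat_lit 161) (nat_lit 5) (nat_lit 464) (nat_lit 460) (nat_lit 276)) (XT.lf (nat_lit 0) (nat_lit 332180595394) (nat_lit 760) (nat_lit 128498156106) (nat_lit 836) (nat_lit 40858157415) (nat_lit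 151) (nat_lit 5) (nat_lit 161) (nat_lit 5) (nat_lit 162) (nat_lit 5) (nat_lit 465) (nat_lit 460) (nat_lit 275)))) (XT.nd (nat_lit 156) (nat_lit 836) (nat_lit 0) (XT.nd (nat_lit 78) (nat_lit 684) (nat_lit 0) (XT.lf (nat_lit 76) (nat_lit 303200505691) (nat_lit 0) (nat_lit 100262845825) (nat_lit 836) (nat_lit 119174473399) (nat_lit 152) (nat_lit 5) (nat_lit 151) (nat_lit 5) (nat_lit 162) (nat_lit 5) (nat_lit 466) (nat_lit 460) (nat_lit 274)) (XT.lf (nat_lit 0) (nat_lit 231571921168) (nat_lit 760) (nat_lit 259279187583) (nat_lit 836) (nat_lit 54055586421) (nat_lit 142) (nat_lit 5) (nat_lit 152) (nat_lit 5) (nat_lit 153) (nat_lit 5) (nat_lit 467) (nat_lit 460) (nat_lit 273))) (XT.nd (nat_lit 78) (nat_lit 380) (nat_lit 0) (XT.lf (nat_lit 0) (nat_lit 25978849518) (nat_lit 456) (nat_lit 409805926691) (nat_lit 76) (nat_lit 132648252155) (nat_lit 136) (nat_lit 5) (nat_lit 142) (nat_lit 5) (nat_lit 137)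 (nat_lit 5) (nat_lit 468) (nat_lit 460) (nat_lit 272)) (XT.lf (nat_lit 0) (nat_lit 83258322796) (nat_lit 380) (nat_lit 38508537289) (nat_lit 456) (nat_lit 471468067066) (nat_lit 131) (nat_lit 5) (nat_lit 136) (nat_lit 5) (nat_lit 137) (nat_lit 5) (nat_lit 469) (nat_lit 460) (nat_lit 271))))) (XT.nd (nat_lit 234) (nat_lit 1216) (nat_lit 0) (XT.nd (nat_lit 78) (nat_lit 304) (nat_lit 0) (XT.lf (nat_lit 0) (nat_lit 4672612502) (nat_lit 380) (nat_lit 233971373477) (nat_lit 456) (nat_lit 380705688141) (nat_lit 126) (nat_lit 5) (nat_lit 131) (nat_lit 5) (nat_lit 132) (nat_lit 5) (nat_lit 470) (nat_lit 460) (nat_lit 270)) (XT.nd (nat_lit 78) (nat_lit 304) (nat_lit 0) (XT.lf (nat_lit 0) (nat_lit 377572961899) (nat_lit 456) (nat_lit 72222848256) (nat_lit 76) (nat_lit 197122706700) (nat_lit 126) (nat_lit 5) (nat_lit 132) (nat_lit 5) (nat_lit 127) (nat_lit 5) (nat_lit 471) (nat_lit 460) (nat_lit 269)) (XT.lf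 (nat_lit 0) (nat_lit 526534887393) (nat_lit 304) (nat_lit 13247207601) (nat_lit 380) (nat_lit 136302480063) (nat_lit 122) (nat_lit 5) (nat_lit 126) (nat_lit 5) (nat_lit 127) (nat_lit 5) (nat_lit 472) (nat_lit 460) (nat_lit 268)))) (XT.nd (nat_lit 156) (nat_lit 532) (nat_lit 0) (XT.nd (nat_lit 78) (nat_lit 304) (nat_lit 0) (XT.lf (nat_lit 0) (nat_lit 23277430373) (nat_lit 380) (nat_lit 230844169716) (nat_lit 76) (nat_lit 452650067303) (nat_lit 117) (nat_lit 5) (nat_lit 122) (nat_lit 5) (nat_lit 118) (nat_lit 5) (nat_lit 473) (nat_lit 460) (nat_lit 267)) (XT.lf (nat_lit 0) (nat_lit 204022328072) (nat_lit 380) (nat_lit 314737173890) (nat_lit 76) (nat_lit 220383803341) (nat_lit 113) (nat_lit 5) (nat_lit 118) (nat_lit 5) (nat_lit 114) (nat_lit 5) (nat_lit 474) (nat_lit 460) (nat_lit 266))) (XT.nd (nat_lit 78) (nat_lit 228) (nat_lit 0) (XT.lf (nat_lit 0) (nat_lit 374036816334) (nat_lit 304) (nat_lit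 39401769183) (nat_lit 380) (nat_lit 359955500337) (nat_lit 109) (nat_lit 5) (nat_lit 113) (nat_lit 5) (nat_lit 114) (nat_lit 5) (nat_lit 475) (nat_lit 460) (nat_lit 265)) (XT.lf (nat_lit 0) (nat_lit 321782551251) (nat_lit 228) (nat_lit 335889565419) (nat_lit 304) (nat_lit 151809613527) (nat_lit 106) (nat_lit 5) (nat_lit 109) (nat_lit 5) (nat_lit 110) (nat_lit 5) (nat_lit 476) (nat_lit 460) (nat_lit 264)))))) (XT.nd (nat_lit 546) (nat_lit 1444) (nat_lit 0) (XT.nd (nat_lit 234) (nat_lit 684) (nat_lit 0) (XT.nd (nat_lit 78) (nat_lit 456) (nat_lit 0) (XT.lf (nat_lit 0) (nat_lit 85639772721) (nat_lit 304) (nat_lit 577175303427) (nat_lit 76) (nat_lit 184834937697) (nat_lit 102) (nat_lit 5) (nat_lit 106) (nat_lit 5) (nat_lit 103) (nat_lit 5) (nat_lit 477) (nat_lit 460) (nat_lit 263)) (XT.nd (nat_lit 78) (nat_lit 228) (nat_lit 0) (XT.lf (nat_lit 0) (nat_lit 216848817419) (nat_lit 228) (nat_lit 137672708671)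 (nat_lit 304) (nat_lit 533338045709) (nat_lit 99) (nat_lit 5) (nat_lit 102) (nat_lit 5) (nat_lit 103) (nat_lit 5) (nat_lit 478) (nat_lit 460) (nat_lit 262)) (XT.lf (nat_lit 0) (nat_lit 162554936953) (nat_lit 228) (nat_lit 501821043189) (nat_lit 304) (nat_lit 265936806228) (nat_lit 96) (nat_lit 5) (nat_lit 99) (nat_lit 5) (nat_lit 100) (nat_lit 5) (nat_lit 479) (nat_lit 460) (nat_lit 261)))) (XT.nd (nat_lit 156) (nat_lit 228) (nat_lit 0) (XT.nd (nat_lit 78) (nat_lit 228) (nat_lit 0) (XT.lf (nat_lit 0) (nat_lit 39226311212) (nat_lit 228) (nat_lit 864598381656) (nat_lit 76) (nat_lit 71464655987) (nat_lit 93) (nat_lit 5) (nat_lit 96) (nat_lit 5) (nat_lit 94) (nat_lit 5) (nat_lit 480) (nat_lit 460) (nat_lit 260)) (XT.lf (nat_lit 0) (nat_lit 52140477257) (nat_lit 228) (nat_lit 330338179143) (nat_lit 304) (nat_lit 640017733519) (nat_lit 90) (nat_lit 5) (nat_lit 93) (nat_lit 5) (nat_lit 94) (nat_lit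 5) (nat_lit 481) (nat_lit 460) (nat_lit 259))) (XT.nd (nat_lit 78) (nat_lit 228) (nat_lit 0) (XT.lf (nat_lit 0) (nat_lit 773011338837) (nat_lit 304) (nat_lit 4393435898) (nat_lit 76) (nat_lit 295084212054) (nat_lit 90) (nat_lit 5) (nat_lit 94) (nat_lit 5) (nat_lit 91) (nat_lit 5) (nat_lit 482) (nat_lit 460) (nat_lit 258)) (XT.lf (nat_lit 0) (nat_lit 88719786694) (nat_lit 228) (nat_lit 59359490540) (nat_lit 76) (nat_lit 977218374577) (nat_lit 87) (nat_lit 5) (nat_lit 90) (nat_lit 5) (nat_lit 88) (nat_lit 5) (nat_lit 483) (nat_lit 460) (nat_lit 257))))) (XT.nd (nat_lit 312) (nat_lit 684) (nat_lit 0) (XT.nd (nat_lit 156) (nat_lit 380) (nat_lit 0) (XT.nd (nat_lit 78) (nat_lit 152) (nat_lit 0) (XT.lf (nat_lit 0) (nat_lit 523044404218) (nat_lit 304) (nat_lit 121011504730) (nat_lit 76) (nat_lit 536751446303) (nat_lit 84) (nat_lit 5) (nat_lit 88) (nat_lit 5) (nat_lit 85) (nat_lit 5) (nat_lit 484) (nat_lit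 460) (nat_lit 256)) (XT.lf (nat_lit 0) (nat_lit 1013000412344) (nat_lit 228) (nat_lit 179165545439) (nat_lit 76) (nat_lit 47547606125) (nat_lit 82) (nat_lit 5) (nat_lit 85) (nat_lit 5) (nat_lit 83) (nat_lit 5) (nat_lit 485) (nat_lit 460) (nat_lit 255))) (XT.nd (nat_lit 78) (nat_lit 152) (nat_lit 0) (XT.lf (nat_lit 0) (nat_lit 261225791281) (nat_lit 228) (nat_lit 245283495641) (nat_lit 76) (nat_lit 795134103813) (nat_lit 79) (nat_lit 5) (nat_lit 82) (nat_lit 5) (nat_lit 80) (nat_lit 5) (nat_lit 486) (nat_lit 460) (nat_lit 254)) (XT.lf (nat_lit 0) (nat_lit 804104582602) (nat_lit 228) (nat_lit 312623471314) (nat_lit 76) (nat_lit 250421336465) (nat_lit 77) (nat_lit 5) (nat_lit 80) (nat_lit 5) (nat_lit 78) (nat_lit 5) (nat_lit 487) (nat_lit 460) (nat_lit 253)))) (XT.nd (nat_lit 156) (nat_lit 304) (nat_lit 0) (XT.nd (nat_lit 78) (nat_lit 228) (nat_lit 0) (XT.lf (nat_lit 0) (nat_lit 1054537903255)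 (nat_lit 152) (nat_lit 365223447257) (nat_lit 228) (nat_lit 16667135823) (nat_lit 75) (nat_lit 5) (nat_lit 77) (nat_lit 5) (nat_lit 78) (nat_lit 5) (nat_lit 488) (nat_lit 460) (nat_lit 252)) (XT.lf (nat_lit 0) (nat_lit 584567388476) (nat_lit 228) (nat_lit 461163196654) (nat_lit 76) (nat_lit 463596705408) (nat_lit 72) (nat_lit 5) (nat_lit 75) (nat_lit 5) (nat_lit 73) (nat_lit 5) (nat_lit 489) (nat_lit 460) (nat_lit 251))) (XT.nd (nat_lit 78) (nat_lit 152) (nat_lit 0) (XT.lf (nat_lit 0) (nat_lit 1045447343116) (nat_lit 152) (nat_lit 217119228102) (nat_lit 228) (nat_lit 324015274686) (nat_lit 70) (nat_lit 5) (nat_lit 72) (nat_lit 5) (nat_lit 73) (nat_lit 5) (nat_lit 490) (nat_lit 460) (nat_lit 250)) (XT.lf (nat_lit 0) (nat_lit 349984369222) (nat_lit 152) (nat_lit 631831978006) (nat_lit 76) (nat_lit 686167339196) (nat_lit 68) (nat_lit 5) (nat_lit 70) (nat_lit 5) (nat_lit 69) (nat_lit 5) (nat_lit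 491) (nat_lit 460) (nat_lit 249))))))) (XT.nd (nat_lit 60840) (nat_lit 0) (nat_lit 1976) (XT.nd (nat_lit 60216) (nat_lit 0) (nat_lit 5548) (XT.nd (nat_lit 234) (nat_lit 304) (nat_lit 0) (XT.nd (nat_lit 78) (nat_lit 304) (nat_lit 0) (XT.lf (nat_lit 0) (nat_lit 1027113160039) (nat_lit 152) (nat_lit 68868542258) (nat_lit 228) (nat_lit 658178903870) (nat_lit 66) (nat_lit 5) (nat_lit 68) (nat_lit 5) (nat_lit 69) (nat_lit 5) (nat_lit 492) (nat_lit 460) (nat_lit 248)) (XT.nd (nat_lit 78) (nat_lit 152) (nat_lit 0) (XT.lf (nat_lit 0) (nat_lit 94676639742) (nat_lit 152) (nat_lit 834128767439) (nat_lit 76) (nat_lit 916284209014) (nat_lit 64) (nat_lit 5) (nat_lit 66) (nat_lit 5) (nat_lit 65) (nat_lit 5) (nat_lit 493) (nat_lit 460) (nat_lit 247)) (XT.lf (nat_lit 0) (nat_lit 915695547301) (nat_lit 228) (nat_lit 951900810150) (nat_lit 76) (nat_lit 73607383514) (nat_lit 62) (nat_lit 5) (nat_lit 65) (nat_lit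 5) (nat_lit 63) (nat_lit 4) (nat_lit 494) (nat_lit 460) (nat_lit 246)))) (XT.nd (nat_lit 59826) (nat_lit 0) (nat_lit 6764) (XT.nd (nat_lit 78) (nat_lit 228) (nat_lit 0) (XT.lf (nat_lit 0) (nat_lit 958906562714) (nat_lit 76) (nat_lit 888890149274) (nat_lit 152) (nat_lit 194940246503) (nat_lit 61) (nat_lit 5) (nat_lit 62) (nat_lit 5) (nat_lit 63) (nat_lit 4) (nat_lit 495) (nat_lit 460) (nat_lit 245)) (XT.lf (nat_lit 0) (nat_lit 714188439332) (nat_lit 228) (nat_lit 1230272471288) (nat_lit 76) (nat_lit 205654554949) (nat_lit 58) (nat_lit 5) (nat_lit 61) (nat_lit 5) (nat_lit 59) (nat_lit 4) (nat_lit 496) (nat_lit 460) (nat_lit 244))) (XT.nd (nat_lit 78) (nat_lit 0) (nat_lit 76) (XT.lf (nat_lit 0) (nat_lit 92328887226) (nat_lit 836) (nat_lit 64837027498) (nat_lit 836) (nat_lit 64837027498) (nat_lit 147) (nat_lit 3) (nat_lit 158) (nat_lit 3) (nat_lit 158) (nat_lit 5) (nat_lit 461) (nat_lit 461) (nat_lit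 278)) (XT.lf (nat_lit 0) (nat_lit 196172538420) (nat_lit 760) (nat_lit 232108100755) (nat_lit 836) (nat_lit 33279057921) (nat_lit 148) (nat_lit 5) (nat_lit 158) (nat_lit 5) (nat_lit 159) (nat_lit 5) (nat_lit 462) (nat_lit 461) (nat_lit 277))))) (XT.nd (nat_lit 312) (nat_lit 1292) (nat_lit 0) (XT.nd (nat_lit 156) (nat_lit 0) (nat_lit 152) (XT.nd (nat_lit 78) (nat_lit 0) (nat_lit 76) (XT.lf (nat_lit 76) (nat_lit 140699023317) (nat_lit 0) (nat_lit 77702192292) (nat_lit 836) (nat_lit 261626962550) (nat_lit 149) (nat_lit 5) (nat_lit 148) (nat_lit 5) (nat_lit 159) (nat_lit 5) (nat_lit 463) (nat_lit 461) (nat_lit 276)) (XT.lf (nat_lit 76) (nat_lit 48639452225) (nat_lit 0) (nat_lit 203335784167) (nat_lit 836) (nat_lit 247520548853) (nat_lit 150) (nat_lit 5) (nat_lit 149) (nat_lit 5) (nat_lit 160) (nat_lit 5) (nat_lit 464) (nat_lit 461) (nat_lit 275))) (XT.nd (nat_lit 78) (nat_lit 0) (nat_lit 76) (XT.lf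 (nat_lit 0) (nat_lit 298291838342) (nat_lit 760) (nat_lit 44608215768) (nat_lit 836) (nat_lit 177117913818) (nat_lit 150) (nat_lit 5) (nat_lit 160) (nat_lit 5) (nat_lit 161) (nat_lit 5) (nat_lit 465) (nat_lit 461) (nat_lit 274)) (XT.lf (nat_lit 0) (nat_lit 358755851873) (nat_lit 760) (nat_lit 138777345684) (nat_lit 836) (nat_lit 44126623505) (nat_lit 151) (nat_lit 5) (nat_lit 161) (nat_lit 5) (nat_lit 162) (nat_lit 5) (nat_lit 466) (nat_lit 461) (nat_lit 273)))) (XT.nd (nat_lit 156) (nat_lit 836) (nat_lit 0) (XT.nd (nat_lit 78) (nat_lit 684) (nat_lit 0) (XT.lf (nat_lit 76) (nat_lit 327457180248) (nat_lit 0) (nat_lit 108283998223) (nat_lit 836) (nat_lit 128707634383) (nat_lit 152) (nat_lit 5) (nat_lit 151) (nat_lit 5) (nat_lit 162) (nat_lit 5) (nat_lit 467) (nat_lit 461) (nat_lit 272)) (XT.lf (nat_lit 0) (nat_lit 250098319670) (nat_lit 760) (nat_lit 280021588669) (nat_lit 836) (nat_lit 58379286797)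 (nat_lit 142) (nat_lit 5) (nat_lit 152) (nat_lit 5) (nat_lit 153) (nat_lit 5) (nat_lit 468) (nat_lit 461) (nat_lit 271))) (XT.nd (nat_lit 78) (nat_lit 380) (nat_lit 0) (XT.lf (nat_lit 0) (nat_lit 28057835968) (nat_lit 456) (nat_lit 442589726426) (nat_lit 76) (nat_lit 143260074222) (nat_lit 136) (nat_lit 5) (nat_lit 142) (nat_lit 5) (nat_lit 137) (nat_lit 5) (nat_lit 469) (nat_lit 461) (nat_lit 270)) (XT.lf (nat_lit 0) (nat_lit 89919633711) (nat_lit 380) (nat_lit 41589213482) (nat_lit 456) (nat_lit 509184842129) (nat_lit 131) (nat_lit 5) (nat_lit 136) (nat_lit 5) (nat_lit 137) (nat_lit 5) (nat_lit 470) (nat_lit 461) (nat_lit 269)))))) (XT.nd (nat_lit 546) (nat_lit 1672) (nat_lit 0) (XT.nd (nat_lit 234) (nat_lit 1216) (nat_lit 0) (XT.nd (nat_lit 78) (nat_lit 304) (nat_lit 0) (XT.lf (nat_lit 0) (nat_lit 5047069067) (nat_lit 380) (nat_lit 252689037018) (nat_lit 456) (nat_lit 411161511824) (nat_lit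 126) (nat_lit 5) (nat_lit 131) (nat_lit 5) (nat_lit 132) (nat_lit 5) (nat_lit 471) (nat_lit 461) (nat_lit 268)) (XT.nd (nat_lit 78) (nat_lit 304) (nat_lit 0) (XT.lf (nat_lit 0) (nat_lit 407779356213) (nat_lit 456) (nat_lit 78000049281) (nat_lit 76) (nat_lit 212892564767) (nat_lit 126) (nat_lit 5) (nat_lit 132) (nat_lit 5) (nat_lit 127) (nat_lit 5) (nat_lit 472) (nat_lit 461) (nat_lit 267)) (XT.lf (nat_lit 0) (nat_lit 568658277979) (nat_lit 304) (nat_lit 14306910052) (nat_lit 380) (nat_lit 147206126690) (nat_lit 122) (nat_lit 5) (nat_lit 126) (nat_lit 5) (nat_lit 127) (nat_lit 5) (nat_lit 473) (nat_lit 461) (nat_lit 266)))) (XT.nd (nat_lit 156) (nat_lit 532) (nat_lit 0) (XT.nd (nat_lit 78) (nat_lit 304) (nat_lit 0) (XT.lf (nat_lit 0) (nat_lit 25140129929) (nat_lit 380) (nat_lit 249311088907) (nat_lit 76) (nat_lit 488862156631) (nat_lit 117) (nat_lit 5) (nat_lit 122) (nat_lit 5) (nat_lit 118)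 (nat_lit 5) (nat_lit 474) (nat_lit 461) (nat_lit 265)) (XT.lf (nat_lit 0) (nat_lit 220344592933) (nat_lit 380) (nat_lit 339915537945) (nat_lit 76) (nat_lit 238014614863) (nat_lit 113) (nat_lit 5) (nat_lit 118) (nat_lit 5) (nat_lit 114) (nat_lit 5) (nat_lit 475) (nat_lit 461) (nat_lit 264))) (XT.nd (nat_lit 78) (nat_lit 228) (nat_lit 0) (XT.lf (nat_lit 0) (nat_lit 403960344993) (nat_lit 304) (nat_lit 42553779635) (nat_lit 380) (nat_lit 388751465429) (nat_lit 109) (nat_lit 5) (nat_lit 113) (nat_lit 5) (nat_lit 114) (nat_lit 5) (nat_lit 476) (nat_lit 461) (nat_lit 263)) (XT.lf (nat_lit 0) (nat_lit 347525733074) (nat_lit 228) (nat_lit 362760582613) (nat_lit 304) (nat_lit 163953931394) (nat_lit 106) (nat_lit 5) (nat_lit 109) (nat_lit 5) (nat_lit 110) (nat_lit 5) (nat_lit 477) (nat_lit 461) (nat_lit 262))))) (XT.nd (nat_lit 312) (nat_lit 684) (nat_lit 0) (XT.nd (nat_lit 156) (nat_lit 456) (nat_lit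 0) (XT.nd (nat_lit 78) (nat_lit 228) (nat_lit 0) (XT.lf (nat_lit 0) (nat_lit 92491370195) (nat_lit 304) (nat_lit 623348742914) (nat_lit 76) (nat_lit 199621881018) (nat_lit 102) (nat_lit 5) (nat_lit 106) (nat_lit 5) (nat_lit 103) (nat_lit 5) (nat_lit 478) (nat_lit 461) (nat_lit 261)) (XT.lf (nat_lit 0) (nat_lit 234197282185) (nat_lit 228) (nat_lit 148686359592) (nat_lit 304) (nat_lit 576004676047) (nat_lit 99) (nat_lit 5) (nat_lit 102) (nat_lit 5) (nat_lit 103) (nat_lit 5) (nat_lit 479) (nat_lit 461) (nat_lit 260))) (XT.nd (nat_lit 78) (nat_lit 228) (nat_lit 0) (XT.lf (nat_lit 0) (nat_lit 175559883358) (nat_lit 228) (nat_lit 541966550646) (nat_lit 304) (nat_lit 287211356467) (nat_lit 96) (nat_lit 5) (nat_lit 99) (nat_lit 5) (nat_lit 100) (nat_lit 5) (nat_lit 480) (nat_lit 461) (nat_lit 259)) (XT.lf (nat_lit 0) (nat_lit 42364780680) (nat_lit 228) (nat_lit 933765697255) (nat_lit 76) (nat_lit 77182000567)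 (nat_lit 93) (nat_lit 5) (nat_lit 96) (nat_lit 5) (nat_lit 94) (nat_lit 5) (nat_lit 481) (nat_lit 461) (nat_lit 258)))) (XT.nd (nat_lit 156) (nat_lit 456) (nat_lit 0) (XT.nd (nat_lit 78) (nat_lit 0) (nat_lit 0) (XT.lf (nat_lit 0) (nat_lit 56312246254) (nat_lit 228) (nat_lit 356765048512) (nat_lit 304) (nat_lit 691218789025) (nat_lit 90) (nat_lit 5) (nat_lit 93) (nat_lit 5) (nat_lit 94) (nat_lit 5) (nat_lit 482) (nat_lit 461) (nat_lit 257)) (XT.lf (nat_lit 0) (nat_lit 834852568853) (nat_lit 304) (nat_lit 4744405908) (nat_lit 76) (nat_lit 318691114799) (nat_lit 90) (nat_lit 5) (nat_lit 94) (nat_lit 5) (nat_lit 91) (nat_lit 5) (nat_lit 483) (nat_lit 461) (nat_lit 256))) (XT.nd (nat_lit 78) (nat_lit 228) (nat_lit 0) (XT.lf (nat_lit 0) (nat_lit 95817681208) (nat_lit 228) (nat_lit 64107756537) (nat_lit 76) (nat_lit 1055396010609) (nat_lit 87) (nat_lit 5) (nat_lit 90) (nat_lit 5) (nat_lit 88) (nat_lit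 5) (nat_lit 484) (nat_lit 461) (nat_lit 255)) (XT.lf (nat_lit 0) (nat_lit 564888255168) (nat_lit 304) (nat_lit 130691941228) (nat_lit 76) (nat_lit 579691732322) (nat_lit 84) (nat_lit 5) (nat_lit 88) (nat_lit 5) (nat_lit 85) (nat_lit 5) (nat_lit 485) (nat_lit 461) (nat_lit 254))))))))
noncomputable def xc119 : XT := (XT.nd (nat_lit 62088) (nat_lit 0) (nat_lit 76) (XT.nd (nat_lit 60918) (nat_lit 0) (nat_lit 2888) (XT.nd (nat_lit 546) (nat_lit 532) (nat_lit 0) (XT.nd (nat_lit 234) (nat_lit 684) (nat_lit 0) (XT.nd (nat_lit 78) (nat_lit 380) (nat_lit 0) (XT.lf (nat_lit 0) (nat_lit 1094040731847) (nat_lit 228) (nat_lit 193498314813) (nat_lit 76) (nat_lit 51351588014) (nat_lit 82) (nat_lit 5) (nat_lit 85) (nat_lit 5) (nat_lit 83) (nat_lit 5) (nat_lit 486) (nat_lit 461) (nat_lit 253)) (XT.nd (nat_lit 78) (nat_lit 152) (nat_lit 0) (XT.lf (nat_lit 0) (nat_lit 282124131442) (nat_lit 228) (nat_lit 264905712470)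 (nat_lit 76) (nat_lit 858745004220) (nat_lit 79) (nat_lit 5) (nat_lit 82) (nat_lit 5) (nat_lit 80) (nat_lit 5) (nat_lit 487) (nat_lit 461) (nat_lit 252)) (XT.lf (nat_lit 0) (nat_lit 868433215275) (nat_lit 228) (nat_lit 337632895932) (nat_lit 76) (nat_lit 270455217085) (nat_lit 77) (nat_lit 5) (nat_lit 80) (nat_lit 5) (nat_lit 78) (nat_lit 5) (nat_lit 488) (nat_lit 461) (nat_lit 251)))) (XT.nd (nat_lit 156) (nat_lit 304) (nat_lit 0) (XT.nd (nat_lit 78) (nat_lit 228) (nat_lit 0) (XT.lf (nat_lit 0) (nat_lit 1138901368912) (nat_lit 152) (nat_lit 394441142764) (nat_lit 228) (nat_lit 18000240894) (nat_lit 75) (nat_lit 5) (nat_lit 77) (nat_lit 5) (nat_lit 78) (nat_lit 5) (nat_lit 489) (nat_lit 461) (nat_lit 250)) (XT.lf (nat_lit 0) (nat_lit 631333027160) (nat_lit 228) (nat_lit 498055820195) (nat_lit 76) (nat_lit 500684614032) (nat_lit 72) (nat_lit 5) (nat_lit 75) (nat_lit 5) (nat_lit 73) (nat_lit 5)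 (nat_lit 490) (nat_lit 461) (nat_lit 249))) (XT.nd (nat_lit 78) (nat_lit 152) (nat_lit 0) (XT.lf (nat_lit 0) (nat_lit 1129083543974) (nat_lit 152) (nat_lit 234488588661) (nat_lit 228) (nat_lit 349936249143) (nat_lit 70) (nat_lit 5) (nat_lit 72) (nat_lit 5) (nat_lit 73) (nat_lit 5) (nat_lit 491) (nat_lit 461) (nat_lit 248)) (XT.lf (nat_lit 0) (nat_lit 377983349630) (nat_lit 152) (nat_lit 682378124527) (nat_lit 76) (nat_lit 741060895625) (nat_lit 68) (nat_lit 5) (nat_lit 70) (nat_lit 5) (nat_lit 69) (nat_lit 5) (nat_lit 492) (nat_lit 461) (nat_lit 247))))) (XT.nd (nat_lit 60060) (nat_lit 0) (nat_lit 6536) (XT.nd (nat_lit 156) (nat_lit 228) (nat_lit 0) (XT.nd (nat_lit 78) (nat_lit 152) (nat_lit 0) (XT.lf (nat_lit 0) (nat_lit 1109282606669) (nat_lit 152) (nat_lit 74377851730) (nat_lit 228) (nat_lit 710832985255) (nat_lit 66) (nat_lit 5) (nat_lit 68) (nat_lit 5) (nat_lit 69) (nat_lit 5) (nat_lit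 493) (nat_lit 461) (nat_lit 246)) (XT.lf (nat_lit 0) (nat_lit 102250986556) (nat_lit 152) (nat_lit 900858677053) (nat_lit 76) (nat_lit 989587111092) (nat_lit 64) (nat_lit 5) (nat_lit 66) (nat_lit 5) (nat_lit 65) (nat_lit 5) (nat_lit 494) (nat_lit 461) (nat_lit 245))) (XT.nd (nat_lit 78) (nat_lit 76) (nat_lit 0) (XT.lf (nat_lit 0) (nat_lit 988951399240) (nat_lit 228) (nat_lit 1028052492565) (nat_lit 76) (nat_lit 79496138021) (nat_lit 62) (nat_lit 5) (nat_lit 65) (nat_lit 5) (nat_lit 63) (nat_lit 4) (nat_lit 495) (nat_lit 461) (nat_lit 244)) (XT.lf (nat_lit 0) (nat_lit 1035619453509) (nat_lit 76) (nat_lit 960001193885) (nat_lit 152) (nat_lit 210535257846) (nat_lit 61) (nat_lit 5) (nat_lit 62) (nat_lit 5) (nat_lit 63) (nat_lit 4) (nat_lit 496) (nat_lit 461) (nat_lit 243)))) (XT.nd (nat_lit 156) (nat_lit 0) (nat_lit 76) (XT.nd (nat_lit 78) (nat_lit 0) (nat_lit 76) (XT.lf (nat_lit 0) (nat_lit 99715698092)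 (nat_lit 836) (nat_lit 70023727218) (nat_lit 836) (nat_lit 70023727218) (nat_lit 147) (nat_lit 3) (nat_lit 158) (nat_lit 3) (nat_lit 158) (nat_lit 5) (nat_lit 462) (nat_lit 462) (nat_lit 276)) (XT.lf (nat_lit 0) (nat_lit 211867268316) (nat_lit 760) (nat_lit 250676193113) (nat_lit 836) (nat_lit 35940964950) (nat_lit 148) (nat_lit 5) (nat_lit 158) (nat_lit 5) (nat_lit 159) (nat_lit 5) (nat_lit 463) (nat_lit 462) (nat_lit 275))) (XT.nd (nat_lit 78) (nat_lit 0) (nat_lit 76) (XT.lf (nat_lit 76) (nat_lit 151955476735) (nat_lit 0) (nat_lit 83918702592) (nat_lit 836) (nat_lit 282556209630) (nat_lit 149) (nat_lit 5) (nat_lit 148) (nat_lit 5) (nat_lit 159) (nat_lit 5) (nat_lit 464) (nat_lit 462) (nat_lit 274)) (XT.lf (nat_lit 76) (nat_lit 52531163423) (nat_lit 0) (nat_lit 219602897989) (nat_lit 836) (nat_lit 267321346224) (nat_lit 150) (nat_lit 5) (nat_lit 149) (nat_lit 5) (nat_lit 160) (nat_lit 5) (nat_lit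 465) (nat_lit 462) (nat_lit 273)))))) (XT.nd (nat_lit 546) (nat_lit 2052) (nat_lit 0) (XT.nd (nat_lit 234) (nat_lit 1824) (nat_lit 0) (XT.nd (nat_lit 78) (nat_lit 0) (nat_lit 76) (XT.lf (nat_lit 0) (nat_lit 322155928177) (nat_lit 760) (nat_lit 48176318058) (nat_lit 836) (nat_lit 191287121876) (nat_lit 150) (nat_lit 5) (nat_lit 160) (nat_lit 5) (nat_lit 161) (nat_lit 5) (nat_lit 466) (nat_lit 462) (nat_lit 272)) (XT.nd (nat_lit 78) (nat_lit 0) (nat_lit 0) (XT.lf (nat_lit 0) (nat_lit 387457013480) (nat_lit 760) (nat_lit 149878965000) (nat_lit 836) (nat_lit 47656593490) (nat_lit 151) (nat_lit 5) (nat_lit 161) (nat_lit 5) (nat_lit 162) (nat_lit 5) (nat_lit 467) (nat_lit 462) (nat_lit 271)) (XT.lf (nat_lit 76) (nat_lit 353654298307) (nat_lit 0) (nat_lit 116946825019) (nat_lit 836) (nat_lit 139003561930) (nat_lit 152) (nat_lit 5) (nat_lit 151) (nat_lit 5) (nat_lit 162) (nat_lit 5) (nat_lit 468) (nat_lit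 462) (nat_lit 270)))) (XT.nd (nat_lit 156) (nat_lit 760) (nat_lit 0) (XT.nd (nat_lit 78) (nat_lit 456) (nat_lit 0) (XT.lf (nat_lit 0) (nat_lit 270106738063) (nat_lit 760) (nat_lit 302423372415) (nat_lit 836) (nat_lit 63048989705) (nat_lit 142) (nat_lit 5) (nat_lit 152) (nat_lit 5) (nat_lit 153) (nat_lit 5) (nat_lit 469) (nat_lit 462) (nat_lit 269)) (XT.lf (nat_lit 0) (nat_lit 30303044539) (nat_lit 456) (nat_lit 477996326352) (nat_lit 76) (nat_lit 154720847491) (nat_lit 136) (nat_lit 5) (nat_lit 142) (nat_lit 5) (nat_lit 137) (nat_lit 5) (nat_lit 470) (nat_lit 462) (nat_lit 268))) (XT.nd (nat_lit 78) (nat_lit 380) (nat_lit 0) (XT.lf (nat_lit 0) (nat_lit 97113757469) (nat_lit 380) (nat_lit 44916344739) (nat_lit 456) (nat_lit 549919054823) (nat_lit 131) (nat_lit 5) (nat_lit 136) (nat_lit 5) (nat_lit 137) (nat_lit 5) (nat_lit 471) (nat_lit 462) (nat_lit 267)) (XT.lf (nat_lit 0) (nat_lit 5451389775)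 (nat_lit 380) (nat_lit 272904120253) (nat_lit 456) (nat_lit 444053891473) (nat_lit 126) (nat_lit 5) (nat_lit 131) (nat_lit 5) (nat_lit 132) (nat_lit 5) (nat_lit 472) (nat_lit 462) (nat_lit 266))))) (XT.nd (nat_lit 312) (nat_lit 1064) (nat_lit 0) (XT.nd (nat_lit 156) (nat_lit 684) (nat_lit 0) (XT.nd (nat_lit 78) (nat_lit 304) (nat_lit 0) (XT.lf (nat_lit 0) (nat_lit 440402182559) (nat_lit 456) (nat_lit 84239515814) (nat_lit 76) (nat_lit 229924005555) (nat_lit 126) (nat_lit 5) (nat_lit 132) (nat_lit 5) (nat_lit 127) (nat_lit 5) (nat_lit 473) (nat_lit 462) (nat_lit 265)) (XT.lf (nat_lit 0) (nat_lit 614151454272) (nat_lit 304) (nat_lit 15451399279) (nat_lit 380) (nat_lit 158982143765) (nat_lit 122) (nat_lit 5) (nat_lit 126) (nat_lit 5) (nat_lit 127) (nat_lit 5) (nat_lit 474) (nat_lit 462) (nat_lit 264))) (XT.nd (nat_lit 78) (nat_lit 304) (nat_lit 0) (XT.lf (nat_lit 0) (nat_lit 27151773388) (nat_lit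 380) (nat_lit 269255449282) (nat_lit 76) (nat_lit 527971201129) (nat_lit 117) (nat_lit 5) (nat_lit 122) (nat_lit 5) (nat_lit 118) (nat_lit 5) (nat_lit 475) (nat_lit 462) (nat_lit 263)) (XT.lf (nat_lit 0) (nat_lit 237972570703) (nat_lit 380) (nat_lit 367108258128) (nat_lit 76) (nat_lit 257055876005) (nat_lit 113) (nat_lit 5) (nat_lit 118) (nat_lit 5) (nat_lit 114) (nat_lit 5) (nat_lit 476) (nat_lit 462) (nat_lit 262)))) (XT.nd (nat_lit 156) (nat_lit 532) (nat_lit 0) (XT.nd (nat_lit 78) (nat_lit 228) (nat_lit 0) (XT.lf (nat_lit 0) (nat_lit 436277672723) (nat_lit 304) (nat_lit 45957969624) (nat_lit 380) (nat_lit 419851175484) (nat_lit 109) (nat_lit 5) (nat_lit 113) (nat_lit 5) (nat_lit 114) (nat_lit 5) (nat_lit 477) (nat_lit 462) (nat_lit 261)) (XT.lf (nat_lit 0) (nat_lit 375328287024) (nat_lit 228) (nat_lit 391781302302) (nat_lit 304) (nat_lit 177069859062) (nat_lit 106) (nat_lit 5) (nat_lit 109)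 (nat_lit 5) (nat_lit 110) (nat_lit 5) (nat_lit 478) (nat_lit 462) (nat_lit 260))) (XT.nd (nat_lit 78) (nat_lit 228) (nat_lit 0) (XT.lf (nat_lit 0) (nat_lit 99891036169) (nat_lit 304) (nat_lit 673216140987) (nat_lit 76) (nat_lit 215591758648) (nat_lit 102) (nat_lit 5) (nat_lit 106) (nat_lit 5) (nat_lit 103) (nat_lit 5) (nat_lit 479) (nat_lit 462) (nat_lit 259)) (XT.lf (nat_lit 0) (nat_lit 252933544332) (nat_lit 228) (nat_lit 160581126236) (nat_lit 304) (nat_lit 622084695776) (nat_lit 99) (nat_lit 5) (nat_lit 102) (nat_lit 5) (nat_lit 103) (nat_lit 5) (nat_lit 480) (nat_lit 462) (nat_lit 258))))))) (XT.nd (nat_lit 1170) (nat_lit 152) (nat_lit 0) (XT.nd (nat_lit 546) (nat_lit 1368) (nat_lit 0) (XT.nd (nat_lit 234) (nat_lit 608) (nat_lit 0) (XT.nd (nat_lit 78) (nat_lit 456) (nat_lit 0) (XT.lf (nat_lit 0) (nat_lit 189605146806) (nat_lit 228) (nat_lit 585323723807) (nat_lit 304) (nat_lit 310187926971)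 (nat_lit 96) (nat_lit 5) (nat_lit 99) (nat_lit 5) (nat_lit 100) (nat_lit 5) (nat_lit 481) (nat_lit 462) (nat_lit 257)) (XT.nd (nat_lit 78) (nat_lit 228) (nat_lit 0) (XT.lf (nat_lit 0) (nat_lit 45754275695) (nat_lit 228) (nat_lit 1008466477270) (nat_lit 76) (nat_lit 83356708162) (nat_lit 93) (nat_lit 5) (nat_lit 96) (nat_lit 5) (nat_lit 94) (nat_lit 5) (nat_lit 482) (nat_lit 462) (nat_lit 256)) (XT.lf (nat_lit 0) (nat_lit 60817681043) (nat_lit 228) (nat_lit 385306093817) (nat_lit 304) (nat_lit 746515980782) (nat_lit 90) (nat_lit 5) (nat_lit 93) (nat_lit 5) (nat_lit 94) (nat_lit 5) (nat_lit 483) (nat_lit 462) (nat_lit 255)))) (XT.nd (nat_lit 156) (nat_lit 380) (nat_lit 0) (XT.nd (nat_lit 78) (nat_lit 228) (nat_lit 0) (XT.lf (nat_lit 0) (nat_lit 901641051203) (nat_lit 304) (nat_lit 5123525543) (nat_lit 76) (nat_lit 344186546112) (nat_lit 90) (nat_lit 5) (nat_lit 94) (nat_lit 5) (nat_lit 91) (nat_lit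 5) (nat_lit 484) (nat_lit 462) (nat_lit 254)) (XT.lf (nat_lit 0) (nat_lit 103483362833) (nat_lit 228) (nat_lit 69235954179) (nat_lit 76) (nat_lit 1139827833832) (nat_lit 87) (nat_lit 5) (nat_lit 90) (nat_lit 5) (nat_lit 88) (nat_lit 5) (nat_lit 485) (nat_lit 462) (nat_lit 253))) (XT.nd (nat_lit 78) (nat_lit 152) (nat_lit 0) (XT.lf (nat_lit 0) (nat_lit 610079571593) (nat_lit 304) (nat_lit 141146881678) (nat_lit 76) (nat_lit 626067216926) (nat_lit 84) (nat_lit 5) (nat_lit 88) (nat_lit 5) (nat_lit 85) (nat_lit 5) (nat_lit 486) (nat_lit 462) (nat_lit 252)) (XT.lf (nat_lit 0) (nat_lit 1181564236036) (nat_lit 228) (nat_lit 208977773396) (nat_lit 76) (nat_lit 55459863717) (nat_lit 82) (nat_lit 5) (nat_lit 85) (nat_lit 5) (nat_lit 83) (nat_lit 5) (nat_lit 487) (nat_lit 462) (nat_lit 251))))) (XT.nd (nat_lit 312) (nat_lit 608) (nat_lit 0) (XT.nd (nat_lit 156) (nat_lit 380) (nat_lit 0) (XT.nd (nat_lit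 78) (nat_lit 152) (nat_lit 0) (XT.lf (nat_lit 0) (nat_lit 304694299320) (nat_lit 228) (nat_lit 286097772672) (nat_lit 76) (nat_lit 927444752108) (nat_lit 79) (nat_lit 5) (nat_lit 82) (nat_lit 5) (nat_lit 80) (nat_lit 5) (nat_lit 488) (nat_lit 462) (nat_lit 250)) (XT.lf (nat_lit 0) (nat_lit 937908100604) (nat_lit 228) (nat_lit 364643139157) (nat_lit 76) (nat_lit 292091783373) (nat_lit 77) (nat_lit 5) (nat_lit 80) (nat_lit 5) (nat_lit 78) (nat_lit 5) (nat_lit 489) (nat_lit 462) (nat_lit 249))) (XT.nd (nat_lit 78) (nat_lit 228) (nat_lit 0) (XT.lf (nat_lit 0) (nat_lit 1230013849993) (nat_lit 152) (nat_lit 425996279629) (nat_lit 228) (nat_lit 19440032290) (nat_lit 75) (nat_lit 5) (nat_lit 77) (nat_lit 5) (nat_lit 78) (nat_lit 5) (nat_lit 490) (nat_lit 462) (nat_lit 248)) (XT.lf (nat_lit 0) (nat_lit 681839881615) (nat_lit 228) (nat_lit 537899915276) (nat_lit 76) (nat_lit 540739530781) (nat_lit 72)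 (nat_lit 5) (nat_lit 75) (nat_lit 5) (nat_lit 73) (nat_lit 5) (nat_lit 491) (nat_lit 462) (nat_lit 247)))) (XT.nd (nat_lit 156) (nat_lit 304) (nat_lit 0) (XT.nd (nat_lit 78) (nat_lit 152) (nat_lit 0) (XT.lf (nat_lit 0) (nat_lit 1219410581923) (nat_lit 152) (nat_lit 253247523414) (nat_lit 228) (nat_lit 377930936868) (nat_lit 70) (nat_lit 5) (nat_lit 72) (nat_lit 5) (nat_lit 73) (nat_lit 5) (nat_lit 492) (nat_lit 462) (nat_lit 246)) (XT.lf (nat_lit 0) (nat_lit 408222215535) (nat_lit 152) (nat_lit 736968021506) (nat_lit 76) (nat_lit 800345912417) (nat_lit 68) (nat_lit 5) (nat_lit 70) (nat_lit 5) (nat_lit 69) (nat_lit 5) (nat_lit 493) (nat_lit 462) (nat_lit 245))) (XT.nd (nat_lit 78) (nat_lit 152) (nat_lit 0) (XT.lf (nat_lit 0) (nat_lit 1198025552845) (nat_lit 152) (nat_lit 80327930770) (nat_lit 228) (nat_lit 767699426095) (nat_lit 66) (nat_lit 5) (nat_lit 68) (nat_lit 5) (nat_lit 69) (nat_lit 5)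 (nat_lit 494) (nat_lit 462) (nat_lit 244)) (XT.lf (nat_lit 0) (nat_lit 110431250352) (nat_lit 152) (nat_lit 972927035328) (nat_lit 76) (nat_lit 1068754221745) (nat_lit 64) (nat_lit 5) (nat_lit 66) (nat_lit 5) (nat_lit 65) (nat_lit 5) (nat_lit 495) (nat_lit 462) (nat_lit 243)))))) (XT.nd (nat_lit 60372) (nat_lit 0) (nat_lit 4180) (XT.nd (nat_lit 60060) (nat_lit 0) (nat_lit 6536) (XT.nd (nat_lit 59904) (nat_lit 0) (nat_lit 6460) (XT.lf (nat_lit 0) (nat_lit 1068067689639) (nat_lit 228) (nat_lit 1110296364127) (nat_lit 76) (nat_lit 85855969517) (nat_lit 62) (nat_lit 5) (nat_lit 65) (nat_lit 5) (nat_lit 63) (nat_lit 4) (nat_lit 496) (nat_lit 462) (nat_lit 242)) (XT.nd (nat_lit 78) (nat_lit 0) (nat_lit 76) (XT.lf (nat_lit 0) (nat_lit 107693382513) (nat_lit 836) (nat_lit 75625400362) (nat_lit 836) (nat_lit 75625400362) (nat_lit 147) (nat_lit 3) (nat_lit 158) (nat_lit 3) (nat_lit 158) (nat_lit 5) (nat_lit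 463) (nat_lit 463) (nat_lit 274)) (XT.lf (nat_lit 0) (nat_lit 228817444383) (nat_lit 760) (nat_lit 270729812138) (nat_lit 836) (nat_lit 38815884117) (nat_lit 148) (nat_lit 5) (nat_lit 158) (nat_lit 5) (nat_lit 159) (nat_lit 5) (nat_lit 464) (nat_lit 463) (nat_lit 273)))) (XT.nd (nat_lit 156) (nat_lit 0) (nat_lit 152) (XT.nd (nat_lit 78) (nat_lit 0) (nat_lit 76) (XT.lf (nat_lit 76) (nat_lit 164112370593) (nat_lit 0) (nat_lit 90632485936) (nat_lit 836) (nat_lit 305159926287) (nat_lit 149) (nat_lit 5) (nat_lit 148) (nat_lit 5) (nat_lit 159) (nat_lit 5) (nat_lit 465) (nat_lit 463) (nat_lit 272)) (XT.lf (nat_lit 76) (nat_lit 56734132338) (nat_lit 0) (nat_lit 237171345096) (nat_lit 836) (nat_lit 288706328153) (nat_lit 150) (nat_lit 5) (nat_lit 149) (nat_lit 5) (nat_lit 160) (nat_lit 5) (nat_lit 466) (nat_lit 463) (nat_lit 271))) (XT.nd (nat_lit 78) (nat_lit 0) (nat_lit 76) (XT.lf (nat_lit 0) (nat_lit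 347929039235) (nat_lit 760) (nat_lit 52029947705) (nat_lit 836) (nat_lit 206589898683) (nat_lit 150) (nat_lit 5) (nat_lit 160) (nat_lit 5) (nat_lit 161) (nat_lit 5) (nat_lit 467) (nat_lit 463) (nat_lit 270)) (XT.lf (nat_lit 0) (nat_lit 418454169086) (nat_lit 760) (nat_lit 161868794941) (nat_lit 836) (nat_lit 51468983884) (nat_lit 151) (nat_lit 5) (nat_lit 161) (nat_lit 5) (nat_lit 162) (nat_lit 5) (nat_lit 468) (nat_lit 463) (nat_lit 269))))) (XT.nd (nat_lit 312) (nat_lit 1064) (nat_lit 0) (XT.nd (nat_lit 156) (nat_lit 836) (nat_lit 0) (XT.nd (nat_lit 78) (nat_lit 684) (nat_lit 0) (XT.lf (nat_lit 76) (nat_lit 381947108255) (nat_lit 0) (nat_lit 126302662702) (nat_lit 836) (nat_lit 150123261147) (nat_lit 152) (nat_lit 5) (nat_lit 151) (nat_lit 5) (nat_lit 162) (nat_lit 5) (nat_lit 469) (nat_lit 463) (nat_lit 268)) (XT.lf (nat_lit 0) (nat_lit 291715751061) (nat_lit 760) (nat_lit 326617290778) (nat_lit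 836) (nat_lit 68092360155) (nat_lit 142) (nat_lit 5) (nat_lit 152) (nat_lit 5) (nat_lit 153) (nat_lit 5) (nat_lit 470) (nat_lit 463) (nat_lit 267))) (XT.nd (nat_lit 78) (nat_lit 380) (nat_lit 0) (XT.lf (nat_lit 0) (nat_lit 32727786811) (nat_lit 456) (nat_lit 516235536756) (nat_lit 76) (nat_lit 167098487281) (nat_lit 136) (nat_lit 5) (nat_lit 142) (nat_lit 5) (nat_lit 137) (nat_lit 5) (nat_lit 471) (nat_lit 463) (nat_lit 266)) (XT.lf (nat_lit 0) (nat_lit 104883332228) (nat_lit 380) (nat_lit 48509647328) (nat_lit 456) (nat_lit 593912086517) (nat_lit 131) (nat_lit 5) (nat_lit 136) (nat_lit 5) (nat_lit 137) (nat_lit 5) (nat_lit 472) (nat_lit 463) (nat_lit 265)))) (XT.nd (nat_lit 156) (nat_lit 684) (nat_lit 0) (XT.nd (nat_lit 78) (nat_lit 0) (nat_lit 0) (XT.lf (nat_lit 0) (nat_lit 5887976937) (nat_lit 380) (nat_lit 294736415815) (nat_lit 456) (nat_lit 479577738716) (nat_lit 126) (nat_lit 5) (nat_lit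 131) (nat_lit 5) (nat_lit 132) (nat_lit 5) (nat_lit 473) (nat_lit 463) (nat_lit 264)) (XT.lf (nat_lit 0) (nat_lit 475634766841) (nat_lit 456) (nat_lit 90978216336) (nat_lit 76) (nat_lit 248317956526) (nat_lit 126) (nat_lit 5) (nat_lit 132) (nat_lit 5) (nat_lit 127) (nat_lit 5) (nat_lit 474) (nat_lit 463) (nat_lit 263))) (XT.nd (nat_lit 78) (nat_lit 380) (nat_lit 0) (XT.lf (nat_lit 0) (nat_lit 663284011333) (nat_lit 304) (nat_lit 16687456715) (nat_lit 380) (nat_lit 171700309693) (nat_lit 122) (nat_lit 5) (nat_lit 126) (nat_lit 5) (nat_lit 127) (nat_lit 5) (nat_lit 475) (nat_lit 463) (nat_lit 262)) (XT.lf (nat_lit 0) (nat_lit 29324286542) (nat_lit 380) (nat_lit 290795433633) (nat_lit 76) (nat_lit 570208958920) (nat_lit 117) (nat_lit 5) (nat_lit 122) (nat_lit 5) (nat_lit 118) (nat_lit 5) (nat_lit 476) (nat_lit 463) (nat_lit 261))))))))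
noncomputable def xc120 : XT := (XT.nd (nat_lit 62244) (nat_lit 0) (nat_lit 152) (XT.nd (nat_lit 1092) (nat_lit 988) (nat_lit 0) (XT.nd (nat_lit 546) (nat_lit 1216) (nat_lit 0) (XT.nd (nat_lit 234) (nat_lit 988) (nat_lit 0) (XT.nd (nat_lit 78) (nat_lit 532) (nat_lit 0) (XT.lf (nat_lit 0) (nat_lit 257010728155) (nat_lit 380) (nat_lit 396476470516) (nat_lit 76) (nat_lit 277620424921) (nat_lit 113) (nat_lit 5) (nat_lit 118) (nat_lit 5) (nat_lit 114) (nat_lit 5) (nat_lit 477) (nat_lit 463) (nat_lit 260)) (XT.nd (nat_lit 78) (nat_lit 228) (nat_lit 0) (XT.lf (nat_lit 0) (nat_lit 471180315322) (nat_lit 304) (nat_lit 49634510844) (nat_lit 380) (nat_lit 453438920431) (nat_lit 109) (nat_lit 5) (nat_lit 113) (nat_lit 5) (nat_lit 114) (nat_lit 5) (nat_lit 478) (nat_lit 463) (nat_lit 259)) (XT.lf (nat_lit 0) (nat_lit 405354974629) (nat_lit 228) (nat_lit 423123697672) (nat_lit 304) (nat_lit 191235116130)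 (nat_lit 106) (nat_lit 5) (nat_lit 109) (nat_lit 5) (nat_lit 110) (nat_lit 5) (nat_lit 479) (nat_lit 463) (nat_lit 258)))) (XT.nd (nat_lit 156) (nat_lit 456) (nat_lit 0) (XT.nd (nat_lit 78) (nat_lit 228) (nat_lit 0) (XT.lf (nat_lit 0) (nat_lit 107882624582) (nat_lit 304) (nat_lit 727073002431) (nat_lit 76) (nat_lit 232839208349) (nat_lit 102) (nat_lit 5) (nat_lit 106) (nat_lit 5) (nat_lit 103) (nat_lit 5) (nat_lit 480) (nat_lit 463) (nat_lit 257)) (XT.lf (nat_lit 0) (nat_lit 273168639034) (nat_lit 228) (nat_lit 173427494487) (nat_lit 304) (nat_lit 671851167636) (nat_lit 99) (nat_lit 5) (nat_lit 102) (nat_lit 5) (nat_lit 103) (nat_lit 5) (nat_lit 481) (nat_lit 463) (nat_lit 256))) (XT.nd (nat_lit 78) (nat_lit 228) (nat_lit 0) (XT.lf (nat_lit 0) (nat_lit 204773963882) (nat_lit 228) (nat_lit 632149492348) (nat_lit 304) (nat_lit 335002671336) (nat_lit 96) (nat_lit 5) (nat_lit 99) (nat_lit 5) (nat_lit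 100) (nat_lit 5) (nat_lit 482) (nat_lit 463) (nat_lit 255)) (XT.lf (nat_lit 0) (nat_lit 49414885721) (nat_lit 228) (nat_lit 1089143387560) (nat_lit 76) (nat_lit 90025371314) (nat_lit 93) (nat_lit 5) (nat_lit 96) (nat_lit 5) (nat_lit 94) (nat_lit 5) (nat_lit 483) (nat_lit 463) (nat_lit 254))))) (XT.nd (nat_lit 234) (nat_lit 760) (nat_lit 0) (XT.nd (nat_lit 78) (nat_lit 228) (nat_lit 0) (XT.lf (nat_lit 0) (nat_lit 65683485693) (nat_lit 228) (nat_lit 416130445369) (nat_lit 304) (nat_lit 806236992300) (nat_lit 90) (nat_lit 5) (nat_lit 93) (nat_lit 5) (nat_lit 94) (nat_lit 5) (nat_lit 484) (nat_lit 463) (nat_lit 253)) (XT.nd (nat_lit 78) (nat_lit 228) (nat_lit 0) (XT.lf (nat_lit 0) (nat_lit 973772572646) (nat_lit 304) (nat_lit 5533036498) (nat_lit 76) (nat_lit 371721591655) (nat_lit 90) (nat_lit 5) (nat_lit 94) (nat_lit 5) (nat_lit 91) (nat_lit 5) (nat_lit 485) (nat_lit 463) (nat_lit 252)) (XT.lf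 (nat_lit 0) (nat_lit 111762260880) (nat_lit 228) (nat_lit 74774467962) (nat_lit 76) (nat_lit 1231014182602) (nat_lit 87) (nat_lit 5) (nat_lit 90) (nat_lit 5) (nat_lit 88) (nat_lit 5) (nat_lit 486) (nat_lit 463) (nat_lit 251)))) (XT.nd (nat_lit 156) (nat_lit 380) (nat_lit 0) (XT.nd (nat_lit 78) (nat_lit 152) (nat_lit 0) (XT.lf (nat_lit 0) (nat_lit 658886156809) (nat_lit 304) (nat_lit 152438276546) (nat_lit 76) (nat_lit 676152719466) (nat_lit 84) (nat_lit 5) (nat_lit 88) (nat_lit 5) (nat_lit 85) (nat_lit 5) (nat_lit 487) (nat_lit 463) (nat_lit 250)) (XT.lf (nat_lit 0) (nat_lit 1276089585516) (nat_lit 228) (nat_lit 225695646672) (nat_lit 76) (nat_lit 59896780267) (nat_lit 82) (nat_lit 5) (nat_lit 85) (nat_lit 5) (nat_lit 83) (nat_lit 5) (nat_lit 488) (nat_lit 463) (nat_lit 249))) (XT.nd (nat_lit 78) (nat_lit 152) (nat_lit 0) (XT.lf (nat_lit 0) (nat_lit 329070046765) (nat_lit 228) (nat_lit 308985254297)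 (nat_lit 76) (nat_lit 1001640458777) (nat_lit 79) (nat_lit 5) (nat_lit 82) (nat_lit 5) (nat_lit 80) (nat_lit 5) (nat_lit 489) (nat_lit 463) (nat_lit 248)) (XT.lf (nat_lit 0) (nat_lit 1012940944218) (nat_lit 228) (nat_lit 393814257257) (nat_lit 76) (nat_lit 315459253720) (nat_lit 77) (nat_lit 5) (nat_lit 80) (nat_lit 5) (nat_lit 78) (nat_lit 5) (nat_lit 490) (nat_lit 463) (nat_lit 247)))))) (XT.nd (nat_lit 60528) (nat_lit 0) (nat_lit 5092) (XT.nd (nat_lit 312) (nat_lit 456) (nat_lit 0) (XT.nd (nat_lit 78) (nat_lit 380) (nat_lit 0) (XT.lf (nat_lit 0) (nat_lit 1328415276552) (nat_lit 152) (nat_lit 460075849493) (nat_lit 228) (nat_lit 20995039507) (nat_lit 75) (nat_lit 5) (nat_lit 77) (nat_lit 5) (nat_lit 78) (nat_lit 5) (nat_lit 491) (nat_lit 463) (nat_lit 246)) (XT.nd (nat_lit 78) (nat_lit 152) (nat_lit 0) (XT.lf (nat_lit 0) (nat_lit 736387254142) (nat_lit 228) (nat_lit 580931590825) (nat_lit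 76) (nat_lit 583998819809) (nat_lit 72) (nat_lit 5) (nat_lit 75) (nat_lit 5) (nat_lit 73) (nat_lit 5) (nat_lit 492) (nat_lit 463) (nat_lit 245)) (XT.lf (nat_lit 0) (nat_lit 1316963732345) (nat_lit 152) (nat_lit 273507194680) (nat_lit 228) (nat_lit 408165229884) (nat_lit 70) (nat_lit 5) (nat_lit 72) (nat_lit 5) (nat_lit 73) (nat_lit 5) (nat_lit 493) (nat_lit 463) (nat_lit 244)))) (XT.nd (nat_lit 60060) (nat_lit 0) (nat_lit 6308) (XT.nd (nat_lit 78) (nat_lit 152) (nat_lit 0) (XT.lf (nat_lit 0) (nat_lit 1293867886547) (nat_lit 152) (nat_lit 86754037404) (nat_lit 228) (nat_lit 829115210446) (nat_lit 66) (nat_lit 5) (nat_lit 68) (nat_lit 5) (nat_lit 69) (nat_lit 5) (nat_lit 495) (nat_lit 463) (nat_lit 242)) (XT.lf (nat_lit 0) (nat_lit 119265908878) (nat_lit 152) (nat_lit 1050760910183) (nat_lit 76) (nat_lit 1154254681026) (nat_lit 64) (nat_lit 5) (nat_lit 66) (nat_lit 5) (nat_lit 65) (nat_lit 5)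 (nat_lit 496) (nat_lit 463) (nat_lit 241))) (XT.nd (nat_lit 78) (nat_lit 0) (nat_lit 76) (XT.lf (nat_lit 0) (nat_lit 116309220546) (nat_lit 836) (nat_lit 81675239460) (nat_lit 836) (nat_lit 81675239460) (nat_lit 147) (nat_lit 3) (nat_lit 158) (nat_lit 3) (nat_lit 158) (nat_lit 5) (nat_lit 464) (nat_lit 464) (nat_lit 272)) (XT.lf (nat_lit 0) (nat_lit 247123521176) (nat_lit 760) (nat_lit 292387788651) (nat_lit 836) (nat_lit 41920847894) (nat_lit 148) (nat_lit 5) (nat_lit 158) (nat_lit 5) (nat_lit 159) (nat_lit 5) (nat_lit 465) (nat_lit 464) (nat_lit 271))))) (XT.nd (nat_lit 312) (nat_lit 1292) (nat_lit 0) (XT.nd (nat_lit 156) (nat_lit 0) (nat_lit 152) (XT.nd (nat_lit 78) (nat_lit 0) (nat_lit 76) (XT.lf (nat_lit 76) (nat_lit 177241750948) (nat_lit 0) (nat_lit 97883330984) (nat_lit 836) (nat_lit 329572051569) (nat_lit 149) (nat_lit 5) (nat_lit 148) (nat_lit 5) (nat_lit 159) (nat_lit 5) (nat_lit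 466) (nat_lit 464) (nat_lit 270)) (XT.lf (nat_lit 76) (nat_lit 61273270882) (nat_lit 0) (nat_lit 256145237261) (nat_lit 836) (nat_lit 311802212175) (nat_lit 150) (nat_lit 5) (nat_lit 149) (nat_lit 5) (nat_lit 160) (nat_lit 5) (nat_lit 467) (nat_lit 464) (nat_lit 269))) (XT.nd (nat_lit 78) (nat_lit 0) (nat_lit 76) (XT.lf (nat_lit 0) (nat_lit 375763908330) (nat_lit 760) (nat_lit 56191935601) (nat_lit 836) (nat_lit 223116925161) (nat_lit 150) (nat_lit 5) (nat_lit 160) (nat_lit 5) (nat_lit 161) (nat_lit 5) (nat_lit 468) (nat_lit 464) (nat_lit 268)) (XT.lf (nat_lit 0) (nat_lit 451931012324) (nat_lit 760) (nat_lit 174817880790) (nat_lit 836) (nat_lit 55586385067) (nat_lit 151) (nat_lit 5) (nat_lit 161) (nat_lit 5) (nat_lit 162) (nat_lit 5) (nat_lit 469) (nat_lit 464) (nat_lit 267)))) (XT.nd (nat_lit 156) (nat_lit 836) (nat_lit 0) (XT.nd (nat_lit 78) (nat_lit 684) (nat_lit 0) (XT.lf (nat_lit 76) (nat_lit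 412503276507) (nat_lit 0) (nat_lit 136406954321) (nat_lit 836) (nat_lit 162132619864) (nat_lit 152) (nat_lit 5) (nat_lit 151) (nat_lit 5) (nat_lit 162) (nat_lit 5) (nat_lit 470) (nat_lit 464) (nat_lit 266)) (XT.lf (nat_lit 0) (nat_lit 315053417484) (nat_lit 760) (nat_lit 352746715682) (nat_lit 836) (nat_lit 73539278522) (nat_lit 142) (nat_lit 5) (nat_lit 152) (nat_lit 5) (nat_lit 153) (nat_lit 5) (nat_lit 471) (nat_lit 464) (nat_lit 265))) (XT.nd (nat_lit 78) (nat_lit 380) (nat_lit 0) (XT.lf (nat_lit 0) (nat_lit 35346437318) (nat_lit 456) (nat_lit 557533954711) (nat_lit 76) (nat_lit 180466342251) (nat_lit 136) (nat_lit 5) (nat_lit 142) (nat_lit 5) (nat_lit 137) (nat_lit 5) (nat_lit 472) (nat_lit 464) (nat_lit 264)) (XT.lf (nat_lit 0) (nat_lit 113274405323) (nat_lit 380) (nat_lit 52390414835) (nat_lit 456) (nat_lit 641424631035) (nat_lit 131) (nat_lit 5) (nat_lit 136) (nat_lit 5) (nat_lit 137)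 (nat_lit 5) (nat_lit 473) (nat_lit 464) (nat_lit 263))))))) (XT.nd (nat_lit 1170) (nat_lit 1368) (nat_lit 0) (XT.nd (nat_lit 546) (nat_lit 1672) (nat_lit 0) (XT.nd (nat_lit 234) (nat_lit 1216) (nat_lit 0) (XT.nd (nat_lit 78) (nat_lit 304) (nat_lit 0) (XT.lf (nat_lit 0) (nat_lit 6359423168) (nat_lit 380) (nat_lit 318315299880) (nat_lit 456) (nat_lit 517943559943) (nat_lit 126) (nat_lit 5) (nat_lit 131) (nat_lit 5) (nat_lit 132) (nat_lit 5) (nat_lit 474) (nat_lit 464) (nat_lit 262)) (XT.nd (nat_lit 78) (nat_lit 304) (nat_lit 0) (XT.lf (nat_lit 0) (nat_lit 513685899422) (nat_lit 456) (nat_lit 98256078630) (nat_lit 76) (nat_lit 268183419220) (nat_lit 126) (nat_lit 5) (nat_lit 132) (nat_lit 5) (nat_lit 127) (nat_lit 5) (nat_lit 475) (nat_lit 464) (nat_lit 261)) (XT.lf (nat_lit 0) (nat_lit 716347110086) (nat_lit 304) (nat_lit 18022406521) (nat_lit 380) (nat_lit 185435986755) (nat_lit 122) (nat_lit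 5) (nat_lit 126) (nat_lit 5) (nat_lit 127) (nat_lit 5) (nat_lit 476) (nat_lit 464) (nat_lit 260)))) (XT.nd (nat_lit 156) (nat_lit 532) (nat_lit 0) (XT.nd (nat_lit 78) (nat_lit 304) (nat_lit 0) (XT.lf (nat_lit 0) (nat_lit 31670547780) (nat_lit 380) (nat_lit 314058681156) (nat_lit 76) (nat_lit 615825728533) (nat_lit 117) (nat_lit 5) (nat_lit 122) (nat_lit 5) (nat_lit 118) (nat_lit 5) (nat_lit 477) (nat_lit 464) (nat_lit 259)) (XT.lf (nat_lit 0) (nat_lit 277571888016) (nat_lit 380) (nat_lit 428194203845) (nat_lit 76) (nat_lit 299830126503) (nat_lit 113) (nat_lit 5) (nat_lit 118) (nat_lit 5) (nat_lit 114) (nat_lit 5) (nat_lit 478) (nat_lit 464) (nat_lit 258))) (XT.nd (nat_lit 78) (nat_lit 228) (nat_lit 0) (XT.lf (nat_lit 0) (nat_lit 508875108159) (nat_lit 304) (nat_lit 53605189108) (nat_lit 380) (nat_lit 489713734776) (nat_lit 109) (nat_lit 5) (nat_lit 113) (nat_lit 5) (nat_lit 114) (nat_lit 5)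 (nat_lit 479) (nat_lit 464) (nat_lit 257)) (XT.lf (nat_lit 0) (nat_lit 437783736663) (nat_lit 228) (nat_lit 456973500196) (nat_lit 304) (nat_lit 206533641079) (nat_lit 106) (nat_lit 5) (nat_lit 109) (nat_lit 5) (nat_lit 110) (nat_lit 5) (nat_lit 480) (nat_lit 464) (nat_lit 256))))) (XT.nd (nat_lit 312) (nat_lit 684) (nat_lit 0) (XT.nd (nat_lit 156) (nat_lit 456) (nat_lit 0) (XT.nd (nat_lit 78) (nat_lit 228) (nat_lit 0) (XT.lf (nat_lit 0) (nat_lit 116513496482) (nat_lit 304) (nat_lit 785238474110) (nat_lit 76) (nat_lit 251466438475) (nat_lit 102) (nat_lit 5) (nat_lit 106) (nat_lit 5) (nat_lit 103) (nat_lit 5) (nat_lit 481) (nat_lit 464) (nat_lit 255)) (XT.lf (nat_lit 0) (nat_lit 295022482656) (nat_lit 228) (nat_lit 187301589581) (nat_lit 304) (nat_lit 725599000586) (nat_lit 99) (nat_lit 5) (nat_lit 102) (nat_lit 5) (nat_lit 103) (nat_lit 5) (nat_lit 482) (nat_lit 464) (nat_lit 254))) (XT.nd (nat_lit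 78) (nat_lit 228) (nat_lit 0) (XT.lf (nat_lit 0) (nat_lit 221156228499) (nat_lit 228) (nat_lit 682721340826) (nat_lit 304) (nat_lit 361802636593) (nat_lit 96) (nat_lit 5) (nat_lit 99) (nat_lit 5) (nat_lit 100) (nat_lit 5) (nat_lit 483) (nat_lit 464) (nat_lit 253)) (XT.lf (nat_lit 0) (nat_lit 53368306321) (nat_lit 228) (nat_lit 1176274508863) (nat_lit 76) (nat_lit 97227509473) (nat_lit 93) (nat_lit 5) (nat_lit 96) (nat_lit 5) (nat_lit 94) (nat_lit 5) (nat_lit 484) (nat_lit 464) (nat_lit 252)))) (XT.nd (nat_lit 156) (nat_lit 456) (nat_lit 0) (XT.nd (nat_lit 78) (nat_lit 0) (nat_lit 0) (XT.lf (nat_lit 0) (nat_lit 70938499052) (nat_lit 228) (nat_lit 449420764441) (nat_lit 304) (nat_lit 870735722822) (nat_lit 90) (nat_lit 5) (nat_lit 93) (nat_lit 5) (nat_lit 94) (nat_lit 5) (nat_lit 485) (nat_lit 464) (nat_lit 251)) (XT.lf (nat_lit 0) (nat_lit 1051674581945) (nat_lit 304) (nat_lit 5975361270) (nat_lit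 76) (nat_lit 401459423457) (nat_lit 90) (nat_lit 5) (nat_lit 94) (nat_lit 5) (nat_lit 91) (nat_lit 5) (nat_lit 486) (nat_lit 464) (nat_lit 250))) (XT.nd (nat_lit 78) (nat_lit 228) (nat_lit 0) (XT.lf (nat_lit 0) (nat_lit 120703438097) (nat_lit 228) (nat_lit 80756114570) (nat_lit 76) (nat_lit 1329495421859) (nat_lit 87) (nat_lit 5) (nat_lit 90) (nat_lit 5) (nat_lit 88) (nat_lit 5) (nat_lit 487) (nat_lit 464) (nat_lit 249)) (XT.lf (nat_lit 0) (nat_lit 711597237530) (nat_lit 304) (nat_lit 164633033743) (nat_lit 76) (nat_lit 730245044351) (nat_lit 84) (nat_lit 5) (nat_lit 88) (nat_lit 5) (nat_lit 85) (nat_lit 5) (nat_lit 488) (nat_lit 464) (nat_lit 248)))))) (XT.nd (nat_lit 546) (nat_lit 152) (nat_lit 0) (XT.nd (nat_lit 234) (nat_lit 684) (nat_lit 0) (XT.nd (nat_lit 78) (nat_lit 380) (nat_lit 0) (XT.lf (nat_lit 0) (nat_lit 1378176932911) (nat_lit 228) (nat_lit 243750999540) (nat_lit 76) (nat_lit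 64688631959) (nat_lit 82) (nat_lit 5) (nat_lit 85) (nat_lit 5) (nat_lit 83) (nat_lit 5) (nat_lit 489) (nat_lit 464) (nat_lit 247)) (XT.nd (nat_lit 78) (nat_lit 152) (nat_lit 0) (XT.lf (nat_lit 0) (nat_lit 355395824974) (nat_lit 228) (nat_lit 333703782984) (nat_lit 76) (nat_lit 1081771803933) (nat_lit 79) (nat_lit 5) (nat_lit 82) (nat_lit 5) (nat_lit 80) (nat_lit 5) (nat_lit 490) (nat_lit 464) (nat_lit 246)) (XT.lf (nat_lit 0) (nat_lit 1093976387421) (nat_lit 228) (nat_lit 425319112316) (nat_lit 76) (nat_lit 340696103480) (nat_lit 77) (nat_lit 5) (nat_lit 80) (nat_lit 5) (nat_lit 78) (nat_lit 5) (nat_lit 491) (nat_lit 464) (nat_lit 245)))) (XT.nd (nat_lit 156) (nat_lit 304) (nat_lit 0) (XT.nd (nat_lit 78) (nat_lit 228) (nat_lit 0) (XT.lf (nat_lit 0) (nat_lit 1434688771789) (nat_lit 152) (nat_lit 496881803849) (nat_lit 228) (nat_lit 22674475172) (nat_lit 75) (nat_lit 5) (nat_lit 77) (nat_lit 5)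 (nat_lit 78) (nat_lit 5) (nat_lit 492) (nat_lit 464) (nat_lit 244)) (XT.lf (nat_lit 0) (nat_lit 795298390507) (nat_lit 228) (nat_lit 627405845738) (nat_lit 76) (nat_lit 630718833904) (nat_lit 72) (nat_lit 5) (nat_lit 75) (nat_lit 5) (nat_lit 73) (nat_lit 5) (nat_lit 493) (nat_lit 464) (nat_lit 243))) (XT.nd (nat_lit 78) (nat_lit 152) (nat_lit 0) (XT.lf (nat_lit 0) (nat_lit 1422321091450) (nat_lit 152) (nat_lit 295387658279) (nat_lit 228) (nat_lit 440818292297) (nat_lit 70) (nat_lit 5) (nat_lit 72) (nat_lit 5) (nat_lit 73) (nat_lit 5) (nat_lit 494) (nat_lit 464) (nat_lit 242)) (XT.lf (nat_lit 0) (nat_lit 476150720961) (nat_lit 152) (nat_lit 859598913995) (nat_lit 76) (nat_lit 933523713319) (nat_lit 68) (nat_lit 5) (nat_lit 70) (nat_lit 5) (nat_lit 69) (nat_lit 5) (nat_lit 495) (nat_lit 464) (nat_lit 241))))) (XT.nd (nat_lit 60294) (nat_lit 0) (nat_lit 6308) (XT.nd (nat_lit 60138) (nat_lit 0)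 (nat_lit 6232) (XT.nd (nat_lit 60060) (nat_lit 0) (nat_lit 6156) (XT.lf (nat_lit 0) (nat_lit 1397377565649) (nat_lit 152) (nat_lit 93694250804) (nat_lit 228) (nat_lit 895444281761) (nat_lit 66) (nat_lit 5) (nat_lit 68) (nat_lit 5) (nat_lit 69) (nat_lit 5) (nat_lit 496) (nat_lit 464) (nat_lit 240)) (XT.lf (nat_lit 0) (nat_lit 125614273204) (nat_lit 836) (nat_lit 88209093210) (nat_lit 836) (nat_lit 88209093210) (nat_lit 147) (nat_lit 3) (nat_lit 158) (nat_lit 3) (nat_lit 158) (nat_lit 5) (nat_lit 465) (nat_lit 465) (nat_lit 270))) (XT.nd (nat_lit 78) (nat_lit 0) (nat_lit 0) (XT.lf (nat_lit 0) (nat_lit 266893986925) (nat_lit 760) (nat_lit 315778461556) (nat_lit 836) (nat_lit 45274252564) (nat_lit 148) (nat_lit 5) (nat_lit 158) (nat_lit 5) (nat_lit 159) (nat_lit 5) (nat_lit 466) (nat_lit 465) (nat_lit 269)) (XT.lf (nat_lit 76) (nat_lit 191421425991) (nat_lit 0) (nat_lit 105714208517) (nat_lit 836)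 (nat_lit 355937242288) (nat_lit 149) (nat_lit 5) (nat_lit 148) (nat_lit 5) (nat_lit 159) (nat_lit 5) (nat_lit 467) (nat_lit 465) (nat_lit 268)))) (XT.nd (nat_lit 156) (nat_lit 0) (nat_lit 152) (XT.nd (nat_lit 78) (nat_lit 0) (nat_lit 76) (XT.lf (nat_lit 76) (nat_lit 66175482309) (nat_lit 0) (nat_lit 276637014471) (nat_lit 836) (nat_lit 336745855687) (nat_lit 150) (nat_lit 5) (nat_lit 149) (nat_lit 5) (nat_lit 160) (nat_lit 5) (nat_lit 468) (nat_lit 465) (nat_lit 267)) (XT.lf (nat_lit 0) (nat_lit 405825489066) (nat_lit 760) (nat_lit 60686940723) (nat_lit 836) (nat_lit 240966137355) (nat_lit 150) (nat_lit 5) (nat_lit 160) (nat_lit 5) (nat_lit 161) (nat_lit 5) (nat_lit 469) (nat_lit 465) (nat_lit 266))) (XT.nd (nat_lit 78) (nat_lit 0) (nat_lit 0) (XT.lf (nat_lit 0) (nat_lit 488085930305) (nat_lit 760) (nat_lit 188802953103) (nat_lit 836) (nat_lit 60033195110) (nat_lit 151) (nat_lit 5) (nat_lit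 161) (nat_lit 5) (nat_lit 162) (nat_lit 5) (nat_lit 470) (nat_lit 465) (nat_lit 265)) (XT.lf (nat_lit 76) (nat_lit 445503881213) (nat_lit 0) (nat_lit 147319578056) (nat_lit 836) (nat_lit 175102798919) (nat_lit 152) (nat_lit 5) (nat_lit 151) (nat_lit 5) (nat_lit 162) (nat_lit 5) (nat_lit 471) (nat_lit 465) (nat_lit 264))))))))
noncomputable def xc121 : XT := (XT.nd (nat_lit 62322) (nat_lit 0) (nat_lit 304) (XT.nd (nat_lit 1092) (nat_lit 1900) (nat_lit 0) (XT.nd (nat_lit 546) (nat_lit 1824) (nat_lit 0) (XT.nd (nat_lit 234) (nat_lit 1064) (nat_lit 0) (XT.nd (nat_lit 78) (nat_lit 836) (nat_lit 0) (XT.lf (nat_lit 0) (nat_lit 340258039253) (nat_lit 760) (nat_lit 380966488637) (nat_lit 836) (nat_lit 79422017473) (nat_lit 142) (nat_lit 5) (nat_lit 152) (nat_lit 5) (nat_lit 153) (nat_lit 5) (nat_lit 472) (nat_lit 465) (nat_lit 263)) (XT.nd (nat_lit 78) (nat_lit 380) (nat_lit 0) (XT.lf (nat_lit 0) (nat_lit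 38174518870) (nat_lit 456) (nat_lit 602136306730) (nat_lit 76) (nat_lit 194903629044) (nat_lit 136) (nat_lit 5) (nat_lit 142) (nat_lit 5) (nat_lit 137) (nat_lit 5) (nat_lit 473) (nat_lit 465) (nat_lit 262)) (XT.lf (nat_lit 0) (nat_lit 122336706272) (nat_lit 380) (nat_lit 56581644354) (nat_lit 456) (nat_lit 692738239374) (nat_lit 131) (nat_lit 5) (nat_lit 136) (nat_lit 5) (nat_lit 137) (nat_lit 5) (nat_lit 474) (nat_lit 465) (nat_lit 261)))) (XT.nd (nat_lit 156) (nat_lit 684) (nat_lit 0) (XT.nd (nat_lit 78) (nat_lit 0) (nat_lit 0) (XT.lf (nat_lit 0) (nat_lit 6868526880) (nat_lit 380) (nat_lit 343780498836) (nat_lit 456) (nat_lit 559378703630) (nat_lit 126) (nat_lit 5) (nat_lit 131) (nat_lit 5) (nat_lit 132) (nat_lit 5) (nat_lit 475) (nat_lit 465) (nat_lit 260)) (XT.lf (nat_lit 0) (nat_lit 554781072501) (nat_lit 456) (nat_lit 106116226261) (nat_lit 76) (nat_lit 289638115196) (nat_lit 126) (nat_lit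 5) (nat_lit 132) (nat_lit 5) (nat_lit 127) (nat_lit 5) (nat_lit 476) (nat_lit 465) (nat_lit 259))) (XT.nd (nat_lit 78) (nat_lit 380) (nat_lit 0) (XT.lf (nat_lit 0) (nat_lit 773655202835) (nat_lit 304) (nat_lit 19464158978) (nat_lit 380) (nat_lit 200270567587) (nat_lit 122) (nat_lit 5) (nat_lit 126) (nat_lit 5) (nat_lit 127) (nat_lit 5) (nat_lit 477) (nat_lit 465) (nat_lit 258)) (XT.lf (nat_lit 0) (nat_lit 34204464507) (nat_lit 380) (nat_lit 339183043714) (nat_lit 76) (nat_lit 665091832167) (nat_lit 117) (nat_lit 5) (nat_lit 122) (nat_lit 5) (nat_lit 118) (nat_lit 5) (nat_lit 478) (nat_lit 465) (nat_lit 257))))) (XT.nd (nat_lit 234) (nat_lit 988) (nat_lit 0) (XT.nd (nat_lit 78) (nat_lit 532) (nat_lit 0) (XT.lf (nat_lit 0) (nat_lit 299777897639) (nat_lit 380) (nat_lit 462449410666) (nat_lit 76) (nat_lit 323816594570) (nat_lit 113) (nat_lit 5) (nat_lit 118) (nat_lit 5) (nat_lit 114) (nat_lit 5)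 (nat_lit 479) (nat_lit 465) (nat_lit 256)) (XT.nd (nat_lit 78) (nat_lit 228) (nat_lit 0) (XT.lf (nat_lit 0) (nat_lit 549585431978) (nat_lit 304) (nat_lit 57893533417) (nat_lit 380) (nat_lit 528890576966) (nat_lit 109) (nat_lit 5) (nat_lit 113) (nat_lit 5) (nat_lit 114) (nat_lit 5) (nat_lit 480) (nat_lit 465) (nat_lit 255)) (XT.lf (nat_lit 0) (nat_lit 472806747722) (nat_lit 228) (nat_lit 493531300230) (nat_lit 304) (nat_lit 223056088587) (nat_lit 106) (nat_lit 5) (nat_lit 109) (nat_lit 5) (nat_lit 110) (nat_lit 5) (nat_lit 481) (nat_lit 465) (nat_lit 254)))) (XT.nd (nat_lit 156) (nat_lit 456) (nat_lit 0) (XT.nd (nat_lit 78) (nat_lit 228) (nat_lit 0) (XT.lf (nat_lit 0) (nat_lit 125834800767) (nat_lit 304) (nat_lit 848057236097) (nat_lit 76) (nat_lit 271583833678) (nat_lit 102) (nat_lit 5) (nat_lit 106) (nat_lit 5) (nat_lit 103) (nat_lit 5) (nat_lit 482) (nat_lit 465) (nat_lit 253)) (XT.lf (nat_lit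 0) (nat_lit 318624583480) (nat_lit 228) (nat_lit 202285627186) (nat_lit 304) (nat_lit 783646697330) (nat_lit 99) (nat_lit 5) (nat_lit 102) (nat_lit 5) (nat_lit 103) (nat_lit 5) (nat_lit 483) (nat_lit 465) (nat_lit 252))) (XT.nd (nat_lit 78) (nat_lit 228) (nat_lit 0) (XT.lf (nat_lit 0) (nat_lit 238849024710) (nat_lit 228) (nat_lit 737338953006) (nat_lit 304) (nat_lit 390746634514) (nat_lit 96) (nat_lit 5) (nat_lit 99) (nat_lit 5) (nat_lit 100) (nat_lit 5) (nat_lit 484) (nat_lit 465) (nat_lit 251)) (XT.lf (nat_lit 0) (nat_lit 57637967793) (nat_lit 228) (nat_lit 1270376169759) (nat_lit 76) (nat_lit 105005803212) (nat_lit 93) (nat_lit 5) (nat_lit 96) (nat_lit 5) (nat_lit 94) (nat_lit 5) (nat_lit 485) (nat_lit 465) (nat_lit 250)))))) (XT.nd (nat_lit 546) (nat_lit 684) (nat_lit 0) (XT.nd (nat_lit 234) (nat_lit 760) (nat_lit 0) (XT.nd (nat_lit 78) (nat_lit 228) (nat_lit 0) (XT.lf (nat_lit 0) (nat_lit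 76613865760) (nat_lit 228) (nat_lit 485374325666) (nat_lit 304) (nat_lit 940394384435) (nat_lit 90) (nat_lit 5) (nat_lit 93) (nat_lit 5) (nat_lit 94) (nat_lit 5) (nat_lit 486) (nat_lit 465) (nat_lit 249)) (XT.nd (nat_lit 78) (nat_lit 228) (nat_lit 0) (XT.lf (nat_lit 0) (nat_lit 1135808722958) (nat_lit 304) (nat_lit 6453117411) (nat_lit 76) (nat_lit 433576266900) (nat_lit 90) (nat_lit 5) (nat_lit 94) (nat_lit 5) (nat_lit 91) (nat_lit 5) (nat_lit 487) (nat_lit 465) (nat_lit 248)) (XT.lf (nat_lit 0) (nat_lit 130359881481) (nat_lit 228) (nat_lit 87216337250) (nat_lit 76) (nat_lit 1435855145328) (nat_lit 87) (nat_lit 5) (nat_lit 90) (nat_lit 5) (nat_lit 88) (nat_lit 5) (nat_lit 488) (nat_lit 465) (nat_lit 247)))) (XT.nd (nat_lit 156) (nat_lit 380) (nat_lit 0) (XT.nd (nat_lit 78) (nat_lit 152) (nat_lit 0) (XT.lf (nat_lit 0) (nat_lit 768525177863) (nat_lit 304) (nat_lit 177803415017) (nat_lit 76) (nat_lit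 788664739915) (nat_lit 84) (nat_lit 5) (nat_lit 88) (nat_lit 5) (nat_lit 85) (nat_lit 5) (nat_lit 489) (nat_lit 465) (nat_lit 246)) (XT.lf (nat_lit 0) (nat_lit 1488431242340) (nat_lit 228) (nat_lit 263250823275) (nat_lit 76) (nat_lit 69863816198) (nat_lit 82) (nat_lit 5) (nat_lit 85) (nat_lit 5) (nat_lit 83) (nat_lit 5) (nat_lit 490) (nat_lit 465) (nat_lit 245))) (XT.nd (nat_lit 78) (nat_lit 152) (nat_lit 0) (XT.lf (nat_lit 0) (nat_lit 383827640550) (nat_lit 228) (nat_lit 360399835575) (nat_lit 76) (nat_lit 1168313641229) (nat_lit 79) (nat_lit 5) (nat_lit 82) (nat_lit 5) (nat_lit 80) (nat_lit 5) (nat_lit 491) (nat_lit 465) (nat_lit 244)) (XT.lf (nat_lit 0) (nat_lit 1181494642161) (nat_lit 228) (nat_lit 459344396513) (nat_lit 76) (nat_lit 367951885604) (nat_lit 77) (nat_lit 5) (nat_lit 80) (nat_lit 5) (nat_lit 78) (nat_lit 5) (nat_lit 492) (nat_lit 465) (nat_lit 243))))) (XT.nd (nat_lit 60372)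 (nat_lit 0) (nat_lit 6004) (XT.nd (nat_lit 156) (nat_lit 304) (nat_lit 0) (XT.nd (nat_lit 78) (nat_lit 228) (nat_lit 0) (XT.lf (nat_lit 0) (nat_lit 1549464107683) (nat_lit 152) (nat_lit 536632250760) (nat_lit 228) (nat_lit 24488289586) (nat_lit 75) (nat_lit 5) (nat_lit 77) (nat_lit 5) (nat_lit 78) (nat_lit 5) (nat_lit 493) (nat_lit 465) (nat_lit 242)) (XT.lf (nat_lit 0) (nat_lit 858922395521) (nat_lit 228) (nat_lit 677598079897) (nat_lit 76) (nat_lit 681176433646) (nat_lit 72) (nat_lit 5) (nat_lit 75) (nat_lit 5) (nat_lit 73) (nat_lit 5) (nat_lit 494) (nat_lit 465) (nat_lit 241))) (XT.nd (nat_lit 78) (nat_lit 152) (nat_lit 0) (XT.lf (nat_lit 0) (nat_lit 1536107002118) (nat_lit 152) (nat_lit 319018574942) (nat_lit 228) (nat_lit 476083621954) (nat_lit 70) (nat_lit 5) (nat_lit 72) (nat_lit 5) (nat_lit 73) (nat_lit 5) (nat_lit 495) (nat_lit 465) (nat_lit 240)) (XT.lf (nat_lit 0) (nat_lit 514242903370)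 (nat_lit 152) (nat_lit 928366604676) (nat_lit 76) (nat_lit 1008205701848) (nat_lit 68) (nat_lit 5) (nat_lit 70) (nat_lit 5) (nat_lit 69) (nat_lit 5) (nat_lit 496) (nat_lit 465) (nat_lit 239)))) (XT.nd (nat_lit 156) (nat_lit 0) (nat_lit 76) (XT.nd (nat_lit 78) (nat_lit 0) (nat_lit 76) (XT.lf (nat_lit 0) (nat_lit 135663685134) (nat_lit 836) (nat_lit 95265678858) (nat_lit 836) (nat_lit 95265678858) (nat_lit 147) (nat_lit 3) (nat_lit 158) (nat_lit 3) (nat_lit 158) (nat_lit 5) (nat_lit 466) (nat_lit 466) (nat_lit 268)) (XT.lf (nat_lit 0) (nat_lit 288246006613) (nat_lit 760) (nat_lit 341040438252) (nat_lit 836) (nat_lit 48895967150) (nat_lit 148) (nat_lit 5) (nat_lit 158) (nat_lit 5) (nat_lit 159) (nat_lit 5) (nat_lit 467) (nat_lit 466) (nat_lit 267))) (XT.nd (nat_lit 78) (nat_lit 0) (nat_lit 76) (XT.lf (nat_lit 76) (nat_lit 206735427252) (nat_lit 0) (nat_lit 114171526143) (nat_lit 836) (nat_lit 384411730068)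 (nat_lit 149) (nat_lit 5) (nat_lit 148) (nat_lit 5) (nat_lit 159) (nat_lit 5) (nat_lit 468) (nat_lit 466) (nat_lit 266)) (XT.lf (nat_lit 76) (nat_lit 71469820755) (nat_lit 0) (nat_lit 298768111284) (nat_lit 836) (nat_lit 363685066784) (nat_lit 150) (nat_lit 5) (nat_lit 149) (nat_lit 5) (nat_lit 160) (nat_lit 5) (nat_lit 469) (nat_lit 466) (nat_lit 265))))))) (XT.nd (nat_lit 1170) (nat_lit 2052) (nat_lit 0) (XT.nd (nat_lit 546) (nat_lit 2052) (nat_lit 0) (XT.nd (nat_lit 234) (nat_lit 1824) (nat_lit 0) (XT.nd (nat_lit 78) (nat_lit 0) (nat_lit 76) (XT.lf (nat_lit 0) (nat_lit 438291929485) (nat_lit 760) (nat_lit 65541596147) (nat_lit 836) (nat_lit 260243306757) (nat_lit 150) (nat_lit 5) (nat_lit 160) (nat_lit 5) (nat_lit 161) (nat_lit 5) (nat_lit 470) (nat_lit 466) (nat_lit 264)) (XT.nd (nat_lit 78) (nat_lit 0) (nat_lit 0) (XT.lf (nat_lit 0) (nat_lit 527133179383) (nat_lit 760) (nat_lit 203906882296)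 (nat_lit 836) (nat_lit 64835764333) (nat_lit 151) (nat_lit 5) (nat_lit 161) (nat_lit 5) (nat_lit 162) (nat_lit 5) (nat_lit 471) (nat_lit 466) (nat_lit 263)) (XT.lf (nat_lit 76) (nat_lit 481144485421) (nat_lit 0) (nat_lit 159105202075) (nat_lit 836) (nat_lit 189110653718) (nat_lit 152) (nat_lit 5) (nat_lit 151) (nat_lit 5) (nat_lit 162) (nat_lit 5) (nat_lit 472) (nat_lit 466) (nat_lit 262)))) (XT.nd (nat_lit 156) (nat_lit 760) (nat_lit 0) (XT.nd (nat_lit 78) (nat_lit 456) (nat_lit 0) (XT.lf (nat_lit 0) (nat_lit 367478981064) (nat_lit 760) (nat_lit 411443838336) (nat_lit 836) (nat_lit 85775433080) (nat_lit 142) (nat_lit 5) (nat_lit 152) (nat_lit 5) (nat_lit 153) (nat_lit 5) (nat_lit 473) (nat_lit 466) (nat_lit 261)) (XT.lf (nat_lit 0) (nat_lit 41228794650) (nat_lit 456) (nat_lit 650306898891) (nat_lit 76) (nat_lit 210495901717) (nat_lit 136) (nat_lit 5) (nat_lit 142) (nat_lit 5) (nat_lit 137)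 (nat_lit 5) (nat_lit 474) (nat_lit 466) (nat_lit 260))) (XT.nd (nat_lit 78) (nat_lit 380) (nat_lit 0) (XT.lf (nat_lit 0) (nat_lit 132123941575) (nat_lit 380) (nat_lit 61108172757) (nat_lit 456) (nat_lit 748156988045) (nat_lit 131) (nat_lit 5) (nat_lit 136) (nat_lit 5) (nat_lit 137) (nat_lit 5) (nat_lit 475) (nat_lit 466) (nat_lit 259)) (XT.lf (nat_lit 0) (nat_lit 7418308978) (nat_lit 380) (nat_lit 371282917280) (nat_lit 456) (nat_lit 604128707474) (nat_lit 126) (nat_lit 5) (nat_lit 131) (nat_lit 5) (nat_lit 132) (nat_lit 5) (nat_lit 476) (nat_lit 466) (nat_lit 258))))) (XT.nd (nat_lit 312) (nat_lit 1064) (nat_lit 0) (XT.nd (nat_lit 156) (nat_lit 684) (nat_lit 0) (XT.nd (nat_lit 78) (nat_lit 304) (nat_lit 0) (XT.lf (nat_lit 0) (nat_lit 599163816468) (nat_lit 456) (nat_lit 114605234015) (nat_lit 76) (nat_lit 312809183649) (nat_lit 126) (nat_lit 5) (nat_lit 132) (nat_lit 5) (nat_lit 127) (nat_lit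 5) (nat_lit 477) (nat_lit 466) (nat_lit 257)) (XT.lf (nat_lit 0) (nat_lit 835547896790) (nat_lit 304) (nat_lit 21021257348) (nat_lit 380) (nat_lit 216291957415) (nat_lit 122) (nat_lit 5) (nat_lit 126) (nat_lit 5) (nat_lit 127) (nat_lit 5) (nat_lit 478) (nat_lit 466) (nat_lit 256))) (XT.nd (nat_lit 78) (nat_lit 304) (nat_lit 0) (XT.lf (nat_lit 0) (nat_lit 36941055639) (nat_lit 380) (nat_lit 366317402632) (nat_lit 76) (nat_lit 718299217623) (nat_lit 117) (nat_lit 5) (nat_lit 122) (nat_lit 5) (nat_lit 118) (nat_lit 5) (nat_lit 479) (nat_lit 466) (nat_lit 255)) (XT.lf (nat_lit 0) (nat_lit 323760351141) (nat_lit 380) (nat_lit 499445081038) (nat_lit 76) (nat_lit 349721971815) (nat_lit 113) (nat_lit 5) (nat_lit 118) (nat_lit 5) (nat_lit 114) (nat_lit 5) (nat_lit 480) (nat_lit 466) (nat_lit 254)))) (XT.nd (nat_lit 156) (nat_lit 532) (nat_lit 0) (XT.nd (nat_lit 78) (nat_lit 228) (nat_lit 0) (XT.lf (nat_lit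 0) (nat_lit 593552536742) (nat_lit 304) (nat_lit 62524955374) (nat_lit 380) (nat_lit 571201603137) (nat_lit 109) (nat_lit 5) (nat_lit 113) (nat_lit 5) (nat_lit 114) (nat_lit 5) (nat_lit 481) (nat_lit 466) (nat_lit 253)) (XT.lf (nat_lit 0) (nat_lit 510631555137) (nat_lit 228) (nat_lit 533013735677) (nat_lit 304) (nat_lit 240900366675) (nat_lit 106) (nat_lit 5) (nat_lit 109) (nat_lit 5) (nat_lit 110) (nat_lit 5) (nat_lit 482) (nat_lit 466) (nat_lit 252))) (XT.nd (nat_lit 78) (nat_lit 228) (nat_lit 0) (XT.lf (nat_lit 0) (nat_lit 135901777357) (nat_lit 304) (nat_lit 915901544116) (nat_lit 76) (nat_lit 293310609067) (nat_lit 102) (nat_lit 5) (nat_lit 106) (nat_lit 5) (nat_lit 103) (nat_lit 5) (nat_lit 483) (nat_lit 466) (nat_lit 251)) (XT.lf (nat_lit 0) (nat_lit 344114809256) (nat_lit 228) (nat_lit 218468400577) (nat_lit 304) (nat_lit 846338241669) (nat_lit 99) (nat_lit 5) (nat_lit 102) (nat_lit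 5) (nat_lit 103) (nat_lit 5) (nat_lit 484) (nat_lit 466) (nat_lit 250)))))) (XT.nd (nat_lit 546) (nat_lit 760) (nat_lit 0) (XT.nd (nat_lit 234) (nat_lit 608) (nat_lit 0) (XT.nd (nat_lit 78) (nat_lit 456) (nat_lit 0) (XT.lf (nat_lit 0) (nat_lit 257957202114) (nat_lit 228) (nat_lit 796325987725) (nat_lit 304) (nat_lit 422006182657) (nat_lit 96) (nat_lit 5) (nat_lit 99) (nat_lit 5) (nat_lit 100) (nat_lit 5) (nat_lit 485) (nat_lit 466) (nat_lit 249)) (XT.nd (nat_lit 78) (nat_lit 228) (nat_lit 0) (XT.lf (nat_lit 0) (nat_lit 62249174083) (nat_lit 228) (nat_lit 1372006006298) (nat_lit 76) (nat_lit 113406347185) (nat_lit 93) (nat_lit 5) (nat_lit 96) (nat_lit 5) (nat_lit 94) (nat_lit 5) (nat_lit 486) (nat_lit 466) (nat_lit 248)) (XT.lf (nat_lit 0) (nat_lit 82743220891) (nat_lit 228) (nat_lit 524204186046) (nat_lit 304) (nat_lit 1015625766970) (nat_lit 90) (nat_lit 5) (nat_lit 93) (nat_lit 5) (nat_lit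 94) (nat_lit 5) (nat_lit 487) (nat_lit 466) (nat_lit 247)))) (XT.nd (nat_lit 156) (nat_lit 380) (nat_lit 0) (XT.nd (nat_lit 78) (nat_lit 228) (nat_lit 0) (XT.lf (nat_lit 0) (nat_lit 1226673570364) (nat_lit 304) (nat_lit 6969132955) (nat_lit 76) (nat_lit 468262445040) (nat_lit 90) (nat_lit 5) (nat_lit 94) (nat_lit 5) (nat_lit 91) (nat_lit 5) (nat_lit 488) (nat_lit 466) (nat_lit 246)) (XT.lf (nat_lit 0) (nat_lit 140788816321) (nat_lit 228) (nat_lit 94193415761) (nat_lit 76) (nat_lit 1550723633875) (nat_lit 87) (nat_lit 5) (nat_lit 90) (nat_lit 5) (nat_lit 88) (nat_lit 5) (nat_lit 489) (nat_lit 466) (nat_lit 245))) (XT.nd (nat_lit 78) (nat_lit 152) (nat_lit 0) (XT.lf (nat_lit 0) (nat_lit 830007330407) (nat_lit 304) (nat_lit 192027464089) (nat_lit 76) (nat_lit 851757997997) (nat_lit 84) (nat_lit 5) (nat_lit 88) (nat_lit 5) (nat_lit 85) (nat_lit 5) (nat_lit 490) (nat_lit 466) (nat_lit 244)) (XT.lf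 (nat_lit 0) (nat_lit 1607505874439) (nat_lit 228) (nat_lit 284310669463) (nat_lit 76) (nat_lit 75453001811) (nat_lit 82) (nat_lit 5) (nat_lit 85) (nat_lit 5) (nat_lit 83) (nat_lit 5) (nat_lit 491) (nat_lit 466) (nat_lit 243))))) (XT.nd (nat_lit 60528) (nat_lit 0) (nat_lit 5700) (XT.nd (nat_lit 156) (nat_lit 380) (nat_lit 0) (XT.nd (nat_lit 78) (nat_lit 152) (nat_lit 0) (XT.lf (nat_lit 0) (nat_lit 414533980033) (nat_lit 228) (nat_lit 389231608044) (nat_lit 76) (nat_lit 1261778812245) (nat_lit 79) (nat_lit 5) (nat_lit 82) (nat_lit 5) (nat_lit 80) (nat_lit 5) (nat_lit 492) (nat_lit 466) (nat_lit 242)) (XT.lf (nat_lit 0) (nat_lit 1276014336773) (nat_lit 228) (nat_lit 496091738367) (nat_lit 76) (nat_lit 397388116911) (nat_lit 77) (nat_lit 5) (nat_lit 80) (nat_lit 5) (nat_lit 78) (nat_lit 5) (nat_lit 493) (nat_lit 466) (nat_lit 241))) (XT.nd (nat_lit 78) (nat_lit 228) (nat_lit 0) (XT.lf (nat_lit 0)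 (nat_lit 1673421437044) (nat_lit 152) (nat_lit 579562747319) (nat_lit 228) (nat_lit 26447229639) (nat_lit 75) (nat_lit 5) (nat_lit 77) (nat_lit 5) (nat_lit 78) (nat_lit 5) (nat_lit 494) (nat_lit 466) (nat_lit 240)) (XT.lf (nat_lit 0) (nat_lit 927636301852) (nat_lit 228) (nat_lit 731805726101) (nat_lit 76) (nat_lit 735670628096) (nat_lit 72) (nat_lit 5) (nat_lit 75) (nat_lit 5) (nat_lit 73) (nat_lit 5) (nat_lit 495) (nat_lit 466) (nat_lit 239)))) (XT.nd (nat_lit 156) (nat_lit 0) (nat_lit 76) (XT.nd (nat_lit 78) (nat_lit 0) (nat_lit 76) (XT.lf (nat_lit 0) (nat_lit 146517011490) (nat_lit 836) (nat_lit 102886811587) (nat_lit 836) (nat_lit 102886811587) (nat_lit 147) (nat_lit 3) (nat_lit 158) (nat_lit 3) (nat_lit 158) (nat_lit 5) (nat_lit 467) (nat_lit 467) (nat_lit 266)) (XT.lf (nat_lit 0) (nat_lit 311306116440) (nat_lit 760) (nat_lit 368323415915) (nat_lit 836) (nat_lit 52807451091) (nat_lit 148)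 (nat_lit 5) (nat_lit 158) (nat_lit 5) (nat_lit 159) (nat_lit 5) (nat_lit 468) (nat_lit 467) (nat_lit 265))) (XT.nd (nat_lit 78) (nat_lit 0) (nat_lit 76) (XT.lf (nat_lit 76) (nat_lit 223274507643) (nat_lit 0) (nat_lit 123305403365) (nat_lit 836) (nat_lit 415164247002) (nat_lit 149) (nat_lit 5) (nat_lit 148) (nat_lit 5) (nat_lit 159) (nat_lit 5) (nat_lit 469) (nat_lit 467) (nat_lit 264)) (XT.lf (nat_lit 76) (nat_lit 77187663497) (nat_lit 0) (nat_lit 322669676489) (nat_lit 836) (nat_lit 392779480017) (nat_lit 150) (nat_lit 5) (nat_lit 149) (nat_lit 5) (nat_lit 160) (nat_lit 5) (nat_lit 470) (nat_lit 467) (nat_lit 263))))))))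
noncomputable def xc122 : XT := (XT.nd (nat_lit 62556) (nat_lit 0) (nat_lit 152) (XT.nd (nat_lit 1092) (nat_lit 2052) (nat_lit 0) (XT.nd (nat_lit 546) (nat_lit 1824) (nat_lit 0) (XT.nd (nat_lit 234) (nat_lit 1824) (nat_lit 0) (XT.nd (nat_lit 78) (nat_lit 0) (nat_lit 76) (XT.lf (nat_lit 0) (nat_lit 473355627889) (nat_lit 760) (nat_lit 70784666780) (nat_lit 836) (nat_lit 281062667057) (nat_lit 150) (nat_lit 5) (nat_lit 160) (nat_lit 5) (nat_lit 161) (nat_lit 5) (nat_lit 471) (nat_lit 467) (nat_lit 262)) (XT.nd (nat_lit 78) (nat_lit 0) (nat_lit 0) (XT.lf (nat_lit 0) (nat_lit 569304154938) (nat_lit 760) (nat_lit 220219169629) (nat_lit 836) (nat_lit 70022551416) (nat_lit 151) (nat_lit 5) (nat_lit 161) (nat_lit 5) (nat_lit 162) (nat_lit 5) (nat_lit 472) (nat_lit 467) (nat_lit 261)) (XT.lf (nat_lit 76) (nat_lit 519636296065) (nat_lit 0) (nat_lit 171833667774) (nat_lit 836) (nat_lit 204239189560) (nat_lit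 152) (nat_lit 5) (nat_lit 151) (nat_lit 5) (nat_lit 162) (nat_lit 5) (nat_lit 473) (nat_lit 467) (nat_lit 260)))) (XT.nd (nat_lit 156) (nat_lit 760) (nat_lit 0) (XT.nd (nat_lit 78) (nat_lit 456) (nat_lit 0) (XT.lf (nat_lit 0) (nat_lit 396877555612) (nat_lit 760) (nat_lit 444359371644) (nat_lit 836) (nat_lit 92637171266) (nat_lit 142) (nat_lit 5) (nat_lit 152) (nat_lit 5) (nat_lit 153) (nat_lit 5) (nat_lit 474) (nat_lit 467) (nat_lit 259)) (XT.lf (nat_lit 0) (nat_lit 44527367659) (nat_lit 456) (nat_lit 702331182990) (nat_lit 76) (nat_lit 227335558723) (nat_lit 136) (nat_lit 5) (nat_lit 142) (nat_lit 5) (nat_lit 137) (nat_lit 5) (nat_lit 475) (nat_lit 467) (nat_lit 258))) (XT.nd (nat_lit 78) (nat_lit 380) (nat_lit 0) (XT.lf (nat_lit 0) (nat_lit 142694113076) (nat_lit 380) (nat_lit 65996823881) (nat_lit 456) (nat_lit 808009280902) (nat_lit 131) (nat_lit 5) (nat_lit 136) (nat_lit 5) (nat_lit 137)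 (nat_lit 5) (nat_lit 476) (nat_lit 467) (nat_lit 257)) (XT.lf (nat_lit 0) (nat_lit 8012030854) (nat_lit 380) (nat_lit 400985532261) (nat_lit 456) (nat_lit 652458753347) (nat_lit 126) (nat_lit 5) (nat_lit 131) (nat_lit 5) (nat_lit 132) (nat_lit 5) (nat_lit 477) (nat_lit 467) (nat_lit 256))))) (XT.nd (nat_lit 234) (nat_lit 1140) (nat_lit 0) (XT.nd (nat_lit 78) (nat_lit 684) (nat_lit 0) (XT.lf (nat_lit 0) (nat_lit 647097143121) (nat_lit 456) (nat_lit 123773403812) (nat_lit 76) (nat_lit 337833934833) (nat_lit 126) (nat_lit 5) (nat_lit 132) (nat_lit 5) (nat_lit 127) (nat_lit 5) (nat_lit 478) (nat_lit 467) (nat_lit 255)) (XT.nd (nat_lit 78) (nat_lit 380) (nat_lit 0) (XT.lf (nat_lit 0) (nat_lit 902391966640) (nat_lit 304) (nat_lit 22702928487) (nat_lit 380) (nat_lit 233595094889) (nat_lit 122) (nat_lit 5) (nat_lit 126) (nat_lit 5) (nat_lit 127) (nat_lit 5) (nat_lit 479) (nat_lit 467) (nat_lit 254))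 (XT.lf (nat_lit 0) (nat_lit 39896540683) (nat_lit 380) (nat_lit 395622550861) (nat_lit 76) (nat_lit 775763188368) (nat_lit 117) (nat_lit 5) (nat_lit 122) (nat_lit 5) (nat_lit 118) (nat_lit 5) (nat_lit 480) (nat_lit 467) (nat_lit 253)))) (XT.nd (nat_lit 156) (nat_lit 532) (nat_lit 0) (XT.nd (nat_lit 78) (nat_lit 304) (nat_lit 0) (XT.lf (nat_lit 0) (nat_lit 349661369297) (nat_lit 380) (nat_lit 539400445339) (nat_lit 76) (nat_lit 377699772152) (nat_lit 113) (nat_lit 5) (nat_lit 118) (nat_lit 5) (nat_lit 114) (nat_lit 5) (nat_lit 481) (nat_lit 467) (nat_lit 252)) (XT.lf (nat_lit 0) (nat_lit 641036971338) (nat_lit 304) (nat_lit 67526899749) (nat_lit 380) (nat_lit 616897542785) (nat_lit 109) (nat_lit 5) (nat_lit 113) (nat_lit 5) (nat_lit 114) (nat_lit 5) (nat_lit 482) (nat_lit 467) (nat_lit 251))) (XT.nd (nat_lit 78) (nat_lit 304) (nat_lit 0) (XT.lf (nat_lit 0) (nat_lit 551482308970) (nat_lit 228)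 (nat_lit 575654775743) (nat_lit 304) (nat_lit 260172216825) (nat_lit 106) (nat_lit 5) (nat_lit 109) (nat_lit 5) (nat_lit 110) (nat_lit 5) (nat_lit 483) (nat_lit 467) (nat_lit 250)) (XT.lf (nat_lit 0) (nat_lit 146774084608) (nat_lit 304) (nat_lit 989173435418) (nat_lit 76) (nat_lit 316775516686) (nat_lit 102) (nat_lit 5) (nat_lit 106) (nat_lit 5) (nat_lit 103) (nat_lit 5) (nat_lit 484) (nat_lit 467) (nat_lit 249)))))) (XT.nd (nat_lit 546) (nat_lit 684) (nat_lit 0) (XT.nd (nat_lit 234) (nat_lit 684) (nat_lit 0) (XT.nd (nat_lit 78) (nat_lit 456) (nat_lit 0) (XT.lf (nat_lit 0) (nat_lit 371644216131) (nat_lit 228) (nat_lit 235945806792) (nat_lit 304) (nat_lit 914045136868) (nat_lit 99) (nat_lit 5) (nat_lit 102) (nat_lit 5) (nat_lit 103) (nat_lit 5) (nat_lit 485) (nat_lit 467) (nat_lit 248)) (XT.nd (nat_lit 78) (nat_lit 228) (nat_lit 0) (XT.lf (nat_lit 0) (nat_lit 278593997271) (nat_lit 228) (nat_lit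 860031996852) (nat_lit 304) (nat_lit 455766520704) (nat_lit 96) (nat_lit 5) (nat_lit 99) (nat_lit 5) (nat_lit 100) (nat_lit 5) (nat_lit 486) (nat_lit 467) (nat_lit 247)) (XT.lf (nat_lit 0) (nat_lit 67229252786) (nat_lit 228) (nat_lit 1481766266430) (nat_lit 76) (nat_lit 122478923303) (nat_lit 93) (nat_lit 5) (nat_lit 96) (nat_lit 5) (nat_lit 94) (nat_lit 5) (nat_lit 487) (nat_lit 467) (nat_lit 246)))) (XT.nd (nat_lit 156) (nat_lit 456) (nat_lit 0) (XT.nd (nat_lit 78) (nat_lit 0) (nat_lit 0) (XT.lf (nat_lit 0) (nat_lit 89362889357) (nat_lit 228) (nat_lit 566140447478) (nat_lit 304) (nat_lit 1096875684105) (nat_lit 90) (nat_lit 5) (nat_lit 93) (nat_lit 5) (nat_lit 94) (nat_lit 5) (nat_lit 488) (nat_lit 467) (nat_lit 245)) (XT.lf (nat_lit 0) (nat_lit 1324807584225) (nat_lit 304) (nat_lit 7526463104) (nat_lit 76) (nat_lit 505723506477) (nat_lit 90) (nat_lit 5) (nat_lit 94) (nat_lit 5) (nat_lit 91)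 (nat_lit 5) (nat_lit 489) (nat_lit 467) (nat_lit 244))) (XT.nd (nat_lit 78) (nat_lit 228) (nat_lit 0) (XT.lf (nat_lit 0) (nat_lit 152052045359) (nat_lit 228) (nat_lit 101728693146) (nat_lit 76) (nat_lit 1674781590532) (nat_lit 87) (nat_lit 5) (nat_lit 90) (nat_lit 5) (nat_lit 88) (nat_lit 5) (nat_lit 490) (nat_lit 467) (nat_lit 243)) (XT.lf (nat_lit 0) (nat_lit 896408035423) (nat_lit 304) (nat_lit 207389469061) (nat_lit 76) (nat_lit 919898705471) (nat_lit 84) (nat_lit 5) (nat_lit 88) (nat_lit 5) (nat_lit 85) (nat_lit 5) (nat_lit 491) (nat_lit 467) (nat_lit 242))))) (XT.nd (nat_lit 60606) (nat_lit 0) (nat_lit 5472) (XT.nd (nat_lit 156) (nat_lit 304) (nat_lit 0) (XT.nd (nat_lit 78) (nat_lit 228) (nat_lit 0) (XT.lf (nat_lit 0) (nat_lit 1736106458174) (nat_lit 228) (nat_lit 307055334684) (nat_lit 76) (nat_lit 81489310815) (nat_lit 82) (nat_lit 5) (nat_lit 85) (nat_lit 5) (nat_lit 83) (nat_lit 5)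 (nat_lit 492) (nat_lit 467) (nat_lit 241)) (XT.lf (nat_lit 0) (nat_lit 447696808380) (nat_lit 228) (nat_lit 420369952895) (nat_lit 76) (nat_lit 1362721185568) (nat_lit 79) (nat_lit 5) (nat_lit 82) (nat_lit 5) (nat_lit 80) (nat_lit 5) (nat_lit 493) (nat_lit 467) (nat_lit 240))) (XT.nd (nat_lit 78) (nat_lit 152) (nat_lit 0) (XT.lf (nat_lit 0) (nat_lit 1378095589373) (nat_lit 228) (nat_lit 535778897509) (nat_lit 76) (nat_lit 429179235243) (nat_lit 77) (nat_lit 5) (nat_lit 80) (nat_lit 5) (nat_lit 78) (nat_lit 5) (nat_lit 494) (nat_lit 467) (nat_lit 239)) (XT.lf (nat_lit 0) (nat_lit 1807295324115) (nat_lit 152) (nat_lit 625927695516) (nat_lit 228) (nat_lit 28562902459) (nat_lit 75) (nat_lit 5) (nat_lit 77) (nat_lit 5) (nat_lit 78) (nat_lit 5) (nat_lit 495) (nat_lit 467) (nat_lit 238)))) (XT.nd (nat_lit 156) (nat_lit 0) (nat_lit 76) (XT.nd (nat_lit 78) (nat_lit 0) (nat_lit 76) (XT.lf (nat_lit 0)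 (nat_lit 158238570921) (nat_lit 836) (nat_lit 111117652280) (nat_lit 836) (nat_lit 111117652280) (nat_lit 147) (nat_lit 3) (nat_lit 158) (nat_lit 3) (nat_lit 158) (nat_lit 5) (nat_lit 468) (nat_lit 468) (nat_lit 264)) (XT.lf (nat_lit 0) (nat_lit 336210973809) (nat_lit 760) (nat_lit 397789068511) (nat_lit 836) (nat_lit 57031881341) (nat_lit 148) (nat_lit 5) (nat_lit 158) (nat_lit 5) (nat_lit 159) (nat_lit 5) (nat_lit 469) (nat_lit 468) (nat_lit 263))) (XT.nd (nat_lit 78) (nat_lit 0) (nat_lit 76) (XT.lf (nat_lit 76) (nat_lit 241136679341) (nat_lit 0) (nat_lit 133169968634) (nat_lit 836) (nat_lit 448377025419) (nat_lit 149) (nat_lit 5) (nat_lit 148) (nat_lit 5) (nat_lit 159) (nat_lit 5) (nat_lit 470) (nat_lit 468) (nat_lit 262)) (XT.lf (nat_lit 76) (nat_lit 83362896983) (nat_lit 0) (nat_lit 348483350319) (nat_lit 836) (nat_lit 424201502246) (nat_lit 150) (nat_lit 5) (nat_lit 149) (nat_lit 5) (nat_lit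 160) (nat_lit 5) (nat_lit 471) (nat_lit 468) (nat_lit 261))))))) (XT.nd (nat_lit 1170) (nat_lit 1672) (nat_lit 0) (XT.nd (nat_lit 546) (nat_lit 2052) (nat_lit 0) (XT.nd (nat_lit 234) (nat_lit 1824) (nat_lit 0) (XT.nd (nat_lit 78) (nat_lit 0) (nat_lit 76) (XT.lf (nat_lit 0) (nat_lit 511224373083) (nat_lit 760) (nat_lit 76447219735) (nat_lit 836) (nat_lit 303547591052) (nat_lit 150) (nat_lit 5) (nat_lit 160) (nat_lit 5) (nat_lit 161) (nat_lit 5) (nat_lit 472) (nat_lit 468) (nat_lit 260)) (XT.nd (nat_lit 78) (nat_lit 0) (nat_lit 0) (XT.lf (nat_lit 0) (nat_lit 614848762715) (nat_lit 760) (nat_lit 237836477504) (nat_lit 836) (nat_lit 75624292033) (nat_lit 151) (nat_lit 5) (nat_lit 161) (nat_lit 5) (nat_lit 162) (nat_lit 5) (nat_lit 473) (nat_lit 468) (nat_lit 259)) (XT.lf (nat_lit 76) (nat_lit 561207415637) (nat_lit 0) (nat_lit 185580403663) (nat_lit 836) (nat_lit 220578053416) (nat_lit 152) (nat_lit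 5) (nat_lit 151) (nat_lit 5) (nat_lit 162) (nat_lit 5) (nat_lit 474) (nat_lit 468) (nat_lit 258)))) (XT.nd (nat_lit 156) (nat_lit 760) (nat_lit 0) (XT.nd (nat_lit 78) (nat_lit 456) (nat_lit 0) (XT.lf (nat_lit 0) (nat_lit 428627979593) (nat_lit 760) (nat_lit 479908143873) (nat_lit 836) (nat_lit 100047890800) (nat_lit 142) (nat_lit 5) (nat_lit 152) (nat_lit 5) (nat_lit 153) (nat_lit 5) (nat_lit 475) (nat_lit 468) (nat_lit 257)) (XT.lf (nat_lit 0) (nat_lit 48089788071) (nat_lit 456) (nat_lit 758517448022) (nat_lit 76) (nat_lit 245522390447) (nat_lit 136) (nat_lit 5) (nat_lit 142) (nat_lit 5) (nat_lit 137) (nat_lit 5) (nat_lit 476) (nat_lit 468) (nat_lit 256))) (XT.nd (nat_lit 78) (nat_lit 380) (nat_lit 0) (XT.lf (nat_lit 0) (nat_lit 154109861750) (nat_lit 380) (nat_lit 71276567480) (nat_lit 456) (nat_lit 872649795162) (nat_lit 131) (nat_lit 5) (nat_lit 136) (nat_lit 5) (nat_lit 137) (nat_lit 5)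 (nat_lit 477) (nat_lit 468) (nat_lit 255)) (XT.lf (nat_lit 0) (nat_lit 8653213793) (nat_lit 380) (nat_lit 433064359066) (nat_lit 456) (nat_lit 704655238658) (nat_lit 126) (nat_lit 5) (nat_lit 131) (nat_lit 5) (nat_lit 132) (nat_lit 5) (nat_lit 478) (nat_lit 468) (nat_lit 254))))) (XT.nd (nat_lit 312) (nat_lit 1064) (nat_lit 0) (XT.nd (nat_lit 156) (nat_lit 684) (nat_lit 0) (XT.nd (nat_lit 78) (nat_lit 304) (nat_lit 0) (XT.lf (nat_lit 0) (nat_lit 698865104331) (nat_lit 456) (nat_lit 133675062703) (nat_lit 76) (nat_lit 364860663760) (nat_lit 126) (nat_lit 5) (nat_lit 132) (nat_lit 5) (nat_lit 127) (nat_lit 5) (nat_lit 479) (nat_lit 468) (nat_lit 253)) (XT.lf (nat_lit 0) (nat_lit 974583528110) (nat_lit 304) (nat_lit 24519137519) (nat_lit 380) (nat_lit 252282514622) (nat_lit 122) (nat_lit 5) (nat_lit 126) (nat_lit 5) (nat_lit 127) (nat_lit 5) (nat_lit 480) (nat_lit 468) (nat_lit 252))) (XT.nd (nat_lit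 78) (nat_lit 304) (nat_lit 0) (XT.lf (nat_lit 0) (nat_lit 43088435913) (nat_lit 380) (nat_lit 427272145755) (nat_lit 76) (nat_lit 837824272017) (nat_lit 117) (nat_lit 5) (nat_lit 122) (nat_lit 5) (nat_lit 118) (nat_lit 5) (nat_lit 481) (nat_lit 468) (nat_lit 251)) (XT.lf (nat_lit 0) (nat_lit 377634441790) (nat_lit 380) (nat_lit 582552273334) (nat_lit 76) (nat_lit 407915790440) (nat_lit 113) (nat_lit 5) (nat_lit 118) (nat_lit 5) (nat_lit 114) (nat_lit 5) (nat_lit 482) (nat_lit 468) (nat_lit 250)))) (XT.nd (nat_lit 156) (nat_lit 532) (nat_lit 0) (XT.nd (nat_lit 78) (nat_lit 228) (nat_lit 0) (XT.lf (nat_lit 0) (nat_lit 692320127654) (nat_lit 304) (nat_lit 72929007100) (nat_lit 380) (nat_lit 666249184511) (nat_lit 109) (nat_lit 5) (nat_lit 113) (nat_lit 5) (nat_lit 114) (nat_lit 5) (nat_lit 483) (nat_lit 468) (nat_lit 249)) (XT.lf (nat_lit 0) (nat_lit 595601090380) (nat_lit 228) (nat_lit 621707107401)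 (nat_lit 304) (nat_lit 280985840550) (nat_lit 106) (nat_lit 5) (nat_lit 109) (nat_lit 5) (nat_lit 110) (nat_lit 5) (nat_lit 484) (nat_lit 468) (nat_lit 248))) (XT.nd (nat_lit 78) (nat_lit 228) (nat_lit 0) (XT.lf (nat_lit 0) (nat_lit 158516152892) (nat_lit 304) (nat_lit 1068307111155) (nat_lit 76) (nat_lit 342117608513) (nat_lit 102) (nat_lit 5) (nat_lit 106) (nat_lit 5) (nat_lit 103) (nat_lit 5) (nat_lit 485) (nat_lit 468) (nat_lit 247)) (XT.lf (nat_lit 0) (nat_lit 401375943867) (nat_lit 228) (nat_lit 254821414896) (nat_lit 304) (nat_lit 987168607099) (nat_lit 99) (nat_lit 5) (nat_lit 102) (nat_lit 5) (nat_lit 103) (nat_lit 5) (nat_lit 486) (nat_lit 468) (nat_lit 246)))))) (XT.nd (nat_lit 546) (nat_lit 380) (nat_lit 0) (XT.nd (nat_lit 234) (nat_lit 608) (nat_lit 0) (XT.nd (nat_lit 78) (nat_lit 456) (nat_lit 0) (XT.lf (nat_lit 0) (nat_lit 300881704800) (nat_lit 228) (nat_lit 928834496679) (nat_lit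 304) (nat_lit 492227708131) (nat_lit 96) (nat_lit 5) (nat_lit 99) (nat_lit 5) (nat_lit 100) (nat_lit 5) (nat_lit 487) (nat_lit 468) (nat_lit 245)) (XT.nd (nat_lit 78) (nat_lit 228) (nat_lit 0) (XT.lf (nat_lit 0) (nat_lit 72607717131) (nat_lit 228) (nat_lit 1600307378812) (nat_lit 76) (nat_lit 132277295762) (nat_lit 93) (nat_lit 5) (nat_lit 96) (nat_lit 5) (nat_lit 94) (nat_lit 5) (nat_lit 488) (nat_lit 468) (nat_lit 244)) (XT.lf (nat_lit 0) (nat_lit 96512101228) (nat_lit 228) (nat_lit 611431620304) (nat_lit 304) (nat_lit 1184625615187) (nat_lit 90) (nat_lit 5) (nat_lit 93) (nat_lit 5) (nat_lit 94) (nat_lit 5) (nat_lit 489) (nat_lit 468) (nat_lit 243)))) (XT.nd (nat_lit 156) (nat_lit 380) (nat_lit 0) (XT.nd (nat_lit 78) (nat_lit 228) (nat_lit 0) (XT.lf (nat_lit 0) (nat_lit 1430792300900) (nat_lit 304) (nat_lit 8128408266) (nat_lit 76) (nat_lit 546181443437) (nat_lit 90) (nat_lit 5) (nat_lit 94)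 (nat_lit 5) (nat_lit 91) (nat_lit 5) (nat_lit 490) (nat_lit 468) (nat_lit 242)) (XT.lf (nat_lit 0) (nat_lit 164216315068) (nat_lit 228) (nat_lit 109866820666) (nat_lit 76) (nat_lit 1808764174313) (nat_lit 87) (nat_lit 5) (nat_lit 90) (nat_lit 5) (nat_lit 88) (nat_lit 5) (nat_lit 491) (nat_lit 468) (nat_lit 241))) (XT.nd (nat_lit 78) (nat_lit 152) (nat_lit 0) (XT.lf (nat_lit 0) (nat_lit 968120779923) (nat_lit 304) (nat_lit 223980461843) (nat_lit 76) (nat_lit 993490659895) (nat_lit 84) (nat_lit 5) (nat_lit 88) (nat_lit 5) (nat_lit 85) (nat_lit 5) (nat_lit 492) (nat_lit 468) (nat_lit 240)) (XT.lf (nat_lit 0) (nat_lit 1874995072375) (nat_lit 228) (nat_lit 331619599992) (nat_lit 76) (nat_lit 88008514715) (nat_lit 82) (nat_lit 5) (nat_lit 85) (nat_lit 5) (nat_lit 83) (nat_lit 5) (nat_lit 493) (nat_lit 468) (nat_lit 239))))) (XT.nd (nat_lit 60684) (nat_lit 0) (nat_lit 5396) (XT.nd (nat_lit 60528) (nat_lit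 0) (nat_lit 5320) (XT.nd (nat_lit 78) (nat_lit 152) (nat_lit 0) (XT.lf (nat_lit 0) (nat_lit 483512647310) (nat_lit 228) (nat_lit 453999391553) (nat_lit 76) (nat_lit 1471738939008) (nat_lit 79) (nat_lit 5) (nat_lit 82) (nat_lit 5) (nat_lit 80) (nat_lit 5) (nat_lit 494) (nat_lit 468) (nat_lit 238)) (XT.lf (nat_lit 0) (nat_lit 1488343327107) (nat_lit 228) (nat_lit 578641055051) (nat_lit 76) (nat_lit 463513633202) (nat_lit 77) (nat_lit 5) (nat_lit 80) (nat_lit 5) (nat_lit 78) (nat_lit 5) (nat_lit 495) (nat_lit 468) (nat_lit 237))) (XT.nd (nat_lit 78) (nat_lit 0) (nat_lit 76) (XT.lf (nat_lit 0) (nat_lit 170897826787) (nat_lit 836) (nat_lit 120006975098) (nat_lit 836) (nat_lit 120006975098) (nat_lit 147) (nat_lit 3) (nat_lit 158) (nat_lit 3) (nat_lit 158) (nat_lit 5) (nat_lit 469) (nat_lit 469) (nat_lit 262)) (XT.lf (nat_lit 0) (nat_lit 363108167261) (nat_lit 760) (nat_lit 429612004797) (nat_lit 836)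 (nat_lit 61594289670) (nat_lit 148) (nat_lit 5) (nat_lit 158) (nat_lit 5) (nat_lit 159) (nat_lit 5) (nat_lit 470) (nat_lit 469) (nat_lit 261)))) (XT.nd (nat_lit 156) (nat_lit 0) (nat_lit 152) (XT.nd (nat_lit 78) (nat_lit 0) (nat_lit 76) (XT.lf (nat_lit 76) (nat_lit 260427794661) (nat_lit 0) (nat_lit 143823680151) (nat_lit 836) (nat_lit 484246877659) (nat_lit 149) (nat_lit 5) (nat_lit 148) (nat_lit 5) (nat_lit 159) (nat_lit 5) (nat_lit 471) (nat_lit 469) (nat_lit 260)) (XT.lf (nat_lit 76) (nat_lit 90032117705) (nat_lit 0) (nat_lit 376362103830) (nat_lit 836) (nat_lit 458137334213) (nat_lit 150) (nat_lit 5) (nat_lit 149) (nat_lit 5) (nat_lit 160) (nat_lit 5) (nat_lit 472) (nat_lit 469) (nat_lit 259))) (XT.nd (nat_lit 78) (nat_lit 0) (nat_lit 76) (XT.lf (nat_lit 0) (nat_lit 552122575814) (nat_lit 760) (nat_lit 82562808368) (nat_lit 836) (nat_lit 327831321716) (nat_lit 150) (nat_lit 5) (nat_lit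 160) (nat_lit 5) (nat_lit 161) (nat_lit 5) (nat_lit 473) (nat_lit 469) (nat_lit 258)) (XT.lf (nat_lit 0) (nat_lit 664036899827) (nat_lit 760) (nat_lit 256863202207) (nat_lit 836) (nat_lit 81674180957) (nat_lit 151) (nat_lit 5) (nat_lit 161) (nat_lit 5) (nat_lit 162) (nat_lit 5) (nat_lit 474) (nat_lit 469) (nat_lit 257))))))))
noncomputable def xc123 : XT := (XT.nd (nat_lit 62868) (nat_lit 0) (nat_lit 228) (XT.nd (nat_lit 1170) (nat_lit 1064) (nat_lit 0) (XT.nd (nat_lit 546) (nat_lit 2204) (nat_lit 0) (XT.nd (nat_lit 234) (nat_lit 1064) (nat_lit 0) (XT.nd (nat_lit 78) (nat_lit 1140) (nat_lit 0) (XT.lf (nat_lit 76) (nat_lit 606104193976) (nat_lit 0) (nat_lit 200426872364) (nat_lit 836) (nat_lit 238224065085) (nat_lit 152) (nat_lit 5) (nat_lit 151) (nat_lit 5) (nat_lit 162) (nat_lit 5) (nat_lit 475) (nat_lit 469) (nat_lit 256)) (XT.nd (nat_lit 78) (nat_lit 456) (nat_lit 0) (XT.lf (nat_lit 0) (nat_lit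 462918406174) (nat_lit 760) (nat_lit 518300814671) (nat_lit 836) (nat_lit 108051504157) (nat_lit 142) (nat_lit 5) (nat_lit 152) (nat_lit 5) (nat_lit 153) (nat_lit 5) (nat_lit 476) (nat_lit 469) (nat_lit 255)) (XT.lf (nat_lit 0) (nat_lit 51937169160) (nat_lit 456) (nat_lit 819198647013) (nat_lit 76) (nat_lit 265164170560) (nat_lit 136) (nat_lit 5) (nat_lit 142) (nat_lit 5) (nat_lit 137) (nat_lit 5) (nat_lit 477) (nat_lit 469) (nat_lit 254)))) (XT.nd (nat_lit 156) (nat_lit 304) (nat_lit 0) (XT.nd (nat_lit 78) (nat_lit 380) (nat_lit 0) (XT.lf (nat_lit 0) (nat_lit 166438838986) (nat_lit 380) (nat_lit 76978690897) (nat_lit 456) (nat_lit 942461583121) (nat_lit 131) (nat_lit 5) (nat_lit 136) (nat_lit 5) (nat_lit 137) (nat_lit 5) (nat_lit 478) (nat_lit 469) (nat_lit 253)) (XT.lf (nat_lit 0) (nat_lit 9345659914) (nat_lit 380) (nat_lit 467709494266) (nat_lit 456) (nat_lit 761027473460) (nat_lit 126) (nat_lit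 5) (nat_lit 131) (nat_lit 5) (nat_lit 132) (nat_lit 5) (nat_lit 479) (nat_lit 469) (nat_lit 252))) (XT.nd (nat_lit 78) (nat_lit 304) (nat_lit 0) (XT.lf (nat_lit 0) (nat_lit 754774475367) (nat_lit 456) (nat_lit 144368884752) (nat_lit 76) (nat_lit 394049528983) (nat_lit 126) (nat_lit 5) (nat_lit 132) (nat_lit 5) (nat_lit 127) (nat_lit 5) (nat_lit 480) (nat_lit 469) (nat_lit 251)) (XT.lf (nat_lit 0) (nat_lit 1052550385375) (nat_lit 304) (nat_lit 26480646875) (nat_lit 380) (nat_lit 272464954733) (nat_lit 122) (nat_lit 5) (nat_lit 126) (nat_lit 5) (nat_lit 127) (nat_lit 5) (nat_lit 481) (nat_lit 469) (nat_lit 250))))) (XT.nd (nat_lit 312) (nat_lit 988) (nat_lit 0) (XT.nd (nat_lit 156) (nat_lit 532) (nat_lit 0) (XT.nd (nat_lit 78) (nat_lit 304) (nat_lit 0) (XT.lf (nat_lit 0) (nat_lit 46535658228) (nat_lit 380) (nat_lit 461453738082) (nat_lit 76) (nat_lit 904850238280) (nat_lit 117) (nat_lit 5) (nat_lit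 122) (nat_lit 5) (nat_lit 118) (nat_lit 5) (nat_lit 482) (nat_lit 469) (nat_lit 249)) (XT.lf (nat_lit 0) (nat_lit 407845336837) (nat_lit 380) (nat_lit 629156277190) (nat_lit 76) (nat_lit 440549084982) (nat_lit 113) (nat_lit 5) (nat_lit 118) (nat_lit 5) (nat_lit 114) (nat_lit 5) (nat_lit 483) (nat_lit 469) (nat_lit 248))) (XT.nd (nat_lit 78) (nat_lit 228) (nat_lit 0) (XT.lf (nat_lit 0) (nat_lit 747705908141) (nat_lit 304) (nat_lit 78763289406) (nat_lit 380) (nat_lit 719548980643) (nat_lit 109) (nat_lit 5) (nat_lit 113) (nat_lit 5) (nat_lit 114) (nat_lit 5) (nat_lit 484) (nat_lit 469) (nat_lit 247)) (XT.lf (nat_lit 0) (nat_lit 643249346242) (nat_lit 228) (nat_lit 671443632781) (nat_lit 304) (nat_lit 303464576089) (nat_lit 106) (nat_lit 5) (nat_lit 109) (nat_lit 5) (nat_lit 110) (nat_lit 5) (nat_lit 485) (nat_lit 469) (nat_lit 246)))) (XT.nd (nat_lit 156) (nat_lit 456) (nat_lit 0) (XT.nd (nat_lit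 78) (nat_lit 228) (nat_lit 0) (XT.lf (nat_lit 0) (nat_lit 171197566449) (nat_lit 304) (nat_lit 1153771509353) (nat_lit 76) (nat_lit 369487060484) (nat_lit 102) (nat_lit 5) (nat_lit 106) (nat_lit 5) (nat_lit 103) (nat_lit 5) (nat_lit 486) (nat_lit 469) (nat_lit 245)) (XT.lf (nat_lit 0) (nat_lit 433486182651) (nat_lit 228) (nat_lit 275207079701) (nat_lit 304) (nat_lit 1066141975023) (nat_lit 99) (nat_lit 5) (nat_lit 102) (nat_lit 5) (nat_lit 103) (nat_lit 5) (nat_lit 487) (nat_lit 469) (nat_lit 244))) (XT.nd (nat_lit 78) (nat_lit 228) (nat_lit 0) (XT.lf (nat_lit 0) (nat_lit 324952402147) (nat_lit 228) (nat_lit 1003141205041) (nat_lit 304) (nat_lit 531605809701) (nat_lit 96) (nat_lit 5) (nat_lit 99) (nat_lit 5) (nat_lit 100) (nat_lit 5) (nat_lit 488) (nat_lit 469) (nat_lit 243)) (XT.lf (nat_lit 0) (nat_lit 78416440917) (nat_lit 228) (nat_lit 1728331807137) (nat_lit 76) (nat_lit 142859529657) (nat_lit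 93) (nat_lit 5) (nat_lit 96) (nat_lit 5) (nat_lit 94) (nat_lit 5) (nat_lit 489) (nat_lit 469) (nat_lit 242)))))) (XT.nd (nat_lit 61074) (nat_lit 0) (nat_lit 3952) (XT.nd (nat_lit 312) (nat_lit 608) (nat_lit 0) (XT.nd (nat_lit 78) (nat_lit 228) (nat_lit 0) (XT.lf (nat_lit 0) (nat_lit 104233224267) (nat_lit 228) (nat_lit 660346095940) (nat_lit 304) (nat_lit 1279395558394) (nat_lit 90) (nat_lit 5) (nat_lit 93) (nat_lit 5) (nat_lit 94) (nat_lit 5) (nat_lit 490) (nat_lit 469) (nat_lit 241)) (XT.nd (nat_lit 78) (nat_lit 228) (nat_lit 0) (XT.lf (nat_lit 0) (nat_lit 1545255779226) (nat_lit 304) (nat_lit 8778533563) (nat_lit 76) (nat_lit 589876007302) (nat_lit 90) (nat_lit 5) (nat_lit 94) (nat_lit 5) (nat_lit 91) (nat_lit 5) (nat_lit 491) (nat_lit 469) (nat_lit 240)) (XT.lf (nat_lit 0) (nat_lit 177353711221) (nat_lit 228) (nat_lit 118656022346) (nat_lit 76) (nat_lit 1953465356731) (nat_lit 87) (nat_lit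 5) (nat_lit 90) (nat_lit 5) (nat_lit 88) (nat_lit 5) (nat_lit 492) (nat_lit 469) (nat_lit 239)))) (XT.nd (nat_lit 60606) (nat_lit 0) (nat_lit 5168) (XT.nd (nat_lit 78) (nat_lit 228) (nat_lit 0) (XT.lf (nat_lit 0) (nat_lit 2024994761796) (nat_lit 228) (nat_lit 358149029559) (nat_lit 76) (nat_lit 95049246506) (nat_lit 82) (nat_lit 5) (nat_lit 85) (nat_lit 5) (nat_lit 83) (nat_lit 5) (nat_lit 494) (nat_lit 469) (nat_lit 237)) (XT.lf (nat_lit 0) (nat_lit 522193739908) (nat_lit 228) (nat_lit 490319207784) (nat_lit 76) (nat_lit 1589478104364) (nat_lit 79) (nat_lit 5) (nat_lit 82) (nat_lit 5) (nat_lit 80) (nat_lit 5) (nat_lit 495) (nat_lit 469) (nat_lit 236))) (XT.nd (nat_lit 78) (nat_lit 0) (nat_lit 76) (XT.lf (nat_lit 0) (nat_lit 184569798843) (nat_lit 836) (nat_lit 129607456491) (nat_lit 836) (nat_lit 129607456491) (nat_lit 147) (nat_lit 3) (nat_lit 158) (nat_lit 3) (nat_lit 158) (nat_lit 5) (nat_lit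 470) (nat_lit 470) (nat_lit 260)) (XT.lf (nat_lit 0) (nat_lit 392157091172) (nat_lit 760) (nat_lit 463980802977) (nat_lit 836) (nat_lit 66521710949) (nat_lit 148) (nat_lit 5) (nat_lit 158) (nat_lit 5) (nat_lit 159) (nat_lit 5) (nat_lit 471) (nat_lit 470) (nat_lit 259))))) (XT.nd (nat_lit 312) (nat_lit 1292) (nat_lit 0) (XT.nd (nat_lit 156) (nat_lit 0) (nat_lit 152) (XT.nd (nat_lit 78) (nat_lit 0) (nat_lit 76) (XT.lf (nat_lit 76) (nat_lit 281262173389) (nat_lit 0) (nat_lit 155329672322) (nat_lit 836) (nat_lit 522986362273) (nat_lit 149) (nat_lit 5) (nat_lit 148) (nat_lit 5) (nat_lit 159) (nat_lit 5) (nat_lit 472) (nat_lit 470) (nat_lit 258)) (XT.lf (nat_lit 76) (nat_lit 97234849126) (nat_lit 0) (nat_lit 406471145427) (nat_lit 836) (nat_lit 494788073854) (nat_lit 150) (nat_lit 5) (nat_lit 149) (nat_lit 5) (nat_lit 160) (nat_lit 5) (nat_lit 473) (nat_lit 470) (nat_lit 257))) (XT.nd (nat_lit 78)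 (nat_lit 0) (nat_lit 76) (XT.lf (nat_lit 0) (nat_lit 596292598685) (nat_lit 760) (nat_lit 89167671047) (nat_lit 836) (nat_lit 354057761764) (nat_lit 150) (nat_lit 5) (nat_lit 160) (nat_lit 5) (nat_lit 161) (nat_lit 5) (nat_lit 474) (nat_lit 470) (nat_lit 256)) (XT.lf (nat_lit 0) (nat_lit 717160054227) (nat_lit 760) (nat_lit 277412092491) (nat_lit 836) (nat_lit 88208068762) (nat_lit 151) (nat_lit 5) (nat_lit 161) (nat_lit 5) (nat_lit 162) (nat_lit 5) (nat_lit 475) (nat_lit 470) (nat_lit 255)))) (XT.nd (nat_lit 156) (nat_lit 836) (nat_lit 0) (XT.nd (nat_lit 78) (nat_lit 684) (nat_lit 0) (XT.lf (nat_lit 76) (nat_lit 654592688178) (nat_lit 0) (nat_lit 216461053367) (nat_lit 836) (nat_lit 257281790871) (nat_lit 152) (nat_lit 5) (nat_lit 151) (nat_lit 5) (nat_lit 162) (nat_lit 5) (nat_lit 476) (nat_lit 470) (nat_lit 254)) (XT.lf (nat_lit 0) (nat_lit 499952040030) (nat_lit 760) (nat_lit 559764896381)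 (nat_lit 836) (nat_lit 116695437670) (nat_lit 142) (nat_lit 5) (nat_lit 152) (nat_lit 5) (nat_lit 153) (nat_lit 5) (nat_lit 477) (nat_lit 470) (nat_lit 253))) (XT.nd (nat_lit 78) (nat_lit 380) (nat_lit 0) (XT.lf (nat_lit 0) (nat_lit 56092312484) (nat_lit 456) (nat_lit 884734370006) (nat_lit 76) (nat_lit 286377294669) (nat_lit 136) (nat_lit 5) (nat_lit 142) (nat_lit 5) (nat_lit 137) (nat_lit 5) (nat_lit 478) (nat_lit 470) (nat_lit 252)) (XT.lf (nat_lit 0) (nat_lit 179754107538) (nat_lit 380) (nat_lit 83136984469) (nat_lit 456) (nat_lit 1017858342028) (nat_lit 131) (nat_lit 5) (nat_lit 136) (nat_lit 5) (nat_lit 137) (nat_lit 5) (nat_lit 479) (nat_lit 470) (nat_lit 251))))))) (XT.nd (nat_lit 61776) (nat_lit 0) (nat_lit 2356) (XT.nd (nat_lit 546) (nat_lit 1824) (nat_lit 0) (XT.nd (nat_lit 234) (nat_lit 1216) (nat_lit 0) (XT.nd (nat_lit 78) (nat_lit 304) (nat_lit 0) (XT.lf (nat_lit 0) (nat_lit 10093474760)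 (nat_lit 380) (nat_lit 505126242211) (nat_lit 456) (nat_lit 821909513338) (nat_lit 126) (nat_lit 5) (nat_lit 131) (nat_lit 5) (nat_lit 132) (nat_lit 5) (nat_lit 480) (nat_lit 470) (nat_lit 250)) (XT.nd (nat_lit 78) (nat_lit 304) (nat_lit 0) (XT.lf (nat_lit 0) (nat_lit 815156572875) (nat_lit 456) (nat_lit 155918238668) (nat_lit 76) (nat_lit 425573501695) (nat_lit 126) (nat_lit 5) (nat_lit 132) (nat_lit 5) (nat_lit 127) (nat_lit 5) (nat_lit 481) (nat_lit 470) (nat_lit 249)) (XT.lf (nat_lit 0) (nat_lit 1136754566253) (nat_lit 304) (nat_lit 28599080067) (nat_lit 380) (nat_lit 294262013029) (nat_lit 122) (nat_lit 5) (nat_lit 126) (nat_lit 5) (nat_lit 127) (nat_lit 5) (nat_lit 482) (nat_lit 470) (nat_lit 248)))) (XT.nd (nat_lit 156) (nat_lit 532) (nat_lit 0) (XT.nd (nat_lit 78) (nat_lit 304) (nat_lit 0) (XT.lf (nat_lit 0) (nat_lit 50258637293) (nat_lit 380) (nat_lit 498369883379) (nat_lit 76) (nat_lit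 977238278350) (nat_lit 117) (nat_lit 5) (nat_lit 122) (nat_lit 5) (nat_lit 118) (nat_lit 5) (nat_lit 483) (nat_lit 470) (nat_lit 247)) (XT.lf (nat_lit 0) (nat_lit 440473083557) (nat_lit 380) (nat_lit 679488626749) (nat_lit 76) (nat_lit 475793038621) (nat_lit 113) (nat_lit 5) (nat_lit 118) (nat_lit 5) (nat_lit 114) (nat_lit 5) (nat_lit 484) (nat_lit 470) (nat_lit 246))) (XT.nd (nat_lit 78) (nat_lit 228) (nat_lit 0) (XT.lf (nat_lit 0) (nat_lit 807522526776) (nat_lit 304) (nat_lit 85064319756) (nat_lit 380) (nat_lit 777112780242) (nat_lit 109) (nat_lit 5) (nat_lit 113) (nat_lit 5) (nat_lit 114) (nat_lit 5) (nat_lit 485) (nat_lit 470) (nat_lit 245)) (XT.lf (nat_lit 0) (nat_lit 694709438516) (nat_lit 228) (nat_lit 725159086357) (nat_lit 304) (nat_lit 327741629260) (nat_lit 106) (nat_lit 5) (nat_lit 109) (nat_lit 5) (nat_lit 110) (nat_lit 5) (nat_lit 486) (nat_lit 470) (nat_lit 244))))) (XT.nd (nat_lit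 312) (nat_lit 836) (nat_lit 0) (XT.nd (nat_lit 156) (nat_lit 456) (nat_lit 0) (XT.nd (nat_lit 78) (nat_lit 228) (nat_lit 0) (XT.lf (nat_lit 0) (nat_lit 184893475783) (nat_lit 304) (nat_lit 1246073083759) (nat_lit 76) (nat_lit 399046062436) (nat_lit 102) (nat_lit 5) (nat_lit 106) (nat_lit 5) (nat_lit 103) (nat_lit 5) (nat_lit 487) (nat_lit 470) (nat_lit 243)) (XT.lf (nat_lit 0) (nat_lit 468165217246) (nat_lit 228) (nat_lit 297223604592) (nat_lit 304) (nat_lit 1151433229592) (nat_lit 99) (nat_lit 5) (nat_lit 102) (nat_lit 5) (nat_lit 103) (nat_lit 5) (nat_lit 488) (nat_lit 470) (nat_lit 242))) (XT.nd (nat_lit 78) (nat_lit 228) (nat_lit 0) (XT.lf (nat_lit 0) (nat_lit 350948732318) (nat_lit 228) (nat_lit 1083392457401) (nat_lit 304) (nat_lit 574134175814) (nat_lit 96) (nat_lit 5) (nat_lit 99) (nat_lit 5) (nat_lit 100) (nat_lit 5) (nat_lit 489) (nat_lit 470) (nat_lit 241)) (XT.lf (nat_lit 0) (nat_lit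 84689847423) (nat_lit 228) (nat_lit 1866598212837) (nat_lit 76) (nat_lit 154288335098) (nat_lit 93) (nat_lit 5) (nat_lit 96) (nat_lit 5) (nat_lit 94) (nat_lit 5) (nat_lit 490) (nat_lit 470) (nat_lit 240)))) (XT.nd (nat_lit 234) (nat_lit 608) (nat_lit 0) (XT.nd (nat_lit 78) (nat_lit 0) (nat_lit 0) (XT.lf (nat_lit 0) (nat_lit 112572015044) (nat_lit 228) (nat_lit 713173737328) (nat_lit 304) (nat_lit 1381747112181) (nat_lit 90) (nat_lit 5) (nat_lit 93) (nat_lit 5) (nat_lit 94) (nat_lit 5) (nat_lit 491) (nat_lit 470) (nat_lit 239)) (XT.lf (nat_lit 0) (nat_lit 1668876322372) (nat_lit 304) (nat_lit 9480689907) (nat_lit 76) (nat_lit 637066129373) (nat_lit 90) (nat_lit 5) (nat_lit 94) (nat_lit 5) (nat_lit 91) (nat_lit 5) (nat_lit 492) (nat_lit 470) (nat_lit 238))) (XT.nd (nat_lit 78) (nat_lit 152) (nat_lit 0) (XT.lf (nat_lit 0) (nat_lit 1129216246564) (nat_lit 304) (nat_lit 261250537065) (nat_lit 76)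 (nat_lit 1158807602013) (nat_lit 84) (nat_lit 5) (nat_lit 88) (nat_lit 5) (nat_lit 85) (nat_lit 5) (nat_lit 494) (nat_lit 470) (nat_lit 236)) (XT.lf (nat_lit 0) (nat_lit 2186994414440) (nat_lit 228) (nat_lit 386800833241) (nat_lit 76) (nat_lit 102653229619) (nat_lit 82) (nat_lit 5) (nat_lit 85) (nat_lit 5) (nat_lit 83) (nat_lit 5) (nat_lit 495) (nat_lit 470) (nat_lit 235)))))) (XT.nd (nat_lit 546) (nat_lit 2584) (nat_lit 0) (XT.nd (nat_lit 234) (nat_lit 0) (nat_lit 152) (XT.nd (nat_lit 78) (nat_lit 0) (nat_lit 76) (XT.lf (nat_lit 0) (nat_lit 199335507847) (nat_lit 836) (nat_lit 139975987325) (nat_lit 836) (nat_lit 139975987325) (nat_lit 147) (nat_lit 3) (nat_lit 158) (nat_lit 3) (nat_lit 158) (nat_lit 5) (nat_lit 471) (nat_lit 471) (nat_lit 258)) (XT.nd (nat_lit 78) (nat_lit 0) (nat_lit 0) (XT.lf (nat_lit 0) (nat_lit 423529890403) (nat_lit 760) (nat_lit 501099128151) (nat_lit 836) (nat_lit 71843343320)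 (nat_lit 148) (nat_lit 5) (nat_lit 158) (nat_lit 5) (nat_lit 159) (nat_lit 5) (nat_lit 472) (nat_lit 471) (nat_lit 257)) (XT.lf (nat_lit 76) (nat_lit 303763280281) (nat_lit 0) (nat_lit 167756129920) (nat_lit 836) (nat_lit 564825043548) (nat_lit 149) (nat_lit 5) (nat_lit 148) (nat_lit 5) (nat_lit 159) (nat_lit 5) (nat_lit 473) (nat_lit 471) (nat_lit 256)))) (XT.nd (nat_lit 156) (nat_lit 0) (nat_lit 152) (XT.nd (nat_lit 78) (nat_lit 0) (nat_lit 76) (XT.lf (nat_lit 76) (nat_lit 105013775950) (nat_lit 0) (nat_lit 438988899896) (nat_lit 836) (nat_lit 534370907917) (nat_lit 150) (nat_lit 5) (nat_lit 149) (nat_lit 5) (nat_lit 160) (nat_lit 5) (nat_lit 474) (nat_lit 471) (nat_lit 255)) (XT.lf (nat_lit 0) (nat_lit 643996192457) (nat_lit 760) (nat_lit 96300945850) (nat_lit 836) (nat_lit 382382326387) (nat_lit 150) (nat_lit 5) (nat_lit 160) (nat_lit 5) (nat_lit 161) (nat_lit 5) (nat_lit 475) (nat_lit 471)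 (nat_lit 254))) (XT.nd (nat_lit 78) (nat_lit 0) (nat_lit 0) (XT.lf (nat_lit 0) (nat_lit 774533032102) (nat_lit 760) (nat_lit 299604917664) (nat_lit 836) (nat_lit 95264674249) (nat_lit 151) (nat_lit 5) (nat_lit 161) (nat_lit 5) (nat_lit 162) (nat_lit 5) (nat_lit 476) (nat_lit 471) (nat_lit 253)) (XT.lf (nat_lit 76) (nat_lit 706960239277) (nat_lit 0) (nat_lit 233777964398) (nat_lit 836) (nat_lit 277864163170) (nat_lit 152) (nat_lit 5) (nat_lit 151) (nat_lit 5) (nat_lit 162) (nat_lit 5) (nat_lit 477) (nat_lit 471) (nat_lit 252))))) (XT.nd (nat_lit 312) (nat_lit 988) (nat_lit 0) (XT.nd (nat_lit 156) (nat_lit 760) (nat_lit 0) (XT.nd (nat_lit 78) (nat_lit 456) (nat_lit 0) (XT.lf (nat_lit 0) (nat_lit 539948341575) (nat_lit 760) (nat_lit 604546102268) (nat_lit 836) (nat_lit 126030912515) (nat_lit 142) (nat_lit 5) (nat_lit 152) (nat_lit 5) (nat_lit 153) (nat_lit 5) (nat_lit 478) (nat_lit 471) (nat_lit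 251)) (XT.lf (nat_lit 0) (nat_lit 60579843051) (nat_lit 456) (nat_lit 955512974916) (nat_lit 76) (nat_lit 309287470067) (nat_lit 136) (nat_lit 5) (nat_lit 142) (nat_lit 5) (nat_lit 137) (nat_lit 5) (nat_lit 479) (nat_lit 471) (nat_lit 250))) (XT.nd (nat_lit 78) (nat_lit 380) (nat_lit 0) (XT.lf (nat_lit 0) (nat_lit 194134574545) (nat_lit 380) (nat_lit 89787941770) (nat_lit 456) (nat_lit 1099286865578) (nat_lit 131) (nat_lit 5) (nat_lit 136) (nat_lit 5) (nat_lit 137) (nat_lit 5) (nat_lit 480) (nat_lit 471) (nat_lit 249)) (XT.lf (nat_lit 0) (nat_lit 10901091675) (nat_lit 380) (nat_lit 545536331647) (nat_lit 456) (nat_lit 887662138946) (nat_lit 126) (nat_lit 5) (nat_lit 131) (nat_lit 5) (nat_lit 132) (nat_lit 5) (nat_lit 481) (nat_lit 471) (nat_lit 248)))) (XT.nd (nat_lit 156) (nat_lit 684) (nat_lit 0) (XT.nd (nat_lit 78) (nat_lit 304) (nat_lit 0) (XT.lf (nat_lit 0) (nat_lit 880369218287) (nat_lit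 456) (nat_lit 168391563275) (nat_lit 76) (nat_lit 459619390741) (nat_lit 126) (nat_lit 5) (nat_lit 132) (nat_lit 5) (nat_lit 127) (nat_lit 5) (nat_lit 482) (nat_lit 471) (nat_lit 247)) (XT.lf (nat_lit 0) (nat_lit 1227695060195) (nat_lit 304) (nat_lit 30886990562) (nat_lit 380) (nat_lit 317802855689) (nat_lit 122) (nat_lit 5) (nat_lit 126) (nat_lit 5) (nat_lit 127) (nat_lit 5) (nat_lit 483) (nat_lit 471) (nat_lit 246))) (XT.nd (nat_lit 78) (nat_lit 304) (nat_lit 0) (XT.lf (nat_lit 0) (nat_lit 54279436651) (nat_lit 380) (nat_lit 538239342234) (nat_lit 76) (nat_lit 1055417358628) (nat_lit 117) (nat_lit 5) (nat_lit 122) (nat_lit 5) (nat_lit 118) (nat_lit 5) (nat_lit 484) (nat_lit 471) (nat_lit 245)) (XT.lf (nat_lit 0) (nat_lit 475711032927) (nat_lit 380) (nat_lit 733847586046) (nat_lit 76) (nat_lit 513856504722) (nat_lit 113) (nat_lit 5) (nat_lit 118) (nat_lit 5) (nat_lit 114) (nat_lit 5) (nat_lit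 485) (nat_lit 471) (nat_lit 244))))))))
noncomputable def xc124 : XT := (XT.nd (nat_lit 63024) (nat_lit 0) (nat_lit 228) (XT.nd (nat_lit 61854) (nat_lit 0) (nat_lit 456) (XT.nd (nat_lit 624) (nat_lit 228) (nat_lit 0) (XT.nd (nat_lit 234) (nat_lit 912) (nat_lit 0) (XT.nd (nat_lit 78) (nat_lit 532) (nat_lit 0) (XT.lf (nat_lit 0) (nat_lit 872124454075) (nat_lit 304) (nat_lit 91869437213) (nat_lit 380) (nat_lit 839281700765) (nat_lit 109) (nat_lit 5) (nat_lit 113) (nat_lit 5) (nat_lit 114) (nat_lit 5) (nat_lit 486) (nat_lit 471) (nat_lit 243)) (XT.nd (nat_lit 78) (nat_lit 304) (nat_lit 0) (XT.lf (nat_lit 0) (nat_lit 750286317547) (nat_lit 228) (nat_lit 783171781504) (nat_lit 304) (nat_lit 353960862793) (nat_lit 106) (nat_lit 5) (nat_lit 109) (nat_lit 5) (nat_lit 110) (nat_lit 5) (nat_lit 487) (nat_lit 471) (nat_lit 242)) (XT.lf (nat_lit 0) (nat_lit 199685043024) (nat_lit 304) (nat_lit 1345758804995)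 (nat_lit 76) (nat_lit 430969779249) (nat_lit 102) (nat_lit 5) (nat_lit 106) (nat_lit 5) (nat_lit 103) (nat_lit 5) (nat_lit 488) (nat_lit 471) (nat_lit 241)))) (XT.nd (nat_lit 156) (nat_lit 456) (nat_lit 0) (XT.nd (nat_lit 78) (nat_lit 228) (nat_lit 0) (XT.lf (nat_lit 0) (nat_lit 505618554638) (nat_lit 228) (nat_lit 321001457394) (nat_lit 304) (nat_lit 1243547799283) (nat_lit 99) (nat_lit 5) (nat_lit 102) (nat_lit 5) (nat_lit 103) (nat_lit 5) (nat_lit 489) (nat_lit 471) (nat_lit 240)) (XT.lf (nat_lit 0) (nat_lit 379024749216) (nat_lit 228) (nat_lit 1170063816233) (nat_lit 304) (nat_lit 620064825291) (nat_lit 96) (nat_lit 5) (nat_lit 99) (nat_lit 5) (nat_lit 100) (nat_lit 5) (nat_lit 490) (nat_lit 471) (nat_lit 239))) (XT.nd (nat_lit 78) (nat_lit 228) (nat_lit 0) (XT.lf (nat_lit 0) (nat_lit 91465113435) (nat_lit 228) (nat_lit 2015925950804) (nat_lit 76) (nat_lit 166631438830) (nat_lit 93) (nat_lit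 5) (nat_lit 96) (nat_lit 5) (nat_lit 94) (nat_lit 5) (nat_lit 491) (nat_lit 471) (nat_lit 238)) (XT.lf (nat_lit 0) (nat_lit 121577890133) (nat_lit 228) (nat_lit 770227596631) (nat_lit 304) (nat_lit 1492286803237) (nat_lit 90) (nat_lit 5) (nat_lit 93) (nat_lit 5) (nat_lit 94) (nat_lit 5) (nat_lit 492) (nat_lit 471) (nat_lit 237))))) (XT.nd (nat_lit 60918) (nat_lit 0) (nat_lit 4636) (XT.nd (nat_lit 60762) (nat_lit 0) (nat_lit 4560) (XT.lf (nat_lit 0) (nat_lit 206865519826) (nat_lit 228) (nat_lit 138400145329) (nat_lit 76) (nat_lit 2278522072603) (nat_lit 87) (nat_lit 5) (nat_lit 90) (nat_lit 5) (nat_lit 88) (nat_lit 5) (nat_lit 494) (nat_lit 471) (nat_lit 235)) (XT.nd (nat_lit 78) (nat_lit 0) (nat_lit 76) (XT.lf (nat_lit 0) (nat_lit 215282455725) (nat_lit 836) (nat_lit 151174009996) (nat_lit 836) (nat_lit 151174009996) (nat_lit 147) (nat_lit 3) (nat_lit 158) (nat_lit 3) (nat_lit 158) (nat_lit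 5) (nat_lit 472) (nat_lit 472) (nat_lit 256)) (XT.lf (nat_lit 0) (nat_lit 457412480483) (nat_lit 760) (nat_lit 541186939179) (nat_lit 836) (nat_lit 77590721189) (nat_lit 148) (nat_lit 5) (nat_lit 158) (nat_lit 5) (nat_lit 159) (nat_lit 5) (nat_lit 473) (nat_lit 472) (nat_lit 255)))) (XT.nd (nat_lit 156) (nat_lit 0) (nat_lit 152) (XT.nd (nat_lit 78) (nat_lit 0) (nat_lit 76) (XT.lf (nat_lit 76) (nat_lit 328064456747) (nat_lit 0) (nat_lit 181176692170) (nat_lit 836) (nat_lit 610010851809) (nat_lit 149) (nat_lit 5) (nat_lit 148) (nat_lit 5) (nat_lit 159) (nat_lit 5) (nat_lit 474) (nat_lit 472) (nat_lit 254)) (XT.lf (nat_lit 76) (nat_lit 113414997104) (nat_lit 0) (nat_lit 474108065758) (nat_lit 836) (nat_lit 577120398928) (nat_lit 150) (nat_lit 5) (nat_lit 149) (nat_lit 5) (nat_lit 160) (nat_lit 5) (nat_lit 475) (nat_lit 472) (nat_lit 253))) (XT.nd (nat_lit 78) (nat_lit 0) (nat_lit 76) (XT.lf (nat_lit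 0) (nat_lit 695516047213) (nat_lit 760) (nat_lit 104004902449) (nat_lit 836) (nat_lit 412972864214) (nat_lit 150) (nat_lit 5) (nat_lit 160) (nat_lit 5) (nat_lit 161) (nat_lit 5) (nat_lit 476) (nat_lit 472) (nat_lit 252)) (XT.lf (nat_lit 0) (nat_lit 836495823450) (nat_lit 760) (nat_lit 323573189141) (nat_lit 836) (nat_lit 102885813883) (nat_lit 151) (nat_lit 5) (nat_lit 161) (nat_lit 5) (nat_lit 162) (nat_lit 5) (nat_lit 477) (nat_lit 472) (nat_lit 251)))))) (XT.nd (nat_lit 546) (nat_lit 2204) (nat_lit 0) (XT.nd (nat_lit 234) (nat_lit 1064) (nat_lit 0) (XT.nd (nat_lit 78) (nat_lit 1140) (nat_lit 0) (XT.lf (nat_lit 76) (nat_lit 763517175056) (nat_lit 0) (nat_lit 252480224493) (nat_lit 836) (nat_lit 300093149643) (nat_lit 152) (nat_lit 5) (nat_lit 151) (nat_lit 5) (nat_lit 162) (nat_lit 5) (nat_lit 478) (nat_lit 472) (nat_lit 250)) (XT.nd (nat_lit 78) (nat_lit 456) (nat_lit 0) (XT.lf (nat_lit 0)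 (nat_lit 583144327507) (nat_lit 760) (nat_lit 652909802604) (nat_lit 836) (nat_lit 136113248198) (nat_lit 142) (nat_lit 5) (nat_lit 152) (nat_lit 5) (nat_lit 153) (nat_lit 5) (nat_lit 479) (nat_lit 472) (nat_lit 249)) (XT.lf (nat_lit 0) (nat_lit 65426355297) (nat_lit 456) (nat_lit 1031953888859) (nat_lit 76) (nat_lit 334030460664) (nat_lit 136) (nat_lit 5) (nat_lit 142) (nat_lit 5) (nat_lit 137) (nat_lit 5) (nat_lit 480) (nat_lit 472) (nat_lit 248)))) (XT.nd (nat_lit 156) (nat_lit 304) (nat_lit 0) (XT.nd (nat_lit 78) (nat_lit 380) (nat_lit 0) (XT.lf (nat_lit 0) (nat_lit 209665459167) (nat_lit 380) (nat_lit 96970975863) (nat_lit 456) (nat_lit 1187229691529) (nat_lit 131) (nat_lit 5) (nat_lit 136) (nat_lit 5) (nat_lit 137) (nat_lit 5) (nat_lit 481) (nat_lit 472) (nat_lit 247)) (XT.lf (nat_lit 0) (nat_lit 11773298122) (nat_lit 380) (nat_lit 589179229655) (nat_lit 456) (nat_lit 958674993927) (nat_lit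 126) (nat_lit 5) (nat_lit 131) (nat_lit 5) (nat_lit 132) (nat_lit 5) (nat_lit 482) (nat_lit 472) (nat_lit 246))) (XT.nd (nat_lit 78) (nat_lit 304) (nat_lit 0) (XT.lf (nat_lit 0) (nat_lit 950798858271) (nat_lit 456) (nat_lit 181862773036) (nat_lit 76) (nat_lit 496388949640) (nat_lit 126) (nat_lit 5) (nat_lit 132) (nat_lit 5) (nat_lit 127) (nat_lit 5) (nat_lit 483) (nat_lit 472) (nat_lit 245)) (XT.lf (nat_lit 0) (nat_lit 1325910775300) (nat_lit 304) (nat_lit 33357936167) (nat_lit 380) (nat_lit 343226982650) (nat_lit 122) (nat_lit 5) (nat_lit 126) (nat_lit 5) (nat_lit 127) (nat_lit 5) (nat_lit 484) (nat_lit 472) (nat_lit 244))))) (XT.nd (nat_lit 312) (nat_lit 988) (nat_lit 0) (XT.nd (nat_lit 156) (nat_lit 532) (nat_lit 0) (XT.nd (nat_lit 78) (nat_lit 304) (nat_lit 0) (XT.lf (nat_lit 0) (nat_lit 58621884496) (nat_lit 380) (nat_lit 581298376603) (nat_lit 76) (nat_lit 1139850762759) (nat_lit 117)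 (nat_lit 5) (nat_lit 122) (nat_lit 5) (nat_lit 118) (nat_lit 5) (nat_lit 485) (nat_lit 472) (nat_lit 243)) (XT.lf (nat_lit 0) (nat_lit 513768003598) (nat_lit 380) (nat_lit 792555280752) (nat_lit 76) (nat_lit 554965044828) (nat_lit 113) (nat_lit 5) (nat_lit 118) (nat_lit 5) (nat_lit 114) (nat_lit 5) (nat_lit 486) (nat_lit 472) (nat_lit 242))) (XT.nd (nat_lit 78) (nat_lit 228) (nat_lit 0) (XT.lf (nat_lit 0) (nat_lit 941894517704) (nat_lit 304) (nat_lit 99218968078) (nat_lit 380) (nat_lit 906424149467) (nat_lit 109) (nat_lit 5) (nat_lit 113) (nat_lit 5) (nat_lit 114) (nat_lit 5) (nat_lit 487) (nat_lit 472) (nat_lit 241)) (XT.lf (nat_lit 0) (nat_lit 810309329217) (nat_lit 228) (nat_lit 845825496794) (nat_lit 304) (nat_lit 382277648820) (nat_lit 106) (nat_lit 5) (nat_lit 109) (nat_lit 5) (nat_lit 110) (nat_lit 5) (nat_lit 488) (nat_lit 472) (nat_lit 240)))) (XT.nd (nat_lit 156) (nat_lit 456) (nat_lit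 0) (XT.nd (nat_lit 78) (nat_lit 228) (nat_lit 0) (XT.lf (nat_lit 0) (nat_lit 215659922921) (nat_lit 304) (nat_lit 1453419401829) (nat_lit 76) (nat_lit 465447388869) (nat_lit 102) (nat_lit 5) (nat_lit 106) (nat_lit 5) (nat_lit 103) (nat_lit 5) (nat_lit 489) (nat_lit 472) (nat_lit 239)) (XT.lf (nat_lit 0) (nat_lit 546068141901) (nat_lit 228) (nat_lit 346681543493) (nat_lit 304) (nat_lit 1343031547199) (nat_lit 99) (nat_lit 5) (nat_lit 102) (nat_lit 5) (nat_lit 103) (nat_lit 5) (nat_lit 490) (nat_lit 472) (nat_lit 238))) (XT.nd (nat_lit 78) (nat_lit 228) (nat_lit 0) (XT.lf (nat_lit 0) (nat_lit 409346830588) (nat_lit 228) (nat_lit 1263668889159) (nat_lit 304) (nat_lit 669669938794) (nat_lit 96) (nat_lit 5) (nat_lit 99) (nat_lit 5) (nat_lit 100) (nat_lit 5) (nat_lit 491) (nat_lit 472) (nat_lit 237)) (XT.lf (nat_lit 0) (nat_lit 98782389570) (nat_lit 228) (nat_lit 2177199924793) (nat_lit 76) (nat_lit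 179961985593) (nat_lit 93) (nat_lit 5) (nat_lit 96) (nat_lit 5) (nat_lit 94) (nat_lit 5) (nat_lit 492) (nat_lit 472) (nat_lit 236))))))) (XT.nd (nat_lit 61932) (nat_lit 0) (nat_lit 0) (XT.nd (nat_lit 61308) (nat_lit 0) (nat_lit 2432) (XT.nd (nat_lit 60996) (nat_lit 0) (nat_lit 4408) (XT.nd (nat_lit 78) (nat_lit 0) (nat_lit 0) (XT.lf (nat_lit 0) (nat_lit 131304218983) (nat_lit 228) (nat_lit 831845770339) (nat_lit 304) (nat_lit 1611669680694) (nat_lit 90) (nat_lit 5) (nat_lit 93) (nat_lit 5) (nat_lit 94) (nat_lit 5) (nat_lit 493) (nat_lit 472) (nat_lit 235)) (XT.nd (nat_lit 60840) (nat_lit 0) (nat_lit 4332) (XT.lf (nat_lit 0) (nat_lit 1946577476633) (nat_lit 304) (nat_lit 11058066861) (nat_lit 76) (nat_lit 743074002208) (nat_lit 90) (nat_lit 5) (nat_lit 94) (nat_lit 5) (nat_lit 91) (nat_lit 5) (nat_lit 494) (nat_lit 472) (nat_lit 234)) (XT.lf (nat_lit 0) (nat_lit 232505144132) (nat_lit 836) (nat_lit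 163267882515) (nat_lit 836) (nat_lit 163267882515) (nat_lit 147) (nat_lit 3) (nat_lit 158) (nat_lit 3) (nat_lit 158) (nat_lit 5) (nat_lit 473) (nat_lit 473) (nat_lit 254)))) (XT.nd (nat_lit 156) (nat_lit 0) (nat_lit 76) (XT.nd (nat_lit 78) (nat_lit 0) (nat_lit 0) (XT.lf (nat_lit 0) (nat_lit 494005649402) (nat_lit 760) (nat_lit 584481792097) (nat_lit 836) (nat_lit 83797902070) (nat_lit 148) (nat_lit 5) (nat_lit 158) (nat_lit 5) (nat_lit 159) (nat_lit 5) (nat_lit 474) (nat_lit 473) (nat_lit 253)) (XT.lf (nat_lit 76) (nat_lit 354309711061) (nat_lit 0) (nat_lit 195670889148) (nat_lit 836) (nat_lit 658811552582) (nat_lit 149) (nat_lit 5) (nat_lit 148) (nat_lit 5) (nat_lit 159) (nat_lit 5) (nat_lit 475) (nat_lit 473) (nat_lit 252))) (XT.nd (nat_lit 78) (nat_lit 0) (nat_lit 76) (XT.lf (nat_lit 76) (nat_lit 122488298963) (nat_lit 0) (nat_lit 512036757204) (nat_lit 836) (nat_lit 623289875129) (nat_lit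 150) (nat_lit 5) (nat_lit 149) (nat_lit 5) (nat_lit 160) (nat_lit 5) (nat_lit 476) (nat_lit 473) (nat_lit 251)) (XT.lf (nat_lit 0) (nat_lit 751157467615) (nat_lit 760) (nat_lit 112325192564) (nat_lit 836) (nat_lit 446010651955) (nat_lit 150) (nat_lit 5) (nat_lit 160) (nat_lit 5) (nat_lit 161) (nat_lit 5) (nat_lit 477) (nat_lit 473) (nat_lit 250))))) (XT.nd (nat_lit 312) (nat_lit 1064) (nat_lit 0) (XT.nd (nat_lit 156) (nat_lit 1140) (nat_lit 0) (XT.nd (nat_lit 78) (nat_lit 0) (nat_lit 0) (XT.lf (nat_lit 0) (nat_lit 903415616880) (nat_lit 760) (nat_lit 349458939732) (nat_lit 836) (nat_lit 111116649583) (nat_lit 151) (nat_lit 5) (nat_lit 161) (nat_lit 5) (nat_lit 162) (nat_lit 5) (nat_lit 478) (nat_lit 473) (nat_lit 249)) (XT.lf (nat_lit 76) (nat_lit 824598649058) (nat_lit 0) (nat_lit 272678662122) (nat_lit 836) (nat_lit 324100475946) (nat_lit 152) (nat_lit 5) (nat_lit 151) (nat_lit 5) (nat_lit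 162) (nat_lit 5) (nat_lit 479) (nat_lit 473) (nat_lit 248))) (XT.nd (nat_lit 78) (nat_lit 456) (nat_lit 0) (XT.lf (nat_lit 0) (nat_lit 629795975394) (nat_lit 760) (nat_lit 705142597234) (nat_lit 836) (nat_lit 147002190325) (nat_lit 142) (nat_lit 5) (nat_lit 152) (nat_lit 5) (nat_lit 153) (nat_lit 5) (nat_lit 480) (nat_lit 473) (nat_lit 247)) (XT.lf (nat_lit 0) (nat_lit 70660570718) (nat_lit 456) (nat_lit 1114510093616) (nat_lit 76) (nat_lit 360752891508) (nat_lit 136) (nat_lit 5) (nat_lit 142) (nat_lit 5) (nat_lit 137) (nat_lit 5) (nat_lit 481) (nat_lit 473) (nat_lit 246)))) (XT.nd (nat_lit 156) (nat_lit 304) (nat_lit 0) (XT.nd (nat_lit 78) (nat_lit 380) (nat_lit 0) (XT.lf (nat_lit 0) (nat_lit 226438797630) (nat_lit 380) (nat_lit 104728652861) (nat_lit 456) (nat_lit 1282207961145) (nat_lit 131) (nat_lit 5) (nat_lit 136) (nat_lit 5) (nat_lit 137) (nat_lit 5) (nat_lit 482) (nat_lit 473) (nat_lit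 245)) (XT.lf (nat_lit 0) (nat_lit 12715264092) (nat_lit 380) (nat_lit 636313560721) (nat_lit 456) (nat_lit 1035368893875) (nat_lit 126) (nat_lit 5) (nat_lit 131) (nat_lit 5) (nat_lit 132) (nat_lit 5) (nat_lit 483) (nat_lit 473) (nat_lit 244))) (XT.nd (nat_lit 78) (nat_lit 304) (nat_lit 0) (XT.lf (nat_lit 0) (nat_lit 1026862854828) (nat_lit 456) (nat_lit 196411696028) (nat_lit 76) (nat_lit 536100072161) (nat_lit 126) (nat_lit 5) (nat_lit 132) (nat_lit 5) (nat_lit 127) (nat_lit 5) (nat_lit 484) (nat_lit 473) (nat_lit 243)) (XT.lf (nat_lit 0) (nat_lit 1431983731880) (nat_lit 304) (nat_lit 36026559366) (nat_lit 380) (nat_lit 370685054247) (nat_lit 122) (nat_lit 5) (nat_lit 126) (nat_lit 5) (nat_lit 127) (nat_lit 5) (nat_lit 485) (nat_lit 473) (nat_lit 242)))))) (XT.nd (nat_lit 546) (nat_lit 456) (nat_lit 0) (XT.nd (nat_lit 234) (nat_lit 988) (nat_lit 0) (XT.nd (nat_lit 78) (nat_lit 608) (nat_lit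 0) (XT.lf (nat_lit 0) (nat_lit 63311714914) (nat_lit 380) (nat_lit 627802149843) (nat_lit 76) (nat_lit 1231038837017) (nat_lit 117) (nat_lit 5) (nat_lit 122) (nat_lit 5) (nat_lit 118) (nat_lit 5) (nat_lit 486) (nat_lit 473) (nat_lit 241)) (XT.nd (nat_lit 78) (nat_lit 304) (nat_lit 0) (XT.lf (nat_lit 0) (nat_lit 554869519363) (nat_lit 380) (nat_lit 855959607039) (nat_lit 76) (nat_lit 599362265329) (nat_lit 113) (nat_lit 5) (nat_lit 118) (nat_lit 5) (nat_lit 114) (nat_lit 5) (nat_lit 487) (nat_lit 473) (nat_lit 240)) (XT.lf (nat_lit 0) (nat_lit 1017246171114) (nat_lit 304) (nat_lit 107156464853) (nat_lit 380) (nat_lit 978938006527) (nat_lit 109) (nat_lit 5) (nat_lit 113) (nat_lit 5) (nat_lit 114) (nat_lit 5) (nat_lit 488) (nat_lit 473) (nat_lit 239)))) (XT.nd (nat_lit 156) (nat_lit 456) (nat_lit 0) (XT.nd (nat_lit 78) (nat_lit 304) (nat_lit 0) (XT.lf (nat_lit 0) (nat_lit 875134166661) (nat_lit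 228) (nat_lit 913491513192) (nat_lit 304) (nat_lit 412859789569) (nat_lit 106) (nat_lit 5) (nat_lit 109) (nat_lit 5) (nat_lit 110) (nat_lit 5) (nat_lit 489) (nat_lit 473) (nat_lit 238)) (XT.lf (nat_lit 0) (nat_lit 232912782304) (nat_lit 304) (nat_lit 1569692861755) (nat_lit 76) (nat_lit 502683203366) (nat_lit 102) (nat_lit 5) (nat_lit 106) (nat_lit 5) (nat_lit 103) (nat_lit 5) (nat_lit 490) (nat_lit 473) (nat_lit 237))) (XT.nd (nat_lit 78) (nat_lit 228) (nat_lit 0) (XT.lf (nat_lit 0) (nat_lit 589753681465) (nat_lit 228) (nat_lit 374416040830) (nat_lit 304) (nat_lit 1450474005795) (nat_lit 99) (nat_lit 5) (nat_lit 102) (nat_lit 5) (nat_lit 103) (nat_lit 5) (nat_lit 491) (nat_lit 473) (nat_lit 236)) (XT.lf (nat_lit 0) (nat_lit 442094663998) (nat_lit 228) (nat_lit 1364762372536) (nat_lit 304) (nat_lit 723243471723) (nat_lit 96) (nat_lit 5) (nat_lit 99) (nat_lit 5) (nat_lit 100) (nat_lit 5) (nat_lit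 492) (nat_lit 473) (nat_lit 235))))) (XT.nd (nat_lit 61152) (nat_lit 0) (nat_lit 4408) (XT.nd (nat_lit 60996) (nat_lit 0) (nat_lit 4332) (XT.nd (nat_lit 78) (nat_lit 228) (nat_lit 0) (XT.lf (nat_lit 0) (nat_lit 106685038228) (nat_lit 228) (nat_lit 2351375831264) (nat_lit 76) (nat_lit 194358971581) (nat_lit 93) (nat_lit 5) (nat_lit 96) (nat_lit 5) (nat_lit 94) (nat_lit 5) (nat_lit 493) (nat_lit 473) (nat_lit 234)) (XT.lf (nat_lit 0) (nat_lit 141808640211) (nat_lit 228) (nat_lit 898393402798) (nat_lit 304) (nat_lit 1740603197877) (nat_lit 90) (nat_lit 5) (nat_lit 93) (nat_lit 5) (nat_lit 94) (nat_lit 5) (nat_lit 494) (nat_lit 473) (nat_lit 233))) (XT.nd (nat_lit 78) (nat_lit 0) (nat_lit 76) (XT.lf (nat_lit 0) (nat_lit 251105634495) (nat_lit 836) (nat_lit 176329271724) (nat_lit 836) (nat_lit 176329271724) (nat_lit 147) (nat_lit 3) (nat_lit 158) (nat_lit 3) (nat_lit 158) (nat_lit 5) (nat_lit 474)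 (nat_lit 474) (nat_lit 252)) (XT.lf (nat_lit 0) (nat_lit 533526247513) (nat_lit 760) (nat_lit 631240247831) (nat_lit 836) (nat_lit 90501668380) (nat_lit 148) (nat_lit 5) (nat_lit 158) (nat_lit 5) (nat_lit 159) (nat_lit 5) (nat_lit 475) (nat_lit 474) (nat_lit 251)))) (XT.nd (nat_lit 156) (nat_lit 0) (nat_lit 152) (XT.nd (nat_lit 78) (nat_lit 0) (nat_lit 76) (XT.lf (nat_lit 76) (nat_lit 382654571771) (nat_lit 0) (nat_lit 211324613096) (nat_lit 836) (nat_lit 711516333294) (nat_lit 149) (nat_lit 5) (nat_lit 148) (nat_lit 5) (nat_lit 159) (nat_lit 5) (nat_lit 476) (nat_lit 474) (nat_lit 250)) (XT.lf (nat_lit 76) (nat_lit 132287450407) (nat_lit 0) (nat_lit 552999737377) (nat_lit 836) (nat_lit 673152931641) (nat_lit 150) (nat_lit 5) (nat_lit 149) (nat_lit 5) (nat_lit 160) (nat_lit 5) (nat_lit 477) (nat_lit 474) (nat_lit 249))) (XT.nd (nat_lit 78) (nat_lit 0) (nat_lit 76) (XT.lf (nat_lit 0) (nat_lit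 811250182158) (nat_lit 760) (nat_lit 121311120450) (nat_lit 836) (nat_lit 481691468622) (nat_lit 150) (nat_lit 5) (nat_lit 160) (nat_lit 5) (nat_lit 161) (nat_lit 5) (nat_lit 478) (nat_lit 474) (nat_lit 248)) (XT.lf (nat_lit 0) (nat_lit 975688975589) (nat_lit 760) (nat_lit 377415565284) (nat_lit 836) (nat_lit 120005956334) (nat_lit 151) (nat_lit 5) (nat_lit 161) (nat_lit 5) (nat_lit 162) (nat_lit 5) (nat_lit 479) (nat_lit 474) (nat_lit 247))))))))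
noncomputable def xc125 : XT := (XT.nd (nat_lit 63336) (nat_lit 0) (nat_lit 228) (XT.nd (nat_lit 62166) (nat_lit 0) (nat_lit 1216) (XT.nd (nat_lit 546) (nat_lit 2204) (nat_lit 0) (XT.nd (nat_lit 234) (nat_lit 1064) (nat_lit 0) (XT.nd (nat_lit 78) (nat_lit 1140) (nat_lit 0) (XT.lf (nat_lit 76) (nat_lit 890566626714) (nat_lit 0) (nat_lit 294492971956) (nat_lit 836) (nat_lit 350028406281) (nat_lit 152) (nat_lit 5) (nat_lit 151) (nat_lit 5) (nat_lit 162) (nat_lit 5) (nat_lit 480) (nat_lit 474) (nat_lit 246)) (XT.nd (nat_lit 78) (nat_lit 456) (nat_lit 0) (XT.lf (nat_lit 0) (nat_lit 680179740605) (nat_lit 760) (nat_lit 761554013946) (nat_lit 836) (nat_lit 158762264618) (nat_lit 142) (nat_lit 5) (nat_lit 152) (nat_lit 5) (nat_lit 153) (nat_lit 5) (nat_lit 481) (nat_lit 474) (nat_lit 245)) (XT.lf (nat_lit 0) (nat_lit 76313508108) (nat_lit 456) (nat_lit 1203670809925) (nat_lit 76) (nat_lit 389613117676)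 (nat_lit 136) (nat_lit 5) (nat_lit 142) (nat_lit 5) (nat_lit 137) (nat_lit 5) (nat_lit 482) (nat_lit 474) (nat_lit 244)))) (XT.nd (nat_lit 156) (nat_lit 304) (nat_lit 0) (XT.nd (nat_lit 78) (nat_lit 380) (nat_lit 0) (XT.lf (nat_lit 0) (nat_lit 244553988658) (nat_lit 380) (nat_lit 113106944172) (nat_lit 456) (nat_lit 1384784507410) (nat_lit 131) (nat_lit 5) (nat_lit 136) (nat_lit 5) (nat_lit 137) (nat_lit 5) (nat_lit 483) (nat_lit 474) (nat_lit 243)) (XT.lf (nat_lit 0) (nat_lit 13732572772) (nat_lit 380) (nat_lit 687218639313) (nat_lit 456) (nat_lit 1118198320023) (nat_lit 126) (nat_lit 5) (nat_lit 131) (nat_lit 5) (nat_lit 132) (nat_lit 5) (nat_lit 484) (nat_lit 474) (nat_lit 242))) (XT.nd (nat_lit 78) (nat_lit 304) (nat_lit 0) (XT.lf (nat_lit 0) (nat_lit 1109011958571) (nat_lit 456) (nat_lit 212124546960) (nat_lit 76) (nat_lit 578988083549) (nat_lit 126) (nat_lit 5) (nat_lit 132) (nat_lit 5)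 (nat_lit 127) (nat_lit 5) (nat_lit 485) (nat_lit 474) (nat_lit 241)) (XT.lf (nat_lit 0) (nat_lit 1546542511496) (nat_lit 304) (nat_lit 38908674089) (nat_lit 380) (nat_lit 400339783985) (nat_lit 122) (nat_lit 5) (nat_lit 126) (nat_lit 5) (nat_lit 127) (nat_lit 5) (nat_lit 486) (nat_lit 474) (nat_lit 240))))) (XT.nd (nat_lit 312) (nat_lit 988) (nat_lit 0) (XT.nd (nat_lit 156) (nat_lit 532) (nat_lit 0) (XT.nd (nat_lit 78) (nat_lit 304) (nat_lit 0) (XT.lf (nat_lit 0) (nat_lit 68376720401) (nat_lit 380) (nat_lit 678026238764) (nat_lit 76) (nat_lit 1329521955328) (nat_lit 117) (nat_lit 5) (nat_lit 122) (nat_lit 5) (nat_lit 118) (nat_lit 5) (nat_lit 487) (nat_lit 474) (nat_lit 239)) (XT.lf (nat_lit 0) (nat_lit 599259145622) (nat_lit 380) (nat_lit 924436293148) (nat_lit 76) (nat_lit 647311261056) (nat_lit 113) (nat_lit 5) (nat_lit 118) (nat_lit 5) (nat_lit 114) (nat_lit 5) (nat_lit 488) (nat_lit 474)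 (nat_lit 238))) (XT.nd (nat_lit 78) (nat_lit 228) (nat_lit 0) (XT.lf (nat_lit 0) (nat_lit 1098625943674) (nat_lit 304) (nat_lit 115728964319) (nat_lit 380) (nat_lit 1057252982837) (nat_lit 109) (nat_lit 5) (nat_lit 113) (nat_lit 5) (nat_lit 114) (nat_lit 5) (nat_lit 489) (nat_lit 474) (nat_lit 237)) (XT.lf (nat_lit 0) (nat_lit 945144978103) (nat_lit 228) (nat_lit 986570814232) (nat_lit 304) (nat_lit 445888511730) (nat_lit 106) (nat_lit 5) (nat_lit 109) (nat_lit 5) (nat_lit 110) (nat_lit 5) (nat_lit 490) (nat_lit 474) (nat_lit 236)))) (XT.nd (nat_lit 234) (nat_lit 228) (nat_lit 0) (XT.nd (nat_lit 156) (nat_lit 456) (nat_lit 0) (XT.lf (nat_lit 0) (nat_lit 251545861086) (nat_lit 304) (nat_lit 1695268211631) (nat_lit 76) (nat_lit 542897879687) (nat_lit 102) (nat_lit 5) (nat_lit 106) (nat_lit 5) (nat_lit 103) (nat_lit 5) (nat_lit 491) (nat_lit 474) (nat_lit 235)) (XT.lf (nat_lit 0) (nat_lit 477462311674)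 (nat_lit 228) (nat_lit 1473943338544) (nat_lit 304) (nat_lit 781102896157) (nat_lit 96) (nat_lit 5) (nat_lit 99) (nat_lit 5) (nat_lit 100) (nat_lit 5) (nat_lit 493) (nat_lit 474) (nat_lit 233))) (XT.nd (nat_lit 60996) (nat_lit 0) (nat_lit 4104) (XT.lf (nat_lit 0) (nat_lit 115219890577) (nat_lit 228) (nat_lit 2539485822738) (nat_lit 76) (nat_lit 209907712576) (nat_lit 93) (nat_lit 5) (nat_lit 96) (nat_lit 5) (nat_lit 94) (nat_lit 5) (nat_lit 494) (nat_lit 474) (nat_lit 232)) (XT.lf (nat_lit 0) (nat_lit 271194152840) (nat_lit 836) (nat_lit 190435577974) (nat_lit 836) (nat_lit 190435577974) (nat_lit 147) (nat_lit 3) (nat_lit 158) (nat_lit 3) (nat_lit 158) (nat_lit 5) (nat_lit 475) (nat_lit 475) (nat_lit 250)))))) (XT.nd (nat_lit 546) (nat_lit 2508) (nat_lit 0) (XT.nd (nat_lit 234) (nat_lit 456) (nat_lit 0) (XT.nd (nat_lit 78) (nat_lit 0) (nat_lit 0) (XT.lf (nat_lit 0) (nat_lit 576208472623) (nat_lit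 760) (nat_lit 681739392525) (nat_lit 836) (nat_lit 97741745389) (nat_lit 148) (nat_lit 5) (nat_lit 158) (nat_lit 5) (nat_lit 159) (nat_lit 5) (nat_lit 476) (nat_lit 475) (nat_lit 249)) (XT.nd (nat_lit 78) (nat_lit 0) (nat_lit 76) (XT.lf (nat_lit 76) (nat_lit 413267009380) (nat_lit 0) (nat_lit 228230627425) (nat_lit 836) (nat_lit 768437516934) (nat_lit 149) (nat_lit 5) (nat_lit 148) (nat_lit 5) (nat_lit 159) (nat_lit 5) (nat_lit 477) (nat_lit 475) (nat_lit 248)) (XT.lf (nat_lit 76) (nat_lit 142870521479) (nat_lit 0) (nat_lit 597239750315) (nat_lit 836) (nat_lit 727005051719) (nat_lit 150) (nat_lit 5) (nat_lit 149) (nat_lit 5) (nat_lit 160) (nat_lit 5) (nat_lit 478) (nat_lit 475) (nat_lit 247)))) (XT.nd (nat_lit 156) (nat_lit 608) (nat_lit 0) (XT.nd (nat_lit 78) (nat_lit 0) (nat_lit 76) (XT.lf (nat_lit 0) (nat_lit 876150297155) (nat_lit 760) (nat_lit 131015935053) (nat_lit 836) (nat_lit 520226755685)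 (nat_lit 150) (nat_lit 5) (nat_lit 160) (nat_lit 5) (nat_lit 161) (nat_lit 5) (nat_lit 479) (nat_lit 475) (nat_lit 246)) (XT.lf (nat_lit 0) (nat_lit 1053744187392) (nat_lit 760) (nat_lit 407608733666) (nat_lit 836) (nat_lit 129606411222) (nat_lit 151) (nat_lit 5) (nat_lit 161) (nat_lit 5) (nat_lit 162) (nat_lit 5) (nat_lit 480) (nat_lit 475) (nat_lit 245))) (XT.nd (nat_lit 78) (nat_lit 684) (nat_lit 0) (XT.lf (nat_lit 76) (nat_lit 961812030353) (nat_lit 0) (nat_lit 318052424171) (nat_lit 836) (nat_lit 378030586413) (nat_lit 152) (nat_lit 5) (nat_lit 151) (nat_lit 5) (nat_lit 162) (nat_lit 5) (nat_lit 481) (nat_lit 475) (nat_lit 244)) (XT.lf (nat_lit 0) (nat_lit 734594194595) (nat_lit 760) (nat_lit 822478342722) (nat_lit 836) (nat_lit 171463159254) (nat_lit 142) (nat_lit 5) (nat_lit 152) (nat_lit 5) (nat_lit 153) (nat_lit 5) (nat_lit 482) (nat_lit 475) (nat_lit 243))))) (XT.nd (nat_lit 312) (nat_lit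 1292) (nat_lit 0) (XT.nd (nat_lit 156) (nat_lit 380) (nat_lit 0) (XT.nd (nat_lit 78) (nat_lit 380) (nat_lit 0) (XT.lf (nat_lit 0) (nat_lit 82418667403) (nat_lit 456) (nat_lit 1299964396547) (nat_lit 76) (nat_lit 420782162674) (nat_lit 136) (nat_lit 5) (nat_lit 142) (nat_lit 5) (nat_lit 137) (nat_lit 5) (nat_lit 483) (nat_lit 475) (nat_lit 242)) (XT.lf (nat_lit 0) (nat_lit 264118382526) (nat_lit 380) (nat_lit 122155498919) (nat_lit 456) (nat_lit 1495567190306) (nat_lit 131) (nat_lit 5) (nat_lit 136) (nat_lit 5) (nat_lit 137) (nat_lit 5) (nat_lit 484) (nat_lit 475) (nat_lit 241))) (XT.nd (nat_lit 78) (nat_lit 0) (nat_lit 0) (XT.lf (nat_lit 0) (nat_lit 14831253655) (nat_lit 380) (nat_lit 742196125087) (nat_lit 456) (nat_lit 1207654112440) (nat_lit 126) (nat_lit 5) (nat_lit 131) (nat_lit 5) (nat_lit 132) (nat_lit 5) (nat_lit 485) (nat_lit 475) (nat_lit 240)) (XT.lf (nat_lit 0) (nat_lit 1197732979863)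 (nat_lit 456) (nat_lit 229094438059) (nat_lit 76) (nat_lit 625307135047) (nat_lit 126) (nat_lit 5) (nat_lit 132) (nat_lit 5) (nat_lit 127) (nat_lit 5) (nat_lit 486) (nat_lit 475) (nat_lit 239)))) (XT.nd (nat_lit 156) (nat_lit 608) (nat_lit 0) (XT.nd (nat_lit 78) (nat_lit 380) (nat_lit 0) (XT.lf (nat_lit 0) (nat_lit 1670265981917) (nat_lit 304) (nat_lit 42021359421) (nat_lit 380) (nat_lit 432366902746) (nat_lit 122) (nat_lit 5) (nat_lit 126) (nat_lit 5) (nat_lit 127) (nat_lit 5) (nat_lit 487) (nat_lit 475) (nat_lit 238)) (XT.lf (nat_lit 0) (nat_lit 73846916584) (nat_lit 380) (nat_lit 732268266649) (nat_lit 76) (nat_lit 1435883721484) (nat_lit 117) (nat_lit 5) (nat_lit 122) (nat_lit 5) (nat_lit 118) (nat_lit 5) (nat_lit 488) (nat_lit 475) (nat_lit 237))) (XT.nd (nat_lit 78) (nat_lit 304) (nat_lit 0) (XT.lf (nat_lit 0) (nat_lit 647199932750) (nat_lit 380) (nat_lit 998391125909) (nat_lit 76) (nat_lit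 699096174373) (nat_lit 113) (nat_lit 5) (nat_lit 118) (nat_lit 5) (nat_lit 114) (nat_lit 5) (nat_lit 489) (nat_lit 475) (nat_lit 236)) (XT.lf (nat_lit 0) (nat_lit 1186516086786) (nat_lit 304) (nat_lit 124987266270) (nat_lit 380) (nat_lit 1141833166413) (nat_lit 109) (nat_lit 5) (nat_lit 113) (nat_lit 5) (nat_lit 114) (nat_lit 5) (nat_lit 490) (nat_lit 475) (nat_lit 235))))))) (XT.nd (nat_lit 62244) (nat_lit 0) (nat_lit 228) (XT.nd (nat_lit 61620) (nat_lit 0) (nat_lit 2280) (XT.nd (nat_lit 61308) (nat_lit 0) (nat_lit 3876) (XT.nd (nat_lit 156) (nat_lit 760) (nat_lit 0) (XT.lf (nat_lit 0) (nat_lit 1020756643318) (nat_lit 228) (nat_lit 1065496462210) (nat_lit 304) (nat_lit 481559540366) (nat_lit 106) (nat_lit 5) (nat_lit 109) (nat_lit 5) (nat_lit 110) (nat_lit 5) (nat_lit 491) (nat_lit 475) (nat_lit 234)) (XT.nd (nat_lit 78) (nat_lit 228) (nat_lit 0) (XT.lf (nat_lit 0) (nat_lit 687888840579) (nat_lit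 228) (nat_lit 436718826603) (nat_lit 304) (nat_lit 1691832772098) (nat_lit 99) (nat_lit 5) (nat_lit 102) (nat_lit 5) (nat_lit 103) (nat_lit 5) (nat_lit 493) (nat_lit 475) (nat_lit 232)) (XT.lf (nat_lit 0) (nat_lit 515659360529) (nat_lit 228) (nat_lit 1591858785227) (nat_lit 304) (nat_lit 843591082149) (nat_lit 96) (nat_lit 5) (nat_lit 99) (nat_lit 5) (nat_lit 100) (nat_lit 5) (nat_lit 494) (nat_lit 475) (nat_lit 231)))) (XT.nd (nat_lit 156) (nat_lit 0) (nat_lit 76) (XT.nd (nat_lit 78) (nat_lit 0) (nat_lit 76) (XT.lf (nat_lit 0) (nat_lit 292889743012) (nat_lit 836) (nat_lit 205670393787) (nat_lit 836) (nat_lit 205670393787) (nat_lit 147) (nat_lit 3) (nat_lit 158) (nat_lit 3) (nat_lit 158) (nat_lit 5) (nat_lit 476) (nat_lit 476) (nat_lit 248)) (XT.lf (nat_lit 0) (nat_lit 622305257864) (nat_lit 760) (nat_lit 736278479514) (nat_lit 836) (nat_lit 105561036614) (nat_lit 148) (nat_lit 5) (nat_lit 158)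 (nat_lit 5) (nat_lit 159) (nat_lit 5) (nat_lit 477) (nat_lit 476) (nat_lit 247))) (XT.nd (nat_lit 78) (nat_lit 0) (nat_lit 76) (XT.lf (nat_lit 76) (nat_lit 446328431744) (nat_lit 0) (nat_lit 246489116440) (nat_lit 836) (nat_lit 829912412816) (nat_lit 149) (nat_lit 5) (nat_lit 148) (nat_lit 5) (nat_lit 159) (nat_lit 5) (nat_lit 478) (nat_lit 476) (nat_lit 246)) (XT.lf (nat_lit 76) (nat_lit 154300227532) (nat_lit 0) (nat_lit 645018959445) (nat_lit 836) (nat_lit 785165357732) (nat_lit 150) (nat_lit 5) (nat_lit 149) (nat_lit 5) (nat_lit 160) (nat_lit 5) (nat_lit 479) (nat_lit 476) (nat_lit 245))))) (XT.nd (nat_lit 312) (nat_lit 1216) (nat_lit 0) (XT.nd (nat_lit 156) (nat_lit 608) (nat_lit 0) (XT.nd (nat_lit 78) (nat_lit 0) (nat_lit 76) (XT.lf (nat_lit 0) (nat_lit 946242407024) (nat_lit 760) (nat_lit 141497145529) (nat_lit 836) (nat_lit 561844870054) (nat_lit 150) (nat_lit 5) (nat_lit 160) (nat_lit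 5) (nat_lit 161) (nat_lit 5) (nat_lit 480) (nat_lit 476) (nat_lit 244)) (XT.lf (nat_lit 0) (nat_lit 1138043802765) (nat_lit 760) (nat_lit 440217366481) (nat_lit 836) (nat_lit 139974905586) (nat_lit 151) (nat_lit 5) (nat_lit 161) (nat_lit 5) (nat_lit 162) (nat_lit 5) (nat_lit 481) (nat_lit 476) (nat_lit 243))) (XT.nd (nat_lit 78) (nat_lit 684) (nat_lit 0) (XT.lf (nat_lit 76) (nat_lit 1038757055796) (nat_lit 0) (nat_lit 343496630500) (nat_lit 836) (nat_lit 408272954133) (nat_lit 152) (nat_lit 5) (nat_lit 151) (nat_lit 5) (nat_lit 162) (nat_lit 5) (nat_lit 482) (nat_lit 476) (nat_lit 242)) (XT.lf (nat_lit 0) (nat_lit 793361794242) (nat_lit 760) (nat_lit 888276616706) (nat_lit 836) (nat_lit 185180137805) (nat_lit 142) (nat_lit 5) (nat_lit 152) (nat_lit 5) (nat_lit 153) (nat_lit 5) (nat_lit 483) (nat_lit 476) (nat_lit 241)))) (XT.nd (nat_lit 156) (nat_lit 380) (nat_lit 0) (XT.nd (nat_lit 78) (nat_lit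 380) (nat_lit 0) (XT.lf (nat_lit 0) (nat_lit 89012228221) (nat_lit 456) (nat_lit 1403961481251) (nat_lit 76) (nat_lit 454444731901) (nat_lit 136) (nat_lit 5) (nat_lit 142) (nat_lit 5) (nat_lit 137) (nat_lit 5) (nat_lit 484) (nat_lit 476) (nat_lit 240)) (XT.lf (nat_lit 0) (nat_lit 285247917235) (nat_lit 380) (nat_lit 131927938158) (nat_lit 456) (nat_lit 1615212498918) (nat_lit 131) (nat_lit 5) (nat_lit 136) (nat_lit 5) (nat_lit 137) (nat_lit 5) (nat_lit 485) (nat_lit 476) (nat_lit 239))) (XT.nd (nat_lit 78) (nat_lit 0) (nat_lit 0) (XT.lf (nat_lit 0) (nat_lit 16017818301) (nat_lit 380) (nat_lit 801571810490) (nat_lit 456) (nat_lit 1304266378692) (nat_lit 126) (nat_lit 5) (nat_lit 131) (nat_lit 5) (nat_lit 132) (nat_lit 5) (nat_lit 486) (nat_lit 476) (nat_lit 238)) (XT.lf (nat_lit 0) (nat_lit 1293551673641) (nat_lit 456) (nat_lit 247421930810) (nat_lit 76) (nat_lit 675331709978) (nat_lit 126) (nat_lit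 5) (nat_lit 132) (nat_lit 5) (nat_lit 127) (nat_lit 5) (nat_lit 487) (nat_lit 476) (nat_lit 237)))))) (XT.nd (nat_lit 61620) (nat_lit 0) (nat_lit 3268) (XT.nd (nat_lit 234) (nat_lit 1064) (nat_lit 0) (XT.nd (nat_lit 78) (nat_lit 684) (nat_lit 0) (XT.lf (nat_lit 0) (nat_lit 1803887320056) (nat_lit 304) (nat_lit 45383060805) (nat_lit 380) (nat_lit 466956200131) (nat_lit 122) (nat_lit 5) (nat_lit 126) (nat_lit 5) (nat_lit 127) (nat_lit 5) (nat_lit 488) (nat_lit 476) (nat_lit 236)) (XT.nd (nat_lit 78) (nat_lit 304) (nat_lit 0) (XT.lf (nat_lit 0) (nat_lit 79754720109) (nat_lit 380) (nat_lit 790849666925) (nat_lit 76) (nat_lit 1550754427545) (nat_lit 117) (nat_lit 5) (nat_lit 122) (nat_lit 5) (nat_lit 118) (nat_lit 5) (nat_lit 489) (nat_lit 476) (nat_lit 235)) (XT.lf (nat_lit 0) (nat_lit 698975974933) (nat_lit 380) (nat_lit 1078262355376) (nat_lit 76) (nat_lit 755023878981) (nat_lit 113) (nat_lit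 5) (nat_lit 118) (nat_lit 5) (nat_lit 114) (nat_lit 5) (nat_lit 490) (nat_lit 476) (nat_lit 234)))) (XT.nd (nat_lit 156) (nat_lit 532) (nat_lit 0) (XT.nd (nat_lit 78) (nat_lit 228) (nat_lit 0) (XT.lf (nat_lit 0) (nat_lit 1281437431701) (nat_lit 304) (nat_lit 134986234545) (nat_lit 380) (nat_lit 1233179772528) (nat_lit 109) (nat_lit 5) (nat_lit 113) (nat_lit 5) (nat_lit 114) (nat_lit 5) (nat_lit 491) (nat_lit 476) (nat_lit 233)) (XT.lf (nat_lit 0) (nat_lit 1102417232196) (nat_lit 228) (nat_lit 1150736164476) (nat_lit 304) (nat_lit 520084258755) (nat_lit 106) (nat_lit 5) (nat_lit 109) (nat_lit 5) (nat_lit 110) (nat_lit 5) (nat_lit 492) (nat_lit 476) (nat_lit 232))) (XT.nd (nat_lit 78) (nat_lit 228) (nat_lit 0) (XT.lf (nat_lit 0) (nat_lit 293403185712) (nat_lit 304) (nat_lit 1977360710724) (nat_lit 76) (nat_lit 633236120171) (nat_lit 102) (nat_lit 5) (nat_lit 106) (nat_lit 5) (nat_lit 103) (nat_lit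 5) (nat_lit 493) (nat_lit 476) (nat_lit 231)) (XT.lf (nat_lit 0) (nat_lit 742920003414) (nat_lit 228) (nat_lit 471656316258) (nat_lit 304) (nat_lit 1827179352791) (nat_lit 99) (nat_lit 5) (nat_lit 102) (nat_lit 5) (nat_lit 103) (nat_lit 5) (nat_lit 494) (nat_lit 476) (nat_lit 230))))) (XT.nd (nat_lit 312) (nat_lit 380) (nat_lit 0) (XT.nd (nat_lit 156) (nat_lit 0) (nat_lit 76) (XT.nd (nat_lit 78) (nat_lit 0) (nat_lit 76) (XT.lf (nat_lit 0) (nat_lit 316320972130) (nat_lit 836) (nat_lit 222123999206) (nat_lit 836) (nat_lit 222123999206) (nat_lit 147) (nat_lit 3) (nat_lit 158) (nat_lit 3) (nat_lit 158) (nat_lit 5) (nat_lit 477) (nat_lit 477) (nat_lit 246)) (XT.lf (nat_lit 0) (nat_lit 672089770598) (nat_lit 760) (nat_lit 795180702651) (nat_lit 836) (nat_lit 114005878043) (nat_lit 148) (nat_lit 5) (nat_lit 158) (nat_lit 5) (nat_lit 159) (nat_lit 5) (nat_lit 478) (nat_lit 477) (nat_lit 245))) (XT.nd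 (nat_lit 78) (nat_lit 0) (nat_lit 76) (XT.lf (nat_lit 76) (nat_lit 482034759108) (nat_lit 0) (nat_lit 266208279039) (nat_lit 836) (nat_lit 896305315416) (nat_lit 149) (nat_lit 5) (nat_lit 148) (nat_lit 5) (nat_lit 159) (nat_lit 5) (nat_lit 479) (nat_lit 477) (nat_lit 244)) (XT.lf (nat_lit 76) (nat_lit 166644300891) (nat_lit 0) (nat_lit 696620501153) (nat_lit 836) (nat_lit 847978502224) (nat_lit 150) (nat_lit 5) (nat_lit 149) (nat_lit 5) (nat_lit 160) (nat_lit 5) (nat_lit 480) (nat_lit 477) (nat_lit 243)))) (XT.nd (nat_lit 156) (nat_lit 608) (nat_lit 0) (XT.nd (nat_lit 78) (nat_lit 0) (nat_lit 76) (XT.lf (nat_lit 0) (nat_lit 1021941873400) (nat_lit 760) (nat_lit 152816862020) (nat_lit 836) (nat_lit 606792437293) (nat_lit 150) (nat_lit 5) (nat_lit 160) (nat_lit 5) (nat_lit 161) (nat_lit 5) (nat_lit 481) (nat_lit 477) (nat_lit 242)) (XT.lf (nat_lit 0) (nat_lit 1229087375900) (nat_lit 760) (nat_lit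 475434699319) (nat_lit 836) (nat_lit 151172882143) (nat_lit 151) (nat_lit 5) (nat_lit 161) (nat_lit 5) (nat_lit 162) (nat_lit 5) (nat_lit 482) (nat_lit 477) (nat_lit 241))) (XT.nd (nat_lit 78) (nat_lit 684) (nat_lit 0) (XT.lf (nat_lit 76) (nat_lit 1121857674285) (nat_lit 0) (nat_lit 370976371567) (nat_lit 836) (nat_lit 440934722569) (nat_lit 152) (nat_lit 5) (nat_lit 151) (nat_lit 5) (nat_lit 162) (nat_lit 5) (nat_lit 483) (nat_lit 477) (nat_lit 240)) (XT.lf (nat_lit 0) (nat_lit 856830792719) (nat_lit 760) (nat_lit 959338751673) (nat_lit 836) (nat_lit 199994485225) (nat_lit 142) (nat_lit 5) (nat_lit 152) (nat_lit 5) (nat_lit 153) (nat_lit 5) (nat_lit 484) (nat_lit 477) (nat_lit 239))))))))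
noncomputable def xc126 : XT := (XT.nd (nat_lit 124800) (nat_lit 0) (nat_lit 532) (XT.nd (nat_lit 62322) (nat_lit 0) (nat_lit 228) (XT.nd (nat_lit 546) (nat_lit 532) (nat_lit 0) (XT.nd (nat_lit 234) (nat_lit 988) (nat_lit 0) (XT.nd (nat_lit 78) (nat_lit 760) (nat_lit 0) (XT.lf (nat_lit 0) (nat_lit 96133264286) (nat_lit 456) (nat_lit 1516278342292) (nat_lit 76) (nat_lit 490800307206) (nat_lit 136) (nat_lit 5) (nat_lit 142) (nat_lit 5) (nat_lit 137) (nat_lit 5) (nat_lit 485) (nat_lit 477) (nat_lit 238)) (XT.nd (nat_lit 78) (nat_lit 380) (nat_lit 0) (XT.lf (nat_lit 0) (nat_lit 308067805576) (nat_lit 380) (nat_lit 142482172632) (nat_lit 456) (nat_lit 1744429441721) (nat_lit 131) (nat_lit 5) (nat_lit 136) (nat_lit 5) (nat_lit 137) (nat_lit 5) (nat_lit 486) (nat_lit 477) (nat_lit 237)) (XT.lf (nat_lit 0) (nat_lit 17299298937) (nat_lit 380) (nat_lit 865697551381) (nat_lit 456) (nat_lit 1408607635195)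 (nat_lit 126) (nat_lit 5) (nat_lit 131) (nat_lit 5) (nat_lit 132) (nat_lit 5) (nat_lit 487) (nat_lit 477) (nat_lit 236)))) (XT.nd (nat_lit 156) (nat_lit 684) (nat_lit 0) (XT.nd (nat_lit 78) (nat_lit 304) (nat_lit 0) (XT.lf (nat_lit 0) (nat_lit 1397035855020) (nat_lit 456) (nat_lit 267215631868) (nat_lit 76) (nat_lit 729358250314) (nat_lit 126) (nat_lit 5) (nat_lit 132) (nat_lit 5) (nat_lit 127) (nat_lit 5) (nat_lit 488) (nat_lit 477) (nat_lit 235)) (XT.lf (nat_lit 0) (nat_lit 1948198356746) (nat_lit 304) (nat_lit 49013699351) (nat_lit 380) (nat_lit 504312649130) (nat_lit 122) (nat_lit 5) (nat_lit 126) (nat_lit 5) (nat_lit 127) (nat_lit 5) (nat_lit 489) (nat_lit 477) (nat_lit 234))) (XT.nd (nat_lit 78) (nat_lit 304) (nat_lit 0) (XT.lf (nat_lit 0) (nat_lit 86135140755) (nat_lit 380) (nat_lit 854117587933) (nat_lit 76) (nat_lit 1674814788901) (nat_lit 117) (nat_lit 5) (nat_lit 122) (nat_lit 5)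 (nat_lit 118) (nat_lit 5) (nat_lit 490) (nat_lit 477) (nat_lit 233)) (XT.lf (nat_lit 0) (nat_lit 754894093706) (nat_lit 380) (nat_lit 1164523291847) (nat_lit 76) (nat_lit 815425798438) (nat_lit 113) (nat_lit 5) (nat_lit 118) (nat_lit 5) (nat_lit 114) (nat_lit 5) (nat_lit 491) (nat_lit 477) (nat_lit 232))))) (XT.nd (nat_lit 61464) (nat_lit 0) (nat_lit 3192) (XT.nd (nat_lit 78) (nat_lit 228) (nat_lit 0) (XT.lf (nat_lit 0) (nat_lit 1383952475939) (nat_lit 304) (nat_lit 145785122140) (nat_lit 380) (nat_lit 1331834113866) (nat_lit 109) (nat_lit 5) (nat_lit 113) (nat_lit 5) (nat_lit 114) (nat_lit 5) (nat_lit 492) (nat_lit 477) (nat_lit 231)) (XT.nd (nat_lit 61308) (nat_lit 0) (nat_lit 3116) (XT.lf (nat_lit 0) (nat_lit 1190610659993) (nat_lit 228) (nat_lit 1242795045021) (nat_lit 304) (nat_lit 561690961012) (nat_lit 106) (nat_lit 5) (nat_lit 109) (nat_lit 5) (nat_lit 110) (nat_lit 5) (nat_lit 493)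 (nat_lit 477) (nat_lit 230)) (XT.lf (nat_lit 0) (nat_lit 341626692491) (nat_lit 836) (nat_lit 239893896779) (nat_lit 836) (nat_lit 239893896779) (nat_lit 147) (nat_lit 3) (nat_lit 158) (nat_lit 3) (nat_lit 158) (nat_lit 5) (nat_lit 478) (nat_lit 478) (nat_lit 244)))) (XT.nd (nat_lit 156) (nat_lit 0) (nat_lit 76) (XT.nd (nat_lit 78) (nat_lit 0) (nat_lit 0) (XT.lf (nat_lit 0) (nat_lit 725857031211) (nat_lit 760) (nat_lit 858795111517) (nat_lit 836) (nat_lit 123126312707) (nat_lit 148) (nat_lit 5) (nat_lit 158) (nat_lit 5) (nat_lit 159) (nat_lit 5) (nat_lit 479) (nat_lit 478) (nat_lit 243)) (XT.lf (nat_lit 76) (nat_lit 520597585125) (nat_lit 0) (nat_lit 287504969897) (nat_lit 836) (nat_lit 968009663124) (nat_lit 149) (nat_lit 5) (nat_lit 148) (nat_lit 5) (nat_lit 159) (nat_lit 5) (nat_lit 480) (nat_lit 478) (nat_lit 242))) (XT.nd (nat_lit 78) (nat_lit 0) (nat_lit 76) (XT.lf (nat_lit 76) (nat_lit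 179975892250) (nat_lit 0) (nat_lit 752350162638) (nat_lit 836) (nat_lit 915816710277) (nat_lit 150) (nat_lit 5) (nat_lit 149) (nat_lit 5) (nat_lit 160) (nat_lit 5) (nat_lit 481) (nat_lit 478) (nat_lit 241)) (XT.lf (nat_lit 0) (nat_lit 1103697286556) (nat_lit 760) (nat_lit 165042163698) (nat_lit 836) (nat_lit 655335813103) (nat_lit 150) (nat_lit 5) (nat_lit 160) (nat_lit 5) (nat_lit 161) (nat_lit 5) (nat_lit 482) (nat_lit 478) (nat_lit 240)))))) (XT.nd (nat_lit 546) (nat_lit 1292) (nat_lit 0) (XT.nd (nat_lit 234) (nat_lit 1216) (nat_lit 0) (XT.nd (nat_lit 78) (nat_lit 684) (nat_lit 0) (XT.lf (nat_lit 0) (nat_lit 1327414425055) (nat_lit 760) (nat_lit 513469426843) (nat_lit 836) (nat_lit 163266699091) (nat_lit 151) (nat_lit 5) (nat_lit 161) (nat_lit 5) (nat_lit 162) (nat_lit 5) (nat_lit 483) (nat_lit 478) (nat_lit 239)) (XT.nd (nat_lit 78) (nat_lit 684) (nat_lit 0) (XT.lf (nat_lit 76) (nat_lit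 1211606334546) (nat_lit 0) (nat_lit 400654490404) (nat_lit 836) (nat_lit 476209442166) (nat_lit 152) (nat_lit 5) (nat_lit 151) (nat_lit 5) (nat_lit 162) (nat_lit 5) (nat_lit 484) (nat_lit 478) (nat_lit 238)) (XT.lf (nat_lit 0) (nat_lit 925377303237) (nat_lit 760) (nat_lit 1036085856633) (nat_lit 836) (nat_lit 215993989512) (nat_lit 142) (nat_lit 5) (nat_lit 152) (nat_lit 5) (nat_lit 153) (nat_lit 5) (nat_lit 485) (nat_lit 478) (nat_lit 237)))) (XT.nd (nat_lit 156) (nat_lit 380) (nat_lit 0) (XT.nd (nat_lit 78) (nat_lit 380) (nat_lit 0) (XT.lf (nat_lit 0) (nat_lit 103823974989) (nat_lit 456) (nat_lit 1637580560414) (nat_lit 76) (nat_lit 530064328999) (nat_lit 136) (nat_lit 5) (nat_lit 142) (nat_lit 5) (nat_lit 137) (nat_lit 5) (nat_lit 486) (nat_lit 478) (nat_lit 236)) (XT.lf (nat_lit 0) (nat_lit 332713277143) (nat_lit 380) (nat_lit 153880745947) (nat_lit 456) (nat_lit 1883983748097) (nat_lit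 131) (nat_lit 5) (nat_lit 136) (nat_lit 5) (nat_lit 137) (nat_lit 5) (nat_lit 487) (nat_lit 478) (nat_lit 235))) (XT.nd (nat_lit 78) (nat_lit 0) (nat_lit 0) (XT.lf (nat_lit 0) (nat_lit 18683290154) (nat_lit 380) (nat_lit 934953352107) (nat_lit 456) (nat_lit 1521296199892) (nat_lit 126) (nat_lit 5) (nat_lit 131) (nat_lit 5) (nat_lit 132) (nat_lit 5) (nat_lit 488) (nat_lit 478) (nat_lit 234)) (XT.lf (nat_lit 0) (nat_lit 1508798764134) (nat_lit 456) (nat_lit 288592836631) (nat_lit 76) (nat_lit 787706913373) (nat_lit 126) (nat_lit 5) (nat_lit 132) (nat_lit 5) (nat_lit 127) (nat_lit 5) (nat_lit 489) (nat_lit 478) (nat_lit 233))))) (XT.nd (nat_lit 61620) (nat_lit 0) (nat_lit 2888) (XT.nd (nat_lit 156) (nat_lit 608) (nat_lit 0) (XT.nd (nat_lit 78) (nat_lit 380) (nat_lit 0) (XT.lf (nat_lit 0) (nat_lit 2104054269084) (nat_lit 304) (nat_lit 52934789882) (nat_lit 380) (nat_lit 544657620756) (nat_lit 122)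 (nat_lit 5) (nat_lit 126) (nat_lit 5) (nat_lit 127) (nat_lit 5) (nat_lit 490) (nat_lit 478) (nat_lit 232)) (XT.lf (nat_lit 0) (nat_lit 93025988912) (nat_lit 380) (nat_lit 922446950090) (nat_lit 76) (nat_lit 1808799978145) (nat_lit 117) (nat_lit 5) (nat_lit 122) (nat_lit 5) (nat_lit 118) (nat_lit 5) (nat_lit 491) (nat_lit 478) (nat_lit 231))) (XT.nd (nat_lit 78) (nat_lit 304) (nat_lit 0) (XT.lf (nat_lit 0) (nat_lit 815285656163) (nat_lit 380) (nat_lit 1257685110647) (nat_lit 76) (nat_lit 880659870147) (nat_lit 113) (nat_lit 5) (nat_lit 118) (nat_lit 5) (nat_lit 114) (nat_lit 5) (nat_lit 492) (nat_lit 478) (nat_lit 230)) (XT.lf (nat_lit 0) (nat_lit 1494668716625) (nat_lit 304) (nat_lit 157447922337) (nat_lit 380) (nat_lit 1438380808284) (nat_lit 109) (nat_lit 5) (nat_lit 113) (nat_lit 5) (nat_lit 114) (nat_lit 5) (nat_lit 493) (nat_lit 478) (nat_lit 229)))) (XT.nd (nat_lit 156) (nat_lit 0) (nat_lit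 76) (XT.nd (nat_lit 78) (nat_lit 0) (nat_lit 76) (XT.lf (nat_lit 0) (nat_lit 368956864405) (nat_lit 836) (nat_lit 259085389348) (nat_lit 836) (nat_lit 259085389348) (nat_lit 147) (nat_lit 3) (nat_lit 158) (nat_lit 3) (nat_lit 158) (nat_lit 5) (nat_lit 479) (nat_lit 479) (nat_lit 242)) (XT.lf (nat_lit 0) (nat_lit 783925661408) (nat_lit 760) (nat_lit 927498679847) (nat_lit 836) (nat_lit 132976387219) (nat_lit 148) (nat_lit 5) (nat_lit 158) (nat_lit 5) (nat_lit 159) (nat_lit 5) (nat_lit 480) (nat_lit 479) (nat_lit 241))) (XT.nd (nat_lit 78) (nat_lit 0) (nat_lit 76) (XT.lf (nat_lit 76) (nat_lit 562245430762) (nat_lit 0) (nat_lit 310505391952) (nat_lit 836) (nat_lit 1045450369708) (nat_lit 149) (nat_lit 5) (nat_lit 148) (nat_lit 5) (nat_lit 159) (nat_lit 5) (nat_lit 481) (nat_lit 479) (nat_lit 240)) (XT.lf (nat_lit 76) (nat_lit 194374004172) (nat_lit 0) (nat_lit 812538193990) (nat_lit 836) (nat_lit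 989081985263) (nat_lit 150) (nat_lit 5) (nat_lit 149) (nat_lit 5) (nat_lit 160) (nat_lit 5) (nat_lit 482) (nat_lit 479) (nat_lit 239))))))) (XT.nd (nat_lit 62556) (nat_lit 0) (nat_lit 304) (XT.nd (nat_lit 546) (nat_lit 988) (nat_lit 0) (XT.nd (nat_lit 234) (nat_lit 1824) (nat_lit 0) (XT.nd (nat_lit 78) (nat_lit 0) (nat_lit 76) (XT.lf (nat_lit 0) (nat_lit 1191993123736) (nat_lit 760) (nat_lit 178245496255) (nat_lit 836) (nat_lit 707762661712) (nat_lit 150) (nat_lit 5) (nat_lit 160) (nat_lit 5) (nat_lit 161) (nat_lit 5) (nat_lit 483) (nat_lit 479) (nat_lit 238)) (XT.nd (nat_lit 78) (nat_lit 0) (nat_lit 0) (XT.lf (nat_lit 0) (nat_lit 1433607629713) (nat_lit 760) (nat_lit 554546939476) (nat_lit 836) (nat_lit 176328023339) (nat_lit 151) (nat_lit 5) (nat_lit 161) (nat_lit 5) (nat_lit 162) (nat_lit 5) (nat_lit 484) (nat_lit 479) (nat_lit 237)) (XT.lf (nat_lit 76) (nat_lit 1308534881020) (nat_lit 0)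 (nat_lit 432706857448) (nat_lit 836) (nat_lit 514306147634) (nat_lit 152) (nat_lit 5) (nat_lit 151) (nat_lit 5) (nat_lit 162) (nat_lit 5) (nat_lit 485) (nat_lit 479) (nat_lit 236)))) (XT.nd (nat_lit 156) (nat_lit 760) (nat_lit 0) (XT.nd (nat_lit 78) (nat_lit 456) (nat_lit 0) (XT.lf (nat_lit 0) (nat_lit 999407527877) (nat_lit 760) (nat_lit 1118972729302) (nat_lit 836) (nat_lit 233273461921) (nat_lit 142) (nat_lit 5) (nat_lit 152) (nat_lit 5) (nat_lit 153) (nat_lit 5) (nat_lit 486) (nat_lit 479) (nat_lit 235)) (XT.lf (nat_lit 0) (nat_lit 112129935478) (nat_lit 456) (nat_lit 1768586963013) (nat_lit 76) (nat_lit 572469472933) (nat_lit 136) (nat_lit 5) (nat_lit 142) (nat_lit 5) (nat_lit 137) (nat_lit 5) (nat_lit 487) (nat_lit 479) (nat_lit 234))) (XT.nd (nat_lit 78) (nat_lit 380) (nat_lit 0) (XT.lf (nat_lit 0) (nat_lit 359330379713) (nat_lit 380) (nat_lit 166191205197) (nat_lit 456) (nat_lit 2034702405967)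 (nat_lit 131) (nat_lit 5) (nat_lit 136) (nat_lit 5) (nat_lit 137) (nat_lit 5) (nat_lit 488) (nat_lit 479) (nat_lit 233)) (XT.lf (nat_lit 0) (nat_lit 20177993920) (nat_lit 380) (nat_lit 1009749617374) (nat_lit 456) (nat_lit 1642999856344) (nat_lit 126) (nat_lit 5) (nat_lit 131) (nat_lit 5) (nat_lit 132) (nat_lit 5) (nat_lit 489) (nat_lit 479) (nat_lit 232))))) (XT.nd (nat_lit 61698) (nat_lit 0) (nat_lit 2584) (XT.nd (nat_lit 156) (nat_lit 684) (nat_lit 0) (XT.nd (nat_lit 78) (nat_lit 304) (nat_lit 0) (XT.lf (nat_lit 0) (nat_lit 1629502700169) (nat_lit 456) (nat_lit 311680224306) (nat_lit 76) (nat_lit 850723469044) (nat_lit 126) (nat_lit 5) (nat_lit 132) (nat_lit 5) (nat_lit 127) (nat_lit 5) (nat_lit 490) (nat_lit 479) (nat_lit 231)) (XT.lf (nat_lit 0) (nat_lit 2272378648160) (nat_lit 304) (nat_lit 57169568429) (nat_lit 380) (nat_lit 588230195861) (nat_lit 122) (nat_lit 5) (nat_lit 126) (nat_lit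 5) (nat_lit 127) (nat_lit 5) (nat_lit 491) (nat_lit 479) (nat_lit 230))) (XT.nd (nat_lit 78) (nat_lit 304) (nat_lit 0) (XT.lf (nat_lit 0) (nat_lit 100468099658) (nat_lit 380) (nat_lit 996242667622) (nat_lit 76) (nat_lit 1953503981653) (nat_lit 117) (nat_lit 5) (nat_lit 122) (nat_lit 5) (nat_lit 118) (nat_lit 5) (nat_lit 492) (nat_lit 479) (nat_lit 229)) (XT.lf (nat_lit 0) (nat_lit 880508538629) (nat_lit 380) (nat_lit 1358299881307) (nat_lit 76) (nat_lit 951112666476) (nat_lit 113) (nat_lit 5) (nat_lit 118) (nat_lit 5) (nat_lit 114) (nat_lit 5) (nat_lit 493) (nat_lit 479) (nat_lit 228)))) (XT.nd (nat_lit 156) (nat_lit 0) (nat_lit 76) (XT.nd (nat_lit 78) (nat_lit 0) (nat_lit 76) (XT.lf (nat_lit 0) (nat_lit 398473444862) (nat_lit 836) (nat_lit 279812204058) (nat_lit 836) (nat_lit 279812204058) (nat_lit 147) (nat_lit 3) (nat_lit 158) (nat_lit 3) (nat_lit 158) (nat_lit 5) (nat_lit 480) (nat_lit 480)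 (nat_lit 240)) (XT.lf (nat_lit 0) (nat_lit 846639772363) (nat_lit 760) (nat_lit 1001698539434) (nat_lit 836) (nat_lit 143614472044) (nat_lit 148) (nat_lit 5) (nat_lit 158) (nat_lit 5) (nat_lit 159) (nat_lit 5) (nat_lit 481) (nat_lit 480) (nat_lit 239))) (XT.nd (nat_lit 78) (nat_lit 0) (nat_lit 76) (XT.lf (nat_lit 76) (nat_lit 607225098511) (nat_lit 0) (nat_lit 335345844283) (nat_lit 836) (nat_lit 1129086342301) (nat_lit 149) (nat_lit 5) (nat_lit 148) (nat_lit 5) (nat_lit 159) (nat_lit 5) (nat_lit 482) (nat_lit 480) (nat_lit 238)) (XT.lf (nat_lit 76) (nat_lit 209923959264) (nat_lit 0) (nat_lit 877541265233) (nat_lit 836) (nat_lit 1068208491070) (nat_lit 150) (nat_lit 5) (nat_lit 149) (nat_lit 5) (nat_lit 160) (nat_lit 5) (nat_lit 483) (nat_lit 480) (nat_lit 237)))))) (XT.nd (nat_lit 546) (nat_lit 684) (nat_lit 0) (XT.nd (nat_lit 234) (nat_lit 1824) (nat_lit 0) (XT.nd (nat_lit 78) (nat_lit 0)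 (nat_lit 76) (XT.lf (nat_lit 0) (nat_lit 1287352620151) (nat_lit 760) (nat_lit 192505101201) (nat_lit 836) (nat_lit 764383660556) (nat_lit 150) (nat_lit 5) (nat_lit 160) (nat_lit 5) (nat_lit 161) (nat_lit 5) (nat_lit 484) (nat_lit 480) (nat_lit 236)) (XT.nd (nat_lit 78) (nat_lit 0) (nat_lit 0) (XT.lf (nat_lit 0) (nat_lit 1548296283517) (nat_lit 760) (nat_lit 598910659042) (nat_lit 836) (nat_lit 190434255193) (nat_lit 151) (nat_lit 5) (nat_lit 161) (nat_lit 5) (nat_lit 162) (nat_lit 5) (nat_lit 485) (nat_lit 480) (nat_lit 235)) (XT.lf (nat_lit 76) (nat_lit 1413217705547) (nat_lit 0) (nat_lit 467323412740) (nat_lit 836) (nat_lit 555450596660) (nat_lit 152) (nat_lit 5) (nat_lit 151) (nat_lit 5) (nat_lit 162) (nat_lit 5) (nat_lit 486) (nat_lit 480) (nat_lit 234)))) (XT.nd (nat_lit 156) (nat_lit 760) (nat_lit 0) (XT.nd (nat_lit 78) (nat_lit 456) (nat_lit 0) (XT.lf (nat_lit 0) (nat_lit 1079360164727)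 (nat_lit 760) (nat_lit 1208490551194) (nat_lit 836) (nat_lit 251935298793) (nat_lit 142) (nat_lit 5) (nat_lit 152) (nat_lit 5) (nat_lit 153) (nat_lit 5) (nat_lit 487) (nat_lit 480) (nat_lit 233)) (XT.lf (nat_lit 0) (nat_lit 121100366745) (nat_lit 456) (nat_lit 1910073883845) (nat_lit 76) (nat_lit 618267028722) (nat_lit 136) (nat_lit 5) (nat_lit 142) (nat_lit 5) (nat_lit 137) (nat_lit 5) (nat_lit 488) (nat_lit 480) (nat_lit 232))) (XT.nd (nat_lit 78) (nat_lit 380) (nat_lit 0) (XT.lf (nat_lit 0) (nat_lit 388076844725) (nat_lit 380) (nat_lit 179486501249) (nat_lit 456) (nat_lit 2197478562456) (nat_lit 131) (nat_lit 5) (nat_lit 136) (nat_lit 5) (nat_lit 137) (nat_lit 5) (nat_lit 489) (nat_lit 480) (nat_lit 231)) (XT.lf (nat_lit 0) (nat_lit 21792268202) (nat_lit 380) (nat_lit 1090529584276) (nat_lit 456) (nat_lit 1774439810953) (nat_lit 126) (nat_lit 5) (nat_lit 131) (nat_lit 5) (nat_lit 132) (nat_lit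 5) (nat_lit 490) (nat_lit 480) (nat_lit 230))))) (XT.nd (nat_lit 61776) (nat_lit 0) (nat_lit 2356) (XT.nd (nat_lit 156) (nat_lit 380) (nat_lit 0) (XT.nd (nat_lit 78) (nat_lit 304) (nat_lit 0) (XT.lf (nat_lit 0) (nat_lit 1759862946108) (nat_lit 456) (nat_lit 336614608595) (nat_lit 76) (nat_lit 918781348798) (nat_lit 126) (nat_lit 5) (nat_lit 132) (nat_lit 5) (nat_lit 127) (nat_lit 5) (nat_lit 491) (nat_lit 480) (nat_lit 229)) (XT.lf (nat_lit 0) (nat_lit 2454168972205) (nat_lit 304) (nat_lit 61743129922) (nat_lit 380) (nat_lit 635288581905) (nat_lit 122) (nat_lit 5) (nat_lit 126) (nat_lit 5) (nat_lit 127) (nat_lit 5) (nat_lit 492) (nat_lit 480) (nat_lit 228))) (XT.nd (nat_lit 61542) (nat_lit 0) (nat_lit 2280) (XT.lf (nat_lit 0) (nat_lit 108505574752) (nat_lit 380) (nat_lit 1075942048045) (nat_lit 76) (nat_lit 2109784304692) (nat_lit 117) (nat_lit 5) (nat_lit 122) (nat_lit 5) (nat_lit 118) (nat_lit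 5) (nat_lit 493) (nat_lit 480) (nat_lit 227)) (XT.lf (nat_lit 0) (nat_lit 430351347291) (nat_lit 836) (nat_lit 302197166290) (nat_lit 836) (nat_lit 302197166290) (nat_lit 147) (nat_lit 3) (nat_lit 158) (nat_lit 3) (nat_lit 158) (nat_lit 5) (nat_lit 481) (nat_lit 481) (nat_lit 238)))) (XT.nd (nat_lit 156) (nat_lit 0) (nat_lit 76) (XT.nd (nat_lit 78) (nat_lit 0) (nat_lit 0) (XT.lf (nat_lit 0) (nat_lit 914371003914) (nat_lit 760) (nat_lit 1081834392753) (nat_lit 836) (nat_lit 155103607386) (nat_lit 148) (nat_lit 5) (nat_lit 158) (nat_lit 5) (nat_lit 159) (nat_lit 5) (nat_lit 482) (nat_lit 481) (nat_lit 237)) (XT.lf (nat_lit 76) (nat_lit 655803134932) (nat_lit 0) (nat_lit 362173529807) (nat_lit 836) (nat_lit 1219413200831) (nat_lit 149) (nat_lit 5) (nat_lit 148) (nat_lit 5) (nat_lit 159) (nat_lit 5) (nat_lit 483) (nat_lit 481) (nat_lit 236))) (XT.nd (nat_lit 78) (nat_lit 0) (nat_lit 76) (XT.lf (nat_lit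 76) (nat_lit 226717905804) (nat_lit 0) (nat_lit 947744579933) (nat_lit 836) (nat_lit 1153665124905) (nat_lit 150) (nat_lit 5) (nat_lit 149) (nat_lit 5) (nat_lit 160) (nat_lit 5) (nat_lit 484) (nat_lit 481) (nat_lit 235)) (XT.lf (nat_lit 0) (nat_lit 1390340869642) (nat_lit 760) (nat_lit 207905479500) (nat_lit 836) (nat_lit 825534341317) (nat_lit 150) (nat_lit 5) (nat_lit 160) (nat_lit 5) (nat_lit 161) (nat_lit 5) (nat_lit 485) (nat_lit 481) (nat_lit 234))))))))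
noncomputable def xc127 : XT := (XT.nd (nat_lit 187356) (nat_lit 0) (nat_lit 1064) (XT.nd (nat_lit 62712) (nat_lit 0) (nat_lit 304) (XT.nd (nat_lit 546) (nat_lit 304) (nat_lit 0) (XT.nd (nat_lit 234) (nat_lit 1216) (nat_lit 0) (XT.nd (nat_lit 78) (nat_lit 684) (nat_lit 0) (XT.lf (nat_lit 0) (nat_lit 1672160023431) (nat_lit 760) (nat_lit 646823481251) (nat_lit 836) (nat_lit 205668987023) (nat_lit 151) (nat_lit 5) (nat_lit 161) (nat_lit 5) (nat_lit 162) (nat_lit 5) (nat_lit 486) (nat_lit 481) (nat_lit 233)) (XT.nd (nat_lit 78) (nat_lit 684) (nat_lit 0) (XT.lf (nat_lit 76) (nat_lit 1526275151179) (nat_lit 0) (nat_lit 504709291501) (nat_lit 836) (nat_lit 599886607711) (nat_lit 152) (nat_lit 5) (nat_lit 151) (nat_lit 5) (nat_lit 162) (nat_lit 5) (nat_lit 487) (nat_lit 481) (nat_lit 232)) (XT.lf (nat_lit 0) (nat_lit 1165709007587) (nat_lit 760) (nat_lit 1305169798332) (nat_lit 836) (nat_lit 272090088333)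 (nat_lit 142) (nat_lit 5) (nat_lit 152) (nat_lit 5) (nat_lit 153) (nat_lit 5) (nat_lit 488) (nat_lit 481) (nat_lit 231)))) (XT.nd (nat_lit 156) (nat_lit 380) (nat_lit 0) (XT.nd (nat_lit 78) (nat_lit 380) (nat_lit 0) (XT.lf (nat_lit 0) (nat_lit 130788427316) (nat_lit 456) (nat_lit 2062879763510) (nat_lit 76) (nat_lit 667728389265) (nat_lit 136) (nat_lit 5) (nat_lit 142) (nat_lit 5) (nat_lit 137) (nat_lit 5) (nat_lit 489) (nat_lit 481) (nat_lit 230)) (XT.lf (nat_lit 0) (nat_lit 419123021998) (nat_lit 380) (nat_lit 193845421036) (nat_lit 456) (nat_lit 2373276816598) (nat_lit 131) (nat_lit 5) (nat_lit 136) (nat_lit 5) (nat_lit 137) (nat_lit 5) (nat_lit 490) (nat_lit 481) (nat_lit 229))) (XT.nd (nat_lit 78) (nat_lit 0) (nat_lit 0) (XT.lf (nat_lit 0) (nat_lit 23535679466) (nat_lit 380) (nat_lit 1177771948885) (nat_lit 456) (nat_lit 1916394966767) (nat_lit 126) (nat_lit 5) (nat_lit 131) (nat_lit 5)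 (nat_lit 132) (nat_lit 5) (nat_lit 491) (nat_lit 481) (nat_lit 228)) (XT.lf (nat_lit 0) (nat_lit 1900652007453) (nat_lit 456) (nat_lit 363543748429) (nat_lit 76) (nat_lit 992283858613) (nat_lit 126) (nat_lit 5) (nat_lit 132) (nat_lit 5) (nat_lit 127) (nat_lit 5) (nat_lit 492) (nat_lit 481) (nat_lit 227))))) (XT.nd (nat_lit 61854) (nat_lit 0) (nat_lit 2052) (XT.nd (nat_lit 61698) (nat_lit 0) (nat_lit 1976) (XT.nd (nat_lit 61620) (nat_lit 0) (nat_lit 1900) (XT.lf (nat_lit 0) (nat_lit 2650502517581) (nat_lit 304) (nat_lit 66682576902) (nat_lit 380) (nat_lit 686111643059) (nat_lit 122) (nat_lit 5) (nat_lit 126) (nat_lit 5) (nat_lit 127) (nat_lit 5) (nat_lit 493) (nat_lit 481) (nat_lit 226)) (XT.lf (nat_lit 0) (nat_lit 464779478084) (nat_lit 836) (nat_lit 326372927511) (nat_lit 836) (nat_lit 326372927511) (nat_lit 147) (nat_lit 3) (nat_lit 158) (nat_lit 3) (nat_lit 158) (nat_lit 5) (nat_lit 482)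 (nat_lit 482) (nat_lit 236))) (XT.nd (nat_lit 78) (nat_lit 0) (nat_lit 0) (XT.lf (nat_lit 0) (nat_lit 987520726889) (nat_lit 760) (nat_lit 1168381118594) (nat_lit 836) (nat_lit 167511876755) (nat_lit 148) (nat_lit 5) (nat_lit 158) (nat_lit 5) (nat_lit 159) (nat_lit 5) (nat_lit 483) (nat_lit 482) (nat_lit 235)) (XT.lf (nat_lit 76) (nat_lit 708267410194) (nat_lit 0) (nat_lit 391147427608) (nat_lit 836) (nat_lit 1316966215013) (nat_lit 149) (nat_lit 5) (nat_lit 148) (nat_lit 5) (nat_lit 159) (nat_lit 5) (nat_lit 484) (nat_lit 482) (nat_lit 234)))) (XT.nd (nat_lit 156) (nat_lit 0) (nat_lit 152) (XT.nd (nat_lit 78) (nat_lit 0) (nat_lit 76) (XT.lf (nat_lit 76) (nat_lit 244855363817) (nat_lit 0) (nat_lit 1023564157886) (nat_lit 836) (nat_lit 1245958295930) (nat_lit 150) (nat_lit 5) (nat_lit 149) (nat_lit 5) (nat_lit 160) (nat_lit 5) (nat_lit 485) (nat_lit 482) (nat_lit 233)) (XT.lf (nat_lit 0) (nat_lit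 1501568173404) (nat_lit 760) (nat_lit 224537892315) (nat_lit 836) (nat_lit 891577078263) (nat_lit 150) (nat_lit 5) (nat_lit 160) (nat_lit 5) (nat_lit 161) (nat_lit 5) (nat_lit 486) (nat_lit 482) (nat_lit 232))) (XT.nd (nat_lit 78) (nat_lit 0) (nat_lit 0) (XT.lf (nat_lit 0) (nat_lit 1805932857226) (nat_lit 760) (nat_lit 698569333590) (nat_lit 836) (nat_lit 222122498625) (nat_lit 151) (nat_lit 5) (nat_lit 161) (nat_lit 5) (nat_lit 162) (nat_lit 5) (nat_lit 487) (nat_lit 482) (nat_lit 231)) (XT.lf (nat_lit 76) (nat_lit 1648377188298) (nat_lit 0) (nat_lit 545086039744) (nat_lit 836) (nat_lit 647877504879) (nat_lit 152) (nat_lit 5) (nat_lit 151) (nat_lit 5) (nat_lit 162) (nat_lit 5) (nat_lit 488) (nat_lit 482) (nat_lit 230)))))) (XT.nd (nat_lit 62244) (nat_lit 0) (nat_lit 380) (XT.nd (nat_lit 234) (nat_lit 380) (nat_lit 0) (XT.nd (nat_lit 78) (nat_lit 836) (nat_lit 0) (XT.lf (nat_lit 0) (nat_lit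 1258965753640) (nat_lit 760) (nat_lit 1409583384806) (nat_lit 836) (nat_lit 293857265938) (nat_lit 142) (nat_lit 5) (nat_lit 152) (nat_lit 5) (nat_lit 153) (nat_lit 5) (nat_lit 489) (nat_lit 482) (nat_lit 229)) (XT.nd (nat_lit 78) (nat_lit 380) (nat_lit 0) (XT.lf (nat_lit 0) (nat_lit 141251528277) (nat_lit 456) (nat_lit 2227910117976) (nat_lit 76) (nat_lit 721146658903) (nat_lit 136) (nat_lit 5) (nat_lit 142) (nat_lit 5) (nat_lit 137) (nat_lit 5) (nat_lit 490) (nat_lit 482) (nat_lit 228)) (XT.lf (nat_lit 0) (nat_lit 452652889215) (nat_lit 380) (nat_lit 209353054451) (nat_lit 456) (nat_lit 2563138935473) (nat_lit 131) (nat_lit 5) (nat_lit 136) (nat_lit 5) (nat_lit 137) (nat_lit 5) (nat_lit 491) (nat_lit 482) (nat_lit 227)))) (XT.nd (nat_lit 61854) (nat_lit 0) (nat_lit 1672) (XT.nd (nat_lit 61776) (nat_lit 0) (nat_lit 1596) (XT.lf (nat_lit 0) (nat_lit 25418559379) (nat_lit 380) (nat_lit 1271993702967)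 (nat_lit 456) (nat_lit 2069706539192) (nat_lit 126) (nat_lit 5) (nat_lit 131) (nat_lit 5) (nat_lit 132) (nat_lit 5) (nat_lit 492) (nat_lit 482) (nat_lit 226)) (XT.lf (nat_lit 0) (nat_lit 501961856059) (nat_lit 836) (nat_lit 352482751354) (nat_lit 836) (nat_lit 352482751354) (nat_lit 147) (nat_lit 3) (nat_lit 158) (nat_lit 3) (nat_lit 158) (nat_lit 5) (nat_lit 483) (nat_lit 483) (nat_lit 234))) (XT.nd (nat_lit 78) (nat_lit 0) (nat_lit 0) (XT.lf (nat_lit 0) (nat_lit 1066522421617) (nat_lit 760) (nat_lit 1261851586151) (nat_lit 836) (nat_lit 180912810415) (nat_lit 148) (nat_lit 5) (nat_lit 158) (nat_lit 5) (nat_lit 159) (nat_lit 5) (nat_lit 484) (nat_lit 483) (nat_lit 233)) (XT.lf (nat_lit 76) (nat_lit 764928823987) (nat_lit 0) (nat_lit 422439235034) (nat_lit 836) (nat_lit 1422323476304) (nat_lit 149) (nat_lit 5) (nat_lit 148) (nat_lit 5) (nat_lit 159) (nat_lit 5) (nat_lit 485) (nat_lit 483) (nat_lit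 232))))) (XT.nd (nat_lit 312) (nat_lit 1368) (nat_lit 0) (XT.nd (nat_lit 156) (nat_lit 0) (nat_lit 152) (XT.nd (nat_lit 78) (nat_lit 0) (nat_lit 76) (XT.lf (nat_lit 76) (nat_lit 264443814826) (nat_lit 0) (nat_lit 1105449300425) (nat_lit 836) (nat_lit 1345634926197) (nat_lit 150) (nat_lit 5) (nat_lit 149) (nat_lit 5) (nat_lit 160) (nat_lit 5) (nat_lit 486) (nat_lit 483) (nat_lit 231)) (XT.lf (nat_lit 0) (nat_lit 1621693656589) (nat_lit 760) (nat_lit 242500901798) (nat_lit 836) (nat_lit 962903235643) (nat_lit 150) (nat_lit 5) (nat_lit 160) (nat_lit 5) (nat_lit 161) (nat_lit 5) (nat_lit 487) (nat_lit 483) (nat_lit 230))) (XT.nd (nat_lit 78) (nat_lit 0) (nat_lit 0) (XT.lf (nat_lit 0) (nat_lit 1950407513170) (nat_lit 760) (nat_lit 754454857848) (nat_lit 836) (nat_lit 239892292205) (nat_lit 151) (nat_lit 5) (nat_lit 161) (nat_lit 5) (nat_lit 162) (nat_lit 5) (nat_lit 488) (nat_lit 483) (nat_lit 229))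 (XT.lf (nat_lit 76) (nat_lit 1780247384816) (nat_lit 0) (nat_lit 588692927143) (nat_lit 836) (nat_lit 699707678308) (nat_lit 152) (nat_lit 5) (nat_lit 151) (nat_lit 5) (nat_lit 162) (nat_lit 5) (nat_lit 489) (nat_lit 483) (nat_lit 228)))) (XT.nd (nat_lit 156) (nat_lit 380) (nat_lit 0) (XT.nd (nat_lit 78) (nat_lit 456) (nat_lit 0) (XT.lf (nat_lit 0) (nat_lit 1359683035748) (nat_lit 760) (nat_lit 1522350057826) (nat_lit 836) (nat_lit 317365821955) (nat_lit 142) (nat_lit 5) (nat_lit 152) (nat_lit 5) (nat_lit 153) (nat_lit 5) (nat_lit 490) (nat_lit 483) (nat_lit 227)) (XT.lf (nat_lit 0) (nat_lit 152551673496) (nat_lit 456) (nat_lit 2406142904596) (nat_lit 76) (nat_lit 778838390326) (nat_lit 136) (nat_lit 5) (nat_lit 142) (nat_lit 5) (nat_lit 137) (nat_lit 5) (nat_lit 491) (nat_lit 483) (nat_lit 226))) (XT.nd (nat_lit 61854) (nat_lit 0) (nat_lit 1216) (XT.lf (nat_lit 0) (nat_lit 488865142179) (nat_lit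 380) (nat_lit 226101298577) (nat_lit 456) (nat_lit 2768190027631) (nat_lit 131) (nat_lit 5) (nat_lit 136) (nat_lit 5) (nat_lit 137) (nat_lit 5) (nat_lit 492) (nat_lit 483) (nat_lit 225)) (XT.lf (nat_lit 0) (nat_lit 542118821457) (nat_lit 836) (nat_lit 380681362581) (nat_lit 836) (nat_lit 380681362581) (nat_lit 147) (nat_lit 3) (nat_lit 158) (nat_lit 3) (nat_lit 158) (nat_lit 5) (nat_lit 484) (nat_lit 484) (nat_lit 232))))))) (XT.nd (nat_lit 63024) (nat_lit 0) (nat_lit 456) (XT.nd (nat_lit 546) (nat_lit 456) (nat_lit 0) (XT.nd (nat_lit 234) (nat_lit 456) (nat_lit 0) (XT.nd (nat_lit 78) (nat_lit 0) (nat_lit 0) (XT.lf (nat_lit 0) (nat_lit 1151844246704) (nat_lit 760) (nat_lit 1362799694242) (nat_lit 836) (nat_lit 195385821119) (nat_lit 148) (nat_lit 5) (nat_lit 158) (nat_lit 5) (nat_lit 159) (nat_lit 5) (nat_lit 485) (nat_lit 484) (nat_lit 231)) (XT.nd (nat_lit 78) (nat_lit 0) (nat_lit 76) (XT.lf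 (nat_lit 76) (nat_lit 826123147890) (nat_lit 0) (nat_lit 456234385168) (nat_lit 836) (nat_lit 1536109323622) (nat_lit 149) (nat_lit 5) (nat_lit 148) (nat_lit 5) (nat_lit 159) (nat_lit 5) (nat_lit 486) (nat_lit 484) (nat_lit 230)) (XT.lf (nat_lit 76) (nat_lit 285599338790) (nat_lit 0) (nat_lit 1193885252955) (nat_lit 836) (nat_lit 1453285691651) (nat_lit 150) (nat_lit 5) (nat_lit 149) (nat_lit 5) (nat_lit 160) (nat_lit 5) (nat_lit 487) (nat_lit 484) (nat_lit 229)))) (XT.nd (nat_lit 156) (nat_lit 608) (nat_lit 0) (XT.nd (nat_lit 78) (nat_lit 0) (nat_lit 76) (XT.lf (nat_lit 0) (nat_lit 1751429174247) (nat_lit 760) (nat_lit 261900955165) (nat_lit 836) (nat_lit 1039935486880) (nat_lit 150) (nat_lit 5) (nat_lit 160) (nat_lit 5) (nat_lit 161) (nat_lit 5) (nat_lit 488) (nat_lit 484) (nat_lit 228)) (XT.lf (nat_lit 0) (nat_lit 2106440137687) (nat_lit 760) (nat_lit 814811227246) (nat_lit 836) (nat_lit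 259083670172) (nat_lit 151) (nat_lit 5) (nat_lit 161) (nat_lit 5) (nat_lit 162) (nat_lit 5) (nat_lit 489) (nat_lit 484) (nat_lit 227))) (XT.nd (nat_lit 78) (nat_lit 684) (nat_lit 0) (XT.lf (nat_lit 76) (nat_lit 1922667193995) (nat_lit 0) (nat_lit 635788364933) (nat_lit 836) (nat_lit 755684269457) (nat_lit 152) (nat_lit 5) (nat_lit 151) (nat_lit 5) (nat_lit 162) (nat_lit 5) (nat_lit 490) (nat_lit 484) (nat_lit 226)) (XT.lf (nat_lit 0) (nat_lit 1468457697312) (nat_lit 760) (nat_lit 1644138064369) (nat_lit 836) (nat_lit 342755066056) (nat_lit 142) (nat_lit 5) (nat_lit 152) (nat_lit 5) (nat_lit 153) (nat_lit 5) (nat_lit 491) (nat_lit 484) (nat_lit 225))))) (XT.nd (nat_lit 62166) (nat_lit 0) (nat_lit 988) (XT.nd (nat_lit 62010) (nat_lit 0) (nat_lit 912) (XT.nd (nat_lit 61932) (nat_lit 0) (nat_lit 836) (XT.lf (nat_lit 0) (nat_lit 164755827056) (nat_lit 456) (nat_lit 2598634317402) (nat_lit 76) (nat_lit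 841145460447) (nat_lit 136) (nat_lit 5) (nat_lit 142) (nat_lit 5) (nat_lit 137) (nat_lit 5) (nat_lit 492) (nat_lit 484) (nat_lit 224)) (XT.lf (nat_lit 0) (nat_lit 585488341674) (nat_lit 836) (nat_lit 411135863974) (nat_lit 836) (nat_lit 411135863974) (nat_lit 147) (nat_lit 3) (nat_lit 158) (nat_lit 3) (nat_lit 158) (nat_lit 5) (nat_lit 485) (nat_lit 485) (nat_lit 230))) (XT.nd (nat_lit 78) (nat_lit 0) (nat_lit 0) (XT.lf (nat_lit 0) (nat_lit 1243991813325) (nat_lit 760) (nat_lit 1471823653661) (nat_lit 836) (nat_lit 211016674694) (nat_lit 148) (nat_lit 5) (nat_lit 158) (nat_lit 5) (nat_lit 159) (nat_lit 5) (nat_lit 486) (nat_lit 485) (nat_lit 229)) (XT.lf (nat_lit 76) (nat_lit 892213015141) (nat_lit 0) (nat_lit 492733145697) (nat_lit 836) (nat_lit 1658998043118) (nat_lit 149) (nat_lit 5) (nat_lit 148) (nat_lit 5) (nat_lit 159) (nat_lit 5) (nat_lit 487) (nat_lit 485) (nat_lit 228)))) (XT.nd (nat_lit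 156) (nat_lit 0) (nat_lit 152) (XT.nd (nat_lit 78) (nat_lit 0) (nat_lit 76) (XT.lf (nat_lit 76) (nat_lit 308447301993) (nat_lit 0) (nat_lit 1289396080475) (nat_lit 836) (nat_lit 1569548522427) (nat_lit 150) (nat_lit 5) (nat_lit 149) (nat_lit 5) (nat_lit 160) (nat_lit 5) (nat_lit 488) (nat_lit 485) (nat_lit 227)) (XT.lf (nat_lit 0) (nat_lit 1891543529733) (nat_lit 760) (nat_lit 282853015480) (nat_lit 836) (nat_lit 1123130319303) (nat_lit 150) (nat_lit 5) (nat_lit 160) (nat_lit 5) (nat_lit 161) (nat_lit 5) (nat_lit 489) (nat_lit 485) (nat_lit 226))) (XT.nd (nat_lit 78) (nat_lit 0) (nat_lit 0) (XT.lf (nat_lit 0) (nat_lit 2274955368817) (nat_lit 760) (nat_lit 879996108940) (nat_lit 836) (nat_lit 279810359147) (nat_lit 151) (nat_lit 5) (nat_lit 161) (nat_lit 5) (nat_lit 162) (nat_lit 5) (nat_lit 490) (nat_lit 485) (nat_lit 225)) (XT.lf (nat_lit 76) (nat_lit 2076480585284) (nat_lit 0) (nat_lit 686651437230)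 (nat_lit 836) (nat_lit 816138991195) (nat_lit 152) (nat_lit 5) (nat_lit 151) (nat_lit 5) (nat_lit 162) (nat_lit 5) (nat_lit 491) (nat_lit 485) (nat_lit 224)))))) (XT.nd (nat_lit 124566) (nat_lit 0) (nat_lit 380) (XT.nd (nat_lit 62166) (nat_lit 0) (nat_lit 456) (XT.nd (nat_lit 62010) (nat_lit 0) (nat_lit 380) (XT.lf (nat_lit 0) (nat_lit 1585934329133) (nat_lit 760) (nat_lit 1775669111162) (nat_lit 836) (nat_lit 370175452775) (nat_lit 142) (nat_lit 5) (nat_lit 152) (nat_lit 5) (nat_lit 153) (nat_lit 5) (nat_lit 492) (nat_lit 485) (nat_lit 223)) (XT.nd (nat_lit 78) (nat_lit 0) (nat_lit 76) (XT.lf (nat_lit 0) (nat_lit 632327421439) (nat_lit 836) (nat_lit 444026726565) (nat_lit 836) (nat_lit 444026726565) (nat_lit 147) (nat_lit 3) (nat_lit 158) (nat_lit 3) (nat_lit 158) (nat_lit 5) (nat_lit 486) (nat_lit 486) (nat_lit 228)) (XT.lf (nat_lit 0) (nat_lit 1343511181441) (nat_lit 760) (nat_lit 1589569532135)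 (nat_lit 836) (nat_lit 227897998285) (nat_lit 148) (nat_lit 5) (nat_lit 158) (nat_lit 5) (nat_lit 159) (nat_lit 5) (nat_lit 487) (nat_lit 486) (nat_lit 227)))) (XT.nd (nat_lit 156) (nat_lit 0) (nat_lit 152) (XT.nd (nat_lit 78) (nat_lit 0) (nat_lit 76) (XT.lf (nat_lit 76) (nat_lit 963590069571) (nat_lit 0) (nat_lit 532151805682) (nat_lit 836) (nat_lit 1791717863938) (nat_lit 149) (nat_lit 5) (nat_lit 148) (nat_lit 5) (nat_lit 159) (nat_lit 5) (nat_lit 488) (nat_lit 486) (nat_lit 226)) (XT.lf (nat_lit 76) (nat_lit 333123099956) (nat_lit 0) (nat_lit 1392547773157) (nat_lit 836) (nat_lit 1695112383169) (nat_lit 150) (nat_lit 5) (nat_lit 149) (nat_lit 5) (nat_lit 160) (nat_lit 5) (nat_lit 489) (nat_lit 486) (nat_lit 225))) (XT.nd (nat_lit 78) (nat_lit 0) (nat_lit 76) (XT.lf (nat_lit 0) (nat_lit 2042867030583) (nat_lit 760) (nat_lit 305481242917) (nat_lit 836) (nat_lit 1212980739250) (nat_lit 150)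 (nat_lit 5) (nat_lit 160) (nat_lit 5) (nat_lit 161) (nat_lit 5) (nat_lit 490) (nat_lit 486) (nat_lit 224)) (XT.lf (nat_lit 0) (nat_lit 2456951815568) (nat_lit 760) (nat_lit 950395783521) (nat_lit 836) (nat_lit 302195183903) (nat_lit 151) (nat_lit 5) (nat_lit 161) (nat_lit 5) (nat_lit 162) (nat_lit 5) (nat_lit 491) (nat_lit 486) (nat_lit 223))))) (XT.nd (nat_lit 312) (nat_lit 0) (nat_lit 76) (XT.nd (nat_lit 156) (nat_lit 0) (nat_lit 76) (XT.nd (nat_lit 78) (nat_lit 0) (nat_lit 76) (XT.lf (nat_lit 0) (nat_lit 682913625813) (nat_lit 836) (nat_lit 479548859093) (nat_lit 836) (nat_lit 479548859093) (nat_lit 147) (nat_lit 3) (nat_lit 158) (nat_lit 3) (nat_lit 158) (nat_lit 5) (nat_lit 487) (nat_lit 487) (nat_lit 226)) (XT.lf (nat_lit 0) (nat_lit 1450992095717) (nat_lit 760) (nat_lit 1716735082857) (nat_lit 836) (nat_lit 246129829244) (nat_lit 148) (nat_lit 5) (nat_lit 158) (nat_lit 5) (nat_lit 159)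 (nat_lit 5) (nat_lit 488) (nat_lit 487) (nat_lit 225))) (XT.nd (nat_lit 78) (nat_lit 0) (nat_lit 76) (XT.lf (nat_lit 76) (nat_lit 1040677286470) (nat_lit 0) (nat_lit 574723957277) (nat_lit 836) (nat_lit 1935055273653) (nat_lit 149) (nat_lit 5) (nat_lit 148) (nat_lit 5) (nat_lit 159) (nat_lit 5) (nat_lit 489) (nat_lit 487) (nat_lit 224)) (XT.lf (nat_lit 76) (nat_lit 359772959786) (nat_lit 0) (nat_lit 1503951600363) (nat_lit 836) (nat_lit 1830721355773) (nat_lit 150) (nat_lit 5) (nat_lit 149) (nat_lit 5) (nat_lit 160) (nat_lit 5) (nat_lit 490) (nat_lit 487) (nat_lit 223)))) (XT.nd (nat_lit 62400) (nat_lit 0) (nat_lit 0) (XT.nd (nat_lit 62322) (nat_lit 152) (nat_lit 0) (XT.lf (nat_lit 0) (nat_lit 2206296408867) (nat_lit 760) (nat_lit 329919730518) (nat_lit 836) (nat_lit 1310019193592) (nat_lit 150) (nat_lit 5) (nat_lit 160) (nat_lit 5) (nat_lit 161) (nat_lit 5) (nat_lit 491) (nat_lit 487) (nat_lit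 222)) (XT.lf (nat_lit 0) (nat_lit 1567071480316) (nat_lit 760) (nat_lit 1854073879328) (nat_lit 836) (nat_lit 265820207950) (nat_lit 148) (nat_lit 5) (nat_lit 158) (nat_lit 5) (nat_lit 159) (nat_lit 5) (nat_lit 489) (nat_lit 488) (nat_lit 223))) (XT.nd (nat_lit 62478) (nat_lit 0) (nat_lit 0) (XT.lf (nat_lit 76) (nat_lit 1123931479104) (nat_lit 0) (nat_lit 620701879981) (nat_lit 836) (nat_lit 2089859678912) (nat_lit 149) (nat_lit 5) (nat_lit 148) (nat_lit 5) (nat_lit 159) (nat_lit 5) (nat_lit 490) (nat_lit 488) (nat_lit 222)) (XT.lf (nat_lit 0) (nat_lit 1692437213266) (nat_lit 760) (nat_lit 2002399780965) (nat_lit 836) (nat_lit 287085818041) (nat_lit 148) (nat_lit 5) (nat_lit 158) (nat_lit 5) (nat_lit 159) (nat_lit 5) (nat_lit 490) (nat_lit 489) (nat_lit 221))))))))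

set_option maxRecDepth 10000000 in
noncomputable def Tp : PT := (PT.nd (nat_lit 12760488) (PT.nd (nat_lit 12136332) (PT.nd (nat_lit 11262342) (PT.nd (nat_lit 10388274) pc0 pc1) (PT.nd (nat_lit 499746) pc2 pc3)) (PT.nd (nat_lit 374634) (PT.nd (nat_lit 187746) pc4 pc5) (PT.nd (nat_lit 125034) pc6 pc7))) (PT.nd (nat_lit 436098) (PT.nd (nat_lit 186888) (PT.nd (nat_lit 63336) pc8 pc9) (PT.nd (nat_lit 63960) pc10 pc11)) (PT.nd (nat_lit 377988) (PT.nd (nat_lit 187122) pc12 pc13) (PT.nd (nat_lit 245232) pc14 pc15))))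

set_option maxRecDepth 10000000 in
noncomputable def Tx : XT := (XT.nd (nat_lit 21843978) (nat_lit 0) (nat_lit 76) XT.nil (XT.nd (nat_lit 8746062) (nat_lit 0) (nat_lit 0) (XT.nd (nat_lit 3868098) (nat_lit 0) (nat_lit 304) (XT.nd (nat_lit 2621580) (nat_lit 0) (nat_lit 76) (XT.nd (nat_lit 1811238) (nat_lit 0) (nat_lit 0) (XT.nd (nat_lit 1249092) (nat_lit 0) (nat_lit 0) (XT.nd (nat_lit 873522) (nat_lit 0) (nat_lit 0) (XT.nd (nat_lit 562380) (nat_lit 0) (nat_lit 0) (XT.nd (nat_lit 374790) (nat_lit 0) (nat_lit 0) xc0 xc1) (XT.nd (nat_lit 186186) (nat_lit 0) (nat_lit 0) xc2 xc3)) (XT.nd (nat_lit 188448) (nat_lit 0) (nat_lit 0) (XT.nd (nat_lit 124254) (nat_lit 0) (nat_lit 0) xc4 xc5) (XT.nd (nat_lit 123318) (nat_lit 0) (nat_lit 0) xc6 xc7))) (XT.nd (nat_lit 311766) (nat_lit 0) (nat_lit 0) (XT.nd (nat_lit 185640) (nat_lit 0) (nat_lit 0) (XT.nd (nat_lit 122382) (nat_lit 0) (nat_lit 0) xc8 xc9) (XT.nd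 (nat_lit 63102) (nat_lit 0) (nat_lit 0) xc10 xc11)) (XT.nd (nat_lit 125502) (nat_lit 0) (nat_lit 0) (XT.nd (nat_lit 62790) (nat_lit 0) (nat_lit 0) xc12 xc13) (XT.nd (nat_lit 62478) (nat_lit 0) (nat_lit 0) xc14 xc15)))) (XT.nd (nat_lit 436644) (nat_lit 0) (nat_lit 0) (XT.nd (nat_lit 247806) (nat_lit 0) (nat_lit 0) (XT.nd (nat_lit 124176) (nat_lit 0) (nat_lit 0) (XT.nd (nat_lit 62166) (nat_lit 0) (nat_lit 0) xc16 xc17) (XT.nd (nat_lit 61854) (nat_lit 0) (nat_lit 0) xc18 xc19)) (XT.nd (nat_lit 122928) (nat_lit 0) (nat_lit 0) (XT.nd (nat_lit 61542) (nat_lit 0) (nat_lit 0) xc20 xc21) (XT.nd (nat_lit 4602) (nat_lit 76) (nat_lit 0) xc22 xc23))) (XT.nd (nat_lit 187434) (nat_lit 0) (nat_lit 76) (XT.nd (nat_lit 121992) (nat_lit 0) (nat_lit 0) (XT.nd (nat_lit 61074) (nat_lit 0) (nat_lit 0) xc24 xc25) (XT.nd (nat_lit 60762) (nat_lit 0) (nat_lit 228) xc26 xc27)) (XT.nd (nat_lit 121212) (nat_lit 0) (nat_lit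 0) (XT.nd (nat_lit 60606) (nat_lit 0) (nat_lit 0) xc28 xc29) (XT.nd (nat_lit 4602) (nat_lit 0) (nat_lit 0) xc30 xc31))))) (XT.nd (nat_lit 623376) (nat_lit 0) (nat_lit 0) (XT.nd (nat_lit 313482) (nat_lit 0) (nat_lit 0) (XT.nd (nat_lit 184860) (nat_lit 0) (nat_lit 0) (XT.nd (nat_lit 64818) (nat_lit 0) (nat_lit 0) (XT.nd (nat_lit 60216) (nat_lit 0) (nat_lit 0) xc32 xc33) (XT.nd (nat_lit 60060) (nat_lit 0) (nat_lit 0) xc34 xc35)) (XT.nd (nat_lit 64350) (nat_lit 0) (nat_lit 0) (XT.nd (nat_lit 4602) (nat_lit 0) (nat_lit 0) xc36 xc37) (XT.nd (nat_lit 59592) (nat_lit 0) (nat_lit 380) xc38 xc39))) (XT.nd (nat_lit 182520) (nat_lit 0) (nat_lit 0) (XT.nd (nat_lit 118716) (nat_lit 0) (nat_lit 0) (XT.nd (nat_lit 59436) (nat_lit 0) (nat_lit 0) xc40 xc41) (XT.nd (nat_lit 4602) (nat_lit 1520) (nat_lit 0) xc42 xc43)) (XT.nd (nat_lit 63648) (nat_lit 0) (nat_lit 0) (XT.nd (nat_lit 4602) (nat_lit 608) (nat_lit 0)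 xc44 xc45) (XT.nd (nat_lit 4602) (nat_lit 152) (nat_lit 0) xc46 xc47)))) (XT.nd (nat_lit 310362) (nat_lit 0) (nat_lit 152) (XT.nd (nat_lit 127608) (nat_lit 0) (nat_lit 152) (XT.nd (nat_lit 63726) (nat_lit 0) (nat_lit 0) (XT.nd (nat_lit 59124) (nat_lit 0) (nat_lit 1444) xc48 xc49) (XT.nd (nat_lit 59202) (nat_lit 0) (nat_lit 456) xc50 xc51)) (XT.nd (nat_lit 118638) (nat_lit 0) (nat_lit 0) (XT.nd (nat_lit 59280) (nat_lit 0) (nat_lit 0) xc52 xc53) (XT.nd (nat_lit 4602) (nat_lit 1900) (nat_lit 0) xc54 xc55))) (XT.nd (nat_lit 128544) (nat_lit 0) (nat_lit 0) (XT.nd (nat_lit 64194) (nat_lit 0) (nat_lit 0) (XT.nd (nat_lit 4602) (nat_lit 532) (nat_lit 0) xc56 xc57) (XT.nd (nat_lit 59670) (nat_lit 0) (nat_lit 1444) xc58 xc59)) (XT.nd (nat_lit 64428) (nat_lit 0) (nat_lit 76) (XT.nd (nat_lit 59748) (nat_lit 0) (nat_lit 228) xc60 xc61) (XT.nd (nat_lit 59826) (nat_lit 0) (nat_lit 0) xc62 xc63)))))) (XT.nd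 (nat_lit 1500174) (nat_lit 0) (nat_lit 1140) (XT.nd (nat_lit 687648) (nat_lit 0) (nat_lit 380) (XT.nd (nat_lit 314652) (nat_lit 0) (nat_lit 152) (XT.nd (nat_lit 129324) (nat_lit 0) (nat_lit 0) (XT.nd (nat_lit 64584) (nat_lit 0) (nat_lit 0) (XT.nd (nat_lit 4602) (nat_lit 456) (nat_lit 0) xc64 xc65) (XT.nd (nat_lit 60060) (nat_lit 0) (nat_lit 684) xc66 xc67)) (XT.nd (nat_lit 120354) (nat_lit 0) (nat_lit 152) (XT.nd (nat_lit 60138) (nat_lit 0) (nat_lit 76) xc68 xc69) (XT.nd (nat_lit 4602) (nat_lit 684) (nat_lit 0) xc70 xc71))) (XT.nd (nat_lit 186030) (nat_lit 0) (nat_lit 76) (XT.nd (nat_lit 64974) (nat_lit 0) (nat_lit 0) (XT.nd (nat_lit 60372) (nat_lit 0) (nat_lit 456) xc72 xc73) (XT.nd (nat_lit 60450) (nat_lit 0) (nat_lit 76) xc74 xc75)) (XT.nd (nat_lit 65286) (nat_lit 0) (nat_lit 76) (XT.nd (nat_lit 4602) (nat_lit 76) (nat_lit 0) xc76 xc77) (XT.nd (nat_lit 60762) (nat_lit 0) (nat_lit 76) xc78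 xc79)))) (XT.nd (nat_lit 376038) (nat_lit 0) (nat_lit 304) (XT.nd (nat_lit 187668) (nat_lit 0) (nat_lit 76) (XT.nd (nat_lit 65520) (nat_lit 0) (nat_lit 76) (XT.nd (nat_lit 4602) (nat_lit 304) (nat_lit 0) xc80 xc81) (XT.nd (nat_lit 60996) (nat_lit 0) (nat_lit 0) xc82 xc83)) (XT.nd (nat_lit 65754) (nat_lit 0) (nat_lit 152) (XT.nd (nat_lit 4602) (nat_lit 228) (nat_lit 0) xc84 xc85) (XT.nd (nat_lit 61230) (nat_lit 0) (nat_lit 0) xc86 xc87))) (XT.nd (nat_lit 189072) (nat_lit 0) (nat_lit 228) (XT.nd (nat_lit 65988) (nat_lit 0) (nat_lit 0) (XT.nd (nat_lit 61386) (nat_lit 0) (nat_lit 456) xc88 xc89) (XT.nd (nat_lit 61464) (nat_lit 0) (nat_lit 152) xc90 xc91)) (XT.nd (nat_lit 123552) (nat_lit 0) (nat_lit 152) (XT.nd (nat_lit 61698) (nat_lit 0) (nat_lit 76) xc92 xc93) (XT.nd (nat_lit 61854) (nat_lit 0) (nat_lit 76) xc94 xc95))))) (XT.nd (nat_lit 1003236) (nat_lit 0) (nat_lit 1672) (XT.nd (nat_lit 440700)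 (nat_lit 0) (nat_lit 684) (XT.nd (nat_lit 190944) (nat_lit 0) (nat_lit 304) (XT.nd (nat_lit 66612) (nat_lit 0) (nat_lit 152) (XT.nd (nat_lit 4602) (nat_lit 228) (nat_lit 0) xc96 xc97) (XT.nd (nat_lit 62088) (nat_lit 0) (nat_lit 76) xc98 xc99)) (XT.nd (nat_lit 124644) (nat_lit 0) (nat_lit 304) (XT.nd (nat_lit 62244) (nat_lit 0) (nat_lit 152) xc100 xc101) (XT.nd (nat_lit 62478) (nat_lit 0) (nat_lit 76) xc102 xc103))) (XT.nd (nat_lit 251082) (nat_lit 0) (nat_lit 456) (XT.nd (nat_lit 125346) (nat_lit 0) (nat_lit 228) (XT.nd (nat_lit 62634) (nat_lit 0) (nat_lit 152) xc104 xc105) (XT.nd (nat_lit 62790) (nat_lit 0) (nat_lit 76) xc106 xc107)) (XT.nd (nat_lit 184782) (nat_lit 0) (nat_lit 380) (XT.nd (nat_lit 121524) (nat_lit 0) (nat_lit 228) xc108 xc109) (XT.nd (nat_lit 63258) (nat_lit 0) (nat_lit 76) xc110 xc111)))) (XT.nd (nat_lit 749034) (nat_lit 0) (nat_lit 1672) (XT.nd (nat_lit 372840) (nat_lit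 0) (nat_lit 684) (XT.nd (nat_lit 185952) (nat_lit 0) (nat_lit 380) (XT.nd (nat_lit 63414) (nat_lit 0) (nat_lit 152) xc112 xc113) (XT.nd (nat_lit 63726) (nat_lit 0) (nat_lit 152) xc114 xc115)) (XT.nd (nat_lit 187668) (nat_lit 0) (nat_lit 532) (XT.nd (nat_lit 63960) (nat_lit 0) (nat_lit 152) xc116 xc117) (XT.nd (nat_lit 64272) (nat_lit 0) (nat_lit 228) xc118 xc119))) (XT.nd (nat_lit 500526) (nat_lit 0) (nat_lit 1748) (XT.nd (nat_lit 249444) (nat_lit 0) (nat_lit 836) (XT.nd (nat_lit 124566) (nat_lit 0) (nat_lit 304) xc120 xc121) (XT.nd (nat_lit 125268) (nat_lit 0) (nat_lit 304) xc122 xc123)) (XT.nd (nat_lit 374790) (nat_lit 0) (nat_lit 1444) (XT.nd (nat_lit 186966) (nat_lit 0) (nat_lit 456) xc124 xc125) (XT.nd (nat_lit 249990) (nat_lit 0) (nat_lit 1216) xc126 xc127))))))) XT.nil))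

set_option maxRecDepth 10000000 in
noncomputable def Te : XT := XT.nil

set_option maxRecDepth 10000000 in
noncomputable def Tz : ZL := (ZL.cons (nat_lit 76) (nat_lit 3) (nat_lit 234407029942320883888) (ZL.cons (nat_lit 152) (nat_lit 6) (nat_lit 451557958502877381006) (ZL.cons (nat_lit 228) (nat_lit 6) (nat_lit 435591395978196651420) (ZL.cons (nat_lit 304) (nat_lit 3) (nat_lit 217153864583419285295) (ZL.cons (nat_lit 380) (nat_lit 6) (nat_lit 418347508451541463466) (ZL.cons (nat_lit 456) (nat_lit 6) (nat_lit 403582717271265780480) (ZL.cons (nat_lit 532) (nat_lit 3) (nat_lit 201197068445189334301) (ZL.cons (nat_lit 608) (nat_lit 6) (nat_lit 387636742796568042856) (ZL.cons (nat_lit 684) (nat_lit 6) (nat_lit 373987874945849967708) (ZL.cons (nat_lit 760) (nat_lit 3) (nat_lit 186443668778069839465) (ZL.cons (nat_lit 836) (nat_lit 6) (nat_lit 359247097667074446546) (ZL.cons (nat_lit 912) (nat_lit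 6) (nat_lit 346635192078177885070) (ZL.cons (nat_lit 988) (nat_lit 3) (nat_lit 172808087988297142175) (ZL.cons (nat_lit 1064) (nat_lit 6) (nat_lit 333014334042169598676) (ZL.cons (nat_lit 1140) (nat_lit 6) (nat_lit 321366894281966761752) (ZL.cons (nat_lit 1216) (nat_lit 3) (nat_lit 160211680427287269433) (ZL.cons (nat_lit 1292) (nat_lit 6) (nat_lit 308787659340947697878) (ZL.cons (nat_lit 1368) (nat_lit 6) (nat_lit 298038277196023138880) (ZL.cons (nat_lit 1444) (nat_lit 3) (nat_lit 148582317566811466250) (ZL.cons (nat_lit 1520) (nat_lit 6) (nat_lit 286428944479504615158) (ZL.cons (nat_lit 1596) (nat_lit 6) (nat_lit 276516968471012785456) (ZL.cons (nat_lit 1672) (nat_lit 3) (nat_lit 137854020317728519404) (ZL.cons (nat_lit 1748) (nat_lit 6) (nat_lit 265812034381841609378) (ZL.cons (nat_lit 1824) (nat_lit 6) (nat_lit 256682282718636902094) (ZL.cons (nat_lit 1900) (nat_lit 3) (nat_lit 127966637731746346119)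 (ZL.cons (nat_lit 1976) (nat_lit 6) (nat_lit 246822150922375818230) (ZL.cons (nat_lit 2052) (nat_lit 6) (nat_lit 238424668909358442916) (ZL.cons (nat_lit 2128) (nat_lit 3) (nat_lit 118865571836556902079) (ZL.cons (nat_lit 2204) (nat_lit 6) (nat_lit 229355388335299677578) (ZL.cons (nat_lit 2280) (nat_lit 6) (nat_lit 221645250803227873292) (ZL.cons (nat_lit 2356) (nat_lit 3) (nat_lit 110501548903352529814) (ZL.cons (nat_lit 2432) (nat_lit 6) (nat_lit 213318302268590324664) (ZL.cons (nat_lit 2508) (nat_lit 6) (nat_lit 206255462191840718698) (ZL.cons (nat_lit 2584) (nat_lit 3) (nat_lit 102830438041974612283) (ZL.cons (nat_lit 2660) (nat_lit 6) (nat_lit 198627594908951144256) (ZL.cons (nat_lit 2736) (nat_lit 6) (nat_lit 192176780040336835856) (ZL.cons (nat_lit 2812) (nat_lit 3) (nat_lit 95813118673922355828) (ZL.cons (nat_lit 2888) (nat_lit 6) (nat_lit 185209899982233382782) (ZL.cons (nat_lit 2964)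 (nat_lit 6) (nat_lit 179340560072172794198) (ZL.cons (nat_lit 3040) (nat_lit 3) (nat_lit 89415399159932635897) (ZL.cons (nat_lit 3116) (nat_lit 6) (nat_lit 173001672969307358530) (ZL.cons (nat_lit 3192) (nat_lit 6) (nat_lit 167687980965519299798) (ZL.cons (nat_lit 3268) (nat_lit 3) (nat_lit 83607989671506167304) (ZL.cons (nat_lit 3344) (nat_lit 6) (nat_lit 162858233763293462662) (ZL.cons (nat_lit 3420) (nat_lit 6) (nat_lit 161949193601428196370) (ZL.cons (nat_lit 3496) (nat_lit 6) (nat_lit 157170105162382593364) (ZL.cons (nat_lit 3572) (nat_lit 3) (nat_lit 78366533311512146131) (ZL.cons (nat_lit 3648) (nat_lit 6) (nat_lit 152850393501792292390) (ZL.cons (nat_lit 3724) (nat_lit 6) (nat_lit 152008689648213342118) (ZL.cons (nat_lit 3800) (nat_lit 6) (nat_lit 147748066368996466234) (ZL.cons (nat_lit 3876) (nat_lit 3) (nat_lit 73671700527387908532) (ZL.cons (nat_lit 3952) (nat_lit 6) (nat_lit 143925948647422749786)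 (ZL.cons (nat_lit 4028) (nat_lit 6) (nat_lit 143146593227442240276) (ZL.cons (nat_lit 4104) (nat_lit 6) (nat_lit 140519686896993978162) (ZL.cons (nat_lit 4180) (nat_lit 6) (nat_lit 139393396193902486856) (ZL.cons (nat_lit 4256) (nat_lit 3) (nat_lit 69509353044071313258) (ZL.cons (nat_lit 4332) (nat_lit 6) (nat_lit 136061568786550395298) (ZL.cons (nat_lit 4408) (nat_lit 6) (nat_lit 135339943397679553162) (ZL.cons (nat_lit 4484) (nat_lit 6) (nat_lit 133131366842972027286) (ZL.cons (nat_lit 4560) (nat_lit 6) (nat_lit 132088505080850276076) (ZL.cons (nat_lit 4636) (nat_lit 3) (nat_lit 65870784898869647140) (ZL.cons (nat_lit 4712) (nat_lit 6) (nat_lit 130585426203501733230) (ZL.cons (nat_lit 4788) (nat_lit 6) (nat_lit 129245123355036547696) (ZL.cons (nat_lit 4864) (nat_lit 6) (nat_lit 128576951698674656826) (ZL.cons (nat_lit 4940) (nat_lit 6) (nat_lit 126792948550752064442) (ZL.cons (nat_lit 5016)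 (nat_lit 6) (nat_lit 125827335808046739248) (ZL.cons (nat_lit 5092) (nat_lit 3) (nat_lit 62753049717397915087) (ZL.cons (nat_lit 5168) (nat_lit 6) (nat_lit 124717449261749214560) (ZL.cons (nat_lit 5244) (nat_lit 6) (nat_lit 123476428105762931658) (ZL.cons (nat_lit 5320) (nat_lit 6) (nat_lit 122857750646168588260) (ZL.cons (nat_lit 5396) (nat_lit 6) (nat_lit 123006326232982055240) (ZL.cons (nat_lit 5472) (nat_lit 6) (nat_lit 121510297286920811494) (ZL.cons (nat_lit 5548) (nat_lit 6) (nat_lit 120616211414045510388) (ZL.cons (nat_lit 5624) (nat_lit 3) (nat_lit 60159385163851038032) (ZL.cons (nat_lit 5700) (nat_lit 6) (nat_lit 119968263065199922384) (ZL.cons (nat_lit 5776) (nat_lit 6) (nat_lit 120638748180787984178) (ZL.cons (nat_lit 5852) (nat_lit 6) (nat_lit 121649439476131966276) (ZL.cons (nat_lit 5928) (nat_lit 6) (nat_lit 119917292205927240270) (ZL.cons (nat_lit 6004) (nat_lit 6) (nat_lit 118768198542976978320)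 (ZL.cons (nat_lit 6080) (nat_lit 6) (nat_lit 118195349043352586288) (ZL.cons (nat_lit 6156) (nat_lit 3) (nat_lit 58559904887605864442) (ZL.cons (nat_lit 6232) (nat_lit 6) (nat_lit 117293363792249457920) (ZL.cons (nat_lit 6308) (nat_lit 6) (nat_lit 117815054311611757506) (ZL.cons (nat_lit 6384) (nat_lit 6) (nat_lit 118687972832672626450) (ZL.cons (nat_lit 6460) (nat_lit 6) (nat_lit 117302760845578882240) (ZL.cons (nat_lit 6536) (nat_lit 6) (nat_lit 116474903555879529364) (ZL.cons (nat_lit 6612) (nat_lit 3) (nat_lit 58099747571299285828) (ZL.cons (nat_lit 6688) (nat_lit 6) (nat_lit 115126097966333798438) (ZL.cons (nat_lit 6764) (nat_lit 6) (nat_lit 115487090321772274838) (ZL.cons (nat_lit 6840) (nat_lit 6) (nat_lit 116211214246607381574) (ZL.cons (nat_lit 6916) (nat_lit 6) (nat_lit 115147238632764546438) (ZL.cons (nat_lit 6992) (nat_lit 6) (nat_lit 114616822429408627886) (ZL.cons (nat_lit 7068)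 (nat_lit 3) (nat_lit 56726811265353388533) (ZL.cons (nat_lit 7144) (nat_lit 6) (nat_lit 113641060869107524430) (ZL.cons (nat_lit 7220) (nat_lit 6) (nat_lit 114204486630018807980) (ZL.cons (nat_lit 7296) (nat_lit 6) (nat_lit 113437952102519407168) (ZL.cons (nat_lit 7372) (nat_lit 3) (nat_lit 56591472156222223162) (ZL.cons (nat_lit 7448) (nat_lit 6) (nat_lit 112266026519823937382) (ZL.cons (nat_lit 7524) (nat_lit 6) (nat_lit 112655898263697491896) (ZL.cons (nat_lit 7600) (nat_lit 6) (nat_lit 112164772149479048792) (ZL.cons (nat_lit 7676) (nat_lit 3) (nat_lit 55676919461111027703) (ZL.cons (nat_lit 7752) (nat_lit 6) (nat_lit 111556272327694862556) (ZL.cons (nat_lit 7828) (nat_lit 3) (nat_lit 55660077001775690148) (ZL.cons (nat_lit 7904) (nat_lit 6) (nat_lit 110899092520167941424) (ZL.cons (nat_lit 7980) (nat_lit 1) (nat_lit 18446744073709551617) ZL.nil)))))))))))))))))))))))))))))))))))))))))))))))))))))))))))))))))))))))))))))))))))))))))))))))))))))))))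

noncomputable def vl : XL := ⟨(nat_lit 0), (nat_lit 76), (nat_lit 106765687), (nat_lit 152), (nat_lit 74248033), (nat_lit 152), (nat_lit 74248033), (nat_lit 1), (nat_lit 4), (nat_lit 2), (nat_lit 5), (nat_lit 2), (nat_lit 4), (nat_lit 0), (nat_lit 0), (nat_lit 0)⟩

noncomputable def cp0 : Nat := (nat_lit 10337311422551863866239842473526643146887004913753494275774119612944930018959021083123263593642116398415060845305376347726134570841890373927506971458094728947302435259287008034096681284959761631370276967002705613720438514049611247621722743764310972404312692749014562417431371400240190103179420405137396753232471291388780930987940463263991704337771757147556001888460359364129723154893694674464536619382075224522420623144656604972028624619710525339872747932796270936093872262043371247726535145006606678878836796166790452716194871487915737336541068103557064251808204462816910147811059589486151933983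6580596058193308184383366634397781061277465091846629008340604679146843748011813259119217523979036750151222308240725570721608866012073434299538496295427285659929953829012029744748980142417293031331466983689196050855072713084409154177962274797370461408397529454996328322353695791554644515969975932622629665178949141018341509004571648501511220955302315930826155012604219191121693330256838853942009634454993683918440896526427651651549817508971415981089408728669052294535946706060717301132708216272943886300825357164244636128728916655386649559471648564046510593901154749399950805325497077617128857020306426542049778580321213236456022933266999473150892933924525252782767064762749526927912664632014953576735986362892483171088673370973449176879149326579932558804078106856286463597368222177261051580444843921226898127165655245459642750396763590995259297110115059386907521591439796291933906114585031497990987309211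5141869225805195309274467497785751321120346224415402818655352969474122266462354449300005905785817471411118546384505338889698374486837828215687138769015234075978823454885288648392236108605432608130603932638302194728994190604764715715849334066116887812815006033435125983543801572330776157882431230343637739747214401825132320146228174714201682251247613810064244333041428968603258858202044944633734415446542342953038200635253137308281848825611094952033309517146124047274928683970407262143719435707221058536866351051476547107195161931781820330363623781210056576780042856361456556301836615429886661015434844817915771760867054404997616594292898589262284830543837034110460027534789851146279808331078026906995548904674711570002641318072723512040659983507620789942303616395791378317087883537048505861072400637874132571090614712060491919628416974435725120287312161657496776194930148851941184536116252968790628124332624035994191003648)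

noncomputable def cp1 : Nat := (nat_lit 3781074238798246921141055356019645721981005282102974610989724501569181909038536545923755766345136179506844731571914214305676032954644596867441473329660449896901724154279105069995863982442236708032211772146745029405141184652437308746078326754716258070966667416141290368200295171836481738505531969501163414981737464293605892437704609396879096215206765266666058717778455908860130219501983087021669206520289870810743228533609351275072391063930623640698477781003934178152447546310910898159915572041546580493733197389985728467046407107013425476650601470019879679993134834548926787077669960384371555271978746695689947367414949645816350347902555628630989357483544094335375033916299789464316551082847868045316743292026001110014693221284751105983992412044048914781451813593407281626185830060755108749567376727325926455390128270440880574945841066515042308234345167125973214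6640504507770587680634388795227335842529473218864050298623674677621105455028896814535715212402830942253848621382728930352853081475943181762842518966337112482564443654939758444833317907159338773435605333448092022716963532824975392074565012785674259333019715129577996763970607546803331584444442819311147695045763800654354126555357702057158445287392095404811374890332215322135181337102775073878499991199333393682723927980231071364766075428669625780780119470800292736094124903043198871271375142188628538262846560728042330824407731589832154264021713434573307175666360344411852587109854142108874496293840009372829304275593283044719603414330297917632598749390957796872393210776213573160950442617059095476101417499963736287545160825008131186687864139674198365304255478594293191702226993844056192902030287601375692096756583502319608375566136637789799347830958218219229951576230374489496048472390016635414336154964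2077770700703223197420901735424532869153179964718711889320632261946974195406614938805296505092163637567386882379406277990905270977174326594466843663099256000518924891165841078787858453795655678107450998621556854190891226730521304000929611416754656587498197217101369883954388642290048264176379230080478977081339544297219928860909662569895974819925546891106090060649767196594095368400692443162601771453509624987077421378684922008127895488770147748766650128208894305866431126232787649449316157172039673147568911783743512217166205951079968596695485920939377037824012344787236156576973703049042795053488473432219454199306007000876052252993287765503593756819576208481930949276816688139007090656436756097473428837335645427345055338866501850436909427740823384328931108663888578079184437022240560476111237908157539464642580875715905700593643572084340717811901320254847134678537754942524621796895369474446348791669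1041043337763846445031950402300237924803021879239996339524989588377362538994019654215678730003378261870920260132890072523723493119164990738486956911747223204594518330191634830085863925227724362649174388712302520684925114857308349324579342079706860372448397242822803407281120936262386261001739828342408524255204038655713088092867720876324830639833561557902678255360864623985490358878243519331322325195634023131301199901059544853166791569195814282900378587796076463174069896058675559578869609821930782657020788736974437553299256135687828572334161408424716200157005433525774527724901008418403071823278433110394414495886866478553210368253240960332790967696570992962800502605714855790982142755138979068614001330830591802204499507205862209530206378428369210492764893370479702981292790420786079368094769652009465540117710012234901927271055800256493929933595380078342975877471482701775603267186454636091665963026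38463093846696808962180861160042318123083282185286465391072732211932838115215855129932954530937669739601882278461368086506872093559299630172681671852424587473801829420027041026759039293882074584161418307658069223174655136158086724093193754857482968023686857156031745027948847281957707055825467131442176384268312190521640331248876172998977187133312742900469904383735909311835500007470486799042495546723260729427740636353085829320817811031619018217333180834144597349021552672830390135899848298658020863355835947406386864141470745884903506232091344155498707532689600952619138689341571639255304254335562591023092250309087259343311789858345019588290716105871569066480022956777049926196598285983038460951596892931284423643045493213963721101583340875166073944944505022376329887914985019958414954423859494816794481052173541066834344705648803379722336230870771973719920463201111619434179498075360894159804556036877084979704781618157170697468716418922541060473864901179128777740492078993836211978828983577724150436228816303035174819122325451692754088613103427456235386537689348153678692496329314939422208906010966657930997711764749028539207203287978065871842053681164380273185087528907046912)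

noncomputable def rc0 : Nat := (nat_lit 3781074238798246921141055356019645721981005282102974610989724501569181909038536545923755766345136179506844731571914214305676032954644596867441473329660449896901724154279105069995863982442236708032211772146745029405141184652437308746078326754716258070966667416141290368200295171836481738505531969501163414981737464293605892437704609396879096215206765266666058717778455908860130219501983087021669206520289870810743228533609351275072391063930623640698477781003934178152447546310910898159915572041546580493733197389985728467046407107013425476650601470019879679993134834548926787077669960384371555271978746695689947367414949645816350347902555628630989357483544094335375033916299789464316551082847868045316743292026001110014693221284751105983992412044048914781451813593407281626185830060755108749567376727325926455390128270440880574945841066515042308234345167125973214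6640504507770587680634388795227335842529473218864050298623674677621105455028896814535715212402830942253848621382728930352853081475943181762842518966337112482564443654939758444833317907159338773435605333448092022716963532824975392074565012785674259333019715129577996763970607546803331584444442819311147695045763800654354126555357702057158445287392095404811374890332215322135181337102775073878499991199333393682723927980231071364766075428669625780780119470800292736094124903043198871271375142188628538262846560728042330824407731589832154264021713434573307175666360344411852587109854142108874496293840009372829304275593283044719603414330297917632598749390957796872393210776213573160950442617059095476101417499963736287545160825008131186687864139674198365304255478594293191702226993844056192902030287601375692096756583502319608375566136637789799347830958218219229951576230374489496048472390016635414336154964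2077770700703223197420901735424532869153179964718711889320632261946974195406614938805296505092163637567386882379406277990905270977174326594466843663099256000518924891165841078787858453795655678107450998621556854190891226730521304000929611416754656587498197217101369883954388642290048264176379230080478977081339544297219928860909662569895974819925546891106090060649767196594095368400692443162601771453509624987077421378684922008127895488770147748766650128208894305866431126232787649449316157172039673147568911783743512217166205951079968596695485920939377037824012344787236156576973703049042795053488473432219454199306007000876052252993287765503593756819576208481930949276816688139007090656436756097473428837335645427345055338866501850436909427740823384328931108663888578079184437022240560476111237908157539464642580875715905700593643572084340717811901320254847134678537754942524621796895369474446348791669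1041043337763846445031950402300237924803021879239996339524989588377362538994019654215678730003378261870920260132890072523723493119164990738486956911747223204594518330191634830085863925227724362649174388712302520684925114857308349324579342079706860372448397242822803407281120936262386261001739828342408524255204038655713088092867720876324830639833561557902678255360864623985490358878243519331322325195634023131301199901059544853166791569195814282900378587796076463174069896058675559578869609821930782657020788736974437553299256135687828572334161408424716200157005433525774527724901008418403071823278433110394414495886866478553210368253240960332790967696570992962800502605714855790982142755138979068614001330830591802204499507205862209530206378428369210492764893370479702981292790420786079368094769652009465540117710012234901927271055800256493929933595380078342975877471482701775603267186454636091665963026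38463093846696808962180861160042318123083282185286465391072732211932838115215855129932954530937669739601882278461368086506872093559299630172681671852424587473801829420027041026759039293882074584161418307658069223174655136158086724093193754857482968023686857156031745027948847281957707055825467131442176384268312190521640331248876172998977187133312742900469904383735909311835500007470486799042495546723260729427740636353085829320817811031619018217333180834144597349021552672830390135899848298658020863355835947406386864141470745884903506232091344155498707532689600952619138689341571639255304254335562591023092250309087259343311789858345019588290716105871569066480022956777049926196598285983038460951596892931284423643045493213963721101583340875166073944944505022376329887914985019958414954423859494816794481052173541066834344705648803379722336230870771973719920463201111619434179498075360894159804556036877084979704781618157170697468716418922541060473864901179128777740492078993836211978828983577724150436228816303035174819122325451692754088613103427456235386537689348153678692496329314939422208906010966657930997711764749028539207203287978065871842053681164380273185087528907046912)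

end Vale.Agent.Lib.P154.PChain.BC.S3
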